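import Mathlib
import Crest.Agent.R266.SCV

-- ▼ part R165/GeoP1_67
section

/-!
R165, GEO-6 (helper67), part 1: the homology form of Cauchy's theorem (Dixon's proof), for abstract
"closed currents": functionals `L` on functions on a compact set `K`, linear, bounded, compatible with holomorphic
parameters, killing functions with a primitive. If `K ⊆ U`, `U` open bounded with (pre)connected complement, then
`L g = 0` for all holomorphic `g` on `U`.
-/

set_option autoImplicit false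

open Set Filter Topology Metric Complex MeasureTheory

namespace Crest.Agent.R165.GeoPx67

noncomputable section

/-- Abstract currents carried by `K`. -/
structure Cur (K : Set ℂ) (L : (ℂ → ℂ) → ℂ) : Prop where
  congr : ∀ f g : ℂ → ℂ, (∀ w ∈ K, f w = g w) → L f = L g
  add : ∀ f g : ℂ → ℂ, ContinuousOn f K → ContinuousOn g K →
    L (fun w => f w + g w) = L f + L g
  smul : ∀ (c : ℂ) (f : ℂ → ℂ), L (fun w => c * f w) = c * L f
  param : ∀ (U : Set ℂ) (f : ℂ × ℂ → ℂ), IsOpen U → ContinuousOn f (U ×ˢ K) →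
    (∀ w ∈ K, DifferentiableOn ℂ (fun z => f (z, w)) U) →
    DifferentiableOn ℂ (fun z => L (fun w => f (z, w))) U
  bound : ∃ C : ℝ, 0 ≤ C ∧ ∀ (f : ℂ → ℂ) (B : ℝ), 0 ≤ B → (∀ w ∈ K, ‖f w‖ ≤ B) →
    ‖L f‖ ≤ C * B

theorem Cur.mono {K K' : Set ℂ} {L : (ℂ → ℂ) → ℂ} (h : Cur K L) (hK : K ⊆ K') : Cur K' L where
  congr f g hfg := h.congr f g (fun w hw => hfg w (hK hw))
  add f g hf hg := h.add f g (hf.mono hK) (hg.mono hK)
  smul := h.smul
  param U f hU hf hd := h.param U f hU (hf.mono (prod_mono le_rfl hK)) (fun w hw => hd w (hK hw))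
  bound := by
    obtain ⟨C, hC, hb⟩ := h.bound
    exact ⟨C, hC, fun f B hB hf => hb f B hB (fun w hw => hf w (hK hw))⟩

theorem Cur.zero (K : Set ℂ) : Cur K (fun _ => 0) where
  congr _ _ _ := rfl
  add _ _ _ _ := by simp
  smul _ _ := by simp
  param U f hU _ _ := differentiableOn_const 0
  bound := ⟨0, le_rfl, fun f B hB _ => by simp⟩

theorem Cur.sum {K : Set ℂ} {L L' : (ℂ → ℂ) → ℂ} (h : Cur K L) (h' : Cur K L') :
    Cur K (fun f => L f + L' f) where
  congr f g hfg := by
    rw [h.congr f g hfg, h'.congr f g hfg]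
  add f g hf hg := by
    rw [h.add f g hf hg, h'.add f g hf hg]; ring
  smul c f := by
    rw [h.smul, h'.smul]; ring
  param U f hU hf hd := (h.param U f hU hf hd).add (h'.param U f hU hf hd)
  bound := by
    obtain ⟨C, hC, hb⟩ := h.bound
    obtain ⟨C', hC', hb'⟩ := h'.bound
    refine ⟨C + C', by positivity, fun f B hB hf => ?_⟩
    calc ‖L f + L' f‖ ≤ ‖L f‖ + ‖L' f‖ := norm_add_le _ _
      _ ≤ C * B + C' * B := add_le_add (hb f B hB hf) (hb' f B hB hf)
      _ = (C + C') * B := by ring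

theorem Cur.neg {K : Set ℂ} {L : (ℂ → ℂ) → ℂ} (h : Cur K L) : Cur K (fun f => - L f) where
  congr f g hfg := by
    rw [h.congr f g hfg]
  add f g hf hg := by
    rw [h.add f g hf hg]; ring
  smul c f := by
    rw [h.smul]; ring
  param U f hU hf hd := (h.param U f hU hf hd).neg
  bound := by
    obtain ⟨C, hC, hb⟩ := h.bound
    exact ⟨C, hC, fun f B hB hf => by rw [norm_neg]; exact hb f B hB hf⟩

theorem Cur.sub {K : Set ℂ} {L L' : (ℂ → ℂ) → ℂ} (h : Cur K L) (h' : Cur K L') :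
    Cur K (fun f => L f - L' f) := by
  simpa [sub_eq_add_neg] using h.sum h'.neg

/-! ### joint continuity of the difference quotient -/

theorem dslope_symm (g : ℂ → ℂ) (z w : ℂ) : dslope g z w = dslope g w z := by
  rcases eq_or_ne z w with rfl | h
  · rfl
  · rw [dslope_of_ne g h.symm, dslope_of_ne g h, slope_comm]

theorem continuousAt_dslope_prod {U : Set ℂ} (hU : IsOpen U) {g : ℂ → ℂ}
    (hg : DifferentiableOn ℂ g U) {z w : ℂ} (hz : z ∈ U) (hw : w ∈ U) :
    ContinuousAt (fun q : ℂ × ℂ => dslope g q.1 q.2) (z, w) := by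
  rcases eq_or_ne z w with rfl | hne
  · have han : AnalyticAt ℂ g z := hg.analyticAt (hU.mem_nhds hz)
    have hst : HasStrictDerivAt g (deriv g z) z := han.hasStrictDerivAt
    have hdc : ContinuousAt (deriv g) z := han.deriv.continuousAt
    rw [Metric.continuousAt_iff']
    intro ε hε
    have h1 : ∀ᶠ q : ℂ × ℂ in 𝓝 (z, z),
        ‖g q.1 - g q.2 - (deriv g z) * (q.1 - q.2)‖ ≤ (ε/2) * ‖q.1 - q.2‖ := by
      have := hst.hasStrictFDerivAt.isLittleO.def (half_pos hε)
      filter_upwards [this] with q hq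
      simpa [smul_eq_mul, mul_comm] using hq
    have h2 : ∀ᶠ q : ℂ × ℂ in 𝓝 (z, z), dist (deriv g q.1) (deriv g z) < ε := by
      have hc : ContinuousAt (fun q : ℂ × ℂ => deriv g q.1) (z, z) :=
        ContinuousAt.comp (f := Prod.fst) (g := deriv g) (x := (z, z)) hdc continuousAt_fst
      exact (Metric.continuousAt_iff'.1 hc) ε hε
    filter_upwards [h1, h2] with q hq1 hq2
    simp only [dslope_same]
    rcases eq_or_ne q.1 q.2 with he | he
    · rw [← he, dslope_same]; exact hq2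
    · rw [dslope_of_ne g he.symm, slope_def_field, dist_eq_norm]
      have hne : q.1 - q.2 ≠ 0 := sub_ne_zero.2 he
      have hne' : q.2 - q.1 ≠ 0 := sub_ne_zero.2 he.symm
      have hpos : 0 < ‖q.1 - q.2‖ := norm_pos_iff.2 hne
      have : (g q.2 - g q.1) / (q.2 - q.1) - deriv g z =
          (g q.1 - g q.2 - (deriv g z) * (q.1 - q.2)) / (q.1 - q.2) := by
        field_simp
        ring
      rw [this, norm_div, div_lt_iff₀ hpos]
      nlinarith
  · have hev : (fun q : ℂ × ℂ => dslope g q.1 q.2) =ᶠ[𝓝 (z, w)]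
        (fun q : ℂ × ℂ => (g q.2 - g q.1) / (q.2 - q.1)) := by
      have ho : IsOpen {q : ℂ × ℂ | q.1 ≠ q.2} := isOpen_ne_fun continuous_fst continuous_snd
      filter_upwards [ho.mem_nhds (show (z, w) ∈ {q : ℂ × ℂ | q.1 ≠ q.2} from hne)] with q hq
      rw [dslope_of_ne g (Ne.symm hq), slope_def_field]
    refine ContinuousAt.congr ?_ hev.symm
    have hgz : ContinuousAt g z := (hg.differentiableAt (hU.mem_nhds hz)).continuousAt
    have hgw : ContinuousAt g w := (hg.differentiableAt (hU.mem_nhds hw)).continuousAt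
    have h1 : ContinuousAt (fun q : ℂ × ℂ => g q.1) (z, w) :=
      ContinuousAt.comp (f := Prod.fst) (g := g) (x := (z, w)) hgz continuousAt_fst
    have h2 : ContinuousAt (fun q : ℂ × ℂ => g q.2) (z, w) :=
      ContinuousAt.comp (f := Prod.snd) (g := g) (x := (z, w)) hgw continuousAt_snd
    refine ContinuousAt.div (h2.sub h1) (continuousAt_snd.sub continuousAt_fst) ?_
    exact sub_ne_zero.2 hne.symm

theorem differentiableOn_dslope_left {U : Set ℂ} (hU : IsOpen U) {g : ℂ → ℂ}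
    (hg : DifferentiableOn ℂ g U) {w : ℂ} (hw : w ∈ U) :
    DifferentiableOn ℂ (fun z => dslope g z w) U := by
  have h := (Complex.differentiableOn_dslope (hU.mem_nhds hw)).2 hg
  exact h.congr (fun z _ => dslope_symm g z w)

/-! ### primitives of Cauchy kernels -/

theorem hasDerivAt_log_ratio {z z₀ w : ℂ} (h : ‖z - z₀‖ < ‖w - z₀‖) :
    HasDerivAt (fun w => Complex.log ((w - z) / (w - z₀))) ((w - z)⁻¹ - (w - z₀)⁻¹) w := by
  have hw0 : w - z₀ ≠ 0 := by
    intro h0; rw [h0, norm_zero] at h; exact absurd h (not_lt.2 (norm_nonneg _))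
  have hwz : w - z ≠ 0 := by
    intro h0
    have : w = z := sub_eq_zero.1 h0
    rw [this] at h; exact lt_irrefl _ h
  have hsl : (w - z) / (w - z₀) ∈ slitPlane := by
    left
    have h1 : (w - z) / (w - z₀) = 1 - (z - z₀) / (w - z₀) := by
      field_simp; ring
    have h2 : ‖(z - z₀) / (w - z₀)‖ < 1 := by
      rw [norm_div, div_lt_one (norm_pos_iff.2 hw0)]; exact h
    rw [h1, sub_re, one_re]
    have h3 := Complex.re_le_norm ((z - z₀) / (w - z₀))
    linarith
  have hd : HasDerivAt (fun w => (w - z) / (w - z₀))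
      ((1 * (w - z₀) - (w - z) * 1) / (w - z₀)^2) w :=
    ((hasDerivAt_id w).sub_const z).div ((hasDerivAt_id w).sub_const z₀) hw0
  have := (Complex.hasDerivAt_log hsl).comp w hd
  refine this.congr_deriv ?_
  field_simp

theorem hasDerivAt_log_far {z w : ℂ} (h : ‖w‖ < ‖z‖) :
    HasDerivAt (fun w => Complex.log (1 - w / z)) ((w - z)⁻¹) w := by
  have hz : z ≠ 0 := by
    intro h0; rw [h0, norm_zero] at h; exact absurd h (not_lt.2 (norm_nonneg _))
  have hwz : w - z ≠ 0 := by
    intro h0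
    have : w = z := sub_eq_zero.1 h0
    rw [this] at h; exact lt_irrefl _ h
  have hsl : 1 - w / z ∈ slitPlane := by
    left
    have h2 : ‖w / z‖ < 1 := by
      rw [norm_div, div_lt_one (norm_pos_iff.2 hz)]; exact h
    rw [sub_re, one_re]
    have h3 := Complex.re_le_norm (w / z)
    linarith
  have hd : HasDerivAt (fun w => 1 - w / z) (0 - 1 / z) w :=
    (hasDerivAt_const w (1:ℂ)).sub ((hasDerivAt_id w).div_const z)
  have := (Complex.hasDerivAt_log hsl).comp w hd
  refine this.congr_deriv ?_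
  have h4 : 1 - w / z ≠ 0 := slitPlane_ne_zero hsl
  have h5 : z - w ≠ 0 := by
    intro h0; apply hwz; linear_combination -h0
  have h6 : (1 - w / z)⁻¹ = z / (z - w) := by
    rw [show 1 - w / z = (z - w) / z by field_simp, inv_div]
  rw [h6, show w - z = -(z - w) by ring, inv_neg]
  field_simp
  ring

/-! ### Dixon's theorem -/

theorem dixon {U K : Set ℂ} {L : (ℂ → ℂ) → ℂ} (hU : IsOpen U) (hKc : IsCompact K) (hKU : K ⊆ U)
    (hUc : IsPreconnected Uᶜ) (hUb : Bornology.IsBounded U) (hL : Cur K L)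
    (hcl : ∀ f F : ℂ → ℂ, ContinuousOn f K → (∀ w ∈ K, HasDerivAt F (f w) w) → L f = 0)
    {g : ℂ → ℂ} (hg : DifferentiableOn ℂ g U) : L g = 0 := by
  -- radius
  obtain ⟨R, hR⟩ := hUb.subset_ball (0:ℂ)
  have hKR : ∀ w ∈ K, ‖w‖ < R := fun w hw => by simpa using hR (hKU hw)
  set φ : ℂ → ℂ := fun z => L (fun w => (w - z)⁻¹) with hφ
  have hcontinv : ∀ z ∉ K, ContinuousOn (fun w => (w - z)⁻¹) K := by
    intro z hz
    refine ContinuousOn.inv₀ (by fun_prop) ?_
    intro w hw h0
    exact hz (by rwa [← sub_eq_zero.1 h0])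
  -- local constancy
  have hloc : ∀ z₀ ∉ K, ∀ᶠ z in 𝓝 z₀, z ∉ K ∧ φ z = φ z₀ := by
    intro z₀ hz₀
    obtain ⟨δ, hδ, hδK⟩ := Metric.isOpen_iff.1 hKc.isClosed.isOpen_compl z₀ hz₀
    filter_upwards [Metric.ball_mem_nhds z₀ hδ] with z hz
    have hzK : z ∉ K := hδK hz
    refine ⟨hzK, ?_⟩
    have hlt : ∀ w ∈ K, ‖z - z₀‖ < ‖w - z₀‖ := by
      intro w hw
      have h1 : δ ≤ ‖w - z₀‖ := by
        by_contra hcon
        push Not at hcon
        exact hδK (show w ∈ ball z₀ δ by rwa [mem_ball, dist_eq_norm]) hw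
      rw [mem_ball, dist_eq_norm] at hz
      linarith
    have h0 := hcl (fun w => (w - z)⁻¹ - (w - z₀)⁻¹) (fun w => Complex.log ((w - z) / (w - z₀)))
      ((hcontinv z hzK).sub (hcontinv z₀ hz₀)) (fun w hw => hasDerivAt_log_ratio (hlt w hw))
    have h1 : L (fun w => (w - z)⁻¹ - (w - z₀)⁻¹) = φ z - φ z₀ := by
      have e1 := hL.add (fun w => (w - z)⁻¹) (fun w => (-1:ℂ) * (w - z₀)⁻¹) (hcontinv z hzK)
        ((hcontinv z₀ hz₀).const_smul (-1:ℂ))
      have e2 := hL.smul (-1) (fun w => (w - z₀)⁻¹)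
      rw [e2] at e1
      have e3 : (fun w : ℂ => (w - z)⁻¹ + (-1:ℂ) * (w - z₀)⁻¹) =
          (fun w => (w - z)⁻¹ - (w - z₀)⁻¹) := by
        funext w; ring
      rw [e3] at e1
      rw [e1, hφ]; ring
    rw [h1] at h0
    exact sub_eq_zero.1 h0
  -- far away
  have hfar : ∀ z, R ≤ ‖z‖ → φ z = 0 := by
    intro z hz
    have hzK : z ∉ K := fun h => absurd (hKR z h) (not_lt.2 hz)
    exact hcl _ _ (hcontinv z hzK) (fun w hw => hasDerivAt_log_far (lt_of_lt_of_le (hKR w hw) hz))
  -- V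
  set V : Set ℂ := {z | z ∉ K ∧ φ z = 0} with hV
  have hVo : IsOpen V := by
    rw [isOpen_iff_mem_nhds]
    rintro z₀ ⟨hz₀, h0⟩
    filter_upwards [hloc z₀ hz₀] with z hz
    exact ⟨hz.1, hz.2.trans h0⟩
  set W : Set ℂ := {z | z ∉ K ∧ φ z ≠ 0} with hW
  have hWo : IsOpen W := by
    rw [isOpen_iff_mem_nhds]
    rintro z₀ ⟨hz₀, h0⟩
    filter_upwards [hloc z₀ hz₀] with z hz
    exact ⟨hz.1, by rw [hz.2]; exact h0⟩
  have hRfar : ((max R 0 : ℝ) : ℂ) ∉ U ∧ R ≤ ‖((max R 0 : ℝ) : ℂ)‖ := by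
    have h1 : R ≤ ‖((max R 0 : ℝ) : ℂ)‖ := by
      rw [Complex.norm_real, Real.norm_eq_abs, abs_of_nonneg (le_max_right _ _)]
      exact le_max_left _ _
    refine ⟨fun h => ?_, h1⟩
    have := hR h
    rw [mem_ball_zero_iff] at this
    linarith
  have hUcV : Uᶜ ⊆ V := by
    refine hUc.subset_left_of_subset_union hVo hWo ?_ ?_ ?_
    · rw [Set.disjoint_left]
      rintro z ⟨_, h1⟩ ⟨_, h2⟩
      exact h2 h1
    · intro z hz
      have hzK : z ∉ K := fun h => hz (hKU h)
      by_cases h : φ z = 0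
      · exact Or.inl ⟨hzK, h⟩
      · exact Or.inr ⟨hzK, h⟩
    · refine ⟨((max R 0 : ℝ) : ℂ), hRfar.1, fun h => hRfar.1 (hKU h), hfar _ hRfar.2⟩
  -- the key statement
  have key : ∀ G : ℂ → ℂ, DifferentiableOn ℂ G U → ∀ z ∉ U, L (fun w => G w * (w - z)⁻¹) = 0 := by
    classical
    intro G hG
    have hGK : ContinuousOn G K := hG.continuousOn.mono hKU
    set h₁ : ℂ → ℂ := fun z => L (fun w => dslope G z w) with hh₁
    set h₂ : ℂ → ℂ := fun z => L (fun w => G w * (w - z)⁻¹) with hh₂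
    have hd1 : DifferentiableOn ℂ h₁ U := by
      refine hL.param U (fun q => dslope G q.1 q.2) hU ?_ ?_
      · rintro ⟨z, w⟩ ⟨hz, hw⟩
        exact (continuousAt_dslope_prod hU hG hz (hKU hw)).continuousWithinAt
      · intro w hw
        exact differentiableOn_dslope_left hU hG (hKU hw)
    have hd2 : DifferentiableOn ℂ h₂ Kᶜ := by
      refine hL.param Kᶜ (fun q => G q.2 * (q.2 - q.1)⁻¹) hKc.isClosed.isOpen_compl ?_ ?_
      · refine ContinuousOn.mul (hGK.comp continuousOn_snd (fun q hq => hq.2)) ?_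
        refine ContinuousOn.inv₀ (by fun_prop) ?_
        rintro ⟨z, w⟩ ⟨hz, hw⟩ h0
        have h1 : w = z := sub_eq_zero.1 h0
        exact hz (by rw [← h1]; exact hw)
      · intro w hw
        have hne : ∀ z ∈ Kᶜ, w - z ≠ 0 := by
          intro z hz h0
          have h1 : w = z := sub_eq_zero.1 h0
          exact hz (by rw [← h1]; exact hw)
        have hid : DifferentiableOn ℂ (fun z : ℂ => w - z) Kᶜ := by fun_prop
        exact (hid.inv hne).const_mul (G w)
    have heq : ∀ z ∈ V, z ∈ U → h₁ z = h₂ z := by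
      rintro z ⟨hzK, hz0⟩ hzU
      have e1 : h₁ z = L (fun w => G w * (w - z)⁻¹ + (-G z) * (w - z)⁻¹) := by
        refine hL.congr _ _ (fun w hw => ?_)
        have hne : w ≠ z := fun h => hzK (by rw [← h]; exact hw)
        rw [dslope_of_ne G hne, slope_def_field]
        have : w - z ≠ 0 := sub_ne_zero.2 hne
        field_simp
        ring
      have e2 := hL.add (fun w => G w * (w - z)⁻¹) (fun w => (-G z) * (w - z)⁻¹)
        (hGK.mul (hcontinv z hzK)) ((hcontinv z hzK).const_smul (-G z))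
      have e3 := hL.smul (-G z) (fun w => (w - z)⁻¹)
      rw [e1, e2, e3]
      change h₂ z + -G z * φ z = h₂ z
      rw [hz0]; ring
    set h : ℂ → ℂ := fun z => if z ∈ U then h₁ z else h₂ z with hh
    have hhd : Differentiable ℂ h := by
      intro z
      by_cases hz : z ∈ U
      · have : h =ᶠ[𝓝 z] h₁ := by
          filter_upwards [hU.mem_nhds hz] with y hy
          simp [hh, hy]
        exact (hd1.differentiableAt (hU.mem_nhds hz)).congr_of_eventuallyEq this
      · have hzV : z ∈ V := hUcV hz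
        have : h =ᶠ[𝓝 z] h₂ := by
          filter_upwards [hVo.mem_nhds hzV] with y hy
          by_cases hyU : y ∈ U
          · simp only [hh, hyU, if_true]
            exact heq y hy hyU
          · simp only [hh, hyU, if_false]
        exact (hd2.differentiableAt (hKc.isClosed.isOpen_compl.mem_nhds hzV.1)).congr_of_eventuallyEq
          this
    have hlim : Tendsto h (cocompact ℂ) (𝓝 0) := by
      obtain ⟨C, hC, hCb⟩ := hL.bound
      obtain ⟨B, hB⟩ := hKc.exists_bound_of_continuousOn hGK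
      have hlim2 : Tendsto (fun z : ℂ => C * ((max B 0) * (‖z‖ - R)⁻¹)) (cocompact ℂ) (𝓝 0) := by
        have h1 : Tendsto (fun z : ℂ => ‖z‖ - R) (cocompact ℂ) atTop :=
          tendsto_atTop_add_const_right _ _ tendsto_norm_cocompact_atTop
        have h2 := (h1.inv_tendsto_atTop.const_mul (max B 0)).const_mul C
        simpa using h2
      refine squeeze_zero_norm' ?_ hlim2
      have hev : ∀ᶠ z : ℂ in cocompact ℂ, R < ‖z‖ :=
        tendsto_norm_cocompact_atTop.eventually_gt_atTop R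
      filter_upwards [hev] with z hz
      have hzU : z ∉ U := fun hz' => by
        have := hR hz'
        rw [mem_ball_zero_iff] at this
        linarith
      have : h z = h₂ z := by simp only [hh, hzU, if_false]
      rw [this]
      refine hCb _ _ ?_ ?_
      · exact mul_nonneg (le_max_right _ _) (inv_nonneg.2 (by linarith))
      · intro w hw
        rw [norm_mul, norm_inv]
        have h3 : ‖z‖ - R ≤ ‖w - z‖ := by
          have h4 : ‖z‖ - ‖w‖ ≤ ‖z - w‖ := norm_sub_norm_le z w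
          rw [norm_sub_rev] at h4
          have h5 := hKR w hw
          linarith
        have h6 : 0 < ‖z‖ - R := by linarith
        gcongr
        exact (hB w hw).trans (le_max_left _ _)
    intro z hz
    have h0 : h z = 0 := hhd.apply_eq_of_tendsto_cocompact z hlim
    have : h z = h₂ z := by simp only [hh, hz, if_false]
    rw [this] at h0
    exact h0
  -- conclusion
  obtain ⟨z₁, hz₁⟩ : ∃ z₁, z₁ ∉ U := ⟨_, hRfar.1⟩
  have hfin := key (fun w => (w - z₁) * g w)
    ((show DifferentiableOn ℂ (fun w : ℂ => w - z₁) U by fun_prop).mul hg) z₁ hz₁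
  rw [← hfin]
  refine hL.congr _ _ (fun w hw => ?_)
  have hne : w - z₁ ≠ 0 := by
    intro h0
    have : w = z₁ := sub_eq_zero.1 h0
    exact hz₁ (by rw [← this]; exact hKU hw)
  field_simp

end

end Crest.Agent.R165.GeoPx67
end

-- ▼ part R165/GeoP2_67

/-!
R165, GEO-6 (helper67), part 2: polygonal chains, their integrals and lengths; primitives, logarithms and square roots
in a bounded open connected set with connected complement.

* `Poly U a b n p`: `p 0 = a`, `p n = b`, all segments `[p i, p (i+1)]`, `i < n`, lie in `U`.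
* `polyI p n f`, `plen p n`: integral and length.
* `JL U a b ℓ`: `a` and `b` are joined inside `U` by a polygon of length `≤ ℓ`.
* `cauchy_poly`: integrals of holomorphic functions along polygons with the same ends coincide.
* `exists_primitive`, `exists_log`, `exists_sqrt`.
-/

set_option autoImplicit false

open Set Filter Topology Metric Complex MeasureTheory

namespace Crest.Agent.R165.GeoPx67

noncomputable section

/-- integral along the segment `[a, b]` -/
def segI (a b : ℂ) (f : ℂ → ℂ) : ℂ := (b - a) * ∫ t in (0:ℝ)..1, f (a + t * (b - a))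

theorem mem_segment_param (a b : ℂ) {t : ℝ} (ht : t ∈ Icc (0:ℝ) 1) :
    a + t * (b - a) ∈ segment ℝ a b := by
  rw [segment_eq_image']
  exact ⟨t, ht, by simp⟩

theorem segI_prim {a b : ℂ} {f F : ℂ → ℂ} (hf : ContinuousOn f (segment ℝ a b))
    (hF : ∀ w ∈ segment ℝ a b, HasDerivAt F (f w) w) : segI a b f = F b - F a := by
  have hcont : ContinuousOn (fun t : ℝ => f (a + t * (b - a))) (Icc 0 1) := by
    refine hf.comp (by fun_prop) (fun t ht => mem_segment_param a b ht)
  have hder : ∀ t ∈ uIcc (0:ℝ) 1,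
      HasDerivAt (fun t : ℝ => F (a + t * (b - a))) (f (a + t * (b - a)) * (b - a)) t := by
    intro t ht
    rw [uIcc_of_le zero_le_one] at ht
    have h1 : HasDerivAt (fun t : ℝ => a + (t:ℂ) * (b - a)) (1 * (b - a)) t :=
      ((Complex.ofRealCLM.hasDerivAt (x := t)).mul_const (b - a)).const_add a
    rw [one_mul] at h1
    exact (hF _ (mem_segment_param a b ht)).comp_of_eq t h1 rfl
  have h2 := intervalIntegral.integral_eq_sub_of_hasDerivAt hder (by
    apply ContinuousOn.intervalIntegrable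
    rw [uIcc_of_le zero_le_one]
    exact hcont.mul continuousOn_const)
  rw [intervalIntegral.integral_mul_const] at h2
  rw [segI, mul_comm, h2]
  simp

theorem cur_segI (a b : ℂ) : Cur (segment ℝ a b) (segI a b) where
  congr f g hfg := by
    unfold segI
    congr 1
    apply intervalIntegral.integral_congr
    intro t ht
    rw [uIcc_of_le zero_le_one] at ht
    exact hfg _ (mem_segment_param a b ht)
  add f g hf hg := by
    have hc : ∀ f : ℂ → ℂ, ContinuousOn f (segment ℝ a b) →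
        IntervalIntegrable (fun t : ℝ => f (a + t * (b - a))) volume 0 1 := by
      intro f hf
      apply ContinuousOn.intervalIntegrable
      rw [uIcc_of_le zero_le_one]
      exact hf.comp (by fun_prop) (fun t ht => mem_segment_param a b ht)
    unfold segI
    rw [intervalIntegral.integral_add (hc f hf) (hc g hg), mul_add]
  smul c f := by
    unfold segI
    rw [intervalIntegral.integral_const_mul]; ring
  param U f hU hf hd := by
    have h1 : AnalyticOnNhd ℂ (fun z => ∫ t in (0:ℝ)..1, f (z, a + t * (b - a))) U := by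
      refine Crest.Agent.R266.SCV.analyticOnNhd_intervalIntegral
        (f := fun q : ℂ × ℝ => f (q.1, a + q.2 * (b - a))) hU ?_ ?_
      · refine hf.comp (by fun_prop) ?_
        rintro ⟨z, t⟩ ⟨hz, ht⟩
        rw [uIcc_of_le zero_le_one] at ht
        exact ⟨hz, mem_segment_param a b ht⟩
      · intro t ht
        rw [uIcc_of_le zero_le_one] at ht
        exact hd _ (mem_segment_param a b ht)
    exact (h1.differentiableOn).const_mul (b - a)
  bound := by
    refine ⟨‖b - a‖, norm_nonneg _, fun f B hB hf => ?_⟩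
    unfold segI
    rw [norm_mul]
    gcongr
    have := intervalIntegral.norm_integral_le_of_norm_le_const (a := (0:ℝ)) (b := 1)
      (f := fun t : ℝ => f (a + t * (b - a))) (C := B) (by
        intro t ht
        rw [uIoc_of_le zero_le_one] at ht
        exact hf _ (mem_segment_param a b ⟨ht.1.le, ht.2⟩))
    simpa using this

/-- integral along the polygon `p 0, ..., p n` -/
def polyI (p : ℕ → ℂ) (n : ℕ) (f : ℂ → ℂ) : ℂ := ∑ i ∈ Finset.range n, segI (p i) (p (i+1)) f

/-- length of the polygon `p 0, ..., p n` -/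
def plen (p : ℕ → ℂ) (n : ℕ) : ℝ := ∑ i ∈ Finset.range n, ‖p (i+1) - p i‖

theorem plen_nonneg (p : ℕ → ℂ) (n : ℕ) : 0 ≤ plen p n :=
  Finset.sum_nonneg (fun _ _ => norm_nonneg _)

/-- the polygon `p 0 = a, ..., p n = b` lies in `U` -/
structure Poly (U : Set ℂ) (a b : ℂ) (n : ℕ) (p : ℕ → ℂ) : Prop where
  start : p 0 = a
  fin : p n = b
  sub : ∀ i < n, segment ℝ (p i) (p (i+1)) ⊆ U

theorem cur_polyI {K : Set ℂ} {p : ℕ → ℂ} {n : ℕ} (h : ∀ i < n, segment ℝ (p i) (p (i+1)) ⊆ K) :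
    Cur K (polyI p n) := by
  induction n with
  | zero =>
    have : polyI p 0 = fun _ => 0 := by funext f; simp [polyI]
    rw [this]; exact Cur.zero K
  | succ n ih =>
    have : polyI p (n+1) = fun f => polyI p n f + segI (p n) (p (n+1)) f := by
      funext f; simp [polyI, Finset.sum_range_succ]
    rw [this]
    exact (ih (fun i hi => h i (by omega))).sum ((cur_segI _ _).mono (h n (by omega)))

theorem polyI_prim {p : ℕ → ℂ} {n : ℕ} {K : Set ℂ}
    (h : ∀ i < n, segment ℝ (p i) (p (i+1)) ⊆ K) {f F : ℂ → ℂ} (hf : ContinuousOn f K)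
    (hF : ∀ w ∈ K, HasDerivAt F (f w) w) : polyI p n f = F (p n) - F (p 0) := by
  unfold polyI
  rw [Finset.sum_congr rfl (fun i hi => segI_prim (a := p i) (b := p (i+1)) (F := F)
    (hf.mono (h i (Finset.mem_range.1 hi)))
    (fun w hw => hF w (h i (Finset.mem_range.1 hi) hw)))]
  exact Finset.sum_range_sub (fun i => F (p i)) n

theorem isCompact_segment (a b : ℂ) : IsCompact (segment ℝ a b) := by
  rw [segment_eq_image']
  exact isCompact_Icc.image (by fun_prop)

theorem cauchy_poly {U : Set ℂ} (hU : IsOpen U) (hUc : IsPreconnected Uᶜ)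
    (hUb : Bornology.IsBounded U) {g : ℂ → ℂ} (hg : DifferentiableOn ℂ g U)
    {a b : ℂ} {n m : ℕ} {p q : ℕ → ℂ} (hp : Poly U a b n p) (hq : Poly U a b m q) :
    polyI p n g = polyI q m g := by
  set K : Set ℂ := (⋃ i ∈ Finset.range n, segment ℝ (p i) (p (i+1))) ∪
    (⋃ i ∈ Finset.range m, segment ℝ (q i) (q (i+1))) with hK
  have hKc : IsCompact K := by
    refine IsCompact.union ?_ ?_
    · exact (Finset.range n).isCompact_biUnion (fun i _ => isCompact_segment _ _)
    · exact (Finset.range m).isCompact_biUnion (fun i _ => isCompact_segment _ _)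
  have hKU : K ⊆ U := by
    refine union_subset ?_ ?_
    · exact iUnion₂_subset (fun i hi => hp.sub i (Finset.mem_range.1 hi))
    · exact iUnion₂_subset (fun i hi => hq.sub i (Finset.mem_range.1 hi))
  have hpK : ∀ i < n, segment ℝ (p i) (p (i+1)) ⊆ K := fun i hi =>
    subset_union_of_subset_left
      (subset_biUnion_of_mem (u := fun i => segment ℝ (p i) (p (i+1))) (Finset.mem_range.2 hi)) _
  have hqK : ∀ i < m, segment ℝ (q i) (q (i+1)) ⊆ K := fun i hi =>
    subset_union_of_subset_right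
      (subset_biUnion_of_mem (u := fun i => segment ℝ (q i) (q (i+1))) (Finset.mem_range.2 hi)) _
  have hcur : Cur K (fun f => polyI p n f - polyI q m f) := (cur_polyI hpK).sub (cur_polyI hqK)
  have := dixon hU hKc hKU hUc hUb hcur (fun f F hf hF => by
    rw [polyI_prim hpK hf hF, polyI_prim hqK hf hF, hp.start, hp.fin, hq.start, hq.fin]
    ring) hg
  exact sub_eq_zero.1 this

/-! ### operations on polygons -/

theorem Poly.nil (U : Set ℂ) (a : ℂ) : Poly U a a 0 (fun _ => a) :=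
  ⟨rfl, rfl, fun i hi => absurd hi (Nat.not_lt_zero i)⟩

theorem Poly.snoc {U : Set ℂ} {a b c : ℂ} {n : ℕ} {p : ℕ → ℂ} (hp : Poly U a b n p)
    (hs : segment ℝ b c ⊆ U) :
    ∃ q : ℕ → ℂ, Poly U a c (n+1) q ∧ (∀ f, polyI q (n+1) f = polyI p n f + segI b c f) ∧
      plen q (n+1) = plen p n + ‖c - b‖ := by
  set q : ℕ → ℂ := fun i => if i ≤ n then p i else c with hq
  have h1 : ∀ i < n, q i = p i ∧ q (i+1) = p (i+1) := by
    intro i hi
    refine ⟨?_, ?_⟩
    · simp only [hq]; rw [if_pos (by omega)]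
    · simp only [hq]; rw [if_pos (by omega)]
  have h2 : q n = b := by simp only [hq]; rw [if_pos le_rfl, hp.fin]
  have h3 : q (n+1) = c := by simp only [hq]; rw [if_neg (by omega)]
  refine ⟨q, ⟨?_, h3, ?_⟩, ?_, ?_⟩
  · simp only [hq]; rw [if_pos (Nat.zero_le _), hp.start]
  · intro i hi
    rcases Nat.lt_succ_iff_lt_or_eq.1 hi with h | h
    · rw [(h1 i h).1, (h1 i h).2]; exact hp.sub i h
    · rw [h, h2, h3]; exact hs
  · intro f
    unfold polyI
    rw [Finset.sum_range_succ, h2, h3]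
    congr 1
    refine Finset.sum_congr rfl (fun i hi => ?_)
    rw [(h1 i (Finset.mem_range.1 hi)).1, (h1 i (Finset.mem_range.1 hi)).2]
  · unfold plen
    rw [Finset.sum_range_succ, h2, h3]
    congr 1
    refine Finset.sum_congr rfl (fun i hi => ?_)
    rw [(h1 i (Finset.mem_range.1 hi)).1, (h1 i (Finset.mem_range.1 hi)).2]

theorem Poly.append {U : Set ℂ} {a b c : ℂ} {n m : ℕ} {p q : ℕ → ℂ} (hp : Poly U a b n p)
    (hq : Poly U b c m q) :
    ∃ k, ∃ r : ℕ → ℂ, Poly U a c k r ∧ (∀ f, polyI r k f = polyI p n f + polyI q m f) ∧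
      plen r k = plen p n + plen q m := by
  induction m generalizing c with
  | zero =>
    have hbc : b = c := hq.start.symm.trans hq.fin
    subst hbc
    exact ⟨n, p, hp, fun f => by simp [polyI], by simp [plen]⟩
  | succ m ih =>
    obtain ⟨k, r, hr, hri, hrl⟩ := ih (c := q m)
      ⟨hq.start, rfl, fun i hi => hq.sub i (by omega)⟩
    have hseg : segment ℝ (q m) c ⊆ U := by
      have := hq.sub m (by omega)
      rwa [hq.fin] at this
    obtain ⟨r', hr', hri', hrl'⟩ := hr.snoc hseg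
    refine ⟨k+1, r', hr', fun f => ?_, ?_⟩
    · rw [hri', hri]
      have : polyI q (m+1) f = polyI q m f + segI (q m) c f := by
        unfold polyI
        rw [Finset.sum_range_succ, hq.fin]
      rw [this]; ring
    · rw [hrl', hrl]
      have : plen q (m+1) = plen q m + ‖c - q m‖ := by
        unfold plen
        rw [Finset.sum_range_succ, hq.fin]
      rw [this]; ring

theorem Poly.reverse {U : Set ℂ} {a b : ℂ} {n : ℕ} {p : ℕ → ℂ} (hp : Poly U a b n p) :
    Poly U b a n (fun i => p (n - i)) ∧ plen (fun i => p (n - i)) n = plen p n := by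
  refine ⟨⟨?_, ?_, ?_⟩, ?_⟩
  · simpa using hp.fin
  · simpa using hp.start
  · intro i hi
    have h1 : n - i = (n - (i+1)) + 1 := by omega
    have := hp.sub (n - (i+1)) (by omega)
    rw [segment_symm] at this
    simpa [← h1] using this
  · unfold plen
    rw [← Finset.sum_range_reflect]
    refine Finset.sum_congr rfl (fun i hi => ?_)
    have hi' := Finset.mem_range.1 hi
    have h1 : n - (n - 1 - i + 1) = i := by omega
    have h2 : n - (n - 1 - i) = i + 1 := by omega
    simp only [h1, h2]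
    rw [norm_sub_rev]

theorem Poly.mono {U V : Set ℂ} (hUV : U ⊆ V) {a b : ℂ} {n : ℕ} {p : ℕ → ℂ}
    (hp : Poly U a b n p) : Poly V a b n p :=
  ⟨hp.start, hp.fin, fun i hi => (hp.sub i hi).trans hUV⟩

/-- `a` and `b` are joined inside `U` by a polygon of length `≤ ℓ` -/
def JL (U : Set ℂ) (a b : ℂ) (ℓ : ℝ) : Prop := ∃ n, ∃ p : ℕ → ℂ, Poly U a b n p ∧ plen p n ≤ ℓ

theorem JL.refl (U : Set ℂ) (a : ℂ) {ℓ : ℝ} (h : 0 ≤ ℓ) : JL U a a ℓ :=
  ⟨0, _, Poly.nil U a, by simpa [plen] using h⟩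

theorem JL.seg {U : Set ℂ} {a b : ℂ} (h : segment ℝ a b ⊆ U) : JL U a b ‖b - a‖ := by
  obtain ⟨q, hq, -, hl⟩ := (Poly.nil U a).snoc h
  exact ⟨1, q, hq, by rw [hl]; simp [plen]⟩

theorem JL.nonneg {U : Set ℂ} {a b : ℂ} {ℓ : ℝ} (h : JL U a b ℓ) : 0 ≤ ℓ := by
  obtain ⟨n, p, -, hl⟩ := h
  exact (plen_nonneg p n).trans hl

theorem JL.le {U : Set ℂ} {a b : ℂ} {ℓ ℓ' : ℝ} (h : JL U a b ℓ) (hl : ℓ ≤ ℓ') : JL U a b ℓ' := by
  obtain ⟨n, p, hp, hp'⟩ := h
  exact ⟨n, p, hp, hp'.trans hl⟩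

theorem JL.mono {U V : Set ℂ} (hUV : U ⊆ V) {a b : ℂ} {ℓ : ℝ} (h : JL U a b ℓ) : JL V a b ℓ := by
  obtain ⟨n, p, hp, hp'⟩ := h
  exact ⟨n, p, hp.mono hUV, hp'⟩

theorem JL.trans {U : Set ℂ} {a b c : ℂ} {ℓ ℓ' : ℝ} (h : JL U a b ℓ) (h' : JL U b c ℓ') :
    JL U a c (ℓ + ℓ') := by
  obtain ⟨n, p, hp, hpl⟩ := h
  obtain ⟨m, q, hq, hql⟩ := h'
  obtain ⟨k, r, hr, -, hrl⟩ := hp.append hq
  exact ⟨k, r, hr, by rw [hrl]; linarith⟩

theorem JL.symm {U : Set ℂ} {a b : ℂ} {ℓ : ℝ} (h : JL U a b ℓ) : JL U b a ℓ := by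
  obtain ⟨n, p, hp, hpl⟩ := h
  exact ⟨n, _, hp.reverse.1, by rw [hp.reverse.2]; exact hpl⟩

/-- Lipschitz estimate along a polygon, real derivative version. -/
theorem JL.lip {E : Type*} [NormedAddCommGroup E] [NormedSpace ℝ E] {U : Set ℂ} {a b : ℂ} {ℓ : ℝ}
    (h : JL U a b ℓ) {f : ℂ → E} {f' : ℂ → ℂ →L[ℝ] E} {B : ℝ}
    (hf : ∀ z ∈ U, HasFDerivAt f (f' z) z) (hB : ∀ z ∈ U, ‖f' z‖ ≤ B) (hB0 : 0 ≤ B) :
    ‖f b - f a‖ ≤ B * ℓ := by
  obtain ⟨n, p, hp, hpl⟩ := h
  have key : ∀ m ≤ n, ‖f (p m) - f (p 0)‖ ≤ B * plen p m := by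
    intro m
    induction m with
    | zero => intro _; simp [plen]
    | succ m ih =>
      intro hm
      have h1 := ih (by omega)
      have hseg := hp.sub m (by omega)
      have h2 : ‖f (p (m+1)) - f (p m)‖ ≤ B * ‖p (m+1) - p m‖ :=
        (convex_segment (𝕜 := ℝ) (p m) (p (m+1))).norm_image_sub_le_of_norm_hasFDerivWithin_le
          (fun x hx => (hf x (hseg hx)).hasFDerivWithinAt) (fun x hx => hB x (hseg hx))
          (left_mem_segment ℝ _ _) (right_mem_segment ℝ _ _)
      have h3 : plen p (m+1) = plen p m + ‖p (m+1) - p m‖ := by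
        unfold plen; rw [Finset.sum_range_succ]
      calc ‖f (p (m+1)) - f (p 0)‖ = ‖(f (p (m+1)) - f (p m)) + (f (p m) - f (p 0))‖ := by
            congr 1; abel
        _ ≤ ‖f (p (m+1)) - f (p m)‖ + ‖f (p m) - f (p 0)‖ := norm_add_le _ _
        _ ≤ B * ‖p (m+1) - p m‖ + B * plen p m := add_le_add h2 h1
        _ = B * plen p (m+1) := by rw [h3]; ring
  have := key n le_rfl
  rw [hp.fin, hp.start] at this
  exact this.trans (mul_le_mul_of_nonneg_left hpl hB0)

/-- Lipschitz estimate along a polygon, complex derivative version. -/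
theorem JL.lipC {U : Set ℂ} {a b : ℂ} {ℓ : ℝ} (h : JL U a b ℓ) {f : ℂ → ℂ} (hU : IsOpen U)
    (hf : DifferentiableOn ℂ f U) {B : ℝ} (hB : ∀ z ∈ U, ‖deriv f z‖ ≤ B) (hB0 : 0 ≤ B) :
    ‖f b - f a‖ ≤ B * ℓ := by
  refine h.lip (f' := fun z => (ContinuousLinearMap.toSpanSingleton ℂ
    (deriv f z)).restrictScalars ℝ) (fun z hz => ?_) (fun z hz => ?_) hB0
  · exact ((hf.differentiableAt (hU.mem_nhds hz)).hasDerivAt.hasFDerivAt).restrictScalars ℝ
  · rw [ContinuousLinearMap.norm_restrictScalars, ContinuousLinearMap.norm_toSpanSingleton]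
    exact hB z hz

theorem JL.mem {U : Set ℂ} {a b : ℂ} {ℓ : ℝ} (h : JL U a b ℓ) : a ∈ U ↔ b ∈ U := by
  obtain ⟨n, p, hp, hpl⟩ := h
  rcases Nat.eq_zero_or_pos n with h0 | h0
  · subst h0
    rw [← hp.start, ← hp.fin]
  · have h1 := hp.sub 0 h0 (left_mem_segment ℝ _ _)
    have h2 := hp.sub (n-1) (by omega) (right_mem_segment ℝ _ _)
    rw [hp.start] at h1
    rw [Nat.sub_add_cancel h0, hp.fin] at h2
    exact ⟨fun _ => h2, fun _ => h1⟩

/-- an open connected set is polygonally connected -/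
theorem exists_JL {U : Set ℂ} (hU : IsOpen U) (hc : IsPreconnected U) {a b : ℂ} (ha : a ∈ U)
    (hb : b ∈ U) : ∃ ℓ, JL U a b ℓ := by
  set S : Set ℂ := {z | z ∈ U ∧ ∃ ℓ, JL U a z ℓ} with hS
  set T : Set ℂ := {z | z ∈ U ∧ ¬ ∃ ℓ, JL U a z ℓ} with hT
  have hseg : ∀ z ∈ U, ∃ ε > 0, ball z ε ⊆ U ∧ ∀ y ∈ ball z ε, segment ℝ z y ⊆ U := by
    intro z hz
    obtain ⟨ε, hε, hεU⟩ := Metric.isOpen_iff.1 hU z hz
    exact ⟨ε, hε, hεU, fun y hy =>
      ((convex_ball z ε).segment_subset (mem_ball_self hε) hy).trans hεU⟩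
  have hSo : IsOpen S := by
    rw [Metric.isOpen_iff]
    rintro z ⟨hz, ℓ, hℓ⟩
    obtain ⟨ε, hε, hεU, hs⟩ := hseg z hz
    refine ⟨ε, hε, fun y hy => ⟨hεU hy, _, hℓ.trans (JL.seg (hs y hy))⟩⟩
  have hTo : IsOpen T := by
    rw [Metric.isOpen_iff]
    rintro z ⟨hz, hno⟩
    obtain ⟨ε, hε, hεU, hs⟩ := hseg z hz
    refine ⟨ε, hε, fun y hy => ⟨hεU hy, ?_⟩⟩
    rintro ⟨ℓ, hℓ⟩
    exact hno ⟨_, hℓ.trans (JL.seg (hs y hy)).symm⟩
  have hsub : U ⊆ S := by
    refine hc.subset_left_of_subset_union hSo hTo ?_ ?_ ⟨a, ha, ha, 0, JL.refl U a le_rfl⟩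
    · rw [Set.disjoint_left]
      rintro z ⟨_, h1⟩ ⟨_, h2⟩
      exact h2 h1
    · intro z hz
      by_cases h : ∃ ℓ, JL U a z ℓ
      · exact Or.inl ⟨hz, h⟩
      · exact Or.inr ⟨hz, h⟩
  exact (hsub hb).2

/-! ### primitives, logarithms, square roots -/

theorem exists_primitive {U : Set ℂ} (hU : IsOpen U) (hc : IsPreconnected U)
    (hUc : IsPreconnected Uᶜ) (hUb : Bornology.IsBounded U) {g : ℂ → ℂ}
    (hg : DifferentiableOn ℂ g U) : ∃ F : ℂ → ℂ, ∀ z ∈ U, HasDerivAt F (g z) z := by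
  classical
  rcases U.eq_empty_or_nonempty with rfl | ⟨a, ha⟩
  · exact ⟨0, fun z hz => absurd hz (notMem_empty z)⟩
  have hex : ∀ z : ℂ, ∃ np : ℕ × (ℕ → ℂ), z ∈ U → Poly U a z np.1 np.2 := by
    intro z
    by_cases hz : z ∈ U
    · obtain ⟨ℓ, n, p, hp, -⟩ := exists_JL hU hc ha hz
      exact ⟨(n, p), fun _ => hp⟩
    · exact ⟨(0, fun _ => 0), fun h => absurd h hz⟩
  choose P hP using hex
  refine ⟨fun z => polyI (P z).2 (P z).1 g, fun z hz => ?_⟩
  obtain ⟨ε, hε, hεU⟩ := Metric.isOpen_iff.1 hU z hz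
  obtain ⟨G, hG⟩ := (DifferentiableOn.isExactOn_ball (hg.mono hεU))
  have hev : (fun y => polyI (P y).2 (P y).1 g) =ᶠ[𝓝 z]
      fun y => polyI (P z).2 (P z).1 g + (G y - G z) := by
    filter_upwards [Metric.ball_mem_nhds z hε] with y hy
    have hseg : segment ℝ z y ⊆ ball z ε :=
      (convex_ball z ε).segment_subset (mem_ball_self hε) hy
    obtain ⟨q, hq, hqi, -⟩ := (hP z hz).snoc (hseg.trans hεU)
    rw [cauchy_poly hU hUc hUb hg (hP y (hεU hy)) hq, hqi,
      segI_prim ((hg.continuousOn.mono hεU).mono hseg) (fun w hw => hG w (hseg hw))]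
  have h1 : HasDerivAt (fun y => polyI (P z).2 (P z).1 g + (G y - G z)) (g z) z :=
    ((hG z (mem_ball_self hε)).sub_const _).const_add _
  exact h1.congr_of_eventuallyEq hev

theorem exists_log {U : Set ℂ} (hU : IsOpen U) (hc : IsPreconnected U)
    (hUc : IsPreconnected Uᶜ) (hUb : Bornology.IsBounded U) {f : ℂ → ℂ}
    (hf : DifferentiableOn ℂ f U) (h0 : ∀ z ∈ U, f z ≠ 0) :
    ∃ l : ℂ → ℂ, DifferentiableOn ℂ l U ∧ ∀ z ∈ U, Complex.exp (l z) = f z := by
  rcases U.eq_empty_or_nonempty with rfl | ⟨a, ha⟩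
  · exact ⟨0, differentiableOn_empty, fun z hz => absurd hz (notMem_empty z)⟩
  have hd : DifferentiableOn ℂ (deriv f) U := hf.deriv hU
  obtain ⟨F, hF⟩ := exists_primitive hU hc hUc hUb (hd.div hf h0)
  have hF0 : ∀ z ∈ U, HasDerivAt (fun z => f z * Complex.exp (-F z)) 0 z := by
    intro z hz
    have h1 := (hf.differentiableAt (hU.mem_nhds hz)).hasDerivAt
    have h2 := ((hF z hz).neg).cexp
    have h3 := h1.mul h2
    refine h3.congr_deriv ?_
    have := h0 z hz
    simp only [Pi.div_apply]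
    field_simp
    ring
  obtain ⟨c, hcc⟩ : ∃ c, ∀ z ∈ U, f z * Complex.exp (-F z) = c := by
    refine ⟨f a * Complex.exp (-F a), fun z hz => ?_⟩
    obtain ⟨ℓ, hℓ⟩ := exists_JL hU hc ha hz
    have := hℓ.lipC (f := fun z => f z * Complex.exp (-F z)) hU
      (fun z hz => (hF0 z hz).differentiableAt.differentiableWithinAt) (B := 0)
      (fun z hz => by rw [(hF0 z hz).deriv]; simp) le_rfl
    rw [zero_mul, norm_le_zero_iff, sub_eq_zero] at this
    exact this
  have hc0 : c ≠ 0 := by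
    rw [← hcc a ha]
    exact mul_ne_zero (h0 a ha) (Complex.exp_ne_zero _)
  refine ⟨fun z => F z + Complex.log c, fun z hz =>
    ((hF z hz).differentiableAt.add_const _).differentiableWithinAt, fun z hz => ?_⟩
  rw [Complex.exp_add, Complex.exp_log hc0, ← hcc z hz, Complex.exp_neg]
  field_simp [Complex.exp_ne_zero]

theorem exists_sqrt {U : Set ℂ} (hU : IsOpen U) (hc : IsPreconnected U)
    (hUc : IsPreconnected Uᶜ) (hUb : Bornology.IsBounded U) {f : ℂ → ℂ}
    (hf : DifferentiableOn ℂ f U) (h0 : ∀ z ∈ U, f z ≠ 0) :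
    ∃ s : ℂ → ℂ, DifferentiableOn ℂ s U ∧ ∀ z ∈ U, s z ^ 2 = f z := by
  obtain ⟨l, hl, hle⟩ := exists_log hU hc hUc hUb hf h0
  refine ⟨fun z => Complex.exp (l z / 2), (hl.div_const 2).cexp, fun z hz => ?_⟩
  rw [← Complex.exp_nat_mul, ← hle z hz]
  congr 1
  push_cast
  ring

end

end Crest.Agent.R165.GeoPx67
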