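import Mathlib

-- ▼ part R165/PotA_894
section

/-!
# R165 / PotA (helper894): discrete calculus on `ℤ × ℤ`, Caccioppoli inequality

* `lap`, `D1`, `D2`, boxes `Q c n` (sup-norm ball of radius `n` about `c`);
* `sum_mul_lap` : summation by parts for finitely supported test functions;
* `caccioppoli` : weighted energy inequality for functions with `0 ≤ h * lap h` on the support of
  the cut-off (harmonic; nonnegative subharmonic; nonpositive superharmonic functions);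
* `caccioppoli_box` : `∑_{Q c n} |Dh|² ≤ 16 / k² ∑_{Q c (n+k)} h²`.
-/

namespace Crest.Agent.R165.PotAx894

open Finset

/-- unit vectors -/
def e1 : ℤ × ℤ := (1, 0)
/-- unit vectors -/
def e2 : ℤ × ℤ := (0, 1)

@[simp] lemma e1_fst : e1.1 = 1 := rfl
@[simp] lemma e1_snd : e1.2 = 0 := rfl
@[simp] lemma e2_fst : e2.1 = 0 := rfl
@[simp] lemma e2_snd : e2.2 = 1 := rfl

/-- forward difference in direction `e1` -/
def D1 (u : ℤ × ℤ → ℝ) (z : ℤ × ℤ) : ℝ := u (z + e1) - u z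
/-- forward difference in direction `e2` -/
def D2 (u : ℤ × ℤ → ℝ) (z : ℤ × ℤ) : ℝ := u (z + e2) - u z

/-- the five point Laplacian (unnormalised) -/
def lap (u : ℤ × ℤ → ℝ) (z : ℤ × ℤ) : ℝ :=
  u (z + e1) + u (z - e1) + u (z + e2) + u (z - e2) - 4 * u z

/-- the box of radius `n` about `c` -/
noncomputable def Q (c : ℤ × ℤ) (n : ℕ) : Finset (ℤ × ℤ) :=
  Finset.Icc (c.1 - n) (c.1 + n) ×ˢ Finset.Icc (c.2 - n) (c.2 + n)

lemma mem_Q {c : ℤ × ℤ} {n : ℕ} {z : ℤ × ℤ} :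
    z ∈ Q c n ↔ |z.1 - c.1| ≤ n ∧ |z.2 - c.2| ≤ n := by
  simp only [Q, Finset.mem_product, Finset.mem_Icc, abs_le]
  constructor
  · rintro ⟨⟨h1, h2⟩, h3, h4⟩
    exact ⟨⟨by linarith, by linarith⟩, by linarith, by linarith⟩
  · rintro ⟨⟨h1, h2⟩, h3, h4⟩
    exact ⟨⟨by linarith, by linarith⟩, by linarith, by linarith⟩

lemma Q_mono {c : ℤ × ℤ} {m n : ℕ} (h : m ≤ n) : Q c m ⊆ Q c n := by
  intro z hz
  rw [mem_Q] at hz ⊢
  have : (m : ℤ) ≤ n := by exact_mod_cast h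
  exact ⟨hz.1.trans this, hz.2.trans this⟩

lemma self_mem_Q (c : ℤ × ℤ) (n : ℕ) : c ∈ Q c n := by
  rw [mem_Q]; simp

/-- neighbours of a point of `Q c n` lie in `Q c (n+1)` -/
lemma add_e1_mem {c : ℤ × ℤ} {n : ℕ} {z : ℤ × ℤ} (h : z ∈ Q c n) : z + e1 ∈ Q c (n + 1) := by
  rw [mem_Q, abs_le, abs_le] at h ⊢
  simp only [Prod.fst_add, Prod.snd_add, e1_fst, e1_snd]
  push_cast
  constructor <;> constructor <;> linarith [h.1.1, h.1.2, h.2.1, h.2.2]

lemma add_e2_mem {c : ℤ × ℤ} {n : ℕ} {z : ℤ × ℤ} (h : z ∈ Q c n) : z + e2 ∈ Q c (n + 1) := by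
  rw [mem_Q, abs_le, abs_le] at h ⊢
  simp only [Prod.fst_add, Prod.snd_add, e2_fst, e2_snd]
  push_cast
  constructor <;> constructor <;> linarith [h.1.1, h.1.2, h.2.1, h.2.2]

lemma sub_e1_mem {c : ℤ × ℤ} {n : ℕ} {z : ℤ × ℤ} (h : z ∈ Q c n) : z - e1 ∈ Q c (n + 1) := by
  rw [mem_Q, abs_le, abs_le] at h ⊢
  simp only [Prod.fst_sub, Prod.snd_sub, e1_fst, e1_snd]
  push_cast
  constructor <;> constructor <;> linarith [h.1.1, h.1.2, h.2.1, h.2.2]

lemma sub_e2_mem {c : ℤ × ℤ} {n : ℕ} {z : ℤ × ℤ} (h : z ∈ Q c n) : z - e2 ∈ Q c (n + 1) := by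
  rw [mem_Q, abs_le, abs_le] at h ⊢
  simp only [Prod.fst_sub, Prod.snd_sub, e2_fst, e2_snd]
  push_cast
  constructor <;> constructor <;> linarith [h.1.1, h.1.2, h.2.1, h.2.2]

/-! ### finitely supported sums -/

/-- finite support -/
def FS (f : ℤ × ℤ → ℝ) : Prop := (Function.support f).Finite

lemma FS.of_finset {f : ℤ × ℤ → ℝ} (F : Finset (ℤ × ℤ)) (h : ∀ z, z ∉ F → f z = 0) : FS f := by
  refine F.finite_toSet.subset ?_
  intro z hz
  by_contra hc
  exact hz (h z (by simpa using hc))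

lemma FS.summable {f : ℤ × ℤ → ℝ} (h : FS f) : Summable f := summable_of_hasFiniteSupport h

lemma FS.mul_right {f : ℤ × ℤ → ℝ} (h : FS f) (g : ℤ × ℤ → ℝ) : FS (fun z => f z * g z) := by
  refine h.subset ?_
  intro z hz
  simp only [Function.mem_support] at hz ⊢
  intro h0; exact hz (by rw [h0, zero_mul])

lemma FS.mul_left {f : ℤ × ℤ → ℝ} (h : FS f) (g : ℤ × ℤ → ℝ) : FS (fun z => g z * f z) := by
  refine h.subset ?_
  intro z hz
  simp only [Function.mem_support] at hz ⊢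
  intro h0; exact hz (by rw [h0, mul_zero])

lemma FS.add {f g : ℤ × ℤ → ℝ} (hf : FS f) (hg : FS g) : FS (fun z => f z + g z) := by
  refine (hf.union hg).subset ?_
  intro z hz
  simp only [Function.mem_support, Set.mem_union] at hz ⊢
  by_contra hc
  push Not at hc
  exact hz (by rw [hc.1, hc.2, add_zero])

lemma FS.sub {f g : ℤ × ℤ → ℝ} (hf : FS f) (hg : FS g) : FS (fun z => f z - g z) := by
  refine (hf.union hg).subset ?_
  intro z hz
  simp only [Function.mem_support, Set.mem_union] at hz ⊢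
  by_contra hc
  push Not at hc
  exact hz (by rw [hc.1, hc.2, sub_zero])

lemma FS.shift {f : ℤ × ℤ → ℝ} (hf : FS f) (a : ℤ × ℤ) : FS (fun z => f (z + a)) := by
  have : Function.support (fun z => f (z + a)) = (fun z => z + a) ⁻¹' Function.support f := rfl
  unfold FS
  rw [this]
  exact Set.Finite.preimage (fun x _ y _ h => by simpa using h) hf

lemma FS.sq {f : ℤ × ℤ → ℝ} (hf : FS f) : FS (fun z => f z ^ 2) := by
  refine hf.subset ?_
  intro z hz
  simp only [Function.mem_support] at hz ⊢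
  intro h0; exact hz (by rw [h0]; simp)

lemma FS.D1 {f : ℤ × ℤ → ℝ} (hf : FS f) : FS (D1 f) := (hf.shift e1).sub hf
lemma FS.D2 {f : ℤ × ℤ → ℝ} (hf : FS f) : FS (D2 f) := (hf.shift e2).sub hf

lemma tsum_shift (f : ℤ × ℤ → ℝ) (a : ℤ × ℤ) : ∑' z, f (z + a) = ∑' z, f z :=
  (Equiv.addRight a).tsum_eq f

/-- summation by parts in one direction -/
lemma tsum_mul_second_diff {G : ℤ × ℤ → ℝ} (hG : FS G) (h : ℤ × ℤ → ℝ) (a : ℤ × ℤ) :
    ∑' z, G z * (h (z + a) + h (z - a) - 2 * h z)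
      = - ∑' z, (G (z + a) - G z) * (h (z + a) - h z) := by
  have s1 : ∑' z, G z * (h (z + a) + h (z - a) - 2 * h z)
      = ∑' z, G z * (h (z + a) - h z) - ∑' z, G z * (h z - h (z - a)) := by
    rw [← (hG.mul_right _).summable.tsum_sub (hG.mul_right _).summable]
    congr 1; ext z; ring
  have s2 : ∑' z, G z * (h z - h (z - a)) = ∑' z, G (z + a) * (h (z + a) - h z) := by
    rw [← tsum_shift (fun z => G z * (h z - h (z - a))) a]
    congr 1; ext z; simp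
  rw [s1, s2, ← (hG.mul_right _).summable.tsum_sub ((hG.shift a).mul_right _).summable, ← tsum_neg]
  congr 1; ext z; ring

/-- summation by parts: `∑ G · lap h = - ∑ (D1 G D1 h + D2 G D2 h)` -/
lemma tsum_mul_lap {G : ℤ × ℤ → ℝ} (hG : FS G) (h : ℤ × ℤ → ℝ) :
    ∑' z, G z * lap h z = - ∑' z, (D1 G z * D1 h z + D2 G z * D2 h z) := by
  have h1 := tsum_mul_second_diff hG h e1
  have h2 := tsum_mul_second_diff hG h e2
  have s : ∑' z, G z * lap h z = ∑' z, G z * (h (z + e1) + h (z - e1) - 2 * h z)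
      + ∑' z, G z * (h (z + e2) + h (z - e2) - 2 * h z) := by
    rw [← (hG.mul_right _).summable.tsum_add (hG.mul_right _).summable]
    congr 1; ext z; unfold lap; ring
  rw [s, h1, h2, (hG.D1.mul_right _).summable.tsum_add (hG.D2.mul_right _).summable]
  unfold D1 D2
  ring

/-- the pointwise edge inequality behind Caccioppoli -/
lemma edge_ineq (s t u v : ℝ) :
    (s ^ 2 + t ^ 2) / 4 * (v - u) ^ 2 - (t - s) ^ 2 * (v + u) ^ 2 / 2
      ≤ (t ^ 2 * v - s ^ 2 * u) * (v - u) := by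
  nlinarith [sq_nonneg ((s + t) / 2 * (v - u) + (t - s) * (v + u)), sq_nonneg ((t - s) * (v - u)),
    sq_nonneg ((t - s) * (v + u)), sq_nonneg ((t + s) * (v - u))]

/-- **Caccioppoli inequality** (global form with a finitely supported cut-off `χ`). -/
theorem caccioppoli {χ : ℤ × ℤ → ℝ} (hχ : FS χ) (h : ℤ × ℤ → ℝ)
    (hs : ∀ z, χ z ≠ 0 → 0 ≤ h z * lap h z) :
    ∑' z, ((χ z ^ 2 + χ (z + e1) ^ 2) / 2 * D1 h z ^ 2
        + (χ z ^ 2 + χ (z + e2) ^ 2) / 2 * D2 h z ^ 2)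
      ≤ ∑' z, (D1 χ z ^ 2 * (h z + h (z + e1)) ^ 2 + D2 χ z ^ 2 * (h z + h (z + e2)) ^ 2) := by
  set G : ℤ × ℤ → ℝ := fun z => χ z ^ 2 * h z with hGdef
  have hG : FS G := hχ.sq.mul_right h
  have key := tsum_mul_lap hG h
  have hpos : 0 ≤ ∑' z, G z * lap h z := by
    apply tsum_nonneg
    intro z
    by_cases hz : χ z = 0
    · simp [hGdef, hz]
    · have := hs z hz
      have h2 : G z * lap h z = χ z ^ 2 * (h z * lap h z) := by simp only [hGdef]; ring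
      rw [h2]; positivity
  have hle : ∑' z, (D1 G z * D1 h z + D2 G z * D2 h z) ≤ 0 := by linarith
  -- summability of the three families
  have S0 : Summable (fun z => D1 G z * D1 h z + D2 G z * D2 h z) :=
    ((hG.D1.mul_right _).add (hG.D2.mul_right _)).summable
  have S1 : Summable (fun z => (χ z ^ 2 + χ (z + e1) ^ 2) / 2 * D1 h z ^ 2
        + (χ z ^ 2 + χ (z + e2) ^ 2) / 2 * D2 h z ^ 2) := by
    have a1 : FS (fun z => (χ z ^ 2 + χ (z + e1) ^ 2) / 2) := by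
      have := (hχ.sq.add (hχ.sq.shift e1)).mul_right (fun _ => (1 / 2 : ℝ))
      refine Set.Finite.subset this ?_
      intro z hz
      simp only [Function.mem_support] at hz ⊢
      intro h0; apply hz; linarith
    have a2 : FS (fun z => (χ z ^ 2 + χ (z + e2) ^ 2) / 2) := by
      have := (hχ.sq.add (hχ.sq.shift e2)).mul_right (fun _ => (1 / 2 : ℝ))
      refine Set.Finite.subset this ?_
      intro z hz
      simp only [Function.mem_support] at hz ⊢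
      intro h0; apply hz; linarith
    exact ((a1.mul_right _).add (a2.mul_right _)).summable
  have S2 : Summable (fun z => D1 χ z ^ 2 * (h z + h (z + e1)) ^ 2
        + D2 χ z ^ 2 * (h z + h (z + e2)) ^ 2) :=
    ((hχ.D1.sq.mul_right _).add (hχ.D2.sq.mul_right _)).summable
  have hterm : ∀ z, (1 / 2 : ℝ) * ((χ z ^ 2 + χ (z + e1) ^ 2) / 2 * D1 h z ^ 2
        + (χ z ^ 2 + χ (z + e2) ^ 2) / 2 * D2 h z ^ 2)
      ≤ (D1 G z * D1 h z + D2 G z * D2 h z)
        + (1 / 2 : ℝ) * (D1 χ z ^ 2 * (h z + h (z + e1)) ^ 2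
        + D2 χ z ^ 2 * (h z + h (z + e2)) ^ 2) := by
    intro z
    have i1 := edge_ineq (χ z) (χ (z + e1)) (h z) (h (z + e1))
    have i2 := edge_ineq (χ z) (χ (z + e2)) (h z) (h (z + e2))
    simp only [D1, D2, hGdef]
    linarith
  have hsum := (S1.mul_left (1 / 2 : ℝ)).tsum_le_tsum hterm (S0.add (S2.mul_left (1 / 2 : ℝ)))
  rw [S0.tsum_add (S2.mul_left _), tsum_mul_left, tsum_mul_left] at hsum
  linarith

/-! ### box version -/

/-- sup distance to `c`, real valued -/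
noncomputable def nrm (c z : ℤ × ℤ) : ℝ := max |((z.1 - c.1 : ℤ) : ℝ)| |((z.2 - c.2 : ℤ) : ℝ)|


lemma mem_Q_iff_nrm {c : ℤ × ℤ} {n : ℕ} {z : ℤ × ℤ} : z ∈ Q c n ↔ nrm c z ≤ n := by
  rw [mem_Q, nrm, max_le_iff]
  constructor
  · rintro ⟨h1, h2⟩
    exact ⟨by exact_mod_cast h1, by exact_mod_cast h2⟩
  · rintro ⟨h1, h2⟩
    exact ⟨by exact_mod_cast h1, by exact_mod_cast h2⟩

lemma abs_nrm_e1 (c z : ℤ × ℤ) : |nrm c (z + e1) - nrm c z| ≤ 1 := by
  unfold nrm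
  refine (abs_max_sub_max_le_max _ _ _ _).trans ?_
  simp only [Prod.fst_add, Prod.snd_add, e1_fst, e1_snd, add_zero, sub_self, abs_zero]
  refine max_le ((abs_abs_sub_abs_le_abs_sub _ _).trans ?_) zero_le_one
  push_cast
  have : ((z.1 : ℝ) + 1 - c.1 - (z.1 - c.1)) = 1 := by ring
  rw [this]; simp

lemma abs_nrm_e2 (c z : ℤ × ℤ) : |nrm c (z + e2) - nrm c z| ≤ 1 := by
  unfold nrm
  refine (abs_max_sub_max_le_max _ _ _ _).trans ?_
  simp only [Prod.fst_add, Prod.snd_add, e2_fst, e2_snd, add_zero, sub_self, abs_zero]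
  refine max_le zero_le_one ((abs_abs_sub_abs_le_abs_sub _ _).trans ?_)
  push_cast
  have : ((z.2 : ℝ) + 1 - c.2 - (z.2 - c.2)) = 1 := by ring
  rw [this]; simp

/-- the standard cut-off: `1` on `Q c n`, `0` off `Q c (n+k)`, slope `≤ 1/k` -/
noncomputable def cut (c : ℤ × ℤ) (n k : ℕ) (z : ℤ × ℤ) : ℝ :=
  max 0 (min 1 (((n : ℝ) + k - nrm c z) / k))

lemma cut_one {c : ℤ × ℤ} {n k : ℕ} (hk : 0 < k) {z : ℤ × ℤ} (hz : z ∈ Q c n) :
    cut c n k z = 1 := by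
  rw [mem_Q_iff_nrm] at hz
  have hk' : (0 : ℝ) < k := by exact_mod_cast hk
  have : (1 : ℝ) ≤ ((n : ℝ) + k - nrm c z) / k := by
    rw [le_div_iff₀ hk']; linarith
  unfold cut
  rw [min_eq_left this]; norm_num

lemma cut_zero {c : ℤ × ℤ} {n k : ℕ} {z : ℤ × ℤ} (hz : (n : ℝ) + k ≤ nrm c z) :
    cut c n k z = 0 := by
  have : ((n : ℝ) + k - nrm c z) / k ≤ 0 := by
    apply div_nonpos_of_nonpos_of_nonneg
    · linarith
    · positivity
  unfold cut
  exact max_eq_left ((min_le_right _ _).trans this)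

lemma cut_lip {c : ℤ × ℤ} {n k : ℕ} {z w : ℤ × ℤ} (h : |nrm c w - nrm c z| ≤ 1) :
    |cut c n k w - cut c n k z| ≤ 1 / k := by
  unfold cut
  refine (abs_max_sub_max_le_max _ _ _ _).trans ?_
  refine max_le (by simp) ?_
  refine (abs_min_sub_min_le_max _ _ _ _).trans ?_
  refine max_le (by simp) ?_
  have : ((n : ℝ) + k - nrm c w) / k - ((n : ℝ) + k - nrm c z) / k
      = - ((nrm c w - nrm c z) / k) := by ring
  rw [this, abs_neg, abs_div, Nat.abs_cast]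
  gcongr

/-- integrality: off `Q c (N)` the distance is at least `N+1`. -/
lemma not_mem_Q_succ {c : ℤ × ℤ} {N : ℕ} {z : ℤ × ℤ} (hz : z ∉ Q c N) :
    ((N : ℝ) + 1) ≤ nrm c z := by
  rw [mem_Q] at hz
  unfold nrm
  by_contra hc
  push Not at hc
  rw [max_lt_iff] at hc
  apply hz
  constructor
  · have := hc.1
    have h2 : |z.1 - c.1| < (N : ℤ) + 1 := by exact_mod_cast this
    linarith [Int.lt_add_one_iff.mp h2]
  · have := hc.2
    have h2 : |z.2 - c.2| < (N : ℤ) + 1 := by exact_mod_cast this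
    linarith [Int.lt_add_one_iff.mp h2]

lemma cut_zero' {c : ℤ × ℤ} {n k N : ℕ} (hN : n + k = N + 1) {z : ℤ × ℤ} (hz : z ∉ Q c N) :
    cut c n k z = 0 := by
  apply cut_zero
  have := not_mem_Q_succ hz
  have h2 : ((n : ℝ) + k) = N + 1 := by exact_mod_cast hN
  linarith

/-- **Caccioppoli on boxes.** -/
theorem caccioppoli_box (c : ℤ × ℤ) (n k : ℕ) (hk : 0 < k) (h : ℤ × ℤ → ℝ)
    (hs : ∀ z ∈ Q c (n + k - 1), 0 ≤ h z * lap h z) :
    ∑ z ∈ Q c n, (D1 h z ^ 2 + D2 h z ^ 2) ≤ 16 / (k : ℝ) ^ 2 * ∑ z ∈ Q c (n + k), h z ^ 2 := by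
  have hk' : (0 : ℝ) < k := by exact_mod_cast hk
  obtain ⟨N, hN⟩ : ∃ N, n + k = N + 1 := ⟨n + k - 1, by omega⟩
  have hN' : n + k - 1 = N := by omega
  rw [hN'] at hs
  set χ := cut c n k with hχdef
  have hχ : FS χ := FS.of_finset (Q c N) (fun z hz => cut_zero' hN hz)
  have main := caccioppoli hχ h (fun z hz => hs z (by
    by_contra hc; exact hz (cut_zero' hN hc)))
  -- lower bound
  have S1 : Summable (fun z => (χ z ^ 2 + χ (z + e1) ^ 2) / 2 * D1 h z ^ 2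
        + (χ z ^ 2 + χ (z + e2) ^ 2) / 2 * D2 h z ^ 2) := by
    refine (FS.of_finset (Q c (N + 1)) ?_).summable
    intro z hz
    have z0 : χ z = 0 := cut_zero' hN (fun hc => hz (Q_mono (Nat.le_succ N) hc))
    have z1 : χ (z + e1) = 0 := cut_zero' hN (fun hc => hz (by
      have := sub_e1_mem hc; simpa using this))
    have z2 : χ (z + e2) = 0 := cut_zero' hN (fun hc => hz (by
      have := sub_e2_mem hc; simpa using this))
    rw [z0, z1, z2]; ring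
  have low : (1 / 2 : ℝ) * ∑ z ∈ Q c n, (D1 h z ^ 2 + D2 h z ^ 2)
      ≤ ∑' z, ((χ z ^ 2 + χ (z + e1) ^ 2) / 2 * D1 h z ^ 2
        + (χ z ^ 2 + χ (z + e2) ^ 2) / 2 * D2 h z ^ 2) := by
    refine le_trans ?_ (S1.sum_le_tsum (Q c n) (fun z _ => by positivity))
    rw [Finset.mul_sum]
    apply Finset.sum_le_sum
    intro z hz
    have : χ z = 1 := cut_one hk hz
    rw [this]
    nlinarith [mul_nonneg (sq_nonneg (χ (z + e1))) (sq_nonneg (D1 h z)),
      mul_nonneg (sq_nonneg (χ (z + e2))) (sq_nonneg (D2 h z))]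
  -- upper bound
  set g : ℤ × ℤ → ℝ := fun z => if z ∈ Q c (n + k) then h z ^ 2 else 0 with hg
  have g0 : ∀ z, 0 ≤ g z := by
    intro z; simp only [hg]; split_ifs <;> positivity
  have gFS : FS g := FS.of_finset (Q c (n + k)) (fun z hz => by simp only [hg]; rw [if_neg hz])
  have gsum : ∑' z, g z = ∑ z ∈ Q c (n + k), h z ^ 2 := by
    rw [tsum_eq_sum (s := Q c (n + k)) (fun z hz => by simp only [hg]; rw [if_neg hz])]
    apply Finset.sum_congr rfl
    intro z hz; simp only [hg]; rw [if_pos hz]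
  have edge : ∀ z w : ℤ × ℤ, |nrm c w - nrm c z| ≤ 1 →
      (z ∈ Q c N → w ∈ Q c (N + 1)) → (w ∈ Q c N → z ∈ Q c (N + 1)) →
      (χ w - χ z) ^ 2 * (h z + h w) ^ 2 ≤ 2 / (k : ℝ) ^ 2 * (g z + g w) := by
    intro z w hzw h1 h2
    by_cases hd : χ w - χ z = 0
    · rw [hd]
      have := g0 z; have := g0 w
      have : 0 ≤ 2 / (k : ℝ) ^ 2 * (g z + g w) := by positivity
      simpa using this
    · have hz : z ∈ Q c N ∨ w ∈ Q c N := by
        by_contra hc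
        push Not at hc
        apply hd
        have c1 : χ z = 0 := cut_zero' hN hc.1
        have c2 : χ w = 0 := cut_zero' hN hc.2
        rw [c1, c2, sub_zero]
      have hzw' : z ∈ Q c (n + k) ∧ w ∈ Q c (n + k) := by
        rw [hN]
        rcases hz with hz | hw
        · exact ⟨Q_mono (Nat.le_succ N) hz, h1 hz⟩
        · exact ⟨h2 hw, Q_mono (Nat.le_succ N) hw⟩
      have gz : g z = h z ^ 2 := by simp only [hg]; rw [if_pos hzw'.1]
      have gw : g w = h w ^ 2 := by simp only [hg]; rw [if_pos hzw'.2]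
      have lip := cut_lip (n := n) (k := k) hzw
      have lip2 : (χ w - χ z) ^ 2 ≤ (1 / (k : ℝ)) ^ 2 := by
        rw [← sq_abs]; gcongr
      have hh : (h z + h w) ^ 2 ≤ 2 * (h z ^ 2 + h w ^ 2) := by
        nlinarith [sq_nonneg (h z - h w)]
      rw [gz, gw]
      calc (χ w - χ z) ^ 2 * (h z + h w) ^ 2
          ≤ (1 / (k : ℝ)) ^ 2 * (2 * (h z ^ 2 + h w ^ 2)) := by gcongr
        _ = 2 / (k : ℝ) ^ 2 * (h z ^ 2 + h w ^ 2) := by ring
  have gs : Summable g := gFS.summable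
  have gs1 : Summable (fun z => g (z + e1)) := (gFS.shift e1).summable
  have gs2 : Summable (fun z => g (z + e2)) := (gFS.shift e2).summable
  have up : ∑' z, (D1 χ z ^ 2 * (h z + h (z + e1)) ^ 2 + D2 χ z ^ 2 * (h z + h (z + e2)) ^ 2)
      ≤ 8 / (k : ℝ) ^ 2 * ∑ z ∈ Q c (n + k), h z ^ 2 := by
    have S2 : Summable (fun z => D1 χ z ^ 2 * (h z + h (z + e1)) ^ 2
        + D2 χ z ^ 2 * (h z + h (z + e2)) ^ 2) :=
      ((hχ.D1.sq.mul_right _).add (hχ.D2.sq.mul_right _)).summable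
    have t1 : ∀ z, D1 χ z ^ 2 * (h z + h (z + e1)) ^ 2 + D2 χ z ^ 2 * (h z + h (z + e2)) ^ 2
        ≤ 2 / (k : ℝ) ^ 2 * (g z + g (z + e1) + (g z + g (z + e2))) := by
      intro z
      have a1 := edge z (z + e1) (abs_nrm_e1 c z) (fun hz => add_e1_mem hz)
        (fun hz => by have := sub_e1_mem hz; simpa using this)
      have a2 := edge z (z + e2) (abs_nrm_e2 c z) (fun hz => add_e2_mem hz)
        (fun hz => by have := sub_e2_mem hz; simpa using this)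
      unfold D1 D2
      linarith
    have := S2.tsum_le_tsum t1 (((gs.add gs1).add (gs.add gs2)).mul_left _)
    rw [tsum_mul_left, (gs.add gs1).tsum_add (gs.add gs2), gs.tsum_add gs1, gs.tsum_add gs2,
      tsum_shift, tsum_shift, gsum] at this
    refine this.trans (le_of_eq ?_)
    ring
  have e : 16 / (k : ℝ) ^ 2 * ∑ z ∈ Q c (n + k), h z ^ 2
      = 2 * (8 / (k : ℝ) ^ 2 * ∑ z ∈ Q c (n + k), h z ^ 2) := by ring
  rw [e]
  linarith

/-- Caccioppoli for harmonic functions -/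
theorem caccioppoli_harm (c : ℤ × ℤ) (n k : ℕ) (hk : 0 < k) (h : ℤ × ℤ → ℝ)
    (hs : ∀ z ∈ Q c (n + k - 1), lap h z = 0) :
    ∑ z ∈ Q c n, (D1 h z ^ 2 + D2 h z ^ 2) ≤ 16 / (k : ℝ) ^ 2 * ∑ z ∈ Q c (n + k), h z ^ 2 :=
  caccioppoli_box c n k hk h (fun z hz => by rw [hs z hz, mul_zero])

end Crest.Agent.R165.PotAx894
end

-- ▼ part R165/PotB_894

/-!
# R165 / PotB (helper894): discrete Sobolev inequality and interior estimates

* `sobolev_box`;
* `interior_sq` : `u z ^ 2 ≤ C / r² ∑_{Q c r} u²` for `u` harmonic on `Q c (r-1)`, `z ∈ Q c (r/4)`;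
* `interior_D_sq`: `(D_i u c)² ≤ C / r⁴ ∑_{Q c r} u²`;
* `interior_sup`: `|D_{i_1} … D_{i_k} u c| ≤ C_k r^{-k} sup_{Q c r} |u|`.
-/

namespace Crest.Agent.R165.PotBx894

open Finset Crest.Agent.R165.PotAx894

/-- telescoping over an integer interval -/
lemma sum_Ico_telescope (f : ℤ → ℝ) {a b : ℤ} (h : a ≤ b) :
    ∑ l ∈ Finset.Ico a b, (f (l + 1) - f l) = f b - f a := by
  induction b, h using Int.leInduction with
  | base => simp
  | succ b hb ih =>
    have : Finset.Ico a (b + 1) = insert b (Finset.Ico a b) := by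
      ext x; simp only [Finset.mem_Ico, Finset.mem_insert]; omega
    rw [this, Finset.sum_insert (by simp), ih]; ring

lemma diff_sq_le (f : ℤ → ℝ) {A B i j : ℤ} (hi : i ∈ Finset.Icc A B) (hj : j ∈ Finset.Icc A B) :
    (f i - f j) ^ 2 ≤ ((B - A : ℤ) : ℝ) * ∑ l ∈ Finset.Icc A B, (f (l + 1) - f l) ^ 2 := by
  wlog hij : j ≤ i generalizing i j with H
  · have := H hj hi (le_of_lt (not_le.mp hij))
    have e : (f i - f j) ^ 2 = (f j - f i) ^ 2 := by ring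
    rw [e]; exact this
  rw [Finset.mem_Icc] at hi hj
  rw [← sum_Ico_telescope f hij]
  refine (sq_sum_le_card_mul_sum_sq).trans ?_
  have hc : ((Finset.Ico j i).card : ℝ) ≤ ((B - A : ℤ) : ℝ) := by
    rw [Int.card_Ico]
    have : ((i - j).toNat : ℤ) ≤ B - A := by
      rw [Int.toNat_of_nonneg (by omega)]; omega
    exact_mod_cast this
  have hs : ∑ l ∈ Finset.Ico j i, (f (l + 1) - f l) ^ 2
      ≤ ∑ l ∈ Finset.Icc A B, (f (l + 1) - f l) ^ 2 := by
    apply Finset.sum_le_sum_of_subset_of_nonneg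
    · intro x hx
      rw [Finset.mem_Ico] at hx
      rw [Finset.mem_Icc]; omega
    · intros; positivity
  have h0 : (0 : ℝ) ≤ ∑ l ∈ Finset.Ico j i, (f (l + 1) - f l) ^ 2 :=
    Finset.sum_nonneg (fun _ _ => sq_nonneg _)
  have h1 : (0 : ℝ) ≤ ((Finset.Ico j i).card : ℝ) := Nat.cast_nonneg _
  exact mul_le_mul hc hs h0 (h1.trans hc)

/-- one dimensional Sobolev inequality on `[a - n, a + n]` -/
lemma sobolev_1d (f : ℤ → ℝ) (a : ℤ) (n : ℕ) {i : ℤ} (hi : i ∈ Finset.Icc (a - n) (a + n)) :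
    f i ^ 2 ≤ 2 / (2 * (n : ℝ) + 1) * ∑ l ∈ Finset.Icc (a - n) (a + n), f l ^ 2
      + 2 * (2 * (n : ℝ) + 1) * ∑ l ∈ Finset.Icc (a - n) (a + n), (f (l + 1) - f l) ^ 2 := by
  set I := Finset.Icc (a - n) (a + n) with hI
  have hL : (0 : ℝ) < 2 * (n : ℝ) + 1 := by positivity
  have hcard : (I.card : ℝ) = 2 * (n : ℝ) + 1 := by
    rw [hI, Int.card_Icc]
    have : (a + n + 1 - (a - n)).toNat = 2 * n + 1 := by omega
    rw [this]; push_cast; ring
  set S := ∑ l ∈ I, (f (l + 1) - f l) ^ 2 with hS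
  have hS0 : 0 ≤ S := Finset.sum_nonneg (fun _ _ => sq_nonneg _)
  have h1 : ∀ j ∈ I, f i ^ 2 ≤ 2 * f j ^ 2 + 2 * ((2 * (n : ℝ) + 1) * S) := by
    intro j hj
    have := diff_sq_le f hi hj
    have e : (((a + n) - (a - n) : ℤ) : ℝ) = 2 * (n : ℝ) := by push_cast; ring
    rw [e] at this
    nlinarith [sq_nonneg (f i - 2 * f j), sq_nonneg (f i - f j)]
  have h2 : ∑ _j ∈ I, f i ^ 2 ≤ ∑ j ∈ I, (2 * f j ^ 2 + 2 * ((2 * (n : ℝ) + 1) * S)) :=
    Finset.sum_le_sum h1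
  rw [Finset.sum_const, nsmul_eq_mul, hcard, Finset.sum_add_distrib, Finset.sum_const,
    nsmul_eq_mul, hcard, ← Finset.mul_sum] at h2
  have e : f i ^ 2 = ((2 * (n : ℝ) + 1) * f i ^ 2) / (2 * (n : ℝ) + 1) := by
    field_simp
  rw [e, div_le_iff₀ hL]
  refine h2.trans (le_of_eq ?_)
  field_simp

lemma sum_Q (c : ℤ × ℤ) (n : ℕ) (g : ℤ × ℤ → ℝ) :
    ∑ z ∈ Q c n, g z = ∑ i ∈ Finset.Icc (c.1 - n) (c.1 + n),
      ∑ k ∈ Finset.Icc (c.2 - n) (c.2 + n), g (i, k) := by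
  unfold Q; rw [Finset.sum_product]

/-- **discrete Sobolev inequality** on a box (squared form). -/
theorem sobolev_box (c : ℤ × ℤ) (n : ℕ) (u : ℤ × ℤ → ℝ) {z : ℤ × ℤ} (hz : z ∈ Q c n) :
    u z ^ 2 ≤ 4 / (2 * (n : ℝ) + 1) ^ 2 * ∑ w ∈ Q c n, u w ^ 2
      + 4 * ∑ w ∈ Q c n, (D1 u w ^ 2 + D2 u w ^ 2)
      + 4 * (2 * (n : ℝ) + 1) ^ 2 * ∑ w ∈ Q c n, D2 (D1 u) w ^ 2 := by
  obtain ⟨i, k⟩ := z
  have hz' : i ∈ Finset.Icc (c.1 - n) (c.1 + n) ∧ k ∈ Finset.Icc (c.2 - n) (c.2 + n) := by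
    simpa [Q] using hz
  set L := 2 * (n : ℝ) + 1 with hL
  have hLpos : 0 < L := by positivity
  have a1 := sobolev_1d (fun i => u (i, k)) c.1 n hz'.1
  have b1 : ∀ i, u (i, k) ^ 2 ≤ 2 / L * ∑ l ∈ Finset.Icc (c.2 - n) (c.2 + n), u (i, l) ^ 2
      + 2 * L * ∑ l ∈ Finset.Icc (c.2 - n) (c.2 + n), D2 u (i, l) ^ 2 := by
    intro i
    have := sobolev_1d (fun l => u (i, l)) c.2 n hz'.2
    have e : ∀ l, D2 u (i, l) = u (i, l + 1) - u (i, l) := by intro l; simp [D2, e2]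
    simp only [e]
    exact this
  have b2 : ∀ i, D1 u (i, k) ^ 2 ≤ 2 / L * ∑ l ∈ Finset.Icc (c.2 - n) (c.2 + n), D1 u (i, l) ^ 2
      + 2 * L * ∑ l ∈ Finset.Icc (c.2 - n) (c.2 + n), D2 (D1 u) (i, l) ^ 2 := by
    intro i
    have := sobolev_1d (fun l => D1 u (i, l)) c.2 n hz'.2
    have e : ∀ l, D2 (D1 u) (i, l) = D1 u (i, l + 1) - D1 u (i, l) := by
      intro l; simp [D2, e2]
    simp only [e]
    exact this
  have e1' : ∀ l, u (l + 1, k) - u (l, k) = D1 u (l, k) := by intro l; simp [D1, e1]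
  simp only [e1'] at a1
  have c1 := Finset.sum_le_sum (fun i (_ : i ∈ Finset.Icc (c.1 - (n : ℤ)) (c.1 + n)) => b1 i)
  have c2 := Finset.sum_le_sum (fun i (_ : i ∈ Finset.Icc (c.1 - (n : ℤ)) (c.1 + n)) => b2 i)
  rw [Finset.sum_add_distrib, ← Finset.mul_sum, ← Finset.mul_sum] at c1 c2
  rw [← sum_Q c n (fun w => u w ^ 2), ← sum_Q c n (fun w => D2 u w ^ 2)] at c1
  rw [← sum_Q c n (fun w => D1 u w ^ 2), ← sum_Q c n (fun w => D2 (D1 u) w ^ 2)] at c2
  have d1 := mul_le_mul_of_nonneg_left c1 (show 0 ≤ 2 / L by positivity)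
  have d2 := mul_le_mul_of_nonneg_left c2 (show 0 ≤ 2 * L by positivity)
  rw [Finset.sum_add_distrib]
  refine a1.trans ((add_le_add d1 d2).trans (le_of_eq ?_))
  field_simp
  ring

/-! ### interior estimates -/

lemma lap_D1 (u : ℤ × ℤ → ℝ) (z : ℤ × ℤ) : lap (D1 u) z = lap u (z + e1) - lap u z := by
  unfold lap D1
  have h1 : z + e1 - e1 = z := by abel
  have h2 : z - e1 + e1 = z := by abel
  have h3 : z + e2 + e1 = z + e1 + e2 := by abel
  have h4 : z - e2 + e1 = z + e1 - e2 := by abel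
  rw [h1, h2, h3, h4]; ring

lemma lap_D2 (u : ℤ × ℤ → ℝ) (z : ℤ × ℤ) : lap (D2 u) z = lap u (z + e2) - lap u z := by
  unfold lap D2
  have h1 : z + e2 - e2 = z := by abel
  have h2 : z - e2 + e2 = z := by abel
  have h3 : z + e1 + e2 = z + e2 + e1 := by abel
  have h4 : z - e1 + e2 = z + e2 - e1 := by abel
  rw [h1, h2, h3, h4]; ring

/-- harmonic on the box of radius `n` -/
def Harm (u : ℤ × ℤ → ℝ) (c : ℤ × ℤ) (n : ℕ) : Prop := ∀ z ∈ Q c n, lap u z = 0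

lemma Harm.mono {u : ℤ × ℤ → ℝ} {c : ℤ × ℤ} {m n : ℕ} (h : Harm u c n) (hmn : m ≤ n) :
    Harm u c m := fun z hz => h z (Q_mono hmn hz)

lemma Harm.D1 {u : ℤ × ℤ → ℝ} {c : ℤ × ℤ} {n : ℕ} (h : Harm u c (n + 1)) :
    Harm (D1 u) c n := by
  intro z hz
  rw [lap_D1, h _ (add_e1_mem hz), h _ (Q_mono (Nat.le_succ n) hz), sub_zero]

lemma Harm.D2 {u : ℤ × ℤ → ℝ} {c : ℤ × ℤ} {n : ℕ} (h : Harm u c (n + 1)) :
    Harm (D2 u) c n := by
  intro z hz
  rw [lap_D2, h _ (add_e2_mem hz), h _ (Q_mono (Nat.le_succ n) hz), sub_zero]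

lemma Q_sub_Q {c z : ℤ × ℤ} {m n k : ℕ} (hz : z ∈ Q c m) (h : m + n ≤ k) : Q z n ⊆ Q c k := by
  intro w hw
  rw [mem_Q] at *
  have hk : (m : ℤ) + n ≤ k := by exact_mod_cast h
  constructor
  · have : w.1 - c.1 = (w.1 - z.1) + (z.1 - c.1) := by ring
    rw [this]
    exact (abs_add_le _ _).trans (by linarith [hw.1, hz.1])
  · have : w.2 - c.2 = (w.2 - z.2) + (z.2 - c.2) := by ring
    rw [this]
    exact (abs_add_le _ _).trans (by linarith [hw.2, hz.2])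

/-- energies of the first derivatives at half radius. -/
lemma energy_half {u : ℤ × ℤ → ℝ} {c : ℤ × ℤ} {n k : ℕ} (hk : 0 < k)
    (h : Harm u c (n + k - 1)) :
    ∑ z ∈ Q c n, (D1 u z ^ 2 + D2 u z ^ 2) ≤ 16 / (k : ℝ) ^ 2 * ∑ z ∈ Q c (n + k), u z ^ 2 :=
  caccioppoli_harm c n k hk u h

lemma sum_Q_mono {c : ℤ × ℤ} {m n : ℕ} (h : m ≤ n) {g : ℤ × ℤ → ℝ} (hg : ∀ z, 0 ≤ g z) :
    ∑ z ∈ Q c m, g z ≤ ∑ z ∈ Q c n, g z :=
  Finset.sum_le_sum_of_subset_of_nonneg (Q_mono h) (fun z _ _ => hg z)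

/-- interior estimate at scales `m < 4m`. -/
lemma interior_four {u : ℤ × ℤ → ℝ} {c : ℤ × ℤ} {m : ℕ} (hm : 0 < m)
    (h : Harm u c (4 * m - 1)) {z : ℤ × ℤ} (hz : z ∈ Q c m) :
    u z ^ 2 ≤ 2321 / (m : ℝ) ^ 2 * ∑ w ∈ Q c (4 * m), u w ^ 2 := by
  have hm' : (1 : ℝ) ≤ m := by exact_mod_cast hm
  have hm0 : (0 : ℝ) < m := by linarith
  set S := ∑ w ∈ Q c (4 * m), u w ^ 2 with hS
  have hS0 : 0 ≤ S := Finset.sum_nonneg (fun _ _ => sq_nonneg _)
  have main := sobolev_box c m u hz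
  -- first
  have f1 : ∑ w ∈ Q c m, u w ^ 2 ≤ S := sum_Q_mono (by omega) (fun _ => sq_nonneg _)
  have f2 : ∑ w ∈ Q c (2 * m), (D1 u w ^ 2 + D2 u w ^ 2) ≤ 4 / (m : ℝ) ^ 2 * S := by
    have := energy_half (u := u) (c := c) (n := 2 * m) (k := 2 * m) (by omega)
      (h.mono (by omega))
    have e : 2 * m + 2 * m = 4 * m := by ring
    rw [e] at this
    refine this.trans (le_of_eq ?_)
    push_cast
    field_simp
    ring
  have f2' : ∑ w ∈ Q c m, (D1 u w ^ 2 + D2 u w ^ 2) ≤ 4 / (m : ℝ) ^ 2 * S :=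
    (sum_Q_mono (by omega) (fun _ => by positivity)).trans f2
  have f3 : ∑ w ∈ Q c m, D2 (D1 u) w ^ 2 ≤ 64 / (m : ℝ) ^ 4 * S := by
    have g1 : Harm (D1 u) c (m + m - 1) := by
      have : Harm u c (m + m - 1 + 1) := h.mono (by omega)
      exact this.D1
    have := energy_half (u := D1 u) (c := c) (n := m) (k := m) hm g1
    have h1 : ∑ w ∈ Q c m, D2 (D1 u) w ^ 2 ≤ ∑ w ∈ Q c m, (D1 (D1 u) w ^ 2 + D2 (D1 u) w ^ 2) :=
      Finset.sum_le_sum (fun w _ => by nlinarith [sq_nonneg (D1 (D1 u) w)])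
    have h2 : ∑ w ∈ Q c (m + m), D1 u w ^ 2 ≤ ∑ w ∈ Q c (2 * m), (D1 u w ^ 2 + D2 u w ^ 2) := by
      have e : m + m = 2 * m := by ring
      rw [e]
      exact Finset.sum_le_sum (fun w _ => by nlinarith [sq_nonneg (D2 u w)])
    calc _ ≤ _ := h1
      _ ≤ _ := this
      _ ≤ 16 / (m : ℝ) ^ 2 * (4 / (m : ℝ) ^ 2 * S) := by
          gcongr
          exact h2.trans f2
      _ = 64 / (m : ℝ) ^ 4 * S := by field_simp; ring
  have L1 : (2 * (m : ℝ)) ^ 2 ≤ (2 * (m : ℝ) + 1) ^ 2 := by gcongr; linarith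
  have L2 : (2 * (m : ℝ) + 1) ^ 2 ≤ (3 * (m : ℝ)) ^ 2 := by gcongr; linarith
  have t1 : 4 / (2 * (m : ℝ) + 1) ^ 2 * ∑ w ∈ Q c m, u w ^ 2 ≤ 1 / (m : ℝ) ^ 2 * S := by
    have : 4 / (2 * (m : ℝ) + 1) ^ 2 ≤ 1 / (m : ℝ) ^ 2 := by
      rw [div_le_div_iff₀ (by positivity) (by positivity)]; nlinarith
    exact mul_le_mul this f1 (Finset.sum_nonneg (fun _ _ => sq_nonneg _)) (by positivity)
  have t3 : 4 * (2 * (m : ℝ) + 1) ^ 2 * ∑ w ∈ Q c m, D2 (D1 u) w ^ 2
      ≤ 2304 / (m : ℝ) ^ 2 * S := by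
    calc _ ≤ 4 * (3 * (m : ℝ)) ^ 2 * (64 / (m : ℝ) ^ 4 * S) := by gcongr
      _ = 2304 / (m : ℝ) ^ 2 * S := by field_simp; ring
  calc u z ^ 2 ≤ _ := main
    _ ≤ 1 / (m : ℝ) ^ 2 * S + 4 * (4 / (m : ℝ) ^ 2 * S) + 2304 / (m : ℝ) ^ 2 * S :=
        add_le_add (add_le_add t1 (by gcongr)) t3
    _ = 2321 / (m : ℝ) ^ 2 * S := by ring

/-- **interior estimate** `u(z)² ≤ C r⁻² ‖u‖²_{L²(Q c r)}`, `z ∈ Q c (r/4)`. -/
theorem interior_sq {u : ℤ × ℤ → ℝ} {c : ℤ × ℤ} {r : ℕ} (hr : 0 < r)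
    (h : Harm u c (r - 1)) {z : ℤ × ℤ} (hz : z ∈ Q c (r / 4)) :
    u z ^ 2 ≤ 113729 / (r : ℝ) ^ 2 * ∑ w ∈ Q c r, u w ^ 2 := by
  have hr0 : (0 : ℝ) < r := by exact_mod_cast hr
  set S := ∑ w ∈ Q c r, u w ^ 2 with hS
  have hS0 : 0 ≤ S := Finset.sum_nonneg (fun _ _ => sq_nonneg _)
  by_cases h4 : r < 4
  · have h4' : (r : ℝ) ≤ 4 := by exact_mod_cast h4.le
    have h1 : u z ^ 2 ≤ S := by
      refine Finset.single_le_sum (f := fun w => u w ^ 2) (fun _ _ => sq_nonneg _)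
        (Q_mono (by omega) hz)
    have h2 : (1 : ℝ) ≤ 113729 / (r : ℝ) ^ 2 := by
      rw [le_div_iff₀ (by positivity)]; nlinarith
    calc u z ^ 2 ≤ S := h1
      _ = 1 * S := (one_mul _).symm
      _ ≤ _ := by gcongr
  · push Not at h4
    have hm : 0 < r / 4 := by omega
    have hm0 : (0 : ℝ) < ((r / 4 : ℕ) : ℝ) := by exact_mod_cast hm
    have := interior_four hm (h.mono (by omega)) hz
    have h2 : ∑ w ∈ Q c (4 * (r / 4)), u w ^ 2 ≤ S :=
      sum_Q_mono (by omega) (fun _ => sq_nonneg _)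
    have h3 : (r : ℝ) ≤ 7 * ((r / 4 : ℕ) : ℝ) := by
      have : r ≤ 7 * (r / 4) := by omega
      exact_mod_cast this
    have h4' : 2321 / ((r / 4 : ℕ) : ℝ) ^ 2 ≤ 113729 / (r : ℝ) ^ 2 := by
      rw [div_le_div_iff₀ (by positivity) (by positivity)]
      nlinarith
    calc u z ^ 2 ≤ _ := this
      _ ≤ 113729 / (r : ℝ) ^ 2 * S := by gcongr

/-- interior gradient estimate, `L²` form, at points `z ∈ Q c (r/8)`. -/
theorem interior_D_sq {u : ℤ × ℤ → ℝ} {c : ℤ × ℤ} {r : ℕ} (hr : 2 ≤ r)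
    (h : Harm u c (r - 1)) {z : ℤ × ℤ} (hz : z ∈ Q c (r / 2 / 4)) :
    D1 u z ^ 2 + D2 u z ^ 2 ≤ 147392784 / (r : ℝ) ^ 4 * ∑ w ∈ Q c r, u w ^ 2 := by
  have hr0 : (0 : ℝ) < r := by
    have : 0 < r := by omega
    exact_mod_cast this
  set S := ∑ w ∈ Q c r, u w ^ 2 with hS
  have hS0 : 0 ≤ S := Finset.sum_nonneg (fun _ _ => sq_nonneg _)
  set s := r / 2 with hs
  have hs0 : 0 < s := by omega
  have hs' : (0 : ℝ) < s := by exact_mod_cast hs0
  have hs3 : (r : ℝ) ≤ 3 * s := by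
    have : r ≤ 3 * s := by omega
    exact_mod_cast this
  have en := energy_half (u := u) (c := c) (n := s) (k := r - s) (by omega)
    (h.mono (by omega))
  have e : s + (r - s) = r := by omega
  rw [e] at en
  have h1 : Harm (D1 u) c (s - 1) := by
    have : Harm u c (s - 1 + 1) := h.mono (by omega)
    exact this.D1
  have h2 : Harm (D2 u) c (s - 1) := by
    have : Harm u c (s - 1 + 1) := h.mono (by omega)
    exact this.D2
  have i1 := interior_sq hs0 h1 hz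
  have i2 := interior_sq hs0 h2 hz
  have hrs : (s : ℝ) ≤ ((r - s : ℕ) : ℝ) := by
    have : s ≤ r - s := by omega
    exact_mod_cast this
  have hrs0 : (0 : ℝ) < ((r - s : ℕ) : ℝ) := hs'.trans_le hrs
  have hc1 : 16 / (((r - s : ℕ) : ℝ)) ^ 2 ≤ 144 / (r : ℝ) ^ 2 := by
    rw [div_le_div_iff₀ (by positivity) (by positivity)]
    nlinarith
  have hc2 : 113729 / (s : ℝ) ^ 2 ≤ 1023561 / (r : ℝ) ^ 2 := by
    rw [div_le_div_iff₀ (by positivity) (by positivity)]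
    nlinarith
  have en' : ∑ z ∈ Q c s, (D1 u z ^ 2 + D2 u z ^ 2) ≤ 144 / (r : ℝ) ^ 2 * S :=
    en.trans (mul_le_mul_of_nonneg_right hc1 hS0)
  have en0 : 0 ≤ ∑ z ∈ Q c s, (D1 u z ^ 2 + D2 u z ^ 2) :=
    Finset.sum_nonneg (fun _ _ => by positivity)
  calc D1 u z ^ 2 + D2 u z ^ 2
      ≤ 113729 / (s : ℝ) ^ 2 * ∑ w ∈ Q c s, D1 u w ^ 2
        + 113729 / (s : ℝ) ^ 2 * ∑ w ∈ Q c s, D2 u w ^ 2 := add_le_add i1 i2
    _ = 113729 / (s : ℝ) ^ 2 * ∑ w ∈ Q c s, (D1 u w ^ 2 + D2 u w ^ 2) := by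
        rw [Finset.sum_add_distrib]; ring
    _ ≤ 1023561 / (r : ℝ) ^ 2 * (144 / (r : ℝ) ^ 2 * S) :=
        mul_le_mul hc2 en' en0 (by positivity)
    _ = 147392784 / (r : ℝ) ^ 4 * S := by field_simp; ring

/-! ### sup forms, all orders -/

/-- `D i`, `i : Bool`: `D1` for `true`, `D2` for `false` -/
def DD (i : Bool) (u : ℤ × ℤ → ℝ) : ℤ × ℤ → ℝ := if i then D1 u else D2 u

/-- iterated differences along a list of directions -/
def DL : List Bool → (ℤ × ℤ → ℝ) → (ℤ × ℤ → ℝ)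
  | [], u => u
  | i :: l, u => DL l (DD i u)

lemma card_Q (c : ℤ × ℤ) (n : ℕ) : ((Q c n).card : ℝ) = (2 * (n : ℝ) + 1) ^ 2 := by
  unfold Q
  rw [Finset.card_product, Int.card_Icc, Int.card_Icc]
  have h1 : (c.1 + n + 1 - (c.1 - n)).toNat = 2 * n + 1 := by omega
  have h2 : (c.2 + n + 1 - (c.2 - n)).toNat = 2 * n + 1 := by omega
  rw [h1, h2]; push_cast; ring

lemma sum_sq_le_sup {u : ℤ × ℤ → ℝ} {c : ℤ × ℤ} {r : ℕ} (hr : 0 < r) {M : ℝ}
    (hM : ∀ z ∈ Q c r, |u z| ≤ M) : ∑ w ∈ Q c r, u w ^ 2 ≤ 9 * (r : ℝ) ^ 2 * M ^ 2 := by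
  have hr1 : (1 : ℝ) ≤ r := by exact_mod_cast hr
  have h1 : ∑ w ∈ Q c r, u w ^ 2 ≤ ∑ w ∈ Q c r, M ^ 2 := by
    apply Finset.sum_le_sum
    intro w hw
    rw [← sq_abs]
    have := hM w hw
    gcongr
  rw [Finset.sum_const, nsmul_eq_mul, card_Q] at h1
  refine h1.trans ?_
  have : (2 * (r : ℝ) + 1) ^ 2 ≤ 9 * (r : ℝ) ^ 2 := by nlinarith
  gcongr

/-- sup gradient estimate -/
theorem grad_sup {u : ℤ × ℤ → ℝ} {c : ℤ × ℤ} {r : ℕ} (hr : 0 < r) (h : Harm u c (r - 1)) {M : ℝ}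
    (hM : ∀ z ∈ Q c r, |u z| ≤ M) (i : Bool) : |DD i u c| ≤ 36423 / r * M := by
  have hr0 : (0 : ℝ) < r := by exact_mod_cast hr
  have hM0 : 0 ≤ M := (abs_nonneg _).trans (hM c (self_mem_Q c r))
  have hsq : D1 u c ^ 2 + D2 u c ^ 2 ≤ (36423 / r * M) ^ 2 := by
    by_cases h2 : 2 ≤ r
    · have h1 := interior_D_sq h2 h (self_mem_Q c _)
      have h3 := sum_sq_le_sup hr hM
      calc _ ≤ _ := h1
        _ ≤ 147392784 / (r : ℝ) ^ 4 * (9 * (r : ℝ) ^ 2 * M ^ 2) := by gcongr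
        _ = 1326535056 / (r : ℝ) ^ 2 * M ^ 2 := by field_simp; ring
        _ ≤ (36423 : ℝ) ^ 2 / (r : ℝ) ^ 2 * M ^ 2 := by gcongr; norm_num
        _ = _ := by ring
    · have h1 : r = 1 := by omega
      subst h1
      have a0 := abs_le.mp (hM c (self_mem_Q c 1))
      have a1 := abs_le.mp (hM (c + e1) (add_e1_mem (self_mem_Q c 0)))
      have a2 := abs_le.mp (hM (c + e2) (add_e2_mem (self_mem_Q c 0)))
      have b1 : |D1 u c| ≤ 2 * M := by
        unfold D1; rw [abs_le]; constructor <;> linarith [a0.1, a0.2, a1.1, a1.2]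
      have b2 : |D2 u c| ≤ 2 * M := by
        unfold D2; rw [abs_le]; constructor <;> linarith [a0.1, a0.2, a2.1, a2.2]
      have c1 : D1 u c ^ 2 ≤ (2 * M) ^ 2 := by rw [← sq_abs]; gcongr
      have c2 : D2 u c ^ 2 ≤ (2 * M) ^ 2 := by rw [← sq_abs]; gcongr
      push_cast
      nlinarith [sq_nonneg M]
  have hnn : 0 ≤ 36423 / (r : ℝ) * M := by positivity
  unfold DD
  split_ifs
  · refine abs_le_of_sq_le_sq ?_ hnn
    nlinarith [sq_nonneg (D2 u c)]
  · refine abs_le_of_sq_le_sq ?_ hnn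
    nlinarith [sq_nonneg (D1 u c)]

lemma Harm.DD {u : ℤ × ℤ → ℝ} {c : ℤ × ℤ} {n : ℕ} (i : Bool) (h : Harm u c (n + 1)) :
    Harm (DD i u) c n := by
  unfold PotBx894.DD
  split_ifs
  · exact h.D1
  · exact h.D2

lemma DL_trivial (l : List Bool) : ∀ (u : ℤ × ℤ → ℝ) (c : ℤ × ℤ) (M : ℝ),
    (∀ z ∈ Q c l.length, |u z| ≤ M) → |DL l u c| ≤ 2 ^ l.length * M := by
  induction l with
  | nil => intro u c M hM; simpa [DL] using hM c (self_mem_Q c 0)
  | cons i l ih =>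
    intro u c M hM
    have : ∀ z ∈ Q c l.length, |DD i u z| ≤ 2 * M := by
      intro z hz
      have a0 := abs_le.mp (hM z (Q_mono (by simp) hz))
      have a1 := abs_le.mp (hM (z + e1) (add_e1_mem hz))
      have a2 := abs_le.mp (hM (z + e2) (add_e2_mem hz))
      unfold DD
      split_ifs
      · unfold D1; rw [abs_le]; constructor <;> linarith [a0.1, a0.2, a1.1, a1.2]
      · unfold D2; rw [abs_le]; constructor <;> linarith [a0.1, a0.2, a2.1, a2.2]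
    have := ih (DD i u) c (2 * M) this
    simp only [DL, List.length_cons]
    refine this.trans (le_of_eq ?_)
    ring

/-- **all orders**: `|D_{i_1} ⋯ D_{i_k} u (c)| ≤ C r^{-k} sup_{Q c r} |u|` for `r ≥ k`. -/
theorem interior_sup (l : List Bool) : ∃ C : ℝ, 0 < C ∧ ∀ (u : ℤ × ℤ → ℝ) (c : ℤ × ℤ) (r : ℕ)
    (M : ℝ), 0 < r → l.length ≤ r → Harm u c (r - 1) → (∀ z ∈ Q c r, |u z| ≤ M) →
    |DL l u c| ≤ C / (r : ℝ) ^ l.length * M := by
  induction l with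
  | nil =>
    refine ⟨1, one_pos, ?_⟩
    intro u c r M hr _ _ hM
    simpa [DL] using hM c (self_mem_Q c r)
  | cons i l ih =>
    obtain ⟨C, hC, H⟩ := ih
    set k := l.length with hk
    refine ⟨2 ^ (k + 1) * (2 * (k + 1 : ℝ)) ^ (k + 1) + C * 3 ^ k * 72846, by positivity, ?_⟩
    intro u c r M hr hkr hh hM
    have hr0 : (0 : ℝ) < r := by exact_mod_cast hr
    have hM0 : 0 ≤ M := (abs_nonneg _).trans (hM c (self_mem_Q c r))
    simp only [List.length_cons] at hkr ⊢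
    by_cases hs : k ≤ r / 2 ∧ 0 < r / 2
    · set s := r / 2 with hsdef
      have hs' : (0 : ℝ) < s := by exact_mod_cast hs.2
      have hs3 : (r : ℝ) ≤ 3 * s := by
        have : r ≤ 3 * s := by omega
        exact_mod_cast this
      have h2s : (r : ℝ) ≤ 2 * ((r - s : ℕ) : ℝ) := by
        have : r ≤ 2 * (r - s) := by omega
        exact_mod_cast this
      have hrs0 : (0 : ℝ) < ((r - s : ℕ) : ℝ) := by
        have : 0 < r - s := by omega
        exact_mod_cast this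
      have hh1 : Harm (DD i u) c (s - 1) := by
        have : Harm u c (s - 1 + 1) := hh.mono (by omega)
        exact this.DD i
      have hv : ∀ z ∈ Q c s, |DD i u z| ≤ 72846 / r * M := by
        intro z hz
        have hQ : Q z (r - s) ⊆ Q c r := Q_sub_Q hz (by omega)
        have hQ' : Q z (r - s - 1) ⊆ Q c (r - 1) := Q_sub_Q hz (by omega)
        have := grad_sup (u := u) (c := z) (r := r - s) (by omega)
          (fun w hw => hh w (hQ' hw)) (fun w hw => hM w (hQ hw)) i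
        refine this.trans ?_
        apply mul_le_mul_of_nonneg_right _ hM0
        rw [div_le_div_iff₀ hrs0 hr0]
        linarith
      have := H (DD i u) c s (72846 / r * M) hs.2 hs.1 hh1 hv
      simp only [DL]
      refine this.trans ?_
      have h1 : C / (s : ℝ) ^ k ≤ C * 3 ^ k / (r : ℝ) ^ k := by
        rw [div_le_div_iff₀ (by positivity) (by positivity)]
        have : (r : ℝ) ^ k ≤ (3 * s) ^ k := by gcongr
        rw [mul_pow] at this
        calc C * (r : ℝ) ^ k ≤ C * (3 ^ k * s ^ k) := by gcongr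
          _ = _ := by ring
      calc C / (s : ℝ) ^ k * (72846 / r * M) ≤ C * 3 ^ k / (r : ℝ) ^ k * (72846 / r * M) := by
            gcongr
        _ = (C * 3 ^ k * 72846) / (r : ℝ) ^ (k + 1) * M := by
            rw [pow_succ]; field_simp
        _ ≤ _ := by
            gcongr
            have : (0 : ℝ) ≤ 2 ^ (k + 1) * (2 * (k + 1 : ℝ)) ^ (k + 1) := by positivity
            linarith
    · have hsmall : (r : ℝ) ≤ 2 * (k + 1 : ℝ) := by
        have : r ≤ 2 * (k + 1) := by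
          by_contra hc
          apply hs
          constructor <;> omega
        exact_mod_cast this
      have := DL_trivial (i :: l) u c M (fun z hz => hM z (Q_mono (by simpa using hkr) hz))
      simp only [List.length_cons] at this
      refine this.trans ?_
      apply mul_le_mul_of_nonneg_right _ hM0
      rw [le_div_iff₀ (by positivity)]
      have h1 : (r : ℝ) ^ (l.length + 1) ≤ (2 * (k + 1 : ℝ)) ^ (k + 1) := by
        rw [← hk]; gcongr
      calc (2 : ℝ) ^ (l.length + 1) * (r : ℝ) ^ (l.length + 1)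
          ≤ 2 ^ (k + 1) * (2 * (k + 1 : ℝ)) ^ (k + 1) := by
            rw [← hk] at h1 ⊢
            gcongr
        _ ≤ _ := by
            have : (0 : ℝ) ≤ C * 3 ^ k * 72846 := by positivity
            linarith

end Crest.Agent.R165.PotBx894
private theorem rz_4659559b94 : type_of% @_root_.Crest.Agent.R165.PotBx894.DL.eq_def := @_root_.Crest.Agent.R165.PotBx894.DL.eq_def -- L323
private theorem rz_5e5fe057e9 : type_of% @_root_.Crest.Agent.R165.PotBx894.DL.eq_1 := @_root_.Crest.Agent.R165.PotBx894.DL.eq_1 -- L323
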