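import Crest.Agent.R165.Tr1_40
import Crest.Agent.R165.PotB_894
import Crest.Agent.R165.BkTay_812

-- ▼ part R165/BkA_806
section

/-!
# Row 165 (S0250), block R, bulk regularity, part A (helper806)

* `Ap` : the critical operator of the plane on `Fld = Face → Fin 4 → ℝ` (constant weights `xc`);
* `Df e φ` : finite difference of a field, commutes with `Ap`;
* `adj_lap` : explicit adjugate, `-(2 x²) lap φ_a = Bop (Ap φ) a`;
* `energy` : `∑ |Dφ|² ≤ K ∑ |Ap φ|²` for finitely supported fields;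
* `energy_box` : the same with a Lipschitz cut-off.
-/

set_option autoImplicit false
set_option linter.unusedSimpArgs false

noncomputable section

namespace Crest.Agent.R165.Bkx806

open Finset Crest.Agent.R165.Tr1x40 Crest.Agent.R165.PotAx894 Crest.Agent.R165.PotBx894

/-- the critical operator of the plane -/
def Ap (φ : Fld) : Fld := A (fun _ _ => xc) φ

theorem Ap_S (φ : Fld) (f : Face) :
    Ap φ f 0 = φ f 1 + φ f 2 + φ f 3 + xc * φ (f - e2) 2 := by
  rw [Ap, A_S]; congr 3; ext <;> simp [e2]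
theorem Ap_E (φ : Fld) (f : Face) :
    Ap φ f 1 = -φ f 0 + φ f 2 + φ f 3 + xc * φ (f + e1) 3 := by
  rw [Ap, A_E]; congr 3; ext <;> simp [e1]
theorem Ap_N (φ : Fld) (f : Face) :
    Ap φ f 2 = -φ f 0 - φ f 1 + φ f 3 - xc * φ (f + e2) 0 := by
  rw [Ap, A_N]; congr 3; ext <;> simp [e2]
theorem Ap_W (φ : Fld) (f : Face) :
    Ap φ f 3 = -φ f 0 - φ f 1 - φ f 2 - xc * φ (f - e1) 1 := by
  rw [Ap, A_W]; congr 3; ext <;> simp [e1]

/-- finite difference of a field in direction `e` -/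
def Df (e : Face) (φ : Fld) : Fld := fun f h => φ (f + e) h - φ f h

theorem Df_apply (e : Face) (φ : Fld) (f : Face) (h : Fin 4) :
    Df e φ f h = φ (f + e) h - φ f h := rfl

theorem Ap_Df (e : Face) (φ : Fld) : Ap (Df e φ) = Df e (Ap φ) := by
  have s1 : ∀ f : Face, f - e2 + e = f + e - e2 := fun f => by abel
  have s2 : ∀ f : Face, f + e1 + e = f + e + e1 := fun f => by abel
  have s3 : ∀ f : Face, f + e2 + e = f + e + e2 := fun f => by abel
  have s4 : ∀ f : Face, f - e1 + e = f + e - e1 := fun f => by abel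
  funext f h
  fin_cases h
  · show Ap (Df e φ) f 0 = Ap φ (f + e) 0 - Ap φ f 0
    simp only [Ap_S, Df_apply, s1]; ring
  · show Ap (Df e φ) f 1 = Ap φ (f + e) 1 - Ap φ f 1
    simp only [Ap_E, Df_apply, s2]; ring
  · show Ap (Df e φ) f 2 = Ap φ (f + e) 2 - Ap φ f 2
    simp only [Ap_N, Df_apply, s3]; ring
  · show Ap (Df e φ) f 3 = Ap φ (f + e) 3 - Ap φ f 3
    simp only [Ap_W, Df_apply, s4]; ring

/-- the adjugate operator, every entry has vanishing sum of coefficients -/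
def Bop (g : Fld) (f : Face) (h : Fin 4) : ℝ :=
  match h with
  | 0 => xc * (g (f + e1) 0 - g (f - e1) 0)
      + (xc ^ 2 * g (f - e1 - e2) 1 + xc * g (f - e1) 1 + xc * g (f - e2) 1 - g f 1)
      + (-xc ^ 2 * g (f - e1 - e2) 2 + (2 - 6 * xc) * g (f - e2) 2 + 2 * xc * g f 2
          - xc ^ 2 * g (f + e1 - e2) 2)
      + (xc * g (f - e2) 3 - g f 3 + xc ^ 2 * g (f + e1 - e2) 3 + xc * g (f + e1) 3)
  | 1 => (g f 0 - xc * g (f + e2) 0 - xc * g (f + e1) 0 - xc ^ 2 * g (f + e1 + e2) 0)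
      + xc * (g (f + e2) 1 - g (f - e2) 1)
      + (xc * g (f - e2) 2 - g f 2 + xc ^ 2 * g (f + e1 - e2) 2 + xc * g (f + e1) 2)
      + (2 * xc * g f 3 - xc ^ 2 * g (f + e1 - e2) 3 + (2 - 6 * xc) * g (f + e1) 3
          - xc ^ 2 * g (f + e1 + e2) 3)
  | 2 => (xc ^ 2 * g (f - e1 + e2) 0 - 2 * xc * g f 0 + (-2 + 6 * xc) * g (f + e2) 0
          + xc ^ 2 * g (f + e1 + e2) 0)
      + (-xc * g (f - e1) 1 - xc ^ 2 * g (f - e1 + e2) 1 + g f 1 - xc * g (f + e2) 1)
      + xc * (g (f - e1) 2 - g (f + e1) 2)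
      + (-g f 3 + xc * g (f + e2) 3 + xc * g (f + e1) 3 + xc ^ 2 * g (f + e1 + e2) 3)
  | 3 => (-xc * g (f - e1) 0 - xc ^ 2 * g (f - e1 + e2) 0 + g f 0 - xc * g (f + e2) 0)
      + (xc ^ 2 * g (f - e1 - e2) 1 + (-2 + 6 * xc) * g (f - e1) 1 + xc ^ 2 * g (f - e1 + e2) 1
          - 2 * xc * g f 1)
      + (-xc ^ 2 * g (f - e1 - e2) 2 - xc * g (f - e1) 2 - xc * g (f - e2) 2 + g f 2)
      + xc * (g (f - e2) 3 - g (f + e2) 3)

/-- **explicit adjugate** -/
theorem adj_lap (φ : Fld) (f : Face) (h : Fin 4) :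
    Bop (Ap φ) f h = -(2 * xc ^ 2) * lap (fun z => φ z h) f := by
  have hx := xc_sq
  have c1 : ∀ z : Face, z - e1 + e1 = z := fun z => by abel
  have c2 : ∀ z : Face, z + e1 - e1 = z := fun z => by abel
  have c3 : ∀ z : Face, z - e2 + e2 = z := fun z => by abel
  have c4 : ∀ z : Face, z + e2 - e2 = z := fun z => by abel
  have n1 : f - e1 - e2 + e1 = f - e2 := by abel
  have n2 : f - e2 + e1 = f + e1 - e2 := by abel
  have n3 : f - e2 - e1 = f - e1 - e2 := by abel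
  have n4 : f + e1 - e2 - e1 = f - e2 := by abel
  have n5 : f + e2 + e1 = f + e1 + e2 := by abel
  have n6 : f + e1 + e2 - e1 = f + e2 := by abel
  have n7 : f - e1 + e2 + e1 = f + e2 := by abel
  have n8 : f + e2 - e1 = f - e1 + e2 := by abel
  fin_cases h
  · show Bop (Ap φ) f 0 = -(2 * xc ^ 2) * lap (fun z => φ z 0) f
    simp only [Bop, Ap_S, Ap_E, Ap_N, Ap_W, lap, c1, c2, c3, c4, n1, n2, n3, n4, n5, n6, n7, n8]
    grind
  · show Bop (Ap φ) f 1 = -(2 * xc ^ 2) * lap (fun z => φ z 1) f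
    simp only [Bop, Ap_S, Ap_E, Ap_N, Ap_W, lap, c1, c2, c3, c4, n1, n2, n3, n4, n5, n6, n7, n8]
    grind
  · show Bop (Ap φ) f 2 = -(2 * xc ^ 2) * lap (fun z => φ z 2) f
    simp only [Bop, Ap_S, Ap_E, Ap_N, Ap_W, lap, c1, c2, c3, c4, n1, n2, n3, n4, n5, n6, n7, n8]
    grind
  · show Bop (Ap φ) f 3 = -(2 * xc ^ 2) * lap (fun z => φ z 3) f
    simp only [Bop, Ap_S, Ap_E, Ap_N, Ap_W, lap, c1, c2, c3, c4, n1, n2, n3, n4, n5, n6, n7, n8]
    grind

/-! ### the adjugate as a sum of finite differences -/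

/-- list of (coefficient, component, shift) -/
def Lt (h : Fin 4) : List (ℝ × Fin 4 × Face) :=
  match h with
  | 0 => [(xc, 0, e1), (-xc, 0, -e1), (xc ^ 2, 1, -e1 - e2), (xc, 1, -e1), (xc, 1, -e2),
      (-xc ^ 2, 2, -e1 - e2), (2 - 6 * xc, 2, -e2), (-xc ^ 2, 2, e1 - e2),
      (xc, 3, -e2), (xc ^ 2, 3, e1 - e2), (xc, 3, e1)]
  | 1 => [(-xc, 0, e2), (-xc, 0, e1), (-xc ^ 2, 0, e1 + e2), (xc, 1, e2), (-xc, 1, -e2),
      (xc, 2, -e2), (xc ^ 2, 2, e1 - e2), (xc, 2, e1),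
      (-xc ^ 2, 3, e1 - e2), (2 - 6 * xc, 3, e1), (-xc ^ 2, 3, e1 + e2)]
  | 2 => [(xc ^ 2, 0, -e1 + e2), (-2 + 6 * xc, 0, e2), (xc ^ 2, 0, e1 + e2),
      (-xc, 1, -e1), (-xc ^ 2, 1, -e1 + e2), (-xc, 1, e2), (xc, 2, -e1), (-xc, 2, e1),
      (xc, 3, e2), (xc, 3, e1), (xc ^ 2, 3, e1 + e2)]
  | 3 => [(-xc, 0, -e1), (-xc ^ 2, 0, -e1 + e2), (-xc, 0, e2),
      (xc ^ 2, 1, -e1 - e2), (-2 + 6 * xc, 1, -e1), (xc ^ 2, 1, -e1 + e2),
      (-xc ^ 2, 2, -e1 - e2), (-xc, 2, -e1), (-xc, 2, -e2), (xc, 3, -e2), (-xc, 3, e2)]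

/-- one term -/
def tm (g : Fld) (f : Face) (t : ℝ × Fin 4 × Face) : ℝ := t.1 * (g (f + t.2.2) t.2.1 - g f t.2.1)

theorem Bop_eq (g : Fld) (f : Face) (h : Fin 4) : Bop g f h = ((Lt h).map (tm g f)).sum := by
  have hx := xc_sq
  have m1 : f + -e1 = f - e1 := by abel
  have m2 : f + -e2 = f - e2 := by abel
  have m3 : f + (-e1 - e2) = f - e1 - e2 := by abel
  have m4 : f + (e1 - e2) = f + e1 - e2 := by abel
  have m5 : f + (e1 + e2) = f + e1 + e2 := by abel
  have m6 : f + (-e1 + e2) = f - e1 + e2 := by abel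
  fin_cases h
  · show Bop g f 0 = ((Lt 0).map (tm g f)).sum
    simp only [Bop, Lt, tm, List.map_cons, List.map_nil, List.sum_cons, List.sum_nil, m1, m2, m3,
      m4, m5, m6]
    grind
  · show Bop g f 1 = ((Lt 1).map (tm g f)).sum
    simp only [Bop, Lt, tm, List.map_cons, List.map_nil, List.sum_cons, List.sum_nil, m1, m2, m3,
      m4, m5, m6]
    grind
  · show Bop g f 2 = ((Lt 2).map (tm g f)).sum
    simp only [Bop, Lt, tm, List.map_cons, List.map_nil, List.sum_cons, List.sum_nil, m1, m2, m3,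
      m4, m5, m6]
    grind
  · show Bop g f 3 = ((Lt 3).map (tm g f)).sum
    simp only [Bop, Lt, tm, List.map_cons, List.map_nil, List.sum_cons, List.sum_nil, m1, m2, m3,
      m4, m5, m6]
    grind

/-- the shifts that occur -/
def near : List Face := [e1, -e1, e2, -e2, -e1 - e2, e1 - e2, e1 + e2, -e1 + e2]

theorem Lt_near (h : Fin 4) : ∀ t ∈ Lt h, t.2.2 ∈ near := by
  fin_cases h
  all_goals
    intro t ht
    simp only [Lt, List.mem_cons, List.not_mem_nil, or_false] at ht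
    rcases ht with h | h | h | h | h | h | h | h | h | h | h <;> simp [h, near]

theorem Lt_coef (h : Fin 4) : ((Lt h).map (fun t => |t.1|)).sum ≤ 4 := by
  have hx := xc_sq
  have h0 := xc_pos
  have h1 := xc_lt_half
  have h2 : 2 / 5 < xc := by nlinarith
  have a1 : |xc| = xc := abs_of_pos h0
  have a2 : |xc ^ 2| = xc ^ 2 := abs_of_pos (by positivity)
  have a3 : |2 - 6 * xc| = 6 * xc - 2 := by rw [abs_sub_comm, abs_of_pos]; linarith
  have a4 : |-2 + 6 * xc| = 6 * xc - 2 := by rw [abs_of_pos] <;> linarith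
  fin_cases h
  all_goals
    simp only [Lt, List.map_cons, List.map_nil, List.sum_cons, List.sum_nil, abs_neg, a1, a2, a3,
      a4]
    nlinarith

/-! ### energy inequality -/

/-- energy of one component -/
def E1 (u : Face → ℝ) : ℝ := ∑' z, (D1 u z ^ 2 + D2 u z ^ 2)

theorem E1_nonneg (u : Face → ℝ) : 0 ≤ E1 u := tsum_nonneg fun _ => by positivity

theorem E1_summable {u : Face → ℝ} (hu : FS u) : Summable (fun z => D1 u z ^ 2 + D2 u z ^ 2) :=
  (hu.D1.sq.add hu.D2.sq).summable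

/-- energy of a shift -/
def tri (u : Face → ℝ) (s : Face) : ℝ := ∑' z, (u (z + s) - u z) ^ 2

theorem tri_nonneg (u : Face → ℝ) (s : Face) : 0 ≤ tri u s := tsum_nonneg fun _ => by positivity

theorem tri_summable {u : Face → ℝ} (hu : FS u) (s : Face) :
    Summable (fun z => (u (z + s) - u z) ^ 2) := ((hu.shift s).sub hu).sq.summable

theorem tri_neg (u : Face → ℝ) (s : Face) : tri u (-s) = tri u s := by
  unfold tri
  rw [← tsum_shift (fun z => (u (z + -s) - u z) ^ 2) s]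
  congr 1; ext z
  rw [show z + s + -s = z by abel]; ring

theorem tri_add {u : Face → ℝ} (hu : FS u) (s t : Face) :
    tri u (s + t) ≤ 2 * tri u s + 2 * tri u t := by
  have e : tri u s = ∑' z, (u (z + t + s) - u (z + t)) ^ 2 :=
    (tsum_shift (fun z => (u (z + s) - u z) ^ 2) t).symm
  have S2 : Summable (fun z => (u (z + t + s) - u (z + t)) ^ 2) :=
    (((hu.shift s).sub hu).shift t).sq.summable
  rw [e]
  unfold tri
  rw [← tsum_mul_left, ← tsum_mul_left, ← (S2.mul_left 2).tsum_add ((tri_summable hu t).mul_left 2)]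
  refine (tri_summable hu (s + t)).tsum_le_tsum (fun z => ?_)
    ((S2.mul_left 2).add ((tri_summable hu t).mul_left 2))
  rw [show z + (s + t) = z + t + s by abel]
  nlinarith [sq_nonneg (u (z + t + s) - u (z + t) - (u (z + t) - u z))]

theorem E1_eq {u : Face → ℝ} (hu : FS u) : E1 u = tri u e1 + tri u e2 := by
  unfold E1 tri
  rw [← (tri_summable hu e1).tsum_add (tri_summable hu e2)]
  rfl

theorem shift_energy {u : Face → ℝ} (hu : FS u) (s : Face) (hs : s ∈ near) :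
    tri u s ≤ 2 * E1 u := by
  have h1 := tri_nonneg u e1
  have h2 := tri_nonneg u e2
  have h3 := tri_neg u e1
  have h4 := tri_neg u e2
  rw [E1_eq hu]
  simp only [near, List.mem_cons, List.not_mem_nil, or_false] at hs
  rcases hs with h | h | h | h | h | h | h | h <;> subst h
  · linarith
  · linarith
  · linarith
  · linarith
  · have := tri_add hu (-e1) (-e2)
    rw [← sub_eq_add_neg] at this; linarith
  · have := tri_add hu e1 (-e2)
    rw [← sub_eq_add_neg] at this; linarith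
  · have := tri_add hu e1 e2; linarith
  · have := tri_add hu (-e1) e2; linarith

/-- transposition of one difference and Young's inequality -/
theorem pair_le {u g : Face → ℝ} (hu : FS u) (hg : FS g) (s : Face) (hs : s ∈ near) (c : ℝ)
    {ε : ℝ} (hε : 0 < ε) :
    ∑' z, u z * (c * (g (z + s) - g z)) ≤ |c| * (ε * E1 u + 1 / (2 * ε) * ∑' z, g z ^ 2) := by
  have hs' : -s ∈ near := by
    simp only [near, List.mem_cons, List.not_mem_nil, or_false] at hs ⊢
    rcases hs with h | h | h | h | h | h | h | h <;> subst h <;> simp [sub_eq_add_neg, add_comm]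
  have e : ∑' z, u z * (c * (g (z + s) - g z)) = ∑' z, c * ((u (z + -s) - u z) * g z) := by
    have a1 : ∑' z, u z * (c * g (z + s)) = ∑' z, u (z + -s) * (c * g z) := by
      rw [← tsum_shift (fun z => u (z + -s) * (c * g z)) s]
      congr 1; ext z
      rw [show z + s + -s = z by abel]
    have s1 : Summable (fun z => u z * (c * g (z + s))) := (hu.mul_right _).summable
    have s2 : Summable (fun z => u z * (c * g z)) := (hu.mul_right _).summable
    have s3 : Summable (fun z => u (z + -s) * (c * g z)) := ((hu.shift (-s)).mul_right _).summable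
    calc ∑' z, u z * (c * (g (z + s) - g z))
        = ∑' z, (u z * (c * g (z + s)) - u z * (c * g z)) := by congr 1; ext z; ring
      _ = ∑' z, u (z + -s) * (c * g z) - ∑' z, u z * (c * g z) := by rw [s1.tsum_sub s2, a1]
      _ = ∑' z, (u (z + -s) * (c * g z) - u z * (c * g z)) := (s3.tsum_sub s2).symm
      _ = _ := by congr 1; ext z; ring
  have hE := shift_energy hu (-s) hs'
  have S1 : Summable (fun z => c * ((u (z + -s) - u z) * g z)) :=
    ((((hu.shift (-s)).sub hu).mul_right _).mul_left _).summable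
  have S2 := (tri_summable hu (-s)).mul_left (|c| * (ε / 2))
  have S3 := (hg.sq.summable).mul_left (|c| * (1 / (2 * ε)))
  have hc := abs_nonneg c
  rw [e]
  calc ∑' z, c * ((u (z + -s) - u z) * g z)
      ≤ ∑' z, (|c| * (ε / 2) * (u (z + -s) - u z) ^ 2 + |c| * (1 / (2 * ε)) * g z ^ 2) := by
        refine S1.tsum_le_tsum (fun z => ?_) (S2.add S3)
        have y : |(u (z + -s) - u z) * g z| ≤ ε / 2 * (u (z + -s) - u z) ^ 2
            + 1 / (2 * ε) * g z ^ 2 := by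
          set a := u (z + -s) - u z
          set b := g z
          have : ε / 2 * a ^ 2 + 1 / (2 * ε) * b ^ 2 = (ε * |a| - |b|) ^ 2 / (2 * ε)
              + |a| * |b| := by
            rw [← sq_abs a, ← sq_abs b]; field_simp; ring
          rw [this, abs_mul]
          have : 0 ≤ (ε * |a| - |b|) ^ 2 / (2 * ε) := by positivity
          linarith
        calc c * ((u (z + -s) - u z) * g z) ≤ |c * ((u (z + -s) - u z) * g z)| := le_abs_self _
          _ = |c| * |(u (z + -s) - u z) * g z| := abs_mul _ _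
          _ ≤ |c| * (ε / 2 * (u (z + -s) - u z) ^ 2 + 1 / (2 * ε) * g z ^ 2) := by gcongr
          _ = _ := by ring
    _ = |c| * (ε / 2) * tri u (-s) + |c| * (1 / (2 * ε)) * ∑' z, g z ^ 2 := by
        rw [S2.tsum_add S3, tsum_mul_left, tsum_mul_left]; rfl
    _ ≤ |c| * (ε / 2) * (2 * E1 u) + |c| * (1 / (2 * ε)) * ∑' z, g z ^ 2 := by gcongr
    _ = _ := by ring

/-- finitely supported fields -/
def FSF (φ : Fld) : Prop := ∀ h, FS (fun z => φ z h)

theorem list_le {u : Face → ℝ} (hu : FS u) {g : Fld} (hg : FSF g) {G : ℝ}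
    (hG : ∀ b, ∑' z, g z b ^ 2 ≤ G) {ε : ℝ} (hε : 0 < ε) (l : List (ℝ × Fin 4 × Face))
    (hl : ∀ t ∈ l, t.2.2 ∈ near) :
    Summable (fun z => u z * (l.map (tm g z)).sum) ∧
    ∑' z, u z * (l.map (tm g z)).sum
      ≤ (l.map (fun t => |t.1|)).sum * (ε * E1 u + 1 / (2 * ε) * G) := by
  induction l with
  | nil => simp
  | cons t l ih =>
    obtain ⟨ih1, ih2⟩ := ih (fun t ht => hl t (List.mem_cons_of_mem _ ht))
    have hs := hl t List.mem_cons_self
    have p := pair_le hu (hg t.2.1) t.2.2 hs t.1 hε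
    have e : ∀ z, u z * (((t :: l).map (tm g z)).sum)
        = u z * (t.1 * (g (z + t.2.2) t.2.1 - g z t.2.1)) + u z * (l.map (tm g z)).sum := by
      intro z; simp only [List.map_cons, List.sum_cons, tm]; ring
    have s1 : Summable (fun z => u z * (t.1 * (g (z + t.2.2) t.2.1 - g z t.2.1))) :=
      (hu.mul_right _).summable
    refine ⟨by simp only [e]; exact s1.add ih1, ?_⟩
    simp only [e]
    rw [s1.tsum_add ih1]
    simp only [List.map_cons, List.sum_cons]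
    have hc := abs_nonneg t.1
    have : |t.1| * (ε * E1 u + 1 / (2 * ε) * ∑' z, g z t.2.1 ^ 2)
        ≤ |t.1| * (ε * E1 u + 1 / (2 * ε) * G) := by
      have := hG t.2.1
      gcongr
    linarith

theorem Ap_FSF {φ : Fld} (hφ : FSF φ) : FSF (Ap φ) := by
  have sm : ∀ (c : ℝ) {u : Face → ℝ}, FS u → FS (fun z => c * u z) := fun c u hu => hu.mul_left _
  have sh : ∀ (s : Face) {u : Face → ℝ}, FS u → FS (fun z => u (z - s)) := fun s u hu => by
    have := hu.shift (-s); simpa only [sub_eq_add_neg] using this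
  intro h
  fin_cases h
  · show FS (fun z => Ap φ z 0)
    simp only [Ap_S]
    exact (((hφ 1).add (hφ 2)).add (hφ 3)).add (sm xc (sh e2 (hφ 2)))
  · show FS (fun z => Ap φ z 1)
    have : (fun z => Ap φ z 1)
        = fun z => (-1 : ℝ) * φ z 0 + φ z 2 + φ z 3 + xc * φ (z + e1) 3 := by
      funext z; rw [Ap_E]; ring
    rw [this]
    exact (((sm (-1) (hφ 0)).add (hφ 2)).add (hφ 3)).add (sm xc ((hφ 3).shift e1))
  · show FS (fun z => Ap φ z 2)
    have : (fun z => Ap φ z 2)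
        = fun z => (-1 : ℝ) * φ z 0 + (-1 : ℝ) * φ z 1 + φ z 3 + (-xc) * φ (z + e2) 0 := by
      funext z; rw [Ap_N]; ring
    rw [this]
    exact (((sm (-1) (hφ 0)).add (sm (-1) (hφ 1))).add (hφ 3)).add (sm (-xc) ((hφ 0).shift e2))
  · show FS (fun z => Ap φ z 3)
    have : (fun z => Ap φ z 3)
        = fun z => (-1 : ℝ) * φ z 0 + (-1 : ℝ) * φ z 1 + (-1 : ℝ) * φ z 2
          + (-xc) * φ (z - e1) 1 := by
      funext z; rw [Ap_W]; ring
    rw [this]
    exact (((sm (-1) (hφ 0)).add (sm (-1) (hφ 1))).add (sm (-1) (hφ 2))).add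
      (sm (-xc) (sh e1 (hφ 1)))

theorem nsq_summable {φ : Fld} (hφ : FSF φ) : Summable (fun z => nsq (φ z)) := by
  have : (fun z => nsq (φ z)) = fun z => φ z 0 ^ 2 + φ z 1 ^ 2 + φ z 2 ^ 2 + φ z 3 ^ 2 := by
    funext z; exact nsq_eq _
  rw [this]
  exact ((((hφ 0).sq.add (hφ 1).sq).add (hφ 2).sq).add (hφ 3).sq).summable

theorem sq_le_nsq (p : Fin 4 → ℝ) (h : Fin 4) : p h ^ 2 ≤ nsq p :=
  Finset.single_le_sum (f := fun h => p h ^ 2) (fun _ _ => sq_nonneg _) (mem_univ h)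

/-- **energy inequality** in the plane: `∑ |Dφ|² ≤ K ∑ |Ap φ|²` -/
theorem energy {φ : Fld} (hφ : FSF φ) :
    ∑ h, E1 (fun z => φ z h) ≤ 1600 * ∑' z, nsq (Ap φ z) := by
  set g := Ap φ with hg
  have hgF : FSF g := Ap_FSF hφ
  set G := ∑' z, nsq (g z) with hG
  have hGb : ∀ b, ∑' z, g z b ^ 2 ≤ G := fun b =>
    ((hgF b).sq.summable).tsum_le_tsum (fun z => sq_le_nsq _ b) (nsq_summable hgF)
  have hG0 : 0 ≤ G := tsum_nonneg fun z => nsq_nonneg _
  have hx0 := xc_pos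
  have hx1 := xc_sq
  have hx2 : 2 / 5 < xc := by nlinarith
  have key : ∀ h, 2 * xc ^ 2 * E1 (fun z => φ z h)
      ≤ 4 * (1 / 25 * E1 (fun z => φ z h) + 25 / 2 * G) := by
    intro h
    set u : Face → ℝ := fun z => φ z h with hu
    have hE := E1_nonneg u
    obtain ⟨-, hl⟩ := list_le (hφ h) hgF hGb (ε := 1 / 25) (by norm_num) (Lt h) (Lt_near h)
    have hc := Lt_coef h
    have e1' : ∑' z, u z * ((Lt h).map (tm g z)).sum = 2 * xc ^ 2 * E1 u := by
      have : ∀ z, u z * ((Lt h).map (tm g z)).sum = -(2 * xc ^ 2) * (u z * lap u z) := by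
        intro z
        rw [← Bop_eq, hg, adj_lap]; ring
      simp only [this]
      rw [tsum_mul_left, tsum_mul_lap (hφ h)]
      have e3 : ∑' z, (D1 u z * D1 u z + D2 u z * D2 u z) = E1 u := by
        unfold E1
        congr 1; funext z; ring
      rw [e3]
      ring
    rw [e1'] at hl
    have h3 : 0 ≤ 1 / 25 * E1 u + 1 / (2 * (1 / 25)) * G := by positivity
    calc 2 * xc ^ 2 * E1 u ≤ _ := hl
      _ ≤ 4 * (1 / 25 * E1 u + 1 / (2 * (1 / 25)) * G) := by gcongr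
      _ = _ := by norm_num
  have k2 : ∀ h, E1 (fun z => φ z h) ≤ 400 * G := by
    intro h
    have := key h
    have hE := E1_nonneg (fun z => φ z h)
    have h4 : (4 / 25 : ℝ) ≤ xc ^ 2 := by nlinarith
    have h5 : 2 * (4 / 25) * E1 (fun z => φ z h) ≤ 2 * xc ^ 2 * E1 (fun z => φ z h) := by gcongr
    linarith
  calc ∑ h, E1 (fun z => φ z h) ≤ ∑ _h : Fin 4, 400 * G := sum_le_sum fun h _ => k2 h
    _ = 1600 * G := by simp; ring

end Crest.Agent.R165.Bkx806
end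
private theorem rz_af958a0d01 : type_of% @_root_.Crest.Agent.R165.Bkx806.Bop.eq_1 := @_root_.Crest.Agent.R165.Bkx806.Bop.eq_1 -- L62
private theorem rz_041e217037 : type_of% @_root_.Crest.Agent.R165.Bkx806.Lt.eq_1 := @_root_.Crest.Agent.R165.Bkx806.Lt.eq_1 -- L118
end

-- ▼ part R165/BkB_806
section

/-!
# Row 165 (S0250), block R, bulk regularity, part B (helper806)

* `energy_box` : `∑_{Q c n} |Dφ|² ≤ 3200 (∑_{Q c (n+1+k)} |Ap φ|² + k⁻² ∑_{Q c (n+1+k)} |φ|²)`.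
* `iter` : the operators `Df e` and `Ap` applied up to four times.
-/

set_option autoImplicit false
set_option linter.unusedSimpArgs false

noncomputable section

namespace Crest.Agent.R165.Bkx806

open Finset Crest.Agent.R165.Tr1x40 Crest.Agent.R165.PotAx894 Crest.Agent.R165.PotBx894

/-- multiplication of a field by a scalar function -/
def cutf (χ : Face → ℝ) (φ : Fld) : Fld := fun f h => χ f * φ f h

theorem Ap_cutf (χ : Face → ℝ) (φ : Fld) (f : Face) (h : Fin 4) :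
    Ap (cutf χ φ) f h = χ f * Ap φ f h
      + sg h * xc * ((χ (nb f h) - χ f) * φ (nb f h) (op h)) := by
  have e : A0 (cutf χ φ f) h = χ f * A0 (φ f) h := by
    fin_cases h <;> simp [cutf, A0] <;> ring
  simp only [Ap, A, Y, e, cutf]
  ring

/-- the neighbour map as an equivalence -/
def nbE (h : Fin 4) : Face ≃ Face where
  toFun f := nb f h
  invFun f := nb f (op h)
  left_inv f := nb_nb_op f h
  right_inv f := by
    have := nb_nb_op f (op h); rwa [op_op] at this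

theorem nrm_nb (c f : Face) (h : Fin 4) : |nrm c (nb f h) - nrm c f| ≤ 1 := by
  fin_cases h
  · show |nrm c (nb f 0) - nrm c f| ≤ 1
    have := abs_nrm_e2 c (nb f 0)
    rw [show nb f 0 + e2 = f by ext <;> simp [e2]] at this
    rwa [abs_sub_comm]
  · show |nrm c (nb f 1) - nrm c f| ≤ 1
    have := abs_nrm_e1 c f
    rwa [show f + e1 = nb f 1 by ext <;> simp [e1]] at this
  · show |nrm c (nb f 2) - nrm c f| ≤ 1
    have := abs_nrm_e2 c f
    rwa [show f + e2 = nb f 2 by ext <;> simp [e2]] at this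
  · show |nrm c (nb f 3) - nrm c f| ≤ 1
    have := abs_nrm_e1 c (nb f 3)
    rw [show nb f 3 + e1 = f by ext <;> simp [e1]] at this
    rwa [abs_sub_comm]

/-- restriction of a function to a box -/
def rst (S : Finset Face) (u : Face → ℝ) (z : Face) : ℝ := if z ∈ S then u z else 0

theorem rst_nonneg {S : Finset Face} {u : Face → ℝ} (hu : ∀ z, 0 ≤ u z) (z : Face) :
    0 ≤ rst S u z := by
  unfold rst; split_ifs
  · exact hu z
  · exact le_rfl

theorem rst_FS (S : Finset Face) (u : Face → ℝ) : FS (rst S u) :=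
  FS.of_finset S (fun z hz => by unfold rst; rw [if_neg hz])

theorem rst_tsum (S : Finset Face) (u : Face → ℝ) : ∑' z, rst S u z = ∑ z ∈ S, u z := by
  rw [tsum_eq_sum (s := S) (fun z hz => by unfold rst; rw [if_neg hz])]
  exact sum_congr rfl fun z hz => by unfold rst; rw [if_pos hz]

theorem cut_nonneg (c : Face) (n k : ℕ) (z : Face) : 0 ≤ cut c n k z := le_max_left _ _
theorem cut_le_one (c : Face) (n k : ℕ) (z : Face) : cut c n k z ≤ 1 :=
  max_le zero_le_one (min_le_left _ _)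

/-- the commutator term -/
theorem comm_le (c : Face) (n k : ℕ) (φ : Fld) (z : Face) (h : Fin 4) :
    ((cut c n k (nb z h) - cut c n k z) * φ (nb z h) (op h)) ^ 2
      ≤ 1 / (k : ℝ) ^ 2 * rst (Q c (n + k)) (fun z => φ z (op h) ^ 2) (nb z h) := by
  by_cases hz : nb z h ∈ Q c (n + k)
  · have hgz : rst (Q c (n + k)) (fun z => φ z (op h) ^ 2) (nb z h) = φ (nb z h) (op h) ^ 2 := by
      unfold rst; rw [if_pos hz]
    have lip : |cut c n k (nb z h) - cut c n k z| ≤ 1 / k := cut_lip (nrm_nb c z h)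
    have lip2 : (cut c n k (nb z h) - cut c n k z) ^ 2 ≤ (1 / (k : ℝ)) ^ 2 := by
      rw [← sq_abs]; gcongr
    rw [hgz, mul_pow]
    calc (cut c n k (nb z h) - cut c n k z) ^ 2 * φ (nb z h) (op h) ^ 2
        ≤ (1 / (k : ℝ)) ^ 2 * φ (nb z h) (op h) ^ 2 := by gcongr
      _ = _ := by ring
  · have h1 := not_mem_Q_succ hz
    have h2 := nrm_nb c z h
    rw [abs_le] at h2
    push_cast at h1
    have z1 : cut c n k (nb z h) = 0 := cut_zero (by linarith)
    have z2 : cut c n k z = 0 := cut_zero (by linarith [h2.2])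
    rw [z1, z2, sub_zero, zero_mul]
    have h0 : 0 ≤ rst (Q c (n + k)) (fun z => φ z (op h) ^ 2) (nb z h) :=
      rst_nonneg (fun z => sq_nonneg _) _
    have h3 : 0 ≤ 1 / (k : ℝ) ^ 2 * rst (Q c (n + k)) (fun z => φ z (op h) ^ 2) (nb z h) := by
      positivity
    simpa using h3

theorem cutf_row (c : Face) (n k : ℕ) (φ : Fld) (z : Face) (h : Fin 4) :
    Ap (cutf (cut c n k) φ) z h ^ 2 ≤ 2 * (cut c n k z * Ap φ z h) ^ 2
        + 1 / 2 * (1 / (k : ℝ) ^ 2 * rst (Q c (n + k)) (fun z => φ z (op h) ^ 2) (nb z h)) := by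
  rw [Ap_cutf]
  have hs := sg_sq h
  have hc := comm_le c n k φ z h
  have hx0 := xc_pos
  have hx1 := xc_lt_half
  have hx2 : xc ^ 2 ≤ 1 / 4 := by nlinarith
  generalize cut c n k z * Ap φ z h = p
  generalize (cut c n k (nb z h) - cut c n k z) * φ (nb z h) (op h) = q at hc ⊢
  generalize 1 / (k : ℝ) ^ 2 * rst (Q c (n + k)) (fun z => φ z (op h) ^ 2) (nb z h) = m at hc ⊢
  have e1' : (p + sg h * xc * q) ^ 2 ≤ 2 * p ^ 2 + 2 * (sg h ^ 2 * xc ^ 2 * q ^ 2) := by
    nlinarith [sq_nonneg (p - sg h * xc * q)]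
  have e2' : sg h ^ 2 * xc ^ 2 * q ^ 2 ≤ 1 / 4 * m := by
    rw [hs, one_mul]
    have := sq_nonneg q
    calc xc ^ 2 * q ^ 2 ≤ 1 / 4 * q ^ 2 := by gcongr
      _ ≤ 1 / 4 * m := by gcongr
  linarith

theorem cutf_nsq (c : Face) (n k : ℕ) (φ : Fld) (z : Face) :
    nsq (Ap (cutf (cut c n k) φ) z) ≤ 2 * rst (Q c (n + k)) (fun z => nsq (Ap φ z)) z
      + 1 / 2 * (1 / (k : ℝ) ^ 2 *
          ∑ h, rst (Q c (n + k)) (fun z => φ z (op h) ^ 2) (nb z h)) := by
  have s1 : nsq (Ap (cutf (cut c n k) φ) z) ≤ ∑ h, (2 * (cut c n k z * Ap φ z h) ^ 2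
        + 1 / 2 * (1 / (k : ℝ) ^ 2 * rst (Q c (n + k)) (fun z => φ z (op h) ^ 2) (nb z h))) :=
    sum_le_sum fun h _ => cutf_row c n k φ z h
  refine s1.trans ?_
  rw [sum_add_distrib, ← mul_sum, ← mul_sum, ← mul_sum]
  have s2 : ∑ h, (cut c n k z * Ap φ z h) ^ 2 = cut c n k z ^ 2 * nsq (Ap φ z) := by
    simp only [nsq, mul_sum, mul_pow]
  have s3 : cut c n k z ^ 2 * nsq (Ap φ z) ≤ rst (Q c (n + k)) (fun z => nsq (Ap φ z)) z := by
    unfold rst
    by_cases hz : z ∈ Q c (n + k)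
    · rw [if_pos hz]
      have h1 : cut c n k z ^ 2 ≤ 1 := by
        nlinarith [cut_nonneg c n k z, cut_le_one c n k z]
      nlinarith [nsq_nonneg (Ap φ z)]
    · rw [if_neg hz]
      have h1 := not_mem_Q_succ hz
      push_cast at h1
      have : cut c n k z = 0 := cut_zero (by linarith)
      rw [this]; simp
  rw [s2]
  linarith

theorem cut_FS (c : Face) (n k : ℕ) : FS (cut c n k) :=
  FS.of_finset (Q c (n + k)) (fun z hz => cut_zero (by
    have h1 := not_mem_Q_succ hz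
    push_cast at h1
    linarith))

theorem nbE_apply (h : Fin 4) (z : Face) : nbE h z = nb z h := rfl

theorem tsum_comp_nb (u : Face → ℝ) (h : Fin 4) : ∑' z, u (nb z h) = ∑' z, u z := by
  have := (nbE h).tsum_eq u
  simpa only [nbE_apply] using this

theorem summable_comp_nb {u : Face → ℝ} (hu : Summable u) (h : Fin 4) :
    Summable (fun z => u (nb z h)) := by
  have := (nbE h).summable_iff.2 hu
  exact this

theorem tsum_nb (S : Finset Face) (φ : Fld) (h : Fin 4) :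
    ∑' z, rst S (fun z => φ z (op h) ^ 2) (nb z h) = ∑ z ∈ S, φ z (op h) ^ 2 := by
  rw [tsum_comp_nb, rst_tsum]

theorem nb_summable (S : Finset Face) (φ : Fld) (h : Fin 4) :
    Summable (fun z => rst S (fun z => φ z (op h) ^ 2) (nb z h)) :=
  summable_comp_nb (rst_FS _ _).summable h

theorem tsum_nb_all (S : Finset Face) (φ : Fld) :
    ∑' z, ∑ h, rst S (fun z => φ z (op h) ^ 2) (nb z h) = ∑ z ∈ S, nsq (φ z) := by
  rw [Summable.tsum_finsetSum fun h _ => nb_summable S φ h,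
    sum_congr rfl fun h _ => tsum_nb S φ h, sum_comm]
  refine sum_congr rfl fun z _ => ?_
  rw [nsq_eq, Fin.sum_univ_four]
  simp only [op_zero, op_one, op_two, op_three]
  ring

theorem abs_tsum {F a G : Face → ℝ} (hF : Summable F) (ha : Summable a) (hG : Summable G) (c : ℝ)
    (h : ∀ z, F z ≤ 2 * a z + 1 / 2 * (c * G z)) :
    ∑' z, F z ≤ 2 * ∑' z, a z + 1 / 2 * (c * ∑' z, G z) := by
  have := hF.tsum_le_tsum h ((ha.mul_left 2).add ((hG.mul_left c).mul_left (1 / 2)))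
  rwa [(ha.mul_left 2).tsum_add ((hG.mul_left c).mul_left (1 / 2)), tsum_mul_left, tsum_mul_left,
    tsum_mul_left] at this

theorem cutf_tsum (c : Face) (n k : ℕ) (φ : Fld) :
    ∑' z, nsq (Ap (cutf (cut c n k) φ) z) ≤ 2 * ∑ z ∈ Q c (n + k), nsq (Ap φ z)
      + 1 / 2 * (1 / (k : ℝ) ^ 2 * ∑ z ∈ Q c (n + k), nsq (φ z)) := by
  have hψF : FSF (cutf (cut c n k) φ) := fun h => (cut_FS c n k).mul_right _
  have key := abs_tsum (nsq_summable (Ap_FSF hψF))
    (a := rst (Q c (n + k)) (fun z => nsq (Ap φ z))) (rst_FS _ _).summable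
    (G := fun z => ∑ h, rst (Q c (n + k)) (fun z => φ z (op h) ^ 2) (nb z h))
    (summable_sum fun h _ => nb_summable _ _ h) (1 / (k : ℝ) ^ 2) (cutf_nsq c n k φ)
  rw [tsum_nb_all, rst_tsum] at key
  exact key

theorem cutf_low (c : Face) (n k : ℕ) (hk : 0 < k) (φ : Fld) :
    ∑ z ∈ Q c n, (nsq (Df e1 φ z) + nsq (Df e2 φ z))
      ≤ ∑ h, E1 (fun z => cutf (cut c (n + 1) k) φ z h) := by
  have hψF : FSF (cutf (cut c (n + 1) k) φ) := fun h => (cut_FS c (n + 1) k).mul_right _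
  have eq : ∀ z ∈ Q c n, nsq (Df e1 φ z) + nsq (Df e2 φ z)
      = ∑ h, (D1 (fun z => cutf (cut c (n + 1) k) φ z h) z ^ 2
        + D2 (fun z => cutf (cut c (n + 1) k) φ z h) z ^ 2) := by
    intro z hz
    have a0 : cut c (n + 1) k z = 1 := cut_one hk (Q_mono (by omega) hz)
    have a1 : cut c (n + 1) k (z + e1) = 1 := cut_one hk (add_e1_mem hz)
    have a2 : cut c (n + 1) k (z + e2) = 1 := cut_one hk (add_e2_mem hz)
    simp only [nsq, ← sum_add_distrib]
    refine sum_congr rfl fun h _ => ?_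
    simp only [Df_apply, D1, D2, cutf, a0, a1, a2, one_mul]
  rw [sum_congr rfl eq, sum_comm]
  refine sum_le_sum fun h _ => ?_
  exact (E1_summable (hψF h)).sum_le_tsum (Q c n) (fun z _ => by positivity)

theorem energy_box (c : Face) (n k : ℕ) (hk : 0 < k) (φ : Fld) :
    ∑ z ∈ Q c n, (nsq (Df e1 φ z) + nsq (Df e2 φ z))
      ≤ 3200 * (∑ z ∈ Q c (n + 1 + k), nsq (Ap φ z)
        + 1 / (k : ℝ) ^ 2 * ∑ z ∈ Q c (n + 1 + k), nsq (φ z)) := by
  have hψF : FSF (cutf (cut c (n + 1) k) φ) := fun h => (cut_FS c (n + 1) k).mul_right _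
  have main := energy hψF
  have low := cutf_low c n k hk φ
  have up := cutf_tsum c (n + 1) k φ
  have hP0 : 0 ≤ ∑ z ∈ Q c (n + 1 + k), nsq (φ z) := sum_nonneg fun z _ => nsq_nonneg _
  have e0 : 0 ≤ 1 / (k : ℝ) ^ 2 * ∑ z ∈ Q c (n + 1 + k), nsq (φ z) := by positivity
  linarith

end Crest.Agent.R165.Bkx806
end
end

-- ▼ part R165/BkC_806
section

/-!
# Row 165 (S0250), block R, bulk regularity, part C (helper806)

Iteration of `energy_box` for the commuting operators `Df e1`, `Df e2`, `Ap`, and sup bounds.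

* `iter` : `|D^m A^j φ|_{L2(Q c ((12-2m) r))} ≤ C K r^{-(m+j)}`;
* `sup_bound` : `|D^m A^j φ| ≤ 10⁹ K r^{-(m+j+1)}` on `Q c (4 r)`, `m + j ≤ 2`.
-/

set_option autoImplicit false
set_option linter.unusedSimpArgs false

noncomputable section

namespace Crest.Agent.R165.Bkx806

open Finset Crest.Agent.R165.Tr1x40 Crest.Agent.R165.PotAx894 Crest.Agent.R165.PotBx894

/-- squared `L2` norm on a box -/
def N2 (φ : Fld) (c : Face) (n : ℕ) : ℝ := ∑ z ∈ Q c n, nsq (φ z)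

theorem N2_nonneg (φ : Fld) (c : Face) (n : ℕ) : 0 ≤ N2 φ c n := sum_nonneg fun _ _ => nsq_nonneg _

theorem N2_mono (φ : Fld) (c : Face) {m n : ℕ} (h : m ≤ n) : N2 φ c m ≤ N2 φ c n :=
  sum_le_sum_of_subset_of_nonneg (Q_mono h) fun _ _ _ => nsq_nonneg _

/-- direction -/
def ev (b : Bool) : Face := if b then e1 else e2

/-- iterated differences -/
def Dl : List Bool → Fld → Fld
  | [], φ => φ
  | b :: l, φ => Df (ev b) (Dl l φ)

theorem Ap_Dl (l : List Bool) (φ : Fld) : Ap (Dl l φ) = Dl l (Ap φ) := by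
  induction l with
  | nil => rfl
  | cons b l ih => simp only [Dl]; rw [Ap_Df, ih]

theorem Df_N2 (b : Bool) (φ : Fld) (c : Face) (n k : ℕ) (hk : 0 < k) :
    N2 (Df (ev b) φ) c n ≤ 3200 * (N2 (Ap φ) c (n + 1 + k)
      + 1 / (k : ℝ) ^ 2 * N2 φ c (n + 1 + k)) := by
  have h := energy_box c n k hk φ
  rw [sum_add_distrib] at h
  have h1 := N2_nonneg (Df e1 φ) c n
  have h2 := N2_nonneg (Df e2 φ) c n
  unfold N2 at *
  cases b
  · simp only [ev, Bool.false_eq_true, if_false]; linarith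
  · simp only [ev, if_true]; linarith

/-- hypothesis of the bulk theorems: `|A^j φ|_{L2(Q c (12 r))} ≤ K r^{-j}`, `j ≤ 4` -/
def Hyp (φ : Fld) (c : Face) (r : ℕ) (K : ℝ) : Prop :=
  ∀ j ≤ 4, N2 (Ap^[j] φ) c (12 * r) ≤ K ^ 2 / (r : ℝ) ^ (2 * j)

theorem iter {φ : Fld} {c : Face} {r : ℕ} (hr : 0 < r) {K : ℝ} (H : Hyp φ c r K) (l : List Bool) :
    ∀ j, l.length + j ≤ 4 →
      N2 (Dl l (Ap^[j] φ)) c ((12 - 2 * l.length) * r)
        ≤ 6400 ^ l.length * (K ^ 2 / (r : ℝ) ^ (2 * (l.length + j))) := by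
  have hr' : (0 : ℝ) < r := by exact_mod_cast hr
  have hr1 : (1 : ℝ) ≤ r := by exact_mod_cast hr
  induction l with
  | nil => intro j hj; simpa [Dl] using H j (by simpa using hj)
  | cons b l ih =>
    intro j hj
    simp only [List.length_cons] at hj ⊢
    set m := l.length with hm
    have i1 := ih (j + 1) (by omega)
    have i2 := ih j (by omega)
    have s := Df_N2 b (Dl l (Ap^[j] φ)) c ((12 - 2 * (m + 1)) * r) (2 * r - 1) (by omega)
    have e : (12 - 2 * (m + 1)) * r + 1 + (2 * r - 1) = (12 - 2 * m) * r := by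
      have h5 : m ≤ 3 := by omega
      have h6 : (12 - 2 * m) = (12 - 2 * (m + 1)) + 2 := by omega
      rw [h6, add_mul]
      omega
    rw [e, Ap_Dl, ← Function.iterate_succ_apply' Ap j φ] at s
    have hk : (r : ℝ) ≤ ((2 * r - 1 : ℕ) : ℝ) := by
      have : r ≤ 2 * r - 1 := by omega
      exact_mod_cast this
    have hk2 : 1 / ((2 * r - 1 : ℕ) : ℝ) ^ 2 ≤ 1 / (r : ℝ) ^ 2 := by
      apply one_div_le_one_div_of_le (by positivity)
      gcongr
    have n0 := N2_nonneg (Dl l (Ap^[j] φ)) c ((12 - 2 * m) * r)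
    have s2 : 1 / ((2 * r - 1 : ℕ) : ℝ) ^ 2 * N2 (Dl l (Ap^[j] φ)) c ((12 - 2 * m) * r)
        ≤ 1 / (r : ℝ) ^ 2 * (6400 ^ m * (K ^ 2 / (r : ℝ) ^ (2 * (m + j)))) := by
      gcongr
    have s3 : 1 / (r : ℝ) ^ 2 * (6400 ^ m * (K ^ 2 / (r : ℝ) ^ (2 * (m + j))))
        = 6400 ^ m * (K ^ 2 / (r : ℝ) ^ (2 * (m + (j + 1)))) := by
      rw [show 2 * (m + (j + 1)) = 2 * (m + j) + 2 by ring, pow_add]
      field_simp
    rw [s3] at s2
    have e2 : 2 * (m + 1 + j) = 2 * (m + (j + 1)) := by ring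
    rw [e2, pow_succ]
    show N2 (Df (ev b) (Dl l (Ap^[j] φ))) c ((12 - 2 * (m + 1)) * r) ≤ _
    linarith

theorem comp_sum (φ : Fld) (h : Fin 4) (c : Face) (n : ℕ) :
    ∑ z ∈ Q c n, φ z h ^ 2 ≤ N2 φ c n :=
  sum_le_sum fun z _ => sq_le_nsq _ h

theorem sup_bound {φ : Fld} {c : Face} {r : ℕ} (hr : 0 < r) {K : ℝ} (hK : 0 ≤ K)
    (H : Hyp φ c r K) (l : List Bool) (j : ℕ) (hlj : l.length + j ≤ 2) {z : Face}
    (hz : z ∈ Q c (4 * r)) (h : Fin 4) :
    |Dl l (Ap^[j] φ) z h| ≤ 10 ^ 9 * (K / (r : ℝ) ^ (l.length + j + 1)) := by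
  have hr' : (0 : ℝ) < r := by exact_mod_cast hr
  have hr1 : (1 : ℝ) ≤ r := by exact_mod_cast hr
  set m := l.length with hm
  set X := K ^ 2 / (r : ℝ) ^ (2 * (m + j + 1)) with hX
  have hX0 : 0 ≤ X := by positivity
  have bd : ∀ l' : List Bool, l'.length + j ≤ 4 → N2 (Dl l' (Ap^[j] φ)) c (4 * r)
      ≤ 6400 ^ l'.length * (K ^ 2 / (r : ℝ) ^ (2 * (l'.length + j))) := by
    intro l' hl'
    refine le_trans (N2_mono _ _ ?_) (iter hr H l' j hl')
    have : 4 ≤ 12 - 2 * l'.length := by omega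
    exact Nat.mul_le_mul_right r this
  have p4 : (6400 : ℝ) ^ m ≤ 6400 ^ 2 := pow_le_pow_right₀ (by norm_num) (by omega)
  have b0 := bd l (by omega)
  have b1 := bd (true :: l) (by simp only [List.length_cons]; omega)
  have b2 := bd (false :: l) (by simp only [List.length_cons]; omega)
  have b3 := bd (false :: true :: l) (by simp only [List.length_cons]; omega)
  simp only [List.length_cons, ← hm] at b0 b1 b2 b3
  have sob := sobolev_box c (4 * r) (fun z => Dl l (Ap^[j] φ) z h) hz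
  have c0 := comp_sum (Dl l (Ap^[j] φ)) h c (4 * r)
  have c1 := comp_sum (Dl (true :: l) (Ap^[j] φ)) h c (4 * r)
  have c2 := comp_sum (Dl (false :: l) (Ap^[j] φ)) h c (4 * r)
  have c3 := comp_sum (Dl (false :: true :: l) (Ap^[j] φ)) h c (4 * r)
  have d1 : ∀ z, D1 (fun z => Dl l (Ap^[j] φ) z h) z = Dl (true :: l) (Ap^[j] φ) z h :=
    fun z => rfl
  have d2 : ∀ z, D2 (fun z => Dl l (Ap^[j] φ) z h) z = Dl (false :: l) (Ap^[j] φ) z h :=
    fun z => rfl
  have d3 : ∀ z, D2 (D1 (fun z => Dl l (Ap^[j] φ) z h)) z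
      = Dl (false :: true :: l) (Ap^[j] φ) z h := fun z => rfl
  simp only [d1, d2, d3, sum_add_distrib] at sob
  -- scalar estimates
  have y0 : K ^ 2 / (r : ℝ) ^ (2 * (m + j)) = (r : ℝ) ^ 2 * X := by
    rw [hX, show 2 * (m + j + 1) = 2 * (m + j) + 2 by ring, pow_add]; field_simp
  have y1 : K ^ 2 / (r : ℝ) ^ (2 * (m + 1 + j)) = X := by
    rw [hX, show 2 * (m + 1 + j) = 2 * (m + j + 1) by ring]
  have y2 : K ^ 2 / (r : ℝ) ^ (2 * (m + 1 + 1 + j)) = X / (r : ℝ) ^ 2 := by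
    rw [hX, show 2 * (m + 1 + 1 + j) = 2 * (m + j + 1) + 2 by ring, pow_add]; field_simp
  rw [y0] at b0
  rw [y1] at b1 b2
  rw [y2] at b3
  have q1 : 4 / (2 * ((4 * r : ℕ) : ℝ) + 1) ^ 2 * ((r : ℝ) ^ 2 * X) ≤ X := by
    push_cast
    rw [div_mul_eq_mul_div, div_le_iff₀ (by positivity)]
    nlinarith [mul_nonneg hX0 (sq_nonneg (r : ℝ)), mul_nonneg hX0 hr'.le]
  have q3 : 4 * (2 * ((4 * r : ℕ) : ℝ) + 1) ^ 2 * (X / (r : ℝ) ^ 2) ≤ 400 * X := by
    push_cast
    rw [mul_div_assoc', div_le_iff₀ (by positivity)]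
    have : (2 * (4 * (r : ℝ)) + 1) ^ 2 ≤ 100 * r ^ 2 := by nlinarith
    nlinarith
  have main : (Dl l (Ap^[j] φ) z h) ^ 2 ≤ 10 ^ 18 * X := by
    have t0 : 4 / (2 * ((4 * r : ℕ) : ℝ) + 1) ^ 2 * ∑ z ∈ Q c (4 * r), Dl l (Ap^[j] φ) z h ^ 2
        ≤ 6400 ^ m * X := by
      calc _ ≤ 4 / (2 * ((4 * r : ℕ) : ℝ) + 1) ^ 2 * (6400 ^ m * ((r : ℝ) ^ 2 * X)) := by
            gcongr; exact c0.trans b0
        _ = 6400 ^ m * (4 / (2 * ((4 * r : ℕ) : ℝ) + 1) ^ 2 * ((r : ℝ) ^ 2 * X)) := by ring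
        _ ≤ _ := by gcongr
    have t3 : 4 * (2 * ((4 * r : ℕ) : ℝ) + 1) ^ 2
          * ∑ z ∈ Q c (4 * r), Dl (false :: true :: l) (Ap^[j] φ) z h ^ 2
        ≤ 6400 ^ (m + 1 + 1) * (400 * X) := by
      calc _ ≤ 4 * (2 * ((4 * r : ℕ) : ℝ) + 1) ^ 2 * (6400 ^ (m + 1 + 1) * (X / (r : ℝ) ^ 2)) := by
            gcongr; exact c3.trans b3
        _ = 6400 ^ (m + 1 + 1) * (4 * (2 * ((4 * r : ℕ) : ℝ) + 1) ^ 2 * (X / (r : ℝ) ^ 2)) := by
            ring
        _ ≤ _ := by gcongr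
    have e1' : (6400 : ℝ) ^ (m + 1) = 6400 * 6400 ^ m := by ring
    have e2' : (6400 : ℝ) ^ (m + 1 + 1) = 6400 ^ 2 * 6400 ^ m := by ring
    rw [e1'] at b1 b2
    rw [e2'] at t3
    have p0 : (0 : ℝ) < 6400 ^ m := by positivity
    set Pm := (6400 : ℝ) ^ m with hPm
    have : (Dl l (Ap^[j] φ) z h) ^ 2
        ≤ Pm * X + 4 * (6400 * Pm * X + 6400 * Pm * X) + 6400 ^ 2 * Pm * (400 * X) := by
      have := c1.trans b1
      have := c2.trans b2
      linarith
    have f1 : Pm * X + 4 * (6400 * Pm * X + 6400 * Pm * X) + 6400 ^ 2 * Pm * (400 * X)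
        = (1 + 8 * 6400 + 6400 ^ 2 * 400) * (Pm * X) := by ring
    have f2 : Pm * X ≤ 6400 ^ 2 * X := by gcongr
    rw [f1] at this
    calc _ ≤ (1 + 8 * 6400 + 6400 ^ 2 * 400 : ℝ) * (Pm * X) := this
      _ ≤ (1 + 8 * 6400 + 6400 ^ 2 * 400 : ℝ) * (6400 ^ 2 * X) := by gcongr
      _ ≤ _ := by nlinarith
  have y : 10 ^ 18 * X = (10 ^ 9 * (K / (r : ℝ) ^ (m + j + 1))) ^ 2 := by
    rw [hX, show 2 * (m + j + 1) = (m + j + 1) * 2 by ring, pow_mul]; ring
  rw [y] at main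
  exact abs_le_of_sq_le_sq main (by positivity)

end Crest.Agent.R165.Bkx806
end
private theorem rz_d678e14669 : type_of% @_root_.Crest.Agent.R165.Bkx806.Dl.eq_def := @_root_.Crest.Agent.R165.Bkx806.Dl.eq_def -- L33
private theorem rz_a9ccef359f : type_of% @_root_.Crest.Agent.R165.Bkx806.Dl.eq_1 := @_root_.Crest.Agent.R165.Bkx806.Dl.eq_1 -- L33
end

-- ▼ part R165/BkFin_806

/-!
# Row 165 (S0250), block R: the bulk regularity input `BkReg` (helper806)

Bridge from the sup bounds of `BkC_806` (fields `Face → Fin 4 → ℝ`) to helper812's hypothesis `SB`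
(fields `HE ℤ → ℝ`), and the final theorem

* `exists_BkReg : ∃ C, W2x812.BkReg C`.
-/

set_option autoImplicit false
set_option linter.unusedSimpArgs false

noncomputable section

namespace Crest.Agent.R165.BkFinx806

open Crest.Agent.R165.Latx683 Crest.Agent.R165.PlaneModesx901 Crest.Agent.R165.GDefx387
  Crest.Agent.R165.Wtx898 Crest.Agent.R165.W2x812 Crest.Agent.R165.BkTayx812
open Crest.Agent.R165.Bkx806 (Ap Df Dl ev Ap_S Ap_E Ap_N Ap_W sup_bound N2 Hyp)
open Crest.Agent.R165.PotAx894 (e1 e2 Q mem_Q)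

/-- curried form of a test function -/
def cr (f : Tst) : Crest.Agent.R165.Tr1x40.Fld := fun z h => f (z, h)

theorem cr_apply (f : Tst) (z : Fc) (h : Fin 4) : cr f z h = f (z, h) := rfl


theorem sub_e2 (z : Fc) : z - e2 = (z.1, z.2 - 1) := by ext <;> simp [e2]
theorem sub_e1 (z : Fc) : z - e1 = (z.1 - 1, z.2) := by ext <;> simp [e1]
theorem add_e2 (z : Fc) : z + e2 = (z.1, z.2 + 1) := by ext <;> simp [e2]
theorem add_e1 (z : Fc) : z + e1 = (z.1 + 1, z.2) := by ext <;> simp [e1]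

theorem cr_Apl (f : Tst) : cr (Apl f) = Ap (cr f) := by
  funext z h
  fin_cases h
  · show Apl f (z, 0) = Ap (cr f) z 0
    rw [Apl_S, Ap_S, sub_e2]; rfl
  · show Apl f (z, 1) = Ap (cr f) z 1
    rw [Apl_E, Ap_E, add_e1]; rfl
  · show Apl f (z, 2) = Ap (cr f) z 2
    rw [Apl_N, Ap_N, add_e2]; rfl
  · show Apl f (z, 3) = Ap (cr f) z 3
    rw [Apl_W, Ap_W, sub_e1]; rfl

theorem cr_Dx (f : Tst) : cr (Dx f) = Df (ev true) (cr f) := by
  funext z h
  show Dx f (z, h) = cr f (z + e1) h - cr f z h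
  rw [Dx_apply, add_e1]; rfl

theorem cr_Dy (f : Tst) : cr (Dy f) = Df (ev false) (cr f) := by
  funext z h
  show Dy f (z, h) = cr f (z + e2) h - cr f z h
  rw [Dy_apply, add_e2]; rfl

theorem cr_iter (f : Tst) (j : ℕ) : cr ((Aop (wPl ℤ))^[j] f) = Ap^[j] (cr f) := by
  induction j with
  | zero => rfl
  | succ j ih =>
    rw [Function.iterate_succ_apply', Function.iterate_succ_apply', ← ih]
    exact cr_Apl _

theorem mem_ball_Q (y : Fc) (n : ℕ) (z : Fc) : z ∈ ball y n ↔ z ∈ Q y n := by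
  rw [mem_ball, fd_int, mem_Q, Int.abs_eq_natAbs, Int.abs_eq_natAbs]
  omega

theorem N2_eq (f : Tst) (y : Fc) (n : ℕ) : N2 (cr f) y n = L2on (ball y n) f ^ 2 := by
  rw [L2on_sq (ball_finite y n)]
  have e : (ball_finite y n).toFinset = Q y n := by
    ext z
    rw [Set.Finite.mem_toFinset]
    exact mem_ball_Q y n z
  rw [e, Finset.sum_product]
  rfl

theorem hyp_of_nnB (y : Fc) (ρ : ℕ) (hρ : 1 ≤ ρ) (f : Tst) (hf : nnB (wPl ℤ) ρ y f ≤ 1) :
    Hyp (cr f) y (2 * ρ) 16 := by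
  intro j hj
  have hρ0 : (0 : ℝ) < ρ := by exact_mod_cast hρ
  have h1 := pow_mul_L2on_le (w := wPl ℤ) (r := ρ) (x := y) (show j ≤ MM by unfold MM; omega) f
  have h2 : (ρ : ℝ) ^ j * L2on (ball y (s1 * ρ)) ((Aop (wPl ℤ))^[j] f) ≤ 1 := h1.trans hf
  have h3 : L2on (ball y (12 * (2 * ρ))) ((Aop (wPl ℤ))^[j] f)
      ≤ L2on (ball y (s1 * ρ)) ((Aop (wPl ℤ))^[j] f) := by
    refine L2on_mono (fun z hz => ?_) (ball_finite _ _) _
    rw [mem_ball] at hz ⊢
    refine le_trans hz ?_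
    unfold s1; omega
  have h4 := L2on_nonneg (ball y (12 * (2 * ρ))) ((Aop (wPl ℤ))^[j] f)
  have h5 : (ρ : ℝ) ^ j * L2on (ball y (12 * (2 * ρ))) ((Aop (wPl ℤ))^[j] f) ≤ 1 := by
    refine le_trans ?_ h2
    gcongr
  rw [← cr_iter, N2_eq, le_div_iff₀ (by positivity)]
  set L := L2on (ball y (12 * (2 * ρ))) ((Aop (wPl ℤ))^[j] f) with hL
  have e : L ^ 2 * ((2 * ρ : ℕ) : ℝ) ^ (2 * j) = 4 ^ j * ((ρ : ℝ) ^ j * L) ^ 2 := by
    push_cast
    have h2j : (2 : ℝ) ^ (2 * j) = 4 ^ j := by rw [pow_mul]; norm_num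
    rw [mul_pow, h2j, pow_mul' (ρ : ℝ) 2 j]
    ring
  rw [e]
  have h6 : ((ρ : ℝ) ^ j * L) ^ 2 ≤ 1 := by
    have : 0 ≤ (ρ : ℝ) ^ j * L := by positivity
    nlinarith
  have h7 : (4 : ℝ) ^ j ≤ 4 ^ 4 := pow_le_pow_right₀ (by norm_num) hj
  nlinarith [pow_pos (show (0 : ℝ) < 4 by norm_num) j]

theorem sup_of (y : Fc) (ρ : ℕ) (hρ : 1 ≤ ρ) (f : Tst) (hf : nnB (wPl ℤ) ρ y f ≤ 1)
    (l : List Bool) (j : ℕ) (hlj : l.length + j ≤ 2) (g : Tst)
    (hg : cr g = Dl l (Ap^[j] (cr f))) :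
    Sup y (5 * ρ) g (16 * 10 ^ 9 / (ρ : ℝ) ^ (l.length + j + 1)) := by
  intro h hh
  have hρ0 : (0 : ℝ) < ρ := by exact_mod_cast hρ
  have hz : h.1 ∈ Q y (4 * (2 * ρ)) := by
    rw [← mem_ball_Q, mem_ball]
    rw [mem_ball] at hh
    omega
  have key := sup_bound (by omega) (by norm_num) (hyp_of_nnB y ρ hρ f hf) l j hlj hz h.2
  rw [← hg, cr_apply] at key
  refine key.trans ?_
  have e : (16 : ℝ) * 10 ^ 9 / (ρ : ℝ) ^ (l.length + j + 1)
      = 10 ^ 9 * (16 / (ρ : ℝ) ^ (l.length + j + 1)) := by ring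
  rw [e]
  have : (ρ : ℝ) ≤ ((2 * ρ : ℕ) : ℝ) := by push_cast; linarith
  gcongr

theorem SB_of (y : Fc) (ρ : ℕ) (hρ : 1 ≤ ρ) (f : Tst) (hf : nnB (wPl ℤ) ρ y f ≤ 1) :
    SB (16 * 10 ^ 9) ρ y (5 * ρ) f where
  f0 := by
    have := sup_of y ρ hρ f hf [] 0 (by simp) f rfl
    simpa using this
  fx := sup_of y ρ hρ f hf [true] 0 (by simp) _ (cr_Dx f)
  fy := sup_of y ρ hρ f hf [false] 0 (by simp) _ (cr_Dy f)
  fxx := sup_of y ρ hρ f hf [true, true] 0 (by simp) _ (by rw [cr_Dx, cr_Dx]; rfl)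
  fxy := sup_of y ρ hρ f hf [true, false] 0 (by simp) _ (by rw [cr_Dx, cr_Dy]; rfl)
  fyy := sup_of y ρ hρ f hf [false, false] 0 (by simp) _ (by rw [cr_Dy, cr_Dy]; rfl)
  g0 := sup_of y ρ hρ f hf [] 1 (by simp) _ (cr_Apl f)
  gx := sup_of y ρ hρ f hf [true] 1 (by simp) _ (by rw [cr_Dx, cr_Apl]; rfl)
  gy := sup_of y ρ hρ f hf [false] 1 (by simp) _ (by rw [cr_Dy, cr_Apl]; rfl)
  k0 := sup_of y ρ hρ f hf [] 2 (by simp) _ (by rw [cr_Apl, cr_Apl]; rfl)

/-- **the bulk regularity input of block G** -/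
theorem bkReg : BkReg (50000000 * (16 * 10 ^ 9)) :=
  bkReg_of_SB (by norm_num) SB_of

theorem exists_BkReg : ∃ C, BkReg C := ⟨_, bkReg⟩

end Crest.Agent.R165.BkFinx806
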