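import Crest.Agent.R165.J4K0Map_126
import Crest.Agent.R165.KInit_892

/-!
# Row 165 (S0250), block J4: supports, locality, connectedness of the initial activities (helper126)

* `K0_ne`    : a nonzero activity has a nonzero connected family of items
* `K0_empty`, `K0_supp`, `K0_supp'` : supports
* `K0_mem`   : locality (any monotone family of subalgebras)
* `K0_conn`  : the supports are connected at range `1` (hence `Packx915.Conn fd R` for `1 ≤ R`)
-/

set_option autoImplicit false
set_option linter.unusedSectionVars false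

noncomputable section

open Finset

namespace Crest.Agent.R165.J4K0Lx126
open Crest.Agent.R165.KCompx892 Crest.Agent.R165.J4Actx126
open Crest.Agent.R165.J4Datx126 Crest.Agent.R165.J4Geox126 Crest.Agent.R165.J4K0x126
open Crest.Agent.R165.J4K0Mapx126
open Crest.Agent.R165.J4Defx653 Crest.Agent.R165.J4Pathx653
open Crest.Agent.R165.J4RRx653 Crest.Agent.R165.J4RRAx653
open Crest.Agent.R165.J1ax606 (HE EG pe qe pe_zero pe_one qe_zero qe_one)

section alg
variable {G : Type*} [CommRing G] [DecidableEq G]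
variable {A : Type*} [CommRing A] [Algebra ℝ A] {κ : Type*} [DecidableEq κ] [Fintype κ]
variable {fr : Fr G A} {B : Bk G κ A}


/-- a nonzero activity has a connected family of nonzero items -/
theorem K0_ne {U : Finset (G × G)} (h : B.K0 fr U ≠ 0) :
    ∃ T : Finset {i // i ∈ B.ixs U}, Conn (touch (B.datU fr U).Y) T ∧
      supp (B.datU fr U).Y T = U ∧ ∀ i ∈ T, B.aI fr i.1 ≠ 0 ∧ B.FI i.1 ≠ 0 := by
  classical
  have h' : ∑ T : Finset {i // i ∈ B.ixs U} with Conn (touch (B.datU fr U).items.Y) T ∧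
      supp (B.datU fr U).items.Y T = U, (B.datU fr U).items.w T ≠ 0 := by
    intro h0
    apply h
    unfold Bk.K0 Items.act
    convert h0
  obtain ⟨T, hT, hne⟩ := Finset.exists_ne_zero_of_sum_ne_zero h'
  rw [Finset.mem_filter] at hT
  refine ⟨T, hT.2.1, hT.2.2, fun i hi => ⟨fun h0 => hne ?_, fun h0 => hne ?_⟩⟩
  · rw [Dat.w_eq]
    have : ∏ i ∈ T, (B.datU fr U).a i = 0 := Finset.prod_eq_zero hi h0
    rw [this, zero_mul]
  · rw [Dat.w_eq]
    have : ∏ i ∈ T, (B.datU fr U).Fe i = 0 := Finset.prod_eq_zero hi h0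
    rw [this, map_zero, mul_zero]

/-- the activity of the empty set vanishes -/
theorem K0_empty : B.K0 fr ∅ = 0 := by
  by_contra h
  obtain ⟨T, hT, hs, -⟩ := K0_ne h
  obtain ⟨i, hi⟩ := hT.1
  have h1 : (B.datU fr ∅).Y i ⊆ ∅ :=
    (Finset.subset_biUnion_of_mem (B.datU fr ∅).Y hi).trans hs.le
  obtain ⟨f, hf⟩ := (B.datU fr ∅).ne i
  exact absurd (h1 hf) (Finset.notMem_empty f)

/-- **supports**: if the items which are not inside `Λ` vanish, so do the activities -/
theorem K0_supp {Λ : Finset (G × G)}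
    (h : ∀ i, B.okI i → ¬ B.YI i ⊆ Λ → B.aI fr i = 0 ∨ B.FI i = 0) {U : Finset (G × G)}
    (hU : ¬ U ⊆ Λ) : B.K0 fr U = 0 := by
  by_contra h0
  obtain ⟨T, hT, hs, hne⟩ := K0_ne h0
  apply hU
  rw [← hs]
  intro x hx
  obtain ⟨i, hi, hxi⟩ := Finset.mem_biUnion.1 hx
  by_contra hxΛ
  have hok : B.okI i.1 := B.ixs_ok i.1 i.2
  rcases h i.1 hok (fun hsub => hxΛ (hsub hxi)) with h1 | h1
  · exact (hne i hi).1 h1
  · exact (hne i hi).2 h1


theorem TH_mem_of {E : Type*} {g : E → A} {S : Subalgebra ℝ A} {U : Set E}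
    (hg : ∀ e ∈ U, g e ∈ S) {F : RR E} (hF : F ∈ RIn U) : TH g F ∈ S := by
  refine RIn_ind (P := fun F => TH g F ∈ S) ?_ ?_ ?_ hF
  · rw [map_zero]; exact zero_mem _
  · intro F G hF hG; rw [map_add]; exact add_mem hF hG
  · intro c T hT
    rw [map_smul, TH_ep]
    exact Subalgebra.smul_mem _ (Subalgebra.prod_mem _ fun e he => hg e (hT he)) _

/-- **locality** -/
theorem K0_mem (S : Finset (G × G) → Subalgebra ℝ A)
    (hb : ∀ U e, faE e ⊆ U → fr.b e ∈ S U) (hI : ∀ U, ∀ f ∈ U, fr.I4 f ∈ S U)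
    (hk : ∀ U k, B.Ys k ⊆ U → B.as k ∈ S U) (U : Finset (G × G)) : B.K0 fr U ∈ S U := by
  classical
  have key : ∀ T : Finset {i // i ∈ B.ixs U}, (B.datU fr U).items.w T ∈ S U := by
    intro T
    rw [Dat.w_eq]
    have hYU : ∀ i : {i // i ∈ B.ixs U}, B.YI i.1 ⊆ U := fun i => (B.mem_ixs.1 i.2).2
    refine mul_mem (Subalgebra.prod_mem _ fun i _ => ?_) ?_
    · obtain ⟨i, hi⟩ := i
      have hYi := hYU ⟨i, hi⟩
      change B.aI fr i ∈ S U
      rcases i with p | f | e | k
      · exact one_mem _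
      · have h1 := hI U f (hYi (Finset.mem_singleton_self f))
        exact add_mem (Subalgebra.smul_mem _ h1 _) (Subalgebra.smul_mem _ (mul_mem h1 h1) _)
      · exact Subalgebra.smul_mem _ (hb U e hYi) _
      · exact hk U k hYi
    · have hFU : ∏ i ∈ T, (B.datU fr U).Fe i ∈ RIn {e : EG G | faE e ⊆ U} := by
        refine Subalgebra.prod_mem _ fun i _ => ?_
        refine RIn_mono ?_ (B.FI_mem (B.ixs_ok i.1 i.2))
        intro e he
        exact Finset.Subset.trans he (hYU i)
      refine TH_mem_of (fun e he => ?_) hFU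
      exact sub_mem (one_mem _) (Subalgebra.smul_mem _ (hb U e he) _)
  unfold Bk.K0 Items.act
  exact Subalgebra.sum_mem _ fun T _ => key T

end alg

/-! ### connectedness -/

section conn
open Crest.Agent.R165.GDefx387

variable {G : Type} [CommRing G] [DecidableEq G] [CN G]
variable {A : Type*} [CommRing A] [Algebra ℝ A] {κ : Type*} [DecidableEq κ] [Fintype κ]
variable {fr : Fr G A} {B : Bk G κ A}

theorem fd_e1 (f : G × G) : fd f (f + (1, 0)) ≤ 1 := by
  unfold fd
  have e1 : f.1 - (f + (1, 0)).1 = -1 := by simp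
  have e2 : f.2 - (f + (1, 0)).2 = 0 := by simp
  rw [e1, e2, CN.cn_neg, CN.cn_zero]
  have := CN.cn_one (G := G)
  omega

theorem fd_e2 (f : G × G) : fd f (f + (0, 1)) ≤ 1 := by
  unfold fd
  have e1 : f.1 - (f + (0, 1)).1 = 0 := by simp
  have e2 : f.2 - (f + (0, 1)).2 = -1 := by simp
  rw [e1, e2, CN.cn_neg, CN.cn_zero]
  have := CN.cn_one (G := G)
  omega

/-- the faces of a shape are connected by unit steps -/
theorem conn_Yf {S : Finset (ℤ × ℤ)} (hS : (0 : ℤ × ℤ) ∈ S) (u : G × G) :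
    Packx915.Conn fd 1 ((Yf S).image (fz u)) := by
  intro A' hA hne hneU
  by_contra hcon
  push Not at hcon
  have hstep : ∀ a b : G × G, a ∈ (Yf S).image (fz u) → b ∈ (Yf S).image (fz u) → fd a b ≤ 1 →
      (a ∈ A' ↔ b ∈ A') := by
    intro a b ha hb hab
    constructor
    · intro h
      by_contra h'
      have := hcon a h b hb h'
      omega
    · intro h
      by_contra h'
      have := hcon b h a ha h'
      rw [fd_comm] at this
      omega
  have key : ∀ z ∈ Yf S, (fz u z ∈ A' ↔ fz u 0 ∈ A') := by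
    refine Yf_ind (subset_Yf S hS) Iff.rfl ?_ ?_
    · intro z hz hz'
      have h1 := hstep (fz u z) (fz u (z + (1, 0))) (Finset.mem_image_of_mem _ hz)
        (Finset.mem_image_of_mem _ hz') (by rw [fz_e1]; exact fd_e1 _)
      rw [h1]
    · intro z hz hz'
      have h1 := hstep (fz u z) (fz u (z + (0, 1))) (Finset.mem_image_of_mem _ hz)
        (Finset.mem_image_of_mem _ hz') (by rw [fz_e2]; exact fd_e2 _)
      rw [h1]
  obtain ⟨a, ha⟩ := hne
  obtain ⟨z, hz, rfl⟩ := Finset.mem_image.1 (hA ha)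
  have h0 : fz u 0 ∈ A' := (key z hz).1 ha
  apply hneU
  apply Finset.Subset.antisymm hA
  intro b hb
  obtain ⟨z', hz', rfl⟩ := Finset.mem_image.1 hb
  exact (key z' hz').2 h0

theorem conn_faE (e : EG G) : Packx915.Conn fd 1 (faE e) := by
  refine Packx915.conn_of_diam ?_
  have hj : e.2 = 0 ∨ e.2 = 1 := fin2 e.2
  have key : ∀ a b : G × G, fd a b ≤ 1 → ∀ x ∈ ({a, b} : Finset (G × G)),
      ∀ y ∈ ({a, b} : Finset (G × G)), fd x y ≤ 1 := by
    intro a b hab x hx y hy
    rw [Finset.mem_insert, Finset.mem_singleton] at hx hy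
    rcases hx with rfl | rfl <;> rcases hy with rfl | rfl
    · rw [fd_self]; omega
    · exact hab
    · rw [fd_comm]; exact hab
    · rw [fd_self]; omega
  unfold faE
  obtain ⟨z, j⟩ := e
  rcases hj with h | h
  · dsimp only at h
    rw [h, pe_zero, qe_zero]
    refine key _ _ ?_
    rw [fd_comm]
    have := fd_e2 (z - (0, 1))
    rwa [sub_add_cancel] at this
  · dsimp only at h
    rw [h, pe_one, qe_one]
    refine key _ _ ?_
    have := fd_e1 (z - (1, 0))
    rwa [sub_add_cancel] at this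

theorem conn_YI (hk : ∀ k, Packx915.Conn fd 1 (B.Ys k)) {i : Ix G κ} (hi : B.okI i) :
    Packx915.Conn fd 1 (B.YI i) := by
  rcases i with p | f | e | k
  · exact conn_Yf (mem_Can.1 hi.1.1).2.1 p.1
  · exact Packx915.conn_singleton f
  · exact conn_faE e
  · exact hk k

/-- **connectedness of the supports** -/
theorem K0_conn1 (hk : ∀ k, Packx915.Conn fd 1 (B.Ys k)) {U : Finset (G × G)}
    (h : B.K0 fr U ≠ 0) : Packx915.Conn fd 1 U := by
  obtain ⟨T, hT, hs, -⟩ := K0_ne h
  suffices key : Packx915.Conn fd 1 (@Finset.biUnion {i // i ∈ B.ixs U} (G × G)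
      (fun a b => Classical.propDecidable (a = b)) T fun i => B.YI i.1) by
    have e : (@Finset.biUnion {i // i ∈ B.ixs U} (G × G)
      (fun a b => Classical.propDecidable (a = b)) T fun i => B.YI i.1) = U := by
      refine Eq.trans ?_ hs
      unfold supp
      congr!
    rwa [e] at key
  refine Packx915.conn_biUnion T (fun i => B.YI i.1)
    (fun i _ => conn_YI hk (B.ixs_ok i.1 i.2)) ?_
  intro J hJ hne hneT
  by_contra hcon
  push Not at hcon
  apply hneT
  refine hT.2 J hJ hne ?_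
  intro i hi j hj hij
  rw [Finset.mem_sdiff] at hj
  have h1 : ¬ Disjoint ((B.datU fr U).Y i) ((B.datU fr U).Y j) := hij
  rw [Finset.not_disjoint_iff] at h1
  obtain ⟨a, ha, hb⟩ := h1
  have := hcon i hi j hj.1 hj.2 a ha a hb
  rw [fd_self] at this
  omega

theorem K0_conn (hk : ∀ k, Packx915.Conn fd 1 (B.Ys k)) {R : ℕ} (hR : 1 ≤ R)
    {U : Finset (G × G)} (h : B.K0 fr U ≠ 0) : Packx915.Conn fd R U :=
  (K0_conn1 hk h).mono hR

end conn

end Crest.Agent.R165.J4K0Lx126
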