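import Crest.Agent.R165.Out_683
import Crest.Agent.R165.K0Src_722
import Crest.Agent.R165.J4K0L_126

/-!
# Row 165 (S0250), block F: the real source with a connected support (helper683)

The item of the real source `1 + t ∏_{e ∈ S} eps_e` must have a CONNECTED support (helper583), so the
support is a parameter `Y` (for instance a box containing the faces of `S`).

* `realSrcY A Y S t` : support `Y ∪ S.biUnion faE` (`= Y` if `faE e ⊆ Y` for `e ∈ S`)
* `fltY c P B f₀ Y S t` : the flow of the background `B` with this source and the mark `f₀`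
* `boxY D` : the faces at distance `≤ D` from `0`;  `boxS S` : the canonical box of a finite set of
  bonds (contains `0` and the faces of `S`, connected at range `1`)
* `isReal_realSrcY`, `isReal_box` : the records are real sources in the sense of helper722
-/

set_option autoImplicit false
set_option linter.unusedSectionVars false

noncomputable section

open scoped ENNReal
open Crest.ProbabilityR.IsingModel
open Crest.Agent.R165.Gr0x606 Crest.Agent.R165.Gr1x606 Crest.Agent.R165.GeOpsx337
open Crest.Agent.R165.Latx683 Crest.Agent.R165.GDefx387 Crest.Agent.R165.GSysx387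
open Crest.Agent.R165.KFlowx337 Crest.Agent.R165.BgIsox432
open Crest.Agent.R165.J4K0x126 Crest.Agent.R165.J4Geox126
open Crest.Agent.R165.J4RRx653 (RR ep RIn ep_mem_RIn)
open Crest.Agent.R165.Bkgx683 Crest.Agent.R165.PEndx683 Crest.Agent.R165.Outx683

namespace Crest.Agent.R165.Bkg3x683

section src

variable {G : Type} [CommRing G] [DecidableEq G]

/-- a real source `1 + t ∏_{e ∈ S} eps_e` with the support `Y` (enlarged by the faces of `S`) -/
def realSrcY (A : Type*) [CommRing A] [Algebra ℝ A] (Y : Finset (G × G))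
    (S : Finset (Bkgx683.EG G)) (t : ℝ) : Srcs (Fin 1) G A where
  Ys _ := Y ∪ S.biUnion faE
  as _ := algebraMap ℝ A t
  Fs _ := ∏ e ∈ S, ep (Finsupp.single e 1)
  Fs_mem _ := by
    refine Subalgebra.prod_mem _ fun e he => ep_mem_RIn ?_
    intro x hx
    rw [Finsupp.support_single _ one_ne_zero, Finset.mem_coe, Finset.mem_singleton] at hx
    subst hx
    exact (Finset.subset_biUnion_of_mem _ he).trans Finset.subset_union_right

variable (A : Type*) [CommRing A] [Algebra ℝ A] (Y : Finset (G × G)) (S : Finset (Bkgx683.EG G))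
  (t : ℝ)

@[simp] theorem realSrcY_as (k : Fin 1) : (realSrcY A Y S t).as k = algebraMap ℝ A t := rfl

@[simp] theorem realSrcY_Fs (k : Fin 1) :
    (realSrcY A Y S t).Fs k = ∏ e ∈ S, ep (Finsupp.single e 1) := rfl

theorem realSrcY_Ys (k : Fin 1) : (realSrcY A Y S t).Ys k = Y ∪ S.biUnion faE := rfl

variable {Y S}

theorem realSrcY_Ys_eq (h : ∀ e ∈ S, faE e ⊆ Y) (k : Fin 1) : (realSrcY A Y S t).Ys k = Y := by
  rw [realSrcY_Ys]
  exact Finset.union_eq_left.2 (Finset.biUnion_subset.2 h)


end src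

/-- the flow of a background with the real source `1 + t ∏_{e ∈ S} eps_e`, support `Y`, mark `f₀` -/
def fltY {G : Type} [CommRing G] [CN G] [CNZ G] [DecidableEq G] (c : Cst) (P : MPar) (B : Bg G)
    (f₀ : G × G) (Y : Finset (G × G)) (S : Finset (Bkgx683.EG G)) (t : ℝ) :
    Sys (G × G) (Fld G) :=
  B.flow P DD {f₀} (realSrcY (Ge (Fld G)) Y S t) c.p c.k0

/-! ### boxes -/

/-- the faces at distance at most `D` from `0` -/
def boxY (D : ℕ) : Finset (ℤ × ℤ) := Finset.Icc (-(D : ℤ)) D ×ˢ Finset.Icc (-(D : ℤ)) D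

theorem mem_boxY {D : ℕ} {f : ℤ × ℤ} : f ∈ boxY D ↔ |f.1| ≤ D ∧ |f.2| ≤ D := by
  unfold boxY
  rw [Finset.mem_product, Finset.mem_Icc, Finset.mem_Icc, abs_le, abs_le]

theorem mem_boxY_fd {D : ℕ} {f : ℤ × ℤ} : f ∈ boxY D ↔ fd (0 : ℤ × ℤ) f ≤ D := by
  rw [mem_boxY]
  have h1 : fd (0 : ℤ × ℤ) f = max f.1.natAbs f.2.natAbs := by
    unfold fd
    show max (cn ((0 : ℤ) - f.1)) (cn ((0 : ℤ) - f.2)) = _
    rw [zero_sub, zero_sub, CN.cn_neg, CN.cn_neg]
    rfl
  rw [h1, max_le_iff, Int.abs_eq_natAbs, Int.abs_eq_natAbs]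
  constructor
  · rintro ⟨h2, h3⟩
    exact ⟨by exact_mod_cast h2, by exact_mod_cast h3⟩
  · rintro ⟨h2, h3⟩
    exact ⟨by exact_mod_cast h2, by exact_mod_cast h3⟩

theorem zero_mem_boxY (D : ℕ) : (0 : ℤ × ℤ) ∈ boxY D := by
  rw [mem_boxY]
  simp


/-- rectangles are connected by unit steps -/
theorem conn_rect (a b c e : ℤ) :
    Packx915.Conn fd 1 (Finset.Icc a b ×ˢ Finset.Icc c e : Finset (ℤ × ℤ)) := by
  classical
  set U := (Finset.Icc a b ×ˢ Finset.Icc c e : Finset (ℤ × ℤ)) with hU
  have hm : ∀ p : ℤ × ℤ, p ∈ U ↔ (a ≤ p.1 ∧ p.1 ≤ b) ∧ (c ≤ p.2 ∧ p.2 ≤ e) := by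
    intro p
    rw [hU, Finset.mem_product, Finset.mem_Icc, Finset.mem_Icc]
  intro A hA hne hneU
  by_contra hcon
  push Not at hcon
  have hstep : ∀ p q : ℤ × ℤ, p ∈ U → q ∈ U → fd p q ≤ 1 → (p ∈ A ↔ q ∈ A) := by
    intro p q hp hq hpq
    constructor
    · intro h
      by_contra h'
      have := hcon p h q hq h'
      omega
    · intro h
      by_contra h'
      have := hcon q h p hp h'
      rw [fd_comm] at this
      omega
  have key : ∀ n : ℕ, ∀ p ∈ U, (p.1 - a) + (p.2 - c) = n → (p ∈ A ↔ (a, c) ∈ A) := by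
    intro n
    induction n with
    | zero =>
      intro p hp h
      have h1 := (hm p).1 hp
      have : p = (a, c) := Prod.ext (by simp only [Nat.cast_zero] at h; omega)
        (by simp only [Nat.cast_zero] at h; omega)
      rw [this]
    | succ n ih =>
      intro p hp h
      have h1 := (hm p).1 hp
      push_cast at h
      by_cases h2 : a < p.1
      · have hq : (p.1 - 1, p.2) ∈ U := (hm _).2 ⟨⟨by dsimp only; omega, by dsimp only; omega⟩, h1.2⟩
        rw [← ih _ hq (by dsimp only; omega)]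
        refine hstep _ _ hp hq ?_
        have := J4K0Lx126.fd_e1 (p.1 - 1, p.2)
        rw [fd_comm]
        convert this using 2
        ext <;> simp
      · have h3 : c < p.2 := by omega
        have hq : (p.1, p.2 - 1) ∈ U := (hm _).2 ⟨h1.1, ⟨by dsimp only; omega, by dsimp only; omega⟩⟩
        rw [← ih _ hq (by dsimp only; omega)]
        refine hstep _ _ hp hq ?_
        have := J4K0Lx126.fd_e2 (p.1, p.2 - 1)
        rw [fd_comm]
        convert this using 2
        ext <;> simp
  have hall : ∀ p ∈ U, (p ∈ A ↔ (a, c) ∈ A) := by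
    intro p hp
    have h1 := (hm p).1 hp
    refine key ((p.1 - a) + (p.2 - c)).toNat p hp ?_
    rw [Int.toNat_of_nonneg]
    omega
  obtain ⟨p, hp⟩ := hne
  have h0 := (hall p (hA hp)).1 hp
  exact hneU (Finset.Subset.antisymm hA fun q hq => (hall q hq).2 h0)

/-- the box is connected at range `1` -/
theorem boxY_conn (D : ℕ) : Packx915.Conn fd 1 (boxY D) := conn_rect _ _ _ _

/-! ### the canonical box of a finite set of bonds -/

/-- the radius of the canonical box -/
def radS (S : Finset (Bkgx683.EG ℤ)) : ℕ := (S.biUnion faE).sup fun f => fd (0 : ℤ × ℤ) f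

/-- the canonical box of a finite set of bonds -/
def boxS (S : Finset (Bkgx683.EG ℤ)) : Finset (ℤ × ℤ) := boxY (radS S)

theorem faE_boxS (S : Finset (Bkgx683.EG ℤ)) : ∀ e ∈ S, faE e ⊆ boxS S := by
  intro e he f hf
  unfold boxS
  rw [mem_boxY_fd]
  exact Finset.le_sup (f := fun f => fd (0 : ℤ × ℤ) f)
    (Finset.subset_biUnion_of_mem faE he hf)

theorem zero_mem_boxS (S : Finset (Bkgx683.EG ℤ)) : (0 : ℤ × ℤ) ∈ boxS S := zero_mem_boxY _

theorem boxS_conn (S : Finset (Bkgx683.EG ℤ)) : Packx915.Conn fd 1 (boxS S) := boxY_conn _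

/-! ### real sources in the sense of helper722 -/

open Crest.Agent.R165.K0Srcx722 (IsReal)

theorem isReal_realSrcY {G : Type} [CommRing G] [DecidableEq G] (A : Type*) [CommRing A]
    [Algebra ℝ A] {Y : Finset (G × G)} {S : Finset (Bkgx683.EG G)} (t : ℝ)
    (h : ∀ e ∈ S, faE e ⊆ Y) : IsReal (realSrcY A Y S t) Y S t :=
  ⟨realSrcY_Ys_eq A t h 0, rfl, rfl⟩

/-- the canonical record of the plane -/
theorem isReal_box (A : Type*) [CommRing A] [Algebra ℝ A] (S : Finset (Bkgx683.EG ℤ)) (t : ℝ) :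
    IsReal (realSrcY A (boxS S) S t) (boxS S) S t := isReal_realSrcY A t (faE_boxS S)

end Crest.Agent.R165.Bkg3x683
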