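import Mathlib

-- ▼ part R165/PkA_583
section

/-!
Row 165 (S0250), block U2: the potential kernel of `ℤ²` by a one-dimensional formula in the
characteristic coordinates `k = m + n`, `l = m - n`:
`pk0 k l = (1/2π) ∫_0^{π/2} (1 - cos (k u) ρ(u)^|l|) / sin u du`, `ρ(u) = cos u / (1 + sin u)`.
This file: definition, boundedness of the integrand, `Δ pk = δ_0`, values on the diagonal.
-/

set_option autoImplicit false

namespace Crest.Agent.R165.Pkx583

open Real MeasureTheory Set intervalIntegral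

/-- `rho u = cos u / (1 + sin u)`. -/
noncomputable def rho (u : ℝ) : ℝ := Real.cos u / (1 + Real.sin u)

/-- the integrand -/
noncomputable def kf (k l : ℤ) (u : ℝ) : ℝ :=
  (1 - Real.cos (k * u) * rho u ^ l.natAbs) / Real.sin u

/-- potential kernel in characteristic coordinates -/
noncomputable def pk0 (k l : ℤ) : ℝ := (1 / (2 * π)) * ∫ u in (0:ℝ)..(π/2), kf k l u

/-- potential kernel of `ℤ²` (with `Δ` = sum over the 4 neighbours minus 4 times the value) -/
noncomputable def pk (z : ℤ × ℤ) : ℝ := pk0 (z.1 + z.2) (z.1 - z.2)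

theorem measurable_kf (k l : ℤ) : Measurable (kf k l) := by
  unfold kf rho
  fun_prop

section basics

variable {u : ℝ}

theorem rho_nonneg (h0 : 0 ≤ u) (h1 : u ≤ π/2) : 0 ≤ rho u := by
  unfold rho
  have hs : 0 ≤ Real.sin u := Real.sin_nonneg_of_nonneg_of_le_pi h0 (by linarith [Real.pi_pos])
  have hc : 0 ≤ Real.cos u := Real.cos_nonneg_of_neg_pi_div_two_le_of_le (by linarith [Real.pi_pos]) h1
  positivity

theorem rho_le_one (h0 : 0 ≤ u) (h1 : u ≤ π/2) : rho u ≤ 1 := by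
  unfold rho
  have hs : 0 ≤ Real.sin u := Real.sin_nonneg_of_nonneg_of_le_pi h0 (by linarith [Real.pi_pos])
  rw [div_le_one (by linarith)]
  linarith [Real.cos_le_one u]

theorem sin_ge (h0 : 0 ≤ u) (h1 : u ≤ π/2) : (2/π) * u ≤ Real.sin u :=
  Real.mul_le_sin h0 h1

theorem sin_pos' (h0 : 0 < u) (h1 : u ≤ π/2) : 0 < Real.sin u :=
  Real.sin_pos_of_pos_of_lt_pi h0 (by linarith [Real.pi_pos])

theorem abs_one_sub_cos_le (x : ℝ) : |1 - Real.cos x| ≤ |x| := by
  have h : 1 - Real.cos x = 2 * Real.sin (x/2) ^ 2 := by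
    have := Real.cos_sq (x/2)
    have h2 := Real.sin_sq_add_cos_sq (x/2)
    rw [show 2 * (x/2) = x by ring] at this
    nlinarith
  rw [h, abs_of_nonneg (by positivity)]
  have h1 : |Real.sin (x/2)| ≤ |x/2| := Real.abs_sin_le_abs
  have h2 : |Real.sin (x/2)| ≤ 1 := Real.abs_sin_le_one _
  have h3 : Real.sin (x/2) ^ 2 = |Real.sin (x/2)| * |Real.sin (x/2)| := by
    rw [← sq, sq_abs]
  rw [h3]
  rw [abs_div, abs_two] at h1
  nlinarith [abs_nonneg (Real.sin (x/2)), abs_nonneg x]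

theorem one_sub_rho_le (h0 : 0 ≤ u) (h1 : u ≤ π/2) : 1 - rho u ≤ 2 * u := by
  have hs : 0 ≤ Real.sin u := Real.sin_nonneg_of_nonneg_of_le_pi h0 (by linarith [Real.pi_pos])
  have hc := abs_one_sub_cos_le u
  rw [abs_of_nonneg (by linarith [Real.cos_le_one u]), abs_of_nonneg h0] at hc
  have hs2 : Real.sin u ≤ u := Real.sin_le h0
  unfold rho
  have : 1 - Real.cos u / (1 + Real.sin u) = (1 + Real.sin u - Real.cos u) / (1 + Real.sin u) := by
    field_simp
  rw [this, div_le_iff₀ (by linarith)]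
  nlinarith

theorem one_sub_rho_pow_le (h0 : 0 ≤ u) (h1 : u ≤ π/2) (n : ℕ) :
    1 - rho u ^ n ≤ 2 * n * u := by
  have hr0 := rho_nonneg h0 h1
  have hr1 := rho_le_one h0 h1
  have hb : 1 + (n:ℝ) * (rho u - 1) ≤ (1 + (rho u - 1)) ^ n :=
    one_add_mul_le_pow (by linarith) n
  rw [show 1 + (rho u - 1) = rho u by ring] at hb
  have := one_sub_rho_le h0 h1
  have hn : (0:ℝ) ≤ n := Nat.cast_nonneg n
  nlinarith

theorem abs_kf_le (k l : ℤ) (h0 : 0 < u) (h1 : u ≤ π/2) :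
    |kf k l u| ≤ 2 * (|(k:ℝ)| + 2 * l.natAbs) := by
  have hs : 0 < Real.sin u := sin_pos' h0 h1
  have hr0 := rho_nonneg h0.le h1
  have hr1 := rho_le_one h0.le h1
  have hp1 : rho u ^ l.natAbs ≤ 1 := pow_le_one₀ hr0 hr1
  have hp0 : 0 ≤ rho u ^ l.natAbs := pow_nonneg hr0 _
  have hA : |1 - Real.cos (k*u) * rho u ^ l.natAbs| ≤ (|(k:ℝ)| + 2 * l.natAbs) * u := by
    have h2 := one_sub_rho_pow_le h0.le h1 l.natAbs
    have h3 := abs_one_sub_cos_le (k*u)
    rw [abs_mul, abs_of_pos h0] at h3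
    have h4 : 1 - Real.cos (k*u) * rho u ^ l.natAbs
        = (1 - Real.cos (k*u)) * rho u ^ l.natAbs + (1 - rho u ^ l.natAbs) := by ring
    rw [h4]
    refine (abs_add_le _ _).trans ?_
    rw [abs_mul, abs_of_nonneg hp0, abs_of_nonneg (by linarith : 0 ≤ 1 - rho u ^ l.natAbs)]
    have : |1 - Real.cos (k*u)| * rho u ^ l.natAbs ≤ |1 - Real.cos (k*u)| * 1 :=
      mul_le_mul_of_nonneg_left hp1 (abs_nonneg _)
    nlinarith
  unfold kf
  rw [abs_div, abs_of_pos hs, div_le_iff₀ hs]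
  have hs2 := sin_ge h0.le h1
  have hpi : π ≤ 4 := Real.pi_le_four
  have h5 : u ≤ 2 * Real.sin u := by
    have : (1/2) * u ≤ (2/π) * u := by
      apply mul_le_mul_of_nonneg_right _ h0.le
      rw [div_le_div_iff₀ (by norm_num) Real.pi_pos]
      linarith
    linarith
  have h6 : 0 ≤ |(k:ℝ)| + 2 * l.natAbs := by positivity
  calc |1 - Real.cos (k*u) * rho u ^ l.natAbs| ≤ (|(k:ℝ)| + 2 * l.natAbs) * u := hA
    _ ≤ (|(k:ℝ)| + 2 * l.natAbs) * (2 * Real.sin u) := mul_le_mul_of_nonneg_left h5 h6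
    _ = _ := by ring

end basics

theorem intervalIntegrable_kf (k l : ℤ) : IntervalIntegrable (kf k l) volume 0 (π/2) := by
  rw [intervalIntegrable_iff_integrableOn_Ioc_of_le (by positivity)]
  refine Measure.integrableOn_of_bounded (M := 2 * (|(k:ℝ)| + 2 * l.natAbs)) ?_
    (measurable_kf k l).aestronglyMeasurable ?_
  · rw [Real.volume_Ioc]; exact ENNReal.ofReal_ne_top
  · refine (ae_restrict_iff' measurableSet_Ioc).2 (Filter.Eventually.of_forall fun u hu => ?_)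
    rw [Real.norm_eq_abs]
    exact abs_kf_le k l hu.1 hu.2

theorem kf_neg_left (k l : ℤ) : kf (-k) l = kf k l := by
  funext u
  unfold kf
  have : Real.cos (((-k : ℤ) : ℝ) * u) = Real.cos (k * u) := by
    push_cast
    rw [neg_mul, Real.cos_neg]
  rw [this]

theorem kf_neg_right (k l : ℤ) : kf k (-l) = kf k l := by
  funext u
  unfold kf
  rw [Int.natAbs_neg]

theorem pk0_neg_left (k l : ℤ) : pk0 (-k) l = pk0 k l := by
  unfold pk0; rw [kf_neg_left]

theorem pk0_neg_right (k l : ℤ) : pk0 k (-l) = pk0 k l := by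
  unfold pk0; rw [kf_neg_right]

/-- pointwise identity off the axis `l = 0`. -/
theorem kf_sum_pos (k : ℤ) (n : ℕ) (u : ℝ) (hu : 1 + Real.sin u ≠ 0) :
    kf (k+1) ((n:ℤ)+2) u + kf (k+1) n u + kf (k-1) ((n:ℤ)+2) u + kf (k-1) n u
      = 4 * kf k ((n:ℤ)+1) u := by
  unfold kf
  have e1 : ((n:ℤ)+2).natAbs = n + 2 := by omega
  have e2 : ((n:ℤ)+1).natAbs = n + 1 := by omega
  have e3 : ((n:ℤ)).natAbs = n := by omega
  rw [e1, e2, e3]
  have c1 : Real.cos (((k+1 : ℤ) : ℝ) * u) = Real.cos (k*u) * Real.cos u - Real.sin (k*u) * Real.sin u := by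
    rw [← Real.cos_add]; congr 1; push_cast; ring
  have c2 : Real.cos (((k-1 : ℤ) : ℝ) * u) = Real.cos (k*u) * Real.cos u + Real.sin (k*u) * Real.sin u := by
    rw [← Real.cos_sub]; congr 1; push_cast; ring
  rw [c1, c2]
  have hr : Real.cos u * (rho u ^ 2 + 1) = 2 * rho u := by
    unfold rho
    have h2 := Real.sin_sq_add_cos_sq u
    field_simp
    linear_combination (Real.cos u) * h2
  have key : (Real.cos (k*u) * Real.cos u) * (rho u ^ (n+2) + rho u ^ n) * 2
      = 4 * (Real.cos (k*u) * rho u ^ (n+1)) := by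
    have : Real.cos u * (rho u ^ (n+2) + rho u ^ n) = 2 * rho u ^ (n+1) := by
      calc Real.cos u * (rho u ^ (n+2) + rho u ^ n) = (Real.cos u * (rho u ^ 2 + 1)) * rho u ^ n := by ring
        _ = 2 * rho u ^ (n+1) := by rw [hr]; ring
    calc (Real.cos (k*u) * Real.cos u) * (rho u ^ (n+2) + rho u ^ n) * 2
        = 2 * Real.cos (k*u) * (Real.cos u * (rho u ^ (n+2) + rho u ^ n)) := by ring
      _ = _ := by rw [this]; ring
  rw [← add_div, ← add_div, ← add_div, mul_div_assoc']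
  congr 1
  linear_combination (-1 : ℝ) * key

/-- pointwise identity on the axis `l = 0`. -/
theorem kf_sum_zero (k : ℤ) (u : ℝ) (hs : 0 < Real.sin u) :
    kf (k+1) 1 u + kf (k+1) (-1) u + kf (k-1) 1 u + kf (k-1) (-1) u
      = 4 * kf k 0 u + 4 * Real.cos (k*u) := by
  rw [kf_neg_right, kf_neg_right]
  unfold kf
  have e2 : (1:ℤ).natAbs = 1 := rfl
  have e3 : ((0:ℤ)).natAbs = 0 := rfl
  rw [e2, e3]
  have c1 : Real.cos (((k+1 : ℤ) : ℝ) * u) = Real.cos (k*u) * Real.cos u - Real.sin (k*u) * Real.sin u := by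
    rw [← Real.cos_add]; congr 1; push_cast; ring
  have c2 : Real.cos (((k-1 : ℤ) : ℝ) * u) = Real.cos (k*u) * Real.cos u + Real.sin (k*u) * Real.sin u := by
    rw [← Real.cos_sub]; congr 1; push_cast; ring
  rw [c1, c2]
  have hr : Real.cos u * rho u = 1 - Real.sin u := by
    unfold rho
    have h2 := Real.sin_sq_add_cos_sq u
    have : 1 + Real.sin u ≠ 0 := by positivity
    field_simp
    nlinarith
  field_simp
  linear_combination (-4 * Real.cos (k*u)) * hr

theorem integral_cos_even (j : ℤ) (hj : j ≠ 0) :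
    ∫ u in (0:ℝ)..(π/2), Real.cos (((2*j : ℤ) : ℝ) * u) = 0 := by
  have h2j : (((2*j : ℤ)) : ℝ) ≠ 0 := by
    have : (2*j : ℤ) ≠ 0 := by omega
    exact_mod_cast this
  rw [intervalIntegral.integral_comp_mul_left (f := Real.cos) h2j, integral_cos]
  have : (((2*j : ℤ)) : ℝ) * (π/2) = j * π := by push_cast; ring
  rw [this, Real.sin_int_mul_pi]
  simp

theorem pk0_lap_zero (k : ℤ) (hk : Even k) :
    pk0 (k+1) 1 + pk0 (k+1) (-1) + pk0 (k-1) 1 + pk0 (k-1) (-1) - 4 * pk0 k 0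
      = if k = 0 then 1 else 0 := by
  have hint : ∀ k l : ℤ, IntervalIntegrable (kf k l) volume 0 (π/2) := intervalIntegrable_kf
  have hcos : IntervalIntegrable (fun u : ℝ => Real.cos (k*u)) volume 0 (π/2) :=
    (by fun_prop : Continuous fun u : ℝ => Real.cos (k*u)).intervalIntegrable _ _
  have h1 : (∫ u in (0:ℝ)..(π/2), kf (k+1) 1 u) + (∫ u in (0:ℝ)..(π/2), kf (k+1) (-1) u)
      + (∫ u in (0:ℝ)..(π/2), kf (k-1) 1 u) + (∫ u in (0:ℝ)..(π/2), kf (k-1) (-1) u)
      = 4 * (∫ u in (0:ℝ)..(π/2), kf k 0 u) + 4 * ∫ u in (0:ℝ)..(π/2), Real.cos (k*u) := by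
    rw [← intervalIntegral.integral_add (hint _ _) (hint _ _),
      ← intervalIntegral.integral_add ((hint _ _).add (hint _ _)) (hint _ _),
      ← intervalIntegral.integral_add (((hint _ _).add (hint _ _)).add (hint _ _)) (hint _ _),
      ← intervalIntegral.integral_const_mul, ← intervalIntegral.integral_const_mul,
      ← intervalIntegral.integral_add ((hint _ _).const_mul 4) (hcos.const_mul 4)]
    apply intervalIntegral.integral_congr_ae
    refine Filter.Eventually.of_forall fun u hu => ?_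
    rw [uIoc_of_le (by positivity)] at hu
    exact kf_sum_zero k u (sin_pos' hu.1 hu.2)
  obtain ⟨j, hj⟩ := hk
  have hj' : k = 2*j := by omega
  unfold pk0
  by_cases hk0 : k = 0
  · have hc : ∫ u in (0:ℝ)..(π/2), Real.cos (k*u) = π/2 := by
      rw [hk0]; simp
    rw [hc] at h1
    rw [if_pos hk0]
    have : (1 / (2*π)) * (4 * (π/2)) = 1 := by field_simp; norm_num
    linear_combination (1/(2*π)) * h1 + this
  · have hc : ∫ u in (0:ℝ)..(π/2), Real.cos (k*u) = 0 := by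
      have := integral_cos_even j (by omega)
      rwa [← hj'] at this
    rw [hc] at h1
    rw [if_neg hk0]
    linear_combination (1/(2*π)) * h1

theorem pk0_lap_pos (k : ℤ) (n : ℕ) :
    pk0 (k+1) ((n:ℤ)+2) + pk0 (k+1) n + pk0 (k-1) ((n:ℤ)+2) + pk0 (k-1) n
      = 4 * pk0 k ((n:ℤ)+1) := by
  have hint : ∀ k l : ℤ, IntervalIntegrable (kf k l) volume 0 (π/2) := intervalIntegrable_kf
  have h1 : (∫ u in (0:ℝ)..(π/2), kf (k+1) ((n:ℤ)+2) u) + (∫ u in (0:ℝ)..(π/2), kf (k+1) n u)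
      + (∫ u in (0:ℝ)..(π/2), kf (k-1) ((n:ℤ)+2) u) + (∫ u in (0:ℝ)..(π/2), kf (k-1) n u)
      = 4 * (∫ u in (0:ℝ)..(π/2), kf k ((n:ℤ)+1) u) := by
    rw [← intervalIntegral.integral_add (hint _ _) (hint _ _),
      ← intervalIntegral.integral_add ((hint _ _).add (hint _ _)) (hint _ _),
      ← intervalIntegral.integral_add (((hint _ _).add (hint _ _)).add (hint _ _)) (hint _ _),
      ← intervalIntegral.integral_const_mul]
    apply intervalIntegral.integral_congr_ae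
    refine Filter.Eventually.of_forall fun u hu => ?_
    rw [uIoc_of_le (by positivity)] at hu
    exact kf_sum_pos k n u (by linarith [sin_pos' hu.1 hu.2] : (1 + Real.sin u) ≠ 0)
  unfold pk0
  linear_combination (1/(2*π)) * h1

/-- `Δ pk0 = δ` in characteristic coordinates. -/
theorem pk0_lap (k l : ℤ) (hkl : Even (k + l)) :
    pk0 (k+1) (l+1) + pk0 (k+1) (l-1) + pk0 (k-1) (l+1) + pk0 (k-1) (l-1) - 4 * pk0 k l
      = if k = 0 ∧ l = 0 then 1 else 0 := by
  rcases lt_trichotomy l 0 with h | h | h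
  · obtain ⟨n, hn⟩ : ∃ n : ℕ, l = -((n:ℤ)+1) := ⟨(-l-1).toNat, by omega⟩
    rw [if_neg (by omega)]
    have := pk0_lap_pos k n
    rw [hn, show -((n:ℤ)+1) + 1 = -(n:ℤ) by ring, show -((n:ℤ)+1) - 1 = -((n:ℤ)+2) by ring,
      pk0_neg_right, pk0_neg_right, pk0_neg_right, pk0_neg_right, pk0_neg_right]
    linarith
  · subst h
    have := pk0_lap_zero k (by simpa using hkl)
    simp only [zero_add, zero_sub, and_true]
    exact this
  · obtain ⟨n, hn⟩ : ∃ n : ℕ, l = (n:ℤ)+1 := ⟨(l-1).toNat, by omega⟩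
    rw [if_neg (by omega)]
    have := pk0_lap_pos k n
    rw [hn, show (n:ℤ)+1 + 1 = (n:ℤ)+2 by ring, show (n:ℤ)+1 - 1 = (n:ℤ) by ring]
    linarith

/-- The potential kernel: `Δ pk = δ_0`. -/
theorem pk_lap (m n : ℤ) :
    pk (m+1, n) + pk (m-1, n) + pk (m, n+1) + pk (m, n-1) - 4 * pk (m, n)
      = if m = 0 ∧ n = 0 then 1 else 0 := by
  have h := pk0_lap (m+n) (m-n) ⟨m, by ring⟩
  unfold pk
  simp only
  rw [show m + 1 + n = (m+n)+1 by ring, show m + 1 - n = (m-n)+1 by ring,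
    show m - 1 + n = (m+n)-1 by ring, show m - 1 - n = (m-n)-1 by ring,
    show m + (n+1) = (m+n)+1 by ring, show m - (n+1) = (m-n)-1 by ring,
    show m + (n-1) = (m+n)-1 by ring, show m - (n-1) = (m-n)+1 by ring]
  have e : (m + n = 0 ∧ m - n = 0) ↔ (m = 0 ∧ n = 0) := by omega
  rw [if_congr e rfl rfl] at h
  linarith

theorem pk_zero : pk (0, 0) = 0 := by
  unfold pk pk0 kf
  simp

/-- values on the diagonal: increments. -/
theorem pk_diag_step (n : ℕ) : pk ((n:ℤ)+1, (n:ℤ)+1) - pk ((n:ℤ), (n:ℤ)) = 1 / (π * (2*n+1)) := by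
  unfold pk pk0
  simp only [sub_self]
  rw [← mul_sub, ← intervalIntegral.integral_sub (intervalIntegrable_kf _ _) (intervalIntegrable_kf _ _)]
  have : ∫ u in (0:ℝ)..(π/2), (kf ((n:ℤ)+1+((n:ℤ)+1)) 0 u - kf ((n:ℤ)+(n:ℤ)) 0 u)
      = ∫ u in (0:ℝ)..(π/2), 2 * Real.sin ((2*n+1) * u) := by
    apply intervalIntegral.integral_congr_ae
    refine Filter.Eventually.of_forall fun u hu => ?_
    rw [uIoc_of_le (by positivity)] at hu
    have hs := sin_pos' hu.1 hu.2
    unfold kf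
    simp only [Int.natAbs_zero, pow_zero, mul_one]
    have c1 : Real.cos ((((n:ℤ)+1+((n:ℤ)+1) : ℤ) : ℝ) * u)
        = Real.cos ((2*n+1)*u) * Real.cos u - Real.sin ((2*n+1)*u) * Real.sin u := by
      rw [← Real.cos_add]; congr 1; push_cast; ring
    have c2 : Real.cos ((((n:ℤ)+(n:ℤ) : ℤ) : ℝ) * u)
        = Real.cos ((2*n+1)*u) * Real.cos u + Real.sin ((2*n+1)*u) * Real.sin u := by
      rw [← Real.cos_sub]; congr 1; push_cast; ring
    rw [c1, c2]
    field_simp
    ring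
  rw [this, intervalIntegral.integral_const_mul]
  have hne : ((2:ℝ)*n+1) ≠ 0 := by positivity
  rw [intervalIntegral.integral_comp_mul_left (f := Real.sin) hne, integral_sin]
  have h3 : Real.cos ((2*(n:ℝ)+1) * (π/2)) = 0 := by
    rw [Real.cos_eq_zero_iff]
    exact ⟨n, by push_cast; ring⟩
  rw [h3, mul_zero, Real.cos_zero]
  have hp := Real.pi_ne_zero
  simp only [smul_eq_mul]
  field_simp
  ring

end Crest.Agent.R165.Pkx583
end

-- ▼ part R165/PkB_583
section

/-!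
Row 165, block U2: symmetry `pk0 k l = pk0 l k` (`k + l` even), i.e. the full square symmetry of the
potential kernel, through the double integral
`∫∫ (1 - cos ku cos lv)/(1 - cos u cos v)`.
-/

set_option autoImplicit false

namespace Crest.Agent.R165.Pkx583

open Real MeasureTheory Set intervalIntegral

/-- `∫_0^π cos(n v)/(1 - c cos v) dv` -/
noncomputable def JJ (c : ℝ) (n : ℕ) : ℝ := ∫ v in (0:ℝ)..π, Real.cos (n*v) / (1 - c * Real.cos v)

section inner

variable {c r : ℝ}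

theorem den_pos (hc0 : 0 ≤ c) (hc1 : c < 1) (v : ℝ) : 0 < 1 - c * Real.cos v := by
  nlinarith [Real.cos_le_one v]

theorem cont_JJ (hc0 : 0 ≤ c) (hc1 : c < 1) (n : ℕ) :
    Continuous fun v : ℝ => Real.cos (n*v) / (1 - c * Real.cos v) := by
  refine Continuous.div (by fun_prop) (by fun_prop) fun v => (den_pos hc0 hc1 v).ne'

theorem JJ_rec (hc0 : 0 ≤ c) (hc1 : c < 1) (n : ℕ) :
    c * (JJ c (n+2) + JJ c n) = 2 * JJ c (n+1) := by
  have hi := fun n => (cont_JJ hc0 hc1 n).intervalIntegrable (μ := volume) 0 π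
  have h0 : ∫ v in (0:ℝ)..π, Real.cos (((n+1 : ℕ):ℝ) * v) = 0 := by
    have hne : ((n+1 : ℕ):ℝ) ≠ 0 := by positivity
    rw [intervalIntegral.integral_comp_mul_left (f := Real.cos) hne, integral_cos,
      Real.sin_nat_mul_pi]
    simp
  have hic : IntervalIntegrable (fun v : ℝ => 2 * Real.cos (((n+1 : ℕ):ℝ) * v)) volume 0 π :=
    (by fun_prop : Continuous fun v : ℝ => 2 * Real.cos (((n+1 : ℕ):ℝ) * v)).intervalIntegrable _ _
  have key : c * (JJ c (n+2) + JJ c n) + (∫ v in (0:ℝ)..π, 2 * Real.cos (((n+1 : ℕ):ℝ) * v)) = 2 * JJ c (n+1) := by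
    unfold JJ
    rw [← intervalIntegral.integral_add (hi _) (hi _), ← intervalIntegral.integral_const_mul,
      ← intervalIntegral.integral_const_mul (r := (2:ℝ)) (f := fun v => Real.cos (((n+1 : ℕ):ℝ) * v) / (1 - c * Real.cos v)),
      ← intervalIntegral.integral_add (((hi _).add (hi _)).const_mul c) hic]
    apply intervalIntegral.integral_congr
    intro v _
    have hd := (den_pos hc0 hc1 v).ne'
    have c1 : Real.cos (((n+2 : ℕ):ℝ)*v) = Real.cos (((n+1 : ℕ):ℝ) * v) * Real.cos v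
        - Real.sin (((n+1 : ℕ):ℝ) * v) * Real.sin v := by
      rw [← Real.cos_add]; congr 1; push_cast; ring
    have c2 : Real.cos ((n:ℝ)*v) = Real.cos (((n+1 : ℕ):ℝ) * v) * Real.cos v
        + Real.sin (((n+1 : ℕ):ℝ) * v) * Real.sin v := by
      rw [← Real.cos_sub]; congr 1; push_cast; ring
    simp only []
    rw [c1, c2]
    field_simp
    ring
  rw [intervalIntegral.integral_const_mul, h0, mul_zero, add_zero] at key
  exact key

theorem JJ_one (hc0 : 0 ≤ c) (hc1 : c < 1) : c * JJ c 1 = JJ c 0 - π := by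
  have hi := fun n => (cont_JJ hc0 hc1 n).intervalIntegrable (μ := volume) 0 π
  have : ∫ v in (0:ℝ)..π, (1:ℝ) = π := by simp
  have key : c * JJ c 1 + (∫ v in (0:ℝ)..π, (1:ℝ)) = JJ c 0 := by
    unfold JJ
    rw [← intervalIntegral.integral_const_mul, ← intervalIntegral.integral_add ((hi _).const_mul c) (by simp)]
    apply intervalIntegral.integral_congr
    intro v _
    have hd := (den_pos hc0 hc1 v).ne'
    simp only [Nat.cast_one, one_mul, Nat.cast_zero, zero_mul, Real.cos_zero]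
    field_simp
    ring
  rw [this] at key
  linarith

theorem abs_JJ_le (hc0 : 0 ≤ c) (hc1 : c < 1) (n : ℕ) : |JJ c n| ≤ JJ c 0 := by
  unfold JJ
  have := intervalIntegral.norm_integral_le_of_norm_le (μ := volume) (a := 0) (b := π)
    (f := fun v : ℝ => Real.cos (n*v) / (1 - c * Real.cos v))
    (g := fun v : ℝ => Real.cos ((0:ℕ)*v) / (1 - c * Real.cos v)) Real.pi_pos.le
    (Filter.Eventually.of_forall fun v _ => ?_) ((cont_JJ hc0 hc1 0).intervalIntegrable 0 π)
  · simpa [Real.norm_eq_abs] using this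
  · simp only [Real.norm_eq_abs, Nat.cast_zero, zero_mul, Real.cos_zero]
    rw [abs_div, abs_of_pos (den_pos hc0 hc1 v)]
    exact div_le_div_of_nonneg_right (Real.abs_cos_le_one _) (den_pos hc0 hc1 v).le

theorem JJ_eq (hc0 : 0 ≤ c) (hc1 : c < 1) (hr0 : 0 < r) (hr1 : r < 1)
    (hcr : c * (r^2 + 1) = 2 * r) (n : ℕ) : JJ c (n+1) = r * JJ c n := by
  have hcpos : 0 < c := by
    rcases hc0.lt_or_eq with h | h
    · exact h
    · exfalso; rw [← h] at hcr; linarith
  -- K n = J(n+1) - r J n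
  have hK : ∀ n, JJ c (n+1) - r * JJ c n = r * (JJ c (n+2) - r * JJ c (n+1)) := by
    intro n
    have h := JJ_rec hc0 hc1 n
    have h2 : 2 * r * (JJ c (n+2) + JJ c n) = 2 * (r^2+1) * JJ c (n+1) := by
      calc 2 * r * (JJ c (n+2) + JJ c n) = (c * (r^2+1)) * (JJ c (n+2) + JJ c n) := by rw [hcr]
        _ = (r^2+1) * (c * (JJ c (n+2) + JJ c n)) := by ring
        _ = _ := by rw [h]; ring
    linarith
  have hKm : ∀ m n, JJ c (n+1) - r * JJ c n = r^m * (JJ c (n+m+1) - r * JJ c (n+m)) := by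
    intro m
    induction m with
    | zero => intro n; simp
    | succ m ih =>
      intro n
      rw [ih n, hK (n+m)]
      ring_nf
  have hb : ∀ m, |JJ c (n+1) - r * JJ c n| ≤ r^m * (2 * JJ c 0) := by
    intro m
    rw [hKm m n, abs_mul, abs_of_nonneg (pow_nonneg hr0.le m)]
    apply mul_le_mul_of_nonneg_left _ (pow_nonneg hr0.le m)
    have h1 := abs_JJ_le hc0 hc1 (n+m+1)
    have h2 := abs_JJ_le hc0 hc1 (n+m)
    have h3 := abs_sub (JJ c (n+m+1)) (r * JJ c (n+m))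
    rw [abs_mul, abs_of_pos hr0] at h3
    nlinarith [abs_nonneg (JJ c (n+m))]
  have hlim : Filter.Tendsto (fun m : ℕ => r^m * (2 * JJ c 0)) Filter.atTop (nhds (0 * (2 * JJ c 0))) :=
    (tendsto_pow_atTop_nhds_zero_of_lt_one hr0.le hr1).mul_const _
  rw [zero_mul] at hlim
  have h0 : |JJ c (n+1) - r * JJ c n| ≤ 0 := ge_of_tendsto' hlim hb
  have := abs_nonpos_iff.1 h0
  linarith

theorem JJ_eq_pow (hc0 : 0 ≤ c) (hc1 : c < 1) (hr0 : 0 < r) (hr1 : r < 1)
    (hcr : c * (r^2 + 1) = 2 * r) (n : ℕ) : JJ c n = r ^ n * JJ c 0 := by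
  induction n with
  | zero => simp
  | succ n ih => rw [JJ_eq hc0 hc1 hr0 hr1 hcr n, ih]; ring

theorem JJ_zero (hc0 : 0 ≤ c) (hc1 : c < 1) (hr0 : 0 < r) (hr1 : r < 1)
    (hcr : c * (r^2 + 1) = 2 * r) : (1 - c * r) * JJ c 0 = π := by
  have h1 := JJ_one hc0 hc1
  have h2 := JJ_eq hc0 hc1 hr0 hr1 hcr 0
  simp only [zero_add] at h2
  rw [h2] at h1
  linarith

end inner

theorem JJ_cos {u : ℝ} (h0 : 0 < u) (h1 : u < π/2) (n : ℕ) :
    JJ (Real.cos u) n = π * rho u ^ n / Real.sin u := by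
  have hs : 0 < Real.sin u := sin_pos' h0 h1.le
  have hc : 0 < Real.cos u := Real.cos_pos_of_mem_Ioo ⟨by linarith [Real.pi_pos], h1⟩
  have hc1 : Real.cos u < 1 := by
    have := Real.sin_sq_add_cos_sq u
    nlinarith
  have hr0 : 0 < rho u := by unfold rho; positivity
  have hr1 : rho u < 1 := by
    unfold rho; rw [div_lt_one (by positivity)]; linarith
  have hcr : Real.cos u * (rho u ^2 + 1) = 2 * rho u := by
    unfold rho
    have h2 := Real.sin_sq_add_cos_sq u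
    have : 1 + Real.sin u ≠ 0 := by positivity
    field_simp
    linear_combination h2
  have hz := JJ_zero hc.le hc1 hr0 hr1 hcr
  have hcr2 : 1 - Real.cos u * rho u = Real.sin u := by
    unfold rho
    have h2 := Real.sin_sq_add_cos_sq u
    have : 1 + Real.sin u ≠ 0 := by positivity
    field_simp
    linear_combination - h2
  rw [hcr2] at hz
  rw [JJ_eq_pow hc.le hc1 hr0 hr1 hcr n]
  field_simp
  linear_combination hz

/-- the symmetric double integrand -/
noncomputable def FF (k l : ℤ) (u v : ℝ) : ℝ :=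
  (1 - Real.cos (k*u) * Real.cos (l*v)) / (1 - Real.cos u * Real.cos v)

theorem FF_swap (k l : ℤ) (u v : ℝ) : FF k l u v = FF l k v u := by
  unfold FF
  congr 1 <;> ring

theorem cos_cos_eq (a b : ℝ) :
    1 - Real.cos (a+b) * Real.cos (a-b) = Real.sin a ^ 2 + Real.sin b ^ 2 := by
  rw [Real.cos_add, Real.cos_sub]
  have h1 := Real.sin_sq_add_cos_sq a
  have h2 := Real.sin_sq_add_cos_sq b
  have e : (Real.cos a * Real.cos b - Real.sin a * Real.sin b) * (Real.cos a * Real.cos b + Real.sin a * Real.sin b)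
     = Real.cos a ^2 * Real.cos b ^2 - Real.sin a ^2 * Real.sin b^2 := by ring
  rw [e]
  have h3 : Real.cos a ^2 = 1 - Real.sin a ^2 := by linarith
  have h4 : Real.cos b ^2 = 1 - Real.sin b ^2 := by linarith
  rw [h3, h4]; ring

theorem abs_sin_int_mul_le (m : ℤ) (a : ℝ) : |Real.sin (m*a)| ≤ |(m:ℝ)| * |Real.sin a| := by
  have hn : ∀ n : ℕ, |Real.sin (n*a)| ≤ n * |Real.sin a| := by
    intro n
    induction n with
    | zero => simp
    | succ n ih =>
      have : Real.sin (((n+1 : ℕ):ℝ)*a) = Real.sin (n*a) * Real.cos a + Real.cos (n*a) * Real.sin a := by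
        rw [← Real.sin_add]; congr 1; push_cast; ring
      rw [this]
      refine (abs_add_le _ _).trans ?_
      rw [abs_mul, abs_mul]
      have h1 := Real.abs_cos_le_one a
      have h2 := Real.abs_cos_le_one (n*a)
      push_cast
      nlinarith [abs_nonneg (Real.sin (n*a)), abs_nonneg (Real.sin a)]
  rcases le_total 0 m with h | h
  · obtain ⟨n, rfl⟩ := Int.eq_ofNat_of_zero_le h
    have := hn n
    simpa using this
  · obtain ⟨n, hn'⟩ := Int.eq_ofNat_of_zero_le (neg_nonneg.2 h)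
    have hm : m = -(n:ℤ) := by omega
    subst hm
    have := hn n
    push_cast
    rw [neg_mul, Real.sin_neg, abs_neg, abs_neg]
    simpa using this

theorem abs_FF_le (m n : ℤ) (u v : ℝ) :
    |FF (m+n) (m-n) u v| ≤ 2 * ((m:ℝ)^2 + (n:ℝ)^2) := by
  set a := (u+v)/2 with ha
  set b := (u-v)/2 with hb
  have hu : u = a + b := by rw [ha, hb]; ring
  have hv : v = a - b := by rw [ha, hb]; ring
  have hD : 1 - Real.cos u * Real.cos v = Real.sin a ^2 + Real.sin b^2 := by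
    rw [hu, hv]; exact cos_cos_eq a b
  have hN : 1 - Real.cos (((m+n : ℤ):ℝ)*u) * Real.cos (((m-n : ℤ):ℝ)*v)
      = Real.sin (m*a+n*b) ^2 + Real.sin (n*a + m*b)^2 := by
    rw [← cos_cos_eq]
    congr 2
    · congr 1; rw [hu]; push_cast; ring
    · congr 1; rw [hv]; push_cast; ring
  have h1 : |Real.sin (m*a+n*b)| ≤ |(m:ℝ)| * |Real.sin a| + |(n:ℝ)| * |Real.sin b| := by
    rw [Real.sin_add]
    refine (abs_add_le _ _).trans ?_
    rw [abs_mul, abs_mul]
    have e1 := abs_sin_int_mul_le m a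
    have e2 := abs_sin_int_mul_le n b
    have e3 := Real.abs_cos_le_one (n*b)
    have e4 := Real.abs_cos_le_one (m*a)
    nlinarith [abs_nonneg (Real.sin (m*a)), abs_nonneg (Real.sin (n*b)), abs_nonneg (Real.cos (n*b)),
      abs_nonneg (Real.cos (m*a))]
  have h2 : |Real.sin (n*a+m*b)| ≤ |(n:ℝ)| * |Real.sin a| + |(m:ℝ)| * |Real.sin b| := by
    rw [Real.sin_add]
    refine (abs_add_le _ _).trans ?_
    rw [abs_mul, abs_mul]
    have e1 := abs_sin_int_mul_le n a
    have e2 := abs_sin_int_mul_le m b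
    have e3 := Real.abs_cos_le_one (m*b)
    have e4 := Real.abs_cos_le_one (n*a)
    nlinarith [abs_nonneg (Real.sin (n*a)), abs_nonneg (Real.sin (m*b)), abs_nonneg (Real.cos (m*b)),
      abs_nonneg (Real.cos (n*a))]
  unfold FF
  rw [hN, hD]
  set A := |Real.sin a|
  set B := |Real.sin b|
  have hA : Real.sin a ^2 = A^2 := (sq_abs _).symm
  have hB : Real.sin b ^2 = B^2 := (sq_abs _).symm
  have hM : (m:ℝ)^2 = |(m:ℝ)|^2 := (sq_abs _).symm
  have hN' : (n:ℝ)^2 = |(n:ℝ)|^2 := (sq_abs _).symm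
  have hA0 : 0 ≤ A := abs_nonneg _
  have hB0 : 0 ≤ B := abs_nonneg _
  rw [hA, hB, hM, hN']
  have hm0 : 0 ≤ |(m:ℝ)| := abs_nonneg _
  have hn0 : 0 ≤ |(n:ℝ)| := abs_nonneg _
  have s1 : Real.sin (m*a+n*b)^2 ≤ (|(m:ℝ)| * A + |(n:ℝ)| * B)^2 := by
    rw [← sq_abs (Real.sin (m*a+n*b))]
    exact pow_le_pow_left₀ (abs_nonneg _) h1 2
  have s2 : Real.sin (n*a+m*b)^2 ≤ (|(n:ℝ)| * A + |(m:ℝ)| * B)^2 := by
    rw [← sq_abs (Real.sin (n*a+m*b))]
    exact pow_le_pow_left₀ (abs_nonneg _) h2 2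
  rw [abs_div, abs_of_nonneg (by positivity : 0 ≤ Real.sin (m*a+n*b)^2 + Real.sin (n*a+m*b)^2),
    abs_of_nonneg (by positivity : 0 ≤ A^2 + B^2)]
  apply div_le_of_le_mul₀ (by positivity) (by positivity)
  nlinarith [sq_nonneg (|(m:ℝ)| * A - |(n:ℝ)| * B), sq_nonneg (|(n:ℝ)| * A - |(m:ℝ)| * B),
    sq_nonneg (|(m:ℝ)| * B), sq_nonneg (|(n:ℝ)| * A), sq_nonneg (|(m:ℝ)| * A), sq_nonneg (|(n:ℝ)| * B)]

theorem measurable_FF (k l : ℤ) : Measurable (Function.uncurry (FF k l)) := by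
  have : Function.uncurry (FF k l) = fun p : ℝ × ℝ =>
      (1 - Real.cos (k*p.1) * Real.cos (l*p.2)) / (1 - Real.cos p.1 * Real.cos p.2) := by
    funext p; rfl
  rw [this]
  fun_prop

/-- inner integral of `FF`. -/
noncomputable def II (k l : ℤ) (u : ℝ) : ℝ := ∫ v in (0:ℝ)..π, FF k l u v

theorem II_eq (k l : ℤ) {u : ℝ} (h0 : 0 < u) (h1 : u < π/2) : II k l u = π * kf k l u := by
  have hs : 0 < Real.sin u := sin_pos' h0 h1.le
  have hc : 0 < Real.cos u := Real.cos_pos_of_mem_Ioo ⟨by linarith [Real.pi_pos], h1⟩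
  have hc1 : Real.cos u < 1 := by
    have := Real.sin_sq_add_cos_sq u
    nlinarith
  have j0 := JJ_cos h0 h1 0
  have jl := JJ_cos h0 h1 l.natAbs
  have hi := fun n => (cont_JJ hc.le hc1 n).intervalIntegrable (μ := volume) 0 π
  have : II k l u = JJ (Real.cos u) 0 - Real.cos (k*u) * JJ (Real.cos u) l.natAbs := by
    unfold II JJ
    rw [← intervalIntegral.integral_const_mul, ← intervalIntegral.integral_sub (hi _) ((hi _).const_mul _)]
    apply intervalIntegral.integral_congr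
    intro v _
    have hl : Real.cos (l*v) = Real.cos ((l.natAbs:ℝ) * v) := by
      rcases Int.natAbs_eq l with h | h
      · conv_lhs => rw [h]
        simp
      · conv_lhs => rw [h]
        push_cast
        rw [neg_mul, Real.cos_neg]
        simp
    simp only [FF]
    rw [hl]
    simp only [Nat.cast_zero, zero_mul, Real.cos_zero]
    ring
  rw [this, j0, jl]
  unfold kf
  ring

theorem II_refl (m n : ℤ) (u : ℝ) : II (m+n) (m-n) (π - u) = II (m+n) (m-n) u := by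
  unfold II
  have h := intervalIntegral.integral_comp_sub_left (a := 0) (b := π) (fun v => FF (m+n) (m-n) (π - u) v) π
  rw [sub_self, sub_zero] at h
  rw [← h]
  apply intervalIntegral.integral_congr
  intro v _
  simp only [FF]
  have e1 : Real.cos (((m+n : ℤ):ℝ) * (π - u)) * Real.cos (((m-n : ℤ):ℝ) * (π - v))
      = Real.cos (((m+n : ℤ):ℝ) * u) * Real.cos (((m-n : ℤ):ℝ) * v) := by
    rw [mul_sub, mul_sub, Real.cos_sub, Real.cos_sub, Real.sin_int_mul_pi, Real.sin_int_mul_pi,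
      zero_mul, zero_mul, add_zero, add_zero]
    have h1 : Real.cos (((m+n : ℤ):ℝ) * π) * Real.cos (((m-n : ℤ):ℝ) * π) = 1 := by
      rw [Real.cos_int_mul_pi, Real.cos_int_mul_pi, ← zpow_add₀ (by norm_num : (-1:ℝ) ≠ 0)]
      rw [show m + n + (m - n) = 2 * m by ring, zpow_mul]
      norm_num
    linear_combination (Real.cos (((m+n : ℤ):ℝ) * u) * Real.cos (((m-n : ℤ):ℝ) * v)) * h1
  have e2 : Real.cos (π - u) * Real.cos (π - v) = Real.cos u * Real.cos v := by
    rw [Real.cos_pi_sub, Real.cos_pi_sub]; ring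
  rw [e1, e2]

theorem intII_eq (m n : ℤ) : ∫ u in (0:ℝ)..π, II (m+n) (m-n) u = 4 * π^2 * pk0 (m+n) (m-n) := by
  have hII : ∫ u in (0:ℝ)..(π/2), II (m+n) (m-n) u = π * ∫ u in (0:ℝ)..(π/2), kf (m+n) (m-n) u := by
    rw [← intervalIntegral.integral_const_mul]
    apply intervalIntegral.integral_congr_ae
    have : ∀ᵐ u : ℝ ∂volume, u ≠ π/2 := by
      simp [ae_iff, measure_singleton]
    filter_upwards [this] with u hu1 hu
    rw [uIoc_of_le (by positivity)] at hu
    exact II_eq _ _ hu.1 (lt_of_le_of_ne hu.2 hu1)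
  have hint1 : IntervalIntegrable (II (m+n) (m-n)) volume 0 (π/2) := by
    have h1 : IntervalIntegrable (fun u => π * kf (m+n) (m-n) u) volume 0 (π/2) :=
      (intervalIntegrable_kf _ _).const_mul π
    refine h1.congr_ae ?_
    have : ∀ᵐ u : ℝ ∂volume, u ≠ π/2 := by
      simp [ae_iff, measure_singleton]
    rw [uIoc_of_le (by positivity)]
    refine (ae_restrict_iff' measurableSet_Ioc).2 ?_
    filter_upwards [this] with u hu1 hu
    exact (II_eq _ _ hu.1 (lt_of_le_of_ne hu.2 hu1)).symm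
  have hrefl : ∫ u in (π/2)..π, II (m+n) (m-n) u = ∫ u in (0:ℝ)..(π/2), II (m+n) (m-n) u := by
    have h := intervalIntegral.integral_comp_sub_left (a := 0) (b := π/2) (fun u => II (m+n) (m-n) u) π
    rw [sub_zero, show π - π/2 = π/2 by ring] at h
    rw [← h]
    apply intervalIntegral.integral_congr
    intro u _
    exact II_refl m n u
  have hint2 : IntervalIntegrable (II (m+n) (m-n)) volume (π/2) π := by
    have h := hint1.comp_sub_left π
    rw [sub_zero, show π - π/2 = π/2 by ring] at h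
    have e : (fun u => II (m+n) (m-n) (π - u)) = II (m+n) (m-n) := by
      funext u; exact II_refl m n u
    rw [e] at h
    exact h.symm
  rw [← intervalIntegral.integral_add_adjacent_intervals hint1 hint2, hrefl, hII]
  unfold pk0
  have := Real.pi_ne_zero
  field_simp
  ring

theorem pk0_swap' (m n : ℤ) : pk0 (m+n) (m-n) = pk0 (m-n) (m+n) := by
  have h1 := intII_eq m n
  have h2 := intII_eq m (-n)
  rw [show m + -n = m - n by ring, show m - -n = m + n by ring] at h2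
  have hsw : ∫ u in (0:ℝ)..π, II (m+n) (m-n) u = ∫ u in (0:ℝ)..π, II (m-n) (m+n) u := by
    unfold II
    rw [intervalIntegral_intervalIntegral_swap]
    · apply intervalIntegral.integral_congr
      intro v _
      apply intervalIntegral.integral_congr
      intro u _
      exact FF_swap _ _ _ _
    · refine Measure.integrableOn_of_bounded (M := 2 * ((m:ℝ)^2 + (n:ℝ)^2)) ?_
        (measurable_FF _ _).aestronglyMeasurable ?_
      · rw [Measure.volume_eq_prod, Measure.prod_prod]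
        simp only [uIoc_of_le Real.pi_pos.le, Real.volume_Ioc]
        exact ENNReal.mul_ne_top ENNReal.ofReal_ne_top ENNReal.ofReal_ne_top
      · refine Filter.Eventually.of_forall fun p => ?_
        rw [Real.norm_eq_abs]
        exact abs_FF_le m n p.1 p.2
  rw [h1, h2] at hsw
  have hp : (4 * π^2 : ℝ) ≠ 0 := by positivity
  exact mul_left_cancel₀ hp hsw

theorem pk0_swap (k l : ℤ) (h : Even (k + l)) : pk0 k l = pk0 l k := by
  obtain ⟨m, hm⟩ := h
  have h1 : k = m + (k - m) := by ring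
  have h2 : l = m - (k - m) := by omega
  rw [h2]
  nth_rw 1 [h1]
  nth_rw 4 [h1]
  exact pk0_swap' m (k - m)

end Crest.Agent.R165.Pkx583
end

-- ▼ part R165/PkC_583

/-!
Row 165, block U2: gradient asymptotics of the potential kernel:
`|pk (z + e) - pk z - ⟨z,e⟩/(2π|z|²)| ≤ C/|z|²` for unit steps `e`.
-/

set_option autoImplicit false

namespace Crest.Agent.R165.Pkx583

open Real MeasureTheory Set intervalIntegral

noncomputable def AA (n : ℕ) (k : ℤ) : ℝ := ∫ u in (0:ℝ)..(π/2), rho u ^ n * Real.cos (k*u)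
noncomputable def BB (n : ℕ) (k : ℤ) : ℝ := ∫ u in (0:ℝ)..(π/2), rho u ^ n * Real.sin (k*u)

theorem intervalIntegrable_rho_mul (n : ℕ) {g : ℝ → ℝ} (hg : Continuous g) (hb : ∀ u, |g u| ≤ 1) :
    IntervalIntegrable (fun u => rho u ^ n * g u) volume 0 (π/2) := by
  rw [intervalIntegrable_iff_integrableOn_Ioc_of_le (by positivity)]
  refine Measure.integrableOn_of_bounded (M := 1) ?_ ?_ ?_
  · rw [Real.volume_Ioc]; exact ENNReal.ofReal_ne_top
  · have hr : Measurable rho := by unfold rho; fun_prop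
    exact ((hr.pow_const n).mul hg.measurable).aestronglyMeasurable
  · refine (ae_restrict_iff' measurableSet_Ioc).2 (Filter.Eventually.of_forall fun u hu => ?_)
    rw [Real.norm_eq_abs, abs_mul]
    have h1 := rho_nonneg hu.1.le hu.2
    have h2 := rho_le_one hu.1.le hu.2
    have h3 : |rho u ^ n| ≤ 1 := by
      rw [abs_of_nonneg (pow_nonneg h1 n)]; exact pow_le_one₀ h1 h2
    calc |rho u ^ n| * |g u| ≤ 1 * 1 := mul_le_mul h3 (hb u) (abs_nonneg _) zero_le_one
      _ = 1 := one_mul 1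

theorem intervalIntegrable_A (n : ℕ) (k : ℤ) :
    IntervalIntegrable (fun u => rho u ^ n * Real.cos (k*u)) volume 0 (π/2) :=
  intervalIntegrable_rho_mul n (by fun_prop) fun _ => Real.abs_cos_le_one _

theorem intervalIntegrable_B (n : ℕ) (k : ℤ) :
    IntervalIntegrable (fun u => rho u ^ n * Real.sin (k*u)) volume 0 (π/2) :=
  intervalIntegrable_rho_mul n (by fun_prop) fun _ => Real.abs_sin_le_one _

/-- the exact gradient formula -/
theorem pk0_step (k : ℤ) (n : ℕ) :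
    pk0 (k+1) ((n:ℤ)+1) - pk0 k n = (1/(2*π)) * (AA n k + BB (n+1) k) := by
  unfold pk0 AA BB
  rw [← mul_sub, ← intervalIntegral.integral_sub (intervalIntegrable_kf _ _) (intervalIntegrable_kf _ _),
    ← intervalIntegral.integral_add (intervalIntegrable_A _ _) (intervalIntegrable_B _ _)]
  congr 1
  apply intervalIntegral.integral_congr_ae
  refine Filter.Eventually.of_forall fun u hu => ?_
  rw [uIoc_of_le (by positivity)] at hu
  have hs := sin_pos' hu.1 hu.2
  unfold kf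
  have e2 : ((n:ℤ)+1).natAbs = n + 1 := by omega
  have e3 : ((n:ℤ)).natAbs = n := by omega
  rw [e2, e3]
  have c1 : Real.cos (((k+1 : ℤ) : ℝ) * u) = Real.cos (k*u) * Real.cos u - Real.sin (k*u) * Real.sin u := by
    rw [← Real.cos_add]; congr 1; push_cast; ring
  rw [c1]
  have hr : Real.cos u * rho u = 1 - Real.sin u := by
    unfold rho
    have h2 := Real.sin_sq_add_cos_sq u
    have : 1 + Real.sin u ≠ 0 := by positivity
    field_simp
    nlinarith
  field_simp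
  linear_combination (-Real.cos (k*u) * rho u ^ n) * hr

/-! ### exponential comparison -/

theorem rho_le_exp {u : ℝ} (h0 : 0 ≤ u) (h1 : u ≤ π/2) : rho u ≤ Real.exp (-(u/π)) := by
  have hs := sin_ge h0 h1
  have hpi := Real.pi_pos
  have hx0 : 0 ≤ u/π := by positivity
  have hx1 : u/π ≤ 1/2 := by
    rw [div_le_iff₀ hpi]; linarith
  have he : Real.exp (u/π) ≤ 1 / (1 - u/π) := Real.exp_bound_div_one_sub_of_interval hx0 (by linarith)
  have he2 : Real.exp (u/π) ≤ 1 + 2*(u/π) := by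
    refine he.trans ?_
    rw [div_le_iff₀ (by linarith)]
    nlinarith
  have h3 : Real.exp (u/π) ≤ 1 + Real.sin u := by
    have : 2 / π * u = 2 * (u/π) := by ring
    linarith
  have h4 : rho u ≤ 1 / (1 + Real.sin u) := by
    unfold rho
    have : 0 < 1 + Real.sin u := lt_of_lt_of_le (Real.exp_pos _) h3
    exact div_le_div_of_nonneg_right (Real.cos_le_one u) this.le
  refine h4.trans ?_
  rw [Real.exp_neg, ← one_div]
  exact one_div_le_one_div_of_le (Real.exp_pos _) h3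

theorem abs_exp_sub_rho_le {u : ℝ} (h0 : 0 ≤ u) (h1 : u ≤ π/2) :
    |rho u - Real.exp (-u)| ≤ 4 * u^2 := by
  have hpi := Real.pi_pos
  have hs : 0 ≤ Real.sin u := Real.sin_nonneg_of_nonneg_of_le_pi h0 (by linarith)
  have hsu : Real.sin u ≤ u := Real.sin_le h0
  have hc : 1 - u^2/2 ≤ Real.cos u := Real.one_sub_sq_div_two_le_cos
  have hc1 := Real.cos_le_one u
  -- u - sin u ≤ u^2 / 2 ... from sin u ≥ u - u^3/4 for u ≤ 1 and trivially for u ≥ 1
  have hsl : u - u^2 ≤ Real.sin u := by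
    rcases le_total u 1 with hu | hu
    · rcases h0.lt_or_eq with hp | hp
      · have := Real.sin_gt_sub_cube hp
        nlinarith [mul_nonneg h0 h0, mul_nonneg (mul_nonneg h0 h0) h0]
      · rw [← hp]; simp
    · nlinarith
  have e1 : |rho u - (1 - u)| ≤ (5/2) * u^2 := by
    unfold rho
    have hpos : 0 < 1 + Real.sin u := by linarith
    have : Real.cos u / (1 + Real.sin u) - (1 - u)
        = ((Real.cos u - 1) + (u - Real.sin u) + u * Real.sin u) / (1 + Real.sin u) := by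
      field_simp; ring
    rw [this, abs_div, abs_of_pos hpos, div_le_iff₀ hpos]
    have h5 : |(Real.cos u - 1) + (u - Real.sin u) + u * Real.sin u| ≤ (5/2) * u^2 := by
      rw [abs_le]
      constructor <;> nlinarith
    calc _ ≤ (5/2) * u^2 := h5
      _ ≤ (5/2) * u^2 * (1 + Real.sin u) := by nlinarith [sq_nonneg u]
  have e2 : |Real.exp (-u) - (1 - u)| ≤ (3/2) * u^2 := by
    have h6 : 1 - u ≤ Real.exp (-u) := by linarith [Real.add_one_le_exp (-u)]
    rw [abs_of_nonneg (by linarith)]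
    rcases le_total u 1 with hu | hu
    · have := Real.abs_exp_sub_one_sub_id_le (x := -u) (by rw [abs_neg, abs_of_nonneg h0]; exact hu)
      have h7 := le_abs_self (Real.exp (-u) - 1 - -u)
      nlinarith
    · have : Real.exp (-u) ≤ 1 := Real.exp_le_one_iff.2 (by linarith)
      nlinarith
  calc |rho u - Real.exp (-u)| = |(rho u - (1-u)) - (Real.exp (-u) - (1-u))| := by ring_nf
    _ ≤ |rho u - (1-u)| + |Real.exp (-u) - (1-u)| := abs_sub _ _
    _ ≤ (5/2) * u^2 + (3/2) * u^2 := add_le_add e1 e2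
    _ = _ := by ring

theorem abs_pow_sub_pow_le {a b M : ℝ} (ha : 0 ≤ a) (hb : 0 ≤ b) (haM : a ≤ M) (hbM : b ≤ M) (n : ℕ) :
    |a^(n+1) - b^(n+1)| ≤ (n+1) * M^n * |a - b| := by
  induction n with
  | zero => simp
  | succ n ih =>
    have hM : 0 ≤ M := ha.trans haM
    have h1 : a^(n+1+1) - b^(n+1+1) = a * (a^(n+1) - b^(n+1)) + (a - b) * b^(n+1) := by ring
    rw [h1]
    refine (abs_add_le _ _).trans ?_
    rw [abs_mul, abs_mul, abs_of_nonneg ha, abs_of_nonneg (pow_nonneg hb (n+1))]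
    have h2 : b^(n+1) ≤ M^(n+1) := pow_le_pow_left₀ hb hbM _
    have h3 : a * |a^(n+1) - b^(n+1)| ≤ M * ((n+1) * M^n * |a-b|) :=
      mul_le_mul haM ih (abs_nonneg _) hM
    have h4 : |a-b| * b^(n+1) ≤ |a-b| * M^(n+1) := mul_le_mul_of_nonneg_left h2 (abs_nonneg _)
    calc a * |a^(n+1) - b^(n+1)| + |a-b| * b^(n+1) ≤ M * ((n+1) * M^n * |a-b|) + |a-b| * M^(n+1) :=
          add_le_add h3 h4
      _ = _ := by push_cast; ring

theorem abs_rho_pow_sub_exp_le {u : ℝ} (h0 : 0 ≤ u) (h1 : u ≤ π/2) (n : ℕ) :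
    |rho u ^ (n+1) - Real.exp (-((n+1)*u))| ≤ 8 * (n+1) * (u^2 * Real.exp (-((n+1)/π*u))) := by
  have hpi := Real.pi_pos
  have hr0 := rho_nonneg h0 h1
  have hr := rho_le_exp h0 h1
  have he : Real.exp (-u) ≤ Real.exp (-(u/π)) := by
    apply Real.exp_le_exp.2
    have : u/π ≤ u := div_le_self h0 (by linarith [Real.pi_gt_three])
    linarith
  have hp := abs_pow_sub_pow_le hr0 (Real.exp_pos (-u)).le hr he n
  have e1 : Real.exp (-u) ^ (n+1) = Real.exp (-((n+1)*u)) := by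
    rw [← Real.exp_nat_mul]; congr 1; push_cast; ring
  rw [e1] at hp
  have e2 : Real.exp (-(u/π)) ^ n = Real.exp (u/π) * Real.exp (-((n+1)/π*u)) := by
    rw [← Real.exp_nat_mul, ← Real.exp_add]; congr 1; field_simp; ring
  rw [e2] at hp
  have e3 : Real.exp (u/π) ≤ 2 := by
    have hx0 : 0 ≤ u/π := by positivity
    have hx1 : u/π ≤ 1/2 := by rw [div_le_iff₀ hpi]; linarith
    have he : Real.exp (u/π) ≤ 1 / (1 - u/π) := Real.exp_bound_div_one_sub_of_interval hx0 (by linarith)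
    refine he.trans ?_
    rw [div_le_iff₀ (by linarith)]
    linarith
  have h4 := abs_exp_sub_rho_le h0 h1
  have hE := Real.exp_pos (-((n+1)/π*u))
  calc |rho u ^ (n+1) - Real.exp (-((n+1)*u))|
      ≤ (n+1) * (Real.exp (u/π) * Real.exp (-((n+1)/π*u))) * |rho u - Real.exp (-u)| := hp
    _ ≤ (n+1) * (2 * Real.exp (-((n+1)/π*u))) * (4 * u^2) := by
        apply mul_le_mul _ h4 (abs_nonneg _) (by positivity)
        apply mul_le_mul_of_nonneg_left _ (by positivity)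
        exact mul_le_mul_of_nonneg_right e3 hE.le
    _ = _ := by ring

theorem integral_sq_exp_le {c T : ℝ} (hc : 0 < c) (hT : 0 ≤ T) :
    ∫ u in (0:ℝ)..T, u^2 * Real.exp (-(c*u)) ≤ 2/c^3 := by
  have hd : ∀ u ∈ uIcc (0:ℝ) T, HasDerivAt (fun u : ℝ => -((u^2/c + 2*u/c^2 + 2/c^3) * Real.exp (-(c*u))))
      (u^2 * Real.exp (-(c*u))) u := by
    intro u _
    have h1 : HasDerivAt (fun u : ℝ => Real.exp (-(c*u))) (Real.exp (-(c*u)) * (-(c*1))) u :=
      (((hasDerivAt_id u).const_mul c).neg).exp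
    have h2 : HasDerivAt (fun u : ℝ => u^2/c + 2*u/c^2 + 2/c^3) (2*u/c + 2/c^2) u := by
      have a1 := (hasDerivAt_pow 2 u).div_const c
      have a2 := ((hasDerivAt_id u).const_mul 2).div_const (c^2)
      have := (a1.add a2).add_const (2/c^3)
      refine this.congr_deriv ?_
      simp
    have := (h2.mul h1).neg
    refine this.congr_deriv ?_
    field_simp
    ring
  have hi : IntervalIntegrable (fun u : ℝ => u^2 * Real.exp (-(c*u))) volume 0 T :=
    (by fun_prop : Continuous fun u : ℝ => u^2 * Real.exp (-(c*u))).intervalIntegrable _ _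
  rw [intervalIntegral.integral_eq_sub_of_hasDerivAt hd hi]
  simp only [mul_zero, neg_zero, Real.exp_zero, mul_one]
  have : 0 ≤ (T^2/c + 2*T/c^2 + 2/c^3) * Real.exp (-(c*T)) := by positivity
  have h0 : ((0:ℝ)^2/c + 0/c^2 + 2/c^3) = 2/c^3 := by simp
  rw [h0]
  linarith

theorem abs_A_sub_le (n : ℕ) {g : ℝ → ℝ} (hg : Continuous g) (hb : ∀ u, |g u| ≤ 1) :
    |(∫ u in (0:ℝ)..(π/2), rho u ^ (n+1) * g u) - ∫ u in (0:ℝ)..(π/2), Real.exp (-((n+1)*u)) * g u|
      ≤ 16 * π^3 / (n+1)^2 := by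
  have hi2 : IntervalIntegrable (fun u : ℝ => Real.exp (-(((n:ℝ)+1)*u)) * g u) volume 0 (π/2) :=
    (by fun_prop : Continuous fun u : ℝ => Real.exp (-(((n:ℝ)+1)*u)) * g u).intervalIntegrable _ _
  rw [← intervalIntegral.integral_sub (intervalIntegrable_rho_mul (n+1) hg hb) hi2]
  have hpi := Real.pi_pos
  have hn : (0:ℝ) < (n:ℝ)+1 := by positivity
  have hbd : ∀ᵐ u : ℝ ∂volume, u ∈ Set.Ioc (0:ℝ) (π/2) →
      ‖rho u ^ (n+1) * g u - Real.exp (-(((n:ℝ)+1)*u)) * g u‖
        ≤ 8 * (n+1) * (u^2 * Real.exp (-(((n:ℝ)+1)/π*u))) := by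
    refine Filter.Eventually.of_forall fun u hu => ?_
    rw [← sub_mul, Real.norm_eq_abs, abs_mul]
    have h1 := abs_rho_pow_sub_exp_le hu.1.le hu.2 n
    calc |rho u ^ (n+1) - Real.exp (-(((n:ℝ)+1)*u))| * |g u|
        ≤ |rho u ^ (n+1) - Real.exp (-(((n:ℝ)+1)*u))| * 1 :=
          mul_le_mul_of_nonneg_left (hb u) (abs_nonneg _)
      _ ≤ _ := by rw [mul_one]; exact h1
  have hci : IntervalIntegrable (fun u : ℝ => 8 * ((n:ℝ)+1) * (u^2 * Real.exp (-(((n:ℝ)+1)/π*u)))) volume 0 (π/2) :=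
    (by fun_prop : Continuous fun u : ℝ => 8 * ((n:ℝ)+1) * (u^2 * Real.exp (-(((n:ℝ)+1)/π*u)))).intervalIntegrable _ _
  have h := intervalIntegral.norm_integral_le_of_norm_le (by positivity) hbd hci
  rw [Real.norm_eq_abs] at h
  refine h.trans ?_
  rw [intervalIntegral.integral_const_mul]
  have hc : 0 < ((n:ℝ)+1)/π := by positivity
  have := integral_sq_exp_le hc (by positivity : (0:ℝ) ≤ π/2)
  calc 8 * ((n:ℝ)+1) * ∫ u in (0:ℝ)..(π/2), u^2 * Real.exp (-(((n:ℝ)+1)/π*u))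
      ≤ 8 * ((n:ℝ)+1) * (2 / (((n:ℝ)+1)/π)^3) := mul_le_mul_of_nonneg_left this (by positivity)
    _ = _ := by field_simp; ring

theorem exp_neg_le {x : ℝ} (hx : 0 < x) : Real.exp (-x) ≤ 1/x := by
  rw [Real.exp_neg, ← one_div]
  exact one_div_le_one_div_of_le hx (by linarith [Real.add_one_le_exp x])

theorem abs_lin_le (a b : ℝ) (hab : 0 < a^2 + b^2) (ha : 0 < a) (s c : ℝ) (hs : |s| ≤ 1) (hc : |c| ≤ 1) :
    |(b * s - a * c) / (a^2+b^2)| ≤ 2 / a := by
  rw [abs_div, abs_of_pos hab, div_le_div_iff₀ hab ha]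
  have h1 : |b * s - a * c| ≤ |b| + a := by
    refine (abs_sub _ _).trans ?_
    rw [abs_mul, abs_mul, abs_of_pos ha]
    nlinarith [abs_nonneg b]
  have hb2 : b^2 = |b|^2 := (sq_abs b).symm
  rw [hb2]
  have := abs_nonneg b
  nlinarith [sq_nonneg (a - |b|)]

theorem integral_exp_cos (a b : ℝ) (ha : 0 < a) :
    |(∫ u in (0:ℝ)..(π/2), Real.exp (-(a*u)) * Real.cos (b*u)) - a/(a^2+b^2)| ≤ 2/a^2 := by
  have hab : 0 < a^2 + b^2 := by positivity
  have hd : ∀ u ∈ uIcc (0:ℝ) (π/2), HasDerivAt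
      (fun u : ℝ => Real.exp (-(a*u)) * ((b * Real.sin (b*u) - a * Real.cos (b*u)) / (a^2+b^2)))
      (Real.exp (-(a*u)) * Real.cos (b*u)) u := by
    intro u _
    have h1 : HasDerivAt (fun u : ℝ => Real.exp (-(a*u))) (Real.exp (-(a*u)) * (-(a*1))) u :=
      (((hasDerivAt_id u).const_mul a).neg).exp
    have h2 : HasDerivAt (fun u : ℝ => Real.sin (b*u)) (Real.cos (b*u) * (b*1)) u :=
      ((hasDerivAt_id u).const_mul b).sin
    have h3 : HasDerivAt (fun u : ℝ => Real.cos (b*u)) (-Real.sin (b*u) * (b*1)) u :=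
      ((hasDerivAt_id u).const_mul b).cos
    have := h1.mul (((h2.const_mul b).sub (h3.const_mul a)).div_const (a^2+b^2))
    refine this.congr_deriv ?_
    simp only [Pi.sub_apply]
    field_simp
    ring
  have hi : IntervalIntegrable (fun u : ℝ => Real.exp (-(a*u)) * Real.cos (b*u)) volume 0 (π/2) :=
    (by fun_prop : Continuous fun u : ℝ => Real.exp (-(a*u)) * Real.cos (b*u)).intervalIntegrable _ _
  rw [intervalIntegral.integral_eq_sub_of_hasDerivAt hd hi]
  simp only [mul_zero, neg_zero, Real.exp_zero, Real.sin_zero, Real.cos_zero, one_mul, mul_one, zero_sub]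
  have e : Real.exp (-(a*(π/2))) * ((b * Real.sin (b*(π/2)) - a * Real.cos (b*(π/2))) / (a^2+b^2))
      - (-a)/(a^2+b^2) - a/(a^2+b^2)
      = Real.exp (-(a*(π/2))) * ((b * Real.sin (b*(π/2)) - a * Real.cos (b*(π/2))) / (a^2+b^2)) := by ring
  rw [e, abs_mul, abs_of_pos (Real.exp_pos _)]
  have h5 := abs_lin_le a b hab ha _ _ (Real.abs_sin_le_one (b*(π/2))) (Real.abs_cos_le_one (b*(π/2)))
  have h6 := exp_neg_le (x := a*(π/2)) (by positivity)
  have h7 : 1/(a*(π/2)) ≤ 1/a := by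
    apply one_div_le_one_div_of_le ha
    nlinarith [Real.pi_gt_three]
  calc Real.exp (-(a*(π/2))) * |(b * Real.sin (b*(π/2)) - a * Real.cos (b*(π/2))) / (a^2+b^2)|
      ≤ (1/a) * (2/a) := mul_le_mul (h6.trans h7) h5 (abs_nonneg _) (by positivity)
    _ = 2/a^2 := by ring

theorem integral_exp_sin (a b : ℝ) (ha : 0 < a) :
    |(∫ u in (0:ℝ)..(π/2), Real.exp (-(a*u)) * Real.sin (b*u)) - b/(a^2+b^2)| ≤ 2/a^2 := by
  have hab : 0 < a^2 + b^2 := by positivity
  have hd : ∀ u ∈ uIcc (0:ℝ) (π/2), HasDerivAt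
      (fun u : ℝ => Real.exp (-(a*u)) * ((-b * Real.cos (b*u) - a * Real.sin (b*u)) / (a^2+b^2)))
      (Real.exp (-(a*u)) * Real.sin (b*u)) u := by
    intro u _
    have h1 : HasDerivAt (fun u : ℝ => Real.exp (-(a*u))) (Real.exp (-(a*u)) * (-(a*1))) u :=
      (((hasDerivAt_id u).const_mul a).neg).exp
    have h2 : HasDerivAt (fun u : ℝ => Real.sin (b*u)) (Real.cos (b*u) * (b*1)) u :=
      ((hasDerivAt_id u).const_mul b).sin
    have h3 : HasDerivAt (fun u : ℝ => Real.cos (b*u)) (-Real.sin (b*u) * (b*1)) u :=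
      ((hasDerivAt_id u).const_mul b).cos
    have := h1.mul (((h3.const_mul (-b)).sub (h2.const_mul a)).div_const (a^2+b^2))
    refine this.congr_deriv ?_
    simp only [Pi.sub_apply]
    field_simp
    ring
  have hi : IntervalIntegrable (fun u : ℝ => Real.exp (-(a*u)) * Real.sin (b*u)) volume 0 (π/2) :=
    (by fun_prop : Continuous fun u : ℝ => Real.exp (-(a*u)) * Real.sin (b*u)).intervalIntegrable _ _
  rw [intervalIntegral.integral_eq_sub_of_hasDerivAt hd hi]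
  simp only [mul_zero, neg_zero, Real.exp_zero, Real.sin_zero, Real.cos_zero, one_mul, mul_one, sub_zero]
  have e : Real.exp (-(a*(π/2))) * ((-b * Real.cos (b*(π/2)) - a * Real.sin (b*(π/2))) / (a^2+b^2))
      - (-b)/(a^2+b^2) - b/(a^2+b^2)
      = Real.exp (-(a*(π/2))) * ((-b * Real.cos (b*(π/2)) - a * Real.sin (b*(π/2))) / (a^2+b^2)) := by ring
  rw [e, abs_mul, abs_of_pos (Real.exp_pos _)]
  have h5 := abs_lin_le a (-b) (by simpa using hab) ha _ _ (Real.abs_cos_le_one (b*(π/2))) (Real.abs_sin_le_one (b*(π/2)))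
  rw [neg_sq] at h5
  have h6 := exp_neg_le (x := a*(π/2)) (by positivity)
  have h7 : 1/(a*(π/2)) ≤ 1/a := by
    apply one_div_le_one_div_of_le ha
    nlinarith [Real.pi_gt_three]
  calc Real.exp (-(a*(π/2))) * |(-b * Real.cos (b*(π/2)) - a * Real.sin (b*(π/2))) / (a^2+b^2)|
      ≤ (1/a) * (2/a) := mul_le_mul (h6.trans h7) h5 (abs_nonneg _) (by positivity)
    _ = 2/a^2 := by ring

/-- asymptotics of `AA`, `BB` -/
theorem AA_asymp (n : ℕ) (k : ℤ) :
    |AA (n+1) k - ((n:ℝ)+1)/(((n:ℝ)+1)^2 + (k:ℝ)^2)| ≤ (16*π^3+2)/((n:ℝ)+1)^2 := by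
  have h1 := abs_A_sub_le n (g := fun u => Real.cos (k*u)) (by fun_prop) (fun u => Real.abs_cos_le_one _)
  have h2 := integral_exp_cos ((n:ℝ)+1) k (by positivity)
  unfold AA
  calc _ ≤ _ := abs_sub_le _ (∫ u in (0:ℝ)..(π/2), Real.exp (-(((n:ℝ)+1)*u)) * Real.cos (k*u)) _
    _ ≤ 16 * π^3 / (n+1)^2 + 2/((n:ℝ)+1)^2 := add_le_add h1 h2
    _ = _ := by ring

theorem BB_asymp (n : ℕ) (k : ℤ) :
    |BB (n+1) k - (k:ℝ)/(((n:ℝ)+1)^2 + (k:ℝ)^2)| ≤ (16*π^3+2)/((n:ℝ)+1)^2 := by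
  have h1 := abs_A_sub_le n (g := fun u => Real.sin (k*u)) (by fun_prop) (fun u => Real.abs_sin_le_one _)
  have h2 := integral_exp_sin ((n:ℝ)+1) k (by positivity)
  unfold BB
  calc _ ≤ _ := abs_sub_le _ (∫ u in (0:ℝ)..(π/2), Real.exp (-(((n:ℝ)+1)*u)) * Real.sin (k*u)) _
    _ ≤ 16 * π^3 / (n+1)^2 + 2/((n:ℝ)+1)^2 := add_le_add h1 h2
    _ = _ := by ring

/-- step `(k,l) → (k+1,l+1)` for `l = n+1 ≥ 1`, any `k`. -/
theorem pk0_step_asymp (n : ℕ) (k : ℤ) :
    |pk0 (k+1) ((n:ℤ)+1+1) - pk0 k ((n:ℤ)+1) - (1/(2*π)) * (((k:ℝ) + (n+1))/((k:ℝ)^2 + ((n:ℝ)+1)^2))|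
      ≤ 200/((n:ℝ)+1)^2 := by
  have h := pk0_step k (n+1)
  rw [show (((n+1 : ℕ) : ℤ)) = (n:ℤ) + 1 by push_cast; ring] at h
  have hA := AA_asymp n k
  have hB := BB_asymp (n+1) k
  push_cast at hB
  have hn : (0:ℝ) < (n:ℝ)+1 := by positivity
  set N : ℝ := (n:ℝ)+1 with hN
  have hN1 : 1 ≤ N := by rw [hN]; linarith [(Nat.cast_nonneg n : (0:ℝ) ≤ n)]
  have hBd : |(k:ℝ)/((N+1)^2 + (k:ℝ)^2) - (k:ℝ)/(N^2+(k:ℝ)^2)| ≤ 2/N^2 := by
    have e1 : (k:ℝ)/((N+1)^2 + (k:ℝ)^2) - (k:ℝ)/(N^2+(k:ℝ)^2)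
        = -((k:ℝ) * (2*N+1)) / (((N+1)^2 + (k:ℝ)^2) * (N^2+(k:ℝ)^2)) := by
      field_simp; ring
    rw [e1, abs_div, abs_neg, abs_mul, abs_of_pos (by positivity : (0:ℝ) < 2*N+1),
      abs_of_pos (by positivity : (0:ℝ) < ((N+1)^2 + (k:ℝ)^2) * (N^2+(k:ℝ)^2)),
      div_le_div_iff₀ (by positivity) (by positivity)]
    have hk2 : (k:ℝ)^2 = |(k:ℝ)|^2 := (sq_abs _).symm
    rw [hk2]
    have hk0 : 0 ≤ |(k:ℝ)| := abs_nonneg _
    set K := |(k:ℝ)|
    have h1 : 2 * (K * N) ≤ N^2 + K^2 := by nlinarith [sq_nonneg (K - N)]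
    have h2 : (2*N+1) * N ≤ 3 * ((N+1)^2 + K^2) := by nlinarith [sq_nonneg K]
    have h3 : 0 ≤ K * N := by positivity
    have h4 : 0 ≤ (2*N+1) * N := by positivity
    calc K * (2*N+1) * N^2 = (K * N) * ((2*N+1) * N) := by ring
      _ ≤ ((N^2+K^2)/2) * (3 * ((N+1)^2 + K^2)) := by
          apply mul_le_mul (by linarith) h2 h4 (by positivity)
      _ ≤ 2 * (((N+1)^2+K^2) * (N^2+K^2)) := by
          have : 0 ≤ (N^2+K^2) * ((N+1)^2+K^2) := by positivity
          nlinarith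
  have hB2 : |BB (n+1+1) k - (k:ℝ)/(N^2+(k:ℝ)^2)| ≤ (16*π^3+4)/N^2 := by
    have hB' : |BB (n+1+1) k - (k:ℝ)/((N+1)^2 + (k:ℝ)^2)| ≤ (16*π^3+2)/N^2 := by
      refine hB.trans ?_
      apply div_le_div_of_nonneg_left (by positivity) (by positivity)
      nlinarith
    calc _ ≤ _ := abs_sub_le _ ((k:ℝ)/((N+1)^2 + (k:ℝ)^2)) _
      _ ≤ (16*π^3+2)/N^2 + 2/N^2 := add_le_add hB' hBd
      _ = _ := by ring
  rw [h, ← mul_sub, abs_mul, abs_of_pos (by positivity : (0:ℝ) < 1/(2*π))]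
  have e2 : AA (n+1) k + BB (n+1+1) k - ((k:ℝ) + N)/((k:ℝ)^2 + N^2)
      = (AA (n+1) k - N/(N^2+(k:ℝ)^2)) + (BB (n+1+1) k - (k:ℝ)/(N^2+(k:ℝ)^2)) := by
    have : (k:ℝ)^2 + N^2 = N^2 + (k:ℝ)^2 := by ring
    rw [this, add_div]; ring
  rw [e2]
  have h5 : |(AA (n+1) k - N/(N^2+(k:ℝ)^2)) + (BB (n+1+1) k - (k:ℝ)/(N^2+(k:ℝ)^2))|
      ≤ (32*π^3+6)/N^2 := by
    refine (abs_add_le _ _).trans ?_
    calc _ ≤ (16*π^3+2)/N^2 + (16*π^3+4)/N^2 := add_le_add hA hB2
      _ = _ := by ring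
  have hpi3 := Real.pi_gt_three
  have hpi4 : π < 3.15 := Real.pi_lt_d2
  have h6 : 1/(2*π) * (32*π^3+6) ≤ 200 := by
    rw [one_div, inv_mul_le_iff₀ (by positivity)]
    nlinarith [sq_nonneg π]
  calc 1/(2*π) * |(AA (n+1) k - N/(N^2+(k:ℝ)^2)) + (BB (n+1+1) k - (k:ℝ)/(N^2+(k:ℝ)^2))|
      ≤ 1/(2*π) * ((32*π^3+6)/N^2) := mul_le_mul_of_nonneg_left h5 (by positivity)
    _ = (1/(2*π) * (32*π^3+6))/N^2 := by ring
    _ ≤ 200/N^2 := div_le_div_of_nonneg_right h6 (by positivity)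

end Crest.Agent.R165.Pkx583
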