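import Mathlib
import Crest.Agent.R165.Tr1_40

-- ▼ part R165/Camp_891
section

/-!
# Row 165, block R: the Campanato assembly (helper891)

Abstract passage from EXACT solutions (`A e = 0` on a box) plus a local solver to functions with
`ρ^n |A^n f| ≤ 1`, `n ≤ 2`.  `N j` = `l²` seminorm on the box of radius `ρ / 2^j`, `q = 2^{-1/2}`,
`α = p/2` (`p = 2` at a boundary, `p = 1` at a branch point).
-/

set_option autoImplicit false

noncomputable section

namespace Crest.Agent.R165.Campx891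

open Finset

/-- `q = 2^{-1/2}` -/
def q : ℝ := Real.sqrt (1 / 2)

theorem q_pos : 0 < q := Real.sqrt_pos.2 (by norm_num)

theorem q_sq : q ^ 2 = 1 / 2 := Real.sq_sqrt (by norm_num)

theorem q_lt : q < 3 / 4 := by
  have h := q_sq
  nlinarith [q_pos]

theorem q_le_one : q ≤ 1 := by linarith [q_lt]

/-- telescoping decomposition bound: the general step -/
theorem tele {V : Type*} [AddCommGroup V] [Module ℝ V] (A : V →ₗ[ℝ] V) (N : ℕ → Seminorm ℝ V)
    (anti : ∀ j, N (j + 1) ≤ N j) (J : ℕ) (F : ℕ → ℝ) (f : V) (w : ℕ → V)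
    (hw : ∀ j ≤ J, N j (A (w j) - A f) = 0)
    (M : Seminorm ℝ V)
    (hE : ∀ j ≤ J, ∀ e : V, N j (A e) = 0 → M e ≤ F j * N j e)
    (hF : ∀ j, 0 ≤ F j) :
    M (f - w J) ≤ F 0 * (N 0 f + N 0 (w 0)) +
      ∑ j ∈ range J, F (j + 1) * (N j (w j) + N (j + 1) (w (j + 1))) := by
  have h0 : M (f - w 0) ≤ F 0 * (N 0 f + N 0 (w 0)) := by
    have h1 : N 0 (A (f - w 0)) = 0 := by
      rw [map_sub, ← map_neg_eq_map (N 0), neg_sub]; exact hw 0 (Nat.zero_le _)
    refine (hE 0 (Nat.zero_le _) _ h1).trans ?_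
    exact mul_le_mul_of_nonneg_left (map_sub_le_add (N 0) _ _) (hF 0)
  have key : ∀ k ≤ J, M (f - w k) ≤ F 0 * (N 0 f + N 0 (w 0)) +
      ∑ j ∈ range k, F (j + 1) * (N j (w j) + N (j + 1) (w (j + 1))) := by
    intro k
    induction k with
    | zero => intro _; simpa using h0
    | succ k ih =>
      intro hk
      have hk' : k ≤ J := (Nat.le_succ k).trans hk
      have e1 : f - w (k + 1) = (f - w k) + (w k - w (k + 1)) := by abel
      have hex : N (k + 1) (A (w k - w (k + 1))) = 0 := by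
        have h2 : A (w k - w (k + 1)) = (A (w k) - A f) - (A (w (k + 1)) - A f) := by
          rw [map_sub]; abel
        refine le_antisymm ?_ (apply_nonneg _ _)
        rw [h2]
        refine (map_sub_le_add (N (k + 1)) _ _).trans ?_
        have h3 : N (k + 1) (A (w k) - A f) ≤ 0 := (anti k _).trans (hw k hk').le
        have h4 := (hw (k + 1) hk).le
        linarith
      have h5 := hE (k + 1) hk _ hex
      have h6 : N (k + 1) (w k - w (k + 1)) ≤ N k (w k) + N (k + 1) (w (k + 1)) := by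
        refine (map_sub_le_add (N (k + 1)) _ _).trans ?_
        have := anti k (w k)
        linarith
      rw [e1, sum_range_succ]
      have h7 := mul_le_mul_of_nonneg_left h6 (hF (k + 1))
      have h8 := map_add_le_add M (f - w k) (w k - w (k + 1))
      have h9 := ih hk'
      linarith
  exact key J le_rfl

/-- scales: `s j = ρ / 2^j = ρ q^(2j)` -/
theorem geom_le (k : ℕ) : ∑ j ∈ range k, q ^ j ≤ 4 := by
  have h1 : q ≠ 1 := by linarith [q_lt]
  have h := geom_sum_eq h1 k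
  rw [h]
  have h2 : (q ^ k - 1) / (q - 1) = (1 - q ^ k) / (1 - q) := by
    rw [← neg_sub, ← neg_sub (1 : ℝ) q, neg_div_neg_eq]
  rw [h2, div_le_iff₀ (by linarith [q_lt])]
  have h3 : 0 ≤ q ^ k := pow_nonneg q_pos.le k
  linarith [q_lt]


/-- telescoping, version with a one-dimensional mode `u` -/
theorem tele2 {V : Type*} [AddCommGroup V] [Module ℝ V] (A : V →ₗ[ℝ] V) (N : ℕ → Seminorm ℝ V)
    (anti : ∀ j, N (j + 1) ≤ N j) (J : ℕ) (F : ℕ → ℝ) (f : V) (w : ℕ → V)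
    (hw : ∀ j ≤ J, N j (A (w j) - A f) = 0)
    (M : Seminorm ℝ V) (u : V)
    (hE : ∀ j ≤ J, ∀ e : V, N j (A e) = 0 → ∃ κ : ℝ, M (e - κ • u) ≤ F j * N j e)
    (hF : ∀ j, 0 ≤ F j) :
    ∃ κ : ℝ, M (f - w J - κ • u) ≤ F 0 * (N 0 f + N 0 (w 0)) +
      ∑ j ∈ range J, F (j + 1) * (N j (w j) + N (j + 1) (w (j + 1))) := by
  have h0 : ∃ κ : ℝ, M (f - w 0 - κ • u) ≤ F 0 * (N 0 f + N 0 (w 0)) := by
    have h1 : N 0 (A (f - w 0)) = 0 := by
      rw [map_sub, ← map_neg_eq_map (N 0), neg_sub]; exact hw 0 (Nat.zero_le _)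
    obtain ⟨κ, hκ⟩ := hE 0 (Nat.zero_le _) _ h1
    refine ⟨κ, hκ.trans ?_⟩
    exact mul_le_mul_of_nonneg_left (map_sub_le_add (N 0) _ _) (hF 0)
  have key : ∀ k ≤ J, ∃ κ : ℝ, M (f - w k - κ • u) ≤ F 0 * (N 0 f + N 0 (w 0)) +
      ∑ j ∈ range k, F (j + 1) * (N j (w j) + N (j + 1) (w (j + 1))) := by
    intro k
    induction k with
    | zero => intro _; simpa using h0
    | succ k ih =>
      intro hk
      have hk' : k ≤ J := (Nat.le_succ k).trans hk
      have hex : N (k + 1) (A (w k - w (k + 1))) = 0 := by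
        have h2 : A (w k - w (k + 1)) = (A (w k) - A f) - (A (w (k + 1)) - A f) := by
          rw [map_sub]; abel
        refine le_antisymm ?_ (apply_nonneg _ _)
        rw [h2]
        refine (map_sub_le_add (N (k + 1)) _ _).trans ?_
        have h3 : N (k + 1) (A (w k) - A f) ≤ 0 := (anti k _).trans (hw k hk').le
        have h4 := (hw (k + 1) hk).le
        linarith
      obtain ⟨κ', h5⟩ := hE (k + 1) hk _ hex
      have h6 : N (k + 1) (w k - w (k + 1)) ≤ N k (w k) + N (k + 1) (w (k + 1)) := by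
        refine (map_sub_le_add (N (k + 1)) _ _).trans ?_
        have := anti k (w k)
        linarith
      obtain ⟨κ, h9⟩ := ih hk'
      refine ⟨κ + κ', ?_⟩
      have e1 : f - w (k + 1) - (κ + κ') • u =
          (f - w k - κ • u) + (w k - w (k + 1) - κ' • u) := by rw [add_smul]; abel
      rw [e1, sum_range_succ]
      have h7 := mul_le_mul_of_nonneg_left h6 (hF (k + 1))
      have h8 := map_add_le_add M (f - w k - κ • u) (w k - w (k + 1) - κ' • u)
      linarith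
  exact key J le_rfl

/-- the hypotheses of the assembly at one box -/
structure Hyp {V : Type*} [AddCommGroup V] [Module ℝ V] (A : V →ₗ[ℝ] V) (N : ℕ → Seminorm ℝ V)
    (u : V) (p J : ℕ) (ρ C1 Cs η : ℝ) : Prop where
  hp : 1 ≤ p
  hp2 : p ≤ 2
  hρ : 0 < ρ
  hC1 : 0 ≤ C1
  hCs : 0 ≤ Cs
  hη : 0 ≤ η
  hηJ : η ≤ q ^ (3 * J)
  anti : ∀ j, N (j + 1) ≤ N j
  /-- local solver -/
  ls : ∀ j ≤ J, ∀ g : V, ∃ w : V, N j (A w - g) = 0 ∧ N j w ≤ Cs * (ρ * q ^ (2 * j)) * N j g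
  /-- growth of exact solutions -/
  ex1 : ∀ j i, j ≤ i → i ≤ J → ∀ e : V, N j (A e) = 0 →
    N i e ≤ (C1 * q ^ (p * (i - j)) + η) * N j e
  /-- one mode -/
  ex2 : ∀ j ≤ J, ∀ e : V, N j (A e) = 0 →
    ∃ κ : ℝ, N J (e - κ • u) ≤ (C1 * q ^ ((p + 2) * (J - j)) + η) * N j e

variable {V : Type*} [AddCommGroup V] [Module ℝ V] {A : V →ₗ[ℝ] V} {N : ℕ → Seminorm ℝ V}
  {u : V} {p J : ℕ} {ρ C1 Cs η : ℝ}

theorem anti_of (h : ∀ j, N (j + 1) ≤ N j) (j i : ℕ) (hji : j ≤ i) (v : V) : N i v ≤ N j v := by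
  induction i, hji using Nat.le_induction with
  | base => exact le_rfl
  | succ k _ ih => exact (h k v).trans ih

theorem q_pow_le {a b : ℕ} (h : a ≤ b) : q ^ b ≤ q ^ a :=
  pow_le_pow_of_le_one q_pos.le q_le_one h

theorem inv_q3 : 1 ≤ 3 * q ^ 3 := by
  have h := q_sq
  have h1 : (2 / 3 : ℝ) < q := by
    by_contra hc
    push Not at hc
    nlinarith [q_pos]
  have : q ^ 3 = q * (1 / 2) := by rw [← h]; ring
  rw [this]; linarith

/-- constant of the first level -/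
def K1 (C1 Cs : ℝ) : ℝ := (C1 + 1) * (1 + Cs) + (C1 + 1) * (3 * (2 * Cs)) * 4 + Cs

theorem K1_nonneg {C1 Cs : ℝ} (h1 : 0 ≤ C1) (h2 : 0 ≤ Cs) : 0 ≤ K1 C1 Cs := by
  unfold K1; positivity

/-- first level: decay of `g` when `ρ |g| ≤ 1`, `ρ² |A g| ≤ 1` -/
theorem level1 (H : Hyp A N u p J ρ C1 Cs η) (g : V) (hg : N 0 g ≤ 1 / ρ)
    (hAg : N 0 (A g) ≤ 1 / ρ ^ 2) (i : ℕ) (hi : i ≤ J) : N i g ≤ K1 C1 Cs * q ^ i / ρ := by
  have hρ := H.hρ
  choose! w hw1 hw2 using fun j (hj : j ≤ J) => H.ls j hj (A g)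
  have hwb : ∀ j ≤ i, N j (w j) ≤ Cs * q ^ (2 * j) / ρ := by
    intro j hj
    refine (hw2 j (hj.trans hi)).trans ?_
    have h1 : N j (A g) ≤ 1 / ρ ^ 2 := (anti_of H.anti 0 j (Nat.zero_le _) _).trans hAg
    have h2 : 0 ≤ Cs * (ρ * q ^ (2 * j)) := by
      have := H.hCs; have := q_pos; positivity
    refine (mul_le_mul_of_nonneg_left h1 h2).trans (le_of_eq ?_)
    field_simp
  set F : ℕ → ℝ := fun j => C1 * q ^ (p * (i - j)) + η with hFdef
  have hF : ∀ j, 0 ≤ F j := fun j => by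
    have := H.hC1; have := H.hη; have := q_pos; positivity
  have hFb : ∀ j ≤ i, F j ≤ (C1 + 1) * q ^ (i - j) := by
    intro j hj
    have h1 : q ^ (p * (i - j)) ≤ q ^ (i - j) := q_pow_le (Nat.le_mul_of_pos_left _ H.hp)
    have h2 : η ≤ q ^ (i - j) := H.hηJ.trans (q_pow_le (by omega))
    have h3 := mul_le_mul_of_nonneg_left h1 H.hC1
    simp only [hFdef]; linarith
  have ht := tele A N H.anti i F g w (fun j hj => hw1 j (hj.trans hi)) (N i)
    (fun j hj e he => H.ex1 j i hj hi e he) hF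
  have hC1 := H.hC1
  have hCs := H.hCs
  have hqi : 0 ≤ q ^ i := pow_nonneg q_pos.le i
  -- zeroth term
  have t0 : F 0 * (N 0 g + N 0 (w 0)) ≤ (C1 + 1) * (1 + Cs) * (q ^ i / ρ) := by
    have h1 : N 0 g + N 0 (w 0) ≤ (1 + Cs) / ρ := by
      have := hwb 0 (Nat.zero_le _)
      simp only [mul_zero, pow_zero, mul_one] at this
      calc N 0 g + N 0 (w 0) ≤ 1 / ρ + Cs / ρ := add_le_add hg this
        _ = (1 + Cs) / ρ := by ring
    have h2 := hFb 0 (Nat.zero_le _)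
    simp only [Nat.sub_zero] at h2
    have h3 : 0 ≤ N 0 g + N 0 (w 0) := by positivity
    calc F 0 * (N 0 g + N 0 (w 0)) ≤ ((C1 + 1) * q ^ i) * ((1 + Cs) / ρ) :=
          mul_le_mul h2 h1 h3 (by positivity)
      _ = (C1 + 1) * (1 + Cs) * (q ^ i / ρ) := by ring
  have tj : ∀ j ∈ range i, F (j + 1) * (N j (w j) + N (j + 1) (w (j + 1))) ≤
      (C1 + 1) * (3 * (2 * Cs)) * (q ^ i / ρ) * q ^ j := by
    intro j hj
    have hji : j + 1 ≤ i := mem_range.1 hj
    obtain ⟨m, hm⟩ := Nat.exists_eq_add_of_le hji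
    have h1 := hFb (j + 1) hji
    have hsub : i - (j + 1) = m := by omega
    rw [hsub] at h1
    have h2 := hwb j (by omega)
    have h3 := hwb (j + 1) hji
    have h4 : Cs * q ^ (2 * (j + 1)) / ρ ≤ Cs * q ^ (2 * j) / ρ := by
      gcongr ?_ / ρ
      exact mul_le_mul_of_nonneg_left (q_pow_le (by omega)) hCs
    have h5 : N j (w j) + N (j + 1) (w (j + 1)) ≤ 2 * Cs * q ^ (2 * j) / ρ := by
      calc _ ≤ Cs * q ^ (2 * j) / ρ + Cs * q ^ (2 * j) / ρ := add_le_add h2 (h3.trans h4)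
        _ = _ := by ring
    have h6 : 0 ≤ N j (w j) + N (j + 1) (w (j + 1)) := by positivity
    have hq := q_pos
    calc F (j + 1) * (N j (w j) + N (j + 1) (w (j + 1)))
        ≤ ((C1 + 1) * q ^ m) * (2 * Cs * q ^ (2 * j) / ρ) := mul_le_mul h1 h5 h6 (by positivity)
      _ ≤ ((C1 + 1) * q ^ m) * (2 * Cs * q ^ (2 * j) / ρ) * (3 * q ^ 3) :=
          le_mul_of_one_le_right (by positivity) inv_q3
      _ = (C1 + 1) * (3 * (2 * Cs)) * (q ^ (m + 2 * j + 3) / ρ) := by ring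
      _ ≤ (C1 + 1) * (3 * (2 * Cs)) * (q ^ (i + j) / ρ) := by
          have : q ^ (m + 2 * j + 3) ≤ q ^ (i + j) := q_pow_le (by omega)
          gcongr
      _ = (C1 + 1) * (3 * (2 * Cs)) * (q ^ i / ρ) * q ^ j := by ring
  have tsum : ∑ j ∈ range i, F (j + 1) * (N j (w j) + N (j + 1) (w (j + 1))) ≤
      (C1 + 1) * (3 * (2 * Cs)) * 4 * (q ^ i / ρ) := by
    refine (sum_le_sum tj).trans ?_
    rw [← mul_sum]
    have h1 := geom_le i
    have h2 : 0 ≤ (C1 + 1) * (3 * (2 * Cs)) * (q ^ i / ρ) := by positivity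
    calc _ ≤ (C1 + 1) * (3 * (2 * Cs)) * (q ^ i / ρ) * 4 := mul_le_mul_of_nonneg_left h1 h2
      _ = _ := by ring
  have tw : N i (w i) ≤ Cs * (q ^ i / ρ) := by
    refine (hwb i le_rfl).trans ?_
    rw [mul_div_assoc]
    have : q ^ (2 * i) ≤ q ^ i := q_pow_le (by omega)
    gcongr
  have e1 : g = (g - w i) + w i := by abel
  calc N i g = N i ((g - w i) + w i) := by rw [← e1]
    _ ≤ N i (g - w i) + N i (w i) := map_add_le_add _ _ _
    _ ≤ ((C1 + 1) * (1 + Cs) * (q ^ i / ρ) + (C1 + 1) * (3 * (2 * Cs)) * 4 * (q ^ i / ρ)) +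
        Cs * (q ^ i / ρ) := by linarith
    _ = K1 C1 Cs * q ^ i / ρ := by unfold K1; ring

/-- constant of the second level -/
def K2 (C1 Cs : ℝ) : ℝ :=
  (C1 + 1) * (1 + Cs * K1 C1 Cs) + 8 * (3 * C1 + 1) * (2 * Cs * K1 C1 Cs) + Cs * K1 C1 Cs

/-- second level -/
theorem level2 (H : Hyp A N u p J ρ C1 Cs η) (f : V) (h0 : N 0 f ≤ 1)
    (h1 : N 0 (A f) ≤ 1 / ρ) (h2 : N 0 (A (A f)) ≤ 1 / ρ ^ 2) :
    N J f ≤ K2 C1 Cs * q ^ (p * J) ∧
    ∃ κ : ℝ, N J (f - κ • u) ≤ K2 C1 Cs * q ^ ((p + 1) * J) := by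
  have hρ := H.hρ
  have hC1 := H.hC1
  have hCs := H.hCs
  have hq := q_pos
  have hp := H.hp
  have hp2 := H.hp2
  have hK1 := K1_nonneg hC1 hCs
  have hb : ∀ j ≤ J, N j (A f) ≤ K1 C1 Cs * q ^ j / ρ := fun j hj => level1 H (A f) h1 h2 j hj
  choose! w hw1 hw2 using fun j (hj : j ≤ J) => H.ls j hj (A f)
  set B : ℝ := Cs * K1 C1 Cs with hB
  have hBn : 0 ≤ B := by positivity
  have hwb : ∀ j ≤ J, N j (w j) ≤ B * q ^ (3 * j) := by
    intro j hj
    refine (hw2 j hj).trans ?_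
    have h3 : 0 ≤ Cs * (ρ * q ^ (2 * j)) := by positivity
    refine (mul_le_mul_of_nonneg_left (hb j hj) h3).trans (le_of_eq ?_)
    field_simp
    rw [hB]; ring
  have hw0 : N 0 (w 0) ≤ B := by simpa using hwb 0 (Nat.zero_le _)
  -- common bound of the increments
  have hinc : ∀ j, j + 1 ≤ J → N j (w j) + N (j + 1) (w (j + 1)) ≤ 2 * B * q ^ (3 * j) := by
    intro j hj
    have h3 := hwb j (by omega)
    have h4 := hwb (j + 1) hj
    have h5 : B * q ^ (3 * (j + 1)) ≤ B * q ^ (3 * j) :=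
      mul_le_mul_of_nonneg_left (q_pow_le (by omega)) hBn
    linarith
  have hincn : ∀ j, 0 ≤ N j (w j) + N (j + 1) (w (j + 1)) := fun j => by positivity
  -- general summation lemma
  have main : ∀ (P m : ℕ), m = p ∧ P = p ∨ m = p + 2 ∧ P = p + 1 →
      (C1 * q ^ (m * J) + η) * (N 0 f + N 0 (w 0)) +
        ∑ j ∈ range J, (C1 * q ^ (m * (J - (j + 1))) + η) * (N j (w j) + N (j + 1) (w (j + 1))) +
        N J (w J) ≤ K2 C1 Cs * q ^ (P * J) := by
    intro P m hPm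
    have hP3 : P ≤ 3 := by omega
    have hPm' : P ≤ m := by omega
    have hηP : η ≤ q ^ (P * J) := H.hηJ.trans (q_pow_le (Nat.mul_le_mul_right J hP3))
    have t0 : (C1 * q ^ (m * J) + η) * (N 0 f + N 0 (w 0)) ≤
        (C1 + 1) * (1 + B) * q ^ (P * J) := by
      have a1 : C1 * q ^ (m * J) + η ≤ (C1 + 1) * q ^ (P * J) := by
        have := mul_le_mul_of_nonneg_left (q_pow_le (Nat.mul_le_mul_right J hPm')) hC1
        linarith
      have a2 : N 0 f + N 0 (w 0) ≤ 1 + B := add_le_add h0 hw0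
      calc _ ≤ ((C1 + 1) * q ^ (P * J)) * (1 + B) :=
            mul_le_mul a1 a2 (by positivity) (by positivity)
        _ = _ := by ring
    have tj : ∀ j ∈ range J,
        (C1 * q ^ (m * (J - (j + 1))) + η) * (N j (w j) + N (j + 1) (w (j + 1))) ≤
        (2 * B * q ^ (P * J)) * ((3 * C1) * (q ^ j + q ^ (J - 1 - j)) + q ^ j) := by
      intro j hj
      have hjJ : j + 1 ≤ J := mem_range.1 hj
      obtain ⟨k, hk⟩ := Nat.exists_eq_add_of_le hjJ
      have hs1 : J - (j + 1) = k := by omega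
      have hs2 : J - 1 - j = k := by omega
      rw [hs1, hs2]
      have a1 := hinc j hjJ
      have a3 : 0 ≤ C1 * q ^ (m * k) + η := by have := H.hη; positivity
      have b1 : q ^ (3 * J) * q ^ (3 * j) ≤ q ^ (P * J) * q ^ j := by
        have c1 : q ^ (3 * J) ≤ q ^ (P * J) := q_pow_le (Nat.mul_le_mul_right J hP3)
        have c2 : q ^ (3 * j) ≤ q ^ j := q_pow_le (by omega)
        exact mul_le_mul c1 c2 (by positivity) (by positivity)
      have b2 : q ^ (m * k) * q ^ (3 * j) ≤ 3 * (q ^ (P * J) * (q ^ j + q ^ k)) := by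
        have d1 : q ^ (m * k) * q ^ (3 * j) ≤ (q ^ (m * k) * q ^ (3 * j)) * (3 * q ^ 3) :=
          le_mul_of_one_le_right (by positivity) inv_q3
        have d2 : (q ^ (m * k) * q ^ (3 * j)) * (3 * q ^ 3) = 3 * q ^ (m * k + 3 * j + 3) := by
          ring
        have d3 : q ^ (m * k + 3 * j + 3) ≤ q ^ (P * J) * (q ^ j + q ^ k) := by
          rcases hPm with ⟨hm, hP⟩ | ⟨hm, hP⟩
          · have : q ^ (m * k + 3 * j + 3) ≤ q ^ (P * J + j) := by
              apply q_pow_le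
              subst hm; rw [hP, hk]
              interval_cases m <;> omega
            rw [pow_add q (P * J) j] at this
            have e : 0 ≤ q ^ (P * J) * q ^ k := by positivity
            linarith [mul_add (q ^ (P * J)) (q ^ j) (q ^ k)]
          · have : q ^ (m * k + 3 * j + 3) ≤ q ^ (P * J + k) := by
              apply q_pow_le
              rw [hP, hm, hk]
              interval_cases p <;> omega
            rw [pow_add q (P * J) k] at this
            have e : 0 ≤ q ^ (P * J) * q ^ j := by positivity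
            linarith [mul_add (q ^ (P * J)) (q ^ j) (q ^ k)]
        calc _ ≤ _ := d1
          _ = _ := d2
          _ ≤ _ := by linarith
      have b3 : η * q ^ (3 * j) ≤ q ^ (P * J) * q ^ j :=
        (mul_le_mul_of_nonneg_right H.hηJ (by positivity)).trans b1
      calc (C1 * q ^ (m * k) + η) * (N j (w j) + N (j + 1) (w (j + 1)))
          ≤ (C1 * q ^ (m * k) + η) * (2 * B * q ^ (3 * j)) := mul_le_mul_of_nonneg_left a1 a3
        _ = 2 * B * (C1 * (q ^ (m * k) * q ^ (3 * j)) + η * q ^ (3 * j)) := by ring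
        _ ≤ 2 * B * (C1 * (3 * (q ^ (P * J) * (q ^ j + q ^ k))) + q ^ (P * J) * q ^ j) := by
            have := mul_le_mul_of_nonneg_left b2 hC1
            gcongr
        _ = _ := by ring
    have g1 := geom_le J
    have g2 : ∑ j ∈ range J, q ^ (J - 1 - j) ≤ 4 := by
      rw [Finset.sum_range_reflect (fun j => q ^ j) J]; exact g1
    have tsum : ∑ j ∈ range J,
        (C1 * q ^ (m * (J - (j + 1))) + η) * (N j (w j) + N (j + 1) (w (j + 1))) ≤
        (2 * B * q ^ (P * J)) * (8 * (3 * C1 + 1)) := by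
      refine (sum_le_sum tj).trans ?_
      rw [← mul_sum]
      have : ∑ j ∈ range J, ((3 * C1) * (q ^ j + q ^ (J - 1 - j)) + q ^ j) =
          (3 * C1) * (∑ j ∈ range J, q ^ j + ∑ j ∈ range J, q ^ (J - 1 - j)) +
            ∑ j ∈ range J, q ^ j := by
        rw [sum_add_distrib, ← mul_sum, sum_add_distrib]
      rw [this]
      refine mul_le_mul_of_nonneg_left ?_ (by positivity)
      have := mul_le_mul_of_nonneg_left (add_le_add g1 g2) (by positivity : 0 ≤ 3 * C1)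
      linarith
    have tw : N J (w J) ≤ B * q ^ (P * J) :=
      (hwb J le_rfl).trans (mul_le_mul_of_nonneg_left (q_pow_le (Nat.mul_le_mul_right J hP3)) hBn)
    calc _ ≤ (C1 + 1) * (1 + B) * q ^ (P * J) + (2 * B * q ^ (P * J)) * (8 * (3 * C1 + 1)) +
          B * q ^ (P * J) := by linarith
      _ = K2 C1 Cs * q ^ (P * J) := by unfold K2; rw [hB]; ring
  constructor
  · set F : ℕ → ℝ := fun j => C1 * q ^ (p * (J - j)) + η with hFdef
    have hF : ∀ j, 0 ≤ F j := fun j => by have := H.hη; positivity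
    have ht := tele A N H.anti J F f w hw1 (N J)
      (fun j hj e he => H.ex1 j J hj le_rfl e he) hF
    have hm := main p p (Or.inl ⟨rfl, rfl⟩)
    have e1 : f = (f - w J) + w J := by abel
    have hF0 : F 0 = C1 * q ^ (p * J) + η := by simp [hFdef]
    rw [hF0] at ht
    calc N J f = N J ((f - w J) + w J) := by rw [← e1]
      _ ≤ N J (f - w J) + N J (w J) := map_add_le_add _ _ _
      _ ≤ _ := by linarith
  · set F : ℕ → ℝ := fun j => C1 * q ^ ((p + 2) * (J - j)) + η with hFdef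
    have hF : ∀ j, 0 ≤ F j := fun j => by have := H.hη; positivity
    obtain ⟨κ, ht⟩ := tele2 A N H.anti J F f w hw1 (N J) u
      (fun j hj e he => H.ex2 j hj e he) hF
    have hm := main (p + 1) (p + 2) (Or.inr ⟨rfl, rfl⟩)
    refine ⟨κ, ?_⟩
    have e1 : f - κ • u = (f - w J - κ • u) + w J := by abel
    have hF0 : F 0 = C1 * q ^ ((p + 2) * J) + η := by simp [hFdef]
    rw [hF0] at ht
    calc N J (f - κ • u) = N J ((f - w J - κ • u) + w J) := by rw [← e1]
      _ ≤ N J (f - w J - κ • u) + N J (w J) := map_add_le_add _ _ _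
      _ ≤ _ := by linarith

end Crest.Agent.R165.Campx891
end
end

-- ▼ part R165/RIface_891

/-!
# Row 165 (S0250), block R: interface (helper891)

* boxes `bx x r`, `l²` seminorms `NB x r`, the operator `AL w` as a linear map
* local background classes `PlaneOn`, `BranchOn`, `PlusFlat`
* amplitude `amp`, boundary mode `modeB`, branch mode `modeBr`
* leaves as `Prop`s: `GapU`, `EXb`, `EXbr`
* local solver from the gap (`ls_of_gap`), gauge covariance
* regularity theorems `regB`, `regBr` from the leaves (through `Camp_891`)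
-/

set_option autoImplicit false
set_option linter.unusedSimpArgs false
set_option linter.unusedVariables false
set_option linter.unusedTactic false
set_option linter.unreachableTactic false

noncomputable section

namespace Crest.Agent.R165.RIfx891

open Finset Crest.Agent.R165.Tr1x40 Crest.Agent.R165.Campx891

/-! ### boxes -/

/-- faces at sup distance `≤ r` of `x` -/
def bx (x : Face) (r : ℝ) : Finset Face :=
  Icc (x.1 - ⌊r⌋) (x.1 + ⌊r⌋) ×ˢ Icc (x.2 - ⌊r⌋) (x.2 + ⌊r⌋)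

theorem mem_bx {x f : Face} {r : ℝ} :
    f ∈ bx x r ↔ |f.1 - x.1| ≤ ⌊r⌋ ∧ |f.2 - x.2| ≤ ⌊r⌋ := by
  unfold bx
  rw [mem_product, mem_Icc, mem_Icc, abs_le, abs_le]
  constructor
  · rintro ⟨⟨h1, h2⟩, h3, h4⟩
    exact ⟨⟨by linarith, by linarith⟩, ⟨by linarith, by linarith⟩⟩
  · rintro ⟨⟨h1, h2⟩, h3, h4⟩
    exact ⟨⟨by linarith, by linarith⟩, ⟨by linarith, by linarith⟩⟩

theorem mem_bx_real {x f : Face} {r : ℝ} :
    f ∈ bx x r ↔ |(f.1 : ℝ) - x.1| ≤ r ∧ |(f.2 : ℝ) - x.2| ≤ r := by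
  rw [mem_bx, Int.le_floor, Int.le_floor]
  push_cast
  exact Iff.rfl

theorem bx_mono (x : Face) {r r' : ℝ} (h : r ≤ r') : bx x r ⊆ bx x r' := by
  intro f hf
  rw [mem_bx_real] at hf ⊢
  exact ⟨hf.1.trans h, hf.2.trans h⟩

theorem nb_dist (f : Face) (h : Fin 4) (x : Face) :
    |((nb f h).1 : ℝ) - x.1| ≤ |(f.1 : ℝ) - x.1| + 1 ∧
    |((nb f h).2 : ℝ) - x.2| ≤ |(f.2 : ℝ) - x.2| + 1 := by
  have key : ∀ a b : ℝ, |a + b| ≤ |a| + |b| := abs_add_le
  fin_cases h
  · have := key ((f.2 : ℝ) - x.2) (-1)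
    simp only [nb, Fin.zero_eta, Int.cast_sub, Int.cast_one, abs_neg, abs_one] at this ⊢
    exact ⟨by linarith, by
      have e : (f.2 : ℝ) - 1 - x.2 = (f.2 : ℝ) - x.2 + -1 := by ring
      rw [e]; exact this⟩
  · have := key ((f.1 : ℝ) - x.1) 1
    simp only [nb, Fin.mk_one, Int.cast_add, Int.cast_one, abs_one] at this ⊢
    exact ⟨by
      have e : (f.1 : ℝ) + 1 - x.1 = (f.1 : ℝ) - x.1 + 1 := by ring
      rw [e]; exact this, by linarith⟩
  · have := key ((f.2 : ℝ) - x.2) 1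
    simp only [nb, Fin.reduceFinMk, Int.cast_add, Int.cast_one, abs_one] at this ⊢
    exact ⟨by linarith, by
      have e : (f.2 : ℝ) + 1 - x.2 = (f.2 : ℝ) - x.2 + 1 := by ring
      rw [e]; exact this⟩
  · have := key ((f.1 : ℝ) - x.1) (-1)
    simp only [nb, Fin.reduceFinMk, Int.cast_sub, Int.cast_one, abs_neg, abs_one] at this ⊢
    exact ⟨by
      have e : (f.1 : ℝ) - 1 - x.1 = (f.1 : ℝ) - x.1 + -1 := by ring
      rw [e]; exact this, by linarith⟩

theorem nb_mem_bx {x f : Face} {r : ℝ} (hf : f ∈ bx x r) (h : Fin 4) : nb f h ∈ bx x (r + 1) := by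
  rw [mem_bx_real] at hf ⊢
  have := nb_dist f h x
  exact ⟨by linarith, by linarith⟩

/-! ### seminorms -/

/-- restriction to a finite set of faces -/
def rest (K : Finset Face) : Fld →ₗ[ℝ] EuclideanSpace ℝ (K × Fin 4) where
  toFun φ := WithLp.toLp 2 fun g => φ g.1 g.2
  map_add' φ ψ := by ext g; simp
  map_smul' c φ := by ext g; simp

/-- the `l²` seminorm on a finite set of faces -/
def N2 (K : Finset Face) : Seminorm ℝ Fld := (normSeminorm ℝ _).comp (rest K)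

theorem N2_sq (K : Finset Face) (φ : Fld) : N2 K φ ^ 2 = ∑ f ∈ K, nsq (φ f) := by
  have h1 : N2 K φ = ‖rest K φ‖ := rfl
  rw [h1, EuclideanSpace.norm_sq_eq]
  have h2 : ∑ g : K × Fin 4, ‖(rest K φ).ofLp g‖ ^ 2 = ∑ g : K × Fin 4, φ g.1 g.2 ^ 2 :=
    sum_congr rfl fun g _ => by
      have : (rest K φ).ofLp g = φ g.1 g.2 := rfl
      rw [this, Real.norm_eq_abs, sq_abs]
  rw [h2, Fintype.sum_prod_type]
  rw [← sum_coe_sort K (fun f => nsq (φ f))]
  rfl

theorem N2_eq (K : Finset Face) (φ : Fld) : N2 K φ = Real.sqrt (∑ f ∈ K, nsq (φ f)) := by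
  rw [← N2_sq, Real.sqrt_sq (apply_nonneg _ _)]

theorem N2_mono {K K' : Finset Face} (h : K ⊆ K') : N2 K ≤ N2 K' := by
  intro φ
  rw [N2_eq, N2_eq]
  exact Real.sqrt_le_sqrt (sum_le_sum_of_subset_of_nonneg h fun f _ _ => nsq_nonneg _)

theorem N2_congr {K : Finset Face} {φ ψ : Fld} (h : ∀ f ∈ K, φ f = ψ f) : N2 K φ = N2 K ψ := by
  rw [N2_eq, N2_eq]
  congr 1
  exact sum_congr rfl fun f hf => by rw [h f hf]

theorem nsq_eq_zero {p : Fin 4 → ℝ} : nsq p = 0 ↔ p = 0 := by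
  constructor
  · intro h
    funext k
    have := (sum_eq_zero_iff_of_nonneg (fun k _ => sq_nonneg (p k))).1 h k (mem_univ _)
    simpa using this
  · rintro rfl; simp [nsq]

theorem N2_eq_zero {K : Finset Face} {φ : Fld} : N2 K φ = 0 ↔ ∀ f ∈ K, φ f = 0 := by
  rw [N2_eq, Real.sqrt_eq_zero (sum_nonneg fun f _ => nsq_nonneg _),
    sum_eq_zero_iff_of_nonneg fun f _ => nsq_nonneg _]
  exact forall₂_congr fun f _ => nsq_eq_zero

/-- `l²` seminorm on the box `bx x r` -/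
def NB (x : Face) (r : ℝ) : Seminorm ℝ Fld := N2 (bx x r)

theorem NB_sq (x : Face) (r : ℝ) (φ : Fld) : NB x r φ ^ 2 = ∑ f ∈ bx x r, nsq (φ f) := N2_sq _ _

theorem NB_mono (x : Face) {r r' : ℝ} (h : r ≤ r') : NB x r ≤ NB x r' := N2_mono (bx_mono x h)

theorem NB_eq_zero {x : Face} {r : ℝ} {φ : Fld} : NB x r φ = 0 ↔ ∀ f ∈ bx x r, φ f = 0 :=
  N2_eq_zero

/-! ### the operator -/

theorem A0_add (p p' : Fin 4 → ℝ) (h : Fin 4) : A0 (p + p') h = A0 p h + A0 p' h := by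
  fin_cases h <;> simp [A0] <;> ring

theorem A0_smul (c : ℝ) (p : Fin 4 → ℝ) (h : Fin 4) : A0 (c • p) h = c * A0 p h := by
  fin_cases h <;> simp [A0] <;> ring

/-- the half-edge operator as a linear map -/
def AL (w : Fld) : Fld →ₗ[ℝ] Fld where
  toFun φ := A w φ
  map_add' φ ψ := by
    funext f h
    simp only [A, Y, Pi.add_apply, A0_add]
    ring
  map_smul' c φ := by
    funext f h
    simp only [A, Y, Pi.smul_apply, A0_smul, smul_eq_mul, RingHom.id_apply]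
    ring

@[simp] theorem AL_apply (w φ : Fld) : AL w φ = A w φ := rfl

/-- support in a finite set of faces -/
def Supp (K : Finset Face) (φ : Fld) : Prop := ∀ f, f ∉ K → φ f = 0

theorem Supp.mono {K K' : Finset Face} (h : K ⊆ K') {φ : Fld} (hφ : Supp K φ) : Supp K' φ :=
  fun f hf => hφ f fun hc => hf (h hc)


theorem supp_A {w φ : Fld} {x : Face} {r : ℝ} (hφ : Supp (bx x r) φ) :
    Supp (bx x (r + 1)) (A w φ) := by
  intro f hf
  have h1 : f ∉ bx x r := fun hc => hf (bx_mono x (by linarith) hc)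
  have h2 : ∀ h, nb f h ∉ bx x r := fun h hc => hf (by
    have := nb_mem_bx hc (op h)
    rwa [nb_nb_op] at this)
  funext h
  have e1 : φ f = 0 := hφ f h1
  have e2 : φ (nb f h) = 0 := hφ _ (h2 h)
  simp only [A, Y, e1, e2, Pi.zero_apply, mul_zero, add_zero]
  fin_cases h <;> simp [A0]

theorem A0_antisymm (p p' : Fin 4 → ℝ) : ∑ h, A0 p h * p' h = -∑ h, p h * A0 p' h := by
  simp only [Fin.sum_univ_four, A0]
  ring

/-- antisymmetry: `ψ` supported in `K`, `K'` contains `K` and its neighbours -/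
theorem A_antisymm {w : Fld} (hw : Sym w) (φ ψ : Fld) (K K' : Finset Face) (hK : K ⊆ K')
    (hψ : Supp K ψ) (hnb : ∀ f ∈ K, ∀ h, nb f h ∈ K') :
    ∑ f ∈ K, ∑ h, A w φ f h * ψ f h = -∑ f ∈ K', ∑ h, φ f h * A w ψ f h := by
  have e1 : ∑ f ∈ K, ∑ h, A w φ f h * ψ f h = ∑ f ∈ K', ∑ h, A w φ f h * ψ f h := by
    refine sum_subset hK fun f _ hf => ?_
    rw [hψ f hf]; simp
  rw [e1]
  have key := sum_bar K' (fun f h => Y w φ f h * ψ f h)
    (fun f hf h => by
      have : ψ f = 0 := hψ f fun hc => hf (hK hc)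
      simp [this])
    (fun f hf h => by
      have : ψ (nb f h) = 0 := hψ _ fun hc => hf (by
        have := hnb _ hc (op h)
        rwa [nb_nb_op] at this)
      simp [this])
  have e2 : ∀ f h, Y w φ (nb f h) (op h) * ψ (nb f h) (op h) = -(φ f h * Y w ψ f h) := by
    intro f h
    simp only [Y, nb_nb_op, op_op, sg_op, hw f h]
    ring
  have e3 : ∑ f ∈ K', ∑ h, Y w φ f h * ψ f h = -∑ f ∈ K', ∑ h, φ f h * Y w ψ f h := by
    rw [← key, ← sum_neg_distrib]
    refine sum_congr rfl fun f _ => ?_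
    rw [← sum_neg_distrib]
    exact sum_congr rfl fun h _ => e2 f h
  have e4 : ∑ f ∈ K', ∑ h, A0 (φ f) h * ψ f h = -∑ f ∈ K', ∑ h, φ f h * A0 (ψ f) h := by
    rw [← sum_neg_distrib]
    exact sum_congr rfl fun f _ => A0_antisymm _ _
  have e5 : ∀ (a b : Fld), ∑ f ∈ K', ∑ h, A w a f h * b f h
      = ∑ f ∈ K', ∑ h, A0 (a f) h * b f h + ∑ f ∈ K', ∑ h, Y w a f h * b f h := by
    intro a b
    rw [← sum_add_distrib]
    refine sum_congr rfl fun f _ => ?_
    rw [← sum_add_distrib]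
    exact sum_congr rfl fun h _ => by simp only [A]; ring
  have e6 : ∑ f ∈ K', ∑ h, φ f h * A w ψ f h
      = ∑ f ∈ K', ∑ h, φ f h * A0 (ψ f) h + ∑ f ∈ K', ∑ h, φ f h * Y w ψ f h := by
    rw [← sum_add_distrib]
    refine sum_congr rfl fun f _ => ?_
    rw [← sum_add_distrib]
    exact sum_congr rfl fun h _ => by simp only [A]; ring
  rw [e5, e3, e4, e6]
  ring

/-! ### gap and local solver -/

/-- gap for fields supported in the box -/
def GapOn (w : Fld) (x : Face) (r C : ℝ) : Prop :=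
  ∀ φ, Supp (bx x r) φ → NB x r φ ≤ C * r * NB x (r + 1) (A w φ)

/-- extension by zero -/
def ext (K : Finset Face) : ((K × Fin 4) → ℝ) →ₗ[ℝ] Fld where
  toFun v f h := if hf : f ∈ K then v (⟨f, hf⟩, h) else 0
  map_add' v v' := by
    funext f h
    by_cases hf : f ∈ K <;> simp [hf]
  map_smul' c v := by
    funext f h
    by_cases hf : f ∈ K <;> simp [hf]

theorem ext_apply_mem {K : Finset Face} (v : (K × Fin 4) → ℝ) {f : Face} (hf : f ∈ K) (h : Fin 4) :
    ext K v f h = v (⟨f, hf⟩, h) := by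
  simp [ext, hf]

theorem supp_ext (K : Finset Face) (v : (K × Fin 4) → ℝ) : Supp K (ext K v) := by
  intro f hf
  funext h
  simp [ext, hf]

/-- restriction, as plain functions -/
def res (K : Finset Face) : Fld →ₗ[ℝ] ((K × Fin 4) → ℝ) where
  toFun φ g := φ g.1 g.2
  map_add' φ ψ := rfl
  map_smul' c φ := rfl

theorem inner_le (K : Finset Face) (φ ψ : Fld) :
    |∑ f ∈ K, ∑ h, φ f h * ψ f h| ≤ N2 K φ * N2 K ψ := by
  rw [N2_eq, N2_eq]; exact sum_mul_le K φ ψ

/-- **local solver** from the gap -/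
theorem ls_of_gap {w : Fld} (hw : Sym w) {x : Face} {r C : ℝ} (hr : 0 ≤ r) (hC : 0 ≤ C)
    (hg : GapOn w x r C) (g : Fld) :
    ∃ φ : Fld, Supp (bx x (r + 1)) φ ∧ (∀ f ∈ bx x r, A w φ f = g f) ∧
      NB x (r + 1) φ ≤ C * r * NB x r g := by
  set K := bx x r with hK
  have hsub : K ⊆ bx x (r + 1) := bx_mono x (by linarith)
  -- the quadratic form
  have quad : ∀ v : (K × Fin 4) → ℝ,
      ∑ f ∈ K, ∑ h, A w (A w (ext K v)) f h * ext K v f h = -(NB x (r + 1) (A w (ext K v))) ^ 2 := by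
    intro v
    rw [A_antisymm hw (A w (ext K v)) (ext K v) K (bx x (r + 1)) hsub (supp_ext K v)
      (fun f hf h => nb_mem_bx hf h), NB_sq]
    congr 1
    refine sum_congr rfl fun f _ => ?_
    rw [nsq]
    exact sum_congr rfl fun h _ => by ring
  let T : ((K × Fin 4) → ℝ) →ₗ[ℝ] ((K × Fin 4) → ℝ) := res K ∘ₗ AL w ∘ₗ AL w ∘ₗ ext K
  have hinj : Function.Injective T := by
    rw [← LinearMap.ker_eq_bot, LinearMap.ker_eq_bot']
    intro v hv
    have h1 : ∑ f ∈ K, ∑ h, A w (A w (ext K v)) f h * ext K v f h = 0 := by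
      refine sum_eq_zero fun f hf => sum_eq_zero fun h _ => ?_
      have : A w (A w (ext K v)) f h = 0 := congrFun hv (⟨f, hf⟩, h)
      rw [this, zero_mul]
    rw [quad v, neg_eq_zero, sq_eq_zero_iff] at h1
    have h2 := hg (ext K v) (supp_ext K v)
    rw [h1, mul_zero] at h2
    have h3 : NB x r (ext K v) = 0 := le_antisymm h2 (apply_nonneg _ _)
    rw [NB_eq_zero] at h3
    funext g
    have h4 := congrFun (h3 g.1.1 g.1.2) g.2
    rwa [ext_apply_mem v g.1.2 g.2] at h4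
  obtain ⟨v, hv⟩ := (LinearMap.injective_iff_surjective.1 hinj) (res K g)
  refine ⟨A w (ext K v), supp_A (supp_ext K v), ?_, ?_⟩
  · intro f hf
    funext h
    exact congrFun hv (⟨f, hf⟩, h)
  · have h1 : (NB x (r + 1) (A w (ext K v))) ^ 2 ≤ NB x r g * NB x r (ext K v) := by
      have h2 : (NB x (r + 1) (A w (ext K v))) ^ 2 = -∑ f ∈ K, ∑ h, g f h * ext K v f h := by
        rw [← neg_eq_iff_eq_neg, ← quad v]
        refine sum_congr rfl fun f hf => sum_congr rfl fun h _ => ?_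
        have : A w (A w (ext K v)) f h = g f h := congrFun hv (⟨f, hf⟩, h)
        rw [this]
      rw [h2]
      have h3 := (abs_le.1 (inner_le K g (ext K v))).1
      have h4 : NB x r g * NB x r (ext K v) = N2 K g * N2 K (ext K v) := rfl
      linarith
    have h5 := hg (ext K v) (supp_ext K v)
    set a := NB x (r + 1) (A w (ext K v)) with ha
    have ha0 : 0 ≤ a := apply_nonneg _ _
    have hb0 : 0 ≤ NB x r g := apply_nonneg _ _
    have h6 : a * a ≤ (C * r * NB x r g) * a := by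
      have := mul_le_mul_of_nonneg_left h5 hb0
      nlinarith
    rcases eq_or_lt_of_le ha0 with h | h
    · rw [← h]; positivity
    · exact le_of_mul_le_mul_right h6 h

/-! ### gauge covariance -/

/-- a gauge: signs on faces -/
def Gauge (s : Face → ℝ) : Prop := ∀ f, s f ^ 2 = 1

/-- multiplication by the gauge -/
def gm (s : Face → ℝ) : Fld →ₗ[ℝ] Fld where
  toFun φ f h := s f * φ f h
  map_add' φ ψ := by funext f h; simp only [Pi.add_apply]; ring
  map_smul' c φ := by funext f h; simp only [Pi.smul_apply, smul_eq_mul, RingHom.id_apply]; ring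

theorem gm_apply (s : Face → ℝ) (φ : Fld) (f : Face) (h : Fin 4) : gm s φ f h = s f * φ f h := rfl

theorem nsq_gm {s : Face → ℝ} (hs : Gauge s) (φ : Fld) (f : Face) : nsq (gm s φ f) = nsq (φ f) := by
  unfold nsq
  refine sum_congr rfl fun h _ => ?_
  rw [gm_apply, mul_pow, hs f, one_mul]

theorem N2_gm {s : Face → ℝ} (hs : Gauge s) (K : Finset Face) (φ : Fld) :
    N2 K (gm s φ) = N2 K φ := by
  rw [N2_eq, N2_eq]
  congr 1
  exact sum_congr rfl fun f _ => nsq_gm hs φ f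

theorem NB_gm {s : Face → ℝ} (hs : Gauge s) (x : Face) (r : ℝ) (φ : Fld) :
    NB x r (gm s φ) = NB x r φ := N2_gm hs _ _

theorem gm_gm {s : Face → ℝ} (hs : Gauge s) (φ : Fld) : gm s (gm s φ) = φ := by
  funext f h
  rw [gm_apply, gm_apply, ← mul_assoc, ← pow_two, hs f, one_mul]

/-- gauge covariance of `A` at one face -/
theorem A_gm {w w' : Fld} {s : Face → ℝ} (hs : Gauge s) {f : Face}
    (hw : ∀ h, w f h = s f * s (nb f h) * w' f h) (φ : Fld) :
    A w (gm s φ) f = fun h => s f * A w' φ f h := by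
  funext h
  have e0 : A0 (gm s φ f) h = s f * A0 (φ f) h := by
    have : gm s φ f = s f • φ f := by funext k; rfl
    rw [this, A0_smul]
  have e1 : Y w (gm s φ) f h = s f * Y w' φ f h := by
    simp only [Y, gm_apply, hw h]
    have := hs (nb f h)
    linear_combination (s f * sg h * w' f h * φ (nb f h) (op h)) * this
  simp only [A]
  rw [e0, e1]; ring

/-! ### background classes on a box -/

/-- all half-edge weights of the box are `± x_c` or `0` -/
def IsPlusOn (w : Fld) (x : Face) (r : ℝ) : Prop :=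
  ∀ f ∈ bx x r, ∀ h, w f h ^ 2 = xc ^ 2 ∨ w f h = 0

/-- plane background up to a gauge -/
structure PlaneOn (w : Fld) (s : Face → ℝ) (x : Face) (r : ℝ) : Prop where
  sym : Sym w
  gauge : Gauge s
  eq : ∀ f ∈ bx x r, ∀ h, w f h = s f * s (nb f h) * xc

/-- sign of the horizontal cut from the vertex `v` (lower left corner of the face `v`) to `+∞` -/
def rayw (v : Face) : Fld := fun f h =>
  if (h = 0 ∧ f.2 = v.2 ∧ v.1 ≤ f.1) ∨ (h = 2 ∧ f.2 + 1 = v.2 ∧ v.1 ≤ f.1) then -1 else 1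

/-- one branch vertex `v`, up to a gauge -/
structure BranchOn (w : Fld) (s : Face → ℝ) (v : Face) (r : ℝ) : Prop where
  sym : Sym w
  gauge : Gauge s
  eq : ∀ f ∈ bx v r, ∀ h, w f h = s f * s (nb f h) * rayw v f h * xc

/-- scalar product with the normal -/
def dotn (n : ℂ) (x f : Face) : ℝ := n.re * ((f.1 : ℝ) - x.1) + n.im * ((f.2 : ℝ) - x.2)

/-- plus boundary, `ε`-flat with outward normal `n`; arbitrary inside the strip -/
structure PlusFlat (w : Fld) (s : Face → ℝ) (x : Face) (r : ℝ) (n : ℂ) (ε : ℝ) : Prop where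
  sym : Sym w
  gauge : Gauge s
  plus : IsPlusOn w x r
  inside : ∀ f ∈ bx x r, dotn n x f ≤ -(ε * r) → ∀ h, w f h = s f * s (nb f h) * xc
  outside : ∀ f ∈ bx x r, ε * r ≤ dotn n x f → ∀ h, w f h = 0

theorem PlaneOn.mono {w : Fld} {s : Face → ℝ} {x : Face} {r r' : ℝ} (h : r' ≤ r)
    (H : PlaneOn w s x r) : PlaneOn w s x r' :=
  ⟨H.sym, H.gauge, fun f hf => H.eq f (bx_mono x h hf)⟩

theorem BranchOn.mono {w : Fld} {s : Face → ℝ} {x : Face} {r r' : ℝ} (h : r' ≤ r)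
    (H : BranchOn w s x r) : BranchOn w s x r' :=
  ⟨H.sym, H.gauge, fun f hf => H.eq f (bx_mono x h hf)⟩

theorem PlusFlat.mono {w : Fld} {s : Face → ℝ} {x : Face} {r r' ε ε' : ℝ} {n : ℂ} (h : r' ≤ r)
    (h' : ε * r ≤ ε' * r') (H : PlusFlat w s x r n ε) : PlusFlat w s x r' n ε' :=
  ⟨H.sym, H.gauge, fun f hf => H.plus f (bx_mono x h hf),
    fun f hf hd => H.inside f (bx_mono x h hf) (by linarith),
    fun f hf hd => H.outside f (bx_mono x h hf) (by linarith)⟩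

theorem rayw_sq (v f : Face) (h : Fin 4) : rayw v f h ^ 2 = 1 := by
  unfold rayw; split_ifs <;> norm_num

theorem sq_of {s : Face → ℝ} (hs : Gauge s) (f g : Face) (a : ℝ) :
    (s f * s g * a) ^ 2 = a ^ 2 := by
  rw [mul_pow, mul_pow, hs f, hs g]; ring

theorem PlaneOn.plus {w : Fld} {s : Face → ℝ} {x : Face} {r : ℝ} (H : PlaneOn w s x r) :
    IsPlusOn w x r := fun f hf h => Or.inl (by rw [H.eq f hf h, sq_of H.gauge])

theorem BranchOn.plus {w : Fld} {s : Face → ℝ} {v : Face} {r : ℝ} (H : BranchOn w s v r) :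
    IsPlusOn w v r := fun f hf h => Or.inl (by
      rw [H.eq f hf h, mul_assoc, sq_of H.gauge, mul_pow, rayw_sq, one_mul])

/-! ### amplitude and modes -/

/-- complex amplitude of the light part: `(P_l p)_h = Re (c e^{-3 i θ_h / 2})`, `|P_l p|² = 2|c|²` -/
def amp (p : Fin 4 → ℝ) : ℂ := ⟨Pl p 1, -Pl p 3⟩

/-- the light vector of amplitude `c` -/
def lv (c : ℂ) (h : Fin 4) : ℝ :=
  match h with
  | 0 => -(c.re + c.im) / Real.sqrt 2
  | 1 => c.re
  | 2 => (c.im - c.re) / Real.sqrt 2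
  | 3 => -c.im

theorem lv_amp (p : Fin 4 → ℝ) (h : Fin 4) : lv (amp p) h = Pl p h := by
  have h2 := sq2
  have e : ∀ a : ℝ, a / Real.sqrt 2 = a * Real.sqrt 2 / 2 := div_sq2
  fin_cases h <;> simp only [lv, amp, Pl, inv_2sq2, e, Fin.zero_eta, Fin.mk_one, Fin.reduceFinMk,
    neg_neg] <;> first | rfl | ring_nf | skip
  all_goals try (rw [show Real.sqrt 2 ^ 2 = 2 from Real.sq_sqrt (by norm_num)]; ring)

theorem nsq_lv (c : ℂ) : nsq (lv c) = 2 * Complex.normSq c := by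
  have h2 := sq2
  simp only [nsq_eq, lv, div_sq2, Complex.normSq_apply]
  linear_combination (((c.re + c.im) ^ 2 + (c.im - c.re) ^ 2) / 4) * h2


/-- boundary mode: the light vector of amplitude `c` (`c² = n̄`) on the inner half plane -/
def modeB (s : Face → ℝ) (x : Face) (n c : ℂ) : Fld := fun f h =>
  if dotn n x f ≤ 0 then s f * lv c h else 0

/-- face as a complex number relative to the vertex `v`: centre of the face -/
def zf (v f : Face) : ℂ := ⟨(f.1 : ℝ) - v.1 + 1 / 2, (f.2 : ℝ) - v.2 + 1 / 2⟩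

/-- branch mode: amplitude `(-z)^{-1/2} = i z^{-1/2}` (`z^{-1/2} = r^{-1/2} e^{-iθ/2}`, `0 ≤ θ < 2π`),
cut along the positive real axis; its square is `-1/z` -/
def modeBr (s : Face → ℝ) (v : Face) : Fld := fun f h =>
  s f * lv ((-zf v f) ^ (-(1 / 2) : ℂ)) h

/-! ### the leaves -/

/-- growth of exact solutions -/
def Ex1On (w : Fld) (x : Face) (r t M : ℝ) : Prop :=
  ∀ e : Fld, (∀ f ∈ bx x r, A w e f = 0) → NB x t e ≤ M * NB x r e

/-- one mode -/
def Ex2On (w : Fld) (x : Face) (r t : ℝ) (u : Fld) (M : ℝ) : Prop :=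
  ∀ e : Fld, (∀ f ∈ bx x r, A w e f = 0) → ∃ κ : ℝ, NB x t (e - κ • u) ≤ M * NB x r e

/-- LEAF (helper54): universal gap for plus backgrounds -/
def GapU (C : ℝ) : Prop :=
  ∀ (w : Fld) (x : Face) (r : ℝ), 1 ≤ r → Sym w → IsPlusOn w x r → GapOn w x r C

/-- LEAF EX, plus boundary -/
def EXb (C : ℝ) : Prop :=
  ∀ (m : ℕ) (η : ℝ), 0 < η → ∃ r0 ε0 : ℝ, 0 < ε0 ∧
    ∀ (w : Fld) (s : Face → ℝ) (x : Face) (r : ℝ) (n c : ℂ), r0 ≤ r → ‖n‖ = 1 →
      c ^ 2 = (starRingEnd ℂ) n → PlusFlat w s x r n ε0 →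
      Ex1On w x r (r * q ^ (2 * m)) (C * q ^ (2 * m) + η) ∧
      Ex2On w x r (r * q ^ (2 * m)) (modeB s x n c) (C * q ^ (4 * m) + η)

/-- LEAF EX, branch vertex -/
def EXbr (C : ℝ) : Prop :=
  ∀ (m : ℕ) (η : ℝ), 0 < η → ∃ r0 : ℝ,
    ∀ (w : Fld) (s : Face → ℝ) (v : Face) (r : ℝ), r0 ≤ r → BranchOn w s v r →
      Ex1On w v r (r * q ^ (2 * m)) (C * q ^ m + η) ∧
      Ex2On w v r (r * q ^ (2 * m)) (modeBr s v) (C * q ^ (3 * m) + η)

/-! ### the assembly -/

/-- hypotheses of `Camp_891` from the leaves at one box -/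
theorem hyp_of {w : Fld} (hw : Sym w) {x : Face} {ρ : ℝ} {u : Fld} {p J : ℕ} {C1 Cs η : ℝ}
    (hp : 1 ≤ p) (hp2 : p ≤ 2) (hρ : 0 < ρ) (hC1 : 0 ≤ C1) (hCs : 0 ≤ Cs) (hη : 0 ≤ η)
    (hηJ : η ≤ q ^ (3 * J))
    (hgap : ∀ j ≤ J, GapOn w x (ρ * q ^ (2 * j)) Cs)
    (h1 : ∀ j i, j ≤ i → i ≤ J →
      Ex1On w x (ρ * q ^ (2 * j)) (ρ * q ^ (2 * i)) (C1 * q ^ (p * (i - j)) + η))
    (h2 : ∀ j ≤ J,
      Ex2On w x (ρ * q ^ (2 * j)) (ρ * q ^ (2 * J)) u (C1 * q ^ ((p + 2) * (J - j)) + η)) :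
    Hyp (AL w) (fun j => NB x (ρ * q ^ (2 * j))) u p J ρ C1 Cs η where
  hp := hp
  hp2 := hp2
  hρ := hρ
  hC1 := hC1
  hCs := hCs
  hη := hη
  hηJ := hηJ
  anti j := NB_mono x (mul_le_mul_of_nonneg_left (q_pow_le (by omega)) hρ.le)
  ls j hj g := by
    have hr : 0 ≤ ρ * q ^ (2 * j) := by have := q_pos; positivity
    obtain ⟨φ, -, ha, hb⟩ := ls_of_gap hw hr hCs (hgap j hj) g
    refine ⟨φ, ?_, ?_⟩
    · rw [NB_eq_zero]
      intro f hf
      rw [AL_apply, Pi.sub_apply, ha f hf, sub_self]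
    · exact (NB_mono x (by linarith) φ).trans hb
  ex1 j i hji hi e he := by
    rw [NB_eq_zero] at he
    exact h1 j i hji hi e he
  ex2 j hj e he := by
    rw [NB_eq_zero] at he
    exact h2 j hj e he

/-- **Reg1/Reg2 at a plus boundary** from the leaves `GapU`, `EXb` -/
theorem regB {C Cs : ℝ} (hC : 0 ≤ C) (hCs : 0 ≤ Cs) (hG : GapU Cs) (hE : EXb C) :
    ∀ J : ℕ, ∃ r0 ε0 : ℝ, 0 < ε0 ∧
    ∀ (w : Fld) (s : Face → ℝ) (x : Face) (ρ : ℝ) (n c : ℂ), r0 ≤ ρ → ‖n‖ = 1 →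
      c ^ 2 = (starRingEnd ℂ) n → PlusFlat w s x ρ n ε0 →
      ∀ f : Fld, NB x ρ f ≤ 1 → NB x ρ (A w f) ≤ 1 / ρ → NB x ρ (A w (A w f)) ≤ 1 / ρ ^ 2 →
        NB x (ρ * q ^ (2 * J)) f ≤ K2 C Cs * q ^ (2 * J) ∧
        ∃ κ : ℝ, NB x (ρ * q ^ (2 * J)) (f - κ • modeB s x n c) ≤ K2 C Cs * q ^ (3 * J) := by
  intro J
  have hq := q_pos
  choose r0 ε0 hε0 hEX using fun m : ℕ => hE m (q ^ (3 * J)) (by positivity)
  -- uniform thresholds over m ≤ J
  obtain ⟨R, hR⟩ : ∃ R, ∀ m ≤ J, r0 m ≤ R := by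
    refine ⟨(range (J + 1)).sup' (nonempty_range_iff.2 (by omega)) r0, fun m hm => ?_⟩
    exact le_sup' r0 (mem_range.2 (by omega))
  obtain ⟨E, hE0, hE⟩ : ∃ E, 0 < E ∧ ∀ m ≤ J, E ≤ ε0 m := by
    refine ⟨(range (J + 1)).inf' (nonempty_range_iff.2 (by omega)) ε0, ?_, fun m hm => ?_⟩
    · rw [lt_inf'_iff]; exact fun m _ => hε0 m
    · exact inf'_le ε0 (mem_range.2 (by omega))
  refine ⟨max 1 (max 1 R / q ^ (2 * J)), E * q ^ (2 * J), by positivity, ?_⟩
  intro w s x ρ n c hρ hn hc H f h0 h1 h2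
  have hρ1 : max 1 R / q ^ (2 * J) ≤ ρ := (le_max_right _ _).trans hρ
  have hρ2 : max 1 R ≤ ρ * q ^ (2 * J) := by rwa [div_le_iff₀ (by positivity)] at hρ1
  have hρ3 : (1 : ℝ) ≤ ρ := (le_max_left _ _).trans hρ
  have hρ0 : 0 < ρ := by linarith
  have hsc : ∀ j ≤ J, max 1 R ≤ ρ * q ^ (2 * j) := fun j hj =>
    hρ2.trans (mul_le_mul_of_nonneg_left (q_pow_le (by omega)) hρ0.le)
  have hle : ∀ j : ℕ, ρ * q ^ (2 * j) ≤ ρ := fun j =>
    mul_le_of_le_one_right hρ0.le (pow_le_one₀ hq.le q_le_one)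
  have hcl : ∀ j ≤ J, ∀ m ≤ J, PlusFlat w s x (ρ * q ^ (2 * j)) n (ε0 m) := by
    intro j hj m hm
    refine H.mono (hle j) ?_
    have e1 : q ^ (2 * J) ≤ q ^ (2 * j) := q_pow_le (by omega)
    have e2 := hE m hm
    calc E * q ^ (2 * J) * ρ ≤ ε0 m * q ^ (2 * j) * ρ := by gcongr; exact (hε0 m).le
      _ = ε0 m * (ρ * q ^ (2 * j)) := by ring
  have key : Hyp (AL w) (fun j => NB x (ρ * q ^ (2 * j))) (modeB s x n c) 2 J ρ C Cs
      (q ^ (3 * J)) := by
    refine hyp_of H.sym (by norm_num) le_rfl hρ0 hC hCs (by positivity) le_rfl ?_ ?_ ?_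
    · intro j hj
      exact hG w x _ ((le_max_left _ _).trans (hsc j hj)) H.sym
        (fun g hg => H.plus g (bx_mono x (hle j) hg))
    · intro j i hji hi
      have := (hEX (i - j) w s x (ρ * q ^ (2 * j)) n c
        ((hR _ (by omega)).trans ((le_max_right _ _).trans (hsc j (by omega)))) hn hc
        (hcl j (by omega) _ (by omega))).1
      have e1 : ρ * q ^ (2 * j) * q ^ (2 * (i - j)) = ρ * q ^ (2 * i) := by
        rw [mul_assoc, ← pow_add]; congr 2; omega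
      rwa [e1] at this
    · intro j hj
      have := (hEX (J - j) w s x (ρ * q ^ (2 * j)) n c
        ((hR _ (by omega)).trans ((le_max_right _ _).trans (hsc j (by omega)))) hn hc
        (hcl j (by omega) _ (by omega))).2
      have e1 : ρ * q ^ (2 * j) * q ^ (2 * (J - j)) = ρ * q ^ (2 * J) := by
        rw [mul_assoc, ← pow_add]; congr 2; omega
      rwa [e1] at this
  have a0 : (fun j => NB x (ρ * q ^ (2 * j))) 0 f ≤ 1 := by simpa using h0
  have a1 : (fun j => NB x (ρ * q ^ (2 * j))) 0 (AL w f) ≤ 1 / ρ := by simpa using h1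
  have a2 : (fun j => NB x (ρ * q ^ (2 * j))) 0 (AL w (AL w f)) ≤ 1 / ρ ^ 2 := by simpa using h2
  exact level2 key f a0 a1 a2

/-- **Reg1/Reg2 at a branch vertex** from the leaves `GapU`, `EXbr` -/
theorem regBr {C Cs : ℝ} (hC : 0 ≤ C) (hCs : 0 ≤ Cs) (hG : GapU Cs) (hE : EXbr C) :
    ∀ J : ℕ, ∃ r0 : ℝ,
    ∀ (w : Fld) (s : Face → ℝ) (v : Face) (ρ : ℝ), r0 ≤ ρ → BranchOn w s v ρ →
      ∀ f : Fld, NB v ρ f ≤ 1 → NB v ρ (A w f) ≤ 1 / ρ → NB v ρ (A w (A w f)) ≤ 1 / ρ ^ 2 →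
        NB v (ρ * q ^ (2 * J)) f ≤ K2 C Cs * q ^ J ∧
        ∃ κ : ℝ, NB v (ρ * q ^ (2 * J)) (f - κ • modeBr s v) ≤ K2 C Cs * q ^ (2 * J) := by
  intro J
  have hq := q_pos
  choose r0 hEX using fun m : ℕ => hE m (q ^ (3 * J)) (by positivity)
  obtain ⟨R, hR⟩ : ∃ R, ∀ m ≤ J, r0 m ≤ R := by
    refine ⟨(range (J + 1)).sup' (nonempty_range_iff.2 (by omega)) r0, fun m hm => ?_⟩
    exact le_sup' r0 (mem_range.2 (by omega))
  refine ⟨max 1 (max 1 R / q ^ (2 * J)), ?_⟩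
  intro w s x ρ hρ H f h0 h1 h2
  have hρ1 : max 1 R / q ^ (2 * J) ≤ ρ := (le_max_right _ _).trans hρ
  have hρ2 : max 1 R ≤ ρ * q ^ (2 * J) := by rwa [div_le_iff₀ (by positivity)] at hρ1
  have hρ3 : (1 : ℝ) ≤ ρ := (le_max_left _ _).trans hρ
  have hρ0 : 0 < ρ := by linarith
  have hsc : ∀ j ≤ J, max 1 R ≤ ρ * q ^ (2 * j) := fun j hj =>
    hρ2.trans (mul_le_mul_of_nonneg_left (q_pow_le (by omega)) hρ0.le)
  have hle : ∀ j : ℕ, ρ * q ^ (2 * j) ≤ ρ := fun j =>
    mul_le_of_le_one_right hρ0.le (pow_le_one₀ hq.le q_le_one)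
  have key : Hyp (AL w) (fun j => NB x (ρ * q ^ (2 * j))) (modeBr s x) 1 J ρ C Cs
      (q ^ (3 * J)) := by
    refine hyp_of H.sym le_rfl (by norm_num) hρ0 hC hCs (by positivity) le_rfl ?_ ?_ ?_
    · intro j hj
      exact hG w x _ ((le_max_left _ _).trans (hsc j hj)) H.sym
        (fun g hg => H.plus g (bx_mono x (hle j) hg))
    · intro j i hji hi
      have := (hEX (i - j) w s x (ρ * q ^ (2 * j))
        ((hR _ (by omega)).trans ((le_max_right _ _).trans (hsc j (by omega))))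
        (H.mono (hle j))).1
      have e1 : ρ * q ^ (2 * j) * q ^ (2 * (i - j)) = ρ * q ^ (2 * i) := by
        rw [mul_assoc, ← pow_add]; congr 2; omega
      rw [e1] at this
      rwa [one_mul]
    · intro j hj
      have := (hEX (J - j) w s x (ρ * q ^ (2 * j))
        ((hR _ (by omega)).trans ((le_max_right _ _).trans (hsc j (by omega))))
        (H.mono (hle j))).2
      have e1 : ρ * q ^ (2 * j) * q ^ (2 * (J - j)) = ρ * q ^ (2 * J) := by
        rw [mul_assoc, ← pow_add]; congr 2; omega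
      rwa [e1] at this
  have a0 : (fun j => NB x (ρ * q ^ (2 * j))) 0 f ≤ 1 := by simpa using h0
  have a1 : (fun j => NB x (ρ * q ^ (2 * j))) 0 (AL w f) ≤ 1 / ρ := by simpa using h1
  have a2 : (fun j => NB x (ρ * q ^ (2 * j))) 0 (AL w (AL w f)) ≤ 1 / ρ ^ 2 := by simpa using h2
  have := level2 key f a0 a1 a2
  simpa only [one_mul] using this

/-! ### n-width form (for the wt inequalities) -/


end Crest.Agent.R165.RIfx891
end
private theorem rz_5f791a4257 : type_of% @_root_.Crest.Agent.R165.RIfx891.lv.eq_1 := @_root_.Crest.Agent.R165.RIfx891.lv.eq_1 -- L442
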