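import Mathlib
import Crest.Agent.R165.Br0_644
import Crest.Agent.R165.Br3_644
import Crest.Agent.R165.RIface_891

-- ▼ part R165/Br4_644
section

/-!
Row 165 (S0250), block U4 (helper644): the bound `|P k n| ≤ C / √(|k| + n + 1)`.
-/

set_option autoImplicit false

namespace Crest.Agent.R165.Br0x644

open Real MeasureTheory Set intervalIntegral
open Crest.Agent.R165.Pkx583 (rho rho_nonneg rho_le_one sin_ge sin_pos' rho_le_exp)

/-- `∫_0^{π/2} u^{-1/2} e^{-cu} du ≤ √(π/c)` -/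
theorem int_exp_le {c : ℝ} (hc : 0 < c) :
    ∫ u in (0:ℝ)..(π/2), u ^ (-(1/2) : ℝ) * Real.exp (-(c*u)) ≤ √π / √c := by
  have h := Real.integral_rpow_mul_exp_neg_mul_Ioi (a := 1/2) (r := c) (by norm_num) hc
  have e : ((1:ℝ)/2 - 1) = -(1/2) := by norm_num
  rw [e, Real.Gamma_one_half_eq] at h
  have hi : IntegrableOn (fun u : ℝ => u ^ (-(1/2) : ℝ) * Real.exp (-(c*u))) (Ioi 0) := by
    have := Real.GammaIntegral_convergent (s := 1/2) (by norm_num)
    have h2 := integrableOn_rpow_mul_exp_neg_mul_rpow (p := 1) (s := -(1/2)) (b := c) (by norm_num)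
      one_pos hc
    refine h2.congr_fun (fun u _ => ?_) measurableSet_Ioi
    simp only [Real.rpow_one]
    rw [neg_mul]
  rw [intervalIntegral.integral_of_le (by positivity)]
  calc ∫ u in Ioc (0:ℝ) (π/2), u ^ (-(1/2) : ℝ) * Real.exp (-(c*u))
      ≤ ∫ u in Ioi (0:ℝ), u ^ (-(1/2) : ℝ) * Real.exp (-(c*u)) := by
        apply setIntegral_mono_set hi
        · refine (ae_restrict_iff' measurableSet_Ioi).2 (Filter.Eventually.of_forall fun u hu => ?_)
          have : (0:ℝ) < u := hu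
          show (0:ℝ) ≤ _
          positivity
        · exact Ioc_subset_Ioi_self.eventuallyLE
    _ = √π / √c := by
        rw [h, ← Real.sqrt_eq_rpow, Real.sqrt_div zero_le_one, Real.sqrt_one]
        ring

theorem abs_P_le_of_bound {k : ℤ} {n : ℕ} {g : ℝ → ℝ}
    (hg : IntervalIntegrable g volume 0 (π/2))
    (h : ∀ u, 0 < u → u ≤ π/2 → |amp u * (rho u ^ n * ph k u)| ≤ g u) :
    |P k n| ≤ (2/π) * ∫ u in (0:ℝ)..(π/2), g u := by
  have hpi := Real.pi_pos
  unfold P
  rw [abs_mul, abs_of_pos (by positivity : (0:ℝ) < 2/π)]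
  apply mul_le_mul_of_nonneg_left _ (by positivity)
  have hbd : ∀ᵐ u : ℝ ∂volume, u ∈ Set.Ioc (0:ℝ) (π/2) → ‖amp u * (rho u ^ n * ph k u)‖ ≤ g u := by
    refine Filter.Eventually.of_forall fun u hu => ?_
    rw [Real.norm_eq_abs]
    exact h u hu.1 hu.2
  have := intervalIntegral.norm_integral_le_of_norm_le (by positivity) hbd hg
  rwa [Real.norm_eq_abs] at this

theorem abs_integrand_le (k : ℤ) (n : ℕ) {u : ℝ} (h0 : 0 < u) (h1 : u ≤ π/2) :
    |amp u * (rho u ^ n * ph k u)| ≤ u ^ (-(1/2) : ℝ) * Real.exp (-((n/π)*u)) := by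
  have hpi := Real.pi_pos
  rw [abs_mul, abs_mul, abs_of_nonneg (amp_nonneg u), ← one_div_sqrt h0]
  have hr := rho_nonneg h0.le h1
  have h2 : |rho u ^ n| ≤ Real.exp (-((n/π)*u)) := by
    rw [abs_of_nonneg (pow_nonneg hr n)]
    have := pow_le_pow_left₀ hr (rho_le_exp h0.le h1) n
    rw [← Real.exp_nat_mul] at this
    refine this.trans (le_of_eq ?_)
    congr 1; ring
  calc amp u * (|rho u ^ n| * |ph k u|) ≤ amp u * (Real.exp (-((n/π)*u)) * 1) :=
        mul_le_mul_of_nonneg_left (mul_le_mul h2 (abs_ph_le k u) (abs_nonneg _) (Real.exp_pos _).le)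
          (amp_nonneg u)
    _ ≤ _ := by
        rw [mul_one]
        exact mul_le_mul_of_nonneg_right (amp_le h0 h1) (Real.exp_pos _).le

theorem P_bound_n (k : ℤ) (n : ℕ) (hn : 0 < n) : |P k n| ≤ 2 / √n := by
  have hpi := Real.pi_pos
  have hc : (0:ℝ) < n/π := by positivity
  have hi : IntervalIntegrable (fun u : ℝ => u ^ (-(1/2) : ℝ) * Real.exp (-((n/π)*u))) volume 0 (π/2) :=
    (ii_sqrt 0 (π/2)).mul_continuousOn (by fun_prop)
  have h := abs_P_le_of_bound hi (fun u h0 h1 => abs_integrand_le k n h0 h1)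
  have h2 := int_exp_le hc
  refine h.trans ?_
  calc (2/π) * ∫ u in (0:ℝ)..(π/2), u ^ (-(1/2) : ℝ) * Real.exp (-((n/π)*u))
      ≤ (2/π) * (√π / √(n/π)) := mul_le_mul_of_nonneg_left h2 (by positivity)
    _ = 2 / √n := by
        rw [Real.sqrt_div (by positivity)]
        have h3 : √π * √π = π := Real.mul_self_sqrt hpi.le
        have h4 : √(n:ℝ) ≠ 0 := by positivity
        have h5 : √π ≠ 0 := by positivity
        field_simp
        linear_combination h3

theorem P_bound_const (k : ℤ) (n : ℕ) : |P k n| ≤ 2 := by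
  have hpi := Real.pi_pos
  have h := abs_P_le_of_bound (k := k) (n := n) (ii_sqrt 0 (π/2)) (fun u h0 h1 => by
    refine (abs_integrand_le k n h0 h1).trans ?_
    have : Real.exp (-((n/π)*u)) ≤ 1 := Real.exp_le_one_iff.2 (by
      have : 0 ≤ (n/π)*u := by positivity
      linarith)
    calc u ^ (-(1/2) : ℝ) * Real.exp (-((n/π)*u)) ≤ u ^ (-(1/2) : ℝ) * 1 :=
          mul_le_mul_of_nonneg_left this (by positivity)
      _ = _ := mul_one _)
  refine h.trans ?_
  rw [integral_rpow (Or.inl (by norm_num))]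
  rw [Real.zero_rpow (by norm_num)]
  have e : (-(1/2:ℝ) + 1) = 1/2 := by norm_num
  rw [e, ← Real.sqrt_eq_rpow]
  have h2 : √(π/2) ≤ π/2 := by
    rw [Real.sqrt_le_left (by positivity)]
    have := Real.pi_gt_three
    nlinarith
  have h3 : √(π/2) * √(π/2) = π/2 := Real.mul_self_sqrt (by positivity)
  have h4 : 0 ≤ √(π/2) := Real.sqrt_nonneg _
  rw [sub_zero]
  calc (2/π) * (√(π/2) / (1/2)) ≤ (2/π) * ((π/2) / (1/2)) := by gcongr
    _ = 2 := by field_simp

/-! ### integration by parts -/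

/-- derivative of `rho` -/
theorem hasDerivAt_rho {u : ℝ} (h0 : 0 < u) (h1 : u ≤ π/2) :
    HasDerivAt rho (-(1 / (1 + Real.sin u))) u := by
  have hs : 0 < Real.sin u := sin_pos' h0 h1
  have hne : 1 + Real.sin u ≠ 0 := by positivity
  have h := (Real.hasDerivAt_cos u).div ((Real.hasDerivAt_sin u).const_add 1) hne
  refine h.congr_deriv ?_
  have h2 := Real.sin_sq_add_cos_sq u
  field_simp
  linear_combination -h2

theorem hasDerivAt_amp {u : ℝ} (h0 : 0 < u) (h1 : u ≤ π/2) :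
    HasDerivAt amp (-(Real.cos u / (2 * Real.sin u * √(2 * Real.sin u)))) u := by
  have hs : 0 < Real.sin u := sin_pos' h0 h1
  have hs2 : 2 * Real.sin u ≠ 0 := by positivity
  have h2 : HasDerivAt (fun u => √(2 * Real.sin u)) (2 * Real.cos u / (2 * √(2 * Real.sin u))) u :=
    ((Real.hasDerivAt_sin u).const_mul 2).sqrt hs2
  have hsq : √(2 * Real.sin u) * √(2 * Real.sin u) = 2 * Real.sin u :=
    Real.mul_self_sqrt (by positivity)
  have hsne : √(2 * Real.sin u) ≠ 0 := by positivity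
  have h3 := (hasDerivAt_const u (1:ℝ)).div h2 hsne
  refine h3.congr_deriv ?_
  rw [sq, hsq]
  field_simp
  ring

/-- monotone amplitude against an oscillation -/
theorem osc_bound {F F' : ℝ → ℝ} {a b q β : ℝ} (hab : a ≤ b) (hq : q ≠ 0)
    (hF : ∀ u ∈ Icc a b, HasDerivAt F (F' u) u) (hc : ContinuousOn F' (Icc a b))
    (hneg : ∀ u ∈ Icc a b, F' u ≤ 0) (hpos : ∀ u ∈ Icc a b, 0 ≤ F u) :
    |∫ u in a..b, F u * Real.cos (q*u - β)| ≤ 2 * F a / |q| := by
  have hq' : 0 < |q| := abs_pos.2 hq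
  have hF'i : IntervalIntegrable F' volume a b := by
    apply ContinuousOn.intervalIntegrable
    rwa [uIcc_of_le hab]
  have hv : ∀ u ∈ uIcc a b, HasDerivAt (fun u : ℝ => Real.sin (q*u - β) / q) (Real.cos (q*u-β)) u := by
    intro u _
    have := ((((hasDerivAt_id u).const_mul q).sub_const β).sin).div_const q
    refine this.congr_deriv ?_
    field_simp
    simp
  have hu : ∀ u ∈ uIcc a b, HasDerivAt F (F' u) u := by rwa [uIcc_of_le hab]
  have hcos : IntervalIntegrable (fun u : ℝ => Real.cos (q*u-β)) volume a b :=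
    (by fun_prop : Continuous fun u : ℝ => Real.cos (q*u-β)).intervalIntegrable _ _
  have hibp := intervalIntegral.integral_mul_deriv_eq_deriv_mul hu hv hF'i hcos
  have hft := intervalIntegral.integral_eq_sub_of_hasDerivAt hu hF'i
  have hrem : |∫ u in a..b, F' u * (Real.sin (q*u-β) / q)| ≤ (F a - F b) / |q| := by
    have hbd : ∀ᵐ u : ℝ ∂volume, u ∈ Set.Ioc a b →
        ‖F' u * (Real.sin (q*u-β) / q)‖ ≤ -F' u / |q| := by
      refine Filter.Eventually.of_forall fun u hu => ?_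
      have h1 := hneg u ⟨hu.1.le, hu.2⟩
      rw [Real.norm_eq_abs, abs_mul, abs_div, abs_of_nonpos h1, mul_div_assoc']
      have : |Real.sin (q*u-β)| ≤ 1 := Real.abs_sin_le_one _
      gcongr
      nlinarith
    have hg : IntervalIntegrable (fun u => -F' u / |q|) volume a b := hF'i.neg.div_const _
    have h := intervalIntegral.norm_integral_le_of_norm_le hab hbd hg
    rw [Real.norm_eq_abs, intervalIntegral.integral_div, intervalIntegral.integral_neg, hft] at h
    refine h.trans (le_of_eq ?_)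
    ring
  rw [hibp]
  have hFa := hpos a ⟨le_rfl, hab⟩
  have hFb := hpos b ⟨hab, le_rfl⟩
  have ha : |F a * (Real.sin (q*a-β)/q)| ≤ F a / |q| := by
    rw [abs_mul, abs_div, abs_of_nonneg hFa, mul_div_assoc']
    have : |Real.sin (q*a-β)| ≤ 1 := Real.abs_sin_le_one _
    gcongr
    nlinarith
  have hb : |F b * (Real.sin (q*b-β)/q)| ≤ F b / |q| := by
    rw [abs_mul, abs_div, abs_of_nonneg hFb, mul_div_assoc']
    have : |Real.sin (q*b-β)| ≤ 1 := Real.abs_sin_le_one _
    gcongr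
    nlinarith
  calc |F b * (Real.sin (q*b-β)/q) - F a * (Real.sin (q*a-β)/q)
        - ∫ u in a..b, F' u * (Real.sin (q*u-β) / q)|
      ≤ |F b * (Real.sin (q*b-β)/q) - F a * (Real.sin (q*a-β)/q)|
        + |∫ u in a..b, F' u * (Real.sin (q*u-β) / q)| := abs_sub _ _
    _ ≤ (|F b * (Real.sin (q*b-β)/q)| + |F a * (Real.sin (q*a-β)/q)|) + (F a - F b) / |q| :=
        add_le_add (abs_sub _ _) hrem
    _ ≤ (F b / |q| + F a / |q|) + (F a - F b) / |q| := by gcongr
    _ = 2 * F a / |q| := by ring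

theorem P_bound_k (k : ℤ) (n : ℕ) : |P k n| ≤ 3 / √|(k:ℝ) + 1/2| := by
  have hpi := Real.pi_pos
  set q : ℝ := (k:ℝ) + 1/2 with hq
  have hq2 : 1/2 ≤ |q| := by
    rcases le_or_gt 0 k with hk | hk
    · have : (0:ℝ) ≤ k := by exact_mod_cast hk
      rw [abs_of_nonneg (by rw [hq]; linarith)]
      rw [hq]; linarith
    · have : (k:ℝ) ≤ -1 := by exact_mod_cast (show k ≤ -1 by omega)
      rw [abs_of_neg (by rw [hq]; linarith)]
      rw [hq]; linarith
  have hqne : q ≠ 0 := by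
    intro h; rw [h, abs_zero] at hq2; norm_num at hq2
  set δ : ℝ := 1 / (2 * |q|) with hδ
  have hδ0 : 0 < δ := by positivity
  have hδ1 : δ ≤ 1 := by
    rw [hδ, div_le_one (by positivity)]; linarith
  have hδ2 : δ ≤ π/2 := by have := Real.pi_gt_three; linarith
  -- the amplitude
  set F : ℝ → ℝ := fun u => amp u * rho u ^ n with hF
  set F' : ℝ → ℝ := fun u => -(Real.cos u / (2 * Real.sin u * √(2 * Real.sin u))) * rho u ^ n
    + amp u * (n * rho u ^ (n-1) * -(1 / (1 + Real.sin u))) with hF'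
  have hder : ∀ u ∈ Icc δ (π/2), HasDerivAt F (F' u) u := by
    intro u hu
    have h0 : 0 < u := lt_of_lt_of_le hδ0 hu.1
    exact (hasDerivAt_amp h0 hu.2).mul ((hasDerivAt_rho h0 hu.2).pow n)
  have hspos : ∀ u ∈ Icc δ (π/2), 0 < Real.sin u := fun u hu =>
    sin_pos' (lt_of_lt_of_le hδ0 hu.1) hu.2
  have hcont : ContinuousOn F' (Icc δ (π/2)) := by
    have c1 : ContinuousOn (fun u => Real.cos u / (2 * Real.sin u * √(2 * Real.sin u))) (Icc δ (π/2)) := by
      apply ContinuousOn.div (by fun_prop) (by fun_prop)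
      intro u hu
      have := hspos u hu
      positivity
    have c2 : ContinuousOn rho (Icc δ (π/2)) := by
      unfold rho
      apply ContinuousOn.div (by fun_prop) (by fun_prop)
      intro u hu
      have := hspos u hu
      positivity
    have c3 : ContinuousOn amp (Icc δ (π/2)) := by
      unfold amp
      apply ContinuousOn.div (by fun_prop) (by fun_prop)
      intro u hu
      have := hspos u hu
      positivity
    have c4 : ContinuousOn (fun u => -(1 / (1 + Real.sin u))) (Icc δ (π/2)) := by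
      apply ContinuousOn.neg
      apply ContinuousOn.div (by fun_prop) (by fun_prop)
      intro u hu
      have := hspos u hu
      positivity
    exact (c1.neg.mul (c2.pow n)).add (c3.mul ((continuousOn_const.mul (c2.pow (n-1))).mul c4))
  have hneg : ∀ u ∈ Icc δ (π/2), F' u ≤ 0 := by
    intro u hu
    have h0 : 0 < u := lt_of_lt_of_le hδ0 hu.1
    have hs := hspos u hu
    have hr := rho_nonneg h0.le hu.2
    have hcs : 0 ≤ Real.cos u := Real.cos_nonneg_of_neg_pi_div_two_le_of_le (by linarith) hu.2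
    have ha := amp_nonneg u
    have e1 : 0 ≤ (Real.cos u / (2 * Real.sin u * √(2 * Real.sin u))) * rho u ^ n := by positivity
    have e2 : 0 ≤ amp u * (n * rho u ^ (n-1) * (1 / (1 + Real.sin u))) := by positivity
    simp only [hF']
    linarith
  have hposF : ∀ u ∈ Icc δ (π/2), 0 ≤ F u := by
    intro u hu
    have h0 : 0 < u := lt_of_lt_of_le hδ0 hu.1
    have hr := rho_nonneg h0.le hu.2
    have ha := amp_nonneg u
    simp only [hF]
    positivity
  have hosc := osc_bound (β := π/4) hδ2 hqne hder hcont hneg hposF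
  -- split
  have hi1 : IntervalIntegrable (fun u => amp u * (rho u ^ n * ph k u)) volume 0 δ :=
    (ii_P k n).mono_set (by
      rw [uIcc_of_le hδ0.le, uIcc_of_le (by positivity)]
      exact Icc_subset_Icc_right hδ2)
  have hi2 : IntervalIntegrable (fun u => amp u * (rho u ^ n * ph k u)) volume δ (π/2) :=
    (ii_P k n).mono_set (by
      rw [uIcc_of_le hδ2, uIcc_of_le (by positivity)]
      exact Icc_subset_Icc_left hδ0.le)
  have hsplit := intervalIntegral.integral_add_adjacent_intervals hi1 hi2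
  have hfirst : |∫ u in (0:ℝ)..δ, amp u * (rho u ^ n * ph k u)| ≤ 2 * √δ := by
    have hbd : ∀ᵐ u : ℝ ∂volume, u ∈ Set.Ioc (0:ℝ) δ →
        ‖amp u * (rho u ^ n * ph k u)‖ ≤ u ^ (-(1/2) : ℝ) := by
      refine Filter.Eventually.of_forall fun u hu => ?_
      rw [Real.norm_eq_abs]
      refine (abs_integrand_le k n hu.1 (hu.2.trans hδ2)).trans ?_
      have h0 : 0 < u := hu.1
      have : Real.exp (-((n/π)*u)) ≤ 1 := Real.exp_le_one_iff.2 (by
        have : 0 ≤ (n/π)*u := by positivity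
        linarith)
      calc u ^ (-(1/2) : ℝ) * Real.exp (-((n/π)*u)) ≤ u ^ (-(1/2) : ℝ) * 1 :=
            mul_le_mul_of_nonneg_left this (by positivity)
        _ = _ := mul_one _
    have h := intervalIntegral.norm_integral_le_of_norm_le hδ0.le hbd (ii_sqrt 0 δ)
    rw [Real.norm_eq_abs, integral_rpow (Or.inl (by norm_num)), Real.zero_rpow (by norm_num)] at h
    have e : (-(1/2:ℝ) + 1) = 1/2 := by norm_num
    rw [e, ← Real.sqrt_eq_rpow] at h
    refine h.trans (le_of_eq ?_)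
    ring
  have hsecond : |∫ u in δ..(π/2), amp u * (rho u ^ n * ph k u)| ≤ 2 * (1/√δ) / |q| := by
    have e : ∫ u in δ..(π/2), amp u * (rho u ^ n * ph k u)
        = ∫ u in δ..(π/2), F u * Real.cos (q*u - π/4) := by
      apply intervalIntegral.integral_congr
      intro u _
      simp only [hF, ph, hq]
      ring
    rw [e]
    refine hosc.trans ?_
    have hFδ : F δ ≤ 1/√δ := by
      have h1 := rho_pow_le n hδ0.le hδ2
      rw [abs_of_nonneg (pow_nonneg (rho_nonneg hδ0.le hδ2) n)] at h1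
      calc F δ ≤ amp δ * 1 := mul_le_mul_of_nonneg_left h1 (amp_nonneg δ)
        _ ≤ 1/√δ := by rw [mul_one]; exact amp_le hδ0 hδ2
    gcongr
  have hA : √(2*|q|) = 1/√δ := by
    rw [hδ, Real.sqrt_div zero_le_one, Real.sqrt_one, one_div_one_div]
  have hB : √(2*|q|) * √(2*|q|) = 2*|q| := Real.mul_self_sqrt (by positivity)
  have hC : √(2*|q|) = √2 * √|q| := Real.sqrt_mul (by norm_num) _
  have hD : √δ = 1 / √(2*|q|) := by rw [hA, one_div_one_div]
  unfold P
  rw [← hsplit, abs_mul, abs_of_pos (by positivity : (0:ℝ) < 2/π)]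
  have hsum : |(∫ u in (0:ℝ)..δ, amp u * (rho u ^ n * ph k u))
      + ∫ u in δ..(π/2), amp u * (rho u ^ n * ph k u)| ≤ 2 * √δ + 2 * (1/√δ) / |q| :=
    (abs_add_le _ _).trans (add_le_add hfirst hsecond)
  have hq0 : 0 < √|q| := by positivity
  have hqq : √|q| * √|q| = |q| := Real.mul_self_sqrt (abs_nonneg q)
  have h22 : √2 * √2 = (2:ℝ) := Real.mul_self_sqrt (by norm_num)
  have h20 : (0:ℝ) < √2 := by positivity
  have e1 : 2 * √δ + 2 * (1/√δ) / |q| = 3 * √2 / √|q| := by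
    rw [← hA, hD, hC]
    have g1 : 2 * (1/(√2*√|q|)) = √2/√|q| := by
      rw [mul_one_div, div_eq_div_iff (by positivity) hq0.ne']
      linear_combination (-√|q|) * h22
    have g2 : 2 * (√2*√|q|) / |q| = 2 * √2 / √|q| := by
      rw [div_eq_div_iff (by positivity) hq0.ne']
      linear_combination (2 * √2) * hqq
    rw [g1, g2]; ring
  have h3 : √2 ≤ 3/2 := by
    rw [Real.sqrt_le_left (by norm_num)]; norm_num
  rw [e1] at hsum
  calc (2/π) * |(∫ u in (0:ℝ)..δ, amp u * (rho u ^ n * ph k u))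
      + ∫ u in δ..(π/2), amp u * (rho u ^ n * ph k u)| ≤ (2/π) * (3 * √2 / √|q|) :=
        mul_le_mul_of_nonneg_left hsum (by positivity)
    _ ≤ (2/π) * (3 * (3/2) / √|q|) := by gcongr
    _ = (9/π) / √|q| := by ring
    _ ≤ 3 / √|q| := by
        have : 9/π ≤ 3 := by
          rw [div_le_iff₀ hpi]; have := Real.pi_gt_three; linarith
        gcongr

/-- **(BrB1)** -/
theorem P_bound (k : ℤ) (n : ℕ) : |P k n| ≤ 8 / √(|(k:ℝ)| + n + 1) := by
  set M : ℝ := |(k:ℝ)| + n + 1 with hM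
  have hn0 : (0:ℝ) ≤ n := Nat.cast_nonneg n
  have hk0 := abs_nonneg (k:ℝ)
  have hM1 : 1 ≤ M := by rw [hM]; linarith
  have hsM : 0 < √M := by positivity
  have hsM2 : √M * √M = M := Real.mul_self_sqrt (by linarith)
  have hkq : |(k:ℝ)| ≤ |(k:ℝ) + 1/2| + 1/2 := by
    have := abs_sub ((k:ℝ) + 1/2) (1/2)
    rw [add_sub_cancel_right] at this
    refine this.trans ?_
    rw [abs_of_pos (by norm_num : (0:ℝ) < 1/2)]
  rcases le_or_gt M 4 with h4 | h4
  · refine (P_bound_const k n).trans ?_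
    rw [le_div_iff₀ hsM]
    have : √M ≤ 2 := by
      rw [Real.sqrt_le_left (by norm_num)]; linarith
    linarith
  · rcases le_or_gt (M/4) |(k:ℝ) + 1/2| with hq | hq
    · refine (P_bound_k k n).trans ?_
      have h5 : √M / 2 ≤ √|(k:ℝ) + 1/2| := by
        apply Real.le_sqrt_of_sq_le
        nlinarith
      rw [div_le_div_iff₀ (by nlinarith) hsM]
      nlinarith
    · have h6 : 3*M/8 ≤ n := by
        have : |(k:ℝ)| < M/4 + 1/2 := by linarith
        rw [hM] at this ⊢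
        linarith
      have hn : 0 < n := by
        have : (0:ℝ) < n := by linarith
        exact_mod_cast this
      refine (P_bound_n k n hn).trans ?_
      have h7 : √M / 2 ≤ √(n:ℝ) := by
        apply Real.le_sqrt_of_sq_le
        nlinarith
      rw [div_le_div_iff₀ (by nlinarith) hsM]
      nlinarith

end Crest.Agent.R165.Br0x644
end

-- ▼ part R165/Br5_644

/-!
Row 165 (S0250), block U4 (helper644): scaling limits of the explicit fields `PsiS`, `PsiN`, `Psi0`.

* `zt z = -I (-z)^{-1/2}` : the branch of `z^{-1/2}` cut along the positive real axis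
* `BrA` : the asymptotics of `Pz` (leaf of helper375)
* `lim_PsiS`, `lim_PsiN` : `a^{-1/2} PsiS → lv (- kp ζ(z))`, `a^{-3/2} PsiN → lv (kp (1-I)/2 ζ(z)/z)`
  off the diagonal and off the ray
-/

set_option autoImplicit false

noncomputable section

namespace Crest.Agent.R165.Br5x644

open Real Filter Topology
open Crest.Agent.R165.Br1x644 (Pz Pz_symm fieldOf sA sB sC PsiS PsiN Psi0)
open Crest.Agent.R165.Tr1x40
open Crest.Agent.R165.RIfx891

def kap : ℝ := 2 ^ (1/4 : ℝ) / √π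
/-- `kp = kap cos (π/8)`, `kp ^ 2 = 1 / (2 π x_c)` -/
def kp : ℝ := kap * Real.cos (π/8)

/-- lattice point as a complex number -/
def zz (x y : ℤ) : ℂ := ⟨(x:ℝ), (y:ℝ)⟩

/-- asymptotics of `Pz` (helper375), in the form `cos, sin` of `π/8` -/
structure BrA : Prop where
  a1 : ∃ C : ℝ, ∀ x y : ℤ, y < x →
    |Pz x y - kap * ((⟨Real.cos (π/8), Real.sin (π/8)⟩ : ℂ) * zz x y ^ (-(1/2) : ℂ)).re|
      ≤ C / ((x:ℝ) - y) ^ (3/2 : ℝ)
  a2 : ∃ C : ℝ, ∀ x y : ℤ, y < x →
    |(Pz (x-1) (y-1) - Pz x y)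
        - kap / √2 * ((⟨Real.sin (π/8), Real.cos (π/8)⟩ : ℂ) * zz x y ^ (-(3/2) : ℂ)).re|
      ≤ C / ((x:ℝ) - y) ^ (5/2 : ℝ)
  a3 : ∃ C : ℝ, ∀ x y : ℤ, y < x →
    |Pz (-x) (-y) - kap * ((⟨Real.sin (π/8), -Real.cos (π/8)⟩ : ℂ) * zz x y ^ (-(1/2) : ℂ)).re|
      ≤ C / ((x:ℝ) - y) ^ (3/2 : ℝ)
  a4 : ∃ C : ℝ, ∀ x y : ℤ, y < x →
    |(Pz (-x) (-y) - Pz (-x-1) (-y-1))
        - kap / √2 * ((⟨Real.cos (π/8), -Real.sin (π/8)⟩ : ℂ) * zz x y ^ (-(3/2) : ℂ)).re|
      ≤ C / ((x:ℝ) - y) ^ (5/2 : ℝ)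

/-! ### trigonometry -/

theorem sin_eq : Real.sin (π/8) = xc * Real.cos (π/8) := by
  have h1 : Real.sin (π/4) = 2 * Real.sin (π/8) * Real.cos (π/8) := by
    rw [← Real.sin_two_mul]; congr 1; ring
  have h2 : Real.cos (π/4) = 2 * Real.cos (π/8) ^ 2 - 1 := by
    rw [← Real.cos_two_mul]; congr 1; ring
  rw [Real.sin_pi_div_four] at h1
  rw [Real.cos_pi_div_four] at h2
  have hc : 0 < Real.cos (π/8) := Real.cos_pos_of_mem_Ioo ⟨by linarith [Real.pi_pos], by linarith [Real.pi_pos]⟩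
  have h3 := sq2
  have : Real.sin (π/8) * (2 * Real.cos (π/8)) = (xc * Real.cos (π/8)) * (2 * Real.cos (π/8)) := by
    unfold xc
    have : 2 * Real.cos (π/8) ^ 2 = 1 + √2/2 := by linarith
    calc Real.sin (π/8) * (2 * Real.cos (π/8)) = √2/2 := by linarith
      _ = (√2 - 1) * (1 + √2/2) := by linear_combination (-1/2) * h3
      _ = (√2 - 1) * (2 * Real.cos (π/8) ^ 2) := by rw [this]
      _ = _ := by ring
  exact mul_right_cancel₀ (by positivity) this

theorem cos_sq_pi8 : Real.cos (π/8) ^ 2 = (2 + √2)/4 := by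
  have h2 : Real.cos (π/4) = 2 * Real.cos (π/8) ^ 2 - 1 := by
    rw [← Real.cos_two_mul]; congr 1; ring
  rw [Real.cos_pi_div_four] at h2
  linarith

theorem kp_sq : 2 * π * xc * kp ^ 2 = 1 := by
  have hpi := Real.pi_pos
  have h3 := sq2
  unfold kp kap
  rw [mul_pow, cos_sq_pi8, div_pow, Real.sq_sqrt hpi.le, ← Real.rpow_natCast, ← Real.rpow_mul (by norm_num)]
  have : (2:ℝ) ^ (1/4 * ((2:ℕ):ℝ)) = √2 := by
    rw [Real.sqrt_eq_rpow]; norm_num
  rw [this]
  unfold xc
  field_simp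
  linear_combination (2 + 2*√2) * h3

/-! ### scaling -/

theorem cpow_scale {a : ℝ} (ha : 0 < a) {z : ℂ} (hz : z ≠ 0) (s : ℂ) :
    ((a:ℂ) * z) ^ s = (a:ℂ) ^ s * z ^ s := by
  have ha' : (a:ℂ) ≠ 0 := by exact_mod_cast ha.ne'
  rw [Complex.cpow_def_of_ne_zero (mul_ne_zero ha' hz), Complex.cpow_def_of_ne_zero ha',
    Complex.cpow_def_of_ne_zero hz, ← Complex.exp_add, Complex.log_ofReal_mul ha hz,
    Complex.ofReal_log ha.le]
  congr 1; ring

variable {ι : Type*} {l : Filter ι} {a : ι → ℝ} {X Y : ι → ℤ} {p q : ℝ}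

theorem slit_of_lt {z : ℂ} (h : z.im < z.re) : z ∈ Complex.slitPlane := by
  rw [Complex.mem_slitPlane_iff]
  rcases lt_or_ge 0 z.re with h0 | h0
  · exact Or.inl h0
  · exact Or.inr (by linarith : z.im < 0).ne

/-- scaling limit of a function with known asymptotics below the diagonal -/
theorem scaled_limit (T : ℤ → ℤ → ℝ) (κ : ℝ) (e : ℂ) (s : ℝ) (hs' : 0 ≤ s)
    (hT : ∃ C : ℝ, ∀ x y : ℤ, y < x →
      |T x y - κ * (e * zz x y ^ (-(s:ℂ))).re| ≤ C / ((x:ℝ) - y) ^ (s + 1))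
    (ha : Tendsto a l (𝓝[>] 0)) (hX : Tendsto (fun k => a k * (X k : ℝ)) l (𝓝 p))
    (hY : Tendsto (fun k => a k * (Y k : ℝ)) l (𝓝 q)) (hpq : q < p) :
    Tendsto (fun k => a k ^ (-s) * T (X k) (Y k)) l
      (𝓝 (κ * (e * (⟨p, q⟩ : ℂ) ^ (-(s:ℂ))).re)) := by
  obtain ⟨C, hC⟩ := hT
  have ha0 : Tendsto a l (𝓝 0) := tendsto_nhds_of_tendsto_nhdsWithin ha
  have hapos : ∀ᶠ k in l, 0 < a k := (tendsto_nhdsWithin_iff.1 ha).2
  have hD : Tendsto (fun k => a k * (X k : ℝ) - a k * (Y k : ℝ)) l (𝓝 (p - q)) := hX.sub hY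
  have hDpos : ∀ᶠ k in l, (p-q)/2 < a k * (X k : ℝ) - a k * (Y k : ℝ) :=
    hD.eventually_const_lt (by linarith)
  -- the main term
  have hz : Tendsto (fun k => (⟨a k * (X k : ℝ), a k * (Y k : ℝ)⟩ : ℂ)) l (𝓝 ⟨p, q⟩) := by
    have h1 : Tendsto (fun k => ((a k * (X k : ℝ) : ℝ) : ℂ) + ((a k * (Y k : ℝ) : ℝ) : ℂ) * Complex.I) l
        (𝓝 ((p:ℂ) + (q:ℂ) * Complex.I)) :=
      (Complex.continuous_ofReal.tendsto _ |>.comp hX).add
        (((Complex.continuous_ofReal.tendsto _).comp hY).mul_const _)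
    have e1 : ∀ u v : ℝ, (⟨u, v⟩ : ℂ) = (u:ℂ) + (v:ℂ) * Complex.I := fun u v => Complex.mk_eq_add_mul_I u v
    simp only [e1]
    exact h1
  have hmain : Tendsto (fun k => κ * (e * (⟨a k * (X k : ℝ), a k * (Y k : ℝ)⟩ : ℂ) ^ (-(s:ℂ))).re) l
      (𝓝 (κ * (e * (⟨p, q⟩ : ℂ) ^ (-(s:ℂ))).re)) := by
    have hc : ContinuousAt (fun z : ℂ => κ * (e * z ^ (-(s:ℂ))).re) ⟨p, q⟩ := by
      have h1 : ContinuousAt (fun z : ℂ => z ^ (-(s:ℂ))) ⟨p, q⟩ :=
        continuousAt_cpow_const (slit_of_lt (by simpa using hpq))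
      exact continuousAt_const.mul (Complex.continuous_re.continuousAt.comp (continuousAt_const.mul h1))
    exact hc.tendsto.comp hz
  -- the error
  have herr : Tendsto (fun k => |C| * (a k / ((p-q)/2) ^ (s+1))) l (𝓝 0) := by
    have := (ha0.div_const (((p-q)/2) ^ (s+1))).const_mul |C|
    simpa using this
  refine hmain.congr_dist ?_
  refine squeeze_zero' (Eventually.of_forall fun _ => dist_nonneg) ?_ herr
  have hs : 0 ≤ s + 1 := by linarith
  filter_upwards [hapos, hDpos] with k hk hd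
  have hxy : Y k < X k := by
    have : 0 < a k * ((X k : ℝ) - (Y k : ℝ)) := by
      have : 0 < (p-q)/2 := by linarith
      rw [mul_sub]; linarith
    have := pos_of_mul_pos_right this hk.le
    have : (Y k : ℝ) < X k := by linarith
    exact_mod_cast this
  have hne : zz (X k) (Y k) ≠ 0 := by
    intro h
    have h1 := congrArg Complex.re h
    have h2 := congrArg Complex.im h
    simp only [zz, Complex.zero_re, Complex.zero_im] at h1 h2
    have : (Y k : ℝ) < X k := by exact_mod_cast hxy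
    linarith
  have e1 : (⟨a k * (X k : ℝ), a k * (Y k : ℝ)⟩ : ℂ) = (a k : ℂ) * zz (X k) (Y k) := by
    apply Complex.ext <;> simp [zz]
  have e2 : (a k : ℂ) ^ (-(s:ℂ)) = ((a k ^ (-s) : ℝ) : ℂ) := by
    rw [Complex.ofReal_cpow hk.le]; push_cast; rfl
  rw [e1, cpow_scale hk hne, e2, Real.dist_eq]
  have e3 : (e * (((a k ^ (-s) : ℝ) : ℂ) * zz (X k) (Y k) ^ (-(s:ℂ)))).re
      = a k ^ (-s) * (e * zz (X k) (Y k) ^ (-(s:ℂ))).re := by
    rw [← Complex.re_ofReal_mul]; congr 1; ring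
  rw [e3]
  have hap : 0 < a k ^ (-s) := Real.rpow_pos_of_pos hk _
  have e4 : κ * (a k ^ (-s) * (e * zz (X k) (Y k) ^ (-(s:ℂ))).re) - a k ^ (-s) * T (X k) (Y k)
      = -(a k ^ (-s) * (T (X k) (Y k) - κ * (e * zz (X k) (Y k) ^ (-(s:ℂ))).re)) := by ring
  rw [e4, abs_neg, abs_mul, abs_of_pos hap]
  have h5 := hC (X k) (Y k) hxy
  have hd' : (p-q)/2 / a k ≤ (X k : ℝ) - Y k := by
    rw [div_le_iff₀ hk]; linarith
  have hpq0 : 0 < (p-q)/2 := by linarith
  have h6 : ((p-q)/2 / a k) ^ (s+1) ≤ ((X k : ℝ) - Y k) ^ (s+1) :=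
    Real.rpow_le_rpow (by positivity) hd' hs
  have h7 : C / ((X k : ℝ) - Y k) ^ (s+1) ≤ |C| / ((p-q)/2 / a k) ^ (s+1) := by
    have : 0 < ((p-q)/2 / a k) ^ (s+1) := by positivity
    exact div_le_div₀ (abs_nonneg _) (le_abs_self C) this h6
  calc a k ^ (-s) * |T (X k) (Y k) - κ * (e * zz (X k) (Y k) ^ (-(s:ℂ))).re|
      ≤ a k ^ (-s) * (|C| / ((p-q)/2 / a k) ^ (s+1)) :=
        mul_le_mul_of_nonneg_left (h5.trans h7) hap.le
    _ = |C| * (a k / ((p-q)/2) ^ (s+1)) := by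
        rw [Real.div_rpow hpq0.le hk.le]
        have : a k ^ (s+1) = a k ^ s * a k := by
          rw [Real.rpow_add hk, Real.rpow_one]
        rw [this, Real.rpow_neg hk.le]
        have h8 : a k ^ s ≠ 0 := (Real.rpow_pos_of_pos hk _).ne'
        field_simp

end Crest.Agent.R165.Br5x644
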