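import Crest.Agent.R165.Tr1_40

/-!
# Row 165 (S0250), block R, leaf R-a, part 2

* `C2`: conservation law from the antisymmetry of `A0`, antisymmetry of `A`;
* `A_cut`: commutator with a cut-off; `A_gauge`: gauge transformations;
* `B x`: the adjugate of the plane operator with constant weight `x`, an antisymmetric operator
  of range one with `B (A φ) = x (1 - x²) (-Δ φ) + (x² + 2x - 1)² φ`  (`B_A`), so
  `B (A φ) = c0 (-Δ φ)` at `x = x_c`;
* `grad_le`: `|∇φ|² ≤ C |A φ|²` for finitely supported fields of the plane.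
-/

set_option autoImplicit false
set_option linter.unusedSimpArgs false

noncomputable section

namespace Crest.Agent.R165.Tr2x40

open Finset Crest.Agent.R165.Tr1x40

/-! ### antisymmetry, second conservation law -/

/-- `⟨p, A0 q⟩ = - ⟨A0 p, q⟩` -/
theorem A0_antisymm (p q : Fin 4 → ℝ) : ∑ h, p h * A0 q h = -∑ h, A0 p h * q h := by
  simp only [Fin.sum_univ_four, A0_zero, A0_one, A0_two, A0_three]; ring

theorem A0_self (p : Fin 4 → ℝ) : ∑ h, p h * A0 p h = 0 := by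
  simp only [Fin.sum_univ_four, A0_zero, A0_one, A0_two, A0_three]; ring

/-- **(C2)** `∑_h φ_h (Y φ)_h = ⟨φ, A φ⟩` at every face -/
theorem C2 (w φ : Fld) (f : Face) : ∑ h, φ f h * Y w φ f h = ∑ h, φ f h * A w φ f h := by
  have : ∑ h, φ f h * A w φ f h = ∑ h, φ f h * A0 (φ f) h + ∑ h, φ f h * Y w φ f h := by
    rw [← sum_add_distrib]; exact sum_congr rfl fun h _ => by simp only [A]; ring
  rw [this, A0_self, zero_add]

/-- the same written with the flux `J'(f → nb f h) = sg h * w f h * φ f h * φ (nb f h) (op h)`,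
which is antisymmetric: `J' (bar) = - J'` -/
def J' (w φ : Fld) (f : Face) (h : Fin 4) : ℝ := sg h * w f h * (φ f h * φ (nb f h) (op h))



/-- antisymmetry of `A` -/
theorem A_antisymm {w : Fld} (hw : Sym w) (φ ψ : Fld) (K : Finset Face)
    (h1 : ∀ f, f ∉ K → ∀ h, φ f h = 0)
    (h2 : ∀ f, f ∉ K → ∀ h, w f h * φ (nb f h) (op h) = 0) :
    ∑ f ∈ K, ∑ h, φ f h * A w ψ f h = -∑ f ∈ K, ∑ h, A w φ f h * ψ f h := by
  have key : ∑ f ∈ K, ∑ h, sg h * w f h * φ f h * ψ (nb f h) (op h)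
      = -∑ f ∈ K, ∑ h, sg h * w f h * φ (nb f h) (op h) * ψ f h := by
    have := sum_bar K (fun f h => sg h * w f h * φ (nb f h) (op h) * ψ f h)
      (fun f hf h => by
        have := h2 f hf h
        linear_combination (sg h * ψ f h) * this)
      (fun f hf h => by
        rw [nb_nb_op, op_op, h1 f hf]; ring)
    rw [← this, ← sum_neg_distrib]
    refine sum_congr rfl fun f _ => ?_
    rw [← sum_neg_distrib]
    refine sum_congr rfl fun h _ => ?_
    rw [nb_nb_op, op_op, sg_op, hw f h]; ring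
  have e1 : ∀ f, ∑ h, φ f h * A w ψ f h
      = ∑ h, φ f h * A0 (ψ f) h + ∑ h, sg h * w f h * φ f h * ψ (nb f h) (op h) := by
    intro f
    rw [← sum_add_distrib]; exact sum_congr rfl fun h _ => by simp only [A, Y]; ring
  have e2 : ∀ f, ∑ h, A w φ f h * ψ f h
      = ∑ h, A0 (φ f) h * ψ f h + ∑ h, sg h * w f h * φ (nb f h) (op h) * ψ f h := by
    intro f
    rw [← sum_add_distrib]; exact sum_congr rfl fun h _ => by simp only [A, Y]; ring
  rw [sum_congr rfl fun f _ => e1 f, sum_congr rfl fun f _ => e2 f, sum_add_distrib,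
    sum_add_distrib, key, sum_congr rfl fun f _ => A0_antisymm (φ f) (ψ f), sum_neg_distrib]
  ring

/-! ### linearity, cut-offs, gauge -/

theorem A0_add (p q : Fin 4 → ℝ) (h : Fin 4) : A0 (fun k => p k + q k) h = A0 p h + A0 q h := by
  fin_cases h <;> simp [A0] <;> ring

theorem A0_smul (c : ℝ) (p : Fin 4 → ℝ) (h : Fin 4) : A0 (fun k => c * p k) h = c * A0 p h := by
  fin_cases h <;> simp [A0] <;> ring

theorem A_add (w φ ψ : Fld) (f : Face) (h : Fin 4) :
    A w (fun f h => φ f h + ψ f h) f h = A w φ f h + A w ψ f h := by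
  simp only [A, Y, A0_add]; ring

theorem A_smul (w : Fld) (c : ℝ) (φ : Fld) (f : Face) (h : Fin 4) :
    A w (fun f h => c * φ f h) f h = c * A w φ f h := by
  simp only [A, Y, A0_smul]; ring

/-- commutator with a cut-off -/
theorem A_cut (w : Fld) (c : Face → ℝ) (φ : Fld) (f : Face) (h : Fin 4) :
    A w (fun f h => c f * φ f h) f h
      = c f * A w φ f h + sg h * w f h * ((c (nb f h) - c f) * φ (nb f h) (op h)) := by
  simp only [A, Y, A0_smul]; ring

/-- gauge transformation of weights -/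
def gw (g : Face → ℝ) (w : Fld) : Fld := fun f h => g f * w f h * g (nb f h)


/-- gauge covariance of `A` (only `g (nb f h) ^ 2 = 1` at the given face is needed) -/
theorem A_gauge (g : Face → ℝ) (w φ : Fld) (f : Face) (h : Fin 4)
    (hg : g (nb f h) ^ 2 = 1) :
    A (gw g w) (fun f h => g f * φ f h) f h = g f * A w φ f h := by
  simp only [A, Y, A0_smul, gw]
  linear_combination (sg h * g f * w f h * φ (nb f h) (op h)) * hg

/-- changing the weights locally -/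
theorem A_congr {w w' : Fld} (φ : Fld) (f : Face) (h : Fin 4) (hw : w f h = w' f h) :
    A w φ f h = A w' φ f h := by simp only [A, Y, hw]

theorem A_congr_field (w : Fld) {φ φ' : Fld} (f : Face) (h : Fin 4)
    (h0 : φ f = φ' f) (h1 : φ (nb f h) (op h) = φ' (nb f h) (op h)) :
    A w φ f h = A w φ' f h := by simp only [A, Y, h0, h1]

/-! ### the adjugate -/

/-- constant weights -/
def cst (x : ℝ) : Fld := fun _ _ => x

theorem sym_cst (x : ℝ) : Sym (cst x) := fun _ _ => rfl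

/-- the adjugate of the plane operator with constant weight `x` -/
def B (x : ℝ) (ψ : Fld) (f : Face) (h : Fin 4) : ℝ :=
  match h with
  | 0 => x * (ψ (f.1 + 1, f.2) 0 - ψ (f.1 - 1, f.2) 0)
      + (x * ψ (f.1 - 1, f.2) 1 + x * ψ (f.1, f.2 - 1) 1 + x ^ 2 * ψ (f.1 - 1, f.2 - 1) 1
          - ψ f 1)
      + ((1 - x ^ 2) * ψ f 2 - (x + x ^ 3) * ψ (f.1, f.2 - 1) 2
          - x ^ 2 * ψ (f.1 - 1, f.2 - 1) 2 - x ^ 2 * ψ (f.1 + 1, f.2 - 1) 2)
      + (x * ψ (f.1 + 1, f.2) 3 + x * ψ (f.1, f.2 - 1) 3 + x ^ 2 * ψ (f.1 + 1, f.2 - 1) 3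
          - ψ f 3)
  | 1 => (ψ f 0 - x * ψ (f.1, f.2 + 1) 0 - x * ψ (f.1 + 1, f.2) 0
          - x ^ 2 * ψ (f.1 + 1, f.2 + 1) 0)
      + x * (ψ (f.1, f.2 + 1) 1 - ψ (f.1, f.2 - 1) 1)
      + (x * ψ (f.1 + 1, f.2) 2 + x * ψ (f.1, f.2 - 1) 2 + x ^ 2 * ψ (f.1 + 1, f.2 - 1) 2
          - ψ f 2)
      + ((1 - x ^ 2) * ψ f 3 - (x + x ^ 3) * ψ (f.1 + 1, f.2) 3
          - x ^ 2 * ψ (f.1 + 1, f.2 + 1) 3 - x ^ 2 * ψ (f.1 + 1, f.2 - 1) 3)
  | 2 => ((x ^ 2 - 1) * ψ f 0 + (x + x ^ 3) * ψ (f.1, f.2 + 1) 0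
          + x ^ 2 * ψ (f.1 - 1, f.2 + 1) 0 + x ^ 2 * ψ (f.1 + 1, f.2 + 1) 0)
      + (ψ f 1 - x * ψ (f.1 - 1, f.2) 1 - x * ψ (f.1, f.2 + 1) 1
          - x ^ 2 * ψ (f.1 - 1, f.2 + 1) 1)
      + x * (ψ (f.1 - 1, f.2) 2 - ψ (f.1 + 1, f.2) 2)
      + (x * ψ (f.1, f.2 + 1) 3 + x * ψ (f.1 + 1, f.2) 3 + x ^ 2 * ψ (f.1 + 1, f.2 + 1) 3
          - ψ f 3)
  | 3 => (ψ f 0 - x * ψ (f.1 - 1, f.2) 0 - x * ψ (f.1, f.2 + 1) 0
          - x ^ 2 * ψ (f.1 - 1, f.2 + 1) 0)
      + ((x ^ 2 - 1) * ψ f 1 + (x + x ^ 3) * ψ (f.1 - 1, f.2) 1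
          + x ^ 2 * ψ (f.1 - 1, f.2 + 1) 1 + x ^ 2 * ψ (f.1 - 1, f.2 - 1) 1)
      + (ψ f 2 - x * ψ (f.1 - 1, f.2) 2 - x * ψ (f.1, f.2 - 1) 2
          - x ^ 2 * ψ (f.1 - 1, f.2 - 1) 2)
      + x * (ψ (f.1, f.2 - 1) 3 - ψ (f.1, f.2 + 1) 3)

/-- `- Δ φ`, componentwise: `4 φ f h - ∑ φ (f ± e) h` -/
def Lap (φ : Fld) (f : Face) (h : Fin 4) : ℝ :=
  4 * φ f h - (φ (f.1 + 1, f.2) h + φ (f.1 - 1, f.2) h + φ (f.1, f.2 + 1) h
    + φ (f.1, f.2 - 1) h)

/-- **adjugate identity** for arbitrary constant weight `x` -/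
theorem B_A (x : ℝ) (φ : Fld) (f : Face) (h : Fin 4) :
    B x (A (cst x) φ) f h = x * (1 - x ^ 2) * Lap φ f h + (x ^ 2 + 2 * x - 1) ^ 2 * φ f h := by
  obtain ⟨i, j⟩ := f
  fin_cases h
  · simp only [B, Lap, A_S, A_E, A_N, A_W, cst, add_sub_cancel_right, sub_add_cancel,
      Fin.zero_eta, Fin.mk_one, Fin.reduceFinMk]
    ring
  · simp only [B, Lap, A_S, A_E, A_N, A_W, cst, add_sub_cancel_right, sub_add_cancel,
      Fin.zero_eta, Fin.mk_one, Fin.reduceFinMk]
    ring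
  · simp only [B, Lap, A_S, A_E, A_N, A_W, cst, add_sub_cancel_right, sub_add_cancel,
      Fin.zero_eta, Fin.mk_one, Fin.reduceFinMk]
    ring
  · simp only [B, Lap, A_S, A_E, A_N, A_W, cst, add_sub_cancel_right, sub_add_cancel,
      Fin.zero_eta, Fin.mk_one, Fin.reduceFinMk]
    ring

/-- the other order: `A (B ψ) = x (1 - x²) (-Δ ψ) + (x² + 2x - 1)² ψ` -/
theorem A_B (x : ℝ) (ψ : Fld) (f : Face) (h : Fin 4) :
    A (cst x) (B x ψ) f h = x * (1 - x ^ 2) * Lap ψ f h + (x ^ 2 + 2 * x - 1) ^ 2 * ψ f h := by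
  obtain ⟨i, j⟩ := f
  fin_cases h
  · simp only [B, Lap, A_S, A_E, A_N, A_W, cst, add_sub_cancel_right, sub_add_cancel,
      Fin.zero_eta, Fin.mk_one, Fin.reduceFinMk]
    ring
  · simp only [B, Lap, A_S, A_E, A_N, A_W, cst, add_sub_cancel_right, sub_add_cancel,
      Fin.zero_eta, Fin.mk_one, Fin.reduceFinMk]
    ring
  · simp only [B, Lap, A_S, A_E, A_N, A_W, cst, add_sub_cancel_right, sub_add_cancel,
      Fin.zero_eta, Fin.mk_one, Fin.reduceFinMk]
    ring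
  · simp only [B, Lap, A_S, A_E, A_N, A_W, cst, add_sub_cancel_right, sub_add_cancel,
      Fin.zero_eta, Fin.mk_one, Fin.reduceFinMk]
    ring

/-- `c0 = x (1 - x²) = 2 x²` at criticality -/
def c0 : ℝ := xc * (1 - xc ^ 2)

theorem c0_eq : c0 = 2 * xc ^ 2 := by unfold c0; linear_combination (-xc) * xc_sq

theorem c0_pos : 0 < c0 := by rw [c0_eq]; have := xc_pos; positivity

/-- **adjugate identity at criticality** -/
theorem B_A_xc (φ : Fld) (f : Face) (h : Fin 4) :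
    B xc (A (cst xc) φ) f h = c0 * Lap φ f h := by
  rw [B_A, c0]
  linear_combination ((xc ^ 2 + 2 * xc - 1) * φ f h) * xc_sq

theorem A_B_xc (φ : Fld) (f : Face) (h : Fin 4) :
    A (cst xc) (B xc φ) f h = c0 * Lap φ f h := by
  rw [A_B, c0]
  linear_combination ((xc ^ 2 + 2 * xc - 1) * φ f h) * xc_sq

/-- `B` has range one (sup norm) -/
theorem B_congr (x : ℝ) {ψ ψ' : Fld} (f : Face)
    (hψ : ∀ a b : ℤ, |a| ≤ 1 → |b| ≤ 1 → ψ (f.1 + a, f.2 + b) = ψ' (f.1 + a, f.2 + b)) (h : Fin 4) :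
    B x ψ f h = B x ψ' f h := by
  have h00 : ψ f = ψ' f := by simpa using hψ 0 0 (by norm_num) (by norm_num)
  have h10 : ψ (f.1 + 1, f.2) = ψ' (f.1 + 1, f.2) := by
    simpa [sub_eq_add_neg] using hψ 1 0 (by norm_num) (by norm_num)
  have hm0 : ψ (f.1 - 1, f.2) = ψ' (f.1 - 1, f.2) := by
    simpa [sub_eq_add_neg] using hψ (-1) 0 (by norm_num) (by norm_num)
  have h01 : ψ (f.1, f.2 + 1) = ψ' (f.1, f.2 + 1) := by
    simpa [sub_eq_add_neg] using hψ 0 1 (by norm_num) (by norm_num)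
  have h0m : ψ (f.1, f.2 - 1) = ψ' (f.1, f.2 - 1) := by
    simpa [sub_eq_add_neg] using hψ 0 (-1) (by norm_num) (by norm_num)
  have h11 : ψ (f.1 + 1, f.2 + 1) = ψ' (f.1 + 1, f.2 + 1) := by
    simpa [sub_eq_add_neg] using hψ 1 1 (by norm_num) (by norm_num)
  have h1m : ψ (f.1 + 1, f.2 - 1) = ψ' (f.1 + 1, f.2 - 1) := by
    simpa [sub_eq_add_neg] using hψ 1 (-1) (by norm_num) (by norm_num)
  have hm1 : ψ (f.1 - 1, f.2 + 1) = ψ' (f.1 - 1, f.2 + 1) := by
    simpa [sub_eq_add_neg] using hψ (-1) 1 (by norm_num) (by norm_num)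
  have hmm : ψ (f.1 - 1, f.2 - 1) = ψ' (f.1 - 1, f.2 - 1) := by
    simpa [sub_eq_add_neg] using hψ (-1) (-1) (by norm_num) (by norm_num)
  fin_cases h <;> simp only [B, h00, h10, hm0, h01, h0m, h11, h1m, hm1, hmm]

theorem B_add (x : ℝ) (φ ψ : Fld) (f : Face) (h : Fin 4) :
    B x (fun f h => φ f h + ψ f h) f h = B x φ f h + B x ψ f h := by
  fin_cases h <;> simp only [B] <;> ring

theorem B_smul (x c : ℝ) (φ : Fld) (f : Face) (h : Fin 4) :
    B x (fun f h => c * φ f h) f h = c * B x φ f h := by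
  fin_cases h <;> simp only [B] <;> ring

/-- `B` kills constants at criticality -/
theorem B_const (p : Fin 4 → ℝ) (f : Face) (h : Fin 4) : B xc (fun _ => p) f h = 0 := by
  have hx := xc_sq
  fin_cases h <;> simp only [B]
  · linear_combination (p 1 + p 3 - (1 + xc) * p 2) * hx
  · linear_combination (-p 0 + p 2 - (1 + xc) * p 3) * hx
  · linear_combination (-p 1 + p 3 + (1 + xc) * p 0) * hx
  · linear_combination (-p 0 - p 2 + (1 + xc) * p 1) * hx

/-- signed Laplacian of a background: `4 φ f h - ∑_k (w f k / x) φ (nb f k) h` -/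
def LapW (w φ : Fld) (f : Face) (h : Fin 4) : ℝ :=
  4 * φ f h - ∑ k, w f k / xc * φ (nb f k) h

/-- **adjugate identity, local, in a gauge**: near `f` the weights are `x g g`, `g = ±1`. -/
theorem B_A_gauge (w φ : Fld) (g : Face → ℝ) (f : Face)
    (hg : ∀ f', g f' ^ 2 = 1)
    (hw : ∀ a b : ℤ, |a| ≤ 1 → |b| ≤ 1 → ∀ h, w (f.1 + a, f.2 + b) h
      = xc * (g (f.1 + a, f.2 + b) * g (nb (f.1 + a, f.2 + b) h))) (h : Fin 4) :
    g f * B xc (fun f' h' => g f' * A w φ f' h') f h = c0 * LapW w φ f h := by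
  have e : B xc (fun f' h' => g f' * A w φ f' h') f h
      = B xc (A (cst xc) (fun f' h' => g f' * φ f' h')) f h := by
    apply B_congr
    intro a b ha hb
    funext k
    have h1 := hw a b ha hb k
    have h2 := hg (f.1 + a, f.2 + b)
    simp only [A, Y, A0_smul, h1, cst]
    linear_combination (sg k * xc * g (nb (f.1 + a, f.2 + b) k)
      * φ (nb (f.1 + a, f.2 + b) k) (op k)) * h2
  rw [e, B_A_xc]
  have hx := ne_of_gt xc_pos
  have w0 : ∀ k, w f k / xc = g f * g (nb f k) := by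
    intro k
    have := hw 0 0 (by norm_num) (by norm_num) k
    simp only [add_zero] at this
    rw [show ((f.1, f.2) : Face) = f from rfl] at this
    rw [this]; field_simp
  have hf := hg f
  simp only [LapW, Lap, w0, Fin.sum_univ_four, nb_zero, nb_one, nb_two, nb_three]
  linear_combination (4 * c0 * φ f h) * hf

/-! ### local gauges -/


/-- holonomy of the weights around the primal vertex at the upper right corner of the face `f` -/
def hol (w : Fld) (f : Face) : ℝ := w f 1 * w (nb f 1) 2 * w (nb f 2) 1 * w f 2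


end Crest.Agent.R165.Tr2x40
end
private theorem rz_682265fe28 : type_of% @_root_.Crest.Agent.R165.Tr2x40.B.eq_1 := @_root_.Crest.Agent.R165.Tr2x40.B.eq_1 -- L130
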