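import Mathlib
import Crest.Agent.R165.Tr1_40
import Crest.Agent.R165.PkD_583

-- ▼ part R165/Sq1_54
section

/-!
Row 165 (helper54): THE SQUARE TRICK, part 1 (types of `Tr1_40`).  Pointwise algebra: per-face
inequality, one-form of squares `om`, its divergence and curl; ℓ¹ bounds.
-/

set_option autoImplicit false

noncomputable section

namespace Crest.Agent.R165.Sqx54

open Crest.Agent.R165.Tr1x40 Finset

theorem s2_gt : 1.41 < Real.sqrt 2 := by
  rw [show (1.41:ℝ) = Real.sqrt (1.41^2) by rw [Real.sqrt_sq (by norm_num)]]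
  exact Real.sqrt_lt_sqrt (by norm_num) (by norm_num)
theorem s2_lt : Real.sqrt 2 < 1.42 := by
  rw [show (1.42:ℝ) = Real.sqrt (1.42^2) by rw [Real.sqrt_sq (by norm_num)]]
  exact Real.sqrt_lt_sqrt (by norm_num) (by norm_num)

/-- Pure algebra behind the per-face inequality. -/
theorem face_alg (s S E N W gE gN h1 h2 P Q D1 D2 : ℝ) (hs : s * s = 2) (hs0 : 1.41 < s)
    (hs1 : s < 1.42) (H1 : h1 = E + (s / 2) * (S + N)) (H2 : h2 = W + (s / 2) * (N - S))
    (HP : P = (s + 1) * ((-S + N + W) - gE)) (HQ : Q = (s + 1) * ((-S - E + W) - gN))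
    (hD1 : |E ^ 2 - P ^ 2| ≤ D1) (hD2 : |N ^ 2 - Q ^ 2| ≤ D2) :
    S ^ 2 + E ^ 2 + N ^ 2 + W ^ 2
      ≤ 8 * (D1 + D2) + 8000 * (h1 ^ 2 + h2 ^ 2 + gE ^ 2 + gN ^ 2) := by
  obtain ⟨T, hT⟩ : ∃ T, T = h1 ^ 2 + h2 ^ 2 + gE ^ 2 + gN ^ 2 := ⟨_, rfl⟩
  rw [← hT]
  have q1 := sq_nonneg h1
  have q2 := sq_nonneg h2
  have q3 := sq_nonneg gE
  have q4 := sq_nonneg gN
  obtain ⟨r3, hr3⟩ : ∃ r, r = W + P := ⟨_, rfl⟩
  obtain ⟨r4, hr4⟩ : ∃ r, r = S + (s / 2) * (E + P) := ⟨_, rfl⟩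
  obtain ⟨r1, hr1⟩ : ∃ r, r = N - (s / 2) * (P - E) := ⟨_, rfl⟩
  obtain ⟨r2, hr2⟩ : ∃ r, r = Q + (s / 2) * (E + P) := ⟨_, rfl⟩
  have e3 : r3 = (s + 2) * h2 - (s + 1) * gE := by
    rw [hr3, H2, HP]; linear_combination (-(1/2) * (N - S)) * hs
  have e4 : r4 = (s / 2) * (h1 - h2 + r3) := by
    rw [hr4, hr3, H1, H2]; linear_combination (-(1/2) * S) * hs
  have e1 : r1 = (s / 2) * (h1 + h2 - r3) := by
    rw [hr1, hr3, H1, H2]; linear_combination (-(1/2) * N) * hs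
  have e2 : r2 = -((s + 1) * h1) + (s + 1) * h2 - (s + 1) * gN + r4 := by
    rw [hr2, hr4, HQ, H1, H2]; linear_combination S * hs
  have hs2 : (s + 1) ^ 2 ≤ 5.9 := by nlinarith
  have hs3 : (s + 2) ^ 2 ≤ 12 := by nlinarith
  have tri : ∀ a b c : ℝ, (a + b + c) ^ 2 ≤ 3 * (a ^ 2 + b ^ 2 + c ^ 2) := fun a b c => by
    linarith [sq_nonneg (a - b), sq_nonneg (a - c), sq_nonneg (b - c)]
  have two : ∀ a b : ℝ, (a + b) ^ 2 ≤ 2 * (a ^ 2 + b ^ 2) := fun a b => by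
    linarith [sq_nonneg (a - b)]
  have b3 : r3 ^ 2 ≤ 24 * T := by
    have k := two ((s + 2) * h2) (-((s + 1) * gE))
    have k1 : ((s + 2) * h2) ^ 2 ≤ 12 * h2 ^ 2 := by
      rw [mul_pow]; exact mul_le_mul_of_nonneg_right hs3 q2
    have k2 : ((s + 1) * gE) ^ 2 ≤ 5.9 * gE ^ 2 := by
      rw [mul_pow]; exact mul_le_mul_of_nonneg_right hs2 q3
    have k3 : r3 ^ 2 = ((s + 2) * h2 + (-((s + 1) * gE))) ^ 2 := by rw [e3]; ring
    rw [neg_sq] at k
    rw [k3]; linarith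
  have b4 : r4 ^ 2 ≤ 38 * T := by
    have : r4 ^ 2 = (1/2) * (h1 + (-h2) + r3) ^ 2 := by
      rw [e4]; linear_combination ((1/4) * (h1 - h2 + r3)^2) * hs
    have k := tri h1 (-h2) r3
    rw [neg_sq] at k
    linarith
  have b1 : r1 ^ 2 ≤ 38 * T := by
    have : r1 ^ 2 = (1/2) * (h1 + h2 + (-r3)) ^ 2 := by
      rw [e1]; linear_combination ((1/4) * (h1 + h2 - r3)^2) * hs
    have k := tri h1 h2 (-r3)
    rw [neg_sq] at k
    linarith
  have b2 : r2 ^ 2 ≤ 200 * T := by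
    have k1 : ((s + 1) * h1) ^ 2 ≤ 5.9 * h1 ^ 2 := by
      rw [mul_pow]; exact mul_le_mul_of_nonneg_right hs2 q1
    have k2 : ((s + 1) * h2) ^ 2 ≤ 5.9 * h2 ^ 2 := by
      rw [mul_pow]; exact mul_le_mul_of_nonneg_right hs2 q2
    have k3 : ((s + 1) * gN) ^ 2 ≤ 5.9 * gN ^ 2 := by
      rw [mul_pow]; exact mul_le_mul_of_nonneg_right hs2 q4
    have k := tri (-((s + 1) * h1)) ((s + 1) * h2) (-((s + 1) * gN))
    have k' := two (-((s + 1) * h1) + (s + 1) * h2 + -((s + 1) * gN)) r4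
    rw [neg_sq, neg_sq] at k
    have : r2 = -((s + 1) * h1) + (s + 1) * h2 + -((s + 1) * gN) + r4 := by rw [e2]; ring
    rw [this]; linarith
  -- the light part
  obtain ⟨m, hm⟩ : ∃ m, m = E ^ 2 + P ^ 2 := ⟨_, rfl⟩
  have hm0 : 0 ≤ m := by rw [hm]; positivity
  have hEP : N ^ 2 - Q ^ 2 = -(2 * E * P) + s * (r1 * (P - E)) + s * (r2 * (E + P)) + r1 ^ 2 - r2 ^ 2 := by
    have a1 : N = (s / 2) * (P - E) + r1 := by rw [hr1]; ring
    have a2 : Q = -((s / 2) * (E + P)) + r2 := by rw [hr2]; ring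
    rw [a1, a2]; linear_combination (-(E * P)) * hs
  have amgm : ∀ u r : ℝ, |s * (r * u)| ≤ u ^ 2 / 8 + 4 * r ^ 2 := by
    intro u r
    have k1 : (u + 4 * s * r) ^ 2 / 8 = u ^ 2 / 8 + 4 * r ^ 2 + s * (r * u) := by
      linear_combination (2 * r ^ 2) * hs
    have k2 : (u - 4 * s * r) ^ 2 / 8 = u ^ 2 / 8 + 4 * r ^ 2 - s * (r * u) := by
      linear_combination (2 * r ^ 2) * hs
    have k3 := sq_nonneg (u + 4 * s * r)
    have k4 := sq_nonneg (u - 4 * s * r)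
    rw [abs_le]; constructor <;> linarith
  have c1 : |s * (r1 * (P - E))| ≤ (P - E) ^ 2 / 8 + 4 * r1 ^ 2 := amgm _ _
  have c2 : |s * (r2 * (E + P))| ≤ (E + P) ^ 2 / 8 + 4 * r2 ^ 2 := amgm _ _
  have c3 : |2 * E * P| ≤ D2 + m / 4 + 5 * r1 ^ 2 + 5 * r2 ^ 2 := by
    rw [abs_le] at c1 c2 hD2 ⊢
    have : (P - E) ^ 2 + (E + P) ^ 2 = 2 * m := by rw [hm]; ring
    have z1 := sq_nonneg r1
    have z2 := sq_nonneg r2
    constructor <;> linarith [c1.1, c1.2, c2.1, c2.2, hD2.1, hD2.2]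
  have c4 : m ≤ |E ^ 2 - P ^ 2| + |2 * E * P| := by
    have h : m ^ 2 ≤ (|E ^ 2 - P ^ 2| + |2 * E * P|) ^ 2 := by
      have u1 := sq_abs (E ^ 2 - P ^ 2)
      have u2 := sq_abs (2 * E * P)
      have u3 := mul_nonneg (abs_nonneg (E ^ 2 - P ^ 2)) (abs_nonneg (2 * E * P))
      have u4 : m ^ 2 = (E ^ 2 - P ^ 2) ^ 2 + (2 * E * P) ^ 2 := by rw [hm]; ring
      have u5 : (|E ^ 2 - P ^ 2| + |2 * E * P|) ^ 2 = |E ^ 2 - P ^ 2| ^ 2 + |2 * E * P| ^ 2
        + 2 * (|E ^ 2 - P ^ 2| * |2 * E * P|) := by ring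
      linarith
    exact (sq_le_sq₀ hm0 (by positivity)).1 h
  have c5 : m ≤ 2 * (D1 + D2) + 7 * (r1 ^ 2 + r2 ^ 2) := by
    have z1 := sq_nonneg r1
    have z2 := sq_nonneg r2
    have d1 := (abs_nonneg _).trans hD1
    have d2 := (abs_nonneg _).trans hD2
    linarith
  have fS : S ^ 2 ≤ (E + P) ^ 2 + 2 * r4 ^ 2 := by
    have a4 : S = -((s / 2) * (E + P)) + r4 := by rw [hr4]; ring
    have k := two (-((s / 2) * (E + P))) r4
    have k2 : (-((s / 2) * (E + P))) ^ 2 = (E + P) ^ 2 / 2 := by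
      linear_combination ((E + P) ^ 2 / 4) * hs
    rw [← a4] at k
    linarith
  have fN : N ^ 2 ≤ (P - E) ^ 2 + 2 * r1 ^ 2 := by
    have a1 : N = (s / 2) * (P - E) + r1 := by rw [hr1]; ring
    have k := two ((s / 2) * (P - E)) r1
    have k2 : ((s / 2) * (P - E)) ^ 2 = (P - E) ^ 2 / 2 := by
      linear_combination ((P - E) ^ 2 / 4) * hs
    rw [← a1] at k
    linarith
  have fW : W ^ 2 ≤ 2 * P ^ 2 + 2 * r3 ^ 2 := by
    have a3 : W = -P + r3 := by rw [hr3]; ring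
    have k := two (-P) r3
    rw [← a3, neg_sq] at k
    linarith
  have z0 := sq_nonneg E
  have : (P - E) ^ 2 + (E + P) ^ 2 = 2 * m := by rw [hm]; ring
  have hEm : E ^ 2 + 2 * P ^ 2 ≤ 2 * m := by rw [hm]; linarith
  linarith


theorem xc2_lo : (0.15:ℝ) ≤ xc ^ 2 := by rw [xc_sq']; linarith [s2_lt]
theorem xc2_hi : xc ^ 2 ≤ (0.18:ℝ) := by rw [xc_sq']; linarith [s2_gt]

/-- the one-form of squares -/
def om (w φ : Fld) (f : Face) (h : Fin 4) : ℝ :=
  (1 - w f h ^ 2) * (φ f h ^ 2 - φ (nb f h) (op h) ^ 2)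

theorem om_bar {w : Fld} (hw : Sym w) (φ : Fld) (f : Face) (h : Fin 4) :
    om w φ (nb f h) (op h) = - om w φ f h := by
  unfold om; rw [nb_nb_op, op_op, hw f h]; ring

theorem D_bound {y a r u v : ℝ} (hy : y ^ 2 = xc ^ 2 ∨ y = 0) (hr : r = a + y * v ∨ r = a - y * v) :
    |u ^ 2 - ((Real.sqrt 2 + 1) * (a - r)) ^ 2|
      ≤ 2 * |(1 - y ^ 2) * (u ^ 2 - v ^ 2)| + (if y = 0 then u ^ 2 else 0) := by
  rcases eq_or_ne y 0 with h0 | h0
  · have : a - r = 0 := by rcases hr with hr | hr <;> rw [hr, h0] <;> ring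
    rw [this, if_pos h0]
    have e : u ^ 2 - ((Real.sqrt 2 + 1) * 0) ^ 2 = u ^ 2 := by ring
    rw [e, abs_of_nonneg (sq_nonneg u)]
    have := abs_nonneg ((1 - y ^ 2) * (u ^ 2 - v ^ 2))
    linarith
  · have hy2 : y ^ 2 = xc ^ 2 := hy.resolve_right h0
    have h4 : (0:ℝ) ≤ 1 - xc ^ 2 := by linarith [xc2_hi]
    have hi : (Real.sqrt 2 + 1) ^ 2 * xc ^ 2 = 1 := by
      rw [xc_sq']; linear_combination (-1 - 2 * Real.sqrt 2) * sq2
    have hv : ((Real.sqrt 2 + 1) * (a - r)) ^ 2 = v ^ 2 := by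
      rcases hr with hr | hr <;> rw [hr]
      · have : ((Real.sqrt 2 + 1) * (a - (a + y * v))) ^ 2
            = ((Real.sqrt 2 + 1) ^ 2 * y ^ 2) * v ^ 2 := by ring
        rw [this, hy2, hi]; ring
      · have : ((Real.sqrt 2 + 1) * (a - (a - y * v))) ^ 2
            = ((Real.sqrt 2 + 1) ^ 2 * y ^ 2) * v ^ 2 := by ring
        rw [this, hy2, hi]; ring
    rw [hv, if_neg h0, hy2, abs_mul, abs_of_nonneg h4]
    have := abs_nonneg (u ^ 2 - v ^ 2)
    nlinarith [xc2_hi]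

/-- **the per-face inequality** -/
theorem face {w : Fld} (hp : IsPlus w) (φ : Fld) (f : Face) :
    nsq (φ f) ≤ 16 * (|om w φ f 1| + |om w φ f 2|) + 8 * bd w φ f
      + 8000 * (2 * hv (φ f) + nsq (A w φ f)) := by
  have k1 := D_bound (u := φ f 1) (a := A0 (φ f) 1) (r := A w φ f 1) (v := φ (f.1+1, f.2) 3)
    (hp f 1) (Or.inl (by rw [A_E]; simp))
  have k2 := D_bound (u := φ f 2) (a := A0 (φ f) 2) (r := A w φ f 2) (v := φ (f.1, f.2+1) 0)
    (hp f 2) (Or.inr (by rw [A_N]; simp))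
  have k := face_alg (Real.sqrt 2) (φ f 0) (φ f 1) (φ f 2) (φ f 3) (A w φ f 1) (A w φ f 2)
    _ _ _ _ _ _ sq2 s2_gt s2_lt rfl rfl rfl rfl k1 k2
  have hg : A w φ f 1 ^ 2 + A w φ f 2 ^ 2 ≤ nsq (A w φ f) := by
    rw [nsq_eq]; nlinarith [sq_nonneg (A w φ f 0), sq_nonneg (A w φ f 3)]
  have hb : (if w f 1 = 0 then φ f 1 ^ 2 else 0) + (if w f 2 = 0 then φ f 2 ^ 2 else 0)
      ≤ bd w φ f := by
    unfold bd
    rw [Fin.sum_univ_four]
    have z1 : 0 ≤ (if w f 0 = 0 then φ f 0 ^ 2 else 0) := by positivity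
    have z2 : 0 ≤ (if w f 3 = 0 then φ f 3 ^ 2 else 0) := by positivity
    linarith
  have hh : (φ f 1 + Real.sqrt 2 / 2 * (φ f 0 + φ f 2)) ^ 2
      + (φ f 3 + Real.sqrt 2 / 2 * (φ f 2 - φ f 0)) ^ 2 = 2 * hv (φ f) := by
    simp only [hv, nsq_eq, cyc, div_sq2]
    linear_combination ((1/2) * (φ f 0 ^ 2 + φ f 2 ^ 2)) * sq2
  rw [nsq_eq]
  have e1 : om w φ f 1 = (1 - w f 1 ^ 2) * (φ f 1 ^ 2 - φ (f.1 + 1, f.2) 3 ^ 2) := rfl
  have e2 : om w φ f 2 = (1 - w f 2 ^ 2) * (φ f 2 ^ 2 - φ (f.1, f.2 + 1) 0 ^ 2) := rfl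
  rw [e1, e2]
  linarith

/-- curl of `om` at the primal vertex `f + (1,1)` -/
def cl (w φ : Fld) (f : Face) : ℝ :=
  om w φ f 1 + om w φ (f.1+1, f.2) 2 - om w φ (f.1, f.2+1) 1 - om w φ f 2

theorem prod_le (t : ℝ) (ht : 0 < t) (c d : ℝ) : |d ^ 2 + 2 * (c * d)| ≤ (1 + t) * d ^ 2 + c ^ 2 / t := by
  have h : 0 ≤ (c - t * d) ^ 2 / t := by positivity
  have h' : 0 ≤ (c + t * d) ^ 2 / t := by positivity
  have e : (c - t * d) ^ 2 / t = c ^ 2 / t - 2 * (c * d) + t * d ^ 2 := by field_simp; ring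
  have e' : (c + t * d) ^ 2 / t = c ^ 2 / t + 2 * (c * d) + t * d ^ 2 := by field_simp; ring
  rw [abs_le]; constructor
  · nlinarith [sq_nonneg d]
  · nlinarith [sq_nonneg d]

theorem w_sq_le {w : Fld} (hp : IsPlus w) (f : Face) (h : Fin 4) : w f h ^ 2 ≤ 1 := by
  rcases hp f h with h0 | h0
  · rw [h0]; linarith [xc2_hi]
  · rw [h0]; norm_num

theorem sq_add_mul_le {y p q : ℝ} (hy : y ^ 2 ≤ 1) : (p + y * q) ^ 2 ≤ 2 * (p ^ 2 + q ^ 2) := by
  nlinarith [sq_nonneg (p - y * q), mul_le_mul_of_nonneg_right hy (sq_nonneg q)]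

theorem sq_sub_mul_le {y p q : ℝ} (hy : y ^ 2 ≤ 1) : (p - y * q) ^ 2 ≤ 2 * (p ^ 2 + q ^ 2) := by
  nlinarith [sq_nonneg (p + y * q), mul_le_mul_of_nonneg_right hy (sq_nonneg q)]

/-- curl bound -/
theorem cl_le {w : Fld} (hs : Sym w) (hp : IsPlus w) (φ : Fld) (f : Face) {t : ℝ} (ht : 0 < t) :
    |cl w φ f| ≤ 2 * (1 + t) * (nsq (A w φ f) + nsq (A w φ (f.1+1, f.2))
        + nsq (A w φ (f.1, f.2+1)) + nsq (A w φ (f.1+1, f.2+1)))
      + (4 / t) * (nsq (φ f) + nsq (φ (f.1+1, f.2)) + nsq (φ (f.1, f.2+1))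
        + nsq (φ (f.1+1, f.2+1))) := by
  have a1 := A_E w φ f
  have a2 := A_N w φ f
  have a3 := A_N w φ (f.1+1, f.2)
  have a4 := A_W w φ (f.1+1, f.2)
  have a5 := A_S w φ (f.1+1, f.2+1)
  have a6 := A_W w φ (f.1+1, f.2+1)
  have a7 := A_S w φ (f.1, f.2+1)
  have a8 := A_E w φ (f.1, f.2+1)
  have s1 : w (f.1+1, f.2) 3 = w f 1 := hs f 1
  have s2 : w (f.1, f.2+1) 0 = w f 2 := hs f 2
  have s3 : w (f.1+1, f.2+1) 0 = w (f.1+1, f.2) 2 := hs (f.1+1, f.2) 2
  have s4 : w (f.1+1, f.2+1) 3 = w (f.1, f.2+1) 1 := hs (f.1, f.2+1) 1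
  simp only [add_sub_cancel_right, s1, s2, s3, s4] at a1 a2 a3 a4 a5 a6 a7 a8
  have y1 := w_sq_le hp f 1
  have y2 := w_sq_le hp f 2
  have y3 := w_sq_le hp (f.1+1, f.2) 2
  have y4 := w_sq_le hp (f.1, f.2+1) 1
  have e : cl w φ f =
      -((A w φ f 1 - A w φ f 2) ^ 2 + 2 * ((-(φ f 1 + w f 1 * φ (f.1+1, f.2) 3)) * (A w φ f 1 - A w φ f 2)))
      + ((A w φ (f.1+1, f.2) 2 - A w φ (f.1+1, f.2) 3) ^ 2
        + 2 * ((-(φ (f.1+1, f.2) 3 + w f 1 * φ f 1)) * (A w φ (f.1+1, f.2) 2 - A w φ (f.1+1, f.2) 3)))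
      + -((-(A w φ (f.1+1, f.2+1) 0 + A w φ (f.1+1, f.2+1) 3)) ^ 2
        + 2 * ((φ (f.1+1, f.2+1) 3 - w (f.1, f.2+1) 1 * φ (f.1, f.2+1) 1)
          * (-(A w φ (f.1+1, f.2+1) 0 + A w φ (f.1+1, f.2+1) 3))))
      + ((A w φ (f.1, f.2+1) 0 - A w φ (f.1, f.2+1) 1) ^ 2
        + 2 * ((-(φ (f.1, f.2+1) 1 - w (f.1, f.2+1) 1 * φ (f.1+1, f.2+1) 3))
          * (A w φ (f.1, f.2+1) 0 - A w φ (f.1, f.2+1) 1))) := by
    rw [a1, a2, a3, a4, a5, a6, a7, a8]
    simp only [cl, om, nb_one, nb_two, op_one, op_two]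
    ring
  have b1 := prod_le t ht (-(φ f 1 + w f 1 * φ (f.1+1, f.2) 3)) (A w φ f 1 - A w φ f 2)
  have b2 := prod_le t ht (-(φ (f.1+1, f.2) 3 + w f 1 * φ f 1))
    (A w φ (f.1+1, f.2) 2 - A w φ (f.1+1, f.2) 3)
  have b3 := prod_le t ht (φ (f.1+1, f.2+1) 3 - w (f.1, f.2+1) 1 * φ (f.1, f.2+1) 1)
    (-(A w φ (f.1+1, f.2+1) 0 + A w φ (f.1+1, f.2+1) 3))
  have b4 := prod_le t ht (-(φ (f.1, f.2+1) 1 - w (f.1, f.2+1) 1 * φ (f.1+1, f.2+1) 3))
    (A w φ (f.1, f.2+1) 0 - A w φ (f.1, f.2+1) 1)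
  have d1 : (A w φ f 1 - A w φ f 2) ^ 2 ≤ 2 * nsq (A w φ f) := by
    rw [nsq_eq]
    linarith [sq_nonneg (A w φ f 1 + A w φ f 2), sq_nonneg (A w φ f 0), sq_nonneg (A w φ f 3)]
  have d2 : (A w φ (f.1+1, f.2) 2 - A w φ (f.1+1, f.2) 3) ^ 2 ≤ 2 * nsq (A w φ (f.1+1, f.2)) := by
    rw [nsq_eq]
    linarith [sq_nonneg (A w φ (f.1+1, f.2) 2 + A w φ (f.1+1, f.2) 3),
      sq_nonneg (A w φ (f.1+1, f.2) 0), sq_nonneg (A w φ (f.1+1, f.2) 1)]
  have d3 : (-(A w φ (f.1+1, f.2+1) 0 + A w φ (f.1+1, f.2+1) 3)) ^ 2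
      ≤ 2 * nsq (A w φ (f.1+1, f.2+1)) := by
    rw [nsq_eq]
    linarith [sq_nonneg (A w φ (f.1+1, f.2+1) 0 - A w φ (f.1+1, f.2+1) 3),
      sq_nonneg (A w φ (f.1+1, f.2+1) 1), sq_nonneg (A w φ (f.1+1, f.2+1) 2)]
  have d4 : (A w φ (f.1, f.2+1) 0 - A w φ (f.1, f.2+1) 1) ^ 2 ≤ 2 * nsq (A w φ (f.1, f.2+1)) := by
    rw [nsq_eq]
    linarith [sq_nonneg (A w φ (f.1, f.2+1) 0 + A w φ (f.1, f.2+1) 1),
      sq_nonneg (A w φ (f.1, f.2+1) 2), sq_nonneg (A w φ (f.1, f.2+1) 3)]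
  have c1 : (-(φ f 1 + w f 1 * φ (f.1+1, f.2) 3)) ^ 2 ≤ 2 * (φ f 1 ^ 2 + φ (f.1+1, f.2) 3 ^ 2) := by
    rw [neg_sq]; exact sq_add_mul_le y1
  have c2 : (-(φ (f.1+1, f.2) 3 + w f 1 * φ f 1)) ^ 2 ≤ 2 * (φ (f.1+1, f.2) 3 ^ 2 + φ f 1 ^ 2) := by
    rw [neg_sq]; exact sq_add_mul_le y1
  have c3 : (φ (f.1+1, f.2+1) 3 - w (f.1, f.2+1) 1 * φ (f.1, f.2+1) 1) ^ 2
      ≤ 2 * (φ (f.1+1, f.2+1) 3 ^ 2 + φ (f.1, f.2+1) 1 ^ 2) := sq_sub_mul_le y4
  have c4 : (-(φ (f.1, f.2+1) 1 - w (f.1, f.2+1) 1 * φ (f.1+1, f.2+1) 3)) ^ 2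
      ≤ 2 * (φ (f.1, f.2+1) 1 ^ 2 + φ (f.1+1, f.2+1) 3 ^ 2) := by
    rw [neg_sq]; exact sq_sub_mul_le y4
  have n1 : φ f 1 ^ 2 ≤ nsq (φ f) := by
    rw [nsq_eq]; linarith [sq_nonneg (φ f 0), sq_nonneg (φ f 2), sq_nonneg (φ f 3)]
  have n2 : φ (f.1+1, f.2) 3 ^ 2 ≤ nsq (φ (f.1+1, f.2)) := by
    rw [nsq_eq]
    linarith [sq_nonneg (φ (f.1+1, f.2) 0), sq_nonneg (φ (f.1+1, f.2) 1), sq_nonneg (φ (f.1+1, f.2) 2)]
  have n3 : φ (f.1+1, f.2+1) 3 ^ 2 ≤ nsq (φ (f.1+1, f.2+1)) := by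
    rw [nsq_eq]
    linarith [sq_nonneg (φ (f.1+1, f.2+1) 0), sq_nonneg (φ (f.1+1, f.2+1) 1),
      sq_nonneg (φ (f.1+1, f.2+1) 2)]
  have n4 : φ (f.1, f.2+1) 1 ^ 2 ≤ nsq (φ (f.1, f.2+1)) := by
    rw [nsq_eq]
    linarith [sq_nonneg (φ (f.1, f.2+1) 0), sq_nonneg (φ (f.1, f.2+1) 2), sq_nonneg (φ (f.1, f.2+1) 3)]
  rw [e]
  clear e a1 a2 a3 a4 a5 a6 a7 a8 s1 s2 s3 s4 y1 y2 y3 y4
  set G1 := nsq (A w φ f)
  set G2 := nsq (A w φ (f.1+1, f.2))
  set G3 := nsq (A w φ (f.1, f.2+1))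
  set G4 := nsq (A w φ (f.1+1, f.2+1))
  set Q1 := nsq (φ f)
  set Q2 := nsq (φ (f.1+1, f.2))
  set Q3 := nsq (φ (f.1, f.2+1))
  set Q4 := nsq (φ (f.1+1, f.2+1))
  have ht' : 0 < 1 / t := by positivity
  generalize (A w φ f 1 - A w φ f 2) = D1 at *
  generalize (A w φ (f.1+1, f.2) 2 - A w φ (f.1+1, f.2) 3) = D2 at *
  generalize (-(A w φ (f.1+1, f.2+1) 0 + A w φ (f.1+1, f.2+1) 3)) = D3 at *
  generalize (A w φ (f.1, f.2+1) 0 - A w φ (f.1, f.2+1) 1) = D4 at *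
  generalize (-(φ f 1 + w f 1 * φ (f.1+1, f.2) 3)) = C1 at *
  generalize (-(φ (f.1+1, f.2) 3 + w f 1 * φ f 1)) = C2 at *
  generalize (φ (f.1+1, f.2+1) 3 - w (f.1, f.2+1) 1 * φ (f.1, f.2+1) 1) = C3 at *
  generalize (-(φ (f.1, f.2+1) 1 - w (f.1, f.2+1) 1 * φ (f.1+1, f.2+1) 3)) = C4 at *
  have tri : |-(D1 ^ 2 + 2 * (C1 * D1)) + (D2 ^ 2 + 2 * (C2 * D2)) + -(D3 ^ 2 + 2 * (C3 * D3))
      + (D4 ^ 2 + 2 * (C4 * D4))| ≤ |D1 ^ 2 + 2 * (C1 * D1)| + |D2 ^ 2 + 2 * (C2 * D2)|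
        + |D3 ^ 2 + 2 * (C3 * D3)| + |D4 ^ 2 + 2 * (C4 * D4)| := by
    refine (abs_add_le _ _).trans (add_le_add ?_ le_rfl)
    refine (abs_add_le _ _).trans (add_le_add ?_ (abs_neg _).le)
    refine (abs_add_le _ _).trans (add_le_add (abs_neg _).le le_rfl)
  refine tri.trans ?_
  have hsum : (1 + t) * (D1 ^ 2 + D2 ^ 2 + D3 ^ 2 + D4 ^ 2) ≤ (1 + t) * (2 * G1 + 2 * G2 + 2 * G4 + 2 * G3) :=
    mul_le_mul_of_nonneg_left (by linarith) (by linarith)
  have csum : (1 / t) * (C1 ^ 2 + C2 ^ 2 + C3 ^ 2 + C4 ^ 2) ≤ (1 / t) * (4 * (Q1 + Q2 + Q3 + Q4)) :=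
    mul_le_mul_of_nonneg_left (by linarith) ht'.le
  have r1 : C1 ^ 2 / t = (1 / t) * C1 ^ 2 := by ring
  have r2 : C2 ^ 2 / t = (1 / t) * C2 ^ 2 := by ring
  have r3 : C3 ^ 2 / t = (1 / t) * C3 ^ 2 := by ring
  have r4 : C4 ^ 2 / t = (1 / t) * C4 ^ 2 := by ring
  rw [r1] at b1
  rw [r2] at b2
  rw [r3] at b3
  rw [r4] at b4
  have r5 : (4 / t) * (Q1 + Q2 + Q3 + Q4) = (1 / t) * (4 * (Q1 + Q2 + Q3 + Q4)) := by ring
  rw [r5]
  linarith

/-- divergence of `om` -/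
def dv (w φ : Fld) (f : Face) : ℝ := ∑ h, om w φ f h

/-- mass of the partners across the zero edges -/
def bd' (w φ : Fld) (f : Face) : ℝ := ∑ h, if w f h = 0 then φ (nb f h) (op h) ^ 2 else 0

theorem bd'_nonneg (w φ : Fld) (f : Face) : 0 ≤ bd' w φ f :=
  sum_nonneg fun h _ => by split_ifs <;> positivity

/-- divergence bound -/
theorem dv_le {w : Fld} (hp : IsPlus w) (φ : Fld) (f : Face) {t : ℝ} (ht : 0 < t) :
    |dv w φ f| ≤ 5 * (1 + t) * nsq (A w φ f) + (30 / t) * nsq (φ f)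
      + 30 * hv (φ f) + 2 * bd w φ f + bd' w φ f := by
  have hx := xc_sq'
  have hpt := pt w φ f
  rw [bd_eq hp φ f] at hpt
  have k : ∀ h, om w φ f h = (2 * Real.sqrt 2 + 2) * (w f h ^ 2 * (φ f h ^ 2 - φ (nb f h) (op h) ^ 2))
      + ((if w f h = 0 then φ f h ^ 2 else 0) - (if w f h = 0 then φ (nb f h) (op h) ^ 2 else 0)) := by
    intro h
    rcases eq_or_ne (w f h) 0 with h0 | h0
    · simp [om, h0]
    · have h1 : w f h ^ 2 = xc ^ 2 := (hp f h).resolve_right h0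
      rw [if_neg h0, if_neg h0]
      unfold om
      rw [h1, hx]
      linear_combination (4 * (φ f h ^ 2 - φ (nb f h) (op h) ^ 2)) * sq2
  have e : dv w φ f = (2 * Real.sqrt 2 + 2) * (∑ h, w f h ^ 2 * (φ f h ^ 2 - φ (nb f h) (op h) ^ 2))
      + (bd w φ f - bd' w φ f) := by
    unfold dv bd bd'
    rw [mul_sum, ← sum_sub_distrib, ← sum_add_distrib]
    exact sum_congr rfl fun h _ => k h
  have hAA : |2 * ∑ h, A0 (φ f) h * A w φ f h| ≤ t * nsq (A w φ f) + nsq (A0 (φ f)) / t := by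
    have h : 0 ≤ nsq (fun h => A0 (φ f) h - t * A w φ f h) / t := div_nonneg (nsq_nonneg _) ht.le
    have h' : 0 ≤ nsq (fun h => A0 (φ f) h + t * A w φ f h) / t := div_nonneg (nsq_nonneg _) ht.le
    have e1 : nsq (fun h => A0 (φ f) h - t * A w φ f h) / t
        = nsq (A0 (φ f)) / t - 2 * ∑ h, A0 (φ f) h * A w φ f h + t * nsq (A w φ f) := by
      simp only [nsq, Fin.sum_univ_four]
      field_simp
      ring
    have e2 : nsq (fun h => A0 (φ f) h + t * A w φ f h) / t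
        = nsq (A0 (φ f)) / t + 2 * ∑ h, A0 (φ f) h * A w φ f h + t * nsq (A w φ f) := by
      simp only [nsq, Fin.sum_univ_four]
      field_simp
      ring
    rw [abs_le]; constructor <;> linarith
  have hA0 : nsq (A0 (φ f)) / t ≤ (6 / t) * nsq (φ f) := by
    have : nsq (A0 (φ f)) ≤ 6 * nsq (φ f) := by
      refine (nsq_A0_le _).trans ?_
      nlinarith [nsq_nonneg (φ f), s2_lt]
    calc nsq (A0 (φ f)) / t ≤ (6 * nsq (φ f)) / t := div_le_div_of_nonneg_right this ht.le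
      _ = _ := by ring
  set Z := ∑ h, w f h ^ 2 * (φ f h ^ 2 - φ (nb f h) (op h) ^ 2)
  have hvn := hv_nonneg (φ f)
  have hbn := bd_nonneg w φ f
  have hbn' := bd'_nonneg w φ f
  have hgn := nsq_nonneg (A w φ f)
  have hZ : |Z| ≤ (1 + t) * nsq (A w φ f) + (6 / t) * nsq (φ f) + 6 * hv (φ f) + 0.18 * bd w φ f := by
    have hb1 : xc ^ 2 * bd w φ f ≤ 0.18 * bd w φ f := mul_le_mul_of_nonneg_right xc2_hi hbn
    have hb2 : 0 ≤ xc ^ 2 * bd w φ f := by positivity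
    have hh1 : 4 * Real.sqrt 2 * hv (φ f) ≤ 6 * hv (φ f) := by
      apply mul_le_mul_of_nonneg_right _ hvn; linarith [s2_lt]
    have hh2 : 0 ≤ 4 * Real.sqrt 2 * hv (φ f) := by positivity
    rw [abs_le] at hAA ⊢
    constructor <;> linarith [hAA.1, hAA.2]
  rw [e]
  have hc : |(2 * Real.sqrt 2 + 2) * Z| ≤ 5 * |Z| := by
    rw [abs_mul, abs_of_nonneg (by positivity)]
    exact mul_le_mul_of_nonneg_right (by linarith [s2_lt]) (abs_nonneg _)
  have h5 : |bd w φ f - bd' w φ f| ≤ bd w φ f + bd' w φ f := by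
    rw [abs_le]; constructor <;> linarith
  have := abs_add_le ((2 * Real.sqrt 2 + 2) * Z) (bd w φ f - bd' w φ f)
  have e6 : (30 / t) * nsq (φ f) = 5 * ((6 / t) * nsq (φ f)) := by ring
  rw [e6]
  linarith

end Crest.Agent.R165.Sqx54
end
end

-- ▼ part R165/Sq2_54
section

/-!
Row 165 (helper54): THE SQUARE TRICK, part 2.  Hodge decomposition of a finitely supported one-form
on `ℤ²` with the potential kernel `pk` of helper583 and the resulting ℓ¹ bound.
-/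

set_option autoImplicit false

noncomputable section

namespace Crest.Agent.R165.Sqx54

open Crest.Agent.R165.Tr1x40 Crest.Agent.R165.Pkx583 Finset

/-- finite support -/
def FS (u : Face → ℝ) : Prop := ∃ I : Finset Face, ∀ f, f ∉ I → u f = 0

theorem FS.summable {u : Face → ℝ} (h : FS u) : Summable u := by
  obtain ⟨I, hI⟩ := h
  exact summable_of_ne_finset_zero hI

theorem FS.mul {u : Face → ℝ} (h : FS u) (c : Face → ℝ) : FS (fun f => c f * u f) := by
  obtain ⟨I, hI⟩ := h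
  exact ⟨I, fun f hf => by simp [hI f hf]⟩

theorem FS.add {u v : Face → ℝ} (hu : FS u) (hv : FS v) : FS (fun f => u f + v f) := by
  classical
  obtain ⟨I, hI⟩ := hu
  obtain ⟨J, hJ⟩ := hv
  refine ⟨I ∪ J, fun f hf => ?_⟩
  simp only [mem_union, not_or] at hf
  simp [hI f hf.1, hJ f hf.2]

theorem FS.neg {u : Face → ℝ} (hu : FS u) : FS (fun f => - u f) := by
  obtain ⟨I, hI⟩ := hu
  exact ⟨I, fun f hf => by simp [hI f hf]⟩

theorem FS.sub {u v : Face → ℝ} (hu : FS u) (hv : FS v) : FS (fun f => u f - v f) := by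
  simpa [sub_eq_add_neg] using hu.add hv.neg

theorem FS.abs {u : Face → ℝ} (hu : FS u) : FS (fun f => |u f|) := by
  obtain ⟨I, hI⟩ := hu
  exact ⟨I, fun f hf => by simp [hI f hf]⟩

theorem FS.shift {u : Face → ℝ} (hu : FS u) (v : Face) : FS (fun f => u (f + v)) := by
  classical
  obtain ⟨I, hI⟩ := hu
  refine ⟨I.image (fun g => g - v), fun f hf => hI _ fun h => hf ?_⟩
  exact mem_image.2 ⟨f + v, h, by simp⟩

theorem tsum_sh (u : Face → ℝ) (v : Face) : ∑' f, u (f + v) = ∑' f, u f :=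
  (Equiv.addRight v).tsum_eq u

theorem tsum_mul_sh (c u : Face → ℝ) (v : Face) :
    ∑' f, c f * u (f + v) = ∑' f, c (f - v) * u f := by
  rw [← tsum_sh (fun f => c (f - v) * u f) v]
  simp

/-- unit vectors -/
abbrev e1 : Face := (1, 0)
/-- unit vectors -/
abbrev e2 : Face := (0, 1)

theorem pk_lap' (z : Face) :
    pk (z + e1) + pk (z - e1) + pk (z + e2) + pk (z - e2) - 4 * pk z = if z = 0 then 1 else 0 := by
  obtain ⟨m, n⟩ := z
  have h := pk_lap m n
  simp only [Prod.mk_add_mk, Prod.mk_sub_mk, add_zero, sub_zero, Prod.mk_eq_zero]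
  exact h

/-- `u = G * Δ u` -/
theorem green_rep {u : Face → ℝ} (hu : FS u) (f : Face) :
    ∑' z, pk (f - z) * (u (z + e1) + u (z - e1) + u (z + e2) + u (z - e2) - 4 * u z) = u f := by
  have s1 := ((hu.shift e1).mul (fun z => pk (f - z))).summable
  have s2 := ((hu.shift (-e1)).mul (fun z => pk (f - z))).summable
  have s3 := ((hu.shift e2).mul (fun z => pk (f - z))).summable
  have s4 := ((hu.shift (-e2)).mul (fun z => pk (f - z))).summable
  have s5 := (hu.mul (fun z => pk (f - z))).summable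
  have t1 := ((hu).mul (fun z => pk (f - (z - e1)))).summable
  have t2 := ((hu).mul (fun z => pk (f - (z - -e1)))).summable
  have t3 := ((hu).mul (fun z => pk (f - (z - e2)))).summable
  have t4 := ((hu).mul (fun z => pk (f - (z - -e2)))).summable
  have e : ∀ z, pk (f - z) * (u (z + e1) + u (z - e1) + u (z + e2) + u (z - e2) - 4 * u z)
      = pk (f - z) * u (z + e1) + pk (f - z) * u (z + -e1) + pk (f - z) * u (z + e2)
        + pk (f - z) * u (z + -e2) - 4 * (pk (f - z) * u z) := by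
    intro z; rw [← sub_eq_add_neg, ← sub_eq_add_neg]; ring
  rw [tsum_congr e, Summable.tsum_sub (((s1.add s2).add s3).add s4) (s5.mul_left 4),
    Summable.tsum_add ((s1.add s2).add s3) s4, Summable.tsum_add (s1.add s2) s3,
    Summable.tsum_add s1 s2, tsum_mul_sh (fun z => pk (f - z)) u e1,
    tsum_mul_sh (fun z => pk (f - z)) u (-e1), tsum_mul_sh (fun z => pk (f - z)) u e2,
    tsum_mul_sh (fun z => pk (f - z)) u (-e2), tsum_mul_left,
    ← Summable.tsum_add t1 t2, ← Summable.tsum_add (t1.add t2) t3,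
    ← Summable.tsum_add ((t1.add t2).add t3) t4, ← tsum_mul_left,
    ← Summable.tsum_sub (((t1.add t2).add t3).add t4) (s5.mul_left 4)]
  rw [tsum_eq_single f]
  · have h := pk_lap' (f - f)
    rw [if_pos (sub_self f)] at h
    have e1' : f - (f - e1) = f - f + e1 := by abel
    have e2' : f - (f - -e1) = f - f - e1 := by abel
    have e3' : f - (f - e2) = f - f + e2 := by abel
    have e4' : f - (f - -e2) = f - f - e2 := by abel
    rw [e1', e2', e3', e4']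
    linear_combination (u f) * h
  · intro z hz
    have h := pk_lap' (f - z)
    rw [if_neg (sub_ne_zero.2 hz.symm)] at h
    have e1' : f - (z - e1) = f - z + e1 := by abel
    have e2' : f - (z - -e1) = f - z - e1 := by abel
    have e3' : f - (z - e2) = f - z + e2 := by abel
    have e4' : f - (z - -e2) = f - z - e2 := by abel
    rw [e1', e2', e3', e4']
    linear_combination (u z) * h

/-- divergence -/
def dvg (a b : Face → ℝ) (f : Face) : ℝ := a f - a (f - e1) + b f - b (f - e2)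
/-- curl -/
def crl (a b : Face → ℝ) (f : Face) : ℝ := a f + b (f + e1) - a (f + e2) - b f

theorem FS.dvg {a b : Face → ℝ} (ha : FS a) (hb : FS b) : FS (dvg a b) := by
  unfold Sqx54.dvg
  have h1 := ha.shift (-e1)
  have h2 := hb.shift (-e2)
  simp only [← sub_eq_add_neg] at h1 h2
  exact ((ha.sub h1).add hb).sub h2

theorem FS.crl {a b : Face → ℝ} (ha : FS a) (hb : FS b) : FS (crl a b) := by
  unfold Sqx54.crl
  exact ((ha.add (hb.shift e1)).sub (ha.shift e2)).sub hb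

theorem hodge1 {a b : Face → ℝ} (ha : FS a) (hb : FS b) (f : Face) :
    a f = ∑' z, (pk (f - z + e1) - pk (f - z)) * dvg a b z
      - ∑' z, (pk (f - z) - pk (f - z - e2)) * crl a b z := by
  have hd := ha.dvg hb
  have hc := ha.crl hb
  have s1 := ((hd.shift e1).mul (fun z => pk (f - z))).summable
  have s2 := (hd.mul (fun z => pk (f - z))).summable
  have s3 := (hc.mul (fun z => pk (f - z))).summable
  have s4 := ((hc.shift (-e2)).mul (fun z => pk (f - z))).summable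
  rw [← green_rep ha f]
  have e : ∀ z, pk (f - z) * (a (z + e1) + a (z - e1) + a (z + e2) + a (z - e2) - 4 * a z)
      = (pk (f - z) * dvg a b (z + e1) - pk (f - z) * dvg a b z)
        - (pk (f - z) * crl a b z - pk (f - z) * crl a b (z + -e2)) := by
    intro z
    unfold dvg crl
    have h1 : z + e1 - e1 = z := by abel
    have h2 : z + -e2 + e1 = z + e1 - e2 := by abel
    have h3 : z + -e2 + e2 = z := by abel
    have h4 : z + -e2 = z - e2 := by abel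
    rw [h1, h2, h3, h4]; ring
  rw [tsum_congr e, Summable.tsum_sub (s1.sub s2) (s3.sub s4), Summable.tsum_sub s1 s2,
    Summable.tsum_sub s3 s4, tsum_mul_sh (fun z => pk (f - z)) (dvg a b) e1,
    tsum_mul_sh (fun z => pk (f - z)) (crl a b) (-e2)]
  have t1 := (hd.mul (fun z => pk (f - (z - e1)))).summable
  have t4 := (hc.mul (fun z => pk (f - (z - -e2)))).summable
  rw [← Summable.tsum_sub t1 s2, ← Summable.tsum_sub s3 t4]
  congr 1
  · refine tsum_congr fun z => ?_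
    have : f - (z - e1) = f - z + e1 := by abel
    rw [this]; ring
  · refine tsum_congr fun z => ?_
    have : f - (z - -e2) = f - z - e2 := by abel
    rw [this]; ring

theorem hodge2 {a b : Face → ℝ} (ha : FS a) (hb : FS b) (f : Face) :
    b f = ∑' z, (pk (f - z + e2) - pk (f - z)) * dvg a b z
      + ∑' z, (pk (f - z) - pk (f - z - e1)) * crl a b z := by
  have hd := ha.dvg hb
  have hc := ha.crl hb
  have s1 := ((hd.shift e2).mul (fun z => pk (f - z))).summable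
  have s2 := (hd.mul (fun z => pk (f - z))).summable
  have s3 := (hc.mul (fun z => pk (f - z))).summable
  have s4 := ((hc.shift (-e1)).mul (fun z => pk (f - z))).summable
  rw [← green_rep hb f]
  have e : ∀ z, pk (f - z) * (b (z + e1) + b (z - e1) + b (z + e2) + b (z - e2) - 4 * b z)
      = (pk (f - z) * dvg a b (z + e2) - pk (f - z) * dvg a b z)
        + (pk (f - z) * crl a b z - pk (f - z) * crl a b (z + -e1)) := by
    intro z
    unfold dvg crl
    have h1 : z + e2 - e2 = z := by abel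
    have h2 : z + -e1 + e2 = z + e2 - e1 := by abel
    have h3 : z + -e1 + e1 = z := by abel
    have h4 : z + -e1 = z - e1 := by abel
    rw [h1, h2, h3, h4]; ring
  rw [tsum_congr e, Summable.tsum_add (s1.sub s2) (s3.sub s4), Summable.tsum_sub s1 s2,
    Summable.tsum_sub s3 s4, tsum_mul_sh (fun z => pk (f - z)) (dvg a b) e2,
    tsum_mul_sh (fun z => pk (f - z)) (crl a b) (-e1)]
  have t1 := (hd.mul (fun z => pk (f - (z - e2)))).summable
  have t4 := (hc.mul (fun z => pk (f - (z - -e1)))).summable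
  rw [← Summable.tsum_sub t1 s2, ← Summable.tsum_sub s3 t4]
  congr 1
  · refine tsum_congr fun z => ?_
    have : f - (z - e2) = f - z + e2 := by abel
    rw [this]; ring
  · refine tsum_congr fun z => ?_
    have : f - (z - -e1) = f - z - e1 := by abel
    rw [this]; ring

/-- `1 / (1 + |z₁| + |z₂|)` -/
def wt (z : Face) : ℝ := 1 / (1 + |(z.1 : ℝ)| + |(z.2 : ℝ)|)

theorem wt_nonneg (z : Face) : 0 ≤ wt z := by unfold wt; positivity

theorem grad1 (z : Face) : |pk (z + e1) - pk z| ≤ 100000 * wt z := by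
  obtain ⟨m, n⟩ := z
  have h := pk_dx_le m n
  simp only [Prod.mk_add_mk, add_zero, wt]
  have : 0 ≤ 1 / (1 + |(m : ℝ)| + |(n : ℝ)|) := by positivity
  calc _ ≤ _ := h
    _ = 50000 * (1 / (1 + |(m : ℝ)| + |(n : ℝ)|)) := by ring
    _ ≤ _ := by linarith

theorem grad2 (z : Face) : |pk (z + e2) - pk z| ≤ 100000 * wt z := by
  obtain ⟨m, n⟩ := z
  have h := pk_dy_le m n
  simp only [Prod.mk_add_mk, add_zero, wt]
  have : 0 ≤ 1 / (1 + |(m : ℝ)| + |(n : ℝ)|) := by positivity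
  calc _ ≤ _ := h
    _ = 50000 * (1 / (1 + |(m : ℝ)| + |(n : ℝ)|)) := by ring
    _ ≤ _ := by linarith

theorem grad3 (z : Face) : |pk z - pk (z - e1)| ≤ 100000 * wt z := by
  obtain ⟨m, n⟩ := z
  have h := pk_dx_le (m - 1) n
  rw [sub_add_cancel] at h
  simp only [Prod.mk_sub_mk, sub_zero, wt]
  refine h.trans ?_
  have h2 : |(m : ℝ)| ≤ |((m - 1 : ℤ) : ℝ)| + 1 := by
    push_cast
    calc |(m:ℝ)| = |((m:ℝ) - 1) + 1| := by ring_nf
      _ ≤ |(m:ℝ) - 1| + |(1:ℝ)| := abs_add_le _ _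
      _ = _ := by norm_num
  rw [mul_one_div, div_le_div_iff₀ (by positivity) (by positivity)]
  have := abs_nonneg ((m - 1 : ℤ) : ℝ)
  have := abs_nonneg (n : ℝ)
  linarith

theorem grad4 (z : Face) : |pk z - pk (z - e2)| ≤ 100000 * wt z := by
  obtain ⟨m, n⟩ := z
  have h := pk_dy_le m (n - 1)
  rw [sub_add_cancel] at h
  simp only [Prod.mk_sub_mk, sub_zero, wt]
  refine h.trans ?_
  have h2 : |(n : ℝ)| ≤ |((n - 1 : ℤ) : ℝ)| + 1 := by
    push_cast
    calc |(n:ℝ)| = |((n:ℝ) - 1) + 1| := by ring_nf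
      _ ≤ |(n:ℝ) - 1| + |(1:ℝ)| := abs_add_le _ _
      _ = _ := by norm_num
  rw [mul_one_div, div_le_div_iff₀ (by positivity) (by positivity)]
  have := abs_nonneg ((n - 1 : ℤ) : ℝ)
  have := abs_nonneg (m : ℝ)
  linarith

theorem tsum_bound {u : Face → ℝ} (hu : FS u) (c : Face → ℝ) (f : Face)
    (hc : ∀ z, |c z| ≤ 100000 * wt (f - z)) :
    |∑' z, c z * u z| ≤ ∑' z, 100000 * wt (f - z) * |u z| := by
  have s := (hu.mul c)
  have h1 : |∑' z, c z * u z| ≤ ∑' z, |c z * u z| := by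
    have := norm_tsum_le_tsum_norm (f := fun z => c z * u z) (by simpa using s.abs.summable)
    simpa using this
  refine h1.trans (Summable.tsum_le_tsum (fun z => ?_) s.abs.summable
    (hu.abs.mul _).summable)
  rw [abs_mul]
  exact mul_le_mul_of_nonneg_right (hc z) (abs_nonneg _)

/-- **ℓ¹ bound** for a finitely supported one-form on `ℤ²` from its divergence and curl. -/
theorem l1_bound {a b : Face → ℝ} (ha : FS a) (hb : FS b) (E : Finset Face) (κ : ℝ)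
    (hκ : ∀ z, ∑ f ∈ E, wt (f - z) ≤ κ) :
    ∑ f ∈ E, (|a f| + |b f|) ≤ 200000 * κ * (∑' z, |dvg a b z| + ∑' z, |crl a b z|) := by
  have hd := ha.dvg hb
  have hc := ha.crl hb
  have key : ∀ f, |a f| + |b f| ≤ 200000 * (∑' z, wt (f - z) * (|dvg a b z| + |crl a b z|)) := by
    intro f
    have s1 := (hd.abs.mul (fun z => 100000 * wt (f - z))).summable
    have s2 := (hc.abs.mul (fun z => 100000 * wt (f - z))).summable
    have b1 := tsum_bound hd (fun z => pk (f - z + e1) - pk (f - z)) f (fun z => grad1 _)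
    have b2 := tsum_bound hc (fun z => pk (f - z) - pk (f - z - e2)) f (fun z => grad4 _)
    have b3 := tsum_bound hd (fun z => pk (f - z + e2) - pk (f - z)) f (fun z => grad2 _)
    have b4 := tsum_bound hc (fun z => pk (f - z) - pk (f - z - e1)) f (fun z => grad3 _)
    have e : 200000 * (∑' z, wt (f - z) * (|dvg a b z| + |crl a b z|))
        = 2 * (∑' z, 100000 * wt (f - z) * |dvg a b z| + ∑' z, 100000 * wt (f - z) * |crl a b z|) := by
      rw [← Summable.tsum_add s1 s2, ← tsum_mul_left, ← tsum_mul_left]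
      exact tsum_congr fun z => by ring
    rw [e]
    have h1 := hodge1 ha hb f
    have h2 := hodge2 ha hb f
    have k1 : |a f| ≤ |∑' z, (pk (f - z + e1) - pk (f - z)) * dvg a b z|
        + |∑' z, (pk (f - z) - pk (f - z - e2)) * crl a b z| := by
      conv_lhs => rw [h1]
      exact abs_sub _ _
    have k2 : |b f| ≤ |∑' z, (pk (f - z + e2) - pk (f - z)) * dvg a b z|
        + |∑' z, (pk (f - z) - pk (f - z - e1)) * crl a b z| := by
      conv_lhs => rw [h2]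
      exact abs_add_le _ _
    linarith
  have hsum : FS (fun z => |dvg a b z| + |crl a b z|) := hd.abs.add hc.abs
  calc ∑ f ∈ E, (|a f| + |b f|)
      ≤ ∑ f ∈ E, 200000 * (∑' z, wt (f - z) * (|dvg a b z| + |crl a b z|)) :=
        sum_le_sum fun f _ => key f
    _ = 200000 * ∑' z, ∑ f ∈ E, wt (f - z) * (|dvg a b z| + |crl a b z|) := by
        rw [← mul_sum, Summable.tsum_finsetSum (fun f _ => (hsum.mul _).summable)]
    _ = 200000 * ∑' z, (∑ f ∈ E, wt (f - z)) * (|dvg a b z| + |crl a b z|) := by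
        congr 1
        exact tsum_congr fun z => by rw [sum_mul]
    _ ≤ 200000 * ∑' z, κ * (|dvg a b z| + |crl a b z|) := by
        apply mul_le_mul_of_nonneg_left _ (by norm_num)
        refine Summable.tsum_le_tsum (fun z => ?_) (hsum.mul _).summable (hsum.mul _).summable
        exact mul_le_mul_of_nonneg_right (hκ z) (by positivity)
    _ = 200000 * κ * (∑' z, |dvg a b z| + ∑' z, |crl a b z|) := by
        rw [tsum_mul_left, Summable.tsum_add hd.abs.summable hc.abs.summable]; ring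

end Crest.Agent.R165.Sqx54
end
end

-- ▼ part R165/Sq3_54

/-!
Row 165 (helper54): THE SQUARE TRICK, part 3: the theorems (SQ), (GAP).

For every plus background `w` (`Sym w`, `IsPlus w`: weights `0` or `± x_c`, arbitrary signs and
arbitrary shape), every finitely supported field `φ` and every finite set `E` of faces with
`∑_{f ∈ E} 1 / (1 + |f - z|₁) ≤ κ` for all `z`:
`∑_{f ∈ E} |φ_f|² ≤ C (1 + κ) |φ|₂ |A φ|₂`.
-/

set_option autoImplicit false

noncomputable section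

namespace Crest.Agent.R165.Sqx54

open Crest.Agent.R165.Tr1x40 Crest.Agent.R165.Pkx583 Finset

/-- one layer of neighbours -/
def thick (I : Finset Face) : Finset Face := by
  classical exact I ∪ univ.biUnion fun h : Fin 4 => I.image fun f => nb f h

theorem not_thick {I : Finset Face} {f : Face} (h : f ∉ thick I) : f ∉ I ∧ ∀ k, nb f k ∉ I := by
  classical
  unfold thick at h
  simp only [mem_union, mem_biUnion, mem_univ, true_and, mem_image, not_or, not_exists, not_and] at h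
  refine ⟨h.1, fun k hk => ?_⟩
  exact h.2 (op k) (nb f k) hk (nb_nb_op f k)

theorem subset_thick (I : Finset Face) : I ⊆ thick I := by
  classical
  intro f hf
  unfold thick
  exact mem_union_left _ hf

/-- `φ` vanishes off `I` -/
def Supp (I : Finset Face) (φ : Fld) : Prop := ∀ f, f ∉ I → ∀ h, φ f h = 0

section

variable {I : Finset Face} {w φ : Fld}

theorem Supp.A (hφ : Supp I φ) (w : Fld) : Supp (thick I) (A w φ) := by
  intro f hf h
  obtain ⟨h0, h1⟩ := not_thick hf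
  have hz : φ f = 0 := funext fun k => hφ f h0 k
  have hn : ∀ k, φ (nb f k) (op k) = 0 := fun k => hφ _ (h1 k) _
  unfold Tr1x40.A Y
  rw [hn h, hz]
  fin_cases h <;> simp [A0]

theorem Supp.om (hφ : Supp I φ) (w : Fld) (h : Fin 4) : FS (fun f => om w φ f h) := by
  refine ⟨thick I, fun f hf => ?_⟩
  obtain ⟨h0, h1⟩ := not_thick hf
  simp [Sqx54.om, hφ f h0 h, hφ _ (h1 h) (op h)]

theorem Supp.nsq (hφ : Supp I φ) : FS (fun f => nsq (φ f)) := by
  refine ⟨I, fun f hf => ?_⟩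
  simp [Tr1x40.nsq, hφ f hf]

theorem Supp.tsum_nsq (hφ : Supp I φ) {K : Finset Face} (hK : I ⊆ K) :
    ∑' f, Tr1x40.nsq (φ f) = ∑ f ∈ K, Tr1x40.nsq (φ f) := by
  refine tsum_eq_sum fun f hf => ?_
  simp [Tr1x40.nsq, hφ f (fun h => hf (hK h))]

theorem FS_bd (hφ : Supp I φ) (w : Fld) : FS (fun f => bd w φ f) := by
  refine ⟨I, fun f hf => ?_⟩
  simp [bd, hφ f hf]

theorem FS_bd' (hφ : Supp I φ) (w : Fld) : FS (fun f => bd' w φ f) := by
  refine ⟨thick I, fun f hf => ?_⟩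
  obtain ⟨h0, h1⟩ := not_thick hf
  unfold bd'
  refine sum_eq_zero fun h _ => ?_
  simp [hφ _ (h1 h) (op h)]

theorem FS_hv (hφ : Supp I φ) : FS (fun f => hv (φ f)) := by
  refine ⟨I, fun f hf => ?_⟩
  have : φ f = 0 := funext fun k => hφ f hf k
  simp [this, hv, Tr1x40.nsq, cyc]

theorem trace_tsum (hs : Sym w) (hp : IsPlus w) (hφ : Supp I φ) :
    ∑' f, hv (φ f) + ∑' f, bd w φ f ≤
      30 * (Real.sqrt (∑' f, nsq (φ f)) * Real.sqrt (∑' f, nsq (A w φ f))) := by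
  have h := trace_le hs hp φ (thick I) (fun f hf => hφ f (not_thick hf).1)
    (fun f hf h => by rw [hφ _ ((not_thick hf).2 h)]; simp)
  have e1 : ∑' f, hv (φ f) = ∑ f ∈ thick I, hv (φ f) := tsum_eq_sum fun f hf => by
    have : φ f = 0 := funext fun k => hφ f (not_thick hf).1 k
    simp [this, hv, Tr1x40.nsq, cyc]
  have e2 : ∑' f, bd w φ f = ∑ f ∈ thick I, bd w φ f := tsum_eq_sum fun f hf => by
    simp [bd, hφ f (not_thick hf).1]
  rw [e1, e2, hφ.tsum_nsq (subset_thick I), (hφ.A w).tsum_nsq (le_refl _)]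
  exact h

theorem tsum_bd' (hs : Sym w) (hφ : Supp I φ) : ∑' f, bd' w φ f = ∑' f, bd w φ f := by
  have e1 : ∑' f, bd' w φ f = ∑ f ∈ thick I, bd' w φ f := tsum_eq_sum fun f hf => by
    obtain ⟨h0, h1⟩ := not_thick hf
    unfold bd'
    exact sum_eq_zero fun h _ => by simp [hφ _ (h1 h) (op h)]
  have e2 : ∑' f, bd w φ f = ∑ f ∈ thick I, bd w φ f := tsum_eq_sum fun f hf => by
    simp [bd, hφ f (not_thick hf).1]
  rw [e1, e2]
  have := sum_bar (thick I) (fun f h => if w f h = 0 then φ f h ^ 2 else 0)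
    (fun f hf h => by simp [hφ f (not_thick hf).1 h])
    (fun f hf h => by simp [hφ _ ((not_thick hf).2 h) (op h)])
  unfold bd' bd
  rw [← this]
  refine sum_congr rfl fun f _ => sum_congr rfl fun h _ => ?_
  rw [hs f h]

theorem nsq_add_le (p q : Fin 4 → ℝ) : nsq (fun h => p h + q h) ≤ 2 * nsq p + 2 * nsq q := by
  simp only [nsq_eq]
  nlinarith [sq_nonneg (p 0 - q 0), sq_nonneg (p 1 - q 1), sq_nonneg (p 2 - q 2),
    sq_nonneg (p 3 - q 3)]

/-- `|A φ|² ≤ 13 |φ|²` -/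
theorem A_bound (hs : Sym w) (hp : IsPlus w) (hφ : Supp I φ) :
    ∑' f, nsq (A w φ f) ≤ 13 * ∑' f, nsq (φ f) := by
  rw [(hφ.A w).tsum_nsq (le_refl _), hφ.tsum_nsq (subset_thick I)]
  have h1 : ∀ f, nsq (A w φ f) ≤ 12 * nsq (φ f) + 0.36 * ∑ h, φ (nb f h) (op h) ^ 2 := by
    intro f
    have e : A w φ f = fun h => A0 (φ f) h + Y w φ f h := rfl
    rw [e]
    refine (nsq_add_le _ _).trans ?_
    have a1 : nsq (A0 (φ f)) ≤ 6 * nsq (φ f) := by
      refine (nsq_A0_le _).trans ?_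
      nlinarith [nsq_nonneg (φ f), s2_lt]
    have a2 : nsq (Y w φ f) ≤ 0.18 * ∑ h, φ (nb f h) (op h) ^ 2 := by
      rw [nsq_Y, mul_sum]
      refine sum_le_sum fun h _ => mul_le_mul_of_nonneg_right ?_ (sq_nonneg _)
      rcases hp f h with h0 | h0
      · rw [h0]; exact xc2_hi
      · rw [h0]; norm_num
    have a1' : nsq (fun h => A0 (φ f) h) ≤ 6 * nsq (φ f) := a1
    have a2' : nsq (fun h => Y w φ f h) ≤ 0.18 * ∑ h, φ (nb f h) (op h) ^ 2 := a2
    linarith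
  have h2 := sum_bar (thick I) (fun f h => φ f h ^ 2)
    (fun f hf h => by simp [hφ f (not_thick hf).1 h])
    (fun f hf h => by simp [hφ _ ((not_thick hf).2 h) (op h)])
  have h3 : ∑ f ∈ thick I, ∑ h, φ f h ^ 2 = ∑ f ∈ thick I, nsq (φ f) := rfl
  calc ∑ f ∈ thick I, nsq (A w φ f)
      ≤ ∑ f ∈ thick I, (12 * nsq (φ f) + 0.36 * ∑ h, φ (nb f h) (op h) ^ 2) :=
        sum_le_sum fun f _ => h1 f
    _ = 12 * ∑ f ∈ thick I, nsq (φ f) + 0.36 * ∑ f ∈ thick I, nsq (φ f) := by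
        rw [sum_add_distrib, ← mul_sum, ← mul_sum, h2, h3]
    _ ≤ 13 * ∑ f ∈ thick I, nsq (φ f) := by
        have : 0 ≤ ∑ f ∈ thick I, nsq (φ f) := sum_nonneg fun f _ => nsq_nonneg _
        linarith

theorem opt {X a b P R : ℝ} (ha : 0 ≤ a) (hb : 0 ≤ b) (hP : 0 ≤ P) (hR : 0 ≤ R)
    (h : ∀ t : ℝ, 0 < t → X ≤ a * (t * P) + b * (R / t)) :
    X ≤ (a + b) * (Real.sqrt R * Real.sqrt P) := by
  rcases hP.eq_or_lt with hP0 | hP0
  · -- P = 0
    rw [← hP0]
    simp only [Real.sqrt_zero, mul_zero]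
    by_contra hc
    push_neg at hc
    have hbR : 0 < b * R := by
      rcases (mul_nonneg hb hR).eq_or_lt with h0 | h0
      · have := h 1 one_pos
        rw [← hP0] at this
        have e : a * (1 * 0) + b * (R / 1) = b * R := by ring
        rw [e, ← h0] at this
        linarith
      · exact h0
    have := h (2 * (b * R) / X) (by positivity)
    rw [← hP0] at this
    have e : a * (2 * (b * R) / X * 0) + b * (R / (2 * (b * R) / X)) = X / 2 := by
      have hb0 : b ≠ 0 := by rintro rfl; simp at hbR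
      have hR0 : R ≠ 0 := by rintro rfl; simp at hbR
      field_simp
      ring
    rw [e] at this
    linarith
  · rcases hR.eq_or_lt with hR0 | hR0
    · rw [← hR0]
      simp only [Real.sqrt_zero, zero_mul, mul_zero]
      by_contra hc
      push_neg at hc
      have haP : 0 < a * P := by
        rcases (mul_nonneg ha hP).eq_or_lt with h0 | h0
        · have := h 1 one_pos
          rw [← hR0] at this
          have e : a * (1 * P) + b * (0 / 1) = a * P := by ring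
          rw [e, ← h0] at this
          linarith
        · exact h0
      have := h (X / (2 * (a * P))) (by positivity)
      rw [← hR0] at this
      have e : a * (X / (2 * (a * P)) * P) + b * (0 / (X / (2 * (a * P)))) = X / 2 := by
        have ha0 : a ≠ 0 := by rintro rfl; simp at haP
        field_simp
        ring
      rw [e] at this
      linarith
    · have sP := Real.sqrt_pos.2 hP0
      have sR := Real.sqrt_pos.2 hR0
      have := h (Real.sqrt R / Real.sqrt P) (by positivity)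
      have e : a * (Real.sqrt R / Real.sqrt P * P) + b * (R / (Real.sqrt R / Real.sqrt P))
          = (a + b) * (Real.sqrt R * Real.sqrt P) := by
        have h1 : Real.sqrt P * Real.sqrt P = P := Real.mul_self_sqrt hP
        have h2 : Real.sqrt R * Real.sqrt R = R := Real.mul_self_sqrt hR
        have e1 : Real.sqrt R / Real.sqrt P * P = Real.sqrt R * Real.sqrt P := by
          field_simp
          rw [sq, h1]
        have e2 : R / (Real.sqrt R / Real.sqrt P) = Real.sqrt R * Real.sqrt P := by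
          field_simp
          rw [sq, h2]
        rw [e1, e2]; ring
      rwa [e] at this

theorem shift_nsq (φ : Fld) (a b : ℤ) :
    ∑' f : Face, nsq (φ (f.1 + a, f.2 + b)) = ∑' f, nsq (φ f) :=
  tsum_sh (fun f => nsq (φ f)) (a, b)

/-- `ℓ¹` bound of the curl -/
theorem cl_l1 (hs : Sym w) (hp : IsPlus w) (hφ : Supp I φ) {t : ℝ} (ht : 0 < t) :
    ∑' f, |cl w φ f| ≤ 8 * (1 + t) * (∑' f, nsq (A w φ f)) + (16 / t) * ∑' f, nsq (φ f) := by
  have hA := hφ.A w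
  have g0 := hA.nsq
  have q0 := hφ.nsq
  have sg : ∀ a b : ℤ, Summable (fun f : Face => nsq (A w φ (f.1 + a, f.2 + b))) := fun a b =>
    (g0.shift (a, b)).summable
  have sq : ∀ a b : ℤ, Summable (fun f : Face => nsq (φ (f.1 + a, f.2 + b))) := fun a b =>
    (q0.shift (a, b)).summable
  have hcl : FS (fun f => cl w φ f) := by
    have o1 := hφ.om w 1
    have o2 := hφ.om w 2
    have h1 := o2.shift (1, 0)
    have h2 := o1.shift (0, 1)
    have := ((o1.add h1).sub h2).sub o2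
    have e : (fun f : Face => om w φ f 1 + om w φ (f + (1, 0)) 2 - om w φ (f + (0, 1)) 1 - om w φ f 2)
        = fun f => cl w φ f := by
      funext f
      unfold cl
      have e1 : f + (1, 0) = (f.1 + 1, f.2) := by ext <;> simp
      have e2 : f + (0, 1) = (f.1, f.2 + 1) := by ext <;> simp
      rw [e1, e2]
    rwa [e] at this
  have a00 := sg 0 0
  have a10 := sg 1 0
  have a01 := sg 0 1
  have a11 := sg 1 1
  have b00 := sq 0 0
  have b10 := sq 1 0
  have b01 := sq 0 1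
  have b11 := sq 1 1
  have k : ∀ f, |cl w φ f| ≤ 2 * (1 + t) * (nsq (A w φ (f.1+0, f.2+0)) + nsq (A w φ (f.1+1, f.2+0))
        + nsq (A w φ (f.1+0, f.2+1)) + nsq (A w φ (f.1+1, f.2+1)))
      + (4 / t) * (nsq (φ (f.1+0, f.2+0)) + nsq (φ (f.1+1, f.2+0)) + nsq (φ (f.1+0, f.2+1))
        + nsq (φ (f.1+1, f.2+1))) := by
    intro f
    have := cl_le hs hp φ f ht
    simpa using this
  have e1 : ∑' f : Face, (nsq (A w φ (f.1+0, f.2+0)) + nsq (A w φ (f.1+1, f.2+0))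
        + nsq (A w φ (f.1+0, f.2+1)) + nsq (A w φ (f.1+1, f.2+1))) = 4 * ∑' f, nsq (A w φ f) := by
    rw [Summable.tsum_add ((a00.add a10).add a01) a11, Summable.tsum_add (a00.add a10) a01,
      Summable.tsum_add a00 a10, shift_nsq, shift_nsq, shift_nsq, shift_nsq]
    ring
  have e2 : ∑' f : Face, (nsq (φ (f.1+0, f.2+0)) + nsq (φ (f.1+1, f.2+0))
        + nsq (φ (f.1+0, f.2+1)) + nsq (φ (f.1+1, f.2+1))) = 4 * ∑' f, nsq (φ f) := by
    rw [Summable.tsum_add ((b00.add b10).add b01) b11, Summable.tsum_add (b00.add b10) b01,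
      Summable.tsum_add b00 b10, shift_nsq, shift_nsq, shift_nsq, shift_nsq]
    ring
  have sA := ((a00.add a10).add a01).add a11
  have sB := ((b00.add b10).add b01).add b11
  calc ∑' f, |cl w φ f| ≤ _ := Summable.tsum_le_tsum k hcl.abs.summable
        ((sA.mul_left (2 * (1 + t))).add (sB.mul_left (4 / t)))
    _ = _ := by
        rw [Summable.tsum_add (sA.mul_left _) (sB.mul_left _), tsum_mul_left, tsum_mul_left, e1, e2]
        ring

theorem dv_FS (hφ : Supp I φ) (w : Fld) : FS (fun f => dv w φ f) := by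
  have := (((hφ.om w 0).add (hφ.om w 1)).add (hφ.om w 2)).add (hφ.om w 3)
  have e : (fun f => om w φ f 0 + om w φ f 1 + om w φ f 2 + om w φ f 3) = fun f => dv w φ f := by
    funext f; simp [dv, Fin.sum_univ_four]
  rwa [e] at this

/-- `ℓ¹` bound of the divergence -/
theorem dv_l1 (hs : Sym w) (hp : IsPlus w) (hφ : Supp I φ) {t : ℝ} (ht : 0 < t) :
    ∑' f, |dv w φ f| ≤ 5 * (1 + t) * (∑' f, nsq (A w φ f)) + (30 / t) * (∑' f, nsq (φ f))
      + 30 * (∑' f, hv (φ f) + ∑' f, bd w φ f) := by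
  have sA := (hφ.A w).nsq.summable
  have sQ := hφ.nsq.summable
  have sH := (FS_hv hφ).summable
  have sB := (FS_bd hφ w).summable
  have sB' := (FS_bd' hφ w).summable
  have h0 : 0 ≤ ∑' f, bd w φ f := tsum_nonneg fun f => bd_nonneg _ _ _
  have h := Summable.tsum_le_tsum (fun f => dv_le hp φ f ht) (dv_FS hφ w).abs.summable
    (((((sA.mul_left (5 * (1 + t))).add (sQ.mul_left (30 / t))).add (sH.mul_left 30)).add
      (sB.mul_left 2)).add sB')
  rw [Summable.tsum_add ((((sA.mul_left (5 * (1 + t))).add (sQ.mul_left (30 / t))).add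
      (sH.mul_left 30)).add (sB.mul_left 2)) sB',
    Summable.tsum_add (((sA.mul_left (5 * (1 + t))).add (sQ.mul_left (30 / t))).add
      (sH.mul_left 30)) (sB.mul_left 2),
    Summable.tsum_add ((sA.mul_left (5 * (1 + t))).add (sQ.mul_left (30 / t))) (sH.mul_left 30),
    Summable.tsum_add (sA.mul_left (5 * (1 + t))) (sQ.mul_left (30 / t)),
    tsum_mul_left, tsum_mul_left, tsum_mul_left, tsum_mul_left, tsum_bd' hs hφ] at h
  linarith

/-- **(SQ), parametrised form** -/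
theorem sq_t (hs : Sym w) (hp : IsPlus w) (hφ : Supp I φ) (E : Finset Face) (κ : ℝ)
    (hκ : ∀ z, ∑ f ∈ E, wt (f - z) ≤ κ) {t : ℝ} (ht : 0 < t) :
    ∑ f ∈ E, nsq (φ f) ≤ 3000000000 * (1 + κ) * (t * (∑' f, nsq (A w φ f)) + (∑' f, nsq (φ f)) / t) := by
  set G := ∑' f, nsq (A w φ f) with hG
  set Q := ∑' f, nsq (φ f) with hQ
  have hG0 : 0 ≤ G := tsum_nonneg fun f => nsq_nonneg _
  have hQ0 : 0 ≤ Q := tsum_nonneg fun f => nsq_nonneg _
  have hκ0 : 0 ≤ κ := (sum_nonneg fun f _ => wt_nonneg _).trans (hκ 0)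
  set R := t * G + Q / t with hR
  have hR0 : 0 ≤ R := by positivity
  have hQt : 0 ≤ Q / t := by positivity
  have htG : 0 ≤ t * G := by positivity
  have hGQ : G ≤ 13 * Q := A_bound hs hp hφ
  have hGR : G ≤ 13 * R := by
    rcases le_total 1 t with h1 | h1
    · have : G ≤ t * G := by nlinarith
      rw [hR]; linarith
    · have : Q ≤ Q / t := by rw [le_div_iff₀ ht]; nlinarith
      rw [hR]; linarith
  have hsq : Real.sqrt Q * Real.sqrt G ≤ R / 2 := by
    have h1 : 0 ≤ (Real.sqrt Q - t * Real.sqrt G) ^ 2 / t := by positivity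
    have e : (Real.sqrt Q - t * Real.sqrt G) ^ 2 / t
        = (Real.sqrt Q * Real.sqrt Q) / t - 2 * (Real.sqrt Q * Real.sqrt G)
          + t * (Real.sqrt G * Real.sqrt G) := by
      field_simp; ring
    rw [Real.mul_self_sqrt hQ0, Real.mul_self_sqrt hG0] at e
    rw [hR]; linarith
  have hT := trace_tsum hs hp hφ
  rw [← hG, ← hQ] at hT
  have hH0 : 0 ≤ ∑' f, hv (φ f) := tsum_nonneg fun f => hv_nonneg _
  have hB0 : 0 ≤ ∑' f, bd w φ f := tsum_nonneg fun f => bd_nonneg _ _ _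
  have hT' : ∑' f, hv (φ f) + ∑' f, bd w φ f ≤ 15 * R := by linarith
  have hcl := cl_l1 hs hp hφ ht
  have hdv := dv_l1 hs hp hφ ht
  rw [← hG, ← hQ] at hcl hdv
  have e16 : (16 / t) * Q = 16 * (Q / t) := by ring
  have e30 : (30 / t) * Q = 30 * (Q / t) := by ring
  rw [e16] at hcl
  rw [e30] at hdv
  have hcl' : ∑' f, |cl w φ f| ≤ 120 * R := by
    refine hcl.trans ?_
    have : 8 * (1 + t) * G = 8 * G + 8 * (t * G) := by ring
    rw [this, hR] at *
    linarith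
  have hdv' : ∑' f, |dv w φ f| ≤ 550 * R := by
    refine hdv.trans ?_
    have : 5 * (1 + t) * G = 5 * G + 5 * (t * G) := by ring
    rw [this]
    have : t * G ≤ R := by rw [hR]; linarith
    have : Q / t ≤ R := by rw [hR]; linarith
    linarith
  -- the one-form
  have hcrl : ∀ f, crl (fun f => om w φ f 1) (fun f => om w φ f 2) f = cl w φ f := by
    intro f
    unfold crl cl
    have e1 : f + e1 = (f.1 + 1, f.2) := by ext <;> simp
    have e2 : f + e2 = (f.1, f.2 + 1) := by ext <;> simp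
    rw [e1, e2]
  have hdvg : ∀ f, dvg (fun f => om w φ f 1) (fun f => om w φ f 2) f = dv w φ f := by
    intro f
    unfold dvg dv
    rw [Fin.sum_univ_four]
    have e1 : f - e1 = nb f 3 := by ext <;> simp
    have e2 : f - e2 = nb f 0 := by ext <;> simp
    rw [e1, e2]
    have h3 : om w φ (nb f 3) 1 = - om w φ f 3 := om_bar hs φ f 3
    have h0 : om w φ (nb f 0) 2 = - om w φ f 0 := om_bar hs φ f 0
    show om w φ f 1 - om w φ (nb f 3) 1 + om w φ f 2 - om w φ (nb f 0) 2 = _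
    rw [h3, h0]; ring
  have hl := l1_bound (hφ.om w 1) (hφ.om w 2) E κ hκ
  simp only [hcrl, hdvg] at hl
  have hl' : ∑ f ∈ E, (|om w φ f 1| + |om w φ f 2|) ≤ 200000 * κ * (670 * R) := by
    refine hl.trans (mul_le_mul_of_nonneg_left (by linarith) (by positivity))
  -- per-face inequality
  have hbE : ∑ f ∈ E, bd w φ f ≤ ∑' f, bd w φ f :=
    (FS_bd hφ w).summable.sum_le_tsum E fun f _ => bd_nonneg _ _ _
  have hhE : ∑ f ∈ E, hv (φ f) ≤ ∑' f, hv (φ f) :=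
    (FS_hv hφ).summable.sum_le_tsum E fun f _ => hv_nonneg _
  have hgE : ∑ f ∈ E, nsq (A w φ f) ≤ G :=
    (hφ.A w).nsq.summable.sum_le_tsum E fun f _ => nsq_nonneg _
  have hsum : ∑ f ∈ E, nsq (φ f) ≤ 16 * ∑ f ∈ E, (|om w φ f 1| + |om w φ f 2|)
      + 8 * ∑ f ∈ E, bd w φ f + 8000 * (2 * ∑ f ∈ E, hv (φ f) + ∑ f ∈ E, nsq (A w φ f)) := by
    calc ∑ f ∈ E, nsq (φ f) ≤ ∑ f ∈ E, (16 * (|om w φ f 1| + |om w φ f 2|) + 8 * bd w φ f
          + 8000 * (2 * hv (φ f) + nsq (A w φ f))) := sum_le_sum fun f _ => face hp φ f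
      _ = _ := by
        simp only [mul_sum, sum_add_distrib, mul_add]
  have hκR : 0 ≤ κ * R := by positivity
  have e3 : 200000 * κ * (670 * R) = 134000000 * (κ * R) := by ring
  rw [e3] at hl'
  have e4 : 3000000000 * (1 + κ) * R = 3000000000 * R + 3000000000 * (κ * R) := by ring
  rw [e4]
  linarith

/-- **THEOREM (SQ)**: `∑_{f ∈ E} |φ_f|² ≤ C (1 + κ(E)) |φ|₂ |A φ|₂` for every plus background. -/
theorem sq_main (hs : Sym w) (hp : IsPlus w) (hφ : Supp I φ) (E : Finset Face) (κ : ℝ)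
    (hκ : ∀ z, ∑ f ∈ E, wt (f - z) ≤ κ) :
    ∑ f ∈ E, nsq (φ f) ≤ 6000000000 * (1 + κ) *
      (Real.sqrt (∑' f, nsq (φ f)) * Real.sqrt (∑' f, nsq (A w φ f))) := by
  have hκ0 : 0 ≤ κ := (sum_nonneg fun f _ => wt_nonneg _).trans (hκ 0)
  have := opt (X := ∑ f ∈ E, nsq (φ f)) (a := 3000000000 * (1 + κ)) (b := 3000000000 * (1 + κ))
    (P := ∑' f, nsq (A w φ f)) (R := ∑' f, nsq (φ f)) (by positivity) (by positivity)
    (tsum_nonneg fun f => nsq_nonneg _) (tsum_nonneg fun f => nsq_nonneg _)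
    (fun t ht => by
      have := sq_t hs hp hφ E κ hκ ht
      calc _ ≤ _ := this
        _ = _ := by ring)
  calc _ ≤ _ := this
    _ = _ := by ring

end

end Crest.Agent.R165.Sqx54
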