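import Mathlib
import Crest.Agent.R165.Sq3_54
import Crest.Agent.R165.SqK_470
import Crest.Agent.R165.RIface_891
import Crest.Agent.R165.NcCut_811

/-!
Row 165 (helper54): THE SQUARE TRICK, part 4: the instances used by the other blocks.

* `sq811 : NcCutx811.SQ 3000000000`
* `gapU : RIfx891.GapU 110000000000`
* `nc_gen`, `nc_pt`: no concentration for arbitrary fields on a box
-/

set_option autoImplicit false

noncomputable section

namespace Crest.Agent.R165.Sqx54

open Crest.Agent.R165.Tr1x40 Crest.Agent.R165.Pkx583 Finset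

theorem wt_of_kap {E : Finset Face} {κ : ℝ} (h : NcCutx811.kap E κ) (z : Face) :
    ∑ f ∈ E, wt (f - z) ≤ κ := by
  refine le_trans (le_of_eq (sum_congr rfl fun f _ => ?_)) (h z)
  unfold wt
  simp only [Prod.fst_sub, Prod.snd_sub, Int.cast_sub]

theorem kap_of_kapS {E : Finset Face} {κ : ℝ} (h : ∀ z, SqKx470.kapS E z ≤ κ) :
    NcCutx811.kap E κ := fun z => h z

/-- the box has `κ ≤ 8 (1 + r)` -/
theorem kap_bx (x : Face) {r : ℝ} (hr : 0 ≤ r) : NcCutx811.kap (RIfx891.bx x r) (8 * (1 + r)) :=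
  kap_of_kapS fun z => SqKx470.kap_box (c := x) hr (fun f hf => RIfx891.mem_bx_real.1 hf) z



/-- **(SQ)** in the form of helper811 -/
theorem sq811 : NcCutx811.SQ 3000000000 := by
  intro w φ K hs hp h0 h1 E κ t ht hκ
  have hφ : Supp K φ := h0
  have := sq_t hs hp hφ E κ (wt_of_kap hκ) ht
  have e1 : ∑' f, nsq (A w φ f) = ∑ f ∈ K, nsq (A w φ f) := by
    refine tsum_eq_sum fun f hf => ?_
    have e : A w φ f = 0 := by
      funext h
      have a : φ f = 0 := funext fun k => h0 f hf k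
      have b := h1 f hf h
      unfold A Y
      rw [a, mul_assoc, b]
      fin_cases h <;> simp [A0]
    rw [e]
    simp [nsq]
  have e2 : ∑' f, nsq (φ f) = ∑ f ∈ K, nsq (φ f) := hφ.tsum_nsq (le_refl _)
  rw [e1, e2] at this
  have e3 : (∑ f ∈ K, nsq (φ f)) / t = t⁻¹ * ∑ f ∈ K, nsq (φ f) := by rw [div_eq_inv_mul]
  rwa [e3] at this

/-! ### the gap -/

/-- weights killed off the half-edges touching the box -/
def wres (x : Face) (r : ℝ) (w : Fld) : Fld := fun f h =>
  if f ∈ RIfx891.bx x r ∨ nb f h ∈ RIfx891.bx x r then w f h else 0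

theorem sym_wres (x : Face) (r : ℝ) {w : Fld} (hw : Sym w) : Sym (wres x r w) := by
  intro f h
  unfold wres
  rw [nb_nb_op, hw f h]
  by_cases h1 : f ∈ RIfx891.bx x r <;> by_cases h2 : nb f h ∈ RIfx891.bx x r <;> simp [h1, h2]

theorem isPlus_wres {x : Face} {r : ℝ} {w : Fld} (hw : Sym w) (hp : RIfx891.IsPlusOn w x r) :
    IsPlus (wres x r w) := by
  intro f h
  unfold wres
  split_ifs with hh
  · rcases hh with hh | hh
    · exact hp f hh h
    · have := hp _ hh (op h)
      rwa [hw f h] at this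
  · right; rfl

theorem A_wres {x : Face} {r : ℝ} (w : Fld) {φ : Fld} (hφ : RIfx891.Supp (RIfx891.bx x r) φ) :
    A (wres x r w) φ = A w φ := by
  funext f h
  unfold A Y wres
  split_ifs with hh
  · rfl
  · have : φ (nb f h) = 0 := hφ _ fun hc => hh (Or.inr hc)
    rw [this]; simp

theorem tsum_NB {x : Face} {r : ℝ} {φ : Fld} (hφ : RIfx891.Supp (RIfx891.bx x r) φ) :
    ∑' f, nsq (φ f) = RIfx891.NB x r φ ^ 2 := by
  rw [RIfx891.NB_sq]
  refine tsum_eq_sum fun f hf => ?_
  rw [hφ f hf]; simp [nsq]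

/-- **(GAP)**: the universal gap, leaf `GapU` of helper891 -/
theorem gapU : RIfx891.GapU 110000000000 := by
  intro w x r hr hs hp φ hφ
  have hS : Supp (RIfx891.bx x r) φ := fun f hf h => by rw [hφ f hf]; rfl
  have hκ := kap_bx x (r := r) (by linarith)
  have hNn : 0 ≤ RIfx891.NB x r φ := apply_nonneg _ _
  have hMn : 0 ≤ RIfx891.NB x (r + 1) (A w φ) := apply_nonneg _ _
  have h := sq_main (sym_wres x r hs) (isPlus_wres hs hp) hS (RIfx891.bx x r) _ (wt_of_kap hκ)
  have hA : RIfx891.Supp (RIfx891.bx x (r + 1)) (A w φ) := RIfx891.supp_A hφ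
  have t1 := tsum_NB hφ
  have t2 := tsum_NB hA
  rw [A_wres w hφ, t1, t2, ← RIfx891.NB_sq] at h
  generalize RIfx891.NB x (r + 1) (A w φ) = M at *
  generalize RIfx891.NB x r φ = N at *
  have hN0 : 0 ≤ N := hNn
  have hM0 : 0 ≤ M := hMn
  rw [Real.sqrt_sq hN0, Real.sqrt_sq hM0] at h
  rcases hN0.eq_or_lt with h0 | h0
  · rw [← h0]; positivity
  · have h1 : N * N ≤ (110000000000 * r * M) * N := by
      have h2 : N * M * (6000000000 * (1 + 8 * (1 + r))) ≤ N * M * (110000000000 * r) :=
        mul_le_mul_of_nonneg_left (by linarith) (by positivity)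
      calc N * N = N ^ 2 := by ring
        _ ≤ _ := h
        _ = N * M * (6000000000 * (1 + 8 * (1 + r))) := by ring
        _ ≤ N * M * (110000000000 * r) := h2
        _ = _ := by ring
    exact le_of_mul_le_mul_right h1 h0

/-! ### no concentration for arbitrary fields on a box -/

open Crest.Agent.R165.PotAx894 Crest.Agent.R165.PotBx894 Crest.Agent.R165.Intx811
  Crest.Agent.R165.NcCutx811





end Crest.Agent.R165.Sqx54
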