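import Crest.Agent.R165.Bridge_386

/-!
# Row 165: regularity on the objects of block G from `regB`, `regBr` (helper386)

`regB_G`, `regBr_G` : one fixed ratio `2^J`; `regB_ratio`, `regBr_ratio` : every ratio `≤ Λ`, with
the powers `r/R`, `(r/R)^{3/2}` (plus boundary) and `(r/R)^{1/2}`, `r/R` (branch vertex), for every
coordinate ring `G` in which the box of radius `R` is embedded (`Inj G R`).
-/

set_option autoImplicit false
set_option linter.unusedSectionVars false

noncomputable section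

open scoped ENNReal
open Crest.Agent.R165.Gr0x606 Crest.Agent.R165.Latx683 Crest.Agent.R165.GDefx387
  Crest.Agent.R165.NWidthx386 Crest.Agent.R165.RankOnex386 Crest.Agent.R165.Bridgex386
  Crest.Agent.R165.RIfx891 Crest.Agent.R165.Campx891

namespace Crest.Agent.R165.BridgeRegx386

/-- local norm on the ball `ball g R` -/
def lb {G : Type} [CommRing G] [CN G] (g : G × G) (R : ℕ) (f : HE G → ℝ) : ℝ :=
  l2 (restr (ball g R) f)


theorem K2_nonneg {C Cs : ℝ} (hC : 0 ≤ C) (hCs : 0 ≤ Cs) : 0 ≤ K2 C Cs := by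
  have := K1_nonneg hC hCs
  unfold K2; positivity

/-- unit ball of level 2 (`f`, `A f`, `A² f`) at scale `R` around `g` -/
def UB {G : Type} [CommRing G] [CN G] (w : BW G) (g : G × G) (R : ℕ) (f : HE G → ℝ) : Prop :=
  lb g R f ≤ 1 ∧ R * lb g R (Aop w f) ≤ 1 ∧ (R : ℝ) ^ 2 * lb g R (Aop w (Aop w f)) ≤ 1

section one
variable {G : Type} [CommRing G] [CN G] [CNL G]

/-- the unit ball upstairs -/
theorem ub_lift {w : BW G} {X : Face} {R : ℕ} (hR : 1 ≤ R) (hI : Inj G R) {f : HE G → ℝ}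
    (h : UB w (pf X) R f) :
    NB X (R : ℝ) (lift f) ≤ 1 ∧ NB X (R : ℝ) (Tr1x40.A (wl w) (lift f)) ≤ 1 / (R : ℝ) ∧
      NB X (R : ℝ) (Tr1x40.A (wl w) (Tr1x40.A (wl w) (lift f))) ≤ 1 / (R : ℝ) ^ 2 := by
  have hR0 : (0 : ℝ) < R := by exact_mod_cast hR
  obtain ⟨h0, h1, h2⟩ := h
  refine ⟨(NB_le_l2 X hI f).trans h0, ?_, ?_⟩
  · rw [A_lift, le_div_iff₀ hR0, mul_comm]
    exact (mul_le_mul_of_nonneg_left (NB_le_l2 X hI _) hR0.le).trans h1
  · rw [A_lift, A_lift, le_div_iff₀ (by positivity), mul_comm]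
    exact (mul_le_mul_of_nonneg_left (NB_le_l2 X hI _) (by positivity)).trans h2


end one



/-! ### every ratio -/









end Crest.Agent.R165.BridgeRegx386
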