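import Mathlib
import Crest.Agent.R165.FRDPoly_439
import Crest.Agent.R165.GramH_439
import Crest.Agent.R165.GDef_387

-- ▼ part R165/FRDAbs_439
section

/-!
# Row 165, block G: polynomial functional calculus on a real pre-Hilbert space

Everything on an arbitrary real vector space `V` with a positive definite symmetric form `P.ip` (for instance
`V = ι →₀ ℝ`, `ι` infinite), for operators `Q : V →ₗ V` symmetric for `ip`. No completeness, no locality.

Key lemma `poly_nonneg`: if `a |v|² ≤ ⟨Q v, v⟩ ≤ b |v|²` for all `v` and the polynomial `p` is nonnegative on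
`[a, b]`, then `⟨p(Q) v, v⟩ ≥ 0` (compression of `Q` to the Krylov space of `v`).
-/

set_option autoImplicit false

noncomputable section

namespace Crest.Agent.R165.FRDAbsx439

open Polynomial Finset Module

/-! ### symmetric operators on inner product spaces -/

section inner

variable {E : Type*} [NormedAddCommGroup E] [InnerProductSpace ℝ E]

theorem pow_symm (Q : E →ₗ[ℝ] E) (hQ : ∀ x y, inner ℝ (Q x) y = inner ℝ x (Q y)) (n : ℕ) :
    ∀ x y : E, inner ℝ ((Q ^ n) x) y = inner ℝ x ((Q ^ n) y) := by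
  induction n with
  | zero => intro x y; simp
  | succ n ih =>
    intro x y
    have h1 : (Q ^ (n + 1)) x = (Q ^ n) (Q x) := by rw [pow_succ, Module.End.mul_apply]
    have h2 : (Q ^ (n + 1)) y = Q ((Q ^ n) y) := by rw [pow_succ', Module.End.mul_apply]
    rw [h1, h2, ih, hQ]

theorem aeval_apply_sum {V : Type*} [AddCommGroup V] [Module ℝ V] (Q : V →ₗ[ℝ] V) (p : ℝ[X]) {n : ℕ}
    (hn : p.natDegree ≤ n) (x : V) :
    aeval Q p x = ∑ k ∈ range (n + 1), p.coeff k • (Q ^ k) x := by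
  rw [aeval_eq_sum_range' (lt_of_le_of_lt hn (Nat.lt_succ_self n)), LinearMap.sum_apply]
  rfl

theorem aeval_symm (Q : E →ₗ[ℝ] E) (hQ : ∀ x y, inner ℝ (Q x) y = inner ℝ x (Q y)) (p : ℝ[X]) (x y : E) :
    inner ℝ (aeval Q p x) y = inner ℝ x (aeval Q p y) := by
  rw [aeval_apply_sum Q p le_rfl, aeval_apply_sum Q p le_rfl, sum_inner, inner_sum]
  apply Finset.sum_congr rfl
  intro k _
  rw [inner_smul_left, inner_smul_right, pow_symm Q hQ]
  simp

/-- finite-dimensional case -/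
theorem poly_nonneg_fd {F : Type*} [NormedAddCommGroup F] [InnerProductSpace ℝ F]
    [FiniteDimensional ℝ F] (Q : F →ₗ[ℝ] F) (hQ : ∀ x y, inner ℝ (Q x) y = inner ℝ x (Q y)) (a b : ℝ)
    (ha : ∀ x, a * inner ℝ x x ≤ inner ℝ (Q x) x) (hb : ∀ x, inner ℝ (Q x) x ≤ b * inner ℝ x x)
    (p : ℝ[X]) (hp : ∀ t, a ≤ t → t ≤ b → 0 ≤ p.eval t) (v : F) :
    0 ≤ inner ℝ (aeval Q p v) v := by
  have hs : Q.IsSymmetric := hQ
  let e := hs.eigenvectorBasis rfl
  have he : ∀ i, Q (e i) = (hs.eigenvalues rfl i : ℝ) • e i := fun i =>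
    hs.apply_eigenvectorBasis rfl i
  have hee : ∀ i, inner ℝ (e i) (e i) = (1 : ℝ) := fun i => by
    have := (orthonormal_iff_ite.mp e.orthonormal) i i
    rwa [if_pos rfl] at this
  have hmem : ∀ i, a ≤ hs.eigenvalues rfl i ∧ hs.eigenvalues rfl i ≤ b := by
    intro i
    have h1 := ha (e i)
    have h2 := hb (e i)
    rw [he, inner_smul_left, hee] at h1 h2
    simp only [conj_trivial, mul_one] at h1 h2
    exact ⟨h1, h2⟩
  have hpow : ∀ i (n : ℕ), (Q ^ n) (e i) = (hs.eigenvalues rfl i) ^ n • e i := by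
    intro i n
    induction n with
    | zero => simp
    | succ n ih =>
      rw [pow_succ, Module.End.mul_apply, he, map_smul, ih, smul_smul, pow_succ, mul_comm]
  have hpe : ∀ i, aeval Q p (e i) = (p.eval (hs.eigenvalues rfl i)) • e i := by
    intro i
    rw [aeval_apply_sum Q p le_rfl, eval_eq_sum_range, Finset.sum_smul]
    apply Finset.sum_congr rfl
    intro k _
    rw [hpow, smul_smul]
  rw [← e.sum_inner_mul_inner]
  apply Finset.sum_nonneg
  intro i _
  rw [aeval_symm Q hQ, hpe, inner_smul_right, real_inner_comm]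
  have := hp _ (hmem i).1 (hmem i).2
  nlinarith [mul_self_nonneg (inner ℝ (e i) v)]

/-- general case: compress to the Krylov space -/
theorem poly_nonneg_inner (Q : E →ₗ[ℝ] E) (hQ : ∀ x y, inner ℝ (Q x) y = inner ℝ x (Q y)) (a b : ℝ)
    (ha : ∀ x, a * inner ℝ x x ≤ inner ℝ (Q x) x) (hb : ∀ x, inner ℝ (Q x) x ≤ b * inner ℝ x x)
    (p : ℝ[X]) (hp : ∀ t, a ≤ t → t ≤ b → 0 ≤ p.eval t) (v : E) :
    0 ≤ inner ℝ (aeval Q p v) v := by
  let n := p.natDegree
  let K : Submodule ℝ E := Submodule.span ℝ (Set.range fun k : Fin (n + 1) => (Q ^ (k : ℕ)) v)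
  have hfd : FiniteDimensional ℝ K := FiniteDimensional.span_of_finite ℝ (Set.finite_range _)
  have hmemK : ∀ k ≤ n, (Q ^ k) v ∈ K := fun k hk =>
    Submodule.subset_span ⟨⟨k, Nat.lt_succ_of_le hk⟩, rfl⟩
  have hv : v ∈ K := by simpa using hmemK 0 (Nat.zero_le _)
  let Qn : K →ₗ[ℝ] K := K.orthogonalProjectionOnto.toLinearMap ∘ₗ Q ∘ₗ K.subtype
  have hin : ∀ x y : K, inner ℝ (Qn x) y = inner ℝ (Q (x : E)) (y : E) := by
    intro x y
    show inner ℝ (K.orthogonalProjectionOnto (Q (x : E))) y = _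
    rw [Submodule.inner_orthogonalProjectionOnto_eq_of_mem_right]
  have hQn : ∀ x y : K, inner ℝ (Qn x) y = inner ℝ x (Qn y) := by
    intro x y
    rw [hin, hQ, real_inner_comm, real_inner_comm (Qn y) x, hin]
  have hpowK : ∀ k ≤ n, (((Qn ^ k) ⟨v, hv⟩ : K) : E) = (Q ^ k) v := by
    intro k
    induction k with
    | zero => intro _; simp
    | succ k ih =>
      intro hk
      have h1 : (Qn ^ (k + 1)) ⟨v, hv⟩ = Qn ((Qn ^ k) ⟨v, hv⟩) := by
        rw [pow_succ', Module.End.mul_apply]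
      have h2 : (Q ^ (k + 1)) v = Q ((Q ^ k) v) := by rw [pow_succ', Module.End.mul_apply]
      rw [h1]
      show ((K.orthogonalProjectionOnto (Q (((Qn ^ k) ⟨v, hv⟩ : K) : E)) : K) : E) = _
      rw [ih (by omega), ← h2]
      exact (Submodule.orthogonalProjectionOnto_mem_subspace_eq_self (K := K) ⟨_, hmemK (k + 1) hk⟩ ▸ rfl)
  have hval : ((aeval Qn p (⟨v, hv⟩ : K) : K) : E) = aeval Q p v := by
    rw [aeval_apply_sum Qn p (le_refl n), aeval_apply_sum Q p (le_refl n), Submodule.coe_sum]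
    apply Finset.sum_congr rfl
    intro k hk
    rw [Submodule.coe_smul, hpowK k (Nat.lt_succ_iff.mp (Finset.mem_range.mp hk))]
  have := poly_nonneg_fd Qn hQn a b
    (fun x => by rw [hin]; exact ha _) (fun x => by rw [hin]; exact hb _) p hp ⟨v, hv⟩
  rw [Submodule.coe_inner, hval] at this
  exact this

end inner

/-! ### explicit forms -/

/-- a positive definite symmetric form -/
structure Pre (V : Type*) [AddCommGroup V] [Module ℝ V] where
  /-- the form -/
  ip : LinearMap.BilinForm ℝ V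
  symm : ∀ x y, ip x y = ip y x
  pos : ∀ x, x ≠ 0 → 0 < ip x x

section pre

variable {V : Type*} [AddCommGroup V] [Module ℝ V] (P : Pre V)

theorem Pre.nonneg (x : V) : 0 ≤ P.ip x x := by
  by_cases h : x = 0
  · subst h; simp
  · exact (P.pos x h).le

/-- `Q` is symmetric for `ip` -/
def Sy (P : Pre V) (Q : V →ₗ[ℝ] V) : Prop := ∀ x y, P.ip (Q x) y = P.ip x (Q y)

/-- `a ≤ Q ≤ b` in the sense of forms -/
def Btw (P : Pre V) (Q : V →ₗ[ℝ] V) (a b : ℝ) : Prop :=
  ∀ x, a * P.ip x x ≤ P.ip (Q x) x ∧ P.ip (Q x) x ≤ b * P.ip x x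

theorem Sy.pow {P : Pre V} {Q : V →ₗ[ℝ] V} (hQ : Sy P Q) (n : ℕ) : Sy P (Q ^ n) := by
  induction n with
  | zero => intro x y; simp
  | succ n ih =>
    intro x y
    have h1 : (Q ^ (n + 1)) x = (Q ^ n) (Q x) := by rw [pow_succ, Module.End.mul_apply]
    have h2 : (Q ^ (n + 1)) y = Q ((Q ^ n) y) := by rw [pow_succ', Module.End.mul_apply]
    rw [h1, h2, ih, hQ]

theorem Sy.aeval {P : Pre V} {Q : V →ₗ[ℝ] V} (hQ : Sy P Q) (p : ℝ[X]) :
    Sy P (Polynomial.aeval Q p) := by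
  intro x y
  rw [aeval_apply_sum Q p le_rfl, aeval_apply_sum Q p le_rfl, map_sum, map_sum,
    LinearMap.sum_apply]
  apply Finset.sum_congr rfl
  intro k _
  rw [map_smul, map_smul, LinearMap.smul_apply, hQ.pow]

/-- **Positivity of polynomials.** -/
theorem poly_nonneg {P : Pre V} {Q : V →ₗ[ℝ] V} (hQ : Sy P Q) {a b : ℝ} (hab : Btw P Q a b)
    (p : ℝ[X]) (hp : ∀ t, a ≤ t → t ≤ b → 0 ≤ p.eval t) (v : V) :
    0 ≤ P.ip v (Polynomial.aeval Q p v) := by
  let c : InnerProductSpace.Core ℝ V :=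
    { inner := fun x y => P.ip x y
      conj_inner_symm := fun x y => by simp [P.symm x y]
      re_inner_nonneg := fun x => by simpa using P.nonneg x
      add_left := fun x y z => by simp
      smul_left := fun x y r => by simp
      definite := fun x hx => by
        by_contra hne
        exact (P.pos x hne).ne' hx }
  let : NormedAddCommGroup V := c.toNormedAddCommGroup
  let : InnerProductSpace ℝ V := InnerProductSpace.ofCore c.toCore
  have hin : ∀ x y : V, inner ℝ x y = P.ip x y := fun x y => rfl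
  have := poly_nonneg_inner Q (fun x y => by rw [hin, hin]; exact hQ x y) a b
    (fun x => by rw [hin, hin]; exact (hab x).1) (fun x => by rw [hin, hin]; exact (hab x).2) p hp v
  rw [hin, P.symm] at this
  exact this

theorem poly_mono {P : Pre V} {Q : V →ₗ[ℝ] V} (hQ : Sy P Q) {a b : ℝ} (hab : Btw P Q a b)
    (p q : ℝ[X]) (hpq : ∀ t, a ≤ t → t ≤ b → p.eval t ≤ q.eval t) (v : V) :
    P.ip v (Polynomial.aeval Q p v) ≤ P.ip v (Polynomial.aeval Q q v) := by
  have := poly_nonneg hQ hab (q - p) (fun t h1 h2 => by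
    rw [eval_sub]; exact sub_nonneg.mpr (hpq t h1 h2)) v
  rw [map_sub, LinearMap.sub_apply, map_sub] at this
  linarith

/-- Cauchy-Schwarz for a positive semidefinite form -/
theorem form_cs (B : LinearMap.BilinForm ℝ V) (hs : ∀ x y, B x y = B y x) (hp : ∀ x, 0 ≤ B x x)
    (x y : V) : (B x y) ^ 2 ≤ B x x * B y y := by
  have key : ∀ t : ℝ, 0 ≤ B x x * (t * t) + (2 * B x y) * t + B y y := by
    intro t
    have h := hp (t • x + y)
    simp only [map_add, map_smul, LinearMap.add_apply, LinearMap.smul_apply, smul_eq_mul] at h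
    rw [hs y x] at h
    linarith
  have h := discrim_le_zero key
  unfold discrim at h
  nlinarith

theorem form_abs_le (B : LinearMap.BilinForm ℝ V) (hs : ∀ x y, B x y = B y x) (hp : ∀ x, 0 ≤ B x x)
    (x y : V) : |B x y| ≤ √(B x x) * √(B y y) := by
  rw [← Real.sqrt_mul (hp x)]
  exact Real.abs_le_sqrt (form_cs B hs hp x y)

/-- the form `⟨x, p(Q) y⟩` -/
def BP (P : Pre V) (Q : V →ₗ[ℝ] V) (p : ℝ[X]) : LinearMap.BilinForm ℝ V :=
  P.ip.compl₁₂ LinearMap.id (Polynomial.aeval Q p)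

theorem BP_apply (Q : V →ₗ[ℝ] V) (p : ℝ[X]) (x y : V) :
    BP P Q p x y = P.ip x (Polynomial.aeval Q p y) := rfl

theorem BP_symm {P : Pre V} {Q : V →ₗ[ℝ] V} (hQ : Sy P Q) (p : ℝ[X]) (x y : V) :
    BP P Q p x y = BP P Q p y x := by
  rw [BP_apply, BP_apply, ← hQ.aeval p, P.symm]

theorem BP_nonneg {P : Pre V} {Q : V →ₗ[ℝ] V} (hQ : Sy P Q) {a b : ℝ} (hab : Btw P Q a b)
    (p : ℝ[X]) (hp : ∀ t, a ≤ t → t ≤ b → 0 ≤ p.eval t) (x : V) : 0 ≤ BP P Q p x x :=
  poly_nonneg hQ hab p hp x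

theorem BP_mono {P : Pre V} {Q : V →ₗ[ℝ] V} (hQ : Sy P Q) {a b : ℝ} (hab : Btw P Q a b)
    (p q : ℝ[X]) (hpq : ∀ t, a ≤ t → t ≤ b → p.eval t ≤ q.eval t) (x : V) :
    BP P Q p x x ≤ BP P Q q x x := poly_mono hQ hab p q hpq x

theorem BP_add (Q : V →ₗ[ℝ] V) (p q : ℝ[X]) (x y : V) :
    BP P Q (p + q) x y = BP P Q p x y + BP P Q q x y := by
  rw [BP_apply, map_add, LinearMap.add_apply, map_add]; rfl

theorem BP_smul (Q : V →ₗ[ℝ] V) (c : ℝ) (p : ℝ[X]) (x y : V) :
    BP P Q (C c * p) x y = c * BP P Q p x y := by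
  rw [BP_apply, map_mul, aeval_C, Module.End.mul_apply, Module.algebraMap_end_apply, map_smul,
    smul_eq_mul]
  rfl

theorem BP_one (Q : V →ₗ[ℝ] V) (x y : V) : BP P Q 1 x y = P.ip x y := by
  rw [BP_apply, map_one]; rfl

theorem BP_sum {ι : Type*} (Q : V →ₗ[ℝ] V) (s : Finset ι) (p : ι → ℝ[X]) (x y : V) :
    BP P Q (∑ j ∈ s, p j) x y = ∑ j ∈ s, BP P Q (p j) x y := by
  rw [BP_apply, map_sum, LinearMap.sum_apply, map_sum]; rfl

theorem BP_aeval_right (Q : V →ₗ[ℝ] V) (p q : ℝ[X]) (x y : V) :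
    BP P Q p x (Polynomial.aeval Q q y) = BP P Q (p * q) x y := by
  rw [BP_apply, BP_apply, map_mul, Module.End.mul_apply]

theorem BP_aeval_left {P : Pre V} {Q : V →ₗ[ℝ] V} (hQ : Sy P Q) (p q : ℝ[X]) (x y : V) :
    BP P Q p (Polynomial.aeval Q q x) y = BP P Q (q * p) x y := by
  rw [BP_apply, BP_apply, hQ.aeval, map_mul, Module.End.mul_apply]

theorem BP_abs_le {P : Pre V} {Q : V →ₗ[ℝ] V} (hQ : Sy P Q) {a b : ℝ} (hab : Btw P Q a b)
    (p : ℝ[X]) (hp : ∀ t, a ≤ t → t ≤ b → 0 ≤ p.eval t) (x y : V) :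
    |BP P Q p x y| ≤ √(BP P Q p x x) * √(BP P Q p y y) :=
  form_abs_le _ (BP_symm hQ p) (BP_nonneg hQ hab p hp) x y

/-! ### antisymmetric operators -/

/-- `A` is antisymmetric for `ip` -/
def Asy (P : Pre V) (A : V →ₗ[ℝ] V) : Prop := ∀ x y, P.ip (A x) y = -P.ip x (A y)

/-- `Q = -A²` -/
def QA (A : V →ₗ[ℝ] V) : V →ₗ[ℝ] V := -(A * A)

theorem QA_apply (A : V →ₗ[ℝ] V) (x : V) : QA A x = -A (A x) := rfl

theorem Asy.sy {P : Pre V} {A : V →ₗ[ℝ] V} (hA : Asy P A) : Sy P (QA A) := by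
  intro x y
  rw [QA_apply, QA_apply, map_neg, map_neg, LinearMap.neg_apply, hA, hA, neg_neg]

theorem Asy.ip_QA {P : Pre V} {A : V →ₗ[ℝ] V} (hA : Asy P A) (x y : V) :
    P.ip x (QA A y) = P.ip (A x) (A y) := by
  rw [QA_apply, map_neg, hA x (A y)]

/-- `m² |x|² ≤ |A x|² ≤ Λ |x|²` -/
def ABtw (P : Pre V) (A : V →ₗ[ℝ] V) (a b : ℝ) : Prop :=
  ∀ x, a * P.ip x x ≤ P.ip (A x) (A x) ∧ P.ip (A x) (A x) ≤ b * P.ip x x

theorem ABtw.btw {P : Pre V} {A : V →ₗ[ℝ] V} (hA : Asy P A) {a b : ℝ} (h : ABtw P A a b) :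
    Btw P (QA A) a b := by
  intro x
  rw [hA.sy x x, hA.ip_QA]
  exact h x

theorem A_comm_QA (A : V →ₗ[ℝ] V) : Commute A (QA A) := by
  unfold QA
  simp [Commute, SemiconjBy, mul_assoc]

theorem A_aeval (A : V →ₗ[ℝ] V) (p : ℝ[X]) (x : V) :
    A (Polynomial.aeval (QA A) p x) = Polynomial.aeval (QA A) p (A x) := by
  rw [aeval_apply_sum (QA A) p le_rfl, aeval_apply_sum (QA A) p le_rfl, map_sum]
  apply Finset.sum_congr rfl
  intro k _
  rw [map_smul]
  congr 1
  have := ((A_comm_QA A).pow_right k).eq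
  exact congrArg (fun f => f x) this

/-- `A` on both sides multiplies the polynomial by `X` -/
theorem BP_A_A {P : Pre V} {A : V →ₗ[ℝ] V} (hA : Asy P A) (p : ℝ[X]) (x y : V) :
    BP P (QA A) p (A x) (A y) = BP P (QA A) (X * p) x y := by
  rw [BP_apply, BP_apply, map_mul, aeval_X, Module.End.mul_apply, hA.ip_QA, A_aeval]

theorem BP_pow {P : Pre V} {A : V →ₗ[ℝ] V} (hA : Asy P A) (n : ℕ) (x : V) :
    BP P (QA A) (X ^ n) x x = P.ip ((A ^ n) x) ((A ^ n) x) := by
  induction n generalizing x with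
  | zero => rw [pow_zero, BP_one]; simp
  | succ n ih =>
    rw [pow_succ', ← BP_A_A hA, ih]
    have : (A ^ (n + 1)) x = (A ^ n) (A x) := by rw [pow_succ, Module.End.mul_apply]
    rw [this]

/-- the polynomial `(1 + a X) ^ M` -/
def opl (a : ℝ) (M : ℕ) : ℝ[X] := (1 + C a * X) ^ M

theorem opl_eval (a : ℝ) (M : ℕ) (t : ℝ) : (opl a M).eval t = (1 + a * t) ^ M := by
  unfold opl; simp

/-- binomial expansion of the dual norm -/
theorem BP_opl {P : Pre V} {A : V →ₗ[ℝ] V} (hA : Asy P A) (a : ℝ) (M : ℕ) (x : V) :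
    BP P (QA A) (opl a M) x x =
      ∑ n ∈ range (M + 1), (M.choose n : ℝ) * a ^ n * P.ip ((A ^ n) x) ((A ^ n) x) := by
  have h : opl a M = ∑ n ∈ range (M + 1), C ((M.choose n : ℝ) * a ^ n) * X ^ n := by
    unfold opl
    rw [add_comm, add_pow]
    apply Finset.sum_congr rfl
    intro n _
    rw [one_pow, mul_one, mul_pow, C_mul, C_pow]
    simp only [map_natCast]
    ring
  rw [h, BP_sum]
  apply Finset.sum_congr rfl
  intro n _
  rw [BP_smul, BP_pow hA]

end pre

end Crest.Agent.R165.FRDAbsx439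
end
end

-- ▼ part R165/FRDInf_439
section

/-!
# Row 165, block G: slices, Gram forms and dual weights on a pre-Hilbert space of fields

`V` any real vector space with a form `P : Pre V` (for instance finitely supported fields on an infinite
lattice), `A` antisymmetric for `P.ip`, `Q = -A²`.
* `SP hA p` the covariance `⟨x, A p(Q) y⟩`, `GP P A p c` its Gram form
* `slice D hA j`, `gform P D A j`
* `restS`: the covariance `⟨x, S p(Q) y⟩` for `S = -A⁻¹`
* `RD P A a M l = sup {⟨l, f⟩ : ⟨f, (1 + a Q)^M f⟩ ≤ 1}`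
-/

set_option autoImplicit false

noncomputable section

namespace Crest.Agent.R165.FRDInfx439

open Finset hiding slice
open Polynomial Crest.Agent.R165.FRDAbsx439 Crest.Agent.R165.FRDPolyx439
  Crest.Agent.R165.Gr0x606 Crest.Agent.R165.GramHx439

section cov

variable {V : Type*} [AddCommGroup V] [Module ℝ V] {P : Pre V} {A : V →ₗ[ℝ] V}

/-- the covariance `⟨x, A p(Q) y⟩` -/
def SP (hA : Asy P A) (p : ℝ[X]) : Cov V where
  b := P.ip.compl₁₂ LinearMap.id (A ∘ₗ Polynomial.aeval (QA A) p)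
  alt := by
    intro x
    show P.ip x (A (Polynomial.aeval (QA A) p x)) = 0
    have h1 : P.ip x (A (Polynomial.aeval (QA A) p x)) =
        -P.ip x (A (Polynomial.aeval (QA A) p x)) := by
      conv_lhs => rw [← neg_neg (P.ip x (A (Polynomial.aeval (QA A) p x))), ← hA,
        ← hA.sy.aeval p, ← A_aeval, P.symm]
    linarith

theorem SP_apply (hA : Asy P A) (p : ℝ[X]) (x y : V) :
    (SP hA p).b x y = P.ip x (A (Polynomial.aeval (QA A) p y)) := rfl

theorem SP_eq_BP (hA : Asy P A) (p : ℝ[X]) (x y : V) :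
    (SP hA p).b x y = BP P (QA A) p x (A y) := by
  rw [SP_apply, BP_apply, A_aeval]

theorem SP_add (hA : Asy P A) (p q : ℝ[X]) : SP hA (p + q) = SP hA p + SP hA q := by
  apply Cov.ext
  ext x y
  rw [Cov.add_b, LinearMap.add_apply, LinearMap.add_apply, SP_apply, SP_apply, SP_apply, map_add,
    LinearMap.add_apply, map_add, map_add]

theorem SP_zero (hA : Asy P A) : SP hA 0 = 0 := by
  apply Cov.ext
  ext x y
  rw [SP_apply, map_zero]
  simp

theorem SP_sum {ι : Type*} (hA : Asy P A) (s : Finset ι) (p : ι → ℝ[X]) :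
    SP hA (∑ j ∈ s, p j) = ∑ j ∈ s, SP hA (p j) := by
  classical
  induction s using Finset.induction_on with
  | empty => simp [SP_zero]
  | insert a s ha ih => rw [Finset.sum_insert ha, Finset.sum_insert ha, SP_add, ih]

/-- Gram form `(c⁻¹ p(Q) + c Q p(Q)) / 2` -/
def GP (P : Pre V) (A : V →ₗ[ℝ] V) (p : ℝ[X]) (c : ℝ) : LinearMap.BilinForm ℝ V :=
  BP P (QA A) (C (1 / 2) * ((C c⁻¹ + C c * X) * p))

theorem GP_symm (hA : Asy P A) (p : ℝ[X]) (c : ℝ) (x y : V) : GP P A p c x y = GP P A p c y x :=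
  BP_symm hA.sy _ x y

theorem GP_eq (p : ℝ[X]) (c : ℝ) (x y : V) :
    GP P A p c x y = 1 / 2 * (c⁻¹ * BP P (QA A) p x y + c * BP P (QA A) (X * p) x y) := by
  unfold GP
  rw [BP_smul]
  have : (C c⁻¹ + C c * X) * p = C c⁻¹ * p + C c * (X * p) := by ring
  rw [this, BP_add, BP_smul, BP_smul]

variable {a b : ℝ}

theorem GP_nonneg (hA : Asy P A) (h : ABtw P A a b) (ha : 0 ≤ a) (p : ℝ[X])
    (hp : ∀ t, a ≤ t → t ≤ b → 0 ≤ p.eval t) (c : ℝ) (hc : 0 < c) (x : V) : 0 ≤ GP P A p c x x := by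
  apply BP_nonneg hA.sy (h.btw hA)
  intro t h1 h2
  have h3 := hp t h1 h2
  have h4 : 0 ≤ t := ha.trans h1
  simp only [eval_mul, eval_C, eval_add, eval_X]
  positivity

theorem sqrt_mul_sqrt_le (a b c : ℝ) (ha : 0 ≤ a) (hb : 0 ≤ b) (hc : 0 < c) :
    √a * √b ≤ 1 / 2 * (c⁻¹ * a + c * b) := by
  have h1 : √a * √b = √(c⁻¹ * a) * √(c * b) := by
    rw [← Real.sqrt_mul ha, ← Real.sqrt_mul (by positivity)]
    congr 1
    field_simp
  have h2 := two_mul_le_add_sq (√(c⁻¹ * a)) (√(c * b))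
  rw [Real.sq_sqrt (by positivity), Real.sq_sqrt (by positivity)] at h2
  rw [h1]
  linarith

/-- **Gram bound of `A p(Q)`.** -/
theorem SP_le (hA : Asy P A) (h : ABtw P A a b) (ha : 0 ≤ a) (p : ℝ[X])
    (hp : ∀ t, a ≤ t → t ≤ b → 0 ≤ p.eval t) (c : ℝ) (hc : 0 < c) (x y : V) :
    |(SP hA p).b x y| ≤ √(GP P A p c x x) * √(GP P A p c y y) := by
  have hXp : ∀ t, a ≤ t → t ≤ b → 0 ≤ (X * p).eval t := fun t h1 h2 => by
    rw [eval_mul, eval_X]; exact mul_nonneg (ha.trans h1) (hp t h1 h2)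
  have key : ∀ x y : V, |(SP hA p).b x y| ≤
      √(BP P (QA A) p x x) * √(BP P (QA A) (X * p) y y) := by
    intro x y
    rw [SP_eq_BP, ← BP_A_A hA p y y]
    exact BP_abs_le hA.sy (h.btw hA) p hp x (A y)
  have h1 := key x y
  have h2 := key y x
  have h3 : |(SP hA p).b y x| = |(SP hA p).b x y| := by
    rw [Cov.skew, abs_neg]
  rw [h3] at h2
  set u := BP P (QA A) p x x
  set v := BP P (QA A) (X * p) x x
  set u' := BP P (QA A) p y y
  set v' := BP P (QA A) (X * p) y y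
  have hu : 0 ≤ u := BP_nonneg hA.sy (h.btw hA) p hp x
  have hv : 0 ≤ v := BP_nonneg hA.sy (h.btw hA) _ hXp x
  have hu' : 0 ≤ u' := BP_nonneg hA.sy (h.btw hA) p hp y
  have hv' : 0 ≤ v' := BP_nonneg hA.sy (h.btw hA) _ hXp y
  have h4 : |(SP hA p).b x y| ^ 2 ≤ (√u * √v) * (√u' * √v') := by
    calc |(SP hA p).b x y| ^ 2 = |(SP hA p).b x y| * |(SP hA p).b x y| := sq _
      _ ≤ (√u * √v') * (√u' * √v) := mul_le_mul h1 h2 (abs_nonneg _) (by positivity)
      _ = (√u * √v) * (√u' * √v') := by ring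
  have h5 : √u * √v ≤ GP P A p c x x := by
    rw [GP_eq]; exact sqrt_mul_sqrt_le u v c hu hv hc
  have h6 : √u' * √v' ≤ GP P A p c y y := by
    rw [GP_eq]; exact sqrt_mul_sqrt_le u' v' c hu' hv' hc
  have h7 : |(SP hA p).b x y| ^ 2 ≤ GP P A p c x x * GP P A p c y y :=
    h4.trans (mul_le_mul h5 h6 (by positivity) (GP_nonneg hA h ha p hp c hc x))
  rw [← Real.sqrt_mul (GP_nonneg hA h ha p hp c hc x)]
  exact Real.le_sqrt_of_sq_le h7

/-- sum of finitely many covariances with Gram forms -/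
theorem sum_cov_le {ι : Type*} (s : Finset ι) (S : ι → Cov V)
    (B : ι → LinearMap.BilinForm ℝ V) (hpos : ∀ j ∈ s, ∀ x, 0 ≤ B j x x)
    (hS : ∀ j ∈ s, ∀ x y, |(S j).b x y| ≤ √(B j x x) * √(B j y y)) (x y : V) :
    |(∑ j ∈ s, S j).b x y| ≤ √((∑ j ∈ s, B j) x x) * √((∑ j ∈ s, B j) y y) := by
  classical
  have hb : (∑ j ∈ s, S j).b x y = ∑ j ∈ s, (S j).b x y := by
    induction s using Finset.induction_on with
    | empty => simp
    | insert a s ha ih =>
      rw [Finset.sum_insert ha, Finset.sum_insert ha, Cov.add_b, LinearMap.add_apply,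
        LinearMap.add_apply, ih (fun j hj => hpos j (Finset.mem_insert_of_mem hj))
          (fun j hj => hS j (Finset.mem_insert_of_mem hj))]
  have hBx : ∀ z, (∑ j ∈ s, B j) z z = ∑ j ∈ s, B j z z := by
    intro z
    simp [LinearMap.sum_apply]
  rw [hb, hBx, hBx]
  have h1 : |∑ j ∈ s, (S j).b x y| ≤ ∑ j ∈ s, √(B j x x) * √(B j y y) :=
    (Finset.abs_sum_le_sum_abs _ _).trans (Finset.sum_le_sum fun j hj => hS j hj x y)
  refine h1.trans ?_
  have h2 := Finset.sum_mul_sq_le_sq_mul_sq s (fun j => √(B j x x)) (fun j => √(B j y y))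
  have h3 : ∀ z, ∑ j ∈ s, (√(B j z z)) ^ 2 = ∑ j ∈ s, B j z z := fun z =>
    Finset.sum_congr rfl fun j hj => Real.sq_sqrt (hpos j hj z)
  rw [h3, h3] at h2
  rw [← Real.sqrt_mul (Finset.sum_nonneg fun j hj => hpos j hj x)]
  exact Real.le_sqrt_of_sq_le h2

/-! ### slices -/

variable {L : ℝ} {M K : ℕ} (D : FRD L M K)

/-- the slice covariance `S_j = A w_j(Q)` -/
def slice (hA : Asy P A) (j : ℕ) : Cov V := SP hA (D.w j)

/-- the Gram form of a slice, `(2^(-j) w_j(Q) + 2^j Q w_j(Q)) / 2` -/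
def gform (P : Pre V) (D : FRD L M K) (A : V →ₗ[ℝ] V) (j : ℕ) : LinearMap.BilinForm ℝ V :=
  GP P A (D.w j) (2 ^ j)

theorem gform_symm (hA : Asy P A) (j : ℕ) (x y : V) : gform P D A j x y = gform P D A j y x :=
  GP_symm hA _ _ x y

theorem gform_nonneg (hA : Asy P A) (h : ABtw P A 0 L) (j : ℕ) (x : V) : 0 ≤ gform P D A j x x :=
  GP_nonneg hA h le_rfl _ (D.w_nonneg j) _ (by positivity) x

theorem slice_le (hA : Asy P A) (h : ABtw P A 0 L) (j : ℕ) (x y : V) :
    |(slice D hA j).b x y| ≤ √(gform P D A j x x) * √(gform P D A j y y) :=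
  SP_le hA h le_rfl _ (D.w_nonneg j) _ (by positivity) x y

theorem slices_le (hA : Asy P A) (h : ABtw P A 0 L) (s : Finset ℕ) (x y : V) :
    |(∑ j ∈ s, slice D hA j).b x y| ≤
      √((∑ j ∈ s, gform P D A j) x x) * √((∑ j ∈ s, gform P D A j) y y) :=
  sum_cov_le s _ _ (fun j _ => gform_nonneg D hA h j) (fun j _ => slice_le D hA h j) x y

/-- Gram-Hadamard for a block of scales -/
theorem EE_slices_le (hA : Asy P A) (h : ABtw P A 0 L) (s : Finset ℕ) (l : List V) :
    |EE (∑ j ∈ s, slice D hA j) (l.map fi).prod| ≤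
      (l.map fun x => √((∑ j ∈ s, gform P D A j) x x)).prod := by
  refine gram_hadamard _ (∑ j ∈ s, gform P D A j) ?_ ?_ (slices_le D hA h s) l
  · intro x y
    simp only [LinearMap.sum_apply]
    exact Finset.sum_congr rfl fun j _ => gform_symm D hA j x y
  · intro x
    simp only [LinearMap.sum_apply]
    exact Finset.sum_nonneg fun j _ => gform_nonneg D hA h j x

/-! ### the inverse and the last covariance -/

/-- `S = -A⁻¹` on the space `V` -/
structure IsNegInv (A S : V →ₗ[ℝ] V) : Prop where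
  right : ∀ x, A (S x) = -x
  left : ∀ x, S (A x) = -x

variable {S : V →ₗ[ℝ] V}

theorem IsNegInv.asy (hS : IsNegInv A S) (hA : Asy P A) : Asy P S := by
  intro x y
  have h1 : P.ip (S x) y = -P.ip (S x) (A (S y)) := by rw [hS.right, map_neg, neg_neg]
  have h2 := hA (S x) (S y)
  rw [hS.right, map_neg, LinearMap.neg_apply] at h2
  linarith

theorem IsNegInv.comm_QA (hS : IsNegInv A S) (x : V) : S (QA A x) = QA A (S x) := by
  rw [QA_apply, QA_apply, map_neg, hS.left, hS.right, map_neg]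

theorem IsNegInv.aeval (hS : IsNegInv A S) (p : ℝ[X]) (x : V) :
    S (Polynomial.aeval (QA A) p x) = Polynomial.aeval (QA A) p (S x) := by
  have hpow : ∀ (n : ℕ) (x : V), S ((QA A ^ n) x) = (QA A ^ n) (S x) := by
    intro n
    induction n with
    | zero => intro x; simp
    | succ n ih =>
      intro x
      rw [pow_succ', Module.End.mul_apply, Module.End.mul_apply, hS.comm_QA, ih]
  rw [aeval_apply_sum (QA A) p le_rfl, aeval_apply_sum (QA A) p le_rfl, map_sum]
  exact Finset.sum_congr rfl fun k _ => by rw [map_smul, hpow]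

/-- the covariance `⟨x, S p(Q) y⟩` -/
def restS (hA : Asy P A) (hS : IsNegInv A S) (p : ℝ[X]) : Cov V where
  b := P.ip.compl₁₂ LinearMap.id (S ∘ₗ Polynomial.aeval (QA A) p)
  alt := by
    intro x
    show P.ip x (S (Polynomial.aeval (QA A) p x)) = 0
    have h1 : P.ip x (S (Polynomial.aeval (QA A) p x)) =
        -P.ip x (S (Polynomial.aeval (QA A) p x)) := by
      conv_lhs => rw [← neg_neg (P.ip x (S (Polynomial.aeval (QA A) p x))), ← hS.asy hA,
        ← hA.sy.aeval p, ← hS.aeval, P.symm]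
    linarith

theorem restS_apply (hA : Asy P A) (hS : IsNegInv A S) (p : ℝ[X]) (x y : V) :
    (restS hA hS p).b x y = P.ip x (S (Polynomial.aeval (QA A) p y)) := rfl

/-- decomposition of the full covariance `S = -A⁻¹` -/
theorem sum_slice_add_rest (hA : Asy P A) (hS : IsNegInv A S) (J : ℕ) :
    ∑ j ∈ range J, slice D hA j + restS hA hS (D.r J) = restS hA hS 1 := by
  unfold slice
  rw [← SP_sum]
  apply Cov.ext
  ext x y
  rw [Cov.add_b, LinearMap.add_apply, LinearMap.add_apply, SP_apply, restS_apply, restS_apply,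
    ← map_add]
  congr 1
  have h1 : ∀ z, A z = S (QA A z) := by
    intro z
    rw [QA_apply, map_neg, hS.left, neg_neg]
  have h2 : QA A (Polynomial.aeval (QA A) (∑ j ∈ range J, D.w j) y) =
      Polynomial.aeval (QA A) (X * ∑ j ∈ range J, D.w j) y := by
    rw [map_mul, aeval_X, Module.End.mul_apply]
  rw [h1, h2, D.X_mul_sum, ← map_add S, ← LinearMap.add_apply, ← map_add, sub_add_cancel]

/-- Gram bound of the last covariance: `|A v| ≥ m |v|` -/
theorem restS_le (hA : Asy P A) (hS : IsNegInv A S) {m : ℝ} (hm : 0 < m) (h : ABtw P A (m ^ 2) b)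
    (p : ℝ[X]) (hp : ∀ t, m ^ 2 ≤ t → t ≤ b → 0 ≤ p.eval t) (x y : V) :
    |(restS hA hS p).b x y| ≤
      √((m⁻¹ • BP P (QA A) p) x x) * √((m⁻¹ • BP P (QA A) p) y y) := by
  have h1 : (restS hA hS p).b x y = BP P (QA A) p x (S y) := by
    rw [restS_apply, BP_apply, hS.aeval]
  have h2 := BP_abs_le hA.sy (h.btw hA) p hp x (S y)
  have h3 : m ^ 2 * BP P (QA A) p (S y) (S y) ≤ BP P (QA A) p y y := by
    have h4 : BP P (QA A) p y y = BP P (QA A) (X * p) (S y) (S y) := by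
      rw [← BP_A_A hA, hS.right]
      simp
    rw [h4, ← BP_smul]
    apply BP_mono hA.sy (h.btw hA)
    intro t h5 h6
    simp only [eval_mul, eval_C, eval_X]
    exact mul_le_mul_of_nonneg_right h5 (hp t h5 h6)
  have hx := BP_nonneg hA.sy (h.btw hA) p hp x
  have hy := BP_nonneg hA.sy (h.btw hA) p hp y
  have hSy := BP_nonneg hA.sy (h.btw hA) p hp (S y)
  have h5 : √(BP P (QA A) p (S y) (S y)) ≤ m⁻¹ * √(BP P (QA A) p y y) := by
    have h6 : m⁻¹ * √(BP P (QA A) p y y) = √((m⁻¹) ^ 2 * BP P (QA A) p y y) := by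
      rw [Real.sqrt_mul (by positivity), Real.sqrt_sq (by positivity)]
    rw [h6]
    apply Real.sqrt_le_sqrt
    rw [inv_pow, inv_mul_eq_div, le_div_iff₀ (by positivity)]
    linarith
  rw [h1]
  simp only [LinearMap.smul_apply, smul_eq_mul]
  rw [Real.sqrt_mul (by positivity), Real.sqrt_mul (by positivity)]
  calc |BP P (QA A) p x (S y)| ≤ √(BP P (QA A) p x x) * (m⁻¹ * √(BP P (QA A) p y y)) :=
        h2.trans (mul_le_mul_of_nonneg_left h5 (Real.sqrt_nonneg _))
    _ = (√m⁻¹ * √m⁻¹) * (√(BP P (QA A) p x x) * √(BP P (QA A) p y y)) := by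
        rw [Real.mul_self_sqrt (by positivity)]; ring
    _ = _ := by ring

theorem EE_restS_le (hA : Asy P A) (hS : IsNegInv A S) {m : ℝ} (hm : 0 < m)
    (h : ABtw P A (m ^ 2) b) (p : ℝ[X]) (hp : ∀ t, m ^ 2 ≤ t → t ≤ b → 0 ≤ p.eval t) (l : List V) :
    |EE (restS hA hS p) (l.map fi).prod| ≤ (l.map fun x => √((m⁻¹ • BP P (QA A) p) x x)).prod := by
  refine gram_hadamard _ (m⁻¹ • BP P (QA A) p) ?_ ?_ (restS_le hA hS hm h p hp) l
  · intro x y
    simp only [LinearMap.smul_apply]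
    rw [BP_symm hA.sy]
  · intro x
    simp only [LinearMap.smul_apply, smul_eq_mul]
    have := BP_nonneg hA.sy (h.btw hA) p hp x
    positivity

/-! ### dual weights -/

/-- the dual weight `sup {⟨l, f⟩ : ⟨f, (1 + a Q)^M f⟩ ≤ 1}` -/
def RD (P : Pre V) (A : V →ₗ[ℝ] V) (a : ℝ) (M : ℕ) (l : V) : ℝ :=
  sSup {r | ∃ f, BP P (QA A) (opl a M) f f ≤ 1 ∧ r = P.ip l f}

theorem ip_le_opl (hA : Asy P A) {a : ℝ} (ha : 0 ≤ a) (M : ℕ) (f : V) :
    P.ip f f ≤ BP P (QA A) (opl a M) f f := by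
  rw [BP_opl hA, Finset.sum_range_succ']
  have h1 : 0 ≤ ∑ n ∈ range M, (M.choose (n + 1) : ℝ) * a ^ (n + 1) *
      P.ip ((A ^ (n + 1)) f) ((A ^ (n + 1)) f) :=
    Finset.sum_nonneg fun n _ => mul_nonneg (by positivity) (P.nonneg _)
  simpa using h1

theorem opl_nonneg (hA : Asy P A) {a : ℝ} (ha : 0 ≤ a) (M : ℕ) (f : V) :
    0 ≤ BP P (QA A) (opl a M) f f := (P.nonneg f).trans (ip_le_opl hA ha M f)

theorem ip_abs_le (P : Pre V) (x y : V) : |P.ip x y| ≤ √(P.ip x x) * √(P.ip y y) :=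
  form_abs_le P.ip P.symm P.nonneg x y

theorem RD_bddAbove (hA : Asy P A) {a : ℝ} (ha : 0 ≤ a) (M : ℕ) (l : V) :
    BddAbove {r | ∃ f, BP P (QA A) (opl a M) f f ≤ 1 ∧ r = P.ip l f} := by
  refine ⟨√(P.ip l l), ?_⟩
  rintro r ⟨f, hf, rfl⟩
  have h1 := ip_abs_le P l f
  have h2 : √(P.ip f f) ≤ 1 := by
    rw [Real.sqrt_le_one]
    exact (ip_le_opl hA ha M f).trans hf
  calc P.ip l f ≤ |P.ip l f| := le_abs_self _
    _ ≤ √(P.ip l l) * √(P.ip f f) := h1
    _ ≤ √(P.ip l l) * 1 := mul_le_mul_of_nonneg_left h2 (Real.sqrt_nonneg _)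
    _ = _ := mul_one _

theorem RD_nonempty (P : Pre V) (A : V →ₗ[ℝ] V) (a : ℝ) (M : ℕ) (l : V) :
    {r | ∃ f, BP P (QA A) (opl a M) f f ≤ 1 ∧ r = P.ip l f}.Nonempty :=
  ⟨0, 0, by simp, by simp⟩

theorem RD_nonneg (hA : Asy P A) {a : ℝ} (ha : 0 ≤ a) (M : ℕ) (l : V) : 0 ≤ RD P A a M l :=
  le_csSup (RD_bddAbove hA ha M l) ⟨0, by simp, by simp⟩

theorem RD_le_of (P : Pre V) (A : V →ₗ[ℝ] V) {a : ℝ} {M : ℕ} {l : V} {c : ℝ}
    (h : ∀ f, BP P (QA A) (opl a M) f f ≤ 1 → P.ip l f ≤ c) : RD P A a M l ≤ c := by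
  apply csSup_le (RD_nonempty P A a M l)
  rintro r ⟨f, hf, rfl⟩
  exact h f hf

/-- duality inequality -/
theorem ip_le_RD (hA : Asy P A) {a : ℝ} (ha : 0 ≤ a) (M : ℕ) (l f : V) :
    |P.ip l f| ≤ RD P A a M l * √(BP P (QA A) (opl a M) f f) := by
  have key : ∀ f : V, P.ip l f ≤ RD P A a M l * √(BP P (QA A) (opl a M) f f) := by
    intro f
    rcases (opl_nonneg hA ha M f).eq_or_lt with h0 | h0
    · have h1 : P.ip f f = 0 :=
        le_antisymm (h0 ▸ ip_le_opl hA ha M f) (P.nonneg f)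
      have h2 : f = 0 := by
        by_contra hne
        exact (P.pos f hne).ne' h1
      rw [h2]; simp
    · set B := BP P (QA A) (opl a M) f f
      have hB : 0 < √B := Real.sqrt_pos.mpr h0
      have h1 : P.ip l ((√B)⁻¹ • f) ≤ RD P A a M l := by
        apply le_csSup (RD_bddAbove hA ha M l)
        refine ⟨(√B)⁻¹ • f, ?_, rfl⟩
        simp only [map_smul, LinearMap.smul_apply, smul_eq_mul]
        have h3 : (√B)⁻¹ * ((√B)⁻¹ * B) = 1 := by
          field_simp
          rw [Real.sq_sqrt h0.le]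
        exact h3.le
      rw [map_smul, smul_eq_mul, inv_mul_eq_div, div_le_iff₀ hB] at h1
      exact h1
  rw [abs_le]
  constructor
  · have h := key (-f)
    simp only [map_neg, LinearMap.neg_apply, neg_neg] at h
    linarith
  · exact key f

theorem RD_le_of' (_hA : Asy P A) {a : ℝ} (_ha : 0 ≤ a) {M : ℕ} {l : V} {c : ℝ} (hc : 0 ≤ c)
    (h : ∀ f, P.ip l f ≤ c * √(BP P (QA A) (opl a M) f f)) : RD P A a M l ≤ c := by
  apply RD_le_of
  intro f hf
  refine (h f).trans ?_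
  have : √(BP P (QA A) (opl a M) f f) ≤ 1 := Real.sqrt_le_one.mpr hf
  calc c * √(BP P (QA A) (opl a M) f f) ≤ c * 1 := mul_le_mul_of_nonneg_left this hc
    _ = c := mul_one c







/-- comparison of two dual weights through a comparison of the test forms -/
theorem RD_compare (hA : Asy P A) {a a' : ℝ} (ha : 0 ≤ a) (ha' : 0 ≤ a') {M M' : ℕ} {c : ℝ} (hc : 0 ≤ c)
    (h : ∀ f, BP P (QA A) (opl a' M') f f ≤ c ^ 2 * BP P (QA A) (opl a M) f f) (l : V) :
    RD P A a M l ≤ c * RD P A a' M' l := by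
  apply RD_le_of' hA ha (mul_nonneg hc (RD_nonneg hA ha' M' l))
  intro f
  refine (le_abs_self _).trans ((ip_le_RD hA ha' M' l f).trans ?_)
  have h1 : √(BP P (QA A) (opl a' M') f f) ≤ c * √(BP P (QA A) (opl a M) f f) := by
    have h2 : c * √(BP P (QA A) (opl a M) f f) = √(c ^ 2 * BP P (QA A) (opl a M) f f) := by
      rw [Real.sqrt_mul (by positivity), Real.sqrt_sq hc]
    rw [h2]
    exact Real.sqrt_le_sqrt (h f)
  calc RD P A a' M' l * √(BP P (QA A) (opl a' M') f f)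
      ≤ RD P A a' M' l * (c * √(BP P (QA A) (opl a M) f f)) :=
        mul_le_mul_of_nonneg_left h1 (RD_nonneg hA ha' M' l)
    _ = _ := by ring

theorem RD_anti (hA : Asy P A) {a a' : ℝ} (ha : 0 ≤ a) (haa : a ≤ a') (M : ℕ) (l : V) :
    RD P A a' M l ≤ RD P A a M l := by
  have h := RD_compare hA (ha.trans haa) ha (M := M) (M' := M) (c := 1) zero_le_one (fun f => by
    rw [one_pow, one_mul, BP_opl hA, BP_opl hA]
    apply Finset.sum_le_sum
    intro n _
    apply mul_le_mul_of_nonneg_right _ (P.nonneg _)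
    apply mul_le_mul_of_nonneg_left _ (by positivity)
    exact pow_le_pow_left₀ ha haa n) l
  rwa [one_mul] at h

theorem RD_scale (hA : Asy P A) {a a' : ℝ} (ha : 0 < a) (haa : a ≤ a') (M : ℕ) (l : V) :
    RD P A a M l ≤ √((a' / a) ^ M) * RD P A a' M l := by
  have ha' : 0 < a' := ha.trans_le haa
  apply RD_compare hA ha.le ha'.le (Real.sqrt_nonneg _)
  intro f
  rw [Real.sq_sqrt (by positivity), BP_opl hA, BP_opl hA, Finset.mul_sum]
  apply Finset.sum_le_sum
  intro n hn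
  have hn' : n ≤ M := Nat.lt_succ_iff.mp (Finset.mem_range.mp hn)
  have h1 : a' ^ n ≤ (a' / a) ^ M * a ^ n := by
    have h2 : a' ^ n = (a' / a) ^ n * a ^ n := by
      rw [← mul_pow, div_mul_cancel₀ _ ha.ne']
    rw [h2]
    apply mul_le_mul_of_nonneg_right _ (by positivity)
    apply pow_le_pow_right₀ _ hn'
    rw [one_le_div ha]; exact haa
  calc (M.choose n : ℝ) * a' ^ n * P.ip ((A ^ n) f) ((A ^ n) f)
      ≤ (M.choose n : ℝ) * ((a' / a) ^ M * a ^ n) * P.ip ((A ^ n) f) ((A ^ n) f) := by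
        apply mul_le_mul_of_nonneg_right _ (P.nonneg _)
        exact mul_le_mul_of_nonneg_left h1 (by positivity)
    _ = _ := by ring

theorem RD_pow_anti (hA : Asy P A) {a : ℝ} (ha : 0 ≤ a) {M M' : ℕ} (hM : M ≤ M') (l : V) :
    RD P A a M' l ≤ RD P A a M l := by
  have h := RD_compare hA ha ha (M := M') (M' := M) (c := 1) zero_le_one (fun f => by
    rw [one_pow, one_mul, BP_opl hA, BP_opl hA]
    have h1 : ∀ n, 0 ≤ a ^ n * P.ip ((A ^ n) f) ((A ^ n) f) := fun n =>
      mul_nonneg (by positivity) (P.nonneg _)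
    calc ∑ n ∈ range (M + 1), (M.choose n : ℝ) * a ^ n * P.ip ((A ^ n) f) ((A ^ n) f)
        ≤ ∑ n ∈ range (M + 1), (M'.choose n : ℝ) * a ^ n * P.ip ((A ^ n) f) ((A ^ n) f) := by
          apply Finset.sum_le_sum
          intro n _
          rw [mul_assoc, mul_assoc]
          apply mul_le_mul_of_nonneg_right _ (h1 n)
          exact_mod_cast Nat.choose_le_choose n hM
      _ ≤ _ := by
          apply Finset.sum_le_sum_of_subset_of_nonneg
          · exact Finset.range_mono (by omega)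
          · intro n _ _
            rw [mul_assoc]
            exact mul_nonneg (by positivity) (h1 n)) l
  rwa [one_mul] at h

/-- a form `⟨l, g(Q) l⟩` against the dual weight, when `g (1 + a t)^M ≤ c` -/
theorem BP_le_RD (hA : Asy P A) {b₀ b : ℝ} (h : ABtw P A b₀ b) {a : ℝ} (ha : 0 ≤ a) {M : ℕ}
    (g : ℝ[X]) {c : ℝ} (hc : 0 ≤ c) (hg : ∀ t, b₀ ≤ t → t ≤ b → 0 ≤ g.eval t)
    (hgc : ∀ t, b₀ ≤ t → t ≤ b → g.eval t * (1 + a * t) ^ M ≤ c) (l : V) :
    BP P (QA A) g l l ≤ c * RD P A a M l ^ 2 := by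
  set G := BP P (QA A) g l l with hG
  have hG0 : 0 ≤ G := BP_nonneg hA.sy (h.btw hA) g hg l
  let f := Polynomial.aeval (QA A) g l
  have h1 : P.ip l f = G := rfl
  have h2 : BP P (QA A) (opl a M) f f ≤ c * G := by
    rw [BP_aeval_left hA.sy, BP_aeval_right, hG, ← BP_smul]
    apply BP_mono hA.sy (h.btw hA)
    intro t h3 h4
    simp only [eval_mul, eval_C, opl_eval]
    exact mul_le_mul_of_nonneg_right (hgc t h3 h4) (hg t h3 h4)
  have h3 := ip_le_RD hA ha M l f
  rw [h1, abs_of_nonneg hG0] at h3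
  have hR := RD_nonneg hA ha M l
  have h4 : G ≤ RD P A a M l * √(c * G) :=
    h3.trans (mul_le_mul_of_nonneg_left (Real.sqrt_le_sqrt h2) hR)
  rcases hG0.eq_or_lt with h0 | h0
  · rw [← h0]; positivity
  · have h5 : G ^ 2 ≤ RD P A a M l ^ 2 * (c * G) := by
      calc G ^ 2 ≤ (RD P A a M l * √(c * G)) ^ 2 := pow_le_pow_left₀ hG0 h4 2
        _ = _ := by rw [mul_pow, Real.sq_sqrt (by positivity)]
    nlinarith

/-- the Gram form of a slice against the dual weight -/
theorem gform_le (hA : Asy P A) (h : ABtw P A 0 L) {M' : ℕ} (hM : M' + 1 ≤ M) (j : ℕ) (l : V) :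
    gform P D A j l l ≤ D.C * 2 ^ j * RD P A (4 ^ j) M' l ^ 2 := by
  have hC := D.C_pos
  apply BP_le_RD hA h (by positivity) _ (by positivity)
  · intro t h1 h2
    have := D.w_nonneg j t h1 h2
    simp only [eval_mul, eval_C, eval_add, eval_X]
    positivity
  · intro t h1 h2
    simp only [eval_mul, eval_C, eval_add, eval_X]
    have h3 := D.w_le j _ h1 h2
    have h4 := D.w_nonneg j _ h1 h2
    have h0 : (0 : ℝ) ≤ 4 ^ j * t := by positivity
    have h5 : ((2 : ℝ) ^ j)⁻¹ + 2 ^ j * t = ((2 : ℝ) ^ j)⁻¹ * (1 + 4 ^ j * t) := by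
      have : (4 : ℝ) ^ j = 2 ^ j * 2 ^ j := by
        rw [← mul_pow]; norm_num
      rw [this]; field_simp
    have h6 : (1 + 4 ^ j * t) ^ (M' + 1) ≤ (1 + 4 ^ j * t) ^ M :=
      pow_le_pow_right₀ (by linarith) hM
    have h7 : (D.w j).eval t * (1 + 4 ^ j * t) ^ (M' + 1) ≤ D.C * 4 ^ j :=
      (mul_le_mul_of_nonneg_left h6 h4).trans h3
    rw [h5]
    calc 1 / 2 * (((2 : ℝ) ^ j)⁻¹ * (1 + 4 ^ j * t) * (D.w j).eval t) * (1 + 4 ^ j * t) ^ M'
        = 1 / 2 * ((2 : ℝ) ^ j)⁻¹ * ((D.w j).eval t * (1 + 4 ^ j * t) ^ (M' + 1)) := by ring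
      _ ≤ 1 / 2 * ((2 : ℝ) ^ j)⁻¹ * (D.C * 4 ^ j) := by
          apply mul_le_mul_of_nonneg_left h7; positivity
      _ = 1 / 2 * (D.C * 2 ^ j) := by
          have : (4 : ℝ) ^ j = 2 ^ j * 2 ^ j := by
            rw [← mul_pow]; norm_num
          rw [this]; field_simp
      _ ≤ D.C * 2 ^ j := by
          have : 0 < D.C * 2 ^ j := mul_pos D.C_pos (by positivity)
          linarith

/-- sum of the Gram forms over a block of scales `k ≤ j < k'`, in terms of the weight at scale `k` -/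
theorem sum_gform_le (hA : Asy P A) (h : ABtw P A 0 L) {M' : ℕ} (hM : M' + 1 ≤ M) (k k' : ℕ)
    (l : V) :
    (∑ j ∈ Finset.Ico k k', gform P D A j) l l ≤ D.C * 2 ^ k' * RD P A (4 ^ k) M' l ^ 2 := by
  have hC := D.C_pos
  simp only [LinearMap.sum_apply]
  have h1 : ∀ j ∈ Finset.Ico k k', gform P D A j l l ≤ D.C * RD P A (4 ^ k) M' l ^ 2 * 2 ^ j := by
    intro j hj
    have hj' := Finset.mem_Ico.mp hj
    refine (gform_le D hA h hM j l).trans ?_
    have h2 : RD P A (4 ^ j) M' l ≤ RD P A (4 ^ k) M' l :=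
      RD_anti hA (by positivity) (pow_le_pow_right₀ (by norm_num) hj'.1) M' l
    have h3 : RD P A (4 ^ j) M' l ^ 2 ≤ RD P A (4 ^ k) M' l ^ 2 :=
      pow_le_pow_left₀ (RD_nonneg hA (by positivity) M' l) h2 2
    calc D.C * 2 ^ j * RD P A (4 ^ j) M' l ^ 2 ≤ D.C * 2 ^ j * RD P A (4 ^ k) M' l ^ 2 :=
          mul_le_mul_of_nonneg_left h3 (by positivity)
      _ = _ := by ring
  refine (Finset.sum_le_sum h1).trans ?_
  rw [← Finset.mul_sum]
  have h4 : ∑ j ∈ Finset.Ico k k', (2 : ℝ) ^ j ≤ 2 ^ k' := by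
    have h5 : ∑ j ∈ Finset.Ico k k', (2 : ℝ) ^ j ≤ ∑ j ∈ Finset.range k', (2 : ℝ) ^ j := by
      apply Finset.sum_le_sum_of_subset_of_nonneg
      · intro j hj
        exact Finset.mem_range.mpr (Finset.mem_Ico.mp hj).2
      · intro j _ _; positivity
    refine h5.trans ?_
    have := geom_sum_eq (x := (2 : ℝ)) (by norm_num) k'
    rw [this]
    have : (0 : ℝ) < 2 ^ k' := by positivity
    linarith
  calc D.C * RD P A (4 ^ k) M' l ^ 2 * ∑ j ∈ Finset.Ico k k', (2 : ℝ) ^ j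
      ≤ D.C * RD P A (4 ^ k) M' l ^ 2 * 2 ^ k' := mul_le_mul_of_nonneg_left h4 (by positivity)
    _ = _ := by ring


end cov

end Crest.Agent.R165.FRDInfx439
end
end

-- ▼ part R165/FRDLat_439

/-!
# Row 165, block G: the slices on the half-edge lattice

Bridge between the abstract finite range decomposition (`FRDInf_439`) and the frozen definitions of
`Lat_683` / `GDef_387`.
-/

set_option autoImplicit false
set_option linter.unusedSectionVars false

noncomputable section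

namespace Crest.Agent.R165.FRDLatx439

open scoped ENNReal
open Polynomial Crest.Agent.R165.Gr0x606 Crest.Agent.R165.Latx683 Crest.Agent.R165.PNormx417
  Crest.Agent.R165.GDefx387 Crest.Agent.R165.FRDAbsx439 Crest.Agent.R165.FRDPolyx439
  Crest.Agent.R165.FRDInfx439

/-! ### dot product of finitely supported functions -/

/-- dot product -/
def dotF (ι : Type*) : LinearMap.BilinForm ℝ (ι →₀ ℝ) :=
  LinearMap.mk₂ ℝ (fun x y => x.sum fun i c => c * y i)
    (fun x x' y => Finsupp.sum_add_index' (by simp) (by intro i b c; ring))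
    (fun c x y => by
      rw [Finsupp.sum_smul_index (by simp), Finsupp.smul_sum]
      exact Finset.sum_congr rfl fun i _ => by simp only [smul_eq_mul]; ring)
    (fun x y y' => by
      rw [← Finsupp.sum_add]
      exact Finset.sum_congr rfl fun i _ => by simp only [Finsupp.add_apply]; ring)
    (fun c x y => by
      rw [Finsupp.smul_sum]
      exact Finset.sum_congr rfl fun i _ => by simp only [Finsupp.smul_apply, smul_eq_mul]; ring)

theorem dotF_apply {ι : Type*} (x y : ι →₀ ℝ) : dotF ι x y = x.sum fun i c => c * y i := rfl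

theorem dotF_eq_sum {ι : Type*} (x y : ι →₀ ℝ) (s : Finset ι) (hs : x.support ⊆ s) :
    dotF ι x y = ∑ i ∈ s, x i * y i := by
  rw [dotF_apply, Finsupp.sum]
  apply Finset.sum_subset hs
  intro i _ hi
  rw [Finsupp.notMem_support_iff.mp hi, zero_mul]

theorem dotF_symm {ι : Type*} (x y : ι →₀ ℝ) : dotF ι x y = dotF ι y x := by
  classical
  rw [dotF_eq_sum x y (x.support ∪ y.support) Finset.subset_union_left,
    dotF_eq_sum y x (x.support ∪ y.support) Finset.subset_union_right]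
  exact Finset.sum_congr rfl fun i _ => mul_comm _ _

/-- the pre-Hilbert structure -/
def preF (ι : Type*) : Pre (ι →₀ ℝ) where
  ip := dotF ι
  symm := dotF_symm
  pos x hx := by
    rw [dotF_eq_sum x x x.support (Finset.Subset.refl _)]
    apply Finset.sum_pos'
    · intro i _; exact mul_self_nonneg _
    · obtain ⟨i, hi⟩ := Finsupp.support_nonempty_iff.mpr hx
      exact ⟨i, hi, mul_self_pos.mpr (Finsupp.mem_support_iff.mp hi)⟩

theorem preF_ip {ι : Type*} (x y : ι →₀ ℝ) : (preF ι).ip x y = dotF ι x y := rfl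

theorem dotF_single {ι : Type*} (i : ι) (c : ℝ) (y : ι →₀ ℝ) : dotF ι (Finsupp.single i c) y = c * y i := by
  rw [dotF_apply, Finsupp.sum_single_index (by simp)]

/-! ### the operator on finitely supported fields -/

section lattice

variable {G : Type} [CommRing G]

theorem Aop_S_N (w : BW G) (φ : HE G → ℝ) (f : G × G) : Aop w φ (f, 2) =
    -φ (f, 0) + -φ (f, 1) + φ (f, 3) + yN w f * -φ ((f.1, f.2 + 1), 0) := by
  rw [Aop_N]; ring

theorem Aop_S_W (w : BW G) (φ : HE G → ℝ) (f : G × G) : Aop w φ (f, 3) =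
    -φ (f, 0) + -φ (f, 1) + -φ (f, 2) + yE w (f.1 - 1, f.2) * -φ ((f.1 - 1, f.2), 1) := by
  rw [Aop_W]; ring

/-- the neighbours of a face and the face itself -/
def nb5 (f : G × G) : Set (G × G) :=
  {f, (f.1 + 1, f.2), (f.1 - 1, f.2), (f.1, f.2 + 1), (f.1, f.2 - 1)}

theorem nb5_finite (f : G × G) : (nb5 f).Finite := by unfold nb5; exact Set.toFinite _

theorem nb5_symm {f g : G × G} (h : g ∈ nb5 f) : f ∈ nb5 g := by
  unfold nb5 at *
  simp only [Set.mem_insert_iff, Set.mem_singleton_iff] at *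
  rcases h with rfl | rfl | rfl | rfl | rfl
  · simp
  · right; right; left; simp
  · right; left; simp
  · right; right; right; right; simp
  · right; right; right; left; simp

/-- locality of `Aop`: it only sees the half-edges of the neighbouring faces -/
theorem Aop_eq_zero_of (w : BW G) (φ : HE G → ℝ) (h : HE G)
    (h0 : ∀ h' : HE G, h'.1 ∈ nb5 h.1 → φ h' = 0) : Aop w φ h = 0 := by
  obtain ⟨f, d⟩ := h
  have e0 : ∀ d', φ (f, d') = 0 := fun d' => h0 (f, d') (by simp [nb5])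
  have e1 : ∀ d', φ ((f.1 + 1, f.2), d') = 0 := fun d' => h0 _ (by simp [nb5])
  have e2 : ∀ d', φ ((f.1 - 1, f.2), d') = 0 := fun d' => h0 _ (by simp [nb5])
  have e3 : ∀ d', φ ((f.1, f.2 + 1), d') = 0 := fun d' => h0 _ (by simp [nb5])
  have e4 : ∀ d', φ ((f.1, f.2 - 1), d') = 0 := fun d' => h0 _ (by simp [nb5])
  rw [Aop_apply]
  fin_cases d <;> simp [Arow, e0, e1, e2, e3, e4]

theorem Aop_finite (w : BW G) (l : Fld G) : (Function.support (Aop w (l : HE G → ℝ))).Finite := by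
  have h1 : (⋃ h ∈ (l.support : Set (HE G)), (nb5 h.1) ×ˢ (Set.univ : Set (Fin 4))).Finite :=
    Set.Finite.biUnion l.support.finite_toSet fun h _ => (nb5_finite h.1).prod Set.finite_univ
  apply h1.subset
  intro h hh
  by_contra hc
  apply hh
  apply Aop_eq_zero_of
  intro h' hh'
  by_contra hne
  apply hc
  simp only [Set.mem_iUnion]
  exact ⟨h', Finsupp.mem_support_iff.mpr hne, nb5_symm hh', Set.mem_univ _⟩

/-- `A` on finitely supported fields -/
def AopF (w : BW G) : Fld G →ₗ[ℝ] Fld G where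
  toFun l := Finsupp.ofSupportFinite (Aop w (l : HE G → ℝ)) (Aop_finite w l)
  map_add' l m := by
    ext h
    simp [Finsupp.ofSupportFinite_coe]
  map_smul' c l := by
    ext h
    simp [Finsupp.ofSupportFinite_coe]

@[simp] theorem AopF_coe (w : BW G) (l : Fld G) : (AopF w l : HE G → ℝ) = Aop w (l : HE G → ℝ) :=
  Finsupp.ofSupportFinite_coe

theorem single_coe [DecidableEq G] (h : HE G) (c : ℝ) :
    ((Finsupp.single h c : Fld G) : HE G → ℝ) = Pi.single h c := by
  funext h'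
  rw [Finsupp.single_apply, Pi.single_apply]
  by_cases hh : h = h'
  · rw [if_pos hh, if_pos hh.symm]
  · rw [if_neg hh, if_neg (Ne.symm hh)]

theorem ite_a1 [DecidableEq G] (i j i' j' : G) :
    (if i = i' ∧ j = j' then (1 : ℝ) else 0) = if i' = i ∧ j' = j then 1 else 0 := by
  by_cases h : i = i' ∧ j = j'
  · rw [if_pos h, if_pos ⟨h.1.symm, h.2.symm⟩]
  · rw [if_neg h, if_neg fun h' => h ⟨h'.1.symm, h'.2.symm⟩]

theorem ite_a2 [DecidableEq G] (w : BW G) (k : Fin 2) (i j i' j' : G) :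
    (if i = i' ∧ j - 1 = j' then w (i, j) k else 0) =
      if i' = i ∧ j' + 1 = j then w (i', j' + 1) k else 0 := by
  by_cases h : i = i' ∧ j - 1 = j'
  · obtain ⟨rfl, rfl⟩ := h; simp
  · rw [if_neg h, if_neg]
    rintro ⟨rfl, rfl⟩
    apply h; simp

theorem ite_a3 [DecidableEq G] (w : BW G) (k : Fin 2) (i j i' j' : G) :
    (if i - 1 = i' ∧ j = j' then w (i, j) k else 0) =
      if i' + 1 = i ∧ j' = j then w (i' + 1, j') k else 0 := by
  by_cases h : i - 1 = i' ∧ j = j'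
  · obtain ⟨rfl, rfl⟩ := h; simp
  · rw [if_neg h, if_neg]
    rintro ⟨rfl, rfl⟩
    apply h; simp

/-- antisymmetry of the kernel of `A` -/
theorem Aop_skew [DecidableEq G] (w : BW G) (h h' : HE G) :
    Aop w (Pi.single h' 1) h = -Aop w (Pi.single h 1) h' := by
  obtain ⟨⟨i, j⟩, d⟩ := h
  obtain ⟨⟨i', j'⟩, d'⟩ := h'
  rw [Aop_apply, Aop_apply]
  have a1 := ite_a1 i j i' j'
  have a2 := ite_a2 w 0 i j i' j'
  have a2' := ite_a2 w 0 i' j' i j
  have a3 := ite_a3 w 1 i j i' j'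
  have a3' := ite_a3 w 1 i' j' i j
  fin_cases d <;> fin_cases d' <;>
    simp [Arow, Pi.single_apply, Prod.ext_iff, yE, yN]
  all_goals linarith

/-- `A` is antisymmetric on finitely supported fields -/
theorem AopF_asy (w : BW G) : Asy (preF (HE G)) (AopF w) := by
  classical
  have key : (dotF (HE G)).compl₁₂ (AopF w) LinearMap.id =
      -((dotF (HE G)).compl₁₂ LinearMap.id (AopF w)) := by
    apply Finsupp.lhom_ext
    intro h c
    apply Finsupp.lhom_ext
    intro h' c'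
    have e1 : ∀ (h : HE G) (c : ℝ), (Finsupp.single h c : Fld G) = c • Finsupp.single h 1 := by
      intro h c; rw [Finsupp.smul_single, smul_eq_mul, mul_one]
    rw [e1 h c, e1 h' c']
    simp only [LinearMap.compl₁₂_apply, LinearMap.id_apply, map_smul, LinearMap.smul_apply,
      LinearMap.neg_apply, smul_eq_mul]
    have e2 : dotF (HE G) (AopF w (Finsupp.single h 1)) (Finsupp.single h' 1) =
        Aop w (Pi.single h 1) h' := by
      rw [dotF_symm, dotF_single, one_mul, AopF_coe, single_coe]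
    have e3 : dotF (HE G) (Finsupp.single h 1) (AopF w (Finsupp.single h' 1)) =
        Aop w (Pi.single h' 1) h := by
      rw [dotF_single, one_mul, AopF_coe, single_coe]
    rw [e2, e3, Aop_skew w h h']
    ring
  intro x y
  have := congrArg (fun B => B x y) key
  exact this

theorem summable_face (l : Fld G) (d : Fin 4) (e : G × G → G × G) (he : Function.Injective e) :
    Summable fun f : G × G => l (e f, d) ^ 2 := by
  apply summable_of_hasFiniteSupport
  have h1 : (l.support : Set (HE G)).Finite := l.support.finite_toSet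
  have h2 : Function.Injective fun f : G × G => ((e f, d) : HE G) := fun f g h => he (by
    simpa using h)
  refine (h1.preimage h2.injOn).subset ?_
  intro f hf
  simp only [Set.mem_preimage, Finset.mem_coe, Finsupp.mem_support_iff]
  intro h0
  apply hf
  show l (e f, d) ^ 2 = 0
  rw [h0]; norm_num

theorem dotF_self_eq_tsum (l : Fld G) :
    dotF (HE G) l l = ∑' f : G × G, ∑ d : Fin 4, l (f, d) ^ 2 := by
  classical
  have h0 : dotF (HE G) l l = ∑' h : HE G, l h ^ 2 := by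
    rw [dotF_eq_sum l l l.support (Finset.Subset.refl _), tsum_eq_sum (s := l.support)]
    · exact Finset.sum_congr rfl fun i _ => (sq _).symm
    · intro i hi
      rw [Finsupp.notMem_support_iff.mp hi]; norm_num
  have hs : Summable fun h : HE G => l h ^ 2 := by
    apply summable_of_hasFiniteSupport
    refine l.support.finite_toSet.subset fun h hh => ?_
    simp only [Finset.mem_coe, Finsupp.mem_support_iff]
    intro h0
    apply hh
    show l h ^ 2 = 0
    rw [h0]; norm_num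
  rw [h0, hs.tsum_prod' (fun f => (hasSum_fintype _).summable)]
  exact tsum_congr fun f => tsum_fintype _

theorem sq4_le (a b c d y : ℝ) (hy : |y| ≤ 1) :
    (a + b + c + y * d) ^ 2 ≤ 4 * (a ^ 2 + b ^ 2 + c ^ 2 + d ^ 2) := by
  have h1 : y ^ 2 ≤ 1 := by
    rw [← sq_abs]; exact pow_le_one₀ (abs_nonneg _) hy
  have h2 : (y * d) ^ 2 ≤ d ^ 2 := by
    rw [mul_pow]; nlinarith [sq_nonneg d]
  nlinarith [sq_nonneg (a - b), sq_nonneg (a - c), sq_nonneg (a - y * d), sq_nonneg (b - c),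
    sq_nonneg (b - y * d), sq_nonneg (c - y * d)]

/-- `|A l|² ≤ 16 |l|²` when all weights are at most one in absolute value -/
theorem AopF_bdd (w : BW G) (hw : ∀ z j, |w z j| ≤ 1) : ABtw (preF (HE G)) (AopF w) 0 16 := by
  intro l
  rw [preF_ip, preF_ip]
  refine ⟨by rw [zero_mul]; exact (preF (HE G)).nonneg _, ?_⟩
  rw [dotF_self_eq_tsum, dotF_self_eq_tsum]
  -- the four shifted sums
  have sh : ∀ (d : Fin 4) (e : Equiv.Perm (G × G)),
      ∑' f : G × G, l (e f, d) ^ 2 = ∑' f : G × G, l (f, d) ^ 2 := fun d e =>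
    e.tsum_eq fun f => l (f, d) ^ 2
  have hs : ∀ (d : Fin 4) (e : Equiv.Perm (G × G)), Summable fun f : G × G => l (e f, d) ^ 2 :=
    fun d e => summable_face l d e e.injective
  let e1 : Equiv.Perm (G × G) := Equiv.prodCongr (Equiv.addRight 1) (Equiv.refl G)
  let e1' : Equiv.Perm (G × G) := Equiv.prodCongr (Equiv.subRight 1) (Equiv.refl G)
  let e2 : Equiv.Perm (G × G) := Equiv.prodCongr (Equiv.refl G) (Equiv.addRight 1)
  let e2' : Equiv.Perm (G × G) := Equiv.prodCongr (Equiv.refl G) (Equiv.subRight 1)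
  have hpt : ∀ f : G × G, ∑ d : Fin 4, (AopF w l) (f, d) ^ 2 ≤
      12 * ∑ d : Fin 4, l (f, d) ^ 2 +
        4 * (l (e2' f, 2) ^ 2 + l (e1 f, 3) ^ 2 + l (e2 f, 0) ^ 2 + l (e1' f, 1) ^ 2) := by
    intro f
    have c0 := sq4_le (l (f, 1)) (l (f, 2)) (l (f, 3)) (l ((f.1, f.2 - 1), 2))
      (yN w (f.1, f.2 - 1)) (hw _ _)
    have c1 := sq4_le (-l (f, 0)) (l (f, 2)) (l (f, 3)) (l ((f.1 + 1, f.2), 3))
      (yE w f) (hw _ _)
    have c2 := sq4_le (-l (f, 0)) (-l (f, 1)) (l (f, 3)) (-l ((f.1, f.2 + 1), 0))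
      (yN w f) (hw _ _)
    have c3 := sq4_le (-l (f, 0)) (-l (f, 1)) (-l (f, 2)) (-l ((f.1 - 1, f.2), 1))
      (yE w (f.1 - 1, f.2)) (hw _ _)
    have q0 : (AopF w l) (f, 0) = l (f, 1) + l (f, 2) + l (f, 3) +
        yN w (f.1, f.2 - 1) * l ((f.1, f.2 - 1), 2) := by
      rw [AopF_coe]; rfl
    have q1 : (AopF w l) (f, 1) = -l (f, 0) + l (f, 2) + l (f, 3) +
        yE w f * l ((f.1 + 1, f.2), 3) := by
      rw [AopF_coe]; rfl
    have q2 : (AopF w l) (f, 2) = -l (f, 0) + -l (f, 1) + l (f, 3) +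
        yN w f * -l ((f.1, f.2 + 1), 0) := by
      rw [AopF_coe, Aop_S_N]
    have q3 : (AopF w l) (f, 3) = -l (f, 0) + -l (f, 1) + -l (f, 2) +
        yE w (f.1 - 1, f.2) * -l ((f.1 - 1, f.2), 1) := by
      rw [AopF_coe, Aop_S_W]
    simp only [Fin.sum_univ_four]
    rw [q0, q1, q2, q3]
    have r2' : e2' f = (f.1, f.2 - 1) := rfl
    have r1 : e1 f = (f.1 + 1, f.2) := rfl
    have r2 : e2 f = (f.1, f.2 + 1) := rfl
    have r1' : e1' f = (f.1 - 1, f.2) := rfl
    rw [r2', r1, r2, r1']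
    simp only [neg_sq] at c1 c2 c3
    linarith
  have hsl : Summable fun f : G × G => ∑ d : Fin 4, l (f, d) ^ 2 :=
    summable_sum fun d _ => hs d (Equiv.refl _)
  have hsA : Summable fun f : G × G => ∑ d : Fin 4, (AopF w l) (f, d) ^ 2 :=
    summable_sum fun d _ => summable_face (AopF w l) d id Function.injective_id
  have hs4 : Summable fun f : G × G =>
      4 * (l (e2' f, 2) ^ 2 + l (e1 f, 3) ^ 2 + l (e2 f, 0) ^ 2 + l (e1' f, 1) ^ 2) :=
    ((((hs 2 e2').add (hs 3 e1)).add (hs 0 e2)).add (hs 1 e1')).mul_left 4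
  have hs12 : Summable fun f : G × G => 12 * ∑ d : Fin 4, l (f, d) ^ 2 := hsl.mul_left 12
  refine (Summable.tsum_le_tsum hpt hsA (hs12.add hs4)).trans ?_
  rw [hs12.tsum_add hs4, tsum_mul_left, tsum_mul_left,
    (((hs 2 e2').add (hs 3 e1)).add (hs 0 e2)).tsum_add (hs 1 e1'),
    ((hs 2 e2').add (hs 3 e1)).tsum_add (hs 0 e2), (hs 2 e2').tsum_add (hs 3 e1),
    sh, sh, sh, sh]
  have h5 : ∑' f : G × G, ∑ d : Fin 4, l (f, d) ^ 2 =
      ∑' f : G × G, l (f, 2) ^ 2 + ∑' f : G × G, l (f, 3) ^ 2 + ∑' f : G × G, l (f, 0) ^ 2 +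
        ∑' f : G × G, l (f, 1) ^ 2 := by
    have hd : ∀ d : Fin 4, Summable fun f : G × G => l (f, d) ^ 2 := fun d => hs d (Equiv.refl _)
    rw [Summable.tsum_finsetSum (fun d _ => hd d), Fin.sum_univ_four]
    ring
  linarith

/-! ### slices as operators on functions and on finitely supported fields -/

theorem Qop_coe (w : BW G) (l : Fld G) :
    Qop w (l : HE G → ℝ) = ((QA (AopF w) l : Fld G) : HE G → ℝ) := by
  rw [QA_apply, Finsupp.coe_neg, AopF_coe, AopF_coe]
  rfl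

theorem Qop_pow_coe (w : BW G) (n : ℕ) (l : Fld G) :
    (Qop w ^ n) (l : HE G → ℝ) = (((QA (AopF w) ^ n) l : Fld G) : HE G → ℝ) := by
  induction n with
  | zero => simp
  | succ n ih =>
    rw [pow_succ', pow_succ', Module.End.mul_apply, Module.End.mul_apply, ih, Qop_coe]

theorem aeval_Qop_coe (w : BW G) (p : ℝ[X]) (l : Fld G) :
    (aeval (Qop w) p) (l : HE G → ℝ) = ((aeval (QA (AopF w)) p l : Fld G) : HE G → ℝ) := by
  rw [aeval_apply_sum (Qop w) p le_rfl, aeval_apply_sum (QA (AopF w)) p le_rfl,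
    Finsupp.coe_finsetSum]
  exact Finset.sum_congr rfl fun k _ => by rw [Qop_pow_coe, Finsupp.coe_smul]

theorem Aop_iter_coe (w : BW G) (n : ℕ) (l : Fld G) :
    (Aop w)^[n] (l : HE G → ℝ) = (((AopF w ^ n) l : Fld G) : HE G → ℝ) := by
  induction n with
  | zero => simp
  | succ n ih =>
    rw [Function.iterate_succ_apply', ih, pow_succ', Module.End.mul_apply, AopF_coe]

/-- `A p(Q)` on finitely supported fields -/
def slF (w : BW G) (p : ℝ[X]) : Fld G →ₗ[ℝ] Fld G := AopF w ∘ₗ aeval (QA (AopF w)) p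

theorem slF_coe (w : BW G) (p : ℝ[X]) (l : Fld G) :
    (slF w p l : HE G → ℝ) = slop w p (l : HE G → ℝ) := by
  unfold slF slop
  rw [LinearMap.comp_apply, AopF_coe, Module.End.mul_apply, aeval_Qop_coe]

variable {Λ : ℝ} {M K : ℕ} (D : FRD Λ M K)

/-- the sum of the slices on finitely supported fields -/
def SopF (w : BW G) (a b : ℕ) : Fld G →ₗ[ℝ] Fld G := ∑ j ∈ Finset.Ico a b, slF w (D.w j)

theorem SopF_coe (w : BW G) (a b : ℕ) (l : Fld G) :
    (SopF D w a b l : HE G → ℝ) = Sop w D a b (l : HE G → ℝ) := by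
  unfold SopF Sop
  rw [LinearMap.sum_apply, LinearMap.sum_apply, Finsupp.coe_finsetSum]
  exact Finset.sum_congr rfl fun j _ => slF_coe w _ l

/-- **the covariance of the block of slices `a ≤ j < b`** -/
def SopC (w : BW G) (a b : ℕ) : Cov (Fld G) := ∑ j ∈ Finset.Ico a b, slice D (AopF_asy w) j

theorem cov_sum_b {V ι : Type*} [AddCommGroup V] [Module ℝ V] (s : Finset ι) (S : ι → Cov V) (x y : V) :
    (∑ j ∈ s, S j).b x y = ∑ j ∈ s, (S j).b x y := by
  classical
  induction s using Finset.induction_on with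
  | empty => simp
  | insert a s ha ih =>
    rw [Finset.sum_insert ha, Finset.sum_insert ha, Cov.add_b, LinearMap.add_apply,
      LinearMap.add_apply, ih]

theorem SopC_apply' (w : BW G) (a b : ℕ) (l m : Fld G) :
    (SopC D w a b).b l m = dotF (HE G) l (SopF D w a b m) := by
  unfold SopC SopF
  rw [cov_sum_b, LinearMap.sum_apply, map_sum]
  rfl

theorem dotF_eq_pair (l m : Fld G) : dotF (HE G) l m = pair l (m : HE G → ℝ) := rfl

theorem SopC_apply (w : BW G) (a b : ℕ) (l m : Fld G) :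
    (SopC D w a b).b l m = pair l (Sop w D a b (m : HE G → ℝ)) := by
  rw [SopC_apply', dotF_eq_pair, SopF_coe]



/-- the Gram form of a block of slices -/
def gB (w : BW G) (a b : ℕ) : LinearMap.BilinForm ℝ (Fld G) :=
  ∑ j ∈ Finset.Ico a b, gform (preF (HE G)) D (AopF w) j

theorem gB_nonneg (w : BW G) (h : ABtw (preF (HE G)) (AopF w) 0 Λ) (a b : ℕ) (l : Fld G) :
    0 ≤ gB D w a b l l := by
  unfold gB
  simp only [LinearMap.sum_apply]
  exact Finset.sum_nonneg fun j _ => gform_nonneg D (AopF_asy w) h j l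

/-- the Gram weight of a block of slices -/
def gw (w : BW G) (a b : ℕ) (l : Fld G) : ℝ≥0∞ := ENNReal.ofReal √(gB D w a b l l)

theorem mwt_ofReal {V : Type*} (g : V → ℝ) (hg : ∀ x, 0 ≤ g x) (L : List V) :
    mwt (fun x => ENNReal.ofReal (g x)) L = ENNReal.ofReal (L.map g).prod := by
  induction L with
  | nil => simp [mwt]
  | cons x L ih =>
    rw [List.map_cons, List.prod_cons, ENNReal.ofReal_mul (hg x), ← ih]
    simp [mwt]

/-- **Gram bound of the slices** -/
theorem SopC_gram (w : BW G) (h : ABtw (preF (HE G)) (AopF w) 0 Λ) (a b : ℕ) :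
    Gram (SopC D w a b) (gw D w a b) := by
  intro L
  have h1 := EE_slices_le D (AopF_asy w) h (Finset.Ico a b) L
  unfold gw
  rw [mwt_ofReal (fun l => √(gB D w a b l l)) (fun l => Real.sqrt_nonneg _),
    Real.enorm_eq_ofReal_abs]
  exact ENNReal.ofReal_le_ofReal h1

/-! ### (W0): Gram weight against the local weight -/

variable [CN G]

theorem l2_coe (l : Fld G) : l2 (l : HE G → ℝ) = √(dotF (HE G) l l) := by
  unfold l2
  congr 1
  rw [dotF_eq_sum l l l.support (Finset.Subset.refl _), tsum_eq_sum (s := l.support)]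
  · exact Finset.sum_congr rfl fun i _ => sq _
  · intro i hi
    rw [Finsupp.notMem_support_iff.mp hi]; norm_num

theorem l2_restr_le (Z : Set (G × G)) (l : Fld G) : l2 (restr Z (l : HE G → ℝ)) ≤ l2 (l : HE G → ℝ) := by
  classical
  unfold l2
  apply Real.sqrt_le_sqrt
  have hs : Summable fun h : HE G => l h ^ 2 := by
    apply summable_of_hasFiniteSupport
    refine l.support.finite_toSet.subset fun h hh => ?_
    simp only [Finset.mem_coe, Finsupp.mem_support_iff]
    intro h0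
    apply hh
    show l h ^ 2 = 0
    rw [h0]; norm_num
  have hle : ∀ h : HE G, (restr Z (l : HE G → ℝ) h) ^ 2 ≤ l h ^ 2 := by
    intro h
    unfold restr
    by_cases hz : h.1 ∈ Z
    · rw [if_pos hz]
    · rw [if_neg hz, zero_pow two_ne_zero]; exact sq_nonneg _
  exact Summable.tsum_le_tsum hle (Summable.of_nonneg_of_le (fun h => sq_nonneg _) hle hs) hs

theorem nnB_coe_le (w : BW G) (r : ℕ) (x : G × G) (f : Fld G) :
    nnB w r x (f : HE G → ℝ) ≤
      7 * √(BP (preF (HE G)) (QA (AopF w)) (opl ((r : ℝ) ^ 2) MM) f f) := by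
  unfold nnB
  have h1 : ∀ n ∈ Finset.range (MM + 1), (r : ℝ) ^ n * l2 (restr (ball x (s1 * r))
      ((Aop w)^[n] (f : HE G → ℝ))) ≤
        √(BP (preF (HE G)) (QA (AopF w)) (opl ((r : ℝ) ^ 2) MM) f f) := by
    intro n hn
    have hn' : n ≤ MM := Nat.lt_succ_iff.mp (Finset.mem_range.mp hn)
    rw [Aop_iter_coe]
    have h2 := l2_restr_le (ball x (s1 * r)) ((AopF w ^ n) f)
    rw [l2_coe] at h2
    refine (mul_le_mul_of_nonneg_left h2 (by positivity)).trans ?_
    have h3 : (r : ℝ) ^ n * √(dotF (HE G) ((AopF w ^ n) f) ((AopF w ^ n) f)) =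
        √(((r : ℝ) ^ 2) ^ n * dotF (HE G) ((AopF w ^ n) f) ((AopF w ^ n) f)) := by
      rw [Real.sqrt_mul (by positivity), ← pow_mul, mul_comm 2 n, pow_mul,
        Real.sqrt_sq (by positivity)]
    rw [h3]
    apply Real.sqrt_le_sqrt
    rw [BP_opl (AopF_asy w)]
    have h4 : ∀ k ∈ Finset.range (MM + 1), 0 ≤ (MM.choose k : ℝ) * ((r : ℝ) ^ 2) ^ k *
        (preF (HE G)).ip ((AopF w ^ k) f) ((AopF w ^ k) f) := fun k _ =>
      mul_nonneg (by positivity) ((preF (HE G)).nonneg _)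
    refine le_trans ?_ (Finset.single_le_sum h4 hn)
    have h5 : (1 : ℝ) ≤ (MM.choose n : ℝ) := by
      exact_mod_cast Nat.choose_pos hn'
    have h6 : 0 ≤ ((r : ℝ) ^ 2) ^ n * dotF (HE G) ((AopF w ^ n) f) ((AopF w ^ n) f) :=
      mul_nonneg (by positivity) ((preF (HE G)).nonneg _)
    rw [preF_ip, mul_assoc]
    nlinarith
  refine (Finset.sum_le_sum h1).trans (le_of_eq ?_)
  rw [Finset.sum_const, Finset.card_range, nsmul_eq_mul]
  norm_num [MM]

/-- the supremum in the local weight -/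
def sup1 (w : BW G) (r : ℕ) (x : G × G) (l : Fld G) : ℝ≥0∞ :=
  ⨆ f : {f : HE G → ℝ // nnB w r x f ≤ 1}, ENNReal.ofReal |pair l f.1|

theorem wt_eq (w : BW G) (a : ℝ) (r : ℕ) (x : G × G) (l : Fld G) :
    wt w a r x l = ENNReal.ofReal (a * √r) * sup1 w r x l := rfl

/-- the dual weight of `FRDInf_439` against the local supremum -/
theorem RD_le_sup1 (w : BW G) (r : ℕ) (x : G × G) (l : Fld G) :
    ENNReal.ofReal (RD (preF (HE G)) (AopF w) ((r : ℝ) ^ 2) MM l) ≤ 7 * sup1 w r x l := by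
  by_cases htop : sup1 w r x l = ∞
  · rw [htop]; simp
  · have h1 : RD (preF (HE G)) (AopF w) ((r : ℝ) ^ 2) MM l ≤ 7 * (sup1 w r x l).toReal := by
      apply RD_le_of
      intro f hf
      have h2 : nnB w r x (((1 / 7 : ℝ) • f : Fld G) : HE G → ℝ) ≤ 1 := by
        refine (nnB_coe_le w r x ((1 / 7 : ℝ) • f)).trans ?_
        simp only [map_smul, LinearMap.smul_apply, smul_eq_mul]
        have h3 : √(1 / 7 * (1 / 7 * BP (preF (HE G)) (QA (AopF w)) (opl ((r : ℝ) ^ 2) MM) f f)) ≤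
            1 / 7 := by
          rw [← mul_assoc, Real.sqrt_mul (by positivity), Real.sqrt_mul_self (by positivity)]
          have : √(BP (preF (HE G)) (QA (AopF w)) (opl ((r : ℝ) ^ 2) MM) f f) ≤ 1 :=
            Real.sqrt_le_one.mpr hf
          linarith
        linarith
      have h4 : ENNReal.ofReal |pair l (((1 / 7 : ℝ) • f : Fld G) : HE G → ℝ)| ≤ sup1 w r x l :=
        le_iSup (fun f : {f : HE G → ℝ // nnB w r x f ≤ 1} => ENNReal.ofReal |pair l f.1|)
          ⟨_, h2⟩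
      have h5 : |pair l (((1 / 7 : ℝ) • f : Fld G) : HE G → ℝ)| ≤ (sup1 w r x l).toReal := by
        rw [ENNReal.ofReal_le_iff_le_toReal htop] at h4
        exact h4
      rw [← dotF_eq_pair, map_smul, smul_eq_mul, abs_mul, abs_of_pos (by norm_num : (0:ℝ) < 1/7)]
        at h5
      have h6 : (preF (HE G)).ip l f ≤ |dotF (HE G) l f| := le_abs_self _
      linarith
    calc ENNReal.ofReal (RD (preF (HE G)) (AopF w) ((r : ℝ) ^ 2) MM l)
        ≤ ENNReal.ofReal (7 * (sup1 w r x l).toReal) := ENNReal.ofReal_le_ofReal h1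
      _ = 7 * sup1 w r x l := by
        rw [ENNReal.ofReal_mul (by norm_num), ENNReal.ofReal_toReal htop]
        norm_num

/-- **(W0)**: for the block of slices `a ≤ j < b` with `r ≤ 2 ^ a` and `2 ^ b ≤ N r`, the Gram weight is at
most `7 √(C N) / A` times the local weight of amplitude `A` at any face. -/
theorem gw_le_wt (hM : MM + 1 ≤ M) (w : BW G) (h : ABtw (preF (HE G)) (AopF w) 0 Λ) (a b r : ℕ)
    (N : ℝ) (hr : r ≤ 2 ^ a) (hN : (2 : ℝ) ^ b ≤ N * r) {A : ℝ} (hA : 0 < A) (x : G × G)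
    (l : Fld G) : gw D w a b l ≤ ENNReal.ofReal (7 * √(D.C * N) / A) * wt w A r x l := by
  have hC := D.C_pos
  have h1 := sum_gform_le D (AopF_asy w) h hM a b l
  have hR := RD_nonneg (AopF_asy w) (a := (r : ℝ) ^ 2) (by positivity) MM l
  have h2 : RD (preF (HE G)) (AopF w) (4 ^ a) MM l ≤
      RD (preF (HE G)) (AopF w) ((r : ℝ) ^ 2) MM l := by
    apply RD_anti (AopF_asy w) (by positivity)
    have : ((r : ℝ)) ≤ 2 ^ a := by exact_mod_cast hr
    calc (r : ℝ) ^ 2 ≤ ((2 : ℝ) ^ a) ^ 2 := by gcongr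
      _ = 4 ^ a := by rw [← pow_mul, mul_comm, pow_mul]; norm_num
  have hN0 : 0 ≤ N * r := (by positivity : (0 : ℝ) ≤ 2 ^ b).trans hN
  have h3 : √(gB D w a b l l) ≤ √(D.C * (N * r)) * RD (preF (HE G)) (AopF w) ((r : ℝ) ^ 2) MM l := by
    have h4 : gB D w a b l l ≤ D.C * (N * r) * RD (preF (HE G)) (AopF w) ((r : ℝ) ^ 2) MM l ^ 2 := by
      refine h1.trans ?_
      have h5 : RD (preF (HE G)) (AopF w) (4 ^ a) MM l ^ 2 ≤
          RD (preF (HE G)) (AopF w) ((r : ℝ) ^ 2) MM l ^ 2 :=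
        pow_le_pow_left₀ (RD_nonneg (AopF_asy w) (by positivity) MM l) h2 2
      exact mul_le_mul (mul_le_mul_of_nonneg_left hN hC.le) h5 (sq_nonneg _)
        (mul_nonneg hC.le hN0)
    calc √(gB D w a b l l) ≤
        √(D.C * (N * r) * RD (preF (HE G)) (AopF w) ((r : ℝ) ^ 2) MM l ^ 2) :=
          Real.sqrt_le_sqrt h4
      _ = _ := by rw [Real.sqrt_mul (mul_nonneg hC.le hN0), Real.sqrt_sq hR]
  have h6 : √(D.C * (N * r)) = √(D.C * N) * √r := by
    rw [← mul_assoc, Real.sqrt_mul' _ (by positivity)]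
  rw [wt_eq, ← mul_assoc]
  calc gw D w a b l ≤ ENNReal.ofReal (√(D.C * (N * r)) *
          RD (preF (HE G)) (AopF w) ((r : ℝ) ^ 2) MM l) := ENNReal.ofReal_le_ofReal h3
    _ = ENNReal.ofReal (√(D.C * N) * √r) *
        ENNReal.ofReal (RD (preF (HE G)) (AopF w) ((r : ℝ) ^ 2) MM l) := by
        rw [ENNReal.ofReal_mul (Real.sqrt_nonneg _), h6]
    _ ≤ ENNReal.ofReal (√(D.C * N) * √r) * (7 * sup1 w r x l) := by
        gcongr
        exact RD_le_sup1 w r x l
    _ = ENNReal.ofReal (7 * √(D.C * N) / A) * ENNReal.ofReal (A * √r) * sup1 w r x l := by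
        rw [← ENNReal.ofReal_mul (by positivity), ← mul_assoc]
        congr 1
        have h7 : (7 : ℝ≥0∞) = ENNReal.ofReal 7 := by norm_num
        rw [h7, ← ENNReal.ofReal_mul (by positivity)]
        congr 1
        field_simp

/-- the first block `j < b`: `2 ^ b ≤ N r`, `1 ≤ r`; the constant is allowed to depend on `r` -/
theorem gw_le_wt_first (hM : MM + 1 ≤ M) (w : BW G) (h : ABtw (preF (HE G)) (AopF w) 0 Λ)
    (b r : ℕ) (N : ℝ) (hr : 1 ≤ r) (hN : (2 : ℝ) ^ b ≤ N * r) {A : ℝ} (hA : 0 < A) (x : G × G)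
    (l : Fld G) :
    gw D w 0 b l ≤ ENNReal.ofReal (7 * √(D.C * N) * (r : ℝ) ^ MM / A) * wt w A r x l := by
  have hC := D.C_pos
  have hr1 : (1 : ℝ) ≤ r := by exact_mod_cast hr
  have h1 := sum_gform_le D (AopF_asy w) h hM 0 b l
  have hR := RD_nonneg (AopF_asy w) (a := (r : ℝ) ^ 2) (by positivity) MM l
  have h2 : RD (preF (HE G)) (AopF w) (4 ^ 0) MM l ≤
      (r : ℝ) ^ MM * RD (preF (HE G)) (AopF w) ((r : ℝ) ^ 2) MM l := by
    have h3 := RD_scale (AopF_asy w) (a := 4 ^ 0) (a' := (r : ℝ) ^ 2) (by norm_num)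
      (by rw [pow_zero]; exact one_le_pow₀ hr1) MM l
    refine h3.trans (le_of_eq ?_)
    congr 1
    rw [pow_zero, div_one, ← pow_mul, mul_comm 2 MM, pow_mul, Real.sqrt_sq (by positivity)]
  have hN0 : 0 ≤ N * r := (by positivity : (0 : ℝ) ≤ 2 ^ b).trans hN
  set R := RD (preF (HE G)) (AopF w) ((r : ℝ) ^ 2) MM l
  have h3 : √(gB D w 0 b l l) ≤ √(D.C * (N * r)) * ((r : ℝ) ^ MM * R) := by
    have h4 : gB D w 0 b l l ≤ D.C * (N * r) * ((r : ℝ) ^ MM * R) ^ 2 := by
      refine h1.trans ?_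
      have h5 : RD (preF (HE G)) (AopF w) (4 ^ 0) MM l ^ 2 ≤ ((r : ℝ) ^ MM * R) ^ 2 :=
        pow_le_pow_left₀ (RD_nonneg (AopF_asy w) (by norm_num) MM l) h2 2
      exact mul_le_mul (mul_le_mul_of_nonneg_left hN hC.le) h5 (sq_nonneg _)
        (mul_nonneg hC.le hN0)
    calc √(gB D w 0 b l l) ≤ √(D.C * (N * r) * ((r : ℝ) ^ MM * R) ^ 2) := Real.sqrt_le_sqrt h4
      _ = _ := by
        rw [Real.sqrt_mul (mul_nonneg hC.le hN0), Real.sqrt_sq (mul_nonneg (by positivity) hR)]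
  have h6 : √(D.C * (N * r)) = √(D.C * N) * √r := by
    rw [← mul_assoc, Real.sqrt_mul' _ (by positivity)]
  rw [wt_eq, ← mul_assoc]
  calc gw D w 0 b l ≤ ENNReal.ofReal ((√(D.C * N) * √r * (r : ℝ) ^ MM) * R) := by
        apply ENNReal.ofReal_le_ofReal
        refine h3.trans (le_of_eq ?_)
        rw [h6]; ring
    _ = ENNReal.ofReal (√(D.C * N) * √r * (r : ℝ) ^ MM) * ENNReal.ofReal R :=
        ENNReal.ofReal_mul (by positivity)
    _ ≤ ENNReal.ofReal (√(D.C * N) * √r * (r : ℝ) ^ MM) * (7 * sup1 w r x l) := by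
        gcongr
        exact RD_le_sup1 w r x l
    _ = ENNReal.ofReal (7 * √(D.C * N) * (r : ℝ) ^ MM / A) * ENNReal.ofReal (A * √r) *
        sup1 w r x l := by
        rw [← ENNReal.ofReal_mul (by positivity), ← mul_assoc]
        congr 1
        have h7 : (7 : ℝ≥0∞) = ENNReal.ofReal 7 := by norm_num
        rw [h7, ← ENNReal.ofReal_mul (by positivity)]
        congr 1
        field_simp

end lattice

end Crest.Agent.R165.FRDLatx439
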