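import Crest.Agent.R165.LinStep_417
import Crest.Agent.R165.Loc_901
import Crest.Agent.R165.GDef_387
import Crest.Agent.R165.Pack_915
import Crest.Agent.R165.Bridge_915

-- ▼ part R165/LocBridge_417
section

/-!
# Row 165 (S0250), block G: `loc2` of LinStep_417 is `Loc` of Loc_901; rank of the mode projections
-/

set_option autoImplicit false
set_option linter.unusedSectionVars false

noncomputable section

namespace Crest.Agent.R165.PNormx417

open Crest.Agent.R165.Gr0x606 Crest.Agent.R165.Locx901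
open scoped ENNReal

variable {V : Type*} [AddCommGroup V] [Module ℝ V]
variable {ι κ : Type*} [Fintype ι] [Fintype κ]

theorem loc2_eq_Loc (M : Modes V ι κ) (F : Gr V) : loc2 M.P0 M.P1 F = Loc M F := by
  refine linear_ext (fun L => ?_) F
  match L with
  | [] =>
    rw [mono_nil, Loc_one, loc2, LinearMap.comp_apply, ← mono_nil, hom_mono, if_neg (by simp),
      map_zero]
  | [x] =>
    rw [mono_singleton, Loc_fi, loc2, LinearMap.comp_apply, ← mono_singleton, hom_mono,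
      if_neg (by simp), map_zero]
  | [x, y] =>
    rw [loc2_mono, mono_cons, mono_singleton, Loc_fi_fi]
  | x :: y :: z :: L =>
    rw [mono_cons, mono_cons, mono_cons, Loc_three, ← mono_cons, ← mono_cons, ← mono_cons, loc2,
      LinearMap.comp_apply, hom_mono, if_neg (by simp), map_zero]

theorem range_P0_le (M : Modes V ι κ) :
    LinearMap.range M.P0 ≤ Submodule.span ℝ (Set.range M.p) := by
  rintro _ ⟨x, rfl⟩
  rw [M.P0_apply]
  exact Submodule.sum_mem _ fun i _ => Submodule.smul_mem _ _ (Submodule.subset_span ⟨i, rfl⟩)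


instance finDim_range_P0 (M : Modes V ι κ) : FiniteDimensional ℝ (LinearMap.range M.P0) := by
  haveI : FiniteDimensional ℝ (Submodule.span ℝ (Set.range M.p)) :=
    FiniteDimensional.span_of_finite ℝ (Set.finite_range _)
  exact Submodule.finiteDimensional_of_le (range_P0_le M)

theorem finrank_range_P0 (M : Modes V ι κ) :
    Module.finrank ℝ (LinearMap.range M.P0) ≤ Fintype.card ι := by
  haveI : FiniteDimensional ℝ (Submodule.span ℝ (Set.range M.p)) :=
    FiniteDimensional.span_of_finite ℝ (Set.finite_range _)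
  exact (Submodule.finrank_mono (range_P0_le M)).trans (finrank_range_le_card M.p)

end Crest.Agent.R165.PNormx417
end
end

-- ▼ part R165/GBulk_417
section

/-!
# Row 165 (S0250), block G4: the linear bound of the bulk step on the names of `GDef_387`
-/

set_option autoImplicit false
set_option linter.unusedSectionVars false

noncomputable section

open scoped ENNReal
open Crest.Agent.R165.Gr0x606 Crest.Agent.R165.Latx683 Crest.Agent.R165.PNormx417
open Crest.Agent.R165.GDefx387 Crest.Agent.R165.Locx901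

namespace Crest.Agent.R165.GBulkx417

variable {G : Type} [CommRing G] [CN G]

/-! ### the pairing and the weights -/

theorem pair_zero (f : HE G → ℝ) : pair (0 : Fld G) f = 0 := by simp [pair]

theorem pair_add (l l' : Fld G) (f : HE G → ℝ) : pair (l + l') f = pair l f + pair l' f := by
  classical
  unfold pair
  exact Finsupp.sum_add_index' (fun h => by simp) (fun h b c => by ring)

theorem pair_smul (c : ℝ) (l : Fld G) (f : HE G → ℝ) : pair (c • l) f = c * pair l f := by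
  classical
  unfold pair
  rw [Finsupp.sum_smul_index' (fun h => by simp), Finsupp.mul_sum]
  refine Finsupp.sum_congr fun h _ => ?_
  simp only [smul_eq_mul]; ring

theorem wt_semi (w : BW G) (a : ℝ) (r : ℕ) (x : G × G) : ESemi (wt w a r x) := by
  have h1 : ∀ f : {f : HE G → ℝ // nnB w r x f ≤ 1},
      ESemi fun l : Fld G => ENNReal.ofReal |pair l f.1| := by
    intro f
    refine ⟨by simp [pair_zero], fun l l' => ?_, fun c l => ?_⟩
    · rw [pair_add, ← ENNReal.ofReal_add (abs_nonneg _) (abs_nonneg _)]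
      exact ENNReal.ofReal_le_ofReal (abs_add_le _ _)
    · rw [pair_smul, abs_mul, ENNReal.ofReal_mul (abs_nonneg _), ← Real.norm_eq_abs c, ofReal_norm]
  exact (ESemi.iSup h1).const_mul _

theorem wt_zero (w : BW G) (a : ℝ) (r : ℕ) (x : G × G) : wt w a r x 0 = 0 := (wt_semi w a r x).zero

theorem wt_add_le (w : BW G) (a : ℝ) (r : ℕ) (x : G × G) (l l' : Fld G) :
    wt w a r x (l + l') ≤ wt w a r x l + wt w a r x l' := (wt_semi w a r x).add l l'

/-! ### the weight relative to a set of faces -/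

theorem wU_le {w : BW G} {a : ℝ} {r : ℕ} {U : Finset (G × G)} {l : Fld G} {x : G × G}
    (hx : x ∈ U) (hl : SuppL (ball x (s0 * r)) l) : wU w a r U l ≤ wt w a r x l := by
  classical
  unfold wU
  exact (iInf₂_le x hx).trans (by rw [if_pos hl])

theorem wU_cases (w : BW G) (a : ℝ) (r : ℕ) (U : Finset (G × G)) (l : Fld G) :
    wU w a r U l = ∞ ∨ ∃ x ∈ U, SuppL (ball x (s0 * r)) l ∧ wU w a r U l = wt w a r x l := by
  classical
  by_cases h : ∃ x ∈ U, SuppL (ball x (s0 * r)) l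
  · right
    -- minimise over the finite set of admissible points
    let U' := U.filter fun x => SuppL (ball x (s0 * r)) l
    have hne : U'.Nonempty := by
      obtain ⟨x, hx, hl⟩ := h
      exact ⟨x, Finset.mem_filter.2 ⟨hx, hl⟩⟩
    obtain ⟨x, hx, hmin⟩ := U'.exists_min_image (fun x => wt w a r x l) hne
    obtain ⟨hxU, hxl⟩ := Finset.mem_filter.1 hx
    refine ⟨x, hxU, hxl, le_antisymm (wU_le hxU hxl) ?_⟩
    unfold wU
    refine le_iInf₂ fun y hy => ?_
    split_ifs with hyl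
    · exact hmin y (Finset.mem_filter.2 ⟨hy, hyl⟩)
    · exact le_top
  · left
    push Not at h
    unfold wU
    refine le_antisymm le_top (le_iInf₂ fun x hx => ?_)
    rw [if_neg (h x hx)]

theorem le_mul_wU {w : BW G} {a : ℝ} {r : ℕ} {U : Finset (G × G)} {l : Fld G} {A c : ℝ≥0∞}
    (hc : c ≠ 0) (h : ∀ x ∈ U, SuppL (ball x (s0 * r)) l → A ≤ c * wt w a r x l) :
    A ≤ c * wU w a r U l := by
  rcases wU_cases w a r U l with h1 | ⟨x, hx, hl, h1⟩
  · rw [h1, ENNReal.mul_top hc]; exact le_top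
  · rw [h1]; exact h x hx hl

theorem le_wU {w : BW G} {a : ℝ} {r : ℕ} {U : Finset (G × G)} {l : Fld G} {A : ℝ≥0∞}
    (h : ∀ x ∈ U, SuppL (ball x (s0 * r)) l → A ≤ wt w a r x l) : A ≤ wU w a r U l := by
  have := le_mul_wU (c := 1) (A := A) (U := U) (l := l) (w := w) (a := a) (r := r) one_ne_zero
    (by simpa using h)
  simpa using this

theorem SuppL.mono {Z Z' : Set (G × G)} (h : Z ⊆ Z') {l : Fld G} (hl : SuppL Z l) : SuppL Z' l :=
  fun x hx => h (hl x hx)

theorem ball_mono (x : G × G) {r r' : ℕ} (h : r ≤ r') : ball x r ⊆ ball x r' :=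
  fun _ hf => le_trans hf h


/-! ### the hypotheses (leaves W0, W1, W2) -/

/-- the weight inequalities of the bulk used in one step from scale `r` to scale `r'` -/
structure BulkHyp (w : BW G) (a a' : ℝ) (r r' : ℕ) (g : Fld G → ℝ≥0∞)
    (P0 P1 : G × G → Fld G →ₗ[ℝ] Fld G) (p0 p1 q2 q0 C : ℝ≥0∞) : Prop where
  g_semi : ESemi g
  W0 : ∀ x l, SuppL (ball x (s0 * r)) l → g l ≤ q0 * wt w a r x l
  W1 : ∀ x, WLe w a a' r r' x x LinearMap.id p0
  W2a : ∀ x f, fd x f ≤ r → WLe w a a' r r' x f (P0 f) p0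
  W2b : ∀ x f, fd x f ≤ r → WLe w a a' r r' x f (P1 f) p1
  W2c : ∀ x f, fd x f ≤ r → WLe w a a' r r' x f (LinearMap.id - P0 f - P1 f) q2
  W2d : ∀ x f, fd x f ≤ r → WLe w a a r r x f (P0 f) C

variable {w : BW G} {a a' : ℝ} {r r' : ℕ} {g : Fld G → ℝ≥0∞}
  {P0 P1 : G × G → Fld G →ₗ[ℝ] Fld G} {p0 p1 q2 q0 C : ℝ≥0∞}

/-- one atom, one scale to the next one -/
theorem wU_add_g_le (h0 : ∀ x l, SuppL (ball x (s0 * r)) l → g l ≤ q0 * wt w a r x l)
    (h1 : ∀ x, WLe w a a' r r' x x LinearMap.id p0) (hc : p0 + q0 ≠ 0)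
    (U : Finset (G × G)) (l : Fld G) : wU w a' r' U l + g l ≤ (p0 + q0) * wU w a r U l := by
  refine le_mul_wU hc fun x hx hl => ?_
  obtain ⟨h2, h3⟩ := h1 x l hl
  rw [add_mul]
  exact add_le_add ((wU_le hx h2).trans h3) (h0 x l hl)

/-- **any polymer**: the convolution does not increase the norm (bulk and boundary) -/
theorem pnorm_any {S : Cov (Fld G)} (hg : Gram S g)
    (h0 : ∀ x l, SuppL (ball x (s0 * r)) l → g l ≤ q0 * wt w a r x l)
    (h1 : ∀ x, WLe w a a' r r' x x LinearMap.id p0) (hc0 : p0 + q0 ≠ 0) (hc : p0 + q0 ≤ 1)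
    (U : Finset (G × G)) (F : Gr (Fld G)) :
    pnorm (wU w a' r' U) (conv S F) ≤ pnorm (wU w a r U) F :=
  pnorm_conv_le hg (fun l => (wU_add_g_le h0 h1 hc0 U l).trans (mul_le_of_le_one_left zero_le hc))
    F

theorem pnorm_sub_hom0_le (v : Fld G → ℝ≥0∞) (F : Gr (Fld G)) :
    pnorm v (F - hom 0 F) ≤ pnorm v F := by
  have := pnorm_high_le v 1 F
  simpa [high_apply] using this

/-- **small polymer**: bulk step -/
theorem pnorm_small (H : BulkHyp w a a' r r' g P0 P1 p0 p1 q2 q0 C) {S : Cov (Fld G)}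
    (hg : Gram S g) (hrk : ∀ f, FiniteDimensional ℝ (LinearMap.range (P0 f)))
    (hrank : ∀ f, Module.finrank ℝ (LinearMap.range (P0 f)) ≤ 2)
    {U : Finset (G × G)} (hU : U.Nonempty) (hdiam : ∀ x ∈ U, ∀ f ∈ U, fd x f ≤ r)
    (hp0 : p0 ≠ 0) (hp1 : p1 ≠ 0) (hq2 : q2 ≠ 0) (hq0 : q0 ≠ 0)
    (hp0t : p0 ≠ ∞) (hp1t : p1 ≠ ∞) (hq2t : q2 ≠ ∞) (hCt : C ≠ ∞)
    (hq04 : q0 ≤ 1 / 4) (hq4 : p1 + q2 + q0 + q0 * C ≤ 1 / 4)
    (hqp : p1 + q2 + q0 + q0 * C ≤ p0 + q0 * C)
    {F : Gr (Fld G)} (hev : IsEv F) (hF : pnorm (wU w a r U) F ≠ ∞) :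
    pnorm (wU w a' r' U) (conv S F - hom 0 (conv S F) -
        (U.card : ℝ)⁻¹ • ∑ f ∈ U, loc2 (P0 f) (P1 f) (conv S F)) ≤
      (11 * ((p0 + q0 * C) ^ 2 * (p1 + q2 + q0 + q0 * C) ^ 2) +
        (p1 ^ 2 + 2 * (p0 + p1) * q2 + q2 ^ 2)) * pnorm (wU w a r U) F := by
  obtain ⟨f0, hf0⟩ := hU
  haveI := hrk f0
  have hq0t : q0 ≠ ∞ := ne_top_of_le_ne_top (by norm_num) hq04
  have hgP : ∀ x ∈ U, ∀ l, SuppL (ball x (s0 * r)) l → g (P0 f0 l) ≤ q0 * C * wt w a r x l := by
    intro x hx l hl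
    obtain ⟨h1, h2⟩ := H.W2d x f0 (hdiam x hx f0 hf0) l hl
    calc g (P0 f0 l) ≤ q0 * wt w a r f0 (P0 f0 l) := H.W0 f0 _ h1
      _ ≤ q0 * (C * wt w a r x l) := by gcongr
      _ = _ := by ring
  refine bulk_step hg (P0 f0) (hrank f0) U ⟨f0, hf0⟩ P0 P1 (p := p0 + q0 * C)
    (q := p1 + q2 + q0 + q0 * C) (a := q0) ?_ hq4 hqp ?_ ?_ hp0t hp1t hq2t ?_ ?_ ?_ hq04 ?_ hev hF
  · exact ENNReal.add_ne_top.2 ⟨hp0t, ENNReal.mul_ne_top hq0t hCt⟩
  · intro l
    refine le_mul_wU (by simp [hp0]) fun x hx hl => ?_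
    obtain ⟨h1, h2⟩ := H.W2a x f0 (hdiam x hx f0 hf0) l hl
    rw [add_mul]
    exact add_le_add ((wU_le hf0 h1).trans h2) (hgP x hx l hl)
  · intro l
    refine le_mul_wU (by simp [hp1]) fun x hx hl => ?_
    obtain ⟨h1, h2⟩ := H.W2b x f0 (hdiam x hx f0 hf0) l hl
    obtain ⟨h3, h4⟩ := H.W2c x f0 (hdiam x hx f0 hf0) l hl
    have e : l - P0 f0 l = P1 f0 l + (LinearMap.id - P0 f0 - P1 f0 : Fld G →ₗ[ℝ] Fld G) l := by
      simp only [LinearMap.sub_apply, LinearMap.id_apply]; abel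
    have hs : SuppL (ball f0 (s0 * r')) (l - P0 f0 l) := by
      rw [e]
      intro h hh
      by_contra hcon
      have a1 : P1 f0 l h = 0 := by
        by_contra h'; exact hcon (h1 h h')
      have a2 : (LinearMap.id - P0 f0 - P1 f0 : Fld G →ₗ[ℝ] Fld G) l h = 0 := by
        by_contra h'; exact hcon (h3 h h')
      exact hh (by rw [Finsupp.add_apply, a1, a2, add_zero])
    have h5 : wt w a' r' f0 (l - P0 f0 l) ≤ (p1 + q2) * wt w a r x l := by
      rw [e, add_mul]
      exact (wt_add_le _ _ _ _ _ _).trans (add_le_add h2 h4)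
    have h6 : g (l - P0 f0 l) ≤ (q0 + q0 * C) * wt w a r x l := by
      rw [add_mul]
      exact (H.g_semi.sub _ _).trans (add_le_add (H.W0 x l hl) (hgP x hx l hl))
    calc wU w a' r' U (l - P0 f0 l) + g (l - P0 f0 l) ≤
        (p1 + q2) * wt w a r x l + (q0 + q0 * C) * wt w a r x l :=
          add_le_add ((wU_le hf0 hs).trans h5) h6
      _ = _ := by ring
  · intro f hf l
    refine le_mul_wU hp0 fun x hx hl => ?_
    obtain ⟨h1, h2⟩ := H.W2a x f (hdiam x hx f hf) l hl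
    exact (wU_le hf h1).trans h2
  · intro f hf l
    refine le_mul_wU hp1 fun x hx hl => ?_
    obtain ⟨h1, h2⟩ := H.W2b x f (hdiam x hx f hf) l hl
    exact (wU_le hf h1).trans h2
  · intro f hf l
    refine le_mul_wU hq2 fun x hx hl => ?_
    obtain ⟨h1, h2⟩ := H.W2c x f (hdiam x hx f hf) l hl
    exact (wU_le hf h1).trans h2
  · intro l
    exact le_mul_wU hq0 fun x _ hl => H.W0 x l hl

end Crest.Agent.R165.GBulkx417
end
end

-- ▼ part R165/GBulk2_417

/-!
# Row 165 (S0250), block G4: linear bound of the bulk step in the norm `NK`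
-/

set_option autoImplicit false
set_option linter.unusedSectionVars false

noncomputable section

open scoped ENNReal
open Crest.Agent.R165.Gr0x606 Crest.Agent.R165.Latx683 Crest.Agent.R165.PNormx417
open Crest.Agent.R165.GDefx387 Crest.Agent.R165.Locx901 Crest.Agent.R165.Packx915
open Crest.Agent.R165.NSumx915 Crest.Agent.R165.Bridgex915

namespace Crest.Agent.R165.GBulkx417

variable {G : Type} [CommRing G] [CN G]

open Classical in
/-- linear part of the remainder after one step: convolution, minus the constant, minus the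
averaged local part for the small polymers -/
def Qlin (S : Cov (Fld G)) (Lo : G × G → Gr (Fld G) →ₗ[ℝ] Gr (Fld G)) (r : ℕ)
    (Q : Finset (G × G) → Gr (Fld G)) (U : Finset (G × G)) : Gr (Fld G) :=
  conv S (Q U) - hom 0 (conv S (Q U)) -
    if size r U ≤ 1 then (U.card : ℝ)⁻¹ • ∑ f ∈ U, Lo f (conv S (Q U)) else 0

theorem Qlin_zero (S : Cov (Fld G)) (Lo : G × G → Gr (Fld G) →ₗ[ℝ] Gr (Fld G)) (r : ℕ)
    {Q : Finset (G × G) → Gr (Fld G)} {U : Finset (G × G)} (h : Q U = 0) :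
    Qlin S Lo r Q U = 0 := by
  classical
  unfold Qlin
  rw [h]
  simp


variable {w : BW G} {a a' : ℝ} {r r' : ℕ} {g : Fld G → ℝ≥0∞}
  {P0 P1 : G × G → Fld G →ₗ[ℝ] Fld G} {p0 p1 q2 q0 C : ℝ≥0∞}

/-- the numerical hypotheses on the constants of one bulk step -/
structure BulkNum (p0 p1 q2 q0 C : ℝ≥0∞) : Prop where
  p0_ne : p0 ≠ 0
  p1_ne : p1 ≠ 0
  q2_ne : q2 ≠ 0
  q0_ne : q0 ≠ 0
  p0_top : p0 ≠ ∞
  C_top : C ≠ ∞
  q0_le : q0 ≤ 1 / 4
  q_le : p1 + q2 + q0 + q0 * C ≤ 1 / 4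
  qp_le : p1 + q2 + q0 + q0 * C ≤ p0 + q0 * C
  sum_le : p0 + q0 ≤ 1

theorem BulkNum.p1_top (N : BulkNum p0 p1 q2 q0 C) : p1 ≠ ∞ :=
  ne_top_of_le_ne_top (by norm_num : (1 / 4 : ℝ≥0∞) ≠ ∞) (le_trans (by
    calc p1 ≤ p1 + (q2 + q0 + q0 * C) := le_self_add
      _ = _ := by ring) N.q_le)

theorem BulkNum.q2_top (N : BulkNum p0 p1 q2 q0 C) : q2 ≠ ∞ :=
  ne_top_of_le_ne_top (by norm_num : (1 / 4 : ℝ≥0∞) ≠ ∞) (le_trans (by
    calc q2 ≤ q2 + (p1 + q0 + q0 * C) := le_self_add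
      _ = _ := by ring) N.q_le)

/-- contraction factor of a small bulk polymer -/
def kap (p0 p1 q2 q0 C : ℝ≥0∞) : ℝ≥0∞ :=
  11 * ((p0 + q0 * C) ^ 2 * (p1 + q2 + q0 + q0 * C) ^ 2) + (p1 ^ 2 + 2 * (p0 + p1) * q2 + q2 ^ 2)

theorem BulkNum.kap_ne (N : BulkNum p0 p1 q2 q0 C) : kap p0 p1 q2 q0 C ≠ 0 := by
  unfold kap
  have : p1 ^ 2 ≠ 0 := pow_ne_zero 2 N.p1_ne
  simp [this, N.p1_ne]

/-- per polymer bound, small -/
theorem pnorm_Qlin_small (H : BulkHyp w a a' r r' g P0 P1 p0 p1 q2 q0 C)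
    (N : BulkNum p0 p1 q2 q0 C) {S : Cov (Fld G)}
    (hg : Gram S g) (hrk : ∀ f, FiniteDimensional ℝ (LinearMap.range (P0 f)))
    (hrank : ∀ f, Module.finrank ℝ (LinearMap.range (P0 f)) ≤ 2)
    {Q : Finset (G × G) → Gr (Fld G)} (hev : ∀ U, IsEv (Q U))
    {U : Finset (G × G)} (hU : U.Nonempty) (hs : size r U ≤ 1) :
    pnorm (wU w a' r' U) (Qlin S (fun f => loc2 (P0 f) (P1 f)) r Q U) ≤
      kap p0 p1 q2 q0 C * pnorm (wU w a r U) (Q U) := by
  classical
  by_cases hF : pnorm (wU w a r U) (Q U) = ∞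
  · rw [hF, ENNReal.mul_top N.kap_ne]; exact le_top
  · have hdiam : ∀ x ∈ U, ∀ f ∈ U, fd x f ≤ r := by
      intro x hx f hf
      rw [size_eq_pack] at hs
      exact (pack_le_one_iff pd_fd).1 hs x hx f hf
    unfold Qlin
    rw [if_pos hs]
    exact pnorm_small H hg hrk hrank hU hdiam N.p0_ne N.p1_ne N.q2_ne N.q0_ne N.p0_top N.p1_top
      N.q2_top N.C_top N.q0_le N.q_le N.qp_le (hev U) hF

/-- per polymer bound, large -/
theorem pnorm_Qlin_large (h0 : ∀ x l, SuppL (ball x (s0 * r)) l → g l ≤ q0 * wt w a r x l)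
    (h1 : ∀ x, WLe w a a' r r' x x LinearMap.id p0) (hc0 : p0 + q0 ≠ 0) (hc : p0 + q0 ≤ 1)
    {S : Cov (Fld G)} (hg : Gram S g) (Lo : G × G → Gr (Fld G) →ₗ[ℝ] Gr (Fld G))
    (Q : Finset (G × G) → Gr (Fld G)) {U : Finset (G × G)} (hs : ¬ size r U ≤ 1) :
    pnorm (wU w a' r' U) (Qlin S Lo r Q U) ≤ pnorm (wU w a r U) (Q U) := by
  classical
  unfold Qlin
  rw [if_neg hs, sub_zero]
  exact (pnorm_sub_hom0_le _ _).trans (pnorm_any hg h0 h1 hc0 hc U (Q U))

/-- **linear bound of the bulk step** -/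
theorem NK_Qlin_le [GoodG G] (H : BulkHyp w a a' r r' g P0 P1 p0 p1 q2 q0 C)
    (N : BulkNum p0 p1 q2 q0 C) {S : Cov (Fld G)}
    (hg : Gram S g) (hrk : ∀ f, FiniteDimensional ℝ (LinearMap.range (P0 f)))
    (hrank : ∀ f, Module.finrank ℝ (LinearMap.range (P0 f)) ≤ 2)
    {Q : Finset (G × G) → Gr (Fld G)} (hev : ∀ U, IsEv (Q U)) (hQ0 : Q ∅ = 0)
    {R : ℕ} (hconn : ∀ U, Q U ≠ 0 → Packx915.Conn fd R U) (hr : 0 < r) (hR : R + 2 * r ≤ r')
    {Γ : ℝ≥0∞} (hΓ : 1 ≤ Γ) (hΓt : Γ ≠ ∞) (p : Finset (G × G) → Prop) :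
    NK w a' r' Γ p (Qlin S (fun f => loc2 (P0 f) (P1 f)) r Q) ≤
      (((2 * (r' / r) + 3) ^ 2 : ℕ) : ℝ≥0∞) * (kap p0 p1 q2 q0 C + Γ⁻¹) * NK w a r Γ p Q := by
  classical
  rw [NK_eq_NN, NK_eq_NN]
  have hΓ0 : Γ ≠ 0 := (lt_of_lt_of_le one_pos hΓ).ne'
  have hcov := cov_fd (G := G) hr r'
  have key := NN_step (d := (fd : G × G → G × G → ℕ)) (r := r) (r' := r') (Γ := Γ)
    (Finset.univ : Finset Bool)
    (fun b U => if b then size r U ≤ 1 else ¬ size r U ≤ 1)
    (act w a' r' p (Qlin S (fun f => loc2 (P0 f) (P1 f)) r Q))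
    (fun _ => act w a r p Q) (fun b => if b then kap p0 p1 q2 q0 C else Γ⁻¹)
    (fun _ => (2 * (r' / r) + 3) ^ 2)
    (fun U _ => by
      by_cases hs : size r U ≤ 1
      · exact ⟨true, Finset.mem_univ _, by simpa using hs⟩
      · exact ⟨false, Finset.mem_univ _, by simpa using hs⟩)
    (fun b _ U hb hne => by
      by_cases hpU : p U
      · rw [act_of hpU, act_of hpU]
        have hQU : Q U ≠ 0 := by
          intro h
          apply hne
          rw [act_of hpU, Qlin_zero _ _ _ h, pnorm_zero]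
        have hUne : U.Nonempty := by
          rw [Finset.nonempty_iff_ne_empty]
          rintro rfl
          exact hQU hQ0
        cases b with
        | true =>
          simp only [if_true] at hb ⊢
          have h1 := pnorm_Qlin_small H N hg hrk hrank hev hUne hb
          have h2 : Γ ^ pack fd r' U ≤ Γ ^ pack fd r U :=
            pow_le_pow_right₀ hΓ (pack_anti (by omega))
          calc Γ ^ pack fd r' U * _ ≤ Γ ^ pack fd r U * (kap p0 p1 q2 q0 C *
                pnorm (wU w a r U) (Q U)) := mul_le_mul' h2 h1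
            _ = _ := by ring
        | false =>
          simp only [Bool.false_eq_true, if_false] at hb ⊢
          have hc0 : p0 + q0 ≠ 0 := by
            intro h
            exact N.p0_ne (add_eq_zero.1 h).1
          have h1 := pnorm_Qlin_large H.W0 H.W1 hc0 N.sum_le hg
            (fun f => loc2 (P0 f) (P1 f)) Q hb
          have h2 : pack fd r' U + 1 ≤ pack fd r U := by
            refine pack_drop pd_fd (hconn U hQU) hR ?_
            rw [size_eq_pack] at hb
            omega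
          have h3 : Γ ^ pack fd r' U ≤ Γ⁻¹ * Γ ^ pack fd r U := by
            calc Γ ^ pack fd r' U = Γ⁻¹ * (Γ * Γ ^ pack fd r' U) := by
                  rw [← mul_assoc, ENNReal.inv_mul_cancel hΓ0 hΓt, one_mul]
              _ = Γ⁻¹ * Γ ^ (pack fd r' U + 1) := by rw [pow_succ']
              _ ≤ _ := by gcongr
          calc Γ ^ pack fd r' U * _ ≤ (Γ⁻¹ * Γ ^ pack fd r U) * pnorm (wU w a r U) (Q U) :=
                mul_le_mul' h3 h1
            _ = _ := by ring
      · exact absurd (act_not hpU) hne)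
    (fun b _ f => by
      obtain ⟨net, hc, hn⟩ := hcov.net f
      exact ⟨net, hc, fun U _ _ hU => hn U hU⟩)
  refine key.trans (le_of_eq ?_)
  rw [Fintype.sum_bool]
  simp only [if_true, Bool.false_eq_true, if_false]
  ring

end Crest.Agent.R165.GBulkx417
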