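import Crest.Agent.R165.J4RR_653
import Crest.Agent.R165.J4Can_653

-- ▼ part R165/J4Path_653
section

/-!
# Row 165 (S0250), block J4, section 2: representation of even spin products by bond variables
(helper653)

* `edIn U`   : edges with both end points in `U`
* `hull B`   : bounding box
* `PB B`     : element of `RR` with `PB_mem`, `PB_eval`, `PB_tr`, `PB_rot`, `PB_ref`, `nmE_PB_le`
* `kB t B`   : `(cosh t - 1) + sinh t • PB B`, `kB_eval`, `prod_kB_eval`
-/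

set_option autoImplicit false

noncomputable section

open Finset
open Crest.ProbabilityR.IsingModel
open Crest.Agent.R165.J4Defx653 Crest.Agent.R165.J4RRx653
open scoped ENNReal

namespace Crest.Agent.R165.J4Pathx653

/-- edges of the square lattice, `(z, j) = {z, z + unitVec j}` -/
abbrev Ed : Type := (ℤ × ℤ) × Fin 2

theorem epsE_sq (s : ℤ × ℤ → Bool) (e : Ed) : epsE s e * epsE s e = 1 := by
  have h1 := spinSign_sq (s e.1)
  have h2 := spinSign_sq (s (e.1 + unitVec e.2))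
  calc epsE s e * epsE s e = (spinSign (s e.1) * spinSign (s e.1)) *
        (spinSign (s (e.1 + unitVec e.2)) * spinSign (s (e.1 + unitVec e.2))) := by
        rw [epsE]; ring
    _ = 1 := by rw [h1, h2, one_mul]

theorem sB_sq (s : ℤ × ℤ → Bool) (B : Finset (ℤ × ℤ)) : sB s B * sB s B = 1 := by
  rw [sB, ← Finset.prod_mul_distrib]
  exact Finset.prod_eq_one fun x _ => spinSign_sq _

/-- edges with both end points in `U` -/
def edIn (U : Set (ℤ × ℤ)) : Set Ed := {e | e.1 ∈ U ∧ e.1 + unitVec e.2 ∈ U}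

theorem edIn_mono {U U' : Set (ℤ × ℤ)} (h : U ⊆ U') : edIn U ⊆ edIn U' :=
  fun _ he => ⟨h he.1, h he.2⟩

/-- bounding box -/
def hull (B : Finset (ℤ × ℤ)) : Set (ℤ × ℤ) :=
  {x | (∃ y ∈ B, y.1 ≤ x.1) ∧ (∃ y ∈ B, x.1 ≤ y.1) ∧ (∃ y ∈ B, y.2 ≤ x.2) ∧ (∃ y ∈ B, x.2 ≤ y.2)}

theorem subset_hull (B : Finset (ℤ × ℤ)) : (B : Set (ℤ × ℤ)) ⊆ hull B :=
  fun x hx => ⟨⟨x, hx, le_rfl⟩, ⟨x, hx, le_rfl⟩, ⟨x, hx, le_rfl⟩, ⟨x, hx, le_rfl⟩⟩

/-! ### paths -/

/-- `x` and `y` are joined by a set of edges inside `U` -/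
def Jn (U : Set (ℤ × ℤ)) (x y : ℤ × ℤ) : Prop :=
  ∃ S : Ed →₀ ZMod 2, (S.support : Set Ed) ⊆ edIn U ∧
    ∀ s : ℤ × ℤ → Bool, TH (epsE s) (ep S) = spinSign (s x) * spinSign (s y)

theorem Jn.refl (U : Set (ℤ × ℤ)) (x : ℤ × ℤ) : Jn U x x :=
  ⟨0, by simp, fun s => by rw [ep_zero, TH_one, spinSign_sq]⟩

theorem Jn.symm {U : Set (ℤ × ℤ)} {x y : ℤ × ℤ} (h : Jn U x y) : Jn U y x := by
  obtain ⟨S, h1, h2⟩ := h
  exact ⟨S, h1, fun s => by rw [h2, mul_comm]⟩

theorem support_add_subset {U : Set Ed} {S T : Ed →₀ ZMod 2} (hS : (S.support : Set Ed) ⊆ U)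
    (hT : (T.support : Set Ed) ⊆ U) : ((S + T).support : Set Ed) ⊆ U := by
  intro e he
  rcases Finset.mem_union.1 (Finsupp.support_add (Finset.mem_coe.1 he)) with h | h
  · exact hS (Finset.mem_coe.2 h)
  · exact hT (Finset.mem_coe.2 h)

theorem Jn.trans {U : Set (ℤ × ℤ)} {x y z : ℤ × ℤ} (h : Jn U x y) (h' : Jn U y z) : Jn U x z := by
  obtain ⟨S, h1, h2⟩ := h
  obtain ⟨T, h3, h4⟩ := h'
  refine ⟨S + T, support_add_subset h1 h3, fun s => ?_⟩
  rw [ep_add, TH_mul_sq _ (epsE_sq s), h2, h4]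
  have := spinSign_sq (s y)
  calc spinSign (s x) * spinSign (s y) * (spinSign (s y) * spinSign (s z)) =
        spinSign (s x) * spinSign (s z) * (spinSign (s y) * spinSign (s y)) := by ring
    _ = _ := by rw [this, mul_one]

theorem Jn.edge {U : Set (ℤ × ℤ)} (e : Ed) (he : e ∈ edIn U) : Jn U e.1 (e.1 + unitVec e.2) := by
  refine ⟨Finsupp.single e 1, ?_, fun s => ?_⟩
  · rw [Finsupp.support_single_ne_zero _ one_ne_zero]
    simpa using he
  · rw [TH_ep, Finsupp.support_single_ne_zero _ one_ne_zero, Finset.prod_singleton, epsE]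

theorem unitVec_zero : unitVec 0 = (1, 0) := rfl
theorem unitVec_one : unitVec 1 = (0, 1) := rfl

theorem Jn_box (p q x : ℤ × ℤ) (hx : x ∈ Set.Icc p q) : Jn (Set.Icc p q) p x := by
  have hcol : ∀ n : ℕ, p.2 + n ≤ q.2 → Jn (Set.Icc p q) p (p.1, p.2 + n) := by
    intro n
    induction n with
    | zero => intro _; simpa using Jn.refl _ p
    | succ n ih =>
      intro hn
      push_cast at hn
      refine (ih (by omega)).trans ?_
      have h1 : p.1 ≤ q.1 := (hx.1.1).trans hx.2.1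
      have := Jn.edge (U := Set.Icc p q) ((p.1, p.2 + n), 1) ⟨?_, ?_⟩
      · rw [unitVec_one] at this
        convert this using 1
        ext <;> simp
        ring
      · refine ⟨⟨le_rfl, ?_⟩, ⟨h1, ?_⟩⟩ <;> dsimp only <;> omega
      · rw [unitVec_one]
        refine ⟨⟨?_, ?_⟩, ⟨?_, ?_⟩⟩ <;> simp <;> omega
  have hrow : ∀ n : ℕ, p.1 + n ≤ q.1 → Jn (Set.Icc p q) (p.1, x.2) (p.1 + n, x.2) := by
    intro n
    induction n with
    | zero => intro _; simpa using Jn.refl _ (p.1, x.2)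
    | succ n ih =>
      intro hn
      push_cast at hn
      refine (ih (by omega)).trans ?_
      have hx2 := hx.1.2
      have hx3 := hx.2.2
      have := Jn.edge (U := Set.Icc p q) ((p.1 + n, x.2), 0) ⟨?_, ?_⟩
      · rw [unitVec_zero] at this
        convert this using 1
        ext <;> simp
        ring
      · refine ⟨⟨?_, hx2⟩, ⟨?_, hx3⟩⟩ <;> dsimp only <;> omega
      · rw [unitVec_zero]
        refine ⟨⟨?_, ?_⟩, ⟨?_, ?_⟩⟩ <;> simp <;> omega
  have h2 := hcol (x.2 - p.2).toNat (by have := hx.1.2; have := hx.2.2; omega)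
  have h1 := hrow (x.1 - p.1).toNat (by have := hx.1.1; have := hx.2.1; omega)
  have e2 : p.2 + ((x.2 - p.2).toNat : ℤ) = x.2 := by have := hx.1.2; omega
  have e1 : p.1 + ((x.1 - p.1).toNat : ℤ) = x.1 := by have := hx.1.1; omega
  rw [e2] at h2
  rw [e1] at h1
  exact h2.trans h1

/-- `B` is represented by edges inside `U` -/
def Rep (U : Set (ℤ × ℤ)) (B : Finset (ℤ × ℤ)) (S : Ed →₀ ZMod 2) : Prop :=
  (S.support : Set Ed) ⊆ edIn U ∧ ∀ s : ℤ × ℤ → Bool, TH (epsE s) (ep S) = sB s B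

theorem exists_rep_box (p q : ℤ × ℤ) (n : ℕ) : ∀ B : Finset (ℤ × ℤ), B.card = 2 * n →
    (∀ x ∈ B, x ∈ Set.Icc p q) → ∃ S, Rep (Set.Icc p q) B S := by
  induction n with
  | zero =>
    intro B hB _
    have : B = ∅ := Finset.card_eq_zero.1 (by simpa using hB)
    subst this
    exact ⟨0, by simp, fun s => by simp [sB]⟩
  | succ n ih =>
    intro B hB hU
    obtain ⟨x, hx⟩ : B.Nonempty := Finset.card_pos.1 (by omega)
    have hc1 : (B.erase x).card = 2 * n + 1 := by rw [Finset.card_erase_of_mem hx]; omega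
    obtain ⟨y, hy⟩ : (B.erase x).Nonempty := Finset.card_pos.1 (by omega)
    have hc2 : ((B.erase x).erase y).card = 2 * n := by rw [Finset.card_erase_of_mem hy]; omega
    obtain ⟨S, hS1, hS2⟩ := ih _ hc2 fun z hz =>
      hU z (Finset.mem_of_mem_erase (Finset.mem_of_mem_erase hz))
    obtain ⟨T, hT1, hT2⟩ := (Jn_box p q x (hU x hx)).symm.trans
      (Jn_box p q y (hU y (Finset.mem_of_mem_erase hy)))
    refine ⟨S + T, support_add_subset hS1 hT1, fun s => ?_⟩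
    rw [ep_add, TH_mul_sq _ (epsE_sq s), hS2, hT2, sB, sB, ← Finset.mul_prod_erase B _ hx,
      ← Finset.mul_prod_erase (B.erase x) _ hy]
    ring

theorem exists_rep (B : Finset (ℤ × ℤ)) (hB : Even B.card) : ∃ S, Rep (hull B) B S := by
  rcases B.eq_empty_or_nonempty with rfl | hne
  · exact ⟨0, by simp, fun s => by simp [sB]⟩
  · obtain ⟨a1, ha1, h1⟩ := B.exists_min_image (fun z => z.1) hne
    obtain ⟨a2, ha2, h2⟩ := B.exists_min_image (fun z => z.2) hne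
    obtain ⟨b1, hb1, h3⟩ := B.exists_max_image (fun z => z.1) hne
    obtain ⟨b2, hb2, h4⟩ := B.exists_max_image (fun z => z.2) hne
    obtain ⟨n, hn⟩ := hB
    obtain ⟨S, hS1, hS2⟩ := exists_rep_box (a1.1, a2.2) (b1.1, b2.2) n B (by omega)
      fun x hx => ⟨⟨h1 x hx, h2 x hx⟩, ⟨h3 x hx, h4 x hx⟩⟩
    refine ⟨S, hS1.trans (edIn_mono ?_), hS2⟩
    intro x hx
    exact ⟨⟨a1, ha1, hx.1.1⟩, ⟨b1, hb1, hx.2.1⟩, ⟨a2, ha2, hx.1.2⟩, ⟨b2, hb2, hx.2.2⟩⟩

/-! ### lattice symmetries acting on edges -/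

/-- translation of edges -/
def trEd (z : ℤ × ℤ) (e : Ed) : Ed := (e.1 + z, e.2)

/-- rotation of edges -/
def rotEd (e : Ed) : Ed :=
  if e.2 = 0 then (rotate e.1, 1) else (rotate e.1 - (1, 0), 0)

/-- reflection of edges -/
def refEd (e : Ed) : Ed :=
  if e.2 = 0 then (reflect e.1, 0) else (reflect e.1 - (0, 1), 1)

theorem trEd_inj (z : ℤ × ℤ) : Function.Injective (trEd z) := by
  rintro ⟨a, i⟩ ⟨b, j⟩ h
  simp only [trEd, Prod.mk.injEq, add_left_inj] at h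
  rw [h.1, h.2]

theorem rotEd_four (e : Ed) : rotEd (rotEd (rotEd (rotEd e))) = e := by
  obtain ⟨⟨a, b⟩, j⟩ := e
  fin_cases j <;> simp [rotEd, rotate]

theorem refEd_refEd (e : Ed) : refEd (refEd e) = e := by
  obtain ⟨⟨a, b⟩, j⟩ := e
  fin_cases j <;> simp [refEd, reflect]

theorem refEd_rotEd (e : Ed) : refEd (rotEd e) = rotEd (rotEd (rotEd (refEd e))) := by
  obtain ⟨⟨a, b⟩, j⟩ := e
  fin_cases j <;> simp [refEd, rotEd, reflect, rotate]

theorem rotEd_inj : Function.Injective rotEd := by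
  intro a b h
  rw [← rotEd_four a, h, rotEd_four]

theorem refEd_inj : Function.Injective refEd := by
  intro a b h
  rw [← refEd_refEd a, h, refEd_refEd]

theorem trEd_trEd (z w : ℤ × ℤ) (e : Ed) : trEd w (trEd z e) = trEd (z + w) e := by
  simp [trEd, add_assoc]

theorem rotEd_trEd (z : ℤ × ℤ) (e : Ed) : rotEd (trEd z e) = trEd (rotate z) (rotEd e) := by
  obtain ⟨⟨a, b⟩, j⟩ := e
  obtain ⟨c, d⟩ := z
  fin_cases j <;> simp [rotEd, trEd, rotate] <;> ring

theorem refEd_trEd (z : ℤ × ℤ) (e : Ed) : refEd (trEd z e) = trEd (reflect z) (refEd e) := by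
  obtain ⟨⟨a, b⟩, j⟩ := e
  obtain ⟨c, d⟩ := z
  fin_cases j <;> simp [refEd, trEd, reflect] <;> ring

theorem pr_trEd (z : ℤ × ℤ) (e : Ed) : pr (trEd z e) = tr (pr e) z := by
  ext x
  simp only [pr, trEd, mem_insert, mem_singleton, mem_tr]
  constructor
  · rintro (rfl | rfl)
    · left; simp
    · right; abel
  · rintro (h | h)
    · left; rw [← h]; simp
    · right
      have : x = e.1 + unitVec e.2 + z := by rw [← h]; simp
      rw [this]; abel

theorem pr_rotEd (e : Ed) : pr (rotEd e) = (pr e).image rotate := by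
  obtain ⟨⟨a, b⟩, j⟩ := e
  fin_cases j
  · simp [pr, rotEd, rotate, unitVec, Finset.image_insert]
  · simp only [pr, rotEd, rotate, unitVec, Finset.image_insert, Finset.image_singleton]
    ext x
    simp
    have e : -b - 1 = -1 + -b := by ring
    rw [e]
    tauto

theorem pr_refEd (e : Ed) : pr (refEd e) = (pr e).image reflect := by
  obtain ⟨⟨a, b⟩, j⟩ := e
  fin_cases j
  · simp [pr, refEd, reflect, unitVec, Finset.image_insert]
  · simp only [pr, refEd, reflect, unitVec, Finset.image_insert, Finset.image_singleton]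
    ext x
    simp
    constructor
    · rintro (h | h)
      · right; rw [h]; ext <;> simp; ring
      · left; exact h
    · rintro (h | h)
      · right; exact h
      · left; rw [h]; ext <;> simp; ring

/-- rotate a finite set -/
def rB (B : Finset (ℤ × ℤ)) : Finset (ℤ × ℤ) := B.image rotate
/-- reflect a finite set -/
def fB (B : Finset (ℤ × ℤ)) : Finset (ℤ × ℤ) := B.image reflect

theorem rotate_four (x : ℤ × ℤ) : rotate (rotate (rotate (rotate x))) = x := by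
  simp [rotate]
theorem reflect_reflect (x : ℤ × ℤ) : reflect (reflect x) = x := by
  simp [reflect]
theorem reflect_rotate (x : ℤ × ℤ) : reflect (rotate x) = rotate (rotate (rotate (reflect x))) := by
  simp [rotate, reflect]
theorem rotate_inj : Function.Injective rotate := by
  intro a b h; rw [← rotate_four a, h, rotate_four]
theorem reflect_inj : Function.Injective reflect := by
  intro a b h; rw [← reflect_reflect a, h, reflect_reflect]
theorem rotate_add (x y : ℤ × ℤ) : rotate (x + y) = rotate x + rotate y := by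
  simp [rotate]; ring
theorem reflect_add (x y : ℤ × ℤ) : reflect (x + y) = reflect x + reflect y := by
  simp [reflect]; ring

theorem rB_four (B : Finset (ℤ × ℤ)) : rB (rB (rB (rB B))) = B := by
  simp only [rB, Finset.image_image]
  have : (rotate ∘ (rotate ∘ (rotate ∘ rotate))) = id := by
    funext x; exact rotate_four x
  rw [this, Finset.image_id]
theorem fB_fB (B : Finset (ℤ × ℤ)) : fB (fB B) = B := by
  simp only [fB, Finset.image_image]
  have : (reflect ∘ reflect) = id := by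
    funext x; exact reflect_reflect x
  rw [this, Finset.image_id]
theorem fB_rB (B : Finset (ℤ × ℤ)) : fB (rB B) = rB (rB (rB (fB B))) := by
  simp only [fB, rB, Finset.image_image]
  congr 1
  funext x; exact reflect_rotate x
theorem rB_tr (B : Finset (ℤ × ℤ)) (z : ℤ × ℤ) : rB (tr B z) = tr (rB B) (rotate z) := by
  simp only [rB, tr, Finset.image_image]
  congr 1
  funext x; exact rotate_add x z
theorem fB_tr (B : Finset (ℤ × ℤ)) (z : ℤ × ℤ) : fB (tr B z) = tr (fB B) (reflect z) := by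
  simp only [fB, tr, Finset.image_image]
  congr 1
  funext x; exact reflect_add x z
theorem card_rB (B : Finset (ℤ × ℤ)) : (rB B).card = B.card :=
  Finset.card_image_of_injective _ rotate_inj
theorem card_fB (B : Finset (ℤ × ℤ)) : (fB B).card = B.card :=
  Finset.card_image_of_injective _ reflect_inj

theorem sB_rB (s : ℤ × ℤ → Bool) (B : Finset (ℤ × ℤ)) : sB s (rB B) = sB (s ∘ rotate) B := by
  rw [sB, rB, Finset.prod_image (fun x _ y _ h => rotate_inj h)]; rfl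
theorem sB_fB (s : ℤ × ℤ → Bool) (B : Finset (ℤ × ℤ)) : sB s (fB B) = sB (s ∘ reflect) B := by
  rw [sB, fB, Finset.prod_image (fun x _ y _ h => reflect_inj h)]; rfl
theorem sB_tr' (s : ℤ × ℤ → Bool) (B : Finset (ℤ × ℤ)) (z : ℤ × ℤ) :
    sB s (tr B z) = sB (fun x => s (x + z)) B := by
  rw [sB, tr, Finset.prod_image (fun x _ y _ h => add_left_injective z h)]; rfl

theorem epsE_trEd (s : ℤ × ℤ → Bool) (z : ℤ × ℤ) (e : Ed) :
    epsE s (trEd z e) = epsE (fun x => s (x + z)) e := by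
  rw [← sB_pr, ← sB_pr, pr_trEd, sB_tr']
theorem epsE_rotEd (s : ℤ × ℤ → Bool) (e : Ed) : epsE s (rotEd e) = epsE (s ∘ rotate) e := by
  rw [← sB_pr, ← sB_pr, pr_rotEd, ← rB, sB_rB]
theorem epsE_refEd (s : ℤ × ℤ → Bool) (e : Ed) : epsE s (refEd e) = epsE (s ∘ reflect) e := by
  rw [← sB_pr, ← sB_pr, pr_refEd, ← fB, sB_fB]

theorem hull_tr (B : Finset (ℤ × ℤ)) (z x : ℤ × ℤ) : x + z ∈ hull (tr B z) ↔ x ∈ hull B := by
  have key : ∀ P : ℤ × ℤ → Prop, (∃ y ∈ tr B z, P y) ↔ ∃ y ∈ B, P (y + z) := by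
    intro P
    constructor
    · rintro ⟨y, hy, h⟩
      exact ⟨y - z, mem_tr.1 hy, by simpa using h⟩
    · rintro ⟨y, hy, h⟩
      exact ⟨y + z, mem_tr.2 (by simpa using hy), h⟩
  simp only [hull, Set.mem_setOf_eq, key]
  simp

theorem hull_rB (B : Finset (ℤ × ℤ)) (x : ℤ × ℤ) : rotate x ∈ hull (rB B) ↔ x ∈ hull B := by
  simp only [hull, Set.mem_setOf_eq, rB, Finset.mem_image, exists_exists_and_eq_and, rotate,
    neg_le_neg_iff]
  tauto

theorem hull_fB (B : Finset (ℤ × ℤ)) (x : ℤ × ℤ) : reflect x ∈ hull (fB B) ↔ x ∈ hull B := by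
  simp only [hull, Set.mem_setOf_eq, fB, Finset.mem_image, exists_exists_and_eq_and, reflect,
    neg_le_neg_iff]
  tauto

theorem edIn_tr (B : Finset (ℤ × ℤ)) (z : ℤ × ℤ) (e : Ed) :
    trEd z e ∈ edIn (hull (tr B z)) ↔ e ∈ edIn (hull B) := by
  simp only [edIn, Set.mem_setOf_eq, trEd]
  rw [hull_tr, show e.1 + z + unitVec e.2 = e.1 + unitVec e.2 + z by abel, hull_tr]

theorem mem_edIn_iff_pr (U : Set (ℤ × ℤ)) (e : Ed) : e ∈ edIn U ↔ ∀ x ∈ pr e, x ∈ U := by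
  simp [edIn, pr]

theorem edIn_rB (B : Finset (ℤ × ℤ)) (e : Ed) :
    rotEd e ∈ edIn (hull (rB B)) ↔ e ∈ edIn (hull B) := by
  rw [mem_edIn_iff_pr, mem_edIn_iff_pr, pr_rotEd]
  simp only [Finset.mem_image, forall_exists_index, and_imp, forall_apply_eq_imp_iff₂, hull_rB]

theorem edIn_fB (B : Finset (ℤ × ℤ)) (e : Ed) :
    refEd e ∈ edIn (hull (fB B)) ↔ e ∈ edIn (hull B) := by
  rw [mem_edIn_iff_pr, mem_edIn_iff_pr, pr_refEd]
  simp only [Finset.mem_image, forall_exists_index, and_imp, forall_apply_eq_imp_iff₂, hull_fB]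

end Crest.Agent.R165.J4Pathx653
end
end

-- ▼ part R165/J4PB_653

/-!
# Row 165 (S0250), block J4, section 2: the covariant representation `PB` (helper653)

`PB B : RR Ed`, for a finite set `B` of sites of even cardinality:

* `PB_eval`  : `TH (epsE s) (PB B) = sB s B`
* `PB_mem`   : `PB B ∈ RIn (edIn (hull B))`
* `PB_tr`, `PB_rB`, `PB_fB` : covariance under translations, rotation, reflection
* `nmE_PB_le`
* `kB t B`   : `(cosh t - 1) + sinh t • PB B`; `kB_eval`, `prod_kB_eval`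
-/

set_option autoImplicit false

noncomputable section

open Finset
open Crest.ProbabilityR.IsingModel
open Crest.Agent.R165.J4Defx653 Crest.Agent.R165.J4RRx653
open scoped ENNReal

namespace Crest.Agent.R165.J4Pathx653

open Classical in
/-- some representation of `A` by edges of its bounding box -/
def ga0 (A : Finset (ℤ × ℤ)) : RR Ed :=
  if h : ∃ S, Rep (hull A) A S then ep h.choose else 0

theorem ga0_spec (A : Finset (ℤ × ℤ)) (hA : Even A.card) :
    ∃ S, Rep (hull A) A S ∧ ga0 A = ep S := by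
  have h := exists_rep A hA
  refine ⟨h.choose, h.choose_spec, ?_⟩
  rw [ga0, dif_pos h]

open Classical in
/-- the lexicographic minimum (0 for the empty set) -/
def lmin (B : Finset (ℤ × ℤ)) : ℤ × ℤ := if h : B.Nonempty then (exists_lexMin h).choose else 0

theorem lmin_spec {B : Finset (ℤ × ℤ)} (h : B.Nonempty) : IsLexMin B (lmin B) := by
  rw [lmin, dif_pos h]
  exact (exists_lexMin h).choose_spec

theorem lmin_tr {B : Finset (ℤ × ℤ)} (h : B.Nonempty) (z : ℤ × ℤ) : lmin (tr B z) = lmin B + z := by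
  have h1 := (lmin_spec h).tr z
  have h2 := lmin_spec (B := tr B z) ⟨_, h1.1⟩
  exact h2.unique h1

/-- translation covariant choice -/
def ga1 (B : Finset (ℤ × ℤ)) : RR Ed := em (trEd (lmin B)) (ga0 (tr B (-lmin B)))

theorem RIn_em_iff {f : Ed → Ed} (hf : Function.Injective f) {U U' : Set Ed}
    (h : ∀ e, f e ∈ U' ↔ e ∈ U) {F : RR Ed} (hF : F ∈ RIn U) : em f F ∈ RIn U' := by
  refine RIn_mono ?_ (em_mem_RIn hF)
  rintro _ ⟨e, he, rfl⟩
  exact (h e).2 he


theorem edIn_tr_neg (B : Finset (ℤ × ℤ)) (z : ℤ × ℤ) (e : Ed) :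
    trEd z e ∈ edIn (hull B) ↔ e ∈ edIn (hull (tr B (-z))) := by
  have := edIn_tr (tr B (-z)) z e
  rw [tr_tr, neg_add_cancel, tr_zero] at this
  exact this

theorem ga1_eval (B : Finset (ℤ × ℤ)) (hB : Even B.card) (s : ℤ × ℤ → Bool) :
    TH (epsE s) (ga1 B) = sB s B := by
  obtain ⟨S, hS, hg⟩ := ga0_spec (tr B (-lmin B)) (by rw [card_tr]; exact hB)
  rw [ga1, TH_em (trEd_inj _)]
  have : (fun e => epsE s (trEd (lmin B) e)) = epsE (fun x => s (x + lmin B)) := by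
    funext e; exact epsE_trEd s _ e
  rw [this, hg, hS.2, sB_tr']
  congr 1
  funext x
  simp

theorem ga1_mem (B : Finset (ℤ × ℤ)) (hB : Even B.card) : ga1 B ∈ RIn (edIn (hull B)) := by
  obtain ⟨S, hS, hg⟩ := ga0_spec (tr B (-lmin B)) (by rw [card_tr]; exact hB)
  rw [ga1, hg]
  exact RIn_em_iff (trEd_inj _) (fun e => edIn_tr_neg B (lmin B) e) (ep_mem_RIn hS.1)


theorem em_trEd_trEd (z w : ℤ × ℤ) (F : RR Ed) : em (trEd w) (em (trEd z) F) = em (trEd (z + w)) F := by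
  rw [em_comp]
  congr 2
  funext e
  exact trEd_trEd z w e

theorem ga1_tr {B : Finset (ℤ × ℤ)} (z : ℤ × ℤ) (hB : B.Nonempty) :
    ga1 (tr B z) = em (trEd z) (ga1 B) := by
  rw [ga1, ga1, lmin_tr hB, tr_tr, em_trEd_trEd]
  congr 3
  abel

/-- the rotation average -/
def ga2 (B : Finset (ℤ × ℤ)) : RR Ed :=
  (1 / 4 : ℝ) • (ga1 B + em rotEd (em rotEd (em rotEd (ga1 (rB B)))) +
    em rotEd (em rotEd (ga1 (rB (rB B)))) + em rotEd (ga1 (rB (rB (rB B)))))

/-- **the covariant representation** -/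
def PB (B : Finset (ℤ × ℤ)) : RR Ed := (1 / 2 : ℝ) • (ga2 B + em refEd (ga2 (fB B)))

theorem em_rot_four (F : RR Ed) : em rotEd (em rotEd (em rotEd (em rotEd F))) = F := by
  rw [em_comp, em_comp, em_comp]
  have : (((rotEd ∘ rotEd) ∘ rotEd) ∘ rotEd) = id := by
    funext e; exact rotEd_four e
  rw [this, em_id]

theorem em_ref_two (F : RR Ed) : em refEd (em refEd F) = F := by
  rw [em_comp]
  have : refEd ∘ refEd = id := by
    funext e; exact refEd_refEd e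
  rw [this, em_id]

theorem em_ref_rot (F : RR Ed) :
    em refEd (em rotEd F) = em rotEd (em rotEd (em rotEd (em refEd F))) := by
  rw [em_comp, em_comp, em_comp, em_comp]
  congr 2
  funext e; exact refEd_rotEd e

theorem em_rot_ref (F : RR Ed) :
    em rotEd (em refEd F) = em refEd (em rotEd (em rotEd (em rotEd F))) := by
  rw [em_ref_rot, em_ref_rot, em_ref_rot, em_rot_four, em_rot_four]

theorem ga2_rB (B : Finset (ℤ × ℤ)) : ga2 (rB B) = em rotEd (ga2 B) := by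
  rw [ga2, ga2, map_smul, map_add, map_add, map_add, em_rot_four, rB_four]
  congr 1
  abel


theorem PB_rB (B : Finset (ℤ × ℤ)) : PB (rB B) = em rotEd (PB B) := by
  rw [PB, PB, map_smul, map_add, ga2_rB, fB_rB, ga2_rB, ga2_rB, ga2_rB]
  congr 2
  rw [em_rot_ref]

theorem PB_fB (B : Finset (ℤ × ℤ)) : PB (fB B) = em refEd (PB B) := by
  rw [PB, PB, map_smul, map_add, fB_fB, em_ref_two, add_comm]

theorem em_rot_tr (z : ℤ × ℤ) (F : RR Ed) :
    em rotEd (em (trEd z) F) = em (trEd (rotate z)) (em rotEd F) := by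
  rw [em_comp, em_comp]
  congr 2
  funext e; exact rotEd_trEd z e

theorem em_ref_tr (z : ℤ × ℤ) (F : RR Ed) :
    em refEd (em (trEd z) F) = em (trEd (reflect z)) (em refEd F) := by
  rw [em_comp, em_comp]
  congr 2
  funext e; exact refEd_trEd z e

theorem rB_nonempty {B : Finset (ℤ × ℤ)} (hB : B.Nonempty) : (rB B).Nonempty := hB.image _
theorem fB_nonempty {B : Finset (ℤ × ℤ)} (hB : B.Nonempty) : (fB B).Nonempty := hB.image _

theorem ga2_tr {B : Finset (ℤ × ℤ)} (z : ℤ × ℤ) (hB : B.Nonempty) :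
    ga2 (tr B z) = em (trEd z) (ga2 B) := by
  have h1 := rB_nonempty hB
  have h2 := rB_nonempty h1
  have h3 := rB_nonempty h2
  simp only [ga2, rB_tr, ga1_tr _ hB, ga1_tr _ h1, ga1_tr _ h2, ga1_tr _ h3, em_rot_tr,
    rotate_four, map_smul, map_add]

theorem PB_tr {B : Finset (ℤ × ℤ)} (z : ℤ × ℤ) (hB : B.Nonempty) :
    PB (tr B z) = em (trEd z) (PB B) := by
  simp only [PB, fB_tr, ga2_tr _ hB, ga2_tr _ (fB_nonempty hB), em_ref_tr, reflect_reflect,
    map_smul, map_add]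

theorem TH_em_rot (s : ℤ × ℤ → Bool) (F : RR Ed) :
    TH (epsE s) (em rotEd F) = TH (epsE (s ∘ rotate)) F := by
  rw [TH_em rotEd_inj]
  congr 2
  funext e; exact epsE_rotEd s e

theorem TH_em_ref (s : ℤ × ℤ → Bool) (F : RR Ed) :
    TH (epsE s) (em refEd F) = TH (epsE (s ∘ reflect)) F := by
  rw [TH_em refEd_inj]
  congr 2
  funext e; exact epsE_refEd s e

theorem rot4_comp (s : ℤ × ℤ → Bool) : (((s ∘ rotate) ∘ rotate) ∘ rotate) ∘ rotate = s := by
  funext x; simp only [Function.comp_apply, rotate_four]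
theorem ref2_comp (s : ℤ × ℤ → Bool) : (s ∘ reflect) ∘ reflect = s := by
  funext x; simp only [Function.comp_apply, reflect_reflect]

theorem ga2_eval (B : Finset (ℤ × ℤ)) (hB : Even B.card) (s : ℤ × ℤ → Bool) :
    TH (epsE s) (ga2 B) = sB s B := by
  have e1 : Even (rB B).card := by rw [card_rB]; exact hB
  have e2 : Even (rB (rB B)).card := by rw [card_rB]; exact e1
  have e3 : Even (rB (rB (rB B))).card := by rw [card_rB]; exact e2
  rw [ga2, map_smul, map_add, map_add, map_add, TH_em_rot, TH_em_rot, TH_em_rot, TH_em_rot,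
    TH_em_rot, TH_em_rot, ga1_eval _ hB, ga1_eval _ e1, ga1_eval _ e2, ga1_eval _ e3]
  simp only [sB_rB, rot4_comp]
  rw [smul_eq_mul]
  ring

theorem PB_eval (B : Finset (ℤ × ℤ)) (hB : Even B.card) (s : ℤ × ℤ → Bool) :
    TH (epsE s) (PB B) = sB s B := by
  have e1 : Even (fB B).card := by rw [card_fB]; exact hB
  rw [PB, map_smul, map_add, TH_em_ref, ga2_eval _ hB, ga2_eval _ e1, sB_fB, ref2_comp, smul_eq_mul]
  ring

theorem ga2_mem (B : Finset (ℤ × ℤ)) (hB : Even B.card) : ga2 B ∈ RIn (edIn (hull B)) := by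
  have e1 : Even (rB B).card := by rw [card_rB]; exact hB
  have e2 : Even (rB (rB B)).card := by rw [card_rB]; exact e1
  have e3 : Even (rB (rB (rB B))).card := by rw [card_rB]; exact e2
  have r : ∀ (B : Finset (ℤ × ℤ)) (F : RR Ed), F ∈ RIn (edIn (hull B)) →
      em rotEd F ∈ RIn (edIn (hull (rB B))) :=
    fun B F hF => RIn_em_iff rotEd_inj (fun e => edIn_rB B e) hF
  have m3 := r _ _ (ga1_mem _ e3)
  have m2 := r _ _ (r _ _ (ga1_mem _ e2))
  have m1 := r _ _ (r _ _ (r _ _ (ga1_mem _ e1)))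
  rw [rB_four] at m1 m2 m3
  exact Subalgebra.smul_mem _ (add_mem (add_mem (add_mem (ga1_mem _ hB) m1) m2) m3) _

theorem PB_mem (B : Finset (ℤ × ℤ)) (hB : Even B.card) : PB B ∈ RIn (edIn (hull B)) := by
  have e1 : Even (fB B).card := by rw [card_fB]; exact hB
  have m := RIn_em_iff refEd_inj (fun e => edIn_fB (fB B) e) (ga2_mem _ e1)
  rw [fB_fB] at m
  exact Subalgebra.smul_mem _ (add_mem (ga2_mem _ hB) m) _

/-! ### norms -/

/-- constant weight -/
abbrev cw (w : ℝ≥0∞) : Ed → ℝ≥0∞ := fun _ => w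

theorem wtS_cw (w : ℝ≥0∞) (S : Ed →₀ ZMod 2) : wtS (cw w) S = w ^ S.support.card := by
  rw [wtS, Finset.prod_const]

theorem nmE_em_cw {w : ℝ≥0∞} (hw : 1 ≤ w) (f : Ed → Ed) (F : RR Ed) :
    nmE (cw w) (em f F) ≤ nmE (cw w) F := by
  refine le_nmE (N := fun F => nmE (cw w) (em f F)) (by simp) (fun F G => ?_) (fun r F => ?_) ?_ F
  · rw [map_add]; exact nmE_add_le _ _ _
  · rw [map_smul]; exact nmE_smul_le _ _ _
  · intro S
    classical
    rw [em_ep, nmE_ep, wtS_cw, wtS_cw]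
    refine pow_le_pow_right₀ hw ?_
    exact (Finset.card_le_card Finsupp.mapDomain_support).trans Finset.card_image_le

/-- the number of edges of a bounding box -/
theorem card_edIn_hull_le {B : Finset (ℤ × ℤ)} {R : ℕ}
    (hB : ∀ x ∈ B, ∀ y ∈ B, |x.1 - y.1| ≤ (R : ℤ) ∧ |x.2 - y.2| ≤ (R : ℤ))
    {s : Finset Ed} (hs : (s : Set Ed) ⊆ edIn (hull B)) : s.card ≤ 2 * (R + 1) ^ 2 := by
  rcases B.eq_empty_or_nonempty with rfl | hne
  · have : s = ∅ := by
      rw [Finset.eq_empty_iff_forall_notMem]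
      intro e he
      obtain ⟨⟨y, hy, _⟩, _⟩ := (hs (Finset.mem_coe.2 he)).1
      simp at hy
    subst this; simp
  · obtain ⟨a1, ha1, h1⟩ := B.exists_min_image (fun z => z.1) hne
    obtain ⟨a2, ha2, h2⟩ := B.exists_min_image (fun z => z.2) hne
    have hsub : s ⊆ (Icc a1.1 (a1.1 + R) ×ˢ Icc a2.2 (a2.2 + R)) ×ˢ (univ : Finset (Fin 2)) := by
      intro e he
      obtain ⟨⟨y1, hy1, g1⟩, ⟨y2, hy2, g2⟩, ⟨y3, hy3, g3⟩, ⟨y4, hy4, g4⟩⟩ :=
        (hs (Finset.mem_coe.2 he)).1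
      have k1 := (hB y2 hy2 a1 ha1).1
      have k2 := (hB y4 hy4 a2 ha2).2
      have l1 := h1 y1 hy1
      have l2 := h2 y3 hy3
      rw [abs_le] at k1 k2
      simp only [mem_product, mem_Icc, mem_univ, and_true]
      refine ⟨⟨?_, ?_⟩, ⟨?_, ?_⟩⟩ <;> linarith
    refine (Finset.card_le_card hsub).trans ?_
    rw [Finset.card_product, Finset.card_product, Int.card_Icc, Int.card_Icc, Finset.card_univ,
      Fintype.card_fin]
    have e1 : (a1.1 + R + 1 - a1.1).toNat = R + 1 := by omega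
    have e2 : (a2.2 + R + 1 - a2.2).toNat = R + 1 := by omega
    rw [e1, e2]
    apply le_of_eq
    ring

theorem diam_tr {B : Finset (ℤ × ℤ)} {R : ℕ}
    (hB : ∀ x ∈ B, ∀ y ∈ B, |x.1 - y.1| ≤ (R : ℤ) ∧ |x.2 - y.2| ≤ (R : ℤ)) (z : ℤ × ℤ) :
    ∀ x ∈ tr B z, ∀ y ∈ tr B z, |x.1 - y.1| ≤ (R : ℤ) ∧ |x.2 - y.2| ≤ (R : ℤ) := by
  intro x hx y hy
  have := hB _ (mem_tr.1 hx) _ (mem_tr.1 hy)
  simpa using this

theorem diam_rB {B : Finset (ℤ × ℤ)} {R : ℕ}
    (hB : ∀ x ∈ B, ∀ y ∈ B, |x.1 - y.1| ≤ (R : ℤ) ∧ |x.2 - y.2| ≤ (R : ℤ)) :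
    ∀ x ∈ rB B, ∀ y ∈ rB B, |x.1 - y.1| ≤ (R : ℤ) ∧ |x.2 - y.2| ≤ (R : ℤ) := by
  intro x hx y hy
  obtain ⟨x', hx', rfl⟩ := Finset.mem_image.1 hx
  obtain ⟨y', hy', rfl⟩ := Finset.mem_image.1 hy
  have := hB _ hx' _ hy'
  refine ⟨?_, this.1⟩
  have e : (rotate x').1 - (rotate y').1 = -(x'.2 - y'.2) := by simp [rotate]; ring
  rw [e, abs_neg]
  exact this.2

theorem diam_fB {B : Finset (ℤ × ℤ)} {R : ℕ}
    (hB : ∀ x ∈ B, ∀ y ∈ B, |x.1 - y.1| ≤ (R : ℤ) ∧ |x.2 - y.2| ≤ (R : ℤ)) :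
    ∀ x ∈ fB B, ∀ y ∈ fB B, |x.1 - y.1| ≤ (R : ℤ) ∧ |x.2 - y.2| ≤ (R : ℤ) := by
  intro x hx y hy
  obtain ⟨x', hx', rfl⟩ := Finset.mem_image.1 hx
  obtain ⟨y', hy', rfl⟩ := Finset.mem_image.1 hy
  have := hB _ hx' _ hy'
  refine ⟨this.1, ?_⟩
  have e : (reflect x').2 - (reflect y').2 = -(x'.2 - y'.2) := by simp [reflect]; ring
  rw [e, abs_neg]
  exact this.2

theorem nmE_ga1_le {w : ℝ≥0∞} (hw : 1 ≤ w) {B : Finset (ℤ × ℤ)} {R : ℕ} (hev : Even B.card)
    (hB : ∀ x ∈ B, ∀ y ∈ B, |x.1 - y.1| ≤ (R : ℤ) ∧ |x.2 - y.2| ≤ (R : ℤ)) :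
    nmE (cw w) (ga1 B) ≤ w ^ (2 * (R + 1) ^ 2) := by
  obtain ⟨S, hS, hg⟩ := ga0_spec (tr B (-lmin B)) (by rw [card_tr]; exact hev)
  refine (nmE_em_cw hw _ _).trans ?_
  rw [hg, nmE_ep, wtS_cw]
  exact pow_le_pow_right₀ hw (card_edIn_hull_le (diam_tr hB _) hS.1)

theorem nmE_avg4 {w : ℝ≥0∞} {M : ℝ≥0∞} {a b c d : RR Ed} (ha : nmE (cw w) a ≤ M)
    (hb : nmE (cw w) b ≤ M) (hc : nmE (cw w) c ≤ M) (hd : nmE (cw w) d ≤ M) :
    nmE (cw w) ((1 / 4 : ℝ) • (a + b + c + d)) ≤ M := by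
  refine (nmE_smul_le _ _ _).trans ?_
  have h1 : nmE (cw w) (a + b + c + d) ≤ M + M + M + M :=
    (nmE_add_le _ _ _).trans (add_le_add ((nmE_add_le _ _ _).trans (add_le_add
      ((nmE_add_le _ _ _).trans (add_le_add ha hb)) hc)) hd)
  have h2 : ‖(1 / 4 : ℝ)‖ₑ * 4 = 1 := by
    rw [Real.enorm_eq_ofReal (by norm_num), ← ENNReal.ofReal_ofNat (n := 4),
      ← ENNReal.ofReal_mul (by norm_num)]
    norm_num
  calc ‖(1 / 4 : ℝ)‖ₑ * nmE (cw w) (a + b + c + d) ≤ ‖(1 / 4 : ℝ)‖ₑ * (M + M + M + M) := by gcongr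
    _ = (‖(1 / 4 : ℝ)‖ₑ * 4) * M := by ring
    _ = M := by rw [h2, one_mul]

theorem nmE_avg2 {w : ℝ≥0∞} {M : ℝ≥0∞} {a b : RR Ed} (ha : nmE (cw w) a ≤ M)
    (hb : nmE (cw w) b ≤ M) : nmE (cw w) ((1 / 2 : ℝ) • (a + b)) ≤ M := by
  refine (nmE_smul_le _ _ _).trans ?_
  have h1 : nmE (cw w) (a + b) ≤ M + M := (nmE_add_le _ _ _).trans (add_le_add ha hb)
  have h2 : ‖(1 / 2 : ℝ)‖ₑ * 2 = 1 := by
    rw [Real.enorm_eq_ofReal (by norm_num), ← ENNReal.ofReal_ofNat (n := 2),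
      ← ENNReal.ofReal_mul (by norm_num)]
    norm_num
  calc ‖(1 / 2 : ℝ)‖ₑ * nmE (cw w) (a + b) ≤ ‖(1 / 2 : ℝ)‖ₑ * (M + M) := by gcongr
    _ = (‖(1 / 2 : ℝ)‖ₑ * 2) * M := by ring
    _ = M := by rw [h2, one_mul]

theorem nmE_ga2_le {w : ℝ≥0∞} (hw : 1 ≤ w) {B : Finset (ℤ × ℤ)} {R : ℕ} (hev : Even B.card)
    (hB : ∀ x ∈ B, ∀ y ∈ B, |x.1 - y.1| ≤ (R : ℤ) ∧ |x.2 - y.2| ≤ (R : ℤ)) :
    nmE (cw w) (ga2 B) ≤ w ^ (2 * (R + 1) ^ 2) := by
  have e1 : Even (rB B).card := by rw [card_rB]; exact hev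
  have e2 : Even (rB (rB B)).card := by rw [card_rB]; exact e1
  have e3 : Even (rB (rB (rB B))).card := by rw [card_rB]; exact e2
  have d1 := diam_rB hB
  have d2 := diam_rB d1
  have d3 := diam_rB d2
  refine nmE_avg4 (nmE_ga1_le hw hev hB) ?_ ?_ ?_
  · exact (nmE_em_cw hw _ _).trans ((nmE_em_cw hw _ _).trans ((nmE_em_cw hw _ _).trans
      (nmE_ga1_le hw e1 d1)))
  · exact (nmE_em_cw hw _ _).trans ((nmE_em_cw hw _ _).trans (nmE_ga1_le hw e2 d2))
  · exact (nmE_em_cw hw _ _).trans (nmE_ga1_le hw e3 d3)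

theorem nmE_PB_le {w : ℝ≥0∞} (hw : 1 ≤ w) {B : Finset (ℤ × ℤ)} {R : ℕ} (hev : Even B.card)
    (hB : ∀ x ∈ B, ∀ y ∈ B, |x.1 - y.1| ≤ (R : ℤ) ∧ |x.2 - y.2| ≤ (R : ℤ)) :
    nmE (cw w) (PB B) ≤ w ^ (2 * (R + 1) ^ 2) := by
  have e1 : Even (fB B).card := by rw [card_fB]; exact hev
  exact nmE_avg2 (nmE_ga2_le hw hev hB)
    ((nmE_em_cw hw _ _).trans (nmE_ga2_le hw e1 (diam_fB hB)))

/-! ### the factors `1 + kB` -/

/-- `exp(t σ_B) - 1` as an element of `RR` -/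
def kB (t : ℝ) (B : Finset (ℤ × ℤ)) : RR Ed :=
  (Real.cosh t - 1) • (1 : RR Ed) + Real.sinh t • PB B

@[simp] theorem kB_zero (B : Finset (ℤ × ℤ)) : kB 0 B = 0 := by simp [kB]

theorem sB_pm (s : ℤ × ℤ → Bool) (B : Finset (ℤ × ℤ)) : sB s B = 1 ∨ sB s B = -1 :=
  mul_self_eq_one_iff.1 (sB_sq s B)

theorem kB_eval (t : ℝ) (B : Finset (ℤ × ℤ)) (hB : Even B.card) (s : ℤ × ℤ → Bool) :
    TH (epsE s) (1 + kB t B) = Real.exp (t * sB s B) := by
  rw [kB, map_add, map_add, map_smul, map_smul, TH_one, PB_eval B hB, smul_eq_mul, smul_eq_mul]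
  rcases sB_pm s B with h | h <;> rw [h]
  · rw [mul_one, mul_one, mul_one, ← Real.cosh_add_sinh]; ring
  · rw [mul_neg_one, mul_neg_one, mul_one, ← Real.cosh_sub_sinh]; ring


theorem kB_mem (t : ℝ) (B : Finset (ℤ × ℤ)) (hB : Even B.card) : kB t B ∈ RIn (edIn (hull B)) :=
  add_mem (Subalgebra.smul_mem _ (one_mem _) _) (Subalgebra.smul_mem _ (PB_mem B hB) _)

theorem kB_tr (t : ℝ) {B : Finset (ℤ × ℤ)} (z : ℤ × ℤ) (hB : B.Nonempty) :
    kB t (tr B z) = em (trEd z) (kB t B) := by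
  rw [kB, kB, PB_tr z hB, map_add, map_smul, map_smul, map_one]

theorem kB_rB (t : ℝ) (B : Finset (ℤ × ℤ)) : kB t (rB B) = em rotEd (kB t B) := by
  rw [kB, kB, PB_rB, map_add, map_smul, map_smul, map_one]

theorem kB_fB (t : ℝ) (B : Finset (ℤ × ℤ)) : kB t (fB B) = em refEd (kB t B) := by
  rw [kB, kB, PB_fB, map_add, map_smul, map_smul, map_one]

/-- the neighbour pairs: `PB` of an edge need not be `ep` of the edge, but it has the same
evaluation; edges themselves are represented by `ep (single e 1)`. -/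
theorem TH_single (s : ℤ × ℤ → Bool) (e : Ed) :
    TH (epsE s) (ep (Finsupp.single e 1)) = epsE s e := by
  rw [TH_ep, Finsupp.support_single_ne_zero _ one_ne_zero, Finset.prod_singleton]

end Crest.Agent.R165.J4Pathx653
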