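import Crest.Agent.R165.J4Act1_126
import Crest.Agent.R165.KStep_892
import Crest.Agent.R165.J4RR_653
import Crest.Agent.R165.J4PB_653
import Crest.Agent.R165.J4Can_653
import Crest.Agent.R165.J1a_606

-- ▼ part R165/J4Act2_126
section

/-!
# Row 165 (S0250), block J4, sections 3/4: transport of the activities (helper126)

`act_transport`: if the items of a system `I` with support inside `U` correspond to the items of a
second system `I'` with support inside `ψ(U)` (a face map `ψ`, injective on `U`) and an additive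
map `τ` sends the weights to the weights, then `τ (act U) = act' (ψ U)`.
Translations, the symmetries of the square, gauge changes, and the comparison of the plane with
domains and tori are all instances.
-/

set_option autoImplicit false
set_option linter.unusedSectionVars false

open Finset

namespace Crest.Agent.R165.J4Actx126
open Crest.Agent.R165.KCompx892

section conn
variable {ι ι' : Type*} [DecidableEq ι] [DecidableEq ι']

/-- connectedness is transported by injective maps that preserve the relation both ways -/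
theorem conn_image {r : ι → ι → Prop} {r' : ι' → ι' → Prop} {e : ι → ι'} {T : Finset ι}
    (he : Set.InjOn e T) (hr : ∀ i ∈ T, ∀ j ∈ T, r i j ↔ r' (e i) (e j)) :
    Conn r' (T.image e) ↔ Conn r T := by
  constructor
  · rintro ⟨h1, h2⟩
    refine ⟨Finset.image_nonempty.1 h1, fun A hA hne hN => ?_⟩
    have hA' : A.image e ⊆ T.image e := Finset.image_subset_image hA
    have hN' : NoTouch r' (A.image e) (T.image e \ A.image e) := by
      intro a ha b hb hab
      rw [Finset.mem_image] at ha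
      rw [Finset.mem_sdiff, Finset.mem_image] at hb
      obtain ⟨i, hi, rfl⟩ := ha
      obtain ⟨⟨j, hj, rfl⟩, hb⟩ := hb
      refine hN i hi j (Finset.mem_sdiff.2 ⟨hj, fun hjA => hb (Finset.mem_image_of_mem e hjA)⟩) ?_
      exact (hr i (hA hi) j hj).2 hab
    have h3 := h2 _ hA' (hne.image e) hN'
    apply Finset.Subset.antisymm hA
    intro j hj
    have : e j ∈ A.image e := h3 ▸ Finset.mem_image_of_mem e hj
    obtain ⟨i, hi, hij⟩ := Finset.mem_image.1 this
    rw [he (hA hi) hj hij] at hi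
    exact hi
  · rintro ⟨h1, h2⟩
    refine ⟨h1.image e, fun A hA hne hN => ?_⟩
    classical
    set B := T.filter (fun i => e i ∈ A) with hB
    have hBA : B.image e = A := by
      ext a
      rw [Finset.mem_image]
      constructor
      · rintro ⟨i, hi, rfl⟩
        exact (Finset.mem_filter.1 hi).2
      · intro ha
        obtain ⟨i, hi, rfl⟩ := Finset.mem_image.1 (hA ha)
        exact ⟨i, Finset.mem_filter.2 ⟨hi, ha⟩, rfl⟩
    have hBT : B = T := by
      refine h2 B (Finset.filter_subset _ _) ?_ ?_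
      · obtain ⟨a, ha⟩ := hne
        rw [← hBA] at ha
        exact Finset.image_nonempty.1 ⟨a, ha⟩
      · intro i hi j hj hij
        rw [Finset.mem_sdiff] at hj
        rw [Finset.mem_filter] at hi
        refine hN (e i) hi.2 (e j) ?_ ((hr i hi.1 j hj.1).1 hij)
        rw [Finset.mem_sdiff]
        exact ⟨Finset.mem_image_of_mem e hj.1, fun h => hj.2 (Finset.mem_filter.2 ⟨hj.1, h⟩)⟩
    rw [← hBA, hBT]

end conn

section transport
variable {ι F RR A : Type*} [DecidableEq ι] [DecidableEq F] [CommRing RR] [CommRing A]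
variable {ι' F' RR' A' : Type*} [DecidableEq ι'] [DecidableEq F'] [CommRing RR'] [CommRing A']

theorem supp_image {Y : ι → Finset F} {Y' : ι' → Finset F'} {e : ι → ι'} {ψ : F → F'}
    {T : Finset ι} (hY : ∀ i ∈ T, Y' (e i) = (Y i).image ψ) :
    supp Y' (T.image e) = (supp Y T).image ψ := by
  unfold supp
  rw [Finset.image_biUnion, Finset.biUnion_image]
  exact Finset.biUnion_congr rfl hY

theorem supp_subset_iff {Y : ι → Finset F} {T : Finset ι} {U : Finset F} :
    supp Y T ⊆ U ↔ ∀ i ∈ T, Y i ⊆ U := Finset.biUnion_subset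

theorem touch_image {Y : ι → Finset F} {Y' : ι' → Finset F'} {e : ι → ι'} {ψ : F → F'}
    {U : Finset F} (hψ : Set.InjOn ψ U) {i j : ι} (hi : Y i ⊆ U) (hj : Y j ⊆ U)
    (hYi : Y' (e i) = (Y i).image ψ) (hYj : Y' (e j) = (Y j).image ψ) :
    touch Y i j ↔ touch Y' (e i) (e j) := by
  unfold touch
  rw [hYi, hYj, not_iff_not, Finset.disjoint_left, Finset.disjoint_left]
  constructor
  · intro h a ha hb
    obtain ⟨x, hx, rfl⟩ := Finset.mem_image.1 ha
    obtain ⟨y, hy, hxy⟩ := Finset.mem_image.1 hb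
    have : y = x := hψ (hj hy) (hi hx) hxy
    rw [this] at hy
    exact h hx hy
  · intro h a ha hb
    exact h (Finset.mem_image_of_mem ψ ha) (Finset.mem_image_of_mem ψ hb)

/-- the data of a transport of item systems on the faces `U` -/
structure Trans (I : Items ι F RR A) (I' : Items ι' F' RR' A') (ψ : F → F') (e : ι → ι')
    (U : Finset F) : Prop where
  face : Set.InjOn ψ U
  inj : Set.InjOn e {i | I.Y i ⊆ U}
  supp : ∀ i, I.Y i ⊆ U → I'.Y (e i) = (I.Y i).image ψ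
  surj : ∀ i', I'.Y i' ⊆ U.image ψ → ∃ i, I.Y i ⊆ U ∧ e i = i'

open Classical in
/-- the family sets are in bijection -/
theorem Trans.sum_eq [Fintype ι] [Fintype ι'] {I : Items ι F RR A} {I' : Items ι' F' RR' A'}
    {ψ : F → F'} {e : ι → ι'} {U : Finset F} (h : Trans I I' ψ e U) {M : Type*} [AddCommMonoid M]
    (g : Finset ι' → M) :
    ∑ T : Finset ι with Conn (touch I.Y) T ∧ J4Actx126.supp I.Y T = U, g (T.image e) =
      ∑ T' : Finset ι' with Conn (touch I'.Y) T' ∧ J4Actx126.supp I'.Y T' = U.image ψ, g T' := by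
  have hsub : ∀ T : Finset ι, J4Actx126.supp I.Y T = U → ∀ i ∈ T, I.Y i ⊆ U := fun T hT =>
    supp_subset_iff.1 hT.le
  have hr : ∀ T : Finset ι, (∀ i ∈ T, I.Y i ⊆ U) → ∀ i ∈ T, ∀ j ∈ T,
      (touch I.Y i j ↔ touch I'.Y (e i) (e j)) := fun T hT i hi j hj =>
    touch_image h.face (hT i hi) (hT j hj) (h.supp i (hT i hi)) (h.supp j (hT j hj))
  refine Finset.sum_bij (fun T _ => T.image e) ?_ ?_ ?_ ?_
  · intro T hT
    rw [Finset.mem_filter] at hT ⊢
    obtain ⟨-, h1, h2⟩ := hT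
    have hs := hsub T h2
    refine ⟨Finset.mem_univ _, ?_, ?_⟩
    · exact (conn_image (h.inj.mono fun i hi => hs i hi) (hr T hs)).2 h1
    · rw [supp_image (fun i hi => h.supp i (hs i hi)), h2]
  · intro T hT T' hT' heq
    rw [Finset.mem_filter] at hT hT'
    have hs := hsub T hT.2.2
    have hs' := hsub T' hT'.2.2
    ext i
    constructor
    · intro hi
      have : e i ∈ T'.image e := heq ▸ Finset.mem_image_of_mem e hi
      obtain ⟨j, hj, hij⟩ := Finset.mem_image.1 this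
      rw [h.inj (hs' j hj) (hs i hi) hij] at hj
      exact hj
    · intro hi
      have : e i ∈ T.image e := heq.symm ▸ Finset.mem_image_of_mem e hi
      obtain ⟨j, hj, hij⟩ := Finset.mem_image.1 this
      rw [h.inj (hs j hj) (hs' i hi) hij] at hj
      exact hj
  · intro T' hT'
    rw [Finset.mem_filter] at hT'
    obtain ⟨-, h1, h2⟩ := hT'
    have hs' : ∀ i' ∈ T', I'.Y i' ⊆ U.image ψ := supp_subset_iff.1 h2.le
    set T : Finset ι := univ.filter (fun i => I.Y i ⊆ U ∧ e i ∈ T') with hTdef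
    have hT : ∀ i ∈ T, I.Y i ⊆ U := fun i hi => (Finset.mem_filter.1 hi).2.1
    have himg : T.image e = T' := by
      ext i'
      rw [Finset.mem_image]
      constructor
      · rintro ⟨i, hi, rfl⟩
        exact (Finset.mem_filter.1 hi).2.2
      · intro hi'
        obtain ⟨i, hi, rfl⟩ := h.surj i' (hs' i' hi')
        exact ⟨i, Finset.mem_filter.2 ⟨Finset.mem_univ _, hi, hi'⟩, rfl⟩
    refine ⟨T, ?_, himg⟩
    rw [Finset.mem_filter]
    refine ⟨Finset.mem_univ _, ?_, ?_⟩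
    · rw [← conn_image (h.inj.mono fun i hi => hT i hi) (hr T hT), himg]
      exact h1
    · have h3 : (J4Actx126.supp I.Y T).image ψ = U.image ψ := by
        rw [← supp_image (fun i hi => h.supp i (hT i hi)), himg, h2]
      have hTU : J4Actx126.supp I.Y T ⊆ U := supp_subset_iff.2 hT
      apply Finset.Subset.antisymm hTU
      intro f hf
      have : ψ f ∈ (J4Actx126.supp I.Y T).image ψ := h3.symm ▸ Finset.mem_image_of_mem ψ hf
      obtain ⟨f', hf', hff⟩ := Finset.mem_image.1 this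
      rw [h.face (hTU hf') hf hff] at hf'
      exact hf'
  · intro T _; rfl

/-- **transport of the activities** -/
theorem act_transport [Fintype ι] [Fintype ι'] {I : Items ι F RR A} {I' : Items ι' F' RR' A'}
    {ψ : F → F'} {e : ι → ι'} {U : Finset F} (h : Trans I I' ψ e U) (τ : A →+ A')
    (hτ : ∀ T : Finset ι, (∀ i ∈ T, I.Y i ⊆ U) → τ (I.w T) = I'.w (T.image e)) :
    τ (I.act U) = I'.act (U.image ψ) := by
  classical
  unfold Items.act
  rw [map_sum, ← h.sum_eq (fun T' => I'.w T')]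
  refine Finset.sum_congr rfl fun T hT => hτ T ?_
  rw [Finset.mem_filter] at hT
  exact supp_subset_iff.1 hT.2.2.le

end transport

end Crest.Agent.R165.J4Actx126
end

-- ▼ part R165/J4Act3_126
section

/-!
# Row 165 (S0250), block J4, section 3: the polymer gas of the items (helper126)

`Items.ZZ_act` : `Th (∏ (1 + k i)) = ZZ (=) Λ act` (two face sets touch when they intersect),
`Λ` any finite set of faces containing all supports.
-/

set_option autoImplicit false
set_option linter.unusedSectionVars false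

open Finset

namespace Crest.Agent.R165.J4Actx126
open Crest.Agent.R165.KCompx892 Crest.Agent.R165.KStepx892

variable {ι F RR A : Type*} [DecidableEq ι] [DecidableEq F] [CommRing RR] [CommRing A]

theorem touch_eq_iff {U W : Finset F} :
    KStepx892.touch (fun a b : F => a = b) U W ↔ ¬ Disjoint U W := by
  unfold KStepx892.touch
  rw [Finset.not_disjoint_iff]
  constructor
  · rintro ⟨u, hu, w, hw, rfl⟩
    exact ⟨u, hu, hw⟩
  · rintro ⟨u, hu, hw⟩
    exact ⟨u, hu, u, hw, rfl⟩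

/-- **the partition function of the items is the polymer gas of the activities** -/
theorem Items.ZZ_act [Fintype ι] (I : Items ι F RR A) (Λ : Finset F) (hΛ : ∀ i, I.Y i ⊆ Λ) :
    I.Th (∏ i, (1 + I.k i)) = ZZ (fun a b : F => a = b) Λ I.act := by
  classical
  rw [I.expand]
  unfold ZZ
  set J : Finset (Finset ι) := univ.filter (fun T => Conn (J4Actx126.touch I.Y) T) with hJ
  have h1 : ∀ W : Finset F, I.act W = ∑ c ∈ J with J4Actx126.supp I.Y c = W, I.w c := by
    intro W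
    unfold Items.act
    rw [hJ, Finset.filter_filter]
  have h2 : ∀ Q ∈ (Λ.powerset.powerset).filter (fun P => Sep (fun a b : F => a = b) P),
      ∏ U ∈ Q, I.act U =
        ∑ P ∈ J.powerset, if P.image (J4Actx126.supp I.Y) = Q ∧
          Set.InjOn (J4Actx126.supp I.Y) (↑P : Set (Finset ι)) then ∏ c ∈ P, I.w c else 0 := by
    intro Q _
    simp only [h1]
    rw [prod_fiber_sum, Finset.sum_filter]
  rw [Finset.sum_congr rfl h2, Finset.sum_comm]
  have h3 : ∀ P ∈ J.powerset,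
      (∑ Q ∈ (Λ.powerset.powerset).filter (fun P => Sep (fun a b : F => a = b) P),
        if P.image (J4Actx126.supp I.Y) = Q ∧
          Set.InjOn (J4Actx126.supp I.Y) (↑P : Set (Finset ι)) then ∏ c ∈ P, I.w c else 0) =
      if Fam (J4Actx126.touch I.Y) P then ∏ c ∈ P, I.w c else 0 := by
    intro P hP
    rw [Finset.mem_powerset] at hP
    have hconn : ∀ C ∈ P, Conn (J4Actx126.touch I.Y) C := fun C hC =>
      (Finset.mem_filter.1 (hP hC)).2
    by_cases hF : Fam (J4Actx126.touch I.Y) P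
    · rw [if_pos hF]
      have hinj : Set.InjOn (J4Actx126.supp I.Y) (↑P : Set (Finset ι)) := by
        intro C hC C' hC' heq
        by_contra hne
        have := noTouch_iff.1 (hF.sep C hC C' hC' hne)
        rw [heq, Finset.disjoint_self_iff_empty] at this
        exact (supp_nonempty I.ne (hconn C' hC').1).ne_empty this
      rw [Finset.sum_eq_single (P.image (J4Actx126.supp I.Y))]
      · rw [if_pos ⟨rfl, hinj⟩]
      · intro Q _ hne
        rw [if_neg]
        rintro ⟨h, -⟩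
        exact hne h.symm
      · intro h
        exfalso
        apply h
        rw [Finset.mem_filter, Finset.mem_powerset]
        constructor
        · intro U hU
          obtain ⟨C, -, rfl⟩ := Finset.mem_image.1 hU
          rw [Finset.mem_powerset]
          exact supp_subset_iff.2 fun i _ => hΛ i
        · constructor
          · intro U hU
            obtain ⟨C, hC, rfl⟩ := Finset.mem_image.1 hU
            exact supp_nonempty I.ne (hconn C hC).1
          · intro U hU W hW hne ht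
            obtain ⟨C, hC, rfl⟩ := Finset.mem_image.1 hU
            obtain ⟨C', hC', rfl⟩ := Finset.mem_image.1 hW
            rw [touch_eq_iff] at ht
            refine ht (noTouch_iff.1 (hF.sep C hC C' hC' ?_))
            rintro rfl
            exact hne rfl
    · rw [if_neg hF]
      apply Finset.sum_eq_zero
      intro Q hQ
      rw [if_neg]
      rintro ⟨rfl, hinj⟩
      apply hF
      rw [Finset.mem_filter] at hQ
      refine ⟨hconn, fun C hC C' hC' hne => ?_⟩
      rw [noTouch_iff]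
      by_contra hd
      refine hQ.2.sep _ (Finset.mem_image_of_mem _ hC) _ (Finset.mem_image_of_mem _ hC') ?_
        (touch_eq_iff.2 hd)
      intro heq
      exact hne (hinj hC hC' heq)
  rw [Finset.sum_congr rfl h3, ← Finset.sum_filter]
  refine Finset.sum_congr ?_ fun _ _ => rfl
  ext P
  rw [Finset.mem_filter, Finset.mem_filter, Finset.mem_powerset]
  constructor
  · rintro ⟨-, h⟩
    exact ⟨fun C hC => Finset.mem_filter.2 ⟨Finset.mem_univ _, h.conn C hC⟩, h⟩
  · rintro ⟨-, h⟩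
    exact ⟨Finset.mem_univ _, h⟩

end Crest.Agent.R165.J4Actx126
end

-- ▼ part R165/J4RRA_653
section

/-!
# Row 165 (S0250), block J4: the eps-algebra with coefficients in a commutative algebra `A` (helper653)

`RA A E = AddMonoidAlgebra A (E →₀ ZMod 2)`; same API as `J4RR_653`, plus constants `CA a` and the
inclusion `ofR : RR E → RA A E`.
-/

set_option autoImplicit false

noncomputable section

open Finset
open scoped ENNReal

namespace Crest.Agent.R165.J4RRAx653

open Crest.Agent.R165.J4RRx653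

variable {E : Type*} {E' : Type*}
variable {A : Type*} [CommRing A]

/-- bond variables with coefficients in `A` -/
abbrev RA (A : Type*) [CommRing A] (E : Type*) : Type _ := AddMonoidAlgebra A (E →₀ ZMod 2)

/-- basis element -/
def epA (S : E →₀ ZMod 2) : RA A E := AddMonoidAlgebra.single S 1

/-- constants -/
def CA (a : A) : RA A E := algebraMap A (RA A E) a

theorem CA_mul (a : A) (F : RA A E) : CA a * F = a • F := (Algebra.smul_def a F).symm

theorem epA_add (S T : E →₀ ZMod 2) : (epA (S + T) : RA A E) = epA S * epA T := by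
  rw [epA, epA, epA, AddMonoidAlgebra.single_mul_single, one_mul]

@[simp] theorem epA_zero : (epA (0 : E →₀ ZMod 2) : RA A E) = 1 := rfl


theorem singleA_eq (S : E →₀ ZMod 2) (c : A) :
    (AddMonoidAlgebra.single S c : RA A E) = c • epA S := by
  rw [epA, AddMonoidAlgebra.smul_single, smul_eq_mul, mul_one]

theorem RA.ind {P : RA A E → Prop} (h0 : P 0) (hadd : ∀ F G, P F → P G → P (F + G))
    (hs : ∀ (c : A) S, P (c • epA S)) (F : RA A E) : P F :=
  AddMonoidAlgebra.induction_linear F h0 (fun F G => hadd F G) fun S c => by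
    rw [singleA_eq]; exact hs c S

/-- `epA S ↦ ∏_{e ∈ S} g e` -/
def THA (g : E → A) : RA A E →ₗ[A] A :=
  (Finsupp.linearCombination A fun S : E →₀ ZMod 2 => ∏ e ∈ S.support, g e) ∘ₗ
    (AddMonoidAlgebra.coeffLinearEquiv A).toLinearMap

@[simp] theorem THA_ep (g : E → A) (S : E →₀ ZMod 2) : THA g (epA S) = ∏ e ∈ S.support, g e := by
  simp [THA, epA]

@[simp] theorem THA_one (g : E → A) : THA g (1 : RA A E) = 1 := by
  rw [← epA_zero, THA_ep]; simp

theorem THA_CA_mul (g : E → A) (a : A) (F : RA A E) : THA g (CA a * F) = a * THA g F := by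
  rw [CA_mul, map_smul, smul_eq_mul]

@[simp] theorem THA_CA (g : E → A) (a : A) : THA g (CA a) = a := by
  have := THA_CA_mul g a 1
  rwa [mul_one, THA_one, mul_one] at this

/-! ### supports -/









/-- `THA g` is multiplicative when `g e * g e = 1` -/
theorem THA_mul_sq (g : E → A) (hg : ∀ e, g e * g e = 1) (F G : RA A E) :
    THA g (F * G) = THA g F * THA g G := by
  have key : ∀ S T : E →₀ ZMod 2, ∏ e ∈ (S + T).support, g e =
      (∏ e ∈ S.support, g e) * ∏ e ∈ T.support, g e := by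
    classical
    have key : ∀ S : E →₀ ZMod 2, ∏ e ∈ S.support, g e = S.prod fun e k => g e ^ k.val := by
      intro S
      rw [Finsupp.prod]
      refine Finset.prod_congr rfl fun e he => ?_
      have : S e = 1 := by
        have h0 : S e ≠ 0 := by simpa using he
        revert h0
        generalize S e = k
        revert k
        decide
      rw [this]
      simp [ZMod.val_one]
    intro S T
    rw [key, key, key]
    refine Finsupp.prod_add_index' (fun e => by simp) ?_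
    intro e k l
    have h2 : g e ^ 2 = 1 := by rw [pow_two, hg]
    have : ∀ k l : ZMod 2, (k + l).val = k.val + l.val ∨ ((k + l).val = 0 ∧ k.val + l.val = 2) := by
      decide
    rcases this k l with h | ⟨h, h'⟩
    · rw [h, pow_add]
    · rw [← pow_add, h, h', h2, pow_zero]
  induction F using RA.ind with
  | h0 => simp
  | hadd F F' h h' => rw [add_mul, map_add, map_add, h, h', add_mul]
  | hs c S =>
    rw [smul_mul_assoc, map_smul, map_smul, smul_mul_assoc]
    congr 1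
    induction G using RA.ind with
    | h0 => simp
    | hadd F F' h h' => rw [mul_add, map_add, map_add, h, h', mul_add]
    | hs c T =>
      rw [mul_smul_comm, map_smul, map_smul, mul_smul_comm, ← epA_add, THA_ep, THA_ep, THA_ep,
        key]

/-- evaluation homomorphism at commuting involutions -/
def THAh (g : E → A) (hg : ∀ e, g e * g e = 1) : RA A E →ₐ[A] A :=
  AlgHom.ofLinearMap (THA g) (THA_one g) (THA_mul_sq g hg)

@[simp] theorem THAh_apply (g : E → A) (hg : ∀ e, g e * g e = 1) (F : RA A E) :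
    THAh g hg F = THA g F := rfl



/-! ### norms -/

/-- ring seminorm with values in `ℝ≥0∞` -/
structure RSemi (N : A → ℝ≥0∞) : Prop where
  zero : N 0 = 0
  one : N 1 ≤ 1
  add : ∀ a b, N (a + b) ≤ N a + N b
  mul : ∀ a b, N (a * b) ≤ N a * N b

theorem RSemi.sum {N : A → ℝ≥0∞} (hN : RSemi N) {ι : Type*} (s : Finset ι) (f : ι → A) :
    N (∑ i ∈ s, f i) ≤ ∑ i ∈ s, N (f i) := by
  classical
  induction s using Finset.induction_on with
  | empty => simp [hN.zero]
  | insert i s hi ih =>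
    rw [Finset.sum_insert hi, Finset.sum_insert hi]
    exact (hN.add _ _).trans (by gcongr)

theorem RSemi.prod {N : A → ℝ≥0∞} (hN : RSemi N) {ι : Type*} (s : Finset ι) (f : ι → A) :
    N (∏ i ∈ s, f i) ≤ ∏ i ∈ s, N (f i) := by
  classical
  induction s using Finset.induction_on with
  | empty => simpa using hN.one
  | insert i s hi ih =>
    rw [Finset.prod_insert hi, Finset.prod_insert hi]
    exact (hN.mul _ _).trans (by gcongr)

/-- weighted `ℓ¹` norm -/
def nmA (N : A → ℝ≥0∞) (c : E → ℝ≥0∞) (F : RA A E) : ℝ≥0∞ :=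
  ∑ S ∈ F.coeff.support, N (F.coeff S) * wtS c S


@[simp] theorem nmA_zero (N : A → ℝ≥0∞) (c : E → ℝ≥0∞) : nmA N c (0 : RA A E) = 0 := by
  simp [nmA]












/-! ### the inclusion of `RR E` -/

section ofR

variable [Algebra ℝ A]

/-- the inclusion of real coefficients -/
def ofR (A : Type*) [CommRing A] [Algebra ℝ A] : RR E →ₐ[ℝ] RA A E :=
  AddMonoidAlgebra.mapAlgHom (E →₀ ZMod 2) (Algebra.ofId ℝ A)

@[simp] theorem ofR_ep (S : E →₀ ZMod 2) : ofR A (ep S) = (epA S : RA A E) := by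
  simp [ofR, ep, epA]

theorem ofR_smul (r : ℝ) (F : RR E) : ofR A (r • F) = (algebraMap ℝ A r) • ofR A F := by
  rw [map_smul, algebraMap_smul]

theorem THA_ofR (g : E → A) (F : RR E) : THA g (ofR A F) = TH g F := by
  induction F using RR.ind with
  | h0 => simp
  | hadd F G hF hG => rw [map_add, map_add, map_add, hF, hG]
  | hs c S => rw [ofR_smul, map_smul, map_smul, ofR_ep, THA_ep, TH_ep, smul_eq_mul,
      ← Algebra.smul_def]



end ofR

/-! ### functoriality in the edge set -/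

/-- the algebra homomorphism induced by a map of edges -/
def emA (f : E → E') : RA A E →ₐ[A] RA A E' :=
  AddMonoidAlgebra.mapDomainAlgHom A A (Finsupp.mapDomain.addMonoidHom f)

@[simp] theorem emA_ep (f : E → E') (S : E →₀ ZMod 2) :
    emA f (epA S : RA A E) = epA (S.mapDomain f) := by
  simp [emA, epA]





end Crest.Agent.R165.J4RRAx653
end
end

-- ▼ part R165/J4Dat_126
section

/-!
# Row 165 (S0250), block J4: items given by bond polynomials and constants (helper126)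

* `FSemi N`      : extended ring seminorm, submultiplicative for finite bounds (e.g. `pnorm w`)
* `Dat`          : items `(Y i, a i, Fe i)`: support, constant in `A`, element of the eps-algebra
* `Dat.items`    : the corresponding system `Items` in `RA A E`; `w T = (∏ a) * TH g (∏ Fe)`
* `Dat.w_le`, `Dat.w_lip` : norm of the weights, Lipschitz bound
* `actN_bound`, `actN_quad`, `actN_lip`, `actN_lip2` : bounds of the activities for norms which
  depend on the support
-/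

set_option autoImplicit false
set_option linter.unusedSectionVars false

noncomputable section

open Finset
open scoped ENNReal

namespace Crest.Agent.R165.J4Datx126
open Crest.Agent.R165.KCompx892 Crest.Agent.R165.J4Actx126
open Crest.Agent.R165.J4RRx653 Crest.Agent.R165.J4RRAx653

/-! ### extended ring seminorms -/

/-- extended ring seminorm, submultiplicative for finite bounds -/
structure FSemi {A : Type*} [CommRing A] [Algebra ℝ A] (N : A → ℝ≥0∞) : Prop where
  zero : N 0 = 0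
  one : N 1 ≤ 1
  add : ∀ a b, N (a + b) ≤ N a + N b
  smul : ∀ (r : ℝ) a, N (r • a) ≤ ‖r‖ₑ * N a
  mul : ∀ a b s t, N a ≤ s → N b ≤ t → s ≠ ∞ → t ≠ ∞ → N (a * b) ≤ s * t

section fsemi
variable {A : Type*} [CommRing A] [Algebra ℝ A] {N : A → ℝ≥0∞}

theorem FSemi.nsum (h : FSemi N) : NSum N := ⟨h.zero, h.add⟩

theorem FSemi.sum (h : FSemi N) {κ : Type*} (s : Finset κ) (f : κ → A) :
    N (∑ i ∈ s, f i) ≤ ∑ i ∈ s, N (f i) := h.nsum.sum s f

theorem FSemi.neg (h : FSemi N) (a : A) : N (-a) ≤ N a := by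
  have := h.smul (-1) a
  simpa using this

theorem FSemi.sub (h : FSemi N) (a b : A) : N (a - b) ≤ N a + N b := by
  rw [sub_eq_add_neg]
  exact (h.add _ _).trans (add_le_add le_rfl (h.neg b))

theorem FSemi.prod (h : FSemi N) {κ : Type*} (s : Finset κ) (f : κ → A) (c : κ → ℝ≥0∞)
    (hc : ∀ i ∈ s, c i ≠ ∞) (hf : ∀ i ∈ s, N (f i) ≤ c i) : N (∏ i ∈ s, f i) ≤ ∏ i ∈ s, c i := by
  classical
  induction s using Finset.induction_on with
  | empty => simpa using h.one
  | insert i s hi ih =>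
    rw [Finset.prod_insert hi, Finset.prod_insert hi]
    refine h.mul _ _ _ _ (hf i (Finset.mem_insert_self _ _))
      (ih (fun j hj => hc j (Finset.mem_insert_of_mem hj))
        (fun j hj => hf j (Finset.mem_insert_of_mem hj)))
      (hc i (Finset.mem_insert_self _ _)) ?_
    exact ENNReal.prod_ne_top fun j hj => hc j (Finset.mem_insert_of_mem hj)

/-- telescoping -/
theorem FSemi.prod_sub (h : FSemi N) {κ : Type*} (s : Finset κ) (f f' : κ → A) (c d : κ → ℝ≥0∞)
    (η : ℝ≥0∞) (hη : η ≠ ∞) (hc : ∀ i ∈ s, c i ≠ ∞) (hd : ∀ i ∈ s, d i ≠ ∞)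
    (hf : ∀ i ∈ s, N (f i) ≤ c i) (hf' : ∀ i ∈ s, N (f' i) ≤ c i)
    (hfd : ∀ i ∈ s, N (f i - f' i) ≤ η * d i) :
    N (∏ i ∈ s, f i - ∏ i ∈ s, f' i) ≤ η * ∏ i ∈ s, (c i + d i) := by
  classical
  induction s using Finset.induction_on with
  | empty => simp [h.zero]
  | insert i s hi ih =>
    have ih' := ih (fun j hj => hc j (Finset.mem_insert_of_mem hj))
        (fun j hj => hd j (Finset.mem_insert_of_mem hj))
        (fun j hj => hf j (Finset.mem_insert_of_mem hj))
        (fun j hj => hf' j (Finset.mem_insert_of_mem hj))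
        (fun j hj => hfd j (Finset.mem_insert_of_mem hj))
    have hi' := Finset.mem_insert_self i s
    have hfin : ∏ j ∈ s, (c j + d j) ≠ ∞ := ENNReal.prod_ne_top fun j hj =>
      ENNReal.add_ne_top.2 ⟨hc j (Finset.mem_insert_of_mem hj), hd j (Finset.mem_insert_of_mem hj)⟩
    have hp : N (∏ j ∈ s, f j) ≤ ∏ j ∈ s, (c j + d j) :=
      h.prod s f _ (fun j hj => ENNReal.add_ne_top.2
        ⟨hc j (Finset.mem_insert_of_mem hj), hd j (Finset.mem_insert_of_mem hj)⟩)
        (fun j hj => (hf j (Finset.mem_insert_of_mem hj)).trans le_self_add)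
    rw [Finset.prod_insert hi, Finset.prod_insert hi, Finset.prod_insert hi]
    have e : f i * ∏ j ∈ s, f j - f' i * ∏ j ∈ s, f' j =
        (f i - f' i) * ∏ j ∈ s, f j + f' i * (∏ j ∈ s, f j - ∏ j ∈ s, f' j) := by ring
    rw [e]
    refine (h.add _ _).trans ?_
    have h1 := h.mul _ _ _ _ (hfd i hi') hp (ENNReal.mul_ne_top hη (hd i hi')) hfin
    have h2 := h.mul _ _ _ _ (hf' i hi') ih' (hc i hi') (ENNReal.mul_ne_top hη hfin)
    refine (add_le_add h1 h2).trans (le_of_eq ?_)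
    ring

end fsemi

/-! ### norms of `TH g` -/

section TH
variable {E A : Type*} [CommRing A] [Algebra ℝ A] {N : A → ℝ≥0∞}

theorem le_nmE' {N : RR E → ℝ≥0∞} (h0 : N 0 = 0) (hadd : ∀ F G, N (F + G) ≤ N F + N G)
    (hsmul : ∀ (r : ℝ) F, N (r • F) ≤ ‖r‖ₑ * N F) {c : E → ℝ≥0∞} {η : ℝ≥0∞}
    (h : ∀ S, N (ep S) ≤ η * wtS c S) (F : RR E) : N F ≤ η * nmE c F := by
  classical
  have hF : F = ∑ S ∈ F.coeff.support, F.coeff S • ep S := by
    conv_lhs => rw [← AddMonoidAlgebra.ofCoeff_coeff F, ← Finsupp.sum_single F.coeff]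
    rw [Finsupp.sum, AddMonoidAlgebra.ofCoeff_sum]
    exact Finset.sum_congr rfl fun S _ => single_eq S _
  have hsum : ∀ s : Finset (E →₀ ZMod 2), N (∑ S ∈ s, F.coeff S • ep S) ≤
      ∑ S ∈ s, N (F.coeff S • ep S) := by
    intro s
    induction s using Finset.induction_on with
    | empty => simp [h0]
    | insert a s ha ih =>
      rw [Finset.sum_insert ha, Finset.sum_insert ha]
      exact (hadd _ _).trans (add_le_add le_rfl ih)
  conv_lhs => rw [hF]
  refine (hsum _).trans ?_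
  rw [nmE, Finset.mul_sum]
  refine Finset.sum_le_sum fun S _ => (hsmul _ _).trans ?_
  calc ‖F.coeff S‖ₑ * N (ep S) ≤ ‖F.coeff S‖ₑ * (η * wtS c S) := mul_le_mul_right (h S) _
    _ = η * (‖F.coeff S‖ₑ * wtS c S) := by ring

theorem TH_zero_outside (g : E → A) {U : Set E} {F : RR E} (hF : F ∈ RIn U) :
    TH g F = TH (fun e => by classical exact if e ∈ U then g e else 0) F := by
  classical
  refine RIn_ind (P := fun F => TH g F = TH (fun e => if e ∈ U then g e else 0) F) ?_ ?_ ?_ hF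
  · simp
  · intro F G hF hG; rw [map_add, map_add, hF, hG]
  · intro c S hS
    rw [map_smul, map_smul, TH_ep, TH_ep]
    congr 1
    refine Finset.prod_congr rfl fun e he => ?_
    rw [if_pos (hS (Finset.mem_coe.2 he))]

theorem TH_le (h : FSemi N) (g : E → A) {U : Set E} {c : E → ℝ≥0∞} (hc : ∀ e, c e ≠ ∞)
    (hg : ∀ e ∈ U, N (g e) ≤ c e) {F : RR E} (hF : F ∈ RIn U) : N (TH g F) ≤ nmE c F := by
  classical
  rw [TH_zero_outside g hF]
  have hg' : ∀ e, N (if e ∈ U then g e else 0) ≤ c e := by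
    intro e
    split_ifs with h'
    · exact hg e h'
    · rw [h.zero]; exact zero_le
  refine le_nmE (N := fun F => N (TH (fun e => if e ∈ U then g e else 0) F)) (by simp [h.zero])
    (fun F G => by rw [map_add]; exact h.add _ _)
    (fun r F => by rw [map_smul]; exact h.smul _ _) ?_ F
  intro S
  rw [TH_ep, wtS]
  exact h.prod _ _ _ (fun e _ => hc e) (fun e _ => hg' e)

theorem TH_sub_le (h : FSemi N) (g g' : E → A) {U : Set E} {c d : E → ℝ≥0∞} {η : ℝ≥0∞}
    (hη : η ≠ ∞) (hc : ∀ e, c e ≠ ∞) (hd : ∀ e, d e ≠ ∞)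
    (hg : ∀ e ∈ U, N (g e) ≤ c e) (hg' : ∀ e ∈ U, N (g' e) ≤ c e)
    (hgd : ∀ e ∈ U, N (g e - g' e) ≤ η * d e) {F : RR E} (hF : F ∈ RIn U) :
    N (TH g F - TH g' F) ≤ η * nmE (fun e => c e + d e) F := by
  classical
  rw [TH_zero_outside g hF, TH_zero_outside g' hF]
  have h1 : ∀ e, N (if e ∈ U then g e else 0) ≤ c e := by
    intro e
    split_ifs with h'
    · exact hg e h'
    · rw [h.zero]; exact zero_le
  have h2 : ∀ e, N (if e ∈ U then g' e else 0) ≤ c e := by
    intro e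
    split_ifs with h'
    · exact hg' e h'
    · rw [h.zero]; exact zero_le
  have h3 : ∀ e, N ((if e ∈ U then g e else 0) - (if e ∈ U then g' e else 0)) ≤ η * d e := by
    intro e
    split_ifs with h'
    · exact hgd e h'
    · rw [sub_zero, h.zero]; exact zero_le
  refine le_nmE' (N := fun F => N (TH (fun e => if e ∈ U then g e else 0) F -
      TH (fun e => if e ∈ U then g' e else 0) F)) (by simp [h.zero])
      (fun F G => by
        rw [map_add, map_add, add_sub_add_comm]; exact h.add _ _)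
      (fun r F => by rw [map_smul, map_smul, ← smul_sub]; exact h.smul _ _) (fun S => ?_) F
  rw [TH_ep, TH_ep, wtS]
  exact h.prod_sub _ _ _ _ _ η hη (fun e _ => hc e) (fun e _ => hd e) (fun e _ => h1 e)
    (fun e _ => h2 e) (fun e _ => h3 e)

end TH

/-! ### data -/

section dat
variable {ι F E A : Type*} [DecidableEq ι] [DecidableEq F] [CommRing A] [Algebra ℝ A]

/-- items given by constants and bond polynomials -/
structure Dat (ι F E A : Type*) [CommRing A] [Algebra ℝ A] where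
  /-- faces of an edge -/
  fa : E → Finset F
  /-- image of the bond variables -/
  g : E → A
  /-- supports -/
  Y : ι → Finset F
  /-- constants -/
  a : ι → A
  /-- bond polynomials -/
  Fe : ι → RR E
  fa_ne : ∀ e, (fa e).Nonempty
  ne : ∀ i, (Y i).Nonempty
  mem : ∀ i, Fe i ∈ RIn {e | fa e ⊆ Y i}

namespace Dat
variable (D : Dat ι F E A)

/-- edges with all faces in `U` -/
def eIn (U : Finset F) : Set E := {e | D.fa e ⊆ U}

omit [DecidableEq ι] [DecidableEq F] in
theorem eIn_mono {U U' : Finset F} (h : U ⊆ U') : D.eIn U ⊆ D.eIn U' := fun _ he => he.trans h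

omit [DecidableEq ι] [DecidableEq F] in
theorem eIn_disjoint {U U' : Finset F} (h : Disjoint U U') : Disjoint (D.eIn U) (D.eIn U') := by
  rw [Set.disjoint_left]
  intro e he he'
  obtain ⟨f, hf⟩ := D.fa_ne e
  exact Finset.disjoint_left.1 h (he hf) (he' hf)

theorem prod_mem (T : Finset ι) : ∏ i ∈ T, D.Fe i ∈ RIn (D.eIn (supp D.Y T)) := by
  refine Subalgebra.prod_mem _ fun i hi => ?_
  refine RIn_mono ?_ (D.mem i)
  exact D.eIn_mono (Finset.subset_biUnion_of_mem D.Y hi)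

theorem prod_k (T : Finset ι) : ∏ i ∈ T, (CA (D.a i) * ofR A (D.Fe i) : RA A E) =
    CA (∏ i ∈ T, D.a i) * ofR A (∏ i ∈ T, D.Fe i) := by
  rw [Finset.prod_mul_distrib, map_prod]
  congr 1
  exact (map_prod (algebraMap A (RA A E)) _ _).symm

/-- the system of items -/
def items : Items ι F (RA A E) A where
  Y := D.Y
  k i := CA (D.a i) * ofR A (D.Fe i)
  Th := (THA D.g).toAddMonoidHom
  ne := D.ne
  one := THA_one _
  mul S T h := by
    have e : (∏ i ∈ S, (CA (D.a i) * ofR A (D.Fe i) : RA A E)) *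
        ∏ i ∈ T, (CA (D.a i) * ofR A (D.Fe i) : RA A E) =
        CA ((∏ i ∈ S, D.a i) * ∏ i ∈ T, D.a i) *
          ofR A ((∏ i ∈ S, D.Fe i) * ∏ i ∈ T, D.Fe i) := by
      rw [prod_k, prod_k, map_mul]
      have : (CA ((∏ i ∈ S, D.a i) * ∏ i ∈ T, D.a i) : RA A E) =
        CA (∏ i ∈ S, D.a i) * CA (∏ i ∈ T, D.a i) := map_mul (algebraMap A (RA A E)) _ _
      rw [this]; ring
    change THA D.g _ = THA D.g _ * THA D.g _
    rw [e, prod_k, prod_k, THA_CA_mul, THA_CA_mul, THA_CA_mul, THA_ofR, THA_ofR, THA_ofR,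
      TH_mul D.g (D.eIn_disjoint h) (D.prod_mem S) (D.prod_mem T)]
    ring

theorem w_eq (T : Finset ι) : D.items.w T = (∏ i ∈ T, D.a i) * TH D.g (∏ i ∈ T, D.Fe i) := by
  change THA D.g (∏ i ∈ T, (CA (D.a i) * ofR A (D.Fe i) : RA A E)) = _
  rw [prod_k, THA_CA_mul, THA_ofR]

theorem Th_k (i : ι) : D.items.Th (D.items.k i) = D.a i * TH D.g (D.Fe i) := by
  change THA D.g (CA (D.a i) * ofR A (D.Fe i) : RA A E) = _
  rw [THA_CA_mul, THA_ofR]


theorem w_le {N : A → ℝ≥0∞} (h : FSemi N) (T : Finset ι) {c : E → ℝ≥0∞} (hc : ∀ e, c e ≠ ∞)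
    (hc1 : ∀ e, 1 ≤ c e) (hg : ∀ e ∈ D.eIn (supp D.Y T), N (D.g e) ≤ c e) (α φ : ι → ℝ≥0∞)
    (hα : ∀ i ∈ T, α i ≠ ∞) (hφ : ∀ i ∈ T, φ i ≠ ∞)
    (ha : ∀ i ∈ T, N (D.a i) ≤ α i) (hF : ∀ i ∈ T, nmE c (D.Fe i) ≤ φ i) :
    N (D.items.w T) ≤ ∏ i ∈ T, (α i * φ i) := by
  rw [D.w_eq, Finset.prod_mul_distrib]
  refine h.mul _ _ _ _ (h.prod _ _ _ hα ha) ?_ (ENNReal.prod_ne_top hα) (ENNReal.prod_ne_top hφ)
  refine (TH_le h D.g hc hg (D.prod_mem T)).trans ((nmE_prod_le hc1 _ _).trans ?_)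
  exact Finset.prod_le_prod' hF

theorem w_lip (D' : Dat ι F E A) (hfa : D'.fa = D.fa) (hY : D'.Y = D.Y)
    {N : A → ℝ≥0∞} (h : FSemi N) (T : Finset ι) {c d : E → ℝ≥0∞} {η : ℝ≥0∞} (hη : η ≠ ∞)
    (hc : ∀ e, c e ≠ ∞) (hd : ∀ e, d e ≠ ∞)
    (hc1 : ∀ e, 1 ≤ c e) (hg : ∀ e ∈ D.eIn (supp D.Y T), N (D.g e) ≤ c e)
    (hg' : ∀ e ∈ D.eIn (supp D.Y T), N (D'.g e) ≤ c e)
    (hgd : ∀ e ∈ D.eIn (supp D.Y T), N (D.g e - D'.g e) ≤ η * d e)
    (α δ φ ψ : ι → ℝ≥0∞)
    (hα : ∀ i ∈ T, α i ≠ ∞) (hδ : ∀ i ∈ T, δ i ≠ ∞) (hφ : ∀ i ∈ T, φ i ≠ ∞)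
    (hψ : ∀ i ∈ T, ψ i ≠ ∞)
    (ha : ∀ i ∈ T, N (D.a i) ≤ α i) (ha' : ∀ i ∈ T, N (D'.a i) ≤ α i)
    (had : ∀ i ∈ T, N (D.a i - D'.a i) ≤ η * δ i)
    (hF : ∀ i ∈ T, nmE (fun e => c e + d e) (D.Fe i) ≤ φ i)
    (hF' : ∀ i ∈ T, nmE (fun e => c e + d e) (D'.Fe i) ≤ φ i)
    (hFd : ∀ i ∈ T, nmE (fun e => c e + d e) (D.Fe i - D'.Fe i) ≤ η * ψ i) :
    N (D.items.w T - D'.items.w T) ≤ (3 * η) * ∏ i ∈ T, ((α i + δ i) * (φ i + ψ i)) := by
  have hcd1 : ∀ e, 1 ≤ c e + d e := fun e => (hc1 e).trans le_self_add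
  have hcd : ∀ e, c e + d e ≠ ∞ := fun e => ENNReal.add_ne_top.2 ⟨hc e, hd e⟩
  have hmem' : ∏ i ∈ T, D'.Fe i ∈ RIn (D.eIn (supp D.Y T)) := by
    have := D'.prod_mem T
    unfold eIn at this ⊢
    rwa [hfa, hY] at this
  rw [D.w_eq, D'.w_eq]
  set P := ∏ i ∈ T, D.a i
  set P' := ∏ i ∈ T, D'.a i
  set G := ∏ i ∈ T, D.Fe i
  set G' := ∏ i ∈ T, D'.Fe i
  have e : P * TH D.g G - P' * TH D'.g G' =
      (P - P') * TH D.g G + P' * (TH D.g (G - G')) + P' * (TH D.g G' - TH D'.g G') := by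
    rw [map_sub]; ring
  have hαδ : ∀ i ∈ T, α i + δ i ≠ ∞ := fun i hi => ENNReal.add_ne_top.2 ⟨hα i hi, hδ i hi⟩
  have hφψ : ∀ i ∈ T, φ i + ψ i ≠ ∞ := fun i hi => ENNReal.add_ne_top.2 ⟨hφ i hi, hψ i hi⟩
  set X := ∏ i ∈ T, (α i + δ i) with hX
  set Z := ∏ i ∈ T, (φ i + ψ i) with hZ
  have hXf : X ≠ ∞ := ENNReal.prod_ne_top hαδ
  have hZf : Z ≠ ∞ := ENNReal.prod_ne_top hφψ
  have hP' : N P' ≤ X := h.prod _ _ _ hαδ fun i hi => (ha' i hi).trans le_self_add
  have hPd : N (P - P') ≤ η * X := h.prod_sub _ _ _ _ _ η hη hα hδ ha ha' had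
  have hGn : ∀ (D₀ : ι → RR E), (∀ i ∈ T, nmE (fun e => c e + d e) (D₀ i) ≤ φ i) →
      nmE (fun e => c e + d e) (∏ i ∈ T, D₀ i) ≤ Z := fun D₀ h0 =>
    (nmE_prod_le hcd1 _ _).trans (Finset.prod_le_prod' fun i hi => (h0 i hi).trans le_self_add)
  have hgcd : ∀ e ∈ D.eIn (supp D.Y T), N (D.g e) ≤ c e + d e := fun e he =>
    (hg e he).trans le_self_add
  have hG : N (TH D.g G) ≤ Z :=
    (TH_le h D.g hcd hgcd (D.prod_mem T)).trans (hGn _ hF)
  have hGd : N (TH D.g (G - G')) ≤ η * Z := by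
    refine (TH_le h D.g hcd hgcd (sub_mem (D.prod_mem T) hmem')).trans ?_
    have hfs : FSemi (nmE (fun e => c e + d e) : RR E → ℝ≥0∞) :=
      { zero := nmE_zero _
        one := (nmE_one _).le
        add := nmE_add_le _
        smul := nmE_smul_le _
        mul := fun a b s t hs ht _ _ => (nmE_mul_le hcd1 a b).trans (mul_le_mul' hs ht) }
    exact hfs.prod_sub _ _ _ _ _ η hη hφ hψ hF hF' hFd
  have hGg : N (TH D.g G' - TH D'.g G') ≤ η * Z :=
    (TH_sub_le h D.g D'.g hη hc hd hg hg' hgd hmem').trans (by gcongr; exact hGn _ hF')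
  rw [e, Finset.prod_mul_distrib]
  refine (h.add _ _).trans ?_
  have t1 := h.mul _ _ _ _ hPd hG (ENNReal.mul_ne_top hη hXf) hZf
  have t2 := h.mul _ _ _ _ hP' hGd hXf (ENNReal.mul_ne_top hη hZf)
  have t3 := h.mul _ _ _ _ hP' hGg hXf (ENNReal.mul_ne_top hη hZf)
  refine (add_le_add ((h.add _ _).trans (add_le_add t1 t2)) t3).trans (le_of_eq ?_)
  ring

end Dat

end dat

/-! ### bounds of the activities, norms depending on the support -/

section bounds
variable {ι F RR' A : Type*} [DecidableEq ι] [DecidableEq F] [CommRing RR'] [CommRing A]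

/-- **bound of the activities** -/
theorem actN_bound [Fintype ι] (I : Items ι F RR' A) {N : Finset F → A → ℝ≥0∞}
    (hA : ∀ U, NSum (N U)) (Γ : ℝ≥0∞) (hΓ : 1 ≤ Γ) (a : ι → ℝ≥0∞)
    (ha : ∀ T : Finset ι, N (supp I.Y T) (I.w T) ≤ ∏ i ∈ T, a i)
    (f : F) (𝒮 : Finset (Finset F)) :
    ∑ U ∈ 𝒮 with f ∈ U, Γ ^ U.card * N U (I.act U) ≤ tot I.Y (aG Γ I.Y a) f := by
  classical
  have := gen_bound I.Y Γ hΓ a (fun T => N (supp I.Y T) (I.w T)) 1
    (fun T => by rw [one_mul]; exact ha T) f 𝒮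
  rw [one_mul] at this
  refine le_trans (Finset.sum_le_sum fun U _ => ?_) this
  refine mul_le_mul_right ?_ _
  unfold Items.act
  refine ((hA U).sum _ _).trans (le_of_eq ?_)
  refine Finset.sum_congr ?_ fun T hT => ?_
  · ext; simp
  · rw [(Finset.mem_filter.1 hT).2.2]

/-- **second order bound of the activities** -/
theorem actN_quad [Fintype ι] (I : Items ι F RR' A) {N : Finset F → A → ℝ≥0∞}
    (hA : ∀ U, NSum (N U)) (Γ : ℝ≥0∞) (hΓ : 1 ≤ Γ) (a : ι → ℝ≥0∞)
    (ha : ∀ T : Finset ι, N (supp I.Y T) (I.w T) ≤ ∏ i ∈ T, a i)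
    (f : F) (𝒮 : Finset (Finset F)) :
    ∑ U ∈ 𝒮 with f ∈ U, Γ ^ U.card * N U (I.act U - I.act1 U) ≤ tot2 I.Y (aG Γ I.Y a) f := by
  classical
  have := gen_bound2 I.Y Γ hΓ a (fun T => N (supp I.Y T) (I.w T)) 1
    (fun T => by rw [one_mul]; exact ha T) f 𝒮
  rw [one_mul] at this
  refine le_trans (Finset.sum_le_sum fun U _ => ?_) this
  refine mul_le_mul_right ?_ _
  rw [I.act_sub_act1]
  refine ((hA U).sum _ _).trans (le_of_eq ?_)
  refine Finset.sum_congr ?_ fun T hT => ?_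
  · ext; simp
  · rw [(Finset.mem_filter.1 hT).2.2]

/-- **Lipschitz bound of the activities** -/
theorem actN_lip [Fintype ι] (I I' : Items ι F RR' A) (hY : I'.Y = I.Y)
    {N : Finset F → A → ℝ≥0∞} (hA : ∀ U, NSum (N U))
    (Γ : ℝ≥0∞) (hΓ : 1 ≤ Γ) (b : ι → ℝ≥0∞) (η : ℝ≥0∞)
    (ha : ∀ T : Finset ι, N (supp I.Y T) (I.w T - I'.w T) ≤ η * ∏ i ∈ T, b i)
    (f : F) (𝒮 : Finset (Finset F)) :
    ∑ U ∈ 𝒮 with f ∈ U, Γ ^ U.card * N U (I.act U - I'.act U) ≤ η * tot I.Y (aG Γ I.Y b) f := by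
  classical
  have := gen_bound I.Y Γ hΓ b (fun T => N (supp I.Y T) (I.w T - I'.w T)) η ha f 𝒮
  refine le_trans (Finset.sum_le_sum fun U _ => ?_) this
  refine mul_le_mul_right ?_ _
  unfold Items.act
  rw [hY, ← Finset.sum_sub_distrib]
  refine ((hA U).sum _ _).trans (le_of_eq ?_)
  refine Finset.sum_congr ?_ fun T hT => ?_
  · ext; simp
  · rw [(Finset.mem_filter.1 hT).2.2]

/-- **second order Lipschitz bound of the activities** -/
theorem actN_lip2 [Fintype ι] (I I' : Items ι F RR' A) (hY : I'.Y = I.Y)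
    {N : Finset F → A → ℝ≥0∞} (hA : ∀ U, NSum (N U))
    (Γ : ℝ≥0∞) (hΓ : 1 ≤ Γ) (b : ι → ℝ≥0∞) (η : ℝ≥0∞)
    (ha : ∀ T : Finset ι, N (supp I.Y T) (I.w T - I'.w T) ≤ η * ∏ i ∈ T, b i)
    (f : F) (𝒮 : Finset (Finset F)) :
    ∑ U ∈ 𝒮 with f ∈ U, Γ ^ U.card * N U ((I.act U - I.act1 U) - (I'.act U - I'.act1 U)) ≤
      η * tot2 I.Y (aG Γ I.Y b) f := by
  classical
  have := gen_bound2 I.Y Γ hΓ b (fun T => N (supp I.Y T) (I.w T - I'.w T)) η ha f 𝒮
  refine le_trans (Finset.sum_le_sum fun U _ => ?_) this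
  refine mul_le_mul_right ?_ _
  rw [I.act_sub_act1, I'.act_sub_act1, hY, ← Finset.sum_sub_distrib]
  refine ((hA U).sum _ _).trans (le_of_eq ?_)
  refine Finset.sum_congr ?_ fun T hT => ?_
  · ext; simp
  · rw [(Finset.mem_filter.1 hT).2.2]

end bounds

end Crest.Agent.R165.J4Datx126
end
end

-- ▼ part R165/J4Geo_126
section

/-!
# Row 165 (S0250), block J4: faces of shapes and edges (helper126)

* `cz`, `fz u`, `ez u` : lattice points / faces / edges of `ℤ²` placed at `u : G × G`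
* `faE e`  : the two faces of a bond
* `Yf A`   : the faces touching the bounding box of `A`
* `faE_subset` : bonds inside the bounding box have their faces in `Yf`
* `Yf_tr`, `Yf_rB`, `Yf_fB` : covariance; `card_Yf_le`
-/

set_option autoImplicit false
set_option linter.unusedSectionVars false
set_option linter.unnecessarySeqFocus false

noncomputable section

open Finset
open Crest.ProbabilityR.IsingModel

namespace Crest.Agent.R165.J4Geox126
open Crest.Agent.R165.J4Defx653 Crest.Agent.R165.J4Pathx653 Crest.Agent.R165.J4RRx653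
open Crest.Agent.R165.J1ax606 (HE EG pe qe pe_zero pe_one qe_zero qe_one)

section gen
variable {G : Type*} [CommRing G] [DecidableEq G]

/-- reduction of a lattice point -/
def cz (G : Type*) [CommRing G] (z : ℤ × ℤ) : G × G := ((z.1 : G), (z.2 : G))

/-- the lattice point `z` placed at `u` -/
def fz (u : G × G) (z : ℤ × ℤ) : G × G := u + cz G z

/-- the bond `e` placed at `u` -/
def ez (u : G × G) (e : Ed) : EG G := (fz u e.1, e.2)

/-- the two faces of a bond -/
def faE (e : EG G) : Finset (G × G) := {(pe e).1, (qe e).1}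

theorem faE_nonempty (e : EG G) : (faE e).Nonempty := ⟨_, Finset.mem_insert_self _ _⟩

theorem cz_add (z w : ℤ × ℤ) : cz G (z + w) = cz G z + cz G w := by
  simp [cz]

theorem cz_sub (z w : ℤ × ℤ) : cz G (z - w) = cz G z - cz G w := by
  simp [cz]

theorem cz_e1 : cz G (1, 0) = ((1 : G), (0 : G)) := by simp [cz]
theorem cz_e2 : cz G (0, 1) = ((0 : G), (1 : G)) := by simp [cz]
@[simp] theorem cz_zero : cz G 0 = 0 := by simp [cz]

theorem fz_sub (u : G × G) (z w : ℤ × ℤ) : fz u (z - w) = fz u z - cz G w := by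
  rw [fz, fz, cz_sub]; abel

theorem fz_add (u : G × G) (z w : ℤ × ℤ) : fz u (z + w) = fz u z + cz G w := by
  rw [fz, fz, cz_add]; abel

@[simp] theorem fz_zero (u : G × G) : fz u 0 = u := by simp [fz]

theorem faE_ez (u : G × G) (e : Ed) : faE (ez u e) = (faE e).image (fz u) := by
  obtain ⟨z, j⟩ := e
  unfold faE ez
  rw [Finset.image_insert, Finset.image_singleton]
  fin_cases j
  · change ({(pe (fz u z, 0)).1, (qe (fz u z, 0)).1} : Finset (G × G)) =
      {fz u (pe (z, 0)).1, fz u (qe (z, 0)).1}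
    rw [pe_zero, qe_zero, pe_zero, qe_zero]
    change ({fz u z, fz u z - (0, 1)} : Finset (G × G)) = {fz u z, fz u (z - (0, 1))}
    rw [fz_sub, cz_e2]
  · change ({(pe (fz u z, 1)).1, (qe (fz u z, 1)).1} : Finset (G × G)) =
      {fz u (pe (z, 1)).1, fz u (qe (z, 1)).1}
    rw [pe_one, qe_one, pe_one, qe_one]
    change ({fz u z - (1, 0), fz u z} : Finset (G × G)) = {fz u (z - (1, 0)), fz u z}
    rw [fz_sub, cz_e1]

end gen

/-! ### faces of shapes -/

/-- the faces touching the bounding box of `A` -/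
def Yf (A : Finset (ℤ × ℤ)) : Finset (ℤ × ℤ) :=
  (A.biUnion fun p => A.biUnion fun q => Icc (p.1 - 1) q.1) ×ˢ
    (A.biUnion fun p => A.biUnion fun q => Icc (p.2 - 1) q.2)

theorem mem_Yf {A : Finset (ℤ × ℤ)} {f : ℤ × ℤ} :
    f ∈ Yf A ↔ (∃ p ∈ A, p.1 - 1 ≤ f.1) ∧ (∃ q ∈ A, f.1 ≤ q.1) ∧ (∃ p ∈ A, p.2 - 1 ≤ f.2) ∧
      (∃ q ∈ A, f.2 ≤ q.2) := by
  unfold Yf
  simp only [mem_product, mem_biUnion, mem_Icc]
  constructor
  · rintro ⟨⟨p, hp, q, hq, h1, h2⟩, ⟨r, hr, s, hs, h3, h4⟩⟩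
    exact ⟨⟨p, hp, h1⟩, ⟨q, hq, h2⟩, ⟨r, hr, h3⟩, ⟨s, hs, h4⟩⟩
  · rintro ⟨⟨p, hp, h1⟩, ⟨q, hq, h2⟩, ⟨r, hr, h3⟩, ⟨s, hs, h4⟩⟩
    exact ⟨⟨p, hp, q, hq, h1, h2⟩, ⟨r, hr, s, hs, h3, h4⟩⟩

theorem subset_Yf (A : Finset (ℤ × ℤ)) : A ⊆ Yf A := fun x hx =>
  mem_Yf.2 ⟨⟨x, hx, by omega⟩, ⟨x, hx, le_rfl⟩, ⟨x, hx, by omega⟩, ⟨x, hx, le_rfl⟩⟩

theorem Yf_nonempty {A : Finset (ℤ × ℤ)} (h : A.Nonempty) : (Yf A).Nonempty := h.mono (subset_Yf A)

theorem Yf_subset {A : Finset (ℤ × ℤ)} {R : ℕ} (h : A ⊆ bx R) :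
    Yf A ⊆ Icc (-(R : ℤ) - 1) R ×ˢ Icc (-(R : ℤ) - 1) R := by
  intro f hf
  rw [mem_Yf] at hf
  obtain ⟨⟨p, hp, h1⟩, ⟨q, hq, h2⟩, ⟨r, hr, h3⟩, ⟨s, hs, h4⟩⟩ := hf
  have hp' := mem_bx.1 (h hp)
  have hq' := mem_bx.1 (h hq)
  have hr' := mem_bx.1 (h hr)
  have hs' := mem_bx.1 (h hs)
  rw [abs_le, abs_le] at hp' hq' hr' hs'
  rw [mem_product, mem_Icc, mem_Icc]
  omega

theorem card_Yf_le {A : Finset (ℤ × ℤ)} {R : ℕ} (h : A ⊆ bx R) : (Yf A).card ≤ (2 * R + 2) ^ 2 := by
  refine (Finset.card_le_card (Yf_subset h)).trans ?_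
  rw [Finset.card_product, Int.card_Icc]
  have : ((R : ℤ) + 1 - (-(R : ℤ) - 1)).toNat = 2 * R + 2 := by omega
  rw [this, pow_two]

/-- bonds inside the bounding box have their faces in `Yf` -/
theorem faE_subset {A : Finset (ℤ × ℤ)} {e : Ed} (h : e ∈ edIn (hull A)) : faE e ⊆ Yf A := by
  obtain ⟨z, j⟩ := e
  obtain ⟨h1, h2⟩ := h
  obtain ⟨⟨a1, ha1, ha1'⟩, ⟨a2, ha2, ha2'⟩, ⟨a3, ha3, ha3'⟩, ⟨a4, ha4, ha4'⟩⟩ := h1
  dsimp only at ha1' ha2' ha3' ha4'
  intro f hf
  unfold faE at hf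
  rw [mem_insert, mem_singleton] at hf
  have key : ∀ f : ℤ × ℤ, z.1 - 1 ≤ f.1 → f.1 ≤ z.1 → z.2 - 1 ≤ f.2 → f.2 ≤ z.2 → f ∈ Yf A := by
    intro f g1 g2 g3 g4
    exact mem_Yf.2 ⟨⟨a1, ha1, by omega⟩, ⟨a2, ha2, by omega⟩, ⟨a3, ha3, by omega⟩,
      ⟨a4, ha4, by omega⟩⟩
  have hj : j = 0 ∨ j = 1 := by
    fin_cases j
    · exact Or.inl rfl
    · exact Or.inr rfl
  rcases hj with rfl | rfl
  · rw [pe_zero, qe_zero] at hf
    rcases hf with rfl | rfl
    · exact key _ (by omega) le_rfl (by omega) le_rfl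
    · refine key _ ?_ ?_ ?_ ?_ <;> simp
  · rw [pe_one, qe_one] at hf
    rcases hf with rfl | rfl
    · refine key _ ?_ ?_ ?_ ?_ <;> simp
    · exact key _ (by omega) le_rfl (by omega) le_rfl

theorem mem_Yf_tr {A : Finset (ℤ × ℤ)} {z f : ℤ × ℤ} : f ∈ Yf (tr A z) ↔ f - z ∈ Yf A := by
  have h1 : ∀ P : ℤ × ℤ → Prop, (∃ p ∈ tr A z, P p) ↔ ∃ p ∈ A, P (p + z) := by
    intro P
    constructor
    · rintro ⟨p, hp, h⟩
      rw [mem_tr] at hp
      exact ⟨p - z, hp, by simpa using h⟩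
    · rintro ⟨p, hp, h⟩
      exact ⟨p + z, mem_tr.2 (by simpa using hp), h⟩
  rw [mem_Yf, mem_Yf, h1, h1, h1, h1]
  refine and_congr ?_ (and_congr ?_ (and_congr ?_ ?_)) <;>
  refine exists_congr fun p => and_congr_right fun _ => ?_ <;>
  simp only [Prod.fst_add, Prod.snd_add, Prod.fst_sub, Prod.snd_sub] <;> omega

theorem Yf_tr (A : Finset (ℤ × ℤ)) (z : ℤ × ℤ) : Yf (tr A z) = (Yf A).image (fun f => f + z) := by
  ext f
  rw [mem_Yf_tr, mem_image]
  constructor
  · intro h; exact ⟨f - z, h, by simp⟩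
  · rintro ⟨g, hg, rfl⟩; simpa using hg

/-- rotation of faces (by a right angle about the origin) -/
def rF (f : ℤ × ℤ) : ℤ × ℤ := (-f.2 - 1, f.1)

/-- reflection of faces in the first axis -/
def gF (f : ℤ × ℤ) : ℤ × ℤ := (f.1, -f.2 - 1)

theorem mem_Yf_rB {A : Finset (ℤ × ℤ)} {f : ℤ × ℤ} : rF f ∈ Yf (rB A) ↔ f ∈ Yf A := by
  have h1 : ∀ P : ℤ × ℤ → Prop, (∃ p ∈ rB A, P p) ↔ ∃ p ∈ A, P (rotate p) := by
    intro P
    simp only [rB, mem_image]
    constructor
    · rintro ⟨p, ⟨q, hq, rfl⟩, h⟩; exact ⟨q, hq, h⟩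
    · rintro ⟨q, hq, h⟩; exact ⟨_, ⟨q, hq, rfl⟩, h⟩
  rw [mem_Yf, mem_Yf, h1, h1, h1, h1]
  unfold rotate rF
  dsimp only
  constructor
  · rintro ⟨⟨p, hp, a1⟩, ⟨q, hq, a2⟩, ⟨r, hr, a3⟩, ⟨s, hs, a4⟩⟩
    exact ⟨⟨r, hr, by omega⟩, ⟨s, hs, by omega⟩, ⟨q, hq, by omega⟩, ⟨p, hp, by omega⟩⟩
  · rintro ⟨⟨p, hp, a1⟩, ⟨q, hq, a2⟩, ⟨r, hr, a3⟩, ⟨s, hs, a4⟩⟩
    exact ⟨⟨s, hs, by omega⟩, ⟨r, hr, by omega⟩, ⟨p, hp, by omega⟩, ⟨q, hq, by omega⟩⟩

theorem mem_Yf_fB {A : Finset (ℤ × ℤ)} {f : ℤ × ℤ} : gF f ∈ Yf (fB A) ↔ f ∈ Yf A := by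
  have h1 : ∀ P : ℤ × ℤ → Prop, (∃ p ∈ fB A, P p) ↔ ∃ p ∈ A, P (reflect p) := by
    intro P
    simp only [fB, mem_image]
    constructor
    · rintro ⟨p, ⟨q, hq, rfl⟩, h⟩; exact ⟨q, hq, h⟩
    · rintro ⟨q, hq, h⟩; exact ⟨_, ⟨q, hq, rfl⟩, h⟩
  rw [mem_Yf, mem_Yf, h1, h1, h1, h1]
  unfold reflect gF
  dsimp only
  constructor
  · rintro ⟨⟨p, hp, a1⟩, ⟨q, hq, a2⟩, ⟨r, hr, a3⟩, ⟨s, hs, a4⟩⟩
    exact ⟨⟨p, hp, by omega⟩, ⟨q, hq, by omega⟩, ⟨s, hs, by omega⟩, ⟨r, hr, by omega⟩⟩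
  · rintro ⟨⟨p, hp, a1⟩, ⟨q, hq, a2⟩, ⟨r, hr, a3⟩, ⟨s, hs, a4⟩⟩
    exact ⟨⟨p, hp, by omega⟩, ⟨q, hq, by omega⟩, ⟨s, hs, by omega⟩, ⟨r, hr, by omega⟩⟩

theorem rF_inj : Function.Injective rF := by
  intro f g h
  unfold rF at h
  rw [Prod.mk.injEq] at h
  exact Prod.ext h.2 (by omega)

theorem gF_inj : Function.Injective gF := by
  intro f g h
  unfold gF at h
  rw [Prod.mk.injEq] at h
  exact Prod.ext h.1 (by omega)

theorem Yf_rB (A : Finset (ℤ × ℤ)) : Yf (rB A) = (Yf A).image rF := by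
  ext f
  rw [mem_image]
  constructor
  · intro h
    have e : rF (f.2, -f.1 - 1) = f := by unfold rF; ext <;> dsimp only <;> omega
    refine ⟨(f.2, -f.1 - 1), ?_, e⟩
    rw [← mem_Yf_rB, e]; exact h
  · rintro ⟨g, hg, rfl⟩; exact mem_Yf_rB.2 hg

theorem Yf_fB (A : Finset (ℤ × ℤ)) : Yf (fB A) = (Yf A).image gF := by
  ext f
  rw [mem_image]
  constructor
  · intro h
    have e : gF (f.1, -f.2 - 1) = f := by unfold gF; ext <;> dsimp only <;> omega
    refine ⟨(f.1, -f.2 - 1), ?_, e⟩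
    rw [← mem_Yf_fB, e]; exact h
  · rintro ⟨g, hg, rfl⟩; exact mem_Yf_fB.2 hg

/-! ### faces of rotated and reflected bonds -/

theorem faE_trEd (z : ℤ × ℤ) (e : Ed) : faE (trEd z e) = (faE e).image (fun f => f + z) := by
  have h : trEd z e = ez (G := ℤ) z e := by
    unfold trEd ez fz cz
    rw [Prod.mk.injEq]
    refine ⟨?_, rfl⟩
    simp only [Int.cast_id]
    rw [add_comm]
  rw [h, faE_ez]
  congr 1
  funext f
  unfold fz cz
  simp only [Int.cast_id]
  rw [add_comm]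

theorem faE_rotEd (e : Ed) : faE (rotEd e) = (faE e).image rF := by
  obtain ⟨⟨x, y⟩, j⟩ := e
  have hj : j = 0 ∨ j = 1 := by
    fin_cases j
    · exact Or.inl rfl
    · exact Or.inr rfl
  unfold faE
  rw [image_insert, image_singleton]
  rcases hj with rfl | rfl
  · simp [rotEd, rotate, rF, pe, qe]
  · simp [rotEd, rotate, rF, pe, qe]
    exact Finset.pair_comm _ _

theorem faE_refEd (e : Ed) : faE (refEd e) = (faE e).image gF := by
  obtain ⟨⟨x, y⟩, j⟩ := e
  have hj : j = 0 ∨ j = 1 := by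
    fin_cases j
    · exact Or.inl rfl
    · exact Or.inr rfl
  unfold faE
  rw [image_insert, image_singleton]
  rcases hj with rfl | rfl
  · simp [refEd, reflect, gF, pe, qe]
    exact Finset.pair_comm _ _
  · simp [refEd, reflect, gF, pe, qe]

end Crest.Agent.R165.J4Geox126
end
end

-- ▼ part R165/J4K0_126

/-!
# Row 165 (S0250), block J4: the initial activities `K0` (helper126)

Lattice over any commutative ring `G` (`ℤ`: plane, domains; `ZMod M`: torus).

* `Fr G A`  : the algebraic frame: bilinears `b e` of the bonds, intra-face forms `I4 f`, in a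
  commutative algebra `A` (e.g. the even elements of a Grassmann algebra)
* `Bk G κ A`: a background: signed weights `y`, field rescaling `s`, allowed shapes `ok`, potential
  `t`, range `R`, local sources
* items: shapes `(u, A)` with value `em (kB (t A) A)`, faces with value `exp((s_f²-1) I4 f) - 1`,
  bonds with value `(s_f s_{f'} - 1) y_e b_e`, sources `as k * Fs k`
* `K0 fr B U` : the activity of the face set `U`
* `K0_ZZ` : the expansion of the full product over a finite set of faces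
-/

set_option autoImplicit false
set_option linter.unusedSectionVars false

noncomputable section

open Finset

namespace Crest.Agent.R165.J4K0x126
open Crest.Agent.R165.KCompx892 Crest.Agent.R165.KStepx892 Crest.Agent.R165.J4Actx126
open Crest.Agent.R165.J4Datx126 Crest.Agent.R165.J4Geox126
open Crest.Agent.R165.J4Defx653 Crest.Agent.R165.J4Pathx653
open Crest.Agent.R165.J4RRx653 Crest.Agent.R165.J4RRAx653
open Crest.Agent.R165.J1ax606 (HE EG pe qe pe_zero pe_one qe_zero qe_one)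

variable {G : Type*} [CommRing G] [DecidableEq G]
variable {A : Type*} [CommRing A] [Algebra ℝ A] {κ : Type*} [DecidableEq κ]

/-- the algebraic frame -/
structure Fr (G : Type*) (A : Type*) [CommRing A] [Algebra ℝ A] where
  /-- bilinear of a bond -/
  b : EG G → A
  /-- intra-face quadratic form -/
  I4 : G × G → A

/-- a background with potential and sources -/
structure Bk (G : Type*) [CommRing G] [DecidableEq G] (κ : Type*) (A : Type*) [CommRing A]
    [Algebra ℝ A] where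
  /-- signed weights -/
  y : EG G → ℝ
  /-- rescaling of the fields -/
  s : G × G → ℝ
  /-- allowed shapes -/
  ok : G × G → Finset (ℤ × ℤ) → Prop
  /-- potential on canonical shapes -/
  t : Finset (ℤ × ℤ) → ℝ
  /-- range -/
  R : ℕ
  /-- supports of the sources -/
  Ys : κ → Finset (G × G)
  /-- constants of the sources -/
  as : κ → A
  /-- bond polynomials of the sources -/
  Fs : κ → RR (EG G)
  Fs_mem : ∀ k, Fs k ∈ RIn {e | faE e ⊆ Ys k}

/-- labels of items: shapes, faces, bonds, sources -/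
abbrev Ix (G κ : Type*) : Type _ := ((G × G) × Finset (ℤ × ℤ)) ⊕ ((G × G) ⊕ (EG G ⊕ κ))

instance subDec {α : Type*} (s : Finset α) : DecidableEq {i // i ∈ s} := Classical.decEq _

namespace Bk

variable (fr : Fr G A) (B : Bk G κ A)

/-- image of the bond variable of `e` -/
def g (e : EG G) : A := 1 - (2 * (B.y e * (B.s (pe e).1 * B.s (qe e).1))) • fr.b e

/-- supports -/
def YI : Ix G κ → Finset (G × G)
  | .inl p => (Yf p.2).image (fz p.1)
  | .inr (.inl f) => {f}
  | .inr (.inr (.inl e)) => faE e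
  | .inr (.inr (.inr k)) => B.Ys k

/-- the coefficient of the intra-face form -/
def cI (f : G × G) : ℝ := B.s f * B.s f - 1

/-- constants -/
def aI : Ix G κ → A
  | .inl _ => 1
  | .inr (.inl f) => B.cI f • fr.I4 f + (B.cI f ^ 2 / 2) • (fr.I4 f * fr.I4 f)
  | .inr (.inr (.inl e)) => (B.y e * (B.s (pe e).1 * B.s (qe e).1 - 1)) • fr.b e
  | .inr (.inr (.inr k)) => B.as k

/-- bond polynomials -/
def FI : Ix G κ → RR (EG G)
  | .inl p => em (ez p.1) (kB (B.t p.2) p.2)
  | .inr (.inl _) => 1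
  | .inr (.inr (.inl _)) => 1
  | .inr (.inr (.inr k)) => B.Fs k

/-- admissible labels -/
def okI : Ix G κ → Prop
  | .inl p => (p.2 ∈ Can B.R ∧ Even p.2.card) ∧ B.ok p.1 p.2
  | .inr (.inl _) => True
  | .inr (.inr (.inl _)) => True
  | .inr (.inr (.inr k)) => (B.Ys k).Nonempty

theorem YI_nonempty {i : Ix G κ} (h : B.okI i) : (B.YI i).Nonempty := by
  rcases i with p | f | e | k
  · exact (Yf_nonempty (Can.nonempty h.1.1)).image _
  · exact Finset.singleton_nonempty f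
  · exact faE_nonempty e
  · exact h

theorem em_kB_mem (u : G × G) (t : ℝ) (S : Finset (ℤ × ℤ)) (h : Even S.card) :
    em (ez u) (kB t S) ∈ RIn {e : EG G | faE e ⊆ (Yf S).image (fz u)} := by
  refine RIn_mono ?_ (em_mem_RIn (kB_mem t S h))
  rintro _ ⟨e, he, rfl⟩
  change faE (ez u e) ⊆ _
  rw [faE_ez]
  exact Finset.image_subset_image (faE_subset he)

theorem FI_mem {i : Ix G κ} (h : B.okI i) : B.FI i ∈ RIn {e | faE e ⊆ B.YI i} := by
  rcases i with p | f | e | k
  · exact em_kB_mem _ _ _ h.1.2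
  · exact one_mem _
  · exact one_mem _
  · exact B.Fs_mem k

/-- the data on a finite set of admissible labels -/
def dat (𝔍 : Finset (Ix G κ)) (h𝔍 : ∀ i ∈ 𝔍, B.okI i) :
    Dat {i // i ∈ 𝔍} (G × G) (EG G) A where
  fa := faE
  g := B.g fr
  Y i := B.YI i.1
  a i := B.aI fr i.1
  Fe i := B.FI i.1
  fa_ne := faE_nonempty
  ne i := B.YI_nonempty (h𝔍 i.1 i.2)
  mem i := B.FI_mem (h𝔍 i.1 i.2)

/-! ### labels inside a finite set of faces -/

open Classical in
/-- shapes inside `U` -/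
def shp (U : Finset (G × G)) : Finset ((G × G) × Finset (ℤ × ℤ)) :=
  (U ×ˢ Can B.R).filter fun p => (Even p.2.card ∧ B.ok p.1 p.2) ∧ (Yf p.2).image (fz p.1) ⊆ U

/-- bonds inside `U` -/
def edg (U : Finset (G × G)) : Finset (EG G) :=
  (U ×ˢ (univ : Finset (Fin 2))).filter fun e => faE e ⊆ U

/-- sources inside `U` -/
def srcs [Fintype κ] (U : Finset (G × G)) : Finset κ :=
  univ.filter fun k => (B.Ys k).Nonempty ∧ B.Ys k ⊆ U

theorem fst_mem_faE (e : EG G) : e.1 ∈ faE e := by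
  obtain ⟨z, j⟩ := e
  have hj : j = 0 ∨ j = 1 := by
    fin_cases j
    · exact Or.inl rfl
    · exact Or.inr rfl
  unfold faE
  rw [Finset.mem_insert, Finset.mem_singleton]
  rcases hj with rfl | rfl
  · left; rw [pe_zero]
  · right; rw [qe_one]

theorem mem_edg {U : Finset (G × G)} {e : EG G} : e ∈ edg U ↔ faE e ⊆ U := by
  unfold edg
  rw [Finset.mem_filter, Finset.mem_product]
  constructor
  · exact fun h => h.2
  · exact fun h => ⟨⟨h (fst_mem_faE e), Finset.mem_univ _⟩, h⟩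

theorem base_mem (u : G × G) {S : Finset (ℤ × ℤ)} (h : (0 : ℤ × ℤ) ∈ S) :
    u ∈ (Yf S).image (fz u) :=
  Finset.mem_image.2 ⟨0, subset_Yf S h, fz_zero u⟩

theorem mem_shp {U : Finset (G × G)} {p : (G × G) × Finset (ℤ × ℤ)} :
    p ∈ B.shp U ↔ ((p.2 ∈ Can B.R ∧ Even p.2.card) ∧ B.ok p.1 p.2) ∧
      (Yf p.2).image (fz p.1) ⊆ U := by
  classical
  unfold shp
  rw [Finset.mem_filter, Finset.mem_product]
  constructor
  · rintro ⟨⟨_, h1⟩, ⟨h2, h3⟩, h4⟩
    exact ⟨⟨⟨h1, h2⟩, h3⟩, h4⟩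
  · rintro ⟨⟨⟨h1, h2⟩, h3⟩, h4⟩
    exact ⟨⟨h4 (base_mem p.1 (mem_Can.1 h1).2.1), h1⟩, ⟨h2, h3⟩, h4⟩

/-- the labels inside `U` -/
def ixs [Fintype κ] (U : Finset (G × G)) : Finset (Ix G κ) :=
  (B.shp U).disjSum (U.disjSum ((edg U).disjSum (B.srcs U)))

theorem mem_ixs [Fintype κ] {U : Finset (G × G)} {i : Ix G κ} :
    i ∈ B.ixs U ↔ B.okI i ∧ B.YI i ⊆ U := by
  unfold ixs
  rcases i with p | f | e | k
  · rw [Finset.inl_mem_disjSum, mem_shp]; rfl
  · rw [Finset.inr_mem_disjSum, Finset.inl_mem_disjSum]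
    change _ ↔ True ∧ ({f} : Finset (G × G)) ⊆ U
    rw [Finset.singleton_subset_iff, true_and]
  · rw [Finset.inr_mem_disjSum, Finset.inr_mem_disjSum, Finset.inl_mem_disjSum, mem_edg]
    change _ ↔ True ∧ faE e ⊆ U
    rw [true_and]
  · rw [Finset.inr_mem_disjSum, Finset.inr_mem_disjSum, Finset.inr_mem_disjSum]
    unfold srcs
    rw [Finset.mem_filter]
    change _ ↔ (B.Ys k).Nonempty ∧ B.Ys k ⊆ U
    simp

theorem ixs_mono [Fintype κ] {U U' : Finset (G × G)} (h : U ⊆ U') : B.ixs U ⊆ B.ixs U' := by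
  intro i hi
  rw [mem_ixs] at hi ⊢
  exact ⟨hi.1, hi.2.trans h⟩

theorem ixs_ok [Fintype κ] {U : Finset (G × G)} : ∀ i ∈ B.ixs U, B.okI i :=
  fun _ hi => (B.mem_ixs.1 hi).1

/-- the data inside `U` -/
def datU [Fintype κ] (U : Finset (G × G)) : Dat {i // i ∈ B.ixs U} (G × G) (EG G) A :=
  B.dat fr (B.ixs U) B.ixs_ok

/-- **the initial activities** -/
def K0 [Fintype κ] (U : Finset (G × G)) : A := (B.datU fr U).items.act U

/-- restriction of the labels does not change the activity -/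
theorem act_eq_K0 [Fintype κ] {U Λ : Finset (G × G)} (h : U ⊆ Λ) :
    (B.datU fr Λ).items.act U = B.K0 fr U := by
  symm
  have key := act_transport (I := (B.datU fr U).items) (I' := (B.datU fr Λ).items)
    (ψ := fun f : G × G => f) (U := U)
    (e := fun i => (⟨i.1, B.ixs_mono h i.2⟩ : {i // i ∈ B.ixs Λ})) ?_ (AddMonoidHom.id A) ?_
  · rw [Finset.image_id'] at key
    exact key
  · refine ⟨fun _ _ _ _ h => h, fun i _ j _ hij => ?_, fun i _ => ?_, fun i' hi' => ?_⟩
    · exact Subtype.ext (Subtype.mk.injEq _ _ _ _ ▸ hij)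
    · exact (Finset.image_id').symm
    · rw [Finset.image_id'] at hi'
      refine ⟨⟨i'.1, B.mem_ixs.2 ⟨B.ixs_ok _ i'.2, hi'⟩⟩, hi', rfl⟩
  · intro T _
    change (B.datU fr U).items.w T = (B.datU fr Λ).items.w _
    rw [Dat.w_eq, Dat.w_eq, Finset.prod_image, Finset.prod_image]
    · rfl
    · intro i _ j _ hij
      exact Subtype.ext (Subtype.mk.injEq _ _ _ _ ▸ hij)
    · intro i _ j _ hij
      exact Subtype.ext (Subtype.mk.injEq _ _ _ _ ▸ hij)

/-- **the expansion**: full product inside `Λ` = polymer gas of the initial activities -/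
theorem K0_ZZ [Fintype κ] (Λ : Finset (G × G)) :
    THA (B.g fr) ((∏ p ∈ B.shp Λ, (1 + ofR A (em (ez p.1) (kB (B.t p.2) p.2)))) *
        ∏ k ∈ B.srcs Λ, (1 + CA (B.as k) * ofR A (B.Fs k))) *
      (∏ f ∈ Λ, (1 + (B.cI f • fr.I4 f + (B.cI f ^ 2 / 2) • (fr.I4 f * fr.I4 f)))) *
      (∏ e ∈ edg Λ, (1 + (B.y e * (B.s (pe e).1 * B.s (qe e).1 - 1)) • fr.b e)) =
    ZZ (fun a b : G × G => a = b) Λ (B.K0 fr) := by
  have h1 := (B.datU fr Λ).items.ZZ_act Λ (fun i => (B.mem_ixs.1 i.2).2)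
  have h2 : ZZ (fun a b : G × G => a = b) Λ (B.datU fr Λ).items.act =
      ZZ (fun a b : G × G => a = b) Λ (B.K0 fr) := by
    classical
    unfold ZZ
    refine Finset.sum_congr rfl fun P hP => Finset.prod_congr rfl fun U hU => ?_
    have hP1 := (Finset.mem_powerset.1 (Finset.mem_filter.1 hP).1) hU
    exact B.act_eq_K0 fr (Finset.mem_powerset.1 hP1)
  rw [← h2, ← h1]
  change _ = THA (B.g fr) (∏ i : {i // i ∈ B.ixs Λ}, (1 + CA (B.aI fr i.1) * ofR A (B.FI i.1)))
  rw [Finset.prod_coe_sort (B.ixs Λ) (fun i => (1 + CA (B.aI fr i) * ofR A (B.FI i) : RA A (EG G)))]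
  unfold ixs
  rw [Finset.prod_disjSum, Finset.prod_disjSum, Finset.prod_disjSum]
  have hCA1 : (CA (1 : A) : RA A (EG G)) = 1 := map_one _
  have e1 : ∀ p ∈ B.shp Λ, (1 + CA (B.aI fr (Sum.inl p)) * ofR A (B.FI (Sum.inl p)) :
      RA A (EG G)) = 1 + ofR A (em (ez p.1) (kB (B.t p.2) p.2)) := by
    intro p _
    change 1 + CA (1 : A) * ofR A (em (ez p.1) (kB (B.t p.2) p.2)) = _
    rw [hCA1, one_mul]
  have e2 : ∀ f ∈ Λ, (1 + CA (B.aI fr (Sum.inr (Sum.inl f))) *
      ofR A (B.FI (Sum.inr (Sum.inl f))) : RA A (EG G)) =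
      CA (1 + (B.cI f • fr.I4 f + (B.cI f ^ 2 / 2) • (fr.I4 f * fr.I4 f))) := by
    intro f _
    change 1 + CA (B.cI f • fr.I4 f + (B.cI f ^ 2 / 2) • (fr.I4 f * fr.I4 f)) *
      ofR A (1 : RR (EG G)) = _
    rw [map_one, mul_one, ← hCA1]
    exact (map_add (algebraMap A (RA A (EG G))) _ _).symm
  have e3 : ∀ e ∈ edg Λ, (1 + CA (B.aI fr (Sum.inr (Sum.inr (Sum.inl e)))) *
      ofR A (B.FI (Sum.inr (Sum.inr (Sum.inl e)))) : RA A (EG G)) =
      CA (1 + (B.y e * (B.s (pe e).1 * B.s (qe e).1 - 1)) • fr.b e) := by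
    intro e _
    change 1 + CA ((B.y e * (B.s (pe e).1 * B.s (qe e).1 - 1)) • fr.b e) *
      ofR A (1 : RR (EG G)) = _
    rw [map_one, mul_one, ← hCA1]
    exact (map_add (algebraMap A (RA A (EG G))) _ _).symm
  rw [Finset.prod_congr rfl e1, Finset.prod_congr rfl e2, Finset.prod_congr rfl e3]
  have e4 : (∏ f ∈ Λ, (CA (1 + (B.cI f • fr.I4 f + (B.cI f ^ 2 / 2) • (fr.I4 f * fr.I4 f))) :
      RA A (EG G))) = CA (∏ f ∈ Λ, (1 + (B.cI f • fr.I4 f + (B.cI f ^ 2 / 2) •
        (fr.I4 f * fr.I4 f)))) := (map_prod (algebraMap A (RA A (EG G))) _ _).symm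
  have e5 : (∏ e ∈ edg Λ, (CA (1 + (B.y e * (B.s (pe e).1 * B.s (qe e).1 - 1)) • fr.b e) :
      RA A (EG G))) = CA (∏ e ∈ edg Λ, (1 + (B.y e * (B.s (pe e).1 * B.s (qe e).1 - 1)) • fr.b e)) :=
    (map_prod (algebraMap A (RA A (EG G))) _ _).symm
  rw [e4, e5]
  set P := ∏ p ∈ B.shp Λ, (1 + ofR A (em (ez p.1) (kB (B.t p.2) p.2)) : RA A (EG G))
  set a1 := ∏ f ∈ Λ, (1 + (B.cI f • fr.I4 f + (B.cI f ^ 2 / 2) • (fr.I4 f * fr.I4 f)))
  set a2 := ∏ e ∈ edg Λ, (1 + (B.y e * (B.s (pe e).1 * B.s (qe e).1 - 1)) • fr.b e)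
  have e6 : ∏ k ∈ B.srcs Λ, (1 + CA (B.aI fr (Sum.inr (Sum.inr (Sum.inr k)))) *
      ofR A (B.FI (Sum.inr (Sum.inr (Sum.inr k)))) : RA A (EG G)) =
      ∏ k ∈ B.srcs Λ, (1 + CA (B.as k) * ofR A (B.Fs k)) := rfl
  rw [e6]
  set S := ∏ k ∈ B.srcs Λ, (1 + CA (B.as k) * ofR A (B.Fs k) : RA A (EG G))
  have e7 : P * (CA a1 * (CA a2 * S)) = CA a1 * (CA a2 * (P * S)) := by ring
  rw [e7, THA_CA_mul, THA_CA_mul]
  ring

end Bk

end Crest.Agent.R165.J4K0x126
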