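import Crest.Agent.R165.J4K0B_126
import Crest.Agent.R165.Bkg_683

/-!
# Row 165 (S0250), block J4: concrete norms of the initial activities (helper126)

* `wU_single_le` : `wU w a r U (single h 1) ≤ a √r` for a half-edge `h` at a face of `U`
* `nhyp_frG`     : the frame `frG ι` of 683 satisfies `NHyp` for `N U = pG (W U)`
* `NI_le`        : 892's input norm from finite sums
* `bhyp_bk`      : the backgrounds of 683 satisfy `BHyp`
* `K00_NI`, `K00_NI_quad`, `K00_NI_lip`, `K00_NI_lip2` : the bounds in 892's form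
* `mpar_le`, `mpar_sub_le` : the parameters of the perturbed Ising model
-/

set_option autoImplicit false
set_option linter.unusedSectionVars false

noncomputable section

open Finset
open scoped ENNReal
open Crest.ProbabilityR.IsingModel

namespace Crest.Agent.R165.J4K0Nx126
open Crest.Agent.R165.J4Datx126 Crest.Agent.R165.J4Geox126 Crest.Agent.R165.J4K0x126
open Crest.Agent.R165.J4K0Bx126
open Crest.Agent.R165.J4Defx653 Crest.Agent.R165.J4RRx653
open Crest.Agent.R165.Gr0x606 Crest.Agent.R165.Gr1x606 Crest.Agent.R165.GeOpsx337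
open Crest.Agent.R165.PNormx417 Crest.Agent.R165.GDefx387 Crest.Agent.R165.KInitx892
open Crest.Agent.R165.Latx683 Crest.Agent.R165.Bkgx683
open Crest.Agent.R165.J1ax606 (pe qe pe_zero pe_one qe_zero qe_one)

/-! ### the weight of a mode -/

section mode
variable {G : Type} [CommRing G] [CN G]

theorem l2_restr_ge (x : G × G) (R : ℕ) (f : HE G → ℝ) {h : HE G} (hh : h.1 ∈ ball x R) :
    |f h| ≤ l2 (restr (ball x R) f) := by
  classical
  unfold l2
  have hfin : (Function.support fun h' : HE G => restr (ball x R) f h' ^ 2).Finite := by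
    refine ((ball_finite x R).prod (Set.finite_univ (α := Fin 4))).subset ?_
    intro h' hh'
    rw [Function.mem_support] at hh'
    refine ⟨?_, Set.mem_univ _⟩
    by_contra hcon
    apply hh'
    unfold restr
    rw [if_neg hcon]
    simp
  have hs : Summable fun h' : HE G => restr (ball x R) f h' ^ 2 :=
    summable_of_hasFiniteSupport hfin
  have h1 : restr (ball x R) f h ^ 2 ≤ ∑' h', restr (ball x R) f h' ^ 2 :=
    hs.le_tsum h fun _ _ => sq_nonneg _
  have h2 : restr (ball x R) f h = f h := if_pos hh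
  rw [h2] at h1
  rw [← Real.sqrt_sq_eq_abs]
  exact Real.sqrt_le_sqrt h1

theorem l2_nonneg (f : HE G → ℝ) : 0 ≤ l2 f := Real.sqrt_nonneg _

/-- **weight of a half-edge** -/
theorem wU_single_le (w : BW G) {a : ℝ} (ha : 0 ≤ a) (r : ℕ) {U : Finset (G × G)} {h : HE G}
    (hh : h.1 ∈ U) : wU w a r U (Finsupp.single h 1) ≤ ENNReal.ofReal (a * Real.sqrt r) := by
  classical
  unfold wU
  refine (iInf₂_le h.1 hh).trans ?_
  have hsupp : SuppL (ball h.1 (s0 * r)) (Finsupp.single h 1 : Fld G) := by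
    intro h' hne
    have : h' = h := by
      by_contra hcon
      exact hne (Finsupp.single_eq_of_ne hcon)
    rw [this, mem_ball, fd_self]
    exact Nat.zero_le _
  rw [if_pos hsupp]
  unfold wt
  have h1 : (⨆ f : {f : HE G → ℝ // nnB w r h.1 f ≤ 1},
      ENNReal.ofReal |pair (Finsupp.single h 1 : Fld G) f.1|) ≤ 1 := by
    refine iSup_le fun f => ?_
    rw [← ENNReal.ofReal_one]
    refine ENNReal.ofReal_le_ofReal ?_
    have h2 : pair (Finsupp.single h 1 : Fld G) f.1 = f.1 h := by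
      unfold pair
      rw [Finsupp.sum_single_index (by rw [zero_mul]), one_mul]
    rw [h2]
    refine le_trans ?_ f.2
    unfold nnB
    have h3 : (r : ℝ) ^ 0 * l2 (restr (ball h.1 (s1 * r)) ((Aop w)^[0] f.1)) ≤
        ∑ n ∈ Finset.range (MM + 1), (r : ℝ) ^ n *
          l2 (restr (ball h.1 (s1 * r)) ((Aop w)^[n] f.1)) :=
      Finset.single_le_sum (f := fun n => (r : ℝ) ^ n *
          l2 (restr (ball h.1 (s1 * r)) ((Aop w)^[n] f.1)))
        (fun n _ => mul_nonneg (by positivity) (l2_nonneg _))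
        (Finset.mem_range.2 (by unfold MM; omega))
    refine le_trans ?_ h3
    rw [pow_zero, one_mul]
    exact l2_restr_ge h.1 _ _ (by rw [mem_ball, fd_self]; exact Nat.zero_le _)
  calc ENNReal.ofReal (a * Real.sqrt r) * _ ≤ ENNReal.ofReal (a * Real.sqrt r) * 1 := by gcongr
    _ = _ := mul_one _

end mode

/-! ### the frame -/

section frame
variable {G : Type} [CommRing G] [DecidableEq G] {V : Type*} [AddCommGroup V] [Module ℝ V]

theorem fsemi_pG (w : V → ℝ≥0∞) : FSemi (pG w : Ge V → ℝ≥0∞) where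
  zero := by rw [pG_def, Ge.coe_zero, pnorm_zero]
  one := by rw [pG_def, Ge.coe_one]; exact pnorm_one_le w
  add a b := pnorm_add_le w _ _
  smul r a := by rw [pG_def, pG_def, Ge.coe_smul]; exact pnorm_smul_le w r _
  mul a b s t ha hb hs ht := by
    rw [pG_def] at ha hb ⊢
    rw [Ge.coe_mul]
    exact pnorm_mul_le' ha hb hs ht

theorem pG_bi_le (w : V → ℝ≥0∞) (x y : V) {v : ℝ} (hv : 0 ≤ v) (hx : w x ≤ ENNReal.ofReal v)
    (hy : w y ≤ ENNReal.ofReal v) : pG w (bi x y) ≤ ENNReal.ofReal (v ^ 2) := by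
  rw [pG_def, coe_bi, pow_two, ENNReal.ofReal_mul hv]
  exact pnorm_mul_le' ((pnorm_fi_le w x).trans hx) ((pnorm_fi_le w y).trans hy)
    ENNReal.ofReal_ne_top ENNReal.ofReal_ne_top

theorem faE_pe (e : EG G) : (pe e).1 ∈ faE e := by unfold faE; exact Finset.mem_insert_self _ _
theorem faE_qe (e : EG G) : (qe e).1 ∈ faE e := by
  unfold faE; exact Finset.mem_insert_of_mem (Finset.mem_singleton_self _)

/-- **the frame of 683 satisfies the norm hypotheses** -/
theorem nhyp_frG (ι : Fld G →ₗ[ℝ] V) (W : Finset (G × G) → V → ℝ≥0∞) {v : ℝ} (hv : 0 ≤ v)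
    (hW : ∀ U, ∀ f ∈ U, ∀ i : Fin 4, W U (ι (Finsupp.single (f, i) 1)) ≤ ENNReal.ofReal v) :
    NHyp (frG ι) (fun U a => pG (W U) a) (1 + 6 * v ^ 2) where
  semi U := fsemi_pG (W U)
  c1 := by nlinarith [sq_nonneg v]
  b U e he := by
    refine (pG_bi_le (W U) _ _ hv (hW U _ (he (faE_pe e)) _) (hW U _ (he (faE_qe e)) _)).trans
      (ENNReal.ofReal_le_ofReal (by nlinarith [sq_nonneg v]))
  I4 U f hf := by
    rw [frG_I4]
    refine ((fsemi_pG (W U)).sum _ _).trans ?_
    have h1 : ∀ p ∈ (Finset.univ : Finset (Fin 4 × Fin 4)).filter (fun p => p.1 < p.2),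
        pG (W U) (bi (ι (Finsupp.single (f, p.1) 1)) (ι (Finsupp.single (f, p.2) 1))) ≤
          ENNReal.ofReal (v ^ 2) := fun p _ =>
      pG_bi_le (W U) _ _ hv (hW U f hf _) (hW U f hf _)
    refine (Finset.sum_le_sum h1).trans ?_
    rw [Finset.sum_const, nsmul_eq_mul]
    have h2 : ((Finset.univ : Finset (Fin 4 × Fin 4)).filter (fun p => p.1 < p.2)).card = 6 := by
      decide
    rw [h2, ← ENNReal.ofReal_natCast, ← ENNReal.ofReal_mul (by norm_num)]
    refine ENNReal.ofReal_le_ofReal ?_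
    push_cast
    linarith

end frame

/-! ### 892's input norm -/

section NI
variable {G : Type} [CommRing G] [CN G] [DecidableEq G]

theorem NI_le {Γ ε : ℝ≥0∞} {x : Finset (G × G) → ℝ≥0∞}
    (h : ∀ (f : G × G) (𝒮 : Finset (Finset (G × G))),
      ∑ U ∈ 𝒮 with f ∈ U, Γ ^ U.card * x U ≤ ε) : NI Γ x ≤ ε := by
  classical
  unfold NI
  refine iSup_le fun f => ?_
  rw [ENNReal.tsum_eq_iSup_sum]
  refine iSup_le fun 𝒮 => ?_
  refine le_trans (le_of_eq ?_) (h f 𝒮)
  rw [Finset.sum_filter]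
  refine Finset.sum_congr rfl fun U _ => ?_
  by_cases hU : f ∈ U
  · rw [if_pos hU, Set.indicator_of_mem (show U ∈ {U : Finset (G × G) | f ∈ U} from hU)]
  · rw [if_neg hU, Set.indicator_of_notMem (show U ∉ {U : Finset (G × G) | f ∈ U} from hU)]

end NI

/-! ### the backgrounds -/

section bg
variable {G : Type} [CommRing G] [DecidableEq G]

theorem sqrt_sub_one_le {z : ℝ} (hz : -1 ≤ z) : |Real.sqrt (1 + z) - 1| ≤ |z| := by
  have h0 : 0 ≤ Real.sqrt (1 + z) := Real.sqrt_nonneg _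
  have h1 : Real.sqrt (1 + z) * Real.sqrt (1 + z) = 1 + z :=
    Real.mul_self_sqrt (by linarith)
  have h2 : (Real.sqrt (1 + z) - 1) * (Real.sqrt (1 + z) + 1) = z := by ring_nf; nlinarith
  calc |Real.sqrt (1 + z) - 1| ≤ |Real.sqrt (1 + z) - 1| * (Real.sqrt (1 + z) + 1) := by
        nlinarith [abs_nonneg (Real.sqrt (1 + z) - 1)]
    _ = |(Real.sqrt (1 + z) - 1) * (Real.sqrt (1 + z) + 1)| := by
        rw [abs_mul, abs_of_nonneg (by linarith : 0 ≤ Real.sqrt (1 + z) + 1)]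
    _ = |z| := by rw [h2]

theorem sqrt_sub_sqrt_le {z z' : ℝ} (hz : |z| ≤ 1 / 2) (hz' : |z'| ≤ 1 / 2) :
    |Real.sqrt (1 + z) - Real.sqrt (1 + z')| ≤ |z - z'| := by
  rw [abs_le] at hz hz'
  have h1 : Real.sqrt (1 + z) * Real.sqrt (1 + z) = 1 + z :=
    Real.mul_self_sqrt (by linarith)
  have h1' : Real.sqrt (1 + z') * Real.sqrt (1 + z') = 1 + z' :=
    Real.mul_self_sqrt (by linarith)
  have g1 : 1 / 2 ≤ Real.sqrt (1 + z) := by
    rw [show (1 / 2 : ℝ) = Real.sqrt (1 / 4) by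
      rw [show (1 / 4 : ℝ) = (1 / 2) ^ 2 by norm_num, Real.sqrt_sq (by norm_num)]]
    exact Real.sqrt_le_sqrt (by linarith)
  have g2 : 1 / 2 ≤ Real.sqrt (1 + z') := by
    rw [show (1 / 2 : ℝ) = Real.sqrt (1 / 4) by
      rw [show (1 / 4 : ℝ) = (1 / 2) ^ 2 by norm_num, Real.sqrt_sq (by norm_num)]]
    exact Real.sqrt_le_sqrt (by linarith)
  have h2 : (Real.sqrt (1 + z) - Real.sqrt (1 + z')) * (Real.sqrt (1 + z) + Real.sqrt (1 + z')) =
      z - z' := by ring_nf; nlinarith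
  calc |Real.sqrt (1 + z) - Real.sqrt (1 + z')|
      ≤ |Real.sqrt (1 + z) - Real.sqrt (1 + z')| *
          (Real.sqrt (1 + z) + Real.sqrt (1 + z')) := by
        nlinarith [abs_nonneg (Real.sqrt (1 + z) - Real.sqrt (1 + z'))]
    _ = |(Real.sqrt (1 + z) - Real.sqrt (1 + z')) *
          (Real.sqrt (1 + z) + Real.sqrt (1 + z'))| := by
        rw [abs_mul, abs_of_nonneg (by linarith : 0 ≤ Real.sqrt (1 + z) + Real.sqrt (1 + z'))]
    _ = |z - z'| := by rw [h2]

/-- the parameters are at most `θ` -/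
structure PLe (P : MPar) (θ : ℝ) : Prop where
  θ0 : 0 ≤ θ
  θ1 : θ ≤ 1 / 2
  z : |P.z| ≤ θ
  t : ∀ S ∈ Can P.R, Even S.card → |P.t S| ≤ θ

/-- the difference of the parameters is at most `δ` -/
structure PSub (P P' : MPar) (δ : ℝ) : Prop where
  R : P'.R = P.R
  z : |P.z - P'.z| ≤ δ
  t : ∀ S ∈ Can P.R, Even S.card → |P.t S - P'.t S| ≤ δ

theorem bhyp_bk {κ : Type} {A : Type*} [CommRing A] [Algebra ℝ A] (B : Bg G) {P : MPar} {θ : ℝ}
    (hw : ∀ z j, |B.w z j| ≤ 1) (hP : PLe P θ) (src : Srcs κ G A) : BHyp (B.bk P src) θ where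
  θ0 := hP.θ0
  θ1 := by linarith [hP.θ1]
  y e := hw _ _
  s f := by
    change |B.sc P f - 1| ≤ θ
    unfold Bg.sc
    split_ifs
    · have := hP.z
      have h1 := hP.θ1
      rw [abs_le] at this
      exact (sqrt_sub_one_le (by linarith)).trans hP.z
    · rw [sub_self, abs_zero]; exact hP.θ0
  t S hS hev := hP.t S hS hev

theorem same_bk {κ : Type} {A : Type*} [CommRing A] [Algebra ℝ A] (B : Bg G) {P P' : MPar}
    (h : P'.R = P.R) (src : Srcs κ G A) : Same (B.bk P src) (B.bk P' src) where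
  R := h
  Ys := rfl
  y := rfl
  as := rfl
  Fs := rfl
  ok := by
    change B.ok P'.R = B.ok P.R
    rw [h]

theorem sc_sub_le (B : Bg G) {P P' : MPar} {θ δ : ℝ} (hP : PLe P θ) (hP' : PLe P' θ)
    (h : PSub P P' δ) (f : G × G) : |B.sc P f - B.sc P' f| ≤ δ := by
  unfold Bg.sc
  split_ifs
  · exact (sqrt_sub_sqrt_le (hP.z.trans hP.θ1) (hP'.z.trans hP'.θ1)).trans h.z
  · rw [sub_self, abs_zero]; exact (abs_nonneg _).trans h.z

theorem shyp_no {A : Type*} [CommRing A] [Algebra ℝ A] (B : Bk G (Fin 0) A)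
    (N : Finset (G × G) → A → ℝ≥0∞) (c Γ : ℝ) : SHyp B N c Γ 0 (fun _ => 0) (fun _ => 0) where
  αt k := k.elim0
  φt k := k.elim0
  a k := k.elim0
  F k := k.elim0
  card k := k.elim0
  tot f := by simp

variable [CN G]

/-- the constant `c` of the norms -/
def cN (a : ℝ) (r : ℕ) : ℝ := 1 + 6 * (a * Real.sqrt r) ^ 2

theorem cN_one (a : ℝ) (r : ℕ) : 1 ≤ cN a r := by unfold cN; nlinarith [sq_nonneg (a * √r)]

theorem nhyp_wU (w : BW G) {a : ℝ} (ha : 0 ≤ a) (r : ℕ) :
    NHyp (frG (LinearMap.id : Fld G →ₗ[ℝ] Fld G)) (fun U x => pG (wU w a r U) x) (cN a r) :=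
  nhyp_frG LinearMap.id (fun U => wU w a r U) (by positivity)
    fun _ _ hf _ => wU_single_le w ha r hf

variable (B : Bg G) (w : BW G) {P P' : MPar} {θ δ Γ a : ℝ} {r : ℕ}

/-- **norm of the initial activities** (no sources) -/
theorem K00_NI (hw : ∀ z j, |B.w z j| ≤ 1) (hP : PLe P θ) (ha : 0 ≤ a) (hΓ : 1 ≤ Γ)
    (hsm : 4 * (Kc P.R Γ (cN a r) * θ) * m0 P.R ≤ 1) :
    NI (ENNReal.ofReal Γ) (fun U => pG (wU w a r U)
      (B.K00 P LinearMap.id (noSrc G (Ge (Fld G))) U)) ≤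
      ENNReal.ofReal (2 * (Kc P.R Γ (cN a r) * θ)) := by
  refine NI_le fun f 𝒮 => ?_
  have h := K0_bound (B := B.bk P (noSrc G (Ge (Fld G)))) (nhyp_wU w ha r)
    (bhyp_bk B hw hP _) hΓ le_rfl (shyp_no _ _ _ _) (by rw [add_zero]; exact hsm) f 𝒮
  rw [add_zero] at h
  exact h




end bg

/-! ### the weights are at most one -/

theorem xc_le_one : xc ≤ 1 := by
  unfold xc
  have h : Real.sqrt 2 ≤ 2 := by
    rw [Real.sqrt_le_left (by norm_num)]; norm_num
  linarith

theorem xc_nonneg : 0 ≤ xc := by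
  unfold xc
  have : 1 ≤ Real.sqrt 2 := by
    rw [Real.one_le_sqrt]; norm_num
  linarith

theorem wPl_le {G : Type} (z : G × G) (j : Fin 2) : |wPl G z j| ≤ 1 := by
  unfold wPl
  rw [abs_of_nonneg xc_nonneg]
  exact xc_le_one





/-! ### the parameters of the perturbed Ising model -/

/-- sup of the potential -/
def Vs (R : ℕ) (V : Finset (ℤ × ℤ) → ℝ) : ℝ := ∑ S ∈ Can (max R 1), |V S|

theorem Vs_nonneg (R : ℕ) (V : Finset (ℤ × ℤ) → ℝ) : 0 ≤ Vs R V :=
  Finset.sum_nonneg fun _ _ => abs_nonneg _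

theorem le_Vs {R : ℕ} {V : Finset (ℤ × ℤ) → ℝ} {S : Finset (ℤ × ℤ)} (hS : S ∈ Can (max R 1)) :
    |V S| ≤ Vs R V := Finset.single_le_sum (f := fun S => |V S|) (fun _ _ => abs_nonneg _) hS

theorem tpot_abs_le {J lam β : ℝ} {R : ℕ} {V : Finset (ℤ × ℤ) → ℝ} {S : Finset (ℤ × ℤ)}
    (hS : S ∈ Can (max R 1)) :
    |tpot J lam β V S| ≤ |β| * |lam| * Vs R V + |β - criticalBeta J| * |J| := by
  classical
  unfold tpot
  refine (abs_add_le _ _).trans (add_le_add ?_ ?_)
  · rw [abs_mul, abs_mul]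
    exact mul_le_mul_of_nonneg_left (le_Vs hS) (by positivity)
  · rw [abs_mul, abs_mul]
    split_ifs
    · rw [abs_one, mul_one]
    · rw [abs_zero, mul_zero]; positivity


/-- **size of the parameters** -/
theorem mpar_le {J lam β z θ : ℝ} {R : ℕ} {V : Finset (ℤ × ℤ) → ℝ} (hθ : θ ≤ 1 / 2)
    (h : |β| * |lam| * Vs R V + |β - criticalBeta J| * |J| + |z| ≤ θ) :
    PLe (mpar J lam R V β z) θ := by
  have h1 : 0 ≤ |β| * |lam| * Vs R V := mul_nonneg (by positivity) (Vs_nonneg R V)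
  have h2 : 0 ≤ |β - criticalBeta J| * |J| := by positivity
  have h3 := abs_nonneg z
  exact ⟨by linarith, hθ, by change |z| ≤ θ; linarith,
    fun S hS _ => (tpot_abs_le hS).trans (by linarith)⟩


end Crest.Agent.R165.J4K0Nx126
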