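import Crest.Agent.R165.Out_683
import Crest.Agent.R165.J4K0B_126
import Crest.Agent.R165.InitN_682
import Crest.Agent.R165.J4K0N_126

-- ▼ part R165/C0a_950
section

/-!
# Row 165 (S0250): the hypotheses of the initial bounds for all backgrounds (helper950)

* `W1 w`     : the weights are at most one; `W1_pl`, `W1_br`, `W1_dom`, `W1_tor`
* `sc_sub`   : `|B.sc P f - 1| ≤ |z|`
* `CT J R V` : constant of `tpot`; `tpot_le`
* `bhyp`     : 126's `BHyp` for every background of 683
* `shyp_no`, `shyp_real`, `shyp_bond` : 126's `SHyp` for the sources of 683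
-/

set_option autoImplicit false
set_option linter.unusedSectionVars false

noncomputable section

open Finset
open scoped ENNReal
open Crest.ProbabilityR.IsingModel
open Crest.Agent.R165.Gr0x606 Crest.Agent.R165.Gr1x606 Crest.Agent.R165.GeOpsx337
open Crest.Agent.R165.GDefx387 Crest.Agent.R165.GSysx387 Crest.Agent.R165.KFlowx337
open Crest.Agent.R165.SrcDefx991 Crest.Agent.R165.TorChartx723
open Crest.Agent.R165.J4K0x126 Crest.Agent.R165.J4Geox126 Crest.Agent.R165.J4K0Bx126
open Crest.Agent.R165.J4Datx126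
open Crest.Agent.R165.J4Defx653
open Crest.Agent.R165.J4RRx653
open Crest.Agent.R165.J1ax606 (pe qe)
open Crest.Agent.R165.Latx683 (xc wPl wDom wX BW HE Fld ray)
open Crest.Agent.R165.Bkgx683 Crest.Agent.R165.PEndx683 Crest.Agent.R165.Outx683

namespace Crest.Agent.R165.C0ax950

/-! ### weights -/

/-- the weights are at most one -/
def W1 {G : Type} (w : BW G) : Prop := ∀ z j, |w z j| ≤ 1

theorem xc_abs : |xc| ≤ 1 := by
  have h1 : 1 ≤ Real.sqrt 2 := Real.one_le_sqrt.2 (by norm_num)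
  have h2 : Real.sqrt 2 ≤ 2 := by
    rw [Real.sqrt_le_left (by norm_num)]; norm_num
  unfold xc
  rw [abs_of_nonneg (by linarith)]
  linarith

theorem W1_wPl (G : Type) : W1 (wPl G) := fun _ _ => xc_abs

theorem W1_wDom (T : Set (ℤ × ℤ)) (free : Bool) : W1 (wDom T free) := by
  intro z j
  unfold wDom
  split_ifs
  · exact xc_abs
  · simp
  · exact xc_abs
  · simp

theorem abs_ray {n : ℕ} (X : Fin n → ℤ × ℤ) (z : ℤ × ℤ) (j : Fin 2) : |ray X z j| = 1 := by
  unfold ray
  rw [Finset.abs_prod]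
  refine Finset.prod_eq_one fun i _ => ?_
  split_ifs <;> simp

theorem W1_wX {n : ℕ} {w : BW ℤ} (h : W1 w) (X : Fin n → ℤ × ℤ) : W1 (wX w X) := by
  intro z j
  unfold wX
  rw [abs_mul, abs_ray, one_mul]
  exact h z j

theorem W1_wTor (M : ℕ) {ε₁ ε₂ : ℝ} (h1 : |ε₁| ≤ 1) (h2 : |ε₂| ≤ 1) : W1 (wTor M ε₁ ε₂) := by
  intro z j
  unfold wTor
  rw [abs_mul]
  have h : |(if j = 1 then (if z.1 = 0 then ε₁ else 1) else (if z.2 = 0 then ε₂ else 1))| ≤ 1 := by
    split_ifs
    · exact h1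
    · simp
    · exact h2
    · simp
  calc _ ≤ 1 * 1 := mul_le_mul h xc_abs (abs_nonneg _) (by norm_num)
    _ = 1 := one_mul 1

theorem W1_pl : W1 Bg.pl.w := W1_wPl ℤ


theorem W1_dom (T : Finset (ℤ × ℤ)) (b : BoundaryCondition) {n : ℕ} (X : Fin n → ℤ × ℤ) :
    W1 (Bg.dom T b X).w := W1_wX (W1_wDom _ _) X

theorem W1_tor (M : ℕ) {ε₁ ε₂ : ℝ} (h1 : |ε₁| ≤ 1) (h2 : |ε₂| ≤ 1) : W1 (Bg.tor M ε₁ ε₂).w :=
  W1_wTor M h1 h2

/-! ### rescaling -/

theorem abs_sqrt_sub_one (z : ℝ) (hz : -1 ≤ z) : |Real.sqrt (1 + z) - 1| ≤ |z| := by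
  have h0 : 0 ≤ Real.sqrt (1 + z) := Real.sqrt_nonneg _
  have h1 : Real.sqrt (1 + z) * Real.sqrt (1 + z) = 1 + z := Real.mul_self_sqrt (by linarith)
  have h2 : (Real.sqrt (1 + z) - 1) * (Real.sqrt (1 + z) + 1) = z := by
    calc _ = Real.sqrt (1 + z) * Real.sqrt (1 + z) - 1 := by ring
      _ = z := by rw [h1]; ring
  have h3 : |Real.sqrt (1 + z) - 1| * |Real.sqrt (1 + z) + 1| = |z| := by rw [← abs_mul, h2]
  rw [← h3]
  refine le_mul_of_one_le_right (abs_nonneg _) ?_
  rw [abs_of_nonneg (by linarith)]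
  linarith

theorem sc_sub {G : Type} [CommRing G] [DecidableEq G] (B : Bg G) {P : MPar} (hz : -1 ≤ P.z)
    (f : G × G) : |B.sc P f - 1| ≤ |P.z| := by
  unfold Bg.sc
  split_ifs
  · exact abs_sqrt_sub_one _ hz
  · simp

/-! ### the potential -/

/-- bound of the potential on the canonical shapes -/
def VM (R : ℕ) (V : Finset (ℤ × ℤ) → ℝ) : ℝ := ∑ S ∈ Can R, |V S|

theorem VM_nonneg (R : ℕ) (V : Finset (ℤ × ℤ) → ℝ) : 0 ≤ VM R V :=
  Finset.sum_nonneg fun _ _ => abs_nonneg _

/-- the constant of `tpot_le` -/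
def CT (J : ℝ) (R : ℕ) (V : Finset (ℤ × ℤ) → ℝ) : ℝ :=
  (|criticalBeta J| + 1) * VM (max R 1) V + |J| + 1

theorem one_le_CT (J : ℝ) (R : ℕ) (V : Finset (ℤ × ℤ) → ℝ) : 1 ≤ CT J R V := by
  unfold CT
  have := VM_nonneg (max R 1) V
  have : 0 ≤ (|criticalBeta J| + 1) * VM (max R 1) V := by positivity
  linarith [abs_nonneg J]

theorem tpot_le {J lam β : ℝ} {R : ℕ} {V : Finset (ℤ × ℤ) → ℝ} (hβ : |β - criticalBeta J| ≤ 1)
    {S : Finset (ℤ × ℤ)} (hS : S ∈ Can (max R 1)) :
    |tpot J lam β V S| ≤ CT J R V * (|lam| + |β - criticalBeta J|) := by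
  classical
  have hV : |V S| ≤ VM (max R 1) V :=
    Finset.single_le_sum (f := fun S => |V S|) (fun _ _ => abs_nonneg _) hS
  have hb : |β| ≤ |criticalBeta J| + 1 := by
    have : β = criticalBeta J + (β - criticalBeta J) := by ring
    calc |β| = |criticalBeta J + (β - criticalBeta J)| := by rw [← this]
      _ ≤ |criticalBeta J| + |β - criticalBeta J| := abs_add_le _ _
      _ ≤ _ := by linarith
  have h1 : |β * lam * V S| ≤ (|criticalBeta J| + 1) * VM (max R 1) V * |lam| := by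
    rw [abs_mul, abs_mul]
    calc |β| * |lam| * |V S| ≤ (|criticalBeta J| + 1) * |lam| * VM (max R 1) V := by gcongr
      _ = _ := by ring
  have h2 : |(β - criticalBeta J) * J * (if J4Defx653.IsNN S then 1 else 0)| ≤
      |J| * |β - criticalBeta J| := by
    rw [abs_mul, abs_mul]
    have h3 : |(if J4Defx653.IsNN S then (1 : ℝ) else 0)| ≤ 1 := by split_ifs <;> simp
    calc |β - criticalBeta J| * |J| * |(if J4Defx653.IsNN S then (1 : ℝ) else 0)|
        ≤ |β - criticalBeta J| * |J| * 1 := by gcongr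
      _ = _ := by ring
  have h4 := VM_nonneg (max R 1) V
  have h5 : 0 ≤ (|criticalBeta J| + 1) * VM (max R 1) V := by positivity
  unfold tpot
  refine (abs_add_le _ _).trans ((add_le_add h1 h2).trans ?_)
  unfold CT
  have h6 := abs_nonneg lam
  have h7 := abs_nonneg (β - criticalBeta J)
  have h8 := abs_nonneg J
  nlinarith [mul_nonneg h5 h7, mul_nonneg h8 h6]

/-- the small parameter -/
def tht (J lam β z : ℝ) : ℝ := |lam| + |β - criticalBeta J| + |z|

theorem tht_nonneg (J lam β z : ℝ) : 0 ≤ tht J lam β z := by unfold tht; positivity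

section bhyp

variable {G : Type} [CommRing G] [DecidableEq G] {κ : Type} {A : Type*} [CommRing A] [Algebra ℝ A]

/-- **126's hypothesis for every background** -/
theorem bhyp {J lam β z : ℝ} {R : ℕ} {V : Finset (ℤ × ℤ) → ℝ} {B : Bg G} (hw : W1 B.w)
    (h : CT J R V * tht J lam β z ≤ 1) (src : Srcs κ G A) :
    BHyp (B.bk (mpar J lam R V β z) src) (CT J R V * tht J lam β z) := by
  have hC := one_le_CT J R V
  have h0 := tht_nonneg J lam β z
  have h1 : tht J lam β z ≤ 1 := by nlinarith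
  have h2 : tht J lam β z ≤ CT J R V * tht J lam β z := by nlinarith
  have hl := abs_nonneg lam
  have hb := abs_nonneg (β - criticalBeta J)
  have hz := abs_nonneg z
  have hz1 : |z| ≤ tht J lam β z := by unfold tht; linarith
  have hb1 : |β - criticalBeta J| ≤ tht J lam β z := by unfold tht; linarith
  refine ⟨by positivity, h, fun e => hw _ _, fun f => ?_, fun S hS _ => ?_⟩
  · have hz2 : -1 ≤ z := by linarith [(abs_le.1 (hz1.trans h1)).1]
    exact (sc_sub B (P := mpar J lam R V β z) hz2 f).trans (hz1.trans h2)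
  · refine (tpot_le (hb1.trans h1) hS).trans ?_
    exact mul_le_mul_of_nonneg_left (by unfold tht; linarith) (by linarith)

end bhyp

end Crest.Agent.R165.C0ax950

end
end

-- ▼ part R165/C0_950

/-!
# Row 165 (S0250): the norms of the initial activities of all the flows (helper950)

* `COK c`    : the conditions on the constants (`evC_COK`)
* `C0c R c`, `D0c R c` : the explicit constants (functions of the range and of `c` only)
* `c0_gen`   : any frame, any family of norms, any sources (682's `init_NN`)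
* `c0_fl`    : the flow `fl c P B` of every background with weights at most one,
  `NK (K 0) ≤ C (|lam| + |β - β_c| + |z|)`, also `c0_fl_lip` (two parameters `(lam, β, z)`)
* `c0_flS`   : the flow with bond sources in the norms `pG (wS (wU w a r U) v)`
* `c0_ev`    : the same with the filters of `ForP`
-/

set_option autoImplicit false
set_option linter.unusedSectionVars false

noncomputable section

open Finset Filter Topology
open scoped ENNReal
open Crest.ProbabilityR.IsingModel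
open Crest.Agent.R165.Gr0x606 Crest.Agent.R165.Gr1x606 Crest.Agent.R165.GeOpsx337
open Crest.Agent.R165.GDefx387 Crest.Agent.R165.GSysx387 Crest.Agent.R165.KFlowx337
open Crest.Agent.R165.SrcDefx991 Crest.Agent.R165.TorChartx723
open Crest.Agent.R165.J4K0x126 Crest.Agent.R165.J4Geox126 Crest.Agent.R165.J4K0Bx126
open Crest.Agent.R165.J4Datx126
open Crest.Agent.R165.J4Defx653
open Crest.Agent.R165.J4RRx653
open Crest.Agent.R165.J1ax606 (pe qe)
open Crest.Agent.R165.Latx683 (xc wPl wDom wX BW HE Fld ray)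
open Crest.Agent.R165.Bkgx683 Crest.Agent.R165.PEndx683 Crest.Agent.R165.Outx683
open Crest.Agent.R165.C0ax950 Crest.Agent.R165.InitNx682 Crest.Agent.R165.KInitx892
open Crest.Agent.R165.NSumx915 Crest.Agent.R165.Bridgex915 Crest.Agent.R165.Quad2x897
open Crest.Agent.R165.PNormx417 Crest.Agent.R165.BgIsox432 Crest.Agent.R165.Quadx897
open Crest.Agent.R165.J4K0Nx126 (PLe PSub same_bk sc_sub_le)

namespace Crest.Agent.R165.C0x950

/-! ### the constants -/

/-- the conditions on the constants -/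
structure COK (c : Cst) : Prop where
  Γ : 3 ≤ c.Γ
  A : 0 ≤ c.A0
  r : 6 ≤ rr c.p c.k0 0

theorem evC_COK : EvC COK := by
  filter_upwards [eventually_ge_atTop 1] with p hp
  filter_upwards [eventually_ge_atTop (3 : ℝ)] with Γ hΓ
  filter_upwards [eventually_ge_atTop 3] with k0 hk0
  filter_upwards [eventually_ge_atTop (0 : ℝ)] with A0 hA
  refine Eventually.of_forall fun δ => ⟨hΓ, hA, ?_⟩
  change 6 ≤ 2 ^ (p * (k0 + 0))
  have h3 : 3 ≤ p * (k0 + 0) := by nlinarith
  calc 6 ≤ 2 ^ 3 := by norm_num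
    _ ≤ 2 ^ (p * (k0 + 0)) := Nat.pow_le_pow_right (by norm_num) h3

/-- the first scale -/
abbrev r0 (c : Cst) : ℕ := rr c.p c.k0 0

/-- the constant `c` of the norms -/
abbrev cc0 (c : Cst) : ℝ := cB c.A0 (r0 c)

/-- the constant of the total weight at a face -/
abbrev KA (R : ℕ) (c : Cst) : ℝ := Kc R c.Γ (cc0 c)

/-- the constant of the smallness condition -/
def D0c (R : ℕ) (c : Cst) : ℝ := 4 * m0 R + mI (r0 c) (nearR c.p c.k0 0) * (24 * nI (r0 c))

theorem D0c_nonneg (R : ℕ) (c : Cst) : 0 ≤ D0c R c := by unfold D0c; positivity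

theorem KA_nonneg (R : ℕ) {c : Cst} (hc : COK c) : 0 ≤ KA R c :=
  Kc_nonneg R (by linarith [hc.Γ]) (one_le_cB _ _)

theorem num {R : ℕ} {c : Cst} (hc : COK c) {θ εs : ℝ} (hθ : 0 ≤ θ) (hεs : 0 ≤ εs)
    (h : D0c R c * (KA R c * θ + εs) ≤ 1) :
    Num R (r0 c) 1 (nearR c.p c.k0 0) c.Γ (cc0 c) θ εs := by
  have hK := KA_nonneg R hc
  have hs : 0 ≤ KA R c * θ + εs := by positivity
  unfold D0c at h
  refine ⟨hc.Γ, le_rfl, hc.r, hεs, ?_, ?_⟩
  · unfold SS
    have h1 : 0 ≤ (mI (r0 c) (nearR c.p c.k0 0) * (24 * nI (r0 c)) : ℝ) *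
        (KA R c * θ + εs) := by positivity
    have h2 : (4 * m0 R : ℝ) * (KA R c * θ + εs) ≤ 1 := by linarith
    linarith
  · unfold SS
    have h1 : 0 ≤ (4 * m0 R : ℝ) * (KA R c * θ + εs) := by positivity
    have h2 : (mI (r0 c) (nearR c.p c.k0 0) * (24 * nI (r0 c)) : ℝ) *
        (KA R c * θ + εs) ≤ 1 := by linarith
    linarith

/-! ### the general bound -/

section gen

variable {G : Type} [CommRing G] [CN G] [GoodG G] [DecidableEq G]
variable {A : Type*} [CommRing A] [Algebra ℝ A] {κ : Type*} [DecidableEq κ] [Fintype κ]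
variable {fr : Fr G A} {B B' : Bk G κ A} {nm : Finset (G × G) → A → ℝ≥0∞} {θ εs : ℝ}
variable {α φ : κ → ℝ≥0∞}

theorem c0_gen {c : Cst} (hc : COK c) (hN : NHyp fr nm (cc0 c)) (hF : NormFam nm)
    (hB : BHyp B θ) (hεs : 0 ≤ εs) (hS : SHyp B nm (cc0 c) c.Γ εs α φ)
    (hk : ∀ k, Packx915.Conn fd 1 (B.Ys k)) (h : D0c B.R c * (KA B.R c * θ + εs) ≤ 1) :
    NN fd (r0 c) (ENNReal.ofReal c.Γ)
      (fun U => nm U (K1 (near c.p c.k0 0) (B.K0 fr) U)) ≤
      ENNReal.ofReal (8 * nI (r0 c) * (KA B.R c * θ + εs)) :=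
  init_NN hN hF hB hS hk (num hc hB.θ0 hεs h)

end gen

/-! ### no sources -/

section nosrc

variable {G : Type} [CommRing G] [CN G] [GoodG G] [CNZ G] [DecidableEq G]

theorem shyp_no {A : Type*} [CommRing A] [Algebra ℝ A] (B : Bk G (Fin 0) A)
    (N : Finset (G × G) → A → ℝ≥0∞) (c Γ : ℝ) : SHyp B N c Γ 0 (fun _ => 0) (fun _ => 0) where
  αt k := k.elim0
  φt k := k.elim0
  a k := k.elim0
  F k := k.elim0
  card k := k.elim0
  tot f := by simp

/-- `NK` from `NN` -/
theorem NK_le_of_NN {w : BW G} {a : ℝ} {r : ℕ} {Γ ε : ℝ≥0∞}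
    {K : Finset (G × G) → Ge (Fld G)} (h : NN fd r Γ (fun U => pG (wU w a r U) (K U)) ≤ ε)
    (p : Finset (G × G) → Prop) : NK w a r Γ p (fun U => (K U : Gr (Fld G))) ≤ ε :=
  (NK_le_NN w a r Γ p K).trans h

/-- the constant of the initial norm -/
def C0c (J : ℝ) (R : ℕ) (V : Finset (ℤ × ℤ) → ℝ) (c : Cst) : ℝ :=
  8 * nI (r0 c) * (KA (max R 1) c * CT J R V)

theorem C0c_nonneg (J : ℝ) (R : ℕ) (V : Finset (ℤ × ℤ) → ℝ) {c : Cst} (hc : COK c) :
    0 ≤ C0c J R V c := by
  have h1 := KA_nonneg (max R 1) hc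
  have h2 := one_le_CT J R V
  unfold C0c
  positivity

/-- smallness of the parameters -/
structure Sm (J : ℝ) (R : ℕ) (V : Finset (ℤ × ℤ) → ℝ) (c : Cst) (x : ℝ) : Prop where
  half : CT J R V * x ≤ 1 / 2
  D : D0c (max R 1) c * (KA (max R 1) c * (CT J R V * x)) ≤ 1

theorem Sm.mono {J : ℝ} {R : ℕ} {V : Finset (ℤ × ℤ) → ℝ} {c : Cst} (hc : COK c) {x x' : ℝ}
    (h : Sm J R V c x') (hx : x ≤ x') : Sm J R V c x := by
  have h1 := KA_nonneg (max R 1) hc
  have h2 := one_le_CT J R V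
  have h3 := D0c_nonneg (max R 1) c
  exact ⟨(mul_le_mul_of_nonneg_left hx (by linarith)).trans h.half,
    (mul_le_mul_of_nonneg_left (mul_le_mul_of_nonneg_left
      (mul_le_mul_of_nonneg_left hx (by linarith)) h1) h3).trans h.D⟩

/-- the size of the small parameters: a function of the range, the potential and `c` only -/
def e0c (J : ℝ) (R : ℕ) (V : Finset (ℤ × ℤ) → ℝ) (c : Cst) : ℝ :=
  1 / (2 * CT J R V * (1 + D0c (max R 1) c * KA (max R 1) c))

theorem e0c_pos (J : ℝ) (R : ℕ) (V : Finset (ℤ × ℤ) → ℝ) {c : Cst} (hc : COK c) :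
    0 < e0c J R V c := by
  have h1 := KA_nonneg (max R 1) hc
  have h2 := one_le_CT J R V
  have h3 := D0c_nonneg (max R 1) c
  unfold e0c
  positivity

theorem sm_e0c (J : ℝ) (R : ℕ) (V : Finset (ℤ × ℤ) → ℝ) {c : Cst} (hc : COK c) :
    Sm J R V c (e0c J R V c) := by
  have h1 := KA_nonneg (max R 1) hc
  have h2 := one_le_CT J R V
  have h3 := D0c_nonneg (max R 1) c
  have h4 : 0 < CT J R V := by linarith
  have h5 : 0 ≤ D0c (max R 1) c * KA (max R 1) c := mul_nonneg h3 h1
  have h6 : CT J R V * e0c J R V c = 1 / (2 * (1 + D0c (max R 1) c * KA (max R 1) c)) := by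
    unfold e0c
    field_simp
  refine ⟨?_, ?_⟩
  · rw [h6, div_le_div_iff₀ (by linarith) (by norm_num)]
    linarith
  · rw [h6, ← mul_assoc, mul_one_div, div_le_one (by linarith)]
    linarith

theorem sm_of {J : ℝ} {R : ℕ} {V : Finset (ℤ × ℤ) → ℝ} {c : Cst} (hc : COK c) {x : ℝ}
    (hx : x ≤ e0c J R V c) : Sm J R V c x := (sm_e0c J R V hc).mono hc hx


/-- **the initial norm without sources** in any family of norms -/
theorem c0_NN {J : ℝ} {R : ℕ} {V : Finset (ℤ × ℤ) → ℝ} {c : Cst} (hc : COK c) {lam β z : ℝ}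
    (h : Sm J R V c (tht J lam β z)) (B : Bg G) (hw : W1 B.w) (w : BW G) :
    NN fd (r0 c) (ENNReal.ofReal c.Γ) (fun U => pG (wU w c.A0 (r0 c) U)
      (B.K0 (mpar J lam R V β z) LinearMap.id (noSrc G (Ge (Fld G))) c.p c.k0 U)) ≤
      ENNReal.ofReal (C0c J R V c * tht J lam β z) := by
  have key := c0_gen (B := B.bk (mpar J lam R V β z) (noSrc G (Ge (Fld G)))) hc
    (nhyp_id w hc.A (r0 c)) (normFam_pG w c.A0 (r0 c)) (bhyp hw (by linarith [h.half]) _) le_rfl
    (shyp_no _ _ _ _) (fun k => k.elim0) (by rw [add_zero]; exact h.D)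
  refine le_trans key (le_of_eq ?_)
  congr 1
  rw [add_zero]
  change 8 * nI (r0 c) * (KA (max R 1) c * (CT J R V * tht J lam β z)) = _
  unfold C0c
  ring

/-- **THE INITIAL NORM OF THE FLOW OF A BACKGROUND WITHOUT SOURCE** -/
theorem c0_fl {J : ℝ} {R : ℕ} {V : Finset (ℤ × ℤ) → ℝ} {c : Cst} (hc : COK c) {lam β z : ℝ}
    (h : Sm J R V c (tht J lam β z)) (B : Bg G) (hw : W1 B.w) (w : BW G)
    (p : Finset (G × G) → Prop) :
    NK w c.A0 (rr c.p c.k0 0) (ENNReal.ofReal c.Γ) p
      (fun U => (((fl c (mpar J lam R V β z) B).K 0 U : Ge (Fld G)) : Gr (Fld G))) ≤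
      ENNReal.ofReal (C0c J R V c * tht J lam β z) :=
  NK_le_of_NN (c0_NN hc h B hw w) p

/-! ### two parameters -/

/-- the distance of two parameters -/
def dp (lam β z lam' β' z' : ℝ) : ℝ := |lam - lam'| + |β - β'| + |z - z'|



theorem ple {J : ℝ} {R : ℕ} {V : Finset (ℤ × ℤ) → ℝ} {c : Cst} {lam β z : ℝ}
    (h : Sm J R V c (tht J lam β z)) :
    PLe (mpar J lam R V β z) (CT J R V * tht J lam β z) := by
  have hC := one_le_CT J R V
  have h0 := tht_nonneg J lam β z
  have h2 : tht J lam β z ≤ CT J R V * tht J lam β z := by nlinarith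
  have hl := abs_nonneg lam
  have hb := abs_nonneg (β - criticalBeta J)
  have hz := abs_nonneg z
  have hz1 : |z| ≤ tht J lam β z := by unfold tht; linarith
  have hb1 : |β - criticalBeta J| ≤ tht J lam β z := by unfold tht; linarith
  have h3 := h.half
  refine ⟨by positivity, h3, hz1.trans h2, fun S hS _ => ?_⟩
  refine (tpot_le (by linarith) hS).trans ?_
  exact mul_le_mul_of_nonneg_left (by unfold tht; linarith) (by linarith)






end nosrc

/-! ### the filters of the constants -/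

theorem tht_le_of_near {J C lam β z : ℝ} (h : NearP J C lam β z) :
    tht J lam β z ≤ (1 + |C|) * |lam| := by
  have h1 : C * |lam| ≤ |C| * |lam| := mul_le_mul_of_nonneg_right (le_abs_self C) (abs_nonneg _)
  unfold NearP at h
  unfold tht
  linarith

/-- **c_0 in the form of `ForP`**: for all large constants, for all small `lam` and all parameters
near the critical point, for EVERY background with weights at most one (plane, branch points,
domains, torus sectors), any weight `w` of the norm and any class `p` of sets -/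
theorem c0_ev (J : ℝ) (R : ℕ) (V : Finset (ℤ × ℤ) → ℝ) : EvC fun c => ∀ C : ℝ, ∃ ε > 0, ∃ C' ≥ 0,
    ∀ lam β z : ℝ, |lam| < ε → NearP J C lam β z →
      ∀ (G : Type) [CommRing G] [CN G] [GoodG G] [CNZ G] [DecidableEq G] (B : Bg G), W1 B.w →
        ∀ (w : BW G) (p : Finset (G × G) → Prop),
          NK w c.A0 (rr c.p c.k0 0) (ENNReal.ofReal c.Γ) p
            (fun U => (((fl c (mpar J lam R V β z) B).K 0 U : Ge (Fld G)) : Gr (Fld G))) ≤
            ENNReal.ofReal (C' * |lam|) := by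
  refine evC_COK.mono fun c hc C => ?_
  have h1 : 0 < 1 + |C| := by positivity
  have h2 := e0c_pos J R V hc
  have h3 := C0c_nonneg J R V hc
  refine ⟨e0c J R V c / (1 + |C|), by positivity, C0c J R V c * (1 + |C|), by positivity, ?_⟩
  intro lam β z hl hn G _ _ _ _ _ B hw w p
  have h4 := tht_le_of_near hn
  have h5 : tht J lam β z ≤ e0c J R V c := by
    refine h4.trans ?_
    have h6 : |lam| ≤ e0c J R V c / (1 + |C|) := hl.le
    calc (1 + |C|) * |lam| ≤ (1 + |C|) * (e0c J R V c / (1 + |C|)) := by gcongr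
      _ = e0c J R V c := by field_simp
  refine (c0_fl hc (sm_of hc h5) B hw w p).trans (ENNReal.ofReal_le_ofReal ?_)
  rw [mul_assoc]
  exact mul_le_mul_of_nonneg_left h4 h3

end Crest.Agent.R165.C0x950

end
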