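import Crest.Agent.R165.Cl1_722

-- ▼ part R165/Cl2_722
section

/-!
# Row 165, block R-f: kernel integrals `∫ |z|^{-a}`, weighted Cauchy-Schwarz, weak `∂̄`
-/

open MeasureTheory Set Filter Topology Complex Metric
open scoped ENNReal NNReal ContDiff

namespace Crest.Agent.R165.Cl2x722

open Cl1x722

/-- `∫_{|z|<R} |z|^{-a} dz = 2π R^{2-a}/(2-a)`. -/
theorem lintegral_kernel_ball {a R : ℝ} (ha : a < 2) (hR : 0 ≤ R) :
    ∫⁻ z in ball (0 : ℂ) R, ENNReal.ofReal (‖z‖ ^ (-a)) =
      ENNReal.ofReal (2 * Real.pi * (R ^ (2 - a) / (2 - a))) := by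
  rw [← lintegral_indicator measurableSet_ball, ← Complex.lintegral_comp_polarCoord_symm]
  have htarget : polarCoord.target = Ioi (0 : ℝ) ×ˢ Ioo (-Real.pi) Real.pi := rfl
  rw [htarget]
  have h1 : ∫⁻ p in Ioi (0 : ℝ) ×ˢ Ioo (-Real.pi) Real.pi,
      ENNReal.ofReal p.1 • (ball (0 : ℂ) R).indicator (fun z => ENNReal.ofReal (‖z‖ ^ (-a)))
        (Complex.polarCoord.symm p) =
      ∫⁻ p in Ioi (0 : ℝ) ×ˢ Ioo (-Real.pi) Real.pi,
        (Ioo (0 : ℝ) R).indicator (fun r => ENNReal.ofReal (r ^ (1 - a))) p.1 := by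
    refine setLIntegral_congr_fun (measurableSet_Ioi.prod measurableSet_Ioo) ?_
    rintro ⟨r, t⟩ ⟨hr, -⟩
    have hr0 : (0 : ℝ) < r := hr
    have hn : ‖Complex.polarCoord.symm (r, t)‖ = r := by
      rw [Complex.norm_polarCoord_symm]; exact abs_of_pos hr0
    by_cases h : r < R
    · have hm : Complex.polarCoord.symm (r, t) ∈ ball (0 : ℂ) R := by
        rw [mem_ball_zero_iff, hn]; exact h
      have hm2 : r ∈ Ioo (0 : ℝ) R := ⟨hr0, h⟩
      simp only [indicator_of_mem hm, indicator_of_mem hm2, hn, smul_eq_mul]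
      rw [← ENNReal.ofReal_mul hr0.le]
      congr 1
      rw [sub_eq_add_neg, Real.rpow_add hr0, Real.rpow_one]
    · have hm : Complex.polarCoord.symm (r, t) ∉ ball (0 : ℂ) R := by
        rw [mem_ball_zero_iff, hn]; exact h
      have hm2 : r ∉ Ioo (0 : ℝ) R := fun hh => h hh.2
      simp only [indicator_of_notMem hm, indicator_of_notMem hm2, smul_eq_mul, mul_zero]
  rw [h1, Measure.volume_eq_prod, ← Measure.prod_restrict]
  have hmeas : Measurable ((Ioo (0 : ℝ) R).indicator (fun r : ℝ => ENNReal.ofReal (r ^ (1 - a)))) :=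
    (by fun_prop : Measurable (fun r : ℝ => ENNReal.ofReal (r ^ (1 - a)))).indicator measurableSet_Ioo
  rw [lintegral_prod (fun p : ℝ × ℝ => (Ioo (0 : ℝ) R).indicator
    (fun r : ℝ => ENNReal.ofReal (r ^ (1 - a))) p.1) (hmeas.comp measurable_fst).aemeasurable]
  simp only [lintegral_const, Measure.restrict_apply_univ]
  have hv : (volume : Measure ℝ) (Ioo (-Real.pi) Real.pi) = ENNReal.ofReal (2 * Real.pi) := by
    rw [Real.volume_Ioo]; congr 1; ring
  rw [hv, lintegral_mul_const _ hmeas, setLIntegral_indicator measurableSet_Ioo]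
  have hs : Ioo (0 : ℝ) R ∩ Ioi 0 = Ioo 0 R := by
    ext x; simp only [mem_inter_iff, mem_Ioo, mem_Ioi]; tauto
  rw [hs]
  have h2 : ∫⁻ r in Ioo (0 : ℝ) R, ENNReal.ofReal (r ^ (1 - a)) =
      ENNReal.ofReal (R ^ (2 - a) / (2 - a)) := by
    have hint : IntervalIntegrable (fun r : ℝ => r ^ (1 - a)) volume 0 R :=
      intervalIntegral.intervalIntegrable_rpow' (by linarith)
    have hIoc : IntegrableOn (fun r : ℝ => r ^ (1 - a)) (Ioc 0 R) := by
      rwa [intervalIntegrable_iff_integrableOn_Ioc_of_le hR] at hint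
    have hIoo : IntegrableOn (fun r : ℝ => r ^ (1 - a)) (Ioo 0 R) := hIoc.mono_set Ioo_subset_Ioc_self
    rw [← ofReal_integral_eq_lintegral_ofReal hIoo]
    · rw [← integral_Ioc_eq_integral_Ioo, ← intervalIntegral.integral_of_le hR,
        integral_rpow (Or.inl (by linarith))]
      congr 1
      have : (1 : ℝ) - a + 1 = 2 - a := by ring
      rw [this, Real.zero_rpow (by linarith)]; ring
    · refine (ae_restrict_iff' measurableSet_Ioo).mpr (Eventually.of_forall fun r hr => ?_)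
      exact Real.rpow_nonneg hr.1.le _
  rw [h2, ← ENNReal.ofReal_mul (div_nonneg (Real.rpow_nonneg hR _) (by linarith))]
  congr 1; ring

/-- translated version -/
theorem lintegral_kernel_ball' {a R : ℝ} (ha : a < 2) (hR : 0 ≤ R) (w : ℂ) :
    ∫⁻ z in ball w R, ENNReal.ofReal (‖z - w‖ ^ (-a)) =
      ENNReal.ofReal (2 * Real.pi * (R ^ (2 - a) / (2 - a))) := by
  rw [← lintegral_kernel_ball ha hR, ← lintegral_indicator measurableSet_ball,
    ← lintegral_indicator measurableSet_ball]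
  rw [← lintegral_sub_right_eq_self (μ := (volume : Measure ℂ)) (fun z => (ball (0 : ℂ) R).indicator
    (fun z => ENNReal.ofReal (‖z‖ ^ (-a))) z) w]
  refine lintegral_congr fun z => ?_
  by_cases h : z ∈ ball w R
  · have h' : z - w ∈ ball (0 : ℂ) R := by
      rw [mem_ball_zero_iff, ← dist_eq_norm]; exact h
    rw [indicator_of_mem h, indicator_of_mem h']
  · have h' : z - w ∉ ball (0 : ℂ) R := by
      rw [mem_ball_zero_iff, ← dist_eq_norm]; exact h
    rw [indicator_of_notMem h, indicator_of_notMem h']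



end Crest.Agent.R165.Cl2x722
end

-- ▼ part R165/Cl3_722
section

/-!
# Row 165, block R-f: Cauchy transform, representation of weak solutions of `∂̄ u = g`, Weyl lemma
-/

open MeasureTheory Set Filter Topology Complex Metric
open scoped ENNReal NNReal ContDiff Convolution

namespace Crest.Agent.R165.Cl3x722

open Cl1x722 Cl2x722

/-- `u` solves `∂̄ u = g` weakly on the open set `U`. -/
def WDbar (U : Set ℂ) (u g : ℂ → ℂ) : Prop :=
  ∀ χ : ℂ → ℂ, ContDiff ℝ ∞ χ → HasCompactSupport χ → tsupport χ ⊆ U →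
    ∫ z, (u z * dbar χ z + g z * χ z) = 0

/-- The Cauchy transform. -/
noncomputable def cau (k : ℂ → ℂ) (z : ℂ) : ℂ := (Real.pi : ℂ)⁻¹ * ∫ w, (z - w)⁻¹ * k w

lemma dbar_mul {f g : ℂ → ℂ} {z : ℂ} (hf : DifferentiableAt ℝ f z) (hg : DifferentiableAt ℝ g z) :
    dbar (fun w => f w * g w) z = dbar f z * g z + f z * dbar g z := by
  have h : fderiv ℝ (fun w => f w * g w) z = f z • fderiv ℝ g z + g z • fderiv ℝ f z :=
    fderiv_fun_mul hf hg
  simp only [dbar, h, _root_.add_apply, _root_.smul_apply, smul_eq_mul]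
  ring

lemma continuous_dbar {f : ℂ → ℂ} (hf : ContDiff ℝ 1 f) : Continuous (dbar f) := by
  have h : Continuous (fderiv ℝ f) := hf.continuous_fderiv one_ne_zero
  unfold dbar
  exact ((h.clm_apply continuous_const).add (continuous_const.mul (h.clm_apply continuous_const))).div_const _

lemma dbar_zero_of_notMem {f : ℂ → ℂ} {z : ℂ} (hz : z ∉ tsupport f) : dbar f z = 0 := by
  have : fderiv ℝ f z = 0 := by
    by_contra h
    exact hz (support_fderiv_subset ℝ h)
  simp [dbar, this]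

/-- bounded integrable functions against the Cauchy kernel, uniformly in the pole -/
lemma lintegral_kernel_bdd {φ : ℂ → ℂ} {M : ℝ} (hM : ∀ z, ‖φ z‖ ≤ M) (w : ℂ) :
    ∫⁻ z, ‖(z - w)⁻¹ * φ z‖ₑ ≤ ENNReal.ofReal (2 * Real.pi) * ENNReal.ofReal M + ∫⁻ z, ‖φ z‖ₑ := by
  have hM0 : 0 ≤ M := (norm_nonneg _).trans (hM 0)
  rw [← lintegral_add_compl (fun z => ‖(z - w)⁻¹ * φ z‖ₑ) (measurableSet_ball (x := w) (ε := 1))]
  refine add_le_add ?_ ?_
  · calc ∫⁻ z in ball w 1, ‖(z - w)⁻¹ * φ z‖ₑ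
        ≤ ∫⁻ z in ball w 1, ENNReal.ofReal (‖z - w‖ ^ (-(1 : ℝ))) * ENNReal.ofReal M := by
          refine lintegral_mono fun z => ?_
          rw [enorm_mul, ← ofReal_norm, ← ofReal_norm, norm_inv,
            Real.rpow_neg_one]
          gcongr
          exact hM z
      _ = (∫⁻ z in ball w 1, ENNReal.ofReal (‖z - w‖ ^ (-(1 : ℝ)))) * ENNReal.ofReal M := by
          rw [lintegral_mul_const' _ _ ENNReal.ofReal_ne_top]
      _ = _ := by
          rw [lintegral_kernel_ball' (by norm_num) zero_le_one]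
          norm_num
  · calc ∫⁻ z in (ball w 1)ᶜ, ‖(z - w)⁻¹ * φ z‖ₑ ≤ ∫⁻ z in (ball w 1)ᶜ, ‖φ z‖ₑ := by
          refine setLIntegral_mono' measurableSet_ball.compl fun z hz => ?_
          rw [enorm_mul]
          have h1 : 1 ≤ ‖z - w‖ := by
            rw [mem_compl_iff, mem_ball, not_lt, dist_eq_norm] at hz; exact hz
          have h2 : ‖(z - w)⁻¹‖ₑ ≤ 1 := by
            rw [← ofReal_norm, norm_inv]
            exact ENNReal.ofReal_le_one.mpr (inv_le_one_of_one_le₀ h1)
          calc ‖(z - w)⁻¹‖ₑ * ‖φ z‖ₑ ≤ 1 * ‖φ z‖ₑ := by gcongr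
            _ = _ := one_mul _
      _ ≤ _ := setLIntegral_le_lintegral _ _

/-- Tonelli for the Cauchy kernel. -/
lemma integrable_kernel_prod {φ k : ℂ → ℂ} (hφ : Integrable φ) {M : ℝ} (hM : ∀ z, ‖φ z‖ ≤ M)
    (hk : Integrable k) :
    Integrable (fun p : ℂ × ℂ => (p.1 - p.2)⁻¹ * φ p.1 * k p.2) (volume.prod volume) := by
  have hmeas : AEStronglyMeasurable (fun p : ℂ × ℂ => (p.1 - p.2)⁻¹ * φ p.1 * k p.2)
      (volume.prod volume) := by
    have h1 : AEStronglyMeasurable (fun p : ℂ × ℂ => (p.1 - p.2)⁻¹) (volume.prod volume) :=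
      (by fun_prop : Measurable (fun p : ℂ × ℂ => (p.1 - p.2)⁻¹)).aestronglyMeasurable
    exact (h1.mul hφ.aestronglyMeasurable.comp_fst).mul hk.aestronglyMeasurable.comp_snd
  refine ⟨hmeas, ?_⟩
  unfold HasFiniteIntegral
  rw [lintegral_prod_symm _ hmeas.enorm]
  have hC : ENNReal.ofReal (2 * Real.pi) * ENNReal.ofReal M + ∫⁻ z, ‖φ z‖ₑ < ⊤ :=
    ENNReal.add_lt_top.mpr ⟨ENNReal.mul_lt_top ENNReal.ofReal_lt_top ENNReal.ofReal_lt_top,
      hφ.hasFiniteIntegral⟩
  calc ∫⁻ w, ∫⁻ z, ‖(z - w)⁻¹ * φ z * k w‖ₑ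
      ≤ ∫⁻ w, (ENNReal.ofReal (2 * Real.pi) * ENNReal.ofReal M + ∫⁻ z, ‖φ z‖ₑ) * ‖k w‖ₑ := by
        refine lintegral_mono fun w => ?_
        simp_rw [enorm_mul _ (k w)]
        rw [lintegral_mul_const' _ _ enorm_ne_top]
        gcongr
        exact lintegral_kernel_bdd hM w
    _ = (ENNReal.ofReal (2 * Real.pi) * ENNReal.ofReal M + ∫⁻ z, ‖φ z‖ₑ) * ∫⁻ w, ‖k w‖ₑ := by
        rw [lintegral_const_mul' _ _ hC.ne]
    _ < ⊤ := ENNReal.mul_lt_top hC hk.hasFiniteIntegral

/-- antisymmetry of the Cauchy transform -/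
lemma integral_mul_cau {φ k : ℂ → ℂ} (hφ : Integrable φ) {M : ℝ} (hM : ∀ z, ‖φ z‖ ≤ M)
    (hk : Integrable k) : ∫ z, φ z * cau k z = -∫ w, k w * cau φ w := by
  have h := integrable_kernel_prod hφ hM hk
  have h1 : ∫ z, φ z * cau k z = (Real.pi : ℂ)⁻¹ * ∫ z, ∫ w, (z - w)⁻¹ * φ z * k w := by
    rw [← integral_const_mul]
    refine integral_congr_ae (Eventually.of_forall fun z => ?_)
    simp only [cau]
    rw [mul_left_comm, ← integral_const_mul]
    congr 1
    refine integral_congr_ae (Eventually.of_forall fun w => ?_)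
    simp only; ring
  have h2 : -∫ w, k w * cau φ w = (Real.pi : ℂ)⁻¹ * ∫ w, ∫ z, (z - w)⁻¹ * φ z * k w := by
    rw [← integral_neg, ← integral_const_mul]
    refine integral_congr_ae (Eventually.of_forall fun w => ?_)
    simp only [cau]
    have h3 : ∫ z, (z - w)⁻¹ * φ z * k w = -(k w * ∫ z, (w - z)⁻¹ * φ z) := by
      rw [← integral_const_mul, ← integral_neg]
      refine integral_congr_ae (Eventually.of_forall fun z => ?_)
      have : (z - w)⁻¹ = -(w - z)⁻¹ := by rw [← inv_neg, neg_sub]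
      simp only [this]; ring
    rw [h3]; ring
  rw [h1, h2, integral_integral_swap (f := fun z w => (z - w)⁻¹ * φ z * k w) h]

lemma locallyIntegrable_inv : LocallyIntegrable (fun z : ℂ => z⁻¹) := by
  rw [locallyIntegrable_iff]
  intro K hK
  obtain ⟨R, hR⟩ := hK.isBounded.subset_ball (0 : ℂ)
  have hR' : K ⊆ ball (0 : ℂ) (max R 0) := hR.trans (ball_subset_ball (le_max_left _ _))
  refine IntegrableOn.mono_set ⟨measurable_inv.aestronglyMeasurable, ?_⟩ hR'
  unfold HasFiniteIntegral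
  have h := lintegral_kernel_ball (a := 1) (by norm_num) (le_max_right R 0)
  calc ∫⁻ z in ball (0 : ℂ) (max R 0), ‖z⁻¹‖ₑ
      = ∫⁻ z in ball (0 : ℂ) (max R 0), ENNReal.ofReal (‖z‖ ^ (-(1 : ℝ))) := by
        refine lintegral_congr fun z => ?_
        rw [← ofReal_norm, norm_inv, Real.rpow_neg_one]
    _ < ⊤ := by rw [h]; exact ENNReal.ofReal_lt_top

lemma cau_eq_conv (φ : ℂ → ℂ) :
    cau φ = fun z => (Real.pi : ℂ)⁻¹ *
      ((fun t : ℂ => t⁻¹) ⋆[ContinuousLinearMap.mul ℝ ℂ, volume] φ) z := by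
  funext z
  simp only [cau, convolution_def, ContinuousLinearMap.mul_apply']
  congr 1
  have := integral_sub_left_eq_self (fun w : ℂ => (z - w)⁻¹ * φ w) volume z
  rw [← this]
  refine integral_congr_ae (Eventually.of_forall fun w => ?_)
  simp

lemma contDiff_cau {φ : ℂ → ℂ} (h1 : ContDiff ℝ ∞ φ) (h2 : HasCompactSupport φ) :
    ContDiff ℝ ∞ (cau φ) := by
  rw [cau_eq_conv]
  exact contDiff_const.mul
    (h2.contDiff_convolution_right (ContinuousLinearMap.mul ℝ ℂ) locallyIntegrable_inv h1)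

/-- `∂̄ (cau φ) = φ` for test functions. -/
theorem dbar_cau {φ : ℂ → ℂ} (h1 : ContDiff ℝ ∞ φ) (h2 : HasCompactSupport φ) (z : ℂ) :
    dbar (cau φ) z = φ z := by
  have h1' : ContDiff ℝ 1 φ := h1.of_le (by exact_mod_cast le_top)
  have hd := h2.hasFDerivAt_convolution_right (ContinuousLinearMap.mul ℝ ℂ)
    locallyIntegrable_inv h1' z
  have hd2 := hd.const_mul ((Real.pi : ℂ)⁻¹)
  have hfd : fderiv ℝ (cau φ) z = (Real.pi : ℂ)⁻¹ •
      ((fun t : ℂ => t⁻¹) ⋆[(ContinuousLinearMap.mul ℝ ℂ).precompR ℂ, volume] fderiv ℝ φ) z := by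
    rw [cau_eq_conv]; exact hd2.fderiv
  have hcf : HasCompactSupport (fderiv ℝ φ) := h2.fderiv (𝕜 := ℝ)
  have hcc : Continuous (fderiv ℝ φ) := h1'.continuous_fderiv one_ne_zero
  simp only [dbar, hfd, _root_.smul_apply, smul_eq_mul]
  rw [convolution_precompR_apply _ locallyIntegrable_inv hcf hcc,
    convolution_precompR_apply _ locallyIntegrable_inv hcf hcc]
  simp only [convolution_def, ContinuousLinearMap.mul_apply']
  -- the function `χ t = φ (z - t)`
  have hχ : ContDiff ℝ 1 (fun t => φ (z - t)) := h1'.comp (contDiff_const.sub contDiff_id)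
  have hχc : HasCompactSupport (fun t => φ (z - t)) := by
    have := h2.comp_homeomorph (Homeomorph.subLeft z)
    exact this
  have hcp := cauchy_pompeiu_zero hχ hχc
  have hder : ∀ t, fderiv ℝ (fun t => φ (z - t)) t = -fderiv ℝ φ (z - t) := by
    intro t
    have hf : HasFDerivAt φ (fderiv ℝ φ (z - t)) (z - t) :=
      (h1'.differentiable one_ne_zero _).hasFDerivAt
    have hg : HasFDerivAt (fun t : ℂ => z - t) (-ContinuousLinearMap.id ℝ ℂ) t :=
      (hasFDerivAt_id t).const_sub z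
    have := hf.comp t hg
    rw [show (fun t => φ (z - t)) = φ ∘ (fun t => z - t) from rfl, this.fderiv]
    ext v; simp
  have hdb : ∀ t, t⁻¹ * dbar (fun t => φ (z - t)) t =
      -(t⁻¹ * ((fderiv ℝ φ (z - t) 1 + I * fderiv ℝ φ (z - t) I) / 2)) := by
    intro t
    simp only [dbar, hder, _root_.neg_apply]; ring
  simp_rw [hdb] at hcp
  rw [integral_neg, sub_zero, neg_mul, neg_inj] at hcp
  have hi : ∀ v : ℂ, Integrable (fun t : ℂ => t⁻¹ * fderiv ℝ φ (z - t) v) := by
    intro v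
    have hc1 : HasCompactSupport (fun x => fderiv ℝ φ x v) :=
      hcf.comp_left (g := fun L : ℂ →L[ℝ] ℂ => L v) (by simp)
    have := (hc1.convolutionExists_right (ContinuousLinearMap.mul ℝ ℂ) locallyIntegrable_inv
      (hcc.clm_apply continuous_const) z)
    exact this
  have hsum : (∫ t, t⁻¹ * (fderiv ℝ φ (z - t)) 1) + I * (∫ t, t⁻¹ * (fderiv ℝ φ (z - t)) I) =
      2 * ∫ t, t⁻¹ * ((fderiv ℝ φ (z - t) 1 + I * fderiv ℝ φ (z - t) I) / 2) := by
    rw [← integral_const_mul, ← integral_const_mul, ← integral_add (hi 1) ((hi I).const_mul I)]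
    refine integral_congr_ae (Eventually.of_forall fun t => ?_)
    simp only; ring
  have hpi : (Real.pi : ℂ) ≠ 0 := by exact_mod_cast Real.pi_ne_zero
  calc ((Real.pi : ℂ)⁻¹ * (∫ t, t⁻¹ * (fderiv ℝ φ (z - t)) 1) +
        I * ((Real.pi : ℂ)⁻¹ * ∫ t, t⁻¹ * (fderiv ℝ φ (z - t)) I)) / 2
        = (Real.pi : ℂ)⁻¹ * ((∫ t, t⁻¹ * (fderiv ℝ φ (z - t)) 1) +
          I * (∫ t, t⁻¹ * (fderiv ℝ φ (z - t)) I)) / 2 := by ring
      _ = φ z := by rw [hsum, hcp]; field_simp

end Crest.Agent.R165.Cl3x722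
end

-- ▼ part R165/Cl4_722

/-!
# Row 165, block R-f: representation of weak solutions of `∂̄ u = g`, Weyl lemma for `∂̄`
-/

open MeasureTheory Set Filter Topology Complex Metric
open scoped ENNReal NNReal ContDiff Convolution

namespace Crest.Agent.R165.Cl4x722

open Cl1x722 Cl2x722 Cl3x722

lemma integrable_mul_test {U : Set ℂ} {u h : ℂ → ℂ} (hu : LocallyIntegrableOn u U)
    (hh : Continuous h) (hc : HasCompactSupport h) (hs : tsupport h ⊆ U) :
    Integrable (fun z => u z * h z) := by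
  have h1 : IntegrableOn u (tsupport h) := hu.integrableOn_compact_subset hs hc.isCompact
  have h2 : IntegrableOn (fun z => u z * h z) (tsupport h) :=
    h1.mul_continuousOn hh.continuousOn hc.isCompact
  refine (integrableOn_iff_integrable_of_support_subset ?_).mp h2
  intro z hz
  exact subset_tsupport _ (right_ne_zero_of_mul hz)

lemma tsupport_dbar_subset (ψ : ℂ → ℂ) : tsupport (dbar ψ) ⊆ tsupport ψ := by
  refine closure_minimal ?_ (isClosed_tsupport ψ)
  intro z hz
  by_contra h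
  exact hz (dbar_zero_of_notMem h)

lemma hasCompactSupport_dbar {ψ : ℂ → ℂ} (h : HasCompactSupport ψ) : HasCompactSupport (dbar ψ) :=
  h.of_isClosed_subset (isClosed_tsupport _) (tsupport_dbar_subset ψ)

lemma locallyIntegrable_cau {k : ℂ → ℂ} (hk : Integrable k) : LocallyIntegrable (cau k) := by
  rw [locallyIntegrable_iff]
  intro K hK
  set φ : ℂ → ℂ := K.indicator (fun _ => 1) with hφ
  have hφi : Integrable φ := by
    rw [hφ, integrable_indicator_iff hK.measurableSet]
    exact integrableOn_const (hs := hK.measure_lt_top.ne)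
  have hM : ∀ z, ‖φ z‖ ≤ 1 := by
    intro z
    by_cases hz : z ∈ K
    · simp [hφ, indicator_of_mem hz]
    · simp [hφ, indicator_of_notMem hz]
  have h := (integrable_kernel_prod hφi hM hk).integral_prod_left
  have h2 : IntegrableOn (fun z => (Real.pi : ℂ)⁻¹ * ∫ w, (z - w)⁻¹ * φ z * k w) K :=
    (h.const_mul _).integrableOn
  refine h2.congr_fun ?_ hK.measurableSet
  intro z hz
  simp only [cau]
  congr 1
  refine integral_congr_ae (Eventually.of_forall fun w => ?_)
  simp [hφ, indicator_of_mem hz]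

/-- **Representation of weak solutions**: `ψ u = cau (u ∂̄ψ + g ψ)` almost everywhere. -/
theorem rep {U : Set ℂ} {u g ψ : ℂ → ℂ} (hu : LocallyIntegrableOn u U)
    (hg : LocallyIntegrableOn g U) (hw : WDbar U u g) (hψ : ContDiff ℝ ∞ ψ)
    (hψc : HasCompactSupport ψ) (hψs : tsupport ψ ⊆ U) :
    ∀ᵐ z, ψ z * u z = cau (fun w => u w * dbar ψ w + g w * ψ w) z := by
  have hψ1 : ContDiff ℝ 1 ψ := hψ.of_le (by exact_mod_cast le_top)
  set k : ℂ → ℂ := fun w => u w * dbar ψ w + g w * ψ w with hk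
  have hki : Integrable k :=
    (integrable_mul_test hu (continuous_dbar hψ1) (hasCompactSupport_dbar hψc)
      ((tsupport_dbar_subset ψ).trans hψs)).add
      (integrable_mul_test hg hψ.continuous hψc hψs)
  have hui : Integrable (fun z => ψ z * u z) := by
    have := integrable_mul_test hu hψ.continuous hψc hψs
    simpa [mul_comm] using this
  have hloc : LocallyIntegrable (fun z => ψ z * u z - cau k z) :=
    hui.locallyIntegrable.sub (locallyIntegrable_cau hki)
  have hmain : ∀ (φ : ℂ → ℝ), ContDiff ℝ ∞ φ → HasCompactSupport φ →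
      ∫ z, φ z • (ψ z * u z - cau k z) = 0 := by
    intro φ hφ hφc
    set Φ : ℂ → ℂ := fun z => (φ z : ℂ) with hΦ
    have hΦs : ContDiff ℝ ∞ Φ := ofRealCLM.contDiff.comp hφ
    have hΦc : HasCompactSupport Φ := hφc.comp_left (g := fun x : ℝ => (x : ℂ)) (by simp)
    obtain ⟨M, hM⟩ := hΦc.exists_bound_of_continuous hΦs.continuous
    have hΦi : Integrable Φ := hΦs.continuous.integrable_of_hasCompactSupport hΦc
    have e1 : ∫ z, φ z • (ψ z * u z - cau k z) =
        (∫ z, Φ z * (ψ z * u z)) - ∫ z, Φ z * cau k z := by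
      rw [← integral_sub]
      · refine integral_congr_ae (Eventually.of_forall fun z => ?_)
        simp only [real_smul, hΦ]; ring
      · exact hui.bdd_mul hΦs.continuous.aestronglyMeasurable (Eventually.of_forall hM)
      · have h3 : LocallyIntegrableOn (cau k) univ := (locallyIntegrable_cau hki).locallyIntegrableOn _
        have := integrable_mul_test h3 hΦs.continuous hΦc (subset_univ _)
        simpa [mul_comm] using this
    rw [e1, integral_mul_cau hΦi hM hki, sub_neg_eq_add]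
    have hcs : ContDiff ℝ ∞ (cau Φ) := contDiff_cau hΦs hΦc
    have ht1 : ContDiff ℝ ∞ (fun z => ψ z * cau Φ z) := hψ.mul hcs
    have ht2 : HasCompactSupport (fun z => ψ z * cau Φ z) := hψc.mul_right
    have ht3 : tsupport (fun z => ψ z * cau Φ z) ⊆ U :=
      (closure_mono (fun z hz => left_ne_zero_of_mul hz)).trans hψs
    have hw' := hw _ ht1 ht2 ht3
    have hdb : ∀ z, dbar (fun z => ψ z * cau Φ z) z = dbar ψ z * cau Φ z + ψ z * Φ z := by
      intro z
      rw [dbar_mul (hψ.differentiable (by simp) z) (hcs.differentiable (by simp) z),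
        dbar_cau hΦs hΦc]
    have e2 : ∫ z, (u z * dbar (fun z => ψ z * cau Φ z) z + g z * (ψ z * cau Φ z)) =
        (∫ z, Φ z * (ψ z * u z)) + ∫ w, k w * cau Φ w := by
      rw [← integral_add]
      · refine integral_congr_ae (Eventually.of_forall fun z => ?_)
        simp only [hdb, hk]; ring
      · exact hui.bdd_mul hΦs.continuous.aestronglyMeasurable (Eventually.of_forall hM)
      · have h4 : Continuous (fun z => dbar ψ z * cau Φ z) :=
          (continuous_dbar hψ1).mul hcs.continuous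
        have h5 : HasCompactSupport (fun z => dbar ψ z * cau Φ z) :=
          (hasCompactSupport_dbar hψc).mul_right
        have h6 : tsupport (fun z => dbar ψ z * cau Φ z) ⊆ U :=
          (closure_mono (fun z hz => left_ne_zero_of_mul hz)).trans
            ((tsupport_dbar_subset ψ).trans hψs)
        have h7 := integrable_mul_test hu h4 h5 h6
        have h8 := integrable_mul_test hg (hψ.continuous.mul hcs.continuous) ht2 ht3
        refine (h7.add h8).congr (Eventually.of_forall fun z => ?_)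
        simp only [hk, Pi.add_apply, Pi.mul_apply]; ring
    rw [← e2]; exact hw'
  have := ae_eq_zero_of_integral_contDiff_smul_eq_zero hloc hmain
  filter_upwards [this] with z hz
  exact sub_eq_zero.mp hz

/-- The Cauchy transform is holomorphic off the support of the density. -/
theorem differentiableOn_cau {k : ℂ → ℂ} (hk : Integrable k) {c : ℂ} {r : ℝ}
    (h0 : ∀ w ∈ ball c r, k w = 0) : DifferentiableOn ℂ (cau k) (ball c r) := by
  intro z0 hz0
  refine DifferentiableAt.differentiableWithinAt ?_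
  set δ : ℝ := (r - dist z0 c) / 2 with hδ
  have hz0' : dist z0 c < r := hz0
  have hδ0 : 0 < δ := by rw [hδ]; linarith
  have hfar : ∀ z ∈ ball z0 δ, ∀ w, k w ≠ 0 → δ ≤ ‖z - w‖ := by
    intro z hz w hw
    by_contra hlt
    push Not at hlt
    refine hw (h0 w ?_)
    rw [mem_ball] at hz ⊢
    have h1 : dist w c ≤ dist w z + dist z z0 + dist z0 c := dist_triangle4 _ _ _ _
    have h2 : dist w z = ‖z - w‖ := by rw [dist_comm, dist_eq_norm]
    have : dist w c < δ + δ + dist z0 c := by linarith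
    rw [hδ] at this; linarith
  have hmeasF : ∀ z, AEStronglyMeasurable (fun w => (z - w)⁻¹ * k w) volume := by
    intro z
    have h1 : AEStronglyMeasurable (fun w : ℂ => (z - w)⁻¹) volume :=
      (by fun_prop : Measurable (fun w : ℂ => (z - w)⁻¹)).aestronglyMeasurable
    exact h1.mul hk.aestronglyMeasurable
  have hF' : AEStronglyMeasurable (fun w => (-((z0 - w) ^ 2)⁻¹) * k w) volume := by
    have h1 : AEStronglyMeasurable (fun w : ℂ => -((z0 - w) ^ 2)⁻¹) volume :=
      (by fun_prop : Measurable (fun w : ℂ => -((z0 - w) ^ 2)⁻¹)).aestronglyMeasurable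
    exact h1.mul hk.aestronglyMeasurable
  have hmem : z0 ∈ ball z0 δ := mem_ball_self hδ0
  have hFi : Integrable (fun w => (z0 - w)⁻¹ * k w) := by
    refine (hk.norm.const_mul (δ⁻¹)).mono' (hmeasF z0) (Eventually.of_forall fun w => ?_)
    rw [norm_mul]
    by_cases hw : k w = 0
    · simp [hw]
    · rw [norm_inv]
      gcongr
      exact hfar z0 hmem w hw
  have key := hasDerivAt_integral_of_dominated_loc_of_deriv_le (μ := (volume : Measure ℂ))
    (F := fun z w => (z - w)⁻¹ * k w) (F' := fun z w => (-((z - w) ^ 2)⁻¹) * k w)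
    (x₀ := z0) (s := ball z0 δ) (bound := fun w => (δ ^ 2)⁻¹ * ‖k w‖)
    (ball_mem_nhds z0 hδ0) (Eventually.of_forall hmeasF) hFi hF'
    (Eventually.of_forall fun w z hz => ?_) (hk.norm.const_mul _)
    (Eventually.of_forall fun w z hz => ?_)
  · have h2 := key.2.const_mul ((Real.pi : ℂ)⁻¹)
    exact h2.differentiableAt
  · rw [norm_mul, norm_neg, norm_inv, norm_pow]
    by_cases hw : k w = 0
    · simp [hw]
    · gcongr
      exact hfar z hz w hw
  · by_cases hw : k w = 0
    · simp only [hw, mul_zero]; exact hasDerivAt_const _ _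
    · have hne : z - w ≠ 0 := by
        intro h
        have := hfar z hz w hw
        rw [h, norm_zero] at this; linarith
      have h3 : HasDerivAt (fun z => z - w) 1 z := (hasDerivAt_id z).sub_const w
      have h4 := (h3.inv hne).mul_const (k w)
      refine h4.congr_deriv ?_
      field_simp

/-- uniform bound of the Cauchy transform away from the support of the density -/
lemma norm_cau_le {k : ℂ → ℂ} (hk : Integrable k) {z : ℂ} {δ : ℝ} (hδ : 0 < δ)
    (h0 : ∀ w, k w ≠ 0 → δ ≤ ‖z - w‖) : ‖cau k z‖ ≤ (Real.pi * δ)⁻¹ * ∫ w, ‖k w‖ := by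
  have h1 : ‖∫ w, (z - w)⁻¹ * k w‖ ≤ ∫ w, δ⁻¹ * ‖k w‖ := by
    refine norm_integral_le_of_norm_le (hk.norm.const_mul _) (Eventually.of_forall fun w => ?_)
    rw [norm_mul, norm_inv]
    by_cases hw : k w = 0
    · simp [hw]
    · gcongr
      exact h0 w hw
  rw [cau, norm_mul, norm_inv, norm_real, Real.norm_of_nonneg Real.pi_pos.le]
  calc Real.pi⁻¹ * ‖∫ w, (z - w)⁻¹ * k w‖ ≤ Real.pi⁻¹ * ∫ w, δ⁻¹ * ‖k w‖ := by
        gcongr
    _ = _ := by rw [integral_const_mul, mul_inv]; ring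

lemma norm_cau_sub_le {k : ℂ → ℂ} (hk : Integrable k) {z z' : ℂ} {δ : ℝ} (hδ : 0 < δ)
    (h0 : ∀ w, k w ≠ 0 → δ ≤ ‖z - w‖) (h0' : ∀ w, k w ≠ 0 → δ ≤ ‖z' - w‖) :
    ‖cau k z - cau k z'‖ ≤ (Real.pi * δ ^ 2)⁻¹ * ‖z - z'‖ * ∫ w, ‖k w‖ := by
  have hint : ∀ z, (∀ w, k w ≠ 0 → δ ≤ ‖z - w‖) → Integrable (fun w => (z - w)⁻¹ * k w) := by
    intro z hz
    have h1 : AEStronglyMeasurable (fun w : ℂ => (z - w)⁻¹) volume :=
      (by fun_prop : Measurable (fun w : ℂ => (z - w)⁻¹)).aestronglyMeasurable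
    refine (hk.norm.const_mul (δ⁻¹)).mono' (h1.mul hk.aestronglyMeasurable)
      (Eventually.of_forall fun w => ?_)
    rw [norm_mul, norm_inv]
    by_cases hw : k w = 0
    · simp [hw]
    · gcongr
      exact hz w hw
  have h1 : ‖(∫ w, (z - w)⁻¹ * k w) - ∫ w, (z' - w)⁻¹ * k w‖ ≤
      ∫ w, ((δ ^ 2)⁻¹ * ‖z - z'‖) * ‖k w‖ := by
    rw [← integral_sub (hint z h0) (hint z' h0')]
    refine norm_integral_le_of_norm_le (hk.norm.const_mul _) (Eventually.of_forall fun w => ?_)
    by_cases hw : k w = 0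
    · simp [hw]
    · have ha := h0 w hw
      have hb := h0' w hw
      have hane : z - w ≠ 0 := by
        intro h; rw [h, norm_zero] at ha; linarith
      have hbne : z' - w ≠ 0 := by
        intro h; rw [h, norm_zero] at hb; linarith
      have h2 : (z - w)⁻¹ * k w - (z' - w)⁻¹ * k w = (z - w)⁻¹ * (z' - w)⁻¹ * (z' - z) * k w := by
        field_simp; ring
      rw [h2, norm_mul, norm_mul, norm_mul, norm_inv, norm_inv, norm_sub_rev z' z]
      have h3 : ‖z - w‖⁻¹ * ‖z' - w‖⁻¹ ≤ (δ ^ 2)⁻¹ := by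
        rw [pow_two, mul_inv]
        gcongr
      gcongr
  rw [cau, cau, ← mul_sub, norm_mul, norm_inv, norm_real, Real.norm_of_nonneg Real.pi_pos.le]
  calc Real.pi⁻¹ * ‖(∫ w, (z - w)⁻¹ * k w) - ∫ w, (z' - w)⁻¹ * k w‖
      ≤ Real.pi⁻¹ * ∫ w, ((δ ^ 2)⁻¹ * ‖z - z'‖) * ‖k w‖ := by gcongr
    _ = _ := by rw [integral_const_mul, mul_inv]; ring

/-- a smooth cut-off, complex valued, equal to one on `closedBall c r`, supported in
`closedBall c R` -/
lemma exists_cutoff (c : ℂ) {r R : ℝ} (hr : 0 < r) (hR : r < R) :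
    ∃ ψ : ℂ → ℂ, ContDiff ℝ ∞ ψ ∧ HasCompactSupport ψ ∧ tsupport ψ ⊆ closedBall c R ∧
      (∀ z ∈ closedBall c r, ψ z = 1) ∧ (∀ z ∈ ball c r, dbar ψ z = 0) ∧
      (∀ z, ∃ t : ℝ, ψ z = t ∧ 0 ≤ t ∧ t ≤ 1) := by
  let f : ContDiffBump c := ⟨r, R, hr, hR⟩
  refine ⟨fun z => (f z : ℂ), ofRealCLM.contDiff.comp f.contDiff,
    f.hasCompactSupport.comp_left (g := fun x : ℝ => (x : ℂ)) (by simp), ?_, ?_, ?_, ?_⟩
  · have h1 : tsupport (fun z => (f z : ℂ)) ⊆ tsupport f := by
      refine closure_mono fun z hz => ?_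
      intro h; exact hz (by simp [h])
    rw [f.tsupport_eq] at h1
    exact h1
  · intro z hz
    have : f z = 1 := f.one_of_mem_closedBall hz
    simp [this]
  · intro z hz
    have h1 : (fun z => (f z : ℂ)) =ᶠ[𝓝 z] fun _ => (1 : ℂ) := by
      filter_upwards [isOpen_ball.mem_nhds hz] with w hw
      have : f w = 1 := f.one_of_mem_closedBall (ball_subset_closedBall hw)
      simp [this]
    have h2 : fderiv ℝ (fun z => (f z : ℂ)) z = 0 := by
      rw [h1.fderiv_eq]; simp
    simp [dbar, h2]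
  · intro z
    exact ⟨f z, rfl, f.nonneg, f.le_one⟩

/-- local Weyl lemma for `∂̄` -/
theorem weyl_local {U : Set ℂ} {u : ℂ → ℂ} (hu : LocallyIntegrableOn u U)
    (hw : WDbar U u 0) {c : ℂ} {r R : ℝ} (hr : 0 < r) (hR : r < R) (hB : closedBall c R ⊆ U) :
    ∃ v : ℂ → ℂ, DifferentiableOn ℂ v (ball c r) ∧ ∀ᵐ z, z ∈ ball c r → u z = v z := by
  obtain ⟨ψ, h1, h2, h3, h4, h5, -⟩ := exists_cutoff c hr hR
  have h1' : ContDiff ℝ 1 ψ := h1.of_le (by exact_mod_cast le_top)
  have hg : LocallyIntegrableOn (0 : ℂ → ℂ) U := (locallyIntegrable_zero).locallyIntegrableOn _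
  have hrep := rep hu hg hw h1 h2 (h3.trans hB)
  set k : ℂ → ℂ := fun w => u w * dbar ψ w + (0 : ℂ → ℂ) w * ψ w with hk
  have hki : Integrable k := by
    have := integrable_mul_test hu (continuous_dbar h1') (hasCompactSupport_dbar h2)
      ((tsupport_dbar_subset ψ).trans (h3.trans hB))
    simpa [hk] using this
  refine ⟨cau k, differentiableOn_cau hki ?_, ?_⟩
  · intro w hw
    simp [hk, h5 w hw]
  · filter_upwards [hrep] with z hz hzr
    rw [← hz, h4 z (ball_subset_closedBall hzr), one_mul]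

/-- **Weyl lemma for `∂̄`**. -/
theorem weyl {U : Set ℂ} (hU : IsOpen U) {u : ℂ → ℂ} (hu : LocallyIntegrableOn u U)
    (hw : WDbar U u 0) :
    ∃ v : ℂ → ℂ, DifferentiableOn ℂ v U ∧ ∀ᵐ z, z ∈ U → u z = v z := by
  have hloc : ∀ c : ℂ, ∃ p : ℝ × (ℂ → ℂ), c ∈ U → 0 < p.1 ∧ ball c p.1 ⊆ U ∧
      DifferentiableOn ℂ p.2 (ball c p.1) ∧ ∀ᵐ z, z ∈ ball c p.1 → u z = p.2 z := by
    intro c
    by_cases hc : c ∈ U
    · obtain ⟨R, hR0, hR⟩ := nhds_basis_closedBall.mem_iff.mp (hU.mem_nhds hc)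
      obtain ⟨v, hv1, hv2⟩ := weyl_local hu hw (half_pos hR0) (half_lt_self hR0) hR
      exact ⟨(R / 2, v), fun _ => ⟨half_pos hR0,
        (ball_subset_closedBall.trans (closedBall_subset_closedBall (half_le_self hR0.le))).trans hR,
        hv1, hv2⟩⟩
    · exact ⟨(1, 0), fun h => absurd h hc⟩
  choose p hp using hloc
  set v : ℂ → ℂ := fun z => (p z).2 z with hv
  have hagree : ∀ c ∈ U, ∀ z ∈ ball c (p c).1, v z = (p c).2 z := by
    intro c hc z hz
    obtain ⟨c1, c2, c3, c4⟩ := hp c hc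
    have hzU : z ∈ U := c2 hz
    obtain ⟨z1, z2, z3, z4⟩ := hp z hzU
    have hopen : IsOpen (ball c (p c).1 ∩ ball z (p z).1) := isOpen_ball.inter isOpen_ball
    have hae : (p z).2 =ᵐ[volume.restrict (ball c (p c).1 ∩ ball z (p z).1)] (p c).2 := by
      rw [Filter.EventuallyEq, ae_restrict_iff' hopen.measurableSet]
      filter_upwards [c4, z4] with w hw1 hw2 hw
      rw [← hw1 hw.1, ← hw2 hw.2]
    have := Measure.eqOn_open_of_ae_eq hae hopen (z3.continuousOn.mono inter_subset_right)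
      (c3.continuousOn.mono inter_subset_left)
    exact this ⟨hz, mem_ball_self z1⟩
  refine ⟨v, ?_, ?_⟩
  · intro c hc
    obtain ⟨c1, c2, c3, c4⟩ := hp c hc
    have h1 : DifferentiableAt ℂ (p c).2 c := c3.differentiableAt (ball_mem_nhds c c1)
    have h2 : v =ᶠ[𝓝 c] (p c).2 := by
      filter_upwards [ball_mem_nhds c c1] with z hz
      exact hagree c hc z hz
    exact (h2.differentiableAt_iff.mpr h1).differentiableWithinAt
  · have hnull : volume {z | z ∈ U ∧ u z ≠ v z} = 0 := by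
      refine measure_null_of_locally_null _ fun c hc => ?_
      obtain ⟨c1, c2, c3, c4⟩ := hp c hc.1
      refine ⟨ball c (p c).1 ∩ {z | z ∈ U ∧ u z ≠ v z}, ?_, ?_⟩
      · exact inter_mem (mem_nhdsWithin_of_mem_nhds (ball_mem_nhds c c1)) self_mem_nhdsWithin
      · refine measure_mono_null ?_ (ae_iff.mp c4)
        rintro z ⟨hz1, hz2, hz3⟩
        simp only [mem_setOf_eq, Classical.not_imp]
        refine ⟨hz1, ?_⟩
        rw [← hagree c hc.1 z hz1]; exact hz3
    rw [ae_iff]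
    convert hnull using 2
    ext z; simp [Classical.not_imp]

end Crest.Agent.R165.Cl4x722
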