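import Crest.Agent.R165.Cl5_722

-- ▼ part R165/Cl6_722
section

/-!
# Row 165, block R-f: test functions vanishing on the real line, reflection of `L¹` functions
-/

open MeasureTheory Set Filter Topology Complex Metric
open scoped ENNReal NNReal ContDiff Convolution ComplexConjugate

namespace Crest.Agent.R165.Cl6x722

open Cl1x722 Cl2x722 Cl3x722 Cl4x722 Cl5x722

/-- smooth cut-off vanishing near the closed lower half plane -/
noncomputable def th (ε : ℝ) (z : ℂ) : ℂ := ((Real.smoothTransition (z.im / ε - 1) : ℝ) : ℂ)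

lemma contDiff_th (ε : ℝ) : ContDiff ℝ ∞ (th ε) := by
  unfold th
  refine ofRealCLM.contDiff.comp (Real.smoothTransition.contDiff.comp ?_)
  exact (imCLM.contDiff.div_const ε).sub contDiff_const

lemma exists_bound_transition : ∃ C : ℝ, 0 ≤ C ∧ ∀ t, |deriv Real.smoothTransition t| ≤ C := by
  have hc : Continuous (deriv Real.smoothTransition) :=
    (Real.smoothTransition.contDiff (n := 1)).continuous_deriv le_rfl
  obtain ⟨C, hC⟩ := (isCompact_Icc (a := (-1 : ℝ)) (b := 2)).exists_bound_of_continuousOn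
    hc.continuousOn
  refine ⟨max C 0, le_max_right _ _, fun t => ?_⟩
  by_cases h1 : t < 0
  · have : Real.smoothTransition =ᶠ[𝓝 t] fun _ => 0 := by
      filter_upwards [Iio_mem_nhds h1] with s hs
      exact Real.smoothTransition.zero_of_nonpos hs.le
    rw [this.deriv_eq]; simp
  · by_cases h2 : 1 < t
    · have : Real.smoothTransition =ᶠ[𝓝 t] fun _ => 1 := by
        filter_upwards [Ioi_mem_nhds h2] with s hs
        exact Real.smoothTransition.one_of_one_le hs.le
      rw [this.deriv_eq]; simp
    · have := hC t ⟨by linarith, by linarith⟩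
      exact (by simpa using this : |deriv Real.smoothTransition t| ≤ C).trans (le_max_left _ _)

lemma norm_th_le (ε : ℝ) (z : ℂ) : ‖th ε z‖ ≤ 1 := by
  unfold th
  rw [norm_real, Real.norm_eq_abs, abs_of_nonneg (Real.smoothTransition.nonneg _)]
  exact Real.smoothTransition.le_one _

lemma th_zero {ε : ℝ} (hε : 0 < ε) {z : ℂ} (hz : z.im ≤ ε) : th ε z = 0 := by
  unfold th
  rw [Real.smoothTransition.zero_of_nonpos]
  · simp
  · rw [sub_nonpos, div_le_one hε]; exact hz

lemma th_one {ε : ℝ} (hε : 0 < ε) {z : ℂ} (hz : 2 * ε ≤ z.im) : th ε z = 1 := by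
  unfold th
  rw [Real.smoothTransition.one_of_one_le]
  · simp
  · rw [le_sub_iff_add_le, le_div_iff₀ hε]; linarith

lemma dbar_th (ε : ℝ) (z : ℂ) :
    dbar (th ε) z = (I / 2) * ((deriv Real.smoothTransition (z.im / ε - 1) / ε : ℝ) : ℂ) := by
  have h0 : HasFDerivAt (fun z : ℂ => z.im / ε - 1) (ε⁻¹ • imCLM) z := by
    have h1 := ((imCLM.hasFDerivAt (x := z)).const_mul (ε⁻¹)).sub_const 1
    refine h1.congr_of_eventuallyEq (Eventually.of_forall fun w => ?_)
    simp [div_eq_inv_mul]
  have h2 : HasDerivAt Real.smoothTransition (deriv Real.smoothTransition (z.im / ε - 1))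
      (z.im / ε - 1) :=
    ((Real.smoothTransition.contDiff (n := 1)).differentiable one_ne_zero _).hasDerivAt
  have h3 := h2.comp_hasFDerivAt z h0
  have h4 := (ofRealCLM.hasFDerivAt (x := Real.smoothTransition (z.im / ε - 1))).comp z h3
  have h5 : fderiv ℝ (th ε) z = ofRealCLM.comp
      (deriv Real.smoothTransition (z.im / ε - 1) • (ε⁻¹ • imCLM)) := by
    rw [← h4.fderiv]; rfl
  rw [dbar, h5]
  simp only [ContinuousLinearMap.comp_apply, _root_.smul_apply, imCLM_apply, one_im, I_im,
    smul_eq_mul, ofRealCLM_apply]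
  push_cast
  ring

lemma dbar_th_zero {ε : ℝ} (hε : 0 < ε) {z : ℂ} (hz : 2 * ε < z.im) : dbar (th ε) z = 0 := by
  rw [dbar_th]
  have h1 : 1 < z.im / ε - 1 := by
    rw [lt_sub_iff_add_lt, lt_div_iff₀ hε]; linarith
  have : Real.smoothTransition =ᶠ[𝓝 (z.im / ε - 1)] fun _ => 1 := by
    filter_upwards [Ioi_mem_nhds h1] with s hs
    exact Real.smoothTransition.one_of_one_le (le_of_lt hs)
  rw [this.deriv_eq]; simp

/-- `χ th ε` is a test function in the open half ball -/
lemma tsupport_mul_th {ε : ℝ} (hε : 0 < ε) {χ : ℂ → ℂ} {B : Set ℂ} (h : tsupport χ ⊆ B) :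
    tsupport (fun z => χ z * th ε z) ⊆ B ∩ HP := by
  have h1 : tsupport (fun z => χ z * th ε z) ⊆ tsupport χ ∩ {z | ε ≤ z.im} := by
    refine closure_minimal ?_ ((isClosed_tsupport χ).inter (isClosed_le continuous_const continuous_im))
    intro z hz
    have hz' : χ z * th ε z ≠ 0 := hz
    refine ⟨subset_tsupport _ (left_ne_zero_of_mul hz'), ?_⟩
    by_contra hlt
    simp only [mem_ofPred_eq, not_le] at hlt
    exact (right_ne_zero_of_mul hz') (th_zero hε hlt.le)
  intro z hz
  exact ⟨h (h1 hz).1, lt_of_lt_of_le hε (h1 hz).2⟩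

/-- Weakly holomorphic `L¹` functions on the half ball do not see test functions vanishing on the
real line. -/
theorem integral_vanish {B : Set ℂ} (hB : MeasurableSet B) {q χ : ℂ → ℂ}
    (hq : IntegrableOn q (B ∩ HP)) (hw : WDbar (B ∩ HP) q 0) (h1 : ContDiff ℝ ∞ χ)
    (h2 : HasCompactSupport χ) (h3 : tsupport χ ⊆ B) (h0 : ∀ x : ℝ, χ x = 0) :
    ∫ z in B ∩ HP, q z * dbar χ z = 0 := by
  have h1' : ContDiff ℝ 1 χ := h1.of_le (by exact_mod_cast le_top)
  obtain ⟨L, hL⟩ := h1'.lipschitzWith_of_hasCompactSupport h2 one_ne_zero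
  obtain ⟨C0, hC0, hC⟩ := exists_bound_transition
  obtain ⟨M, hM⟩ := (hasCompactSupport_dbar h2).exists_bound_of_continuous (continuous_dbar h1')
  have hχ : ∀ z : ℂ, ‖χ z‖ ≤ L * |z.im| := by
    intro z
    have h4 := hL.dist_le_mul z (z.re : ℂ)
    rw [dist_eq_norm, h0, sub_zero, dist_eq_norm] at h4
    have h5 : z - (z.re : ℂ) = (z.im : ℂ) * I := by
      apply Complex.ext <;> simp
    rw [h5, norm_mul, norm_I, mul_one, norm_real, Real.norm_eq_abs] at h4
    exact h4
  set ε : ℕ → ℝ := fun n => 1 / ((n : ℝ) + 1) with hε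
  have hεpos : ∀ n, 0 < ε n := fun n => by simp only [hε]; positivity
  set F : ℕ → ℂ → ℂ := fun n z => q z * dbar (fun w => χ w * th (ε n) w) z with hF
  have hdb : ∀ n z, dbar (fun w => χ w * th (ε n) w) z =
      dbar χ z * th (ε n) z + χ z * dbar (th (ε n)) z := fun n z =>
    dbar_mul (h1'.differentiable one_ne_zero z) ((contDiff_th (ε n)).differentiable (by simp) z)
  have hFz : ∀ n, ∫ z in B ∩ HP, F n z = 0 := by
    intro n
    have ht1 : ContDiff ℝ ∞ (fun w => χ w * th (ε n) w) := h1.mul (contDiff_th _)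
    have ht2 : HasCompactSupport (fun w => χ w * th (ε n) w) := h2.mul_right
    have ht3 := tsupport_mul_th (hεpos n) h3
    have hw' := hw _ ht1 ht2 ht3
    rw [← hw']
    rw [← integral_indicator (hB.inter measurableSet_HP)]
    refine integral_congr_ae (Eventually.of_forall fun z => ?_)
    by_cases hz : z ∈ B ∩ HP
    · simp [indicator_of_mem hz, hF]
    · have hz' : dbar (fun w => χ w * th (ε n) w) z = 0 :=
        dbar_zero_of_notMem (fun h => hz (ht3 h))
      simp [indicator_of_notMem hz, hz']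
  have hlim : Tendsto (fun n => ∫ z in B ∩ HP, F n z) atTop
      (𝓝 (∫ z in B ∩ HP, q z * dbar χ z)) := by
    refine tendsto_integral_of_dominated_convergence (fun z => ‖q z‖ * (M + L * C0)) ?_ ?_ ?_ ?_
    · intro n
      have hc : Continuous (dbar (fun w => χ w * th (ε n) w)) :=
        continuous_dbar ((h1'.mul ((contDiff_th (ε n)).of_le (by exact_mod_cast le_top))))
      exact hq.aestronglyMeasurable.mul hc.aestronglyMeasurable.restrict
    · exact hq.norm.mul_const _
    · intro n
      refine (ae_restrict_iff' (hB.inter measurableSet_HP)).mpr (Eventually.of_forall fun z hz => ?_)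
      simp only [hF]
      rw [norm_mul, hdb]
      have hzim : 0 < z.im := hz.2
      refine mul_le_mul_of_nonneg_left ?_ (norm_nonneg _)
      refine (norm_add_le _ _).trans (add_le_add ?_ ?_)
      · rw [norm_mul]
        calc ‖dbar χ z‖ * ‖th (ε n) z‖ ≤ M * 1 := by
              gcongr
              · exact (norm_nonneg _).trans (hM z)
              · exact hM z
              · exact norm_th_le _ _
          _ = M := mul_one M
      · rw [norm_mul]
        by_cases h2e : 2 * ε n < z.im
        · rw [dbar_th_zero (hεpos n) h2e]; simp; positivity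
        · rw [dbar_th, norm_mul, norm_real, norm_div, norm_I]
          have h6 : ‖(2 : ℂ)‖ = 2 := by norm_num
          rw [h6, Real.norm_eq_abs, abs_div, abs_of_pos (hεpos n)]
          calc ‖χ z‖ * (1 / 2 * (|deriv Real.smoothTransition (z.im / ε n - 1)| / ε n))
              ≤ (L * |z.im|) * (1 / 2 * (C0 / ε n)) := by
                gcongr
                · exact hχ z
                · exact hC _
            _ = L * C0 * (z.im / (2 * ε n)) := by
                rw [abs_of_pos hzim]
                have := (hεpos n).ne'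
                field_simp
            _ ≤ L * C0 * 1 := by
                gcongr
                rw [div_le_one (by have := hεpos n; positivity)]
                exact not_lt.mp h2e
            _ = L * C0 := mul_one _
    · refine (ae_restrict_iff' (hB.inter measurableSet_HP)).mpr (Eventually.of_forall fun z hz => ?_)
      have hzim : 0 < z.im := hz.2
      refine tendsto_const_nhds.congr' ?_
      have hev : ∀ᶠ n : ℕ in atTop, 2 * ε n < z.im := by
        have : Tendsto (fun n : ℕ => 2 * ε n) atTop (𝓝 (2 * 0)) :=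
          (tendsto_one_div_add_atTop_nhds_zero_nat).const_mul 2
        rw [mul_zero] at this
        exact this.eventually (gt_mem_nhds hzim)
      filter_upwards [hev] with n hn
      simp only [hF]
      rw [hdb, th_one (hεpos n) hn.le, dbar_th_zero (hεpos n) hn]
      simp
  have h7 : (fun n => ∫ z in B ∩ HP, F n z) = fun _ => 0 := funext hFz
  rw [h7] at hlim
  exact (tendsto_nhds_unique hlim tendsto_const_nhds)

end Crest.Agent.R165.Cl6x722
end

-- ▼ part R165/Cl7_722

/-!
# Row 165, block R-f: reflection of weakly holomorphic `L¹` functions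
-/

open MeasureTheory Set Filter Topology Complex Metric
open scoped ENNReal NNReal ContDiff Convolution ComplexConjugate

namespace Crest.Agent.R165.Cl7x722

open Cl1x722 Cl2x722 Cl3x722 Cl4x722 Cl5x722 Cl6x722

/-- `χ` is a real test function compactly supported in `B` -/
structure RTest (B : Set ℂ) (χ : ℂ → ℝ) : Prop where
  smooth : ContDiff ℝ ∞ χ
  cpt : HasCompactSupport χ
  supp : tsupport χ ⊆ B

/-- a real function as a complex one -/
def cx (χ : ℂ → ℝ) (z : ℂ) : ℂ := (χ z : ℂ)

lemma RTest.cx_smooth {B : Set ℂ} {χ : ℂ → ℝ} (h : RTest B χ) : ContDiff ℝ ∞ (cx χ) :=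
  ofRealCLM.contDiff.comp h.smooth

lemma RTest.cx_cpt {B : Set ℂ} {χ : ℂ → ℝ} (h : RTest B χ) : HasCompactSupport (cx χ) :=
  h.cpt.comp_left (g := fun x : ℝ => (x : ℂ)) (by simp)

lemma RTest.cx_supp {B : Set ℂ} {χ : ℂ → ℝ} (h : RTest B χ) : tsupport (cx χ) ⊆ B := by
  refine (closure_mono fun z hz => ?_).trans h.supp
  intro h0; exact hz (by simp [cx, h0])

/-- the reflected function -/
noncomputable def refl (q : ℂ → ℂ) (z : ℂ) : ℂ :=
  if 0 < z.im then q z else if z.im < 0 then conj (q (conj z)) else 0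

lemma refl_up {q : ℂ → ℂ} {z : ℂ} (h : 0 < z.im) : refl q z = q z := if_pos h

lemma refl_dn {q : ℂ → ℂ} {z : ℂ} (h : z.im < 0) : refl q z = conj (q (conj z)) := by
  rw [refl, if_neg (not_lt.mpr h.le), if_pos h]

lemma refl_conj (q : ℂ → ℂ) (z : ℂ) : refl q (conj z) = conj (refl q z) := by
  rcases lt_trichotomy z.im 0 with h | h | h
  · rw [refl_up (by simpa using h), refl_dn h, conj_conj]
  · simp [refl, h]
  · rw [refl_dn (by simpa using h), refl_up h, conj_conj]

/-- the lower half plane -/
def HM : Set ℂ := {z | z.im < 0}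

lemma isOpen_HM : IsOpen HM := isOpen_lt continuous_im continuous_const

lemma measurableSet_HM : MeasurableSet HM := isOpen_HM.measurableSet

lemma volume_im_eq_zero : volume {z : ℂ | z.im = 0} = 0 := by
  have h1 : {z : ℂ | z.im = 0} = (LinearMap.ker imCLM.toLinearMap : Submodule ℝ ℂ) := by
    ext z; simp
  rw [h1]
  refine Measure.addHaar_submodule _ _ ?_
  intro h
  have : (I : ℂ) ∈ (LinearMap.ker imCLM.toLinearMap : Submodule ℝ ℂ) := by rw [h]; trivial
  simp at this

lemma mp_conj : MeasurePreserving (fun z : ℂ => conj z) volume volume :=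
  (conjLIE : ℂ ≃ₗᵢ[ℝ] ℂ).measurePreserving

lemma integral_conj_HM {B : Set ℂ} (hB : ∀ z, conj z ∈ B ↔ z ∈ B) (f : ℂ → ℂ) :
    ∫ z in B ∩ HM, f z = ∫ z in B ∩ HP, f (conj z) := by
  have hemb : MeasurableEmbedding (fun z : ℂ => conj z) :=
    (conjLIE : ℂ ≃ₗᵢ[ℝ] ℂ).toHomeomorph.measurableEmbedding
  rw [← mp_conj.setIntegral_preimage_emb hemb f (B ∩ HM)]
  congr 2
  ext z
  simp [hB, HM, HP]

lemma integrableOn_conj_HM {B : Set ℂ} (hB : ∀ z, conj z ∈ B ↔ z ∈ B) {f : ℂ → ℂ}
    (hf : IntegrableOn (fun z => f (conj z)) (B ∩ HP)) : IntegrableOn f (B ∩ HM) := by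
  have hemb : MeasurableEmbedding (fun z : ℂ => conj z) :=
    (conjLIE : ℂ ≃ₗᵢ[ℝ] ℂ).toHomeomorph.measurableEmbedding
  have h := mp_conj.integrableOn_comp_preimage hemb (f := f) (s := B ∩ HM)
  rw [← h]
  have hs : (fun z : ℂ => conj z) ⁻¹' (B ∩ HM) = B ∩ HP := by
    ext z
    simp [hB, HM, HP]
  rw [hs]; exact hf

lemma dbar_comp_conj {χ : ℂ → ℝ} (h : Differentiable ℝ χ) (z : ℂ) :
    dbar (cx (fun w => χ (conj w))) z = conj (dbar (cx χ) (conj z)) := by
  have e1 : ∀ (ξ : ℂ → ℝ) (z : ℂ), DifferentiableAt ℝ ξ z → ∀ e : ℂ,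
      fderiv ℝ (cx ξ) z e = ((fderiv ℝ ξ z e : ℝ) : ℂ) := by
    intro ξ z hξ e
    have : HasFDerivAt (cx ξ) (ofRealCLM.comp (fderiv ℝ ξ z)) z :=
      (ofRealCLM.hasFDerivAt).comp z hξ.hasFDerivAt
    rw [this.fderiv]; simp
  have hc : HasFDerivAt (fun w : ℂ => conj w) (conjCLE.toContinuousLinearMap) z :=
    conjCLE.hasFDerivAt
  have h2 : HasFDerivAt (fun w => χ (conj w))
      ((fderiv ℝ χ (conj z)).comp (conjCLE.toContinuousLinearMap)) z :=
    (h (conj z)).hasFDerivAt.comp z hc
  rw [dbar, dbar, e1 _ z h2.differentiableAt, e1 _ z h2.differentiableAt, e1 _ _ (h _),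
    e1 _ _ (h _), h2.fderiv]
  have h3 : (fderiv ℝ χ (conj z)) (conj I) = -(fderiv ℝ χ (conj z)) I := by
    rw [conj_I, map_neg]
  simp only [ContinuousLinearMap.comp_apply, map_div₀, map_add, map_mul, conj_ofReal, conj_I]
  simp [h3, map_ofNat]

/-- **Reflection for the square**: a weakly holomorphic `L¹` function on the upper half of a
conjugation invariant open set which annihilates (in real part) the real test functions crossing the
real line extends by reflection to a weakly holomorphic function. -/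
theorem wdbar_refl {B : Set ℂ} (hBo : IsOpen B) (hB : ∀ z, conj z ∈ B ↔ z ∈ B) {q : ℂ → ℂ}
    (hq : IntegrableOn q (B ∩ HP)) (hw : WDbar (B ∩ HP) q 0)
    (hre : ∀ χ : ℂ → ℝ, RTest B χ → (∫ z in B ∩ HP, q z * dbar (cx χ) z).re = 0) :
    IntegrableOn (refl q) B ∧ WDbar B (refl q) 0 := by
  have hBm : MeasurableSet B := hBo.measurableSet
  -- integrability of the reflected function
  have hup : IntegrableOn (refl q) (B ∩ HP) := by
    refine hq.congr_fun (fun z hz => ?_) (hBm.inter measurableSet_HP)
    exact (refl_up hz.2).symm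
  have hdn : IntegrableOn (refl q) (B ∩ HM) := by
    refine integrableOn_conj_HM hB ?_
    have h1 : IntegrableOn (fun z => conj (q z)) (B ∩ HP) := by
      have := (conjCLE : ℂ ≃L[ℝ] ℂ).toContinuousLinearMap.integrable_comp hq
      exact this
    refine h1.congr_fun (fun z hz => ?_) (hBm.inter measurableSet_HP)
    simp only
    rw [refl_conj, refl_up hz.2]
  have hsplit : ∀ᵐ z, z ∈ B ↔ z ∈ (B ∩ HP) ∪ (B ∩ HM) := by
    have h0 : ∀ᵐ z : ℂ, ¬ z.im = 0 := by
      rw [ae_iff]; simpa using volume_im_eq_zero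
    filter_upwards [h0] with z hz
    constructor
    · intro h
      rcases lt_or_gt_of_ne hz with h1 | h1
      · right; exact ⟨h, h1⟩
      · left; exact ⟨h, h1⟩
    · rintro (h | h)
      · exact h.1
      · exact h.1
  have hset : B =ᵐ[volume] ((B ∩ HP) ∪ (B ∩ HM) : Set ℂ) := by
    filter_upwards [hsplit] with z hz
    exact propext hz
  have hBi : IntegrableOn (refl q) B := by
    rw [integrableOn_congr_set_ae hset]
    exact hup.union hdn
  refine ⟨hBi, ?_⟩
  have hdisj : Disjoint (B ∩ HP) (B ∩ HM) := by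
    rw [Set.disjoint_left]
    rintro z ⟨_, h1⟩ ⟨_, h2⟩
    exact lt_asymm (show 0 < z.im from h1) h2
  -- real test functions
  have hreal : ∀ χ : ℂ → ℝ, RTest B χ → ∫ z in B, refl q z * dbar (cx χ) z = 0 := by
    intro χ hχ
    have hc1 : ContDiff ℝ 1 (cx χ) := hχ.cx_smooth.of_le (by exact_mod_cast le_top)
    obtain ⟨M, hM⟩ := (hasCompactSupport_dbar hχ.cx_cpt).exists_bound_of_continuous
      (continuous_dbar hc1)
    have hmi : ∀ {S : Set ℂ}, IntegrableOn (refl q) S →
        IntegrableOn (fun z => refl q z * dbar (cx χ) z) S := fun {S} hS =>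
      hS.mul_bdd (continuous_dbar hc1).aestronglyMeasurable (Eventually.of_forall hM)
    rw [setIntegral_congr_set hset, setIntegral_union hdisj (hBm.inter measurableSet_HM)
      (hmi hup) (hmi hdn)]
    set χs : ℂ → ℝ := fun w => χ (conj w) with hχs
    have hχs1 : RTest B χs := by
      refine ⟨hχ.smooth.comp conjCLE.contDiff, ?_, ?_⟩
      · exact hχ.cpt.comp_homeomorph (conjCLE : ℂ ≃L[ℝ] ℂ).toHomeomorph
      · intro z hz
        have : conj z ∈ tsupport χ := by
          have h5 : tsupport χs = (fun z : ℂ => conj z) ⁻¹' tsupport χ := by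
            have := tsupport_comp_eq_preimage χ (conjCLE : ℂ ≃L[ℝ] ℂ).toHomeomorph
            exact this
          rw [h5] at hz; exact hz
        exact (hB z).mp (hχ.supp this)
    have e1 : ∫ z in B ∩ HP, refl q z * dbar (cx χ) z = ∫ z in B ∩ HP, q z * dbar (cx χ) z := by
      refine setIntegral_congr_fun (hBm.inter measurableSet_HP) (fun z hz => ?_)
      rw [refl_up hz.2]
    have e2 : ∫ z in B ∩ HM, refl q z * dbar (cx χ) z =
        conj (∫ z in B ∩ HP, q z * dbar (cx χs) z) := by
      rw [integral_conj_HM hB, ← integral_conj]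
      refine setIntegral_congr_fun (hBm.inter measurableSet_HP) (fun z hz => ?_)
      rw [refl_conj, refl_up hz.2, map_mul, hχs,
        dbar_comp_conj (hχ.smooth.differentiable (by simp)), conj_conj]
    have e3 : ∫ z in B ∩ HP, q z * dbar (cx χs) z = ∫ z in B ∩ HP, q z * dbar (cx χ) z := by
      have hd : ContDiff ℝ ∞ (fun z => cx χs z - cx χ z) := hχs1.cx_smooth.sub hχ.cx_smooth
      have hdc : HasCompactSupport (fun z => cx χs z - cx χ z) := hχs1.cx_cpt.sub hχ.cx_cpt
      have hds : tsupport (fun z => cx χs z - cx χ z) ⊆ B := by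
        refine (tsupport_sub _ _).trans ?_
        exact union_subset hχs1.cx_supp hχ.cx_supp
      have hd0 : ∀ x : ℝ, cx χs x - cx χ x = 0 := by
        intro x; simp [cx, hχs]
      have h6 := integral_vanish hBm hq hw hd hdc hds hd0
      have hc1s : ContDiff ℝ 1 (cx χs) := hχs1.cx_smooth.of_le (by exact_mod_cast le_top)
      obtain ⟨M2, hM2⟩ := (hasCompactSupport_dbar hχs1.cx_cpt).exists_bound_of_continuous
        (continuous_dbar hc1s)
      have h7 : ∀ z, dbar (fun z => cx χs z - cx χ z) z = dbar (cx χs) z - dbar (cx χ) z := by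
        intro z
        have h8 : fderiv ℝ (fun z => cx χs z - cx χ z) z = fderiv ℝ (cx χs) z - fderiv ℝ (cx χ) z :=
          fderiv_fun_sub (hc1s.differentiable one_ne_zero z) (hc1.differentiable one_ne_zero z)
        simp only [dbar, h8, _root_.sub_apply]; ring
      simp_rw [h7, mul_sub] at h6
      rw [integral_sub] at h6
      · exact sub_eq_zero.mp h6
      · exact hq.mul_bdd (continuous_dbar hc1s).aestronglyMeasurable (Eventually.of_forall hM2)
      · exact hq.mul_bdd (continuous_dbar hc1).aestronglyMeasurable (Eventually.of_forall hM)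
    rw [e1, e2, e3]
    have := hre χ hχ
    apply Complex.ext
    · simp [this]
    · simp
  -- complex test functions
  intro χ h1 h2 h3
  have hR : RTest B (fun z => (χ z).re) := by
    refine ⟨reCLM.contDiff.comp h1, h2.comp_left (g := fun w : ℂ => w.re) (by simp), ?_⟩
    refine (closure_mono fun z hz => ?_).trans h3
    intro h0; exact hz (by simp [h0])
  have hI : RTest B (fun z => (χ z).im) := by
    refine ⟨imCLM.contDiff.comp h1, h2.comp_left (g := fun w : ℂ => w.im) (by simp), ?_⟩
    refine (closure_mono fun z hz => ?_).trans h3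
    intro h0; exact hz (by simp [h0])
  have hsum : ∀ z, dbar χ z = dbar (cx fun z => (χ z).re) z + I * dbar (cx fun z => (χ z).im) z := by
    intro z
    have hd1 := hR.cx_smooth.differentiable (by simp) z
    have hd2 := hI.cx_smooth.differentiable (by simp) z
    have h8 : χ = fun z => cx (fun z => (χ z).re) z + I * cx (fun z => (χ z).im) z := by
      funext z; simp only [cx]; rw [mul_comm]; exact (re_add_im _).symm
    have h9 : fderiv ℝ χ z = fderiv ℝ (cx fun z => (χ z).re) z + I • fderiv ℝ (cx fun z => (χ z).im) z := by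
      conv_lhs => rw [h8]
      rw [fderiv_fun_add hd1 (hd2.const_mul I), fderiv_const_mul hd2]
    simp only [dbar, h9, _root_.add_apply, _root_.smul_apply, smul_eq_mul]; ring
  have h10 : ∫ z, (refl q z * dbar χ z + (0 : ℂ → ℂ) z * χ z) = ∫ z in B, refl q z * dbar χ z := by
    rw [← integral_indicator hBm]
    refine integral_congr_ae (Eventually.of_forall fun z => ?_)
    by_cases hz : z ∈ B
    · simp [indicator_of_mem hz]
    · have hz' : dbar χ z = 0 := dbar_zero_of_notMem (fun h => hz (h3 h))
      simp [indicator_of_notMem hz, hz']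
  rw [h10]
  simp_rw [hsum]
  have hmi : ∀ {χ : ℂ → ℝ}, RTest B χ →
      IntegrableOn (fun z => refl q z * dbar (cx χ) z) B := by
    intro χ hχ
    have hc1 : ContDiff ℝ 1 (cx χ) := hχ.cx_smooth.of_le (by exact_mod_cast le_top)
    obtain ⟨M, hM⟩ := (hasCompactSupport_dbar hχ.cx_cpt).exists_bound_of_continuous
      (continuous_dbar hc1)
    exact hBi.mul_bdd (continuous_dbar hc1).aestronglyMeasurable (Eventually.of_forall hM)
  have h11 : ∫ z in B, refl q z * (dbar (cx fun z => (χ z).re) z + I * dbar (cx fun z => (χ z).im) z) =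
      (∫ z in B, refl q z * dbar (cx fun z => (χ z).re) z) +
      I * ∫ z in B, refl q z * dbar (cx fun z => (χ z).im) z := by
    rw [← integral_const_mul, ← integral_add (hmi hR) ((hmi hI).const_mul I)]
    refine integral_congr_ae (Eventually.of_forall fun z => ?_)
    simp only; ring
  rw [h11, hreal _ hR, hreal _ hI]; simp

end Crest.Agent.R165.Cl7x722
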