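import Crest.Agent.R165.Cl7b_999
import Crest.Agent.R165.SpC_583
import Crest.Agent.R165.Sq4_54

-- ▼ part R165/Cl7c_999
section

/-!
# Row 165, block R, leaf R7, part c: exact solutions near a cluster

`ex1c`: `|e|_{B_s} ≤ C (s/r) |e|_{B_r}` for `A e = 0` on `B_r`, all `R ≤ s ≤ r`, constants absolute
(they depend only on the constants of the plane kernel and of the square trick).
-/

set_option autoImplicit false

noncomputable section

namespace Crest.Agent.R165.Cl7x999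

open Finset Crest.Agent.R165.Tr1x40 Crest.Agent.R165.Schurx811

variable {c : ℝ}

set_option maxHeartbeats 1000000 in
/-- response of the cluster to an exact solution -/
theorem resp {Cs : ℝ} (P : PK c) (hSQ : SQ Cs) : ∃ C : ℝ, 0 < C ∧ ∃ M : ℕ, 16 ≤ M ∧
    ∀ (w : Fld) (o : Face) (R r : ℕ), 1 ≤ R → M * R ≤ r → Clu w o R → ∀ e : Fld,
      (∀ f, dd f o ≤ r → A w e f = 0) →
      (r : ℝ) ^ 2 * E2 (bx o (8 * R)) e ≤ C * (R : ℝ) ^ 2 * E2 (bx o r) e ∧
      E2 (bx o r) (Freg P w o R e) ≤ C * E2 (bx o r) e := by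
  obtain ⟨CK, hCK, hK⟩ := Kest P hSQ
  set CI : ℝ := 102400 * c ^ 2 + 100 with hCI
  have hCI0 : 0 < CI := by rw [hCI]; positivity
  obtain ⟨M, hM⟩ := exists_nat_ge (2 * (81 * 60000 * c ^ 2 * CK * CI) + 16)
  have hA0 : 0 ≤ 81 * 60000 * c ^ 2 * CK * CI := by positivity
  have hM16 : (16 : ℝ) ≤ M := by linarith
  have hM16' : 16 ≤ M := by exact_mod_cast hM16
  refine ⟨324 * CK * CI + 2 + 60000 * c ^ 2 * (324 * CK * CI), by positivity, M, hM16', ?_⟩
  intro w o R r hR hr hw e he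
  have hRr : (1 : ℝ) ≤ R := by exact_mod_cast hR
  have hR0 : (0 : ℝ) < R := by linarith
  have hr16 : 16 * R ≤ r := (Nat.mul_le_mul_right R hM16').trans hr
  have hrr : (M : ℝ) * R ≤ r := by exact_mod_cast hr
  have hr16' : 16 * (R : ℝ) ≤ r := by exact_mod_cast hr16
  have hr0 : (0 : ℝ) < r := by linarith
  set F := Freg P w o R e with hF
  set ε := eps w o R e with hε
  set u2 := E2 (bx o (8 * R)) e with hu2
  set E := E2 (bx o r) e with hE
  have hu0 : 0 ≤ u2 := E2_nonneg _ _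
  have hE0 : 0 ≤ E := E2_nonneg _ _
  have hAF : ∀ f, dd f o ≤ r → A wc F f = 0 := by
    intro f hf
    rw [hF, A_Freg P hw hR]
    funext h
    simp [sm, he f hf]
  have h1 : u2 ≤ CK * E2 (bx o (8 * R)) F := by
    have h2 := hK w o R hR hw e
    have h3 : E2 (bx o (8 * R)) (A w e) = 0 := by
      apply sum_eq_zero
      intro f hf
      rw [mem_bx] at hf
      rw [he f (by omega), nsq_zero]
    rw [h3, mul_zero, add_zero] at h2
    exact h2
  have h2 := interior P o (8 * R) r (by omega) F hAF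
  have he2 : 4 * (R : ℝ) ^ 2 * E2 (bx o (4 * R)) ε ≤ u2 := by
    have h1 := E2_eps hw hR e
    push_cast at h1
    have h2 : E2 (bx o (4 * R)) ε ≤ (1 / (2 * (R : ℝ))) ^ 2 * u2 := h1
    have h3 : (1 / (2 * (R : ℝ))) ^ 2 * u2 = u2 / (4 * R ^ 2) := by field_simp; ring
    rw [h3, le_div_iff₀ (by positivity)] at h2
    linarith
  have hcv : E2 (bx o r) (cv P.K (bx o (4 * R)) ε) * R ≤ 30000 * c ^ 2 * r * u2 := by
    have h3 := E2_cv_bx P o (4 * R) r ε
    push_cast at h3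
    have he0 := E2_nonneg (bx o (4 * R)) ε
    have h4 : 12000 * c ^ 2 * (4 * (R : ℝ) + 1) * (4 * R + r + 1) * E2 (bx o (4 * R)) ε
        ≤ 12000 * c ^ 2 * (5 * R) * (2 * r) * E2 (bx o (4 * R)) ε := by
      gcongr <;> linarith
    have h5 : 12000 * c ^ 2 * (5 * (R : ℝ)) * (2 * r) * E2 (bx o (4 * R)) ε * R
        = 30000 * c ^ 2 * r * (4 * R ^ 2 * E2 (bx o (4 * R)) ε) := by ring
    have h6 : 30000 * c ^ 2 * r * (4 * (R : ℝ) ^ 2 * E2 (bx o (4 * R)) ε)
        ≤ 30000 * c ^ 2 * r * u2 := by gcongr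
    nlinarith [mul_le_mul_of_nonneg_right (h3.trans h4) hR0.le]
  have hFr : E2 (bx o r) F * R ≤ 2 * E * R + 60000 * c ^ 2 * r * u2 := by
    have h3 : E2 (bx o r) F ≤ 2 * E2 (bx o r) (sm (ci (chi o R)) e)
        + 2 * E2 (bx o r) (cv P.K (bx o (4 * R)) ε) := E2_add_le _ _ _
    have h4 : E2 (bx o r) (sm (ci (chi o R)) e) ≤ E := E2_sm_le fun f _ => ci_chi_sq f
    nlinarith
  have hFr0 : 0 ≤ E2 (bx o r) F := E2_nonneg _ _
  -- u2 ≤ CK CI (9R/r)² E2 F
  have h3 : (r : ℝ) ^ 2 * u2 ≤ 81 * CK * CI * R ^ 2 * E2 (bx o r) F := by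
    have h4 : (((8 * R : ℕ) : ℝ) + 1) / (r + 1) ≤ 9 * R / r := by
      push_cast
      rw [div_le_div_iff₀ (by positivity) hr0]
      nlinarith
    have h5 : ((((8 * R : ℕ) : ℝ) + 1) / (r + 1)) ^ 2 ≤ (9 * R / r) ^ 2 :=
      pow_le_pow_left₀ (by positivity) h4 2
    have h6 : u2 ≤ CK * (CI * (9 * R / r) ^ 2 * E2 (bx o r) F) := by
      refine h1.trans (mul_le_mul_of_nonneg_left (h2.trans ?_) hCK.le)
      gcongr
    calc (r : ℝ) ^ 2 * u2 ≤ r ^ 2 * (CK * (CI * (9 * R / r) ^ 2 * E2 (bx o r) F)) := by gcongr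
      _ = 81 * CK * CI * R ^ 2 * E2 (bx o r) F := by field_simp; ring
  -- absorb
  have h4 : (r : ℝ) ^ 2 * u2 ≤ 324 * CK * CI * R ^ 2 * E := by
    have h5 : 81 * CK * CI * (R : ℝ) ^ 2 * E2 (bx o r) F
        ≤ 81 * CK * CI * R * (2 * E * R + 60000 * c ^ 2 * r * u2) := by
      have : 81 * CK * CI * (R : ℝ) ^ 2 * E2 (bx o r) F
          = 81 * CK * CI * R * (E2 (bx o r) F * R) := by ring
      rw [this]; gcongr
    have h6 : 81 * CK * CI * R * (2 * E * R + 60000 * c ^ 2 * r * u2)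
        = 162 * CK * CI * R ^ 2 * E + (81 * 60000 * c ^ 2 * CK * CI) * R * (r * u2) := by ring
    have h7 : (81 * 60000 * c ^ 2 * CK * CI) * (R : ℝ) ≤ r / 2 := by nlinarith
    have h8 : (81 * 60000 * c ^ 2 * CK * CI) * (R : ℝ) * (r * u2) ≤ r / 2 * (r * u2) := by
      gcongr
    nlinarith
  have hrest : 0 ≤ 60000 * c ^ 2 * (324 * CK * CI) := by positivity
  have hKI : 0 ≤ 324 * CK * CI := by positivity
  constructor
  · have h9 : 0 ≤ (R : ℝ) ^ 2 * E := by positivity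
    nlinarith
  · have h5 : 60000 * c ^ 2 * r * u2 ≤ 60000 * c ^ 2 * (324 * CK * CI) * E * R := by
      have h6 : (r : ℝ) * u2 ≤ 324 * CK * CI * E * R := by
        have h7 : (r : ℝ) * (r * u2) ≤ r * (324 * CK * CI * E * R) := by
          have h8 : 324 * CK * CI * (R : ℝ) ^ 2 * E ≤ r * (324 * CK * CI * E * R) := by
            have : 0 ≤ 324 * CK * CI * E * R := by positivity
            nlinarith
          nlinarith
        exact le_of_mul_le_mul_left h7 hr0
      calc 60000 * c ^ 2 * r * u2 = 60000 * c ^ 2 * (r * u2) := by ring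
        _ ≤ 60000 * c ^ 2 * (324 * CK * CI * E * R) := by gcongr
        _ = _ := by ring
    have h6 : E2 (bx o r) F * R ≤ (2 * E + 60000 * c ^ 2 * (324 * CK * CI) * E) * R := by
      nlinarith
    have h7 := le_of_mul_le_mul_right h6 hR0
    nlinarith

set_option maxHeartbeats 1000000 in
/-- **(EX1c)**: bulk growth rate of exact solutions around a cluster, at all scales `≥ R` -/
theorem ex1c {Cs : ℝ} (P : PK c) (hSQ : SQ Cs) : ∃ C : ℝ, 0 < C ∧
    ∀ (w : Fld) (o : Face) (R s r : ℕ), 1 ≤ R → R ≤ s → s ≤ r → Clu w o R → ∀ e : Fld,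
      (∀ f, dd f o ≤ r → A w e f = 0) →
      E2 (bx o s) e ≤ C * ((s : ℝ) / r) ^ 2 * E2 (bx o r) e := by
  obtain ⟨C1, hC1, M, hM, hresp⟩ := resp P hSQ
  set CI : ℝ := 102400 * c ^ 2 + 100 with hCI
  have hCI0 : 0 < CI := by rw [hCI]; positivity
  -- the main case
  have main : ∀ (w : Fld) (o : Face) (R s r : ℕ), 1 ≤ R → 8 * R ≤ s → s ≤ r → M * R ≤ r →
      Clu w o R → ∀ e : Fld, (∀ f, dd f o ≤ r → A w e f = 0) →
      E2 (bx o s) e ≤ (C1 + 2 * (4 * CI * C1) + 2 * (30000 * c ^ 2 * C1)) * ((s : ℝ) / r) ^ 2 *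
        E2 (bx o r) e := by
    intro w o R s r hR hs hsr hr hw e he
    obtain ⟨hu, hFr⟩ := hresp w o R r hR hr hw e he
    have hRr : (1 : ℝ) ≤ R := by exact_mod_cast hR
    have hR0 : (0 : ℝ) < R := by linarith
    have hs' : 8 * (R : ℝ) ≤ s := by exact_mod_cast hs
    have hsr' : (s : ℝ) ≤ r := by exact_mod_cast hsr
    have hs0 : (0 : ℝ) < s := by linarith
    have hr0 : (0 : ℝ) < r := by linarith
    set F := Freg P w o R e with hF
    set ε := eps w o R e with hε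
    set u2 := E2 (bx o (8 * R)) e with hu2
    set E := E2 (bx o r) e with hE
    have hu0 : 0 ≤ u2 := E2_nonneg _ _
    have hE0 : 0 ≤ E := E2_nonneg _ _
    have hAF : ∀ f, dd f o ≤ r → A wc F f = 0 := by
      intro f hf
      rw [hF, A_Freg P hw hR]
      funext h
      simp [sm, he f hf]
    have hint := interior P o s r hsr F hAF
    have he2 : 4 * (R : ℝ) ^ 2 * E2 (bx o (4 * R)) ε ≤ u2 := by
      have h1 := E2_eps hw hR e
      push_cast at h1
      have h2 : E2 (bx o (4 * R)) ε ≤ (1 / (2 * (R : ℝ))) ^ 2 * u2 := h1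
      have h3 : (1 / (2 * (R : ℝ))) ^ 2 * u2 = u2 / (4 * R ^ 2) := by field_simp; ring
      rw [h3, le_div_iff₀ (by positivity)] at h2
      linarith
    have hcv : E2 (bx o s) (cv P.K (bx o (4 * R)) ε) * R ≤ 30000 * c ^ 2 * s * u2 := by
      have h3 := E2_cv_bx P o (4 * R) s ε
      push_cast at h3
      have he0 := E2_nonneg (bx o (4 * R)) ε
      have h4 : 12000 * c ^ 2 * (4 * (R : ℝ) + 1) * (4 * R + s + 1) * E2 (bx o (4 * R)) ε
          ≤ 12000 * c ^ 2 * (5 * R) * (2 * s) * E2 (bx o (4 * R)) ε := by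
        gcongr <;> linarith
      have h5 : 12000 * c ^ 2 * (5 * (R : ℝ)) * (2 * s) * E2 (bx o (4 * R)) ε * R
          = 30000 * c ^ 2 * s * (4 * R ^ 2 * E2 (bx o (4 * R)) ε) := by ring
      have h6 : 30000 * c ^ 2 * s * (4 * (R : ℝ) ^ 2 * E2 (bx o (4 * R)) ε)
          ≤ 30000 * c ^ 2 * s * u2 := by gcongr
      nlinarith [mul_le_mul_of_nonneg_right (h3.trans h4) hR0.le]
    -- u2 bound
    have hu' : u2 ≤ C1 * ((R : ℝ) / r) ^ 2 * E := by
      rw [div_pow, ← sub_nonneg]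
      have h1 : C1 * ((R : ℝ) ^ 2 / r ^ 2) * E - u2 = (C1 * R ^ 2 * E - r ^ 2 * u2) / r ^ 2 := by
        field_simp
      rw [h1]
      exact div_nonneg (by linarith) (by positivity)
    have hRs : ((R : ℝ) / r) ^ 2 ≤ ((s : ℝ) / r) ^ 2 := by
      apply pow_le_pow_left₀ (by positivity)
      gcongr
      linarith
    -- split
    have h1 : E2 (bx o s) e = u2 + E2 (bx o s \ bx o (8 * R)) e :=
      E2_split (bx_mono o hs) e
    have h2 : E2 (bx o s \ bx o (8 * R)) e ≤ 2 * E2 (bx o s) F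
        + 2 * E2 (bx o s) (cv P.K (bx o (4 * R)) ε) := by
      have h3 : E2 (bx o s \ bx o (8 * R)) e
          = E2 (bx o s \ bx o (8 * R)) (F - cv P.K (bx o (4 * R)) ε) := by
        apply E2_congr
        intro f hf
        rw [mem_sdiff, mem_bx, mem_bx] at hf
        have h0 : chi o R f = 0 := cut_eq_zero (by omega)
        funext h
        simp [hF, Freg, sm, ci, h0, hε]
      rw [h3]
      refine (E2_sub_le _ _ _).trans ?_
      have h4 := E2_mono (sdiff_subset : bx o s \ bx o (8 * R) ⊆ bx o s) F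
      have h5 := E2_mono (sdiff_subset : bx o s \ bx o (8 * R) ⊆ bx o s)
        (cv P.K (bx o (4 * R)) ε)
      linarith
    have h3 : E2 (bx o s) F ≤ 4 * CI * C1 * ((s : ℝ) / r) ^ 2 * E := by
      have h4 : ((s : ℝ) + 1) / (r + 1) ≤ 2 * (s / r) := by
        rw [← mul_div_assoc, div_le_div_iff₀ (by positivity) hr0]
        nlinarith
      have h5 : (((s : ℝ) + 1) / (r + 1)) ^ 2 ≤ (2 * (s / r)) ^ 2 :=
        pow_le_pow_left₀ (by positivity) h4 2
      calc E2 (bx o s) F ≤ CI * (((s : ℝ) + 1) / (r + 1)) ^ 2 * E2 (bx o r) F := hint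
        _ ≤ CI * (2 * (s / r)) ^ 2 * (C1 * E) := by
            apply mul_le_mul _ hFr (E2_nonneg _ _) (by positivity)
            exact mul_le_mul_of_nonneg_left h5 hCI0.le
        _ = _ := by ring
    have h4 : E2 (bx o s) (cv P.K (bx o (4 * R)) ε) ≤ 30000 * c ^ 2 * C1 * ((s : ℝ) / r) ^ 2 * E := by
      have h5 : 30000 * c ^ 2 * s * u2 ≤ 30000 * c ^ 2 * s * (C1 * ((R : ℝ) / r) ^ 2 * E) := by
        gcongr
      have h6 : 30000 * c ^ 2 * s * (C1 * ((R : ℝ) / r) ^ 2 * E)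
          ≤ 30000 * c ^ 2 * C1 * ((s : ℝ) / r) ^ 2 * E * R := by
        have e1 : 30000 * c ^ 2 * s * (C1 * ((R : ℝ) / r) ^ 2 * E)
            = 30000 * c ^ 2 * C1 * E * (R / r ^ 2) * (s * R) := by field_simp
        have e2 : 30000 * c ^ 2 * C1 * ((s : ℝ) / r) ^ 2 * E * R
            = 30000 * c ^ 2 * C1 * E * (R / r ^ 2) * (s * s) := by field_simp
        rw [e1, e2]
        gcongr
        linarith
      exact le_of_mul_le_mul_right (hcv.trans (h5.trans h6)) hR0
    have h5 : u2 ≤ C1 * ((s : ℝ) / r) ^ 2 * E := hu'.trans (by gcongr)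
    rw [h1]
    nlinarith
  refine ⟨64 * (C1 + 2 * (4 * CI * C1) + 2 * (30000 * c ^ 2 * C1)) + M ^ 2, by positivity, ?_⟩
  intro w o R s r hR hRs hsr hw e he
  set C := C1 + 2 * (4 * CI * C1) + 2 * (30000 * c ^ 2 * C1) with hC
  have hC0 : 0 < C := by rw [hC]; positivity
  have hRr : (1 : ℝ) ≤ R := by exact_mod_cast hR
  have hR0 : (0 : ℝ) < R := by linarith
  have hs' : (R : ℝ) ≤ s := by exact_mod_cast hRs
  have hsr' : (s : ℝ) ≤ r := by exact_mod_cast hsr
  have hs0 : (0 : ℝ) < s := by linarith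
  have hr0 : (0 : ℝ) < r := by linarith
  have hM0 : (0 : ℝ) ≤ M := Nat.cast_nonneg M
  have hE0 : 0 ≤ E2 (bx o r) e := E2_nonneg _ _
  by_cases hr : M * R ≤ r
  · by_cases hs8 : 8 * R ≤ s
    · refine (main w o R s r hR hs8 hsr hr hw e he).trans ?_
      gcongr
      nlinarith [sq_nonneg (M : ℝ)]
    · have h1 : E2 (bx o s) e ≤ E2 (bx o (8 * R)) e := E2_mono (bx_mono o (by omega)) e
      have h2 := main w o R (8 * R) r hR le_rfl (by
        have := Nat.mul_le_mul_right R hM; omega) hr hw e he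
      refine h1.trans (h2.trans ?_)
      push_cast
      have h3 : (8 * (R : ℝ) / r) ^ 2 ≤ 64 * ((s : ℝ) / r) ^ 2 := by
        rw [show 64 * ((s : ℝ) / r) ^ 2 = (8 * s / r) ^ 2 by ring]
        apply pow_le_pow_left₀ (by positivity)
        gcongr
      calc C * (8 * (R : ℝ) / r) ^ 2 * E2 (bx o r) e
          ≤ C * (64 * ((s : ℝ) / r) ^ 2) * E2 (bx o r) e := by gcongr
        _ = 64 * C * ((s : ℝ) / r) ^ 2 * E2 (bx o r) e := by ring
        _ ≤ _ := by
            gcongr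
            nlinarith [sq_nonneg (M : ℝ)]
  · have h1 : E2 (bx o s) e ≤ E2 (bx o r) e := E2_mono (bx_mono o hsr) e
    have h2 : (r : ℝ) ≤ M * s := by
      have : r ≤ M * R := by omega
      have h3 : (r : ℝ) ≤ M * R := by exact_mod_cast this
      nlinarith
    have h3 : 1 ≤ (M : ℝ) ^ 2 * ((s : ℝ) / r) ^ 2 := by
      rw [← mul_pow, ← mul_div_assoc]
      apply one_le_pow₀
      rw [le_div_iff₀ hr0]; linarith
    have h4 : 0 ≤ 64 * C * ((s : ℝ) / r) ^ 2 := by positivity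
    nlinarith

end Crest.Agent.R165.Cl7x999
end
end

-- ▼ part R165/Cl7d_999

/-!
# Row 165, block R, leaf R7, part d: instances

* `pk0 : PK 4000000`          from the plane propagator of helper583
* `sq0 : SQ 100000000000`     from the square trick of helper54
* `ex1c0`, `K0`               the cluster theorems without hypotheses
-/

set_option autoImplicit false

noncomputable section

namespace Crest.Agent.R165.Cl7x999

open Finset Crest.Agent.R165.Tr1x40 Crest.Agent.R165.Schurx811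

/-- the kernel -/
def K00 (d : Face) (a b : Fin 4) : ℝ := -Spx583.SP a b d.1 d.2

theorem dd_cast (d : Face) : (dd d 0 : ℝ) ≤ |(d.1 : ℝ)| + |(d.2 : ℝ)| := by
  have h1 : ((dd d 0 : ℕ) : ℝ) = max |(d.1 : ℝ)| |(d.2 : ℝ)| := by
    unfold dd
    rw [Nat.cast_max, Nat.cast_natAbs, Nat.cast_natAbs, Int.cast_abs, Int.cast_abs]
    simp
  rw [h1]
  exact max_le (le_add_of_nonneg_right (abs_nonneg _)) (le_add_of_nonneg_left (abs_nonneg _))

theorem A_wc_K00 (w f : Face) (a b : Fin 4) :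
    A wc (fun f c => K00 (f - w) c b) f a = if f = w ∧ a = b then 1 else 0 := by
  have h := Spx583.row_SP a b (f.1 - w.1) (f.2 - w.2)
  have e0 : A wc (fun f c => K00 (f - w) c b) f a
      = -Spx583.row Spx583.xc (fun c => Spx583.SP c b) a (f.1 - w.1) (f.2 - w.2) := by
    have e1 : f.2 - 1 - w.2 = f.2 - w.2 - 1 := by ring
    have e2 : f.1 + 1 - w.1 = f.1 - w.1 + 1 := by ring
    have e3 : f.2 + 1 - w.2 = f.2 - w.2 + 1 := by ring
    have e4 : f.1 - 1 - w.1 = f.1 - w.1 - 1 := by ring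
    have ex : xc = Spx583.xc := rfl
    fin_cases a <;>
      simp only [Fin.zero_eta, Fin.mk_one, Fin.reduceFinMk, A_S, A_E, A_N, A_W, K00, wc,
        Spx583.row, Prod.fst_sub, Prod.snd_sub, e1, e2, e3, e4, ex] <;> ring
  rw [e0, h]
  by_cases hf : f = w
  · subst hf
    simp only [sub_self, and_true, true_and]
    by_cases hab : a = b <;> simp [hab]
  · have : ¬ (f.1 - w.1 = 0 ∧ f.2 - w.2 = 0) := by
      rintro ⟨h1, h2⟩
      exact hf (Prod.ext (by linarith) (by linarith))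
    rw [if_neg (fun hh => this hh.2), if_neg (fun hh => hf hh.1), neg_zero]

theorem cv_eq_sum (J : Finset Face) (ε : Fld) :
    cv K00 J ε = ∑ w ∈ J, ∑ b, ε w b • (fun (f : Face) (c : Fin 4) => K00 (f - w) c b) := by
  funext f c
  simp only [cv, Finset.sum_apply, Pi.smul_apply, smul_eq_mul]
  exact sum_congr rfl fun w _ => sum_congr rfl fun b _ => mul_comm _ _

theorem right00 (J : Finset Face) (ε : Fld) (h : ∀ f, f ∉ J → ε f = 0) :
    A wc (cv K00 J ε) = ε := by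
  rw [cv_eq_sum, ← RIfx891.AL_apply, map_sum]
  simp only [map_sum, map_smul, RIfx891.AL_apply]
  funext f a
  simp only [Finset.sum_apply, Pi.smul_apply, smul_eq_mul, A_wc_K00]
  by_cases hf : f ∈ J
  · rw [sum_eq_single_of_mem f hf]
    · rw [sum_eq_single_of_mem a (mem_univ _)]
      · simp
      · intro b _ hb
        rw [if_neg (fun hh => hb hh.2.symm), mul_zero]
    · intro w _ hw
      apply sum_eq_zero
      intro b _
      rw [if_neg (fun hh => hw hh.1.symm), mul_zero]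
  · rw [h f hf]
    apply sum_eq_zero
    intro w hw
    apply sum_eq_zero
    intro b _
    rw [if_neg (fun hh : f = w ∧ a = b => hf (hh.1.symm ▸ hw)), mul_zero]

theorem A_wc_eq_Aop (φ : Fld) :
    A wc φ = Gapx811.Aop (fun _ => Gapx811.xc) (fun _ => Gapx811.xc) φ := by
  have ex : Gapx811.xc = xc := rfl
  funext f a
  have e1 : f - (0, 1) = (f.1, f.2 - 1) := by ext <;> simp
  have e2 : f + (1, 0) = (f.1 + 1, f.2) := by ext <;> simp
  have e3 : f + (0, 1) = (f.1, f.2 + 1) := by ext <;> simp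
  have e4 : f - (1, 0) = (f.1 - 1, f.2) := by ext <;> simp
  fin_cases a <;>
    simp [A_S, A_E, A_N, A_W, wc, Gapx811.Aop, Gapx811.A0, Gapx811.Yop, e1, e2, e3, e4, ex] <;> ring

theorem left00 (J : Finset Face) (ψ : Fld) (h1 : ∀ f, f ∉ J → ψ f = 0)
    (h2 : ∀ f, f ∉ J → A wc ψ f = 0) : cv K00 J (A wc ψ) = ψ := by
  funext z a
  have h := Spx583.planeKernel.inv J ψ h1 z a
  rw [h, ← A_wc_eq_Aop]
  unfold cv
  symm
  rw [tsum_eq_sum (s := J)]
  · rfl
  · intro w hw
    rw [h2 w hw]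
    simp

/-- the plane kernel -/
def pk0 : PK 4000000 where
  K := K00
  c_nonneg := by norm_num
  bound d a b := by
    unfold K00
    rw [abs_neg]
    refine (Spx583.SP_le a b _ _).trans ?_
    apply div_le_div_of_nonneg_left (by norm_num) (by positivity)
    have := dd_cast d
    linarith
  right := right00
  left := left00

theorem isSupp_iff {J : Finset Face} {φ : Fld} (h : ∀ f, f ∉ J → φ f = 0) : Sqx54.Supp J φ :=
  fun f hf k => by rw [h f hf]; rfl

theorem tsum_E2 {J : Finset Face} {φ : Fld} (h : ∀ f, f ∉ J → φ f = 0) :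
    ∑' f, nsq (φ f) = E2 J φ :=
  tsum_eq_sum fun f hf => by rw [h f hf, nsq_zero]

/-- the square trick on boxes -/
theorem sq0 : SQ 100000000000 := by
  refine ⟨by norm_num, ?_⟩
  intro w φ o s J hs hp h1 h2
  have hκ : ∀ z, ∑ f ∈ bx o s, Sqx54.wt (f - z) ≤ 8 * (1 + (s : ℝ)) := by
    intro z
    have h := SqKx470.kap_box (E := bx o s) (c := o) (r := (s : ℝ)) (Nat.cast_nonneg s)
      (fun f hf => by
        rw [mem_bx, dd_le_iff] at hf
        obtain ⟨⟨a1, a2⟩, a3, a4⟩ := hf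
        have b1 : (o.1 : ℝ) - s ≤ f.1 := by exact_mod_cast a1
        have b2 : (f.1 : ℝ) ≤ o.1 + s := by exact_mod_cast a2
        have b3 : (o.2 : ℝ) - s ≤ f.2 := by exact_mod_cast a3
        have b4 : (f.2 : ℝ) ≤ o.2 + s := by exact_mod_cast a4
        constructor <;> rw [abs_le] <;> constructor <;> linarith) z
    refine le_trans (le_of_eq (sum_congr rfl fun f _ => ?_)) h
    unfold Sqx54.wt
    simp only [Prod.fst_sub, Prod.snd_sub, Int.cast_sub]
  have h := Sqx54.sq_main hs hp (isSupp_iff h1) (bx o s) _ hκ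
  rw [tsum_E2 h1, tsum_E2 h2] at h
  refine h.trans (mul_le_mul_of_nonneg_right ?_ (by positivity))
  have : (0 : ℝ) ≤ s := Nat.cast_nonneg s
  nlinarith

/-- (K) -/
theorem K0 : ∃ CK : ℝ, 0 < CK ∧
    ∀ (w : Fld) (o : Face) (R : ℕ), 1 ≤ R → Clu w o R → ∀ φ : Fld,
      E2 (bx o (8 * R)) φ ≤ CK * (E2 (bx o (8 * R)) (Freg pk0 w o R φ)
        + (R : ℝ) ^ 2 * E2 (bx o (8 * R)) (A w φ)) := Kest pk0 sq0

/-- (EX1c) -/
theorem ex1c0 : ∃ C : ℝ, 0 < C ∧
    ∀ (w : Fld) (o : Face) (R s r : ℕ), 1 ≤ R → R ≤ s → s ≤ r → Clu w o R → ∀ e : Fld,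
      (∀ f, dd f o ≤ r → A w e f = 0) →
      E2 (bx o s) e ≤ C * ((s : ℝ) / r) ^ 2 * E2 (bx o r) e := ex1c pk0 sq0

/-- interior estimate of the plane -/
theorem interior0 (o : Face) (s r : ℕ) (hsr : s ≤ r) (F : Fld)
    (hF : ∀ f, dd f o ≤ r → A wc F f = 0) :
    E2 (bx o s) F ≤ (102400 * (4000000 : ℝ) ^ 2 + 100) * (((s : ℝ) + 1) / (r + 1)) ^ 2 *
      E2 (bx o r) F := interior pk0 o s r hsr F hF

end Crest.Agent.R165.Cl7x999
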