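import Crest.Agent.R165.NSum_915

/-!
# Row 165, block G: the linear step of the defect norm (helper915)

* `defect_step` : old large polymers / old small polymers near a defect set / new defect polymers
* `size_small`, `size_large`, `size_branch` : the factor `Γ ^ |U|_{r'}` against `Γ ^ |U|_r`
* `pack_of_close` : a set close to `b` points pairwise far apart has size `≥ b`
-/

set_option autoImplicit false

namespace Crest.Agent.R165.DefStepx915

open Finset
open scoped ENNReal
open Crest.Agent.R165.Packx915 Crest.Agent.R165.NSumx915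

variable {X : Type*} {d : X → X → ℕ} {r r' R : ℕ} {Γ : ℝ≥0∞}

/-- LINEAR STEP OF THE DEFECT NORM. `a` = old defect activities, `b` = old plane-like activities,
`a'` = new (linear part of the) defect activities.  Every polymer is of one of three kinds:
gaining (`qL`, large), transition (`qT`, source), or small near the defect set `A i`. -/
theorem defect_step (hd : PD d) {κ : Type*} [Fintype κ] (A : κ → Set X) (m N D : κ → ℕ)
    (q : κ → ℝ≥0∞) (nL : ℕ) (qL qT : ℝ≥0∞) (a b a' : Finset X → ℝ≥0∞)
    (hL : Cov d r' r nL) (hD : ∀ i, Cov d (m i + r) r (D i))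
    (hN : ∀ i, DCount d (A i) (r' + m i) r (N i))
    (hcls : ∀ U, a' U ≠ 0 →
      Γ ^ pack d r' U * a' U ≤ qL * (Γ ^ pack d r U * a U) ∨
      Γ ^ pack d r' U * a' U ≤ qT * (Γ ^ pack d r U * b U) ∨
      ∃ i, (∀ u ∈ U, ∃ x ∈ A i, d u x ≤ m i) ∧
        Γ ^ pack d r' U * a' U ≤ q i * (Γ ^ pack d r U * a U)) :
    NN d r' Γ a' ≤ (qL * nL + ∑ i, q i * ((N i * D i : ℕ) : ℝ≥0∞)) * NN d r Γ a
      + qT * nL * NN d r Γ b := by
  classical
  let cls : Option (Option κ) → Finset X → Prop := fun τ U => match τ with
    | none => Γ ^ pack d r' U * a' U ≤ qL * (Γ ^ pack d r U * a U)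
    | some none => Γ ^ pack d r' U * a' U ≤ qT * (Γ ^ pack d r U * b U)
    | some (some i) => (∀ u ∈ U, ∃ x ∈ A i, d u x ≤ m i) ∧
        Γ ^ pack d r' U * a' U ≤ q i * (Γ ^ pack d r U * a U)
  let src : Option (Option κ) → Finset X → ℝ≥0∞ := fun τ => match τ with
    | none => a
    | some none => b
    | some (some _) => a
  let qq : Option (Option κ) → ℝ≥0∞ := fun τ => match τ with
    | none => qL
    | some none => qT
    | some (some i) => q i
  let nn : Option (Option κ) → ℕ := fun τ => match τ with
    | none => nL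
    | some none => nL
    | some (some i) => N i * D i
  have key := NN_step (d := d) (r := r) (r' := r') (Γ := Γ) Finset.univ cls a' src qq nn
    (by
      intro U hU
      rcases hcls U hU with h | h | ⟨i, h⟩
      · exact ⟨none, Finset.mem_univ _, h⟩
      · exact ⟨some none, Finset.mem_univ _, h⟩
      · exact ⟨some (some i), Finset.mem_univ _, h⟩)
    (by
      intro τ _ U hU _
      match τ with
      | none => exact hU
      | some none => exact hU
      | some (some i) => exact hU.2)
    (by
      intro τ _ f
      match τ with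
      | none =>
        obtain ⟨net, h1, h2⟩ := hL.net f
        exact ⟨net, h1, fun U _ _ h => h2 U h⟩
      | some none =>
        obtain ⟨net, h1, h2⟩ := hL.net f
        exact ⟨net, h1, fun U _ _ h => h2 U h⟩
      | some (some i) =>
        obtain ⟨net, h1, h2⟩ := (hN i).net hd (hD i) f
        exact ⟨net, h1, fun U hU _ h => h2 U hU.1 h⟩)
  refine key.trans (le_of_eq ?_)
  rw [Fintype.sum_option, Fintype.sum_option]
  simp only [qq, nn, src]
  rw [add_mul, Finset.sum_mul]
  have : ∀ i : κ, q i * (((N i * D i : ℕ) : ℝ≥0∞) * NN d r Γ a) =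
      q i * ((N i * D i : ℕ) : ℝ≥0∞) * NN d r Γ a := fun i => by rw [mul_assoc]
  simp only [this]
  ring

/-! ### size factors -/

theorem size_small {U : Finset X} (hne : U.Nonempty) (h : pack d r U ≤ 1) (hr : r ≤ r') (x : ℝ≥0∞) :
    Γ ^ pack d r' U * x = Γ ^ pack d r U * x := by
  have h1 := pack_pos (d := d) (r := r') hne
  have h2 := pack_anti (d := d) (U := U) hr
  have h3 : pack d r' U = pack d r U := by omega
  rw [h3]




end Crest.Agent.R165.DefStepx915
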