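import Crest.Agent.R165.WtIso_898
import Crest.Agent.R165.PlaneSum_901
import Crest.Agent.R165.FRDLat_439
import Crest.Agent.R165.GeOps_337
import Crest.Agent.R165.Extr_417

-- ▼ part R165/WtD4_898
section

/-!
# Row 165 (S0250), block G: global symmetries (translations, rotation, reflection) (helper898)

`GIso w v` : a signed bijection of the half-edges, isometric on faces, which intertwines the
operators `A_w`, `A_v` up to a sign `ε = ±1` (`ε = -1` for the real form of the reflection).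

* `iter_pull`, `nnB_pull`, `dn_push`, `wt_push`, `wU_push`, `pnorm_push` : invariance of the weights
* `revG : Ge V →ₐ Ge V`, `pnorm_rev'`, `cvG_revG`
* `pull_slop`, `pull_Sop`, `SopC_push` : the slices are invariant up to `ε`
* `GIso.Φ : Ge (Fld G) →ₐ Ge (Fld H)` : `mpG push` for `ε = 1`, `revG ∘ mpG push` for `ε = -1`;
  `Φ_cvG`, `pG_Φ`, `ctG_Φ`, `EEG_Φ`
* `size_image`, `near_image`, `touch_image`, `NK_image`
* `gTau t`, `gRho y`, `gSig y : GIso (wPl ℤ) (wPl ℤ)` and the dictionary with 901's maps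
-/

set_option autoImplicit false
set_option linter.unusedSectionVars false

noncomputable section

open scoped ENNReal
open Polynomial
open Crest.Agent.R165.Gr0x606 Crest.Agent.R165.Gr1x606 Crest.Agent.R165.Latx683
  Crest.Agent.R165.PNormx417 Crest.Agent.R165.GDefx387 Crest.Agent.R165.Wtx898
  Crest.Agent.R165.WtIsox898 Crest.Agent.R165.PlaneModesx901 Crest.Agent.R165.Locx901
  Crest.Agent.R165.GeOpsx337 Crest.Agent.R165.GrLocx337 Crest.Agent.R165.FRDPolyx439
  Crest.Agent.R165.FRDLatx439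

namespace Crest.Agent.R165.WtD4x898

/-! ### reversal -/

section rev

variable {V : Type*} [AddCommGroup V] [Module ℝ V] {V' : Type*} [AddCommGroup V'] [Module ℝ V']





/-- reversal is an algebra map on the even part -/
def revG : Ge V →ₐ[ℝ] Ge V where
  toFun a := ⟨rev' (a : Gr V), IsEv.rev' a.2⟩
  map_one' := ge_ext (by simp)
  map_mul' a b := ge_ext (by
    show rev' ((a * b : Ge V) : Gr V) = _
    rw [Ge.coe_mul, rev'_mul_ev (Ge.isEv a) (Ge.isEv b)]
    rfl)
  map_zero' := ge_ext (by show rev' (0 : Gr V) = 0; rw [map_zero])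
  map_add' a b := ge_ext (by
    show rev' ((a : Gr V) + (b : Gr V)) = rev' (a : Gr V) + rev' (b : Gr V)
    rw [map_add])
  commutes' r := ge_ext (by show rev' (algebraMap ℝ (Gr V) r) = algebraMap ℝ (Gr V) r; simp)

@[simp] theorem coe_revG (a : Ge V) : ((revG a : Ge V) : Gr V) = rev' (a : Gr V) := rfl

@[simp] theorem revG_revG (a : Ge V) : revG (revG a) = a := ge_ext (by simp)


theorem cvG_revG (S : Cov V) (a : Ge V) : cvG S (revG a) = revG (cvG (-S) a) :=
  ge_ext (by rw [coe_cvG, coe_revG, coe_revG, coe_cvG, conv_rev'])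





end rev


/-! ### global symmetries -/

variable {G : Type} [CommRing G] [CN G] {H : Type} [CommRing H] [CN H]

theorem card_le_size {r : ℕ} {U P : Finset (G × G)} (hP : P ⊆ U)
    (h : ∀ a ∈ P, ∀ b ∈ P, a ≠ b → r < fd a b) : P.card ≤ size r U := by
  classical
  unfold size
  refine Finset.le_sup (f := Finset.card) ?_
  rw [Finset.mem_filter, Finset.mem_powerset]
  exact ⟨hP, h⟩

theorem size_le_of {r n : ℕ} {U : Finset (G × G)}
    (h : ∀ P ⊆ U, (∀ a ∈ P, ∀ b ∈ P, a ≠ b → r < fd a b) → P.card ≤ n) : size r U ≤ n := by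
  classical
  unfold size
  refine Finset.sup_le fun P hP => ?_
  rw [Finset.mem_filter, Finset.mem_powerset] at hP
  exact h P hP.1 hP.2

/-- a signed bijection of half-edges which intertwines the operators up to a sign -/
structure GIso (w : BW G) (v : BW H) where
  /-- on half-edges -/
  p : HE G ≃ HE H
  /-- signs -/
  s : HE G → ℝ
  /-- on faces -/
  φ : G × G ≃ H × H
  /-- the sign of the symmetry -/
  ε : ℝ
  fst : ∀ h, (p h).1 = φ h.1
  iso : ∀ f g, fd (φ f) (φ g) = fd f g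
  sq : ∀ h, s h * s h = 1
  εsq : ε * ε = 1
  A : ∀ f : HE H → ℝ, Aop w (pull p s f) = ε • pull p s (Aop v f)

namespace GIso

variable {w : BW G} {v : BW H} (c : GIso w v)

theorem pull_symm_pull (f : HE G → ℝ) :
    pull c.p c.s (pull c.p.symm (fun g => c.s (c.p.symm g)) f) = f := by
  funext h
  rw [pull_apply, pull_apply, Equiv.symm_apply_apply, ← mul_assoc, c.sq, one_mul]

theorem pull_pull_symm (f : HE H → ℝ) :
    pull c.p.symm (fun g => c.s (c.p.symm g)) (pull c.p c.s f) = f := by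
  funext h
  rw [pull_apply, pull_apply, Equiv.apply_symm_apply, ← mul_assoc, c.sq, one_mul]

/-- the inverse symmetry -/
def symm : GIso v w where
  p := c.p.symm
  s g := c.s (c.p.symm g)
  φ := c.φ.symm
  ε := c.ε
  fst g := by
    have h := c.fst (c.p.symm g)
    rw [Equiv.apply_symm_apply] at h
    rw [h, Equiv.symm_apply_apply]
  iso f g := by
    have h := c.iso (c.φ.symm f) (c.φ.symm g)
    rw [Equiv.apply_symm_apply, Equiv.apply_symm_apply] at h
    exact h.symm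
  sq g := c.sq _
  εsq := c.εsq
  A f := by
    have h1 := c.A (pull c.p.symm (fun g => c.s (c.p.symm g)) f)
    rw [c.pull_symm_pull] at h1
    rw [h1, map_smul, c.pull_pull_symm, smul_smul, c.εsq, one_smul]

theorem symm_φ : c.symm.φ = c.φ.symm := rfl


theorem ε_or : c.ε = 1 ∨ c.ε = -1 := mul_self_eq_one_iff.1 c.εsq






/-! #### action on the fields -/

/-- the action on the fields -/
def psh : Fld G →ₗ[ℝ] Fld H := push c.p c.s


theorem psh_single (h : HE G) (a : ℝ) :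
    c.psh (Finsupp.single h a) = Finsupp.single (c.p h) (a * c.s h) := by
  have : (Finsupp.single h a : Fld G) = a • Finsupp.single h 1 := by
    rw [Finsupp.smul_single, smul_eq_mul, mul_one]
  rw [this, map_smul, psh, push_single, Finsupp.smul_single, Finsupp.smul_single, smul_eq_mul,
    smul_eq_mul, mul_one]

theorem symm_psh_psh : c.symm.psh ∘ₗ c.psh = LinearMap.id := by
  refine Finsupp.lhom_ext fun h a => ?_
  rw [LinearMap.comp_apply, psh_single, psh_single]
  show Finsupp.single (c.p.symm (c.p h)) (a * c.s h * c.s (c.p.symm (c.p h))) = _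
  rw [Equiv.symm_apply_apply, mul_assoc, c.sq, mul_one]
  rfl

theorem psh_symm_psh : c.psh ∘ₗ c.symm.psh = LinearMap.id := by
  refine Finsupp.lhom_ext fun h a => ?_
  rw [LinearMap.comp_apply, psh_single, psh_single]
  show Finsupp.single (c.p (c.p.symm h)) (a * c.s (c.p.symm h) * c.s (c.p.symm h)) = _
  rw [Equiv.apply_symm_apply, mul_assoc, c.sq, mul_one]
  rfl

@[simp] theorem symm_psh (l : Fld G) : c.symm.psh (c.psh l) = l := by
  have := congrArg (fun T => T l) c.symm_psh_psh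
  exact this

@[simp] theorem psh_symm (l : Fld H) : c.psh (c.symm.psh l) = l := by
  have := congrArg (fun T => T l) c.psh_symm_psh
  exact this

theorem psh_apply (l : Fld G) (h : HE G) : c.psh l (c.p h) = c.s h * l h := by
  classical
  induction l using Finsupp.induction_linear with
  | zero => simp
  | add l l' ihl ihl' => rw [map_add, Finsupp.add_apply, ihl, ihl', Finsupp.add_apply]; ring
  | single h' a =>
    rw [psh_single, Finsupp.single_apply, Finsupp.single_apply]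
    by_cases hh : h' = h
    · subst hh; rw [if_pos rfl, if_pos rfl]; ring
    · rw [if_neg fun e => hh (c.p.injective e), if_neg hh, mul_zero]

theorem pull_psh (l : Fld G) : pull c.p c.s (c.psh l) = (l : HE G → ℝ) := by
  funext h
  rw [pull_apply, psh_apply, ← mul_assoc, c.sq, one_mul]

theorem pair_psh (l : Fld G) (f : HE H → ℝ) : pair (c.psh l) f = pair l (pull c.p c.s f) :=
  pair_push _ _ _ _






theorem image_symm_image [DecidableEq G] [DecidableEq H] (U : Finset (G × G)) :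
    (U.image c.φ).image c.symm.φ = U := by
  rw [Finset.image_image]
  have : (c.symm.φ ∘ c.φ : G × G → G × G) = id := by
    funext x; simp [symm_φ]
  rw [this, Finset.image_id]


/-! #### slices -/

theorem pull_Qop (f : HE H → ℝ) : pull c.p c.s (Qop v f) = Qop w (pull c.p c.s f) := by
  have h1 : ∀ (u : BW H) (g : HE H → ℝ), Qop u g = -(Aop u (Aop u g)) := fun _ _ => rfl
  have h2 : ∀ (u : BW G) (g : HE G → ℝ), Qop u g = -(Aop u (Aop u g)) := fun _ _ => rfl
  rw [h1, h2, map_neg, c.A, map_smul, c.A, smul_smul, c.εsq, one_smul]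

theorem pull_Qop_pow (n : ℕ) (f : HE H → ℝ) :
    pull c.p c.s ((Qop v ^ n) f) = (Qop w ^ n) (pull c.p c.s f) := by
  induction n with
  | zero => simp
  | succ n ih => rw [pow_succ', pow_succ', Module.End.mul_apply, Module.End.mul_apply, c.pull_Qop,
      ih]

theorem pull_aeval (q : ℝ[X]) (f : HE H → ℝ) :
    pull c.p c.s (aeval (Qop v) q f) = aeval (Qop w) q (pull c.p c.s f) := by
  induction q using Polynomial.induction_on' with
  | add q q' ih ih' =>
    rw [map_add, map_add, LinearMap.add_apply, LinearMap.add_apply, map_add, ih, ih']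
  | monomial n a =>
    rw [aeval_monomial, aeval_monomial, Module.End.mul_apply, Module.End.mul_apply,
      Module.algebraMap_end_apply, Module.algebraMap_end_apply, map_smul, c.pull_Qop_pow]

theorem slop_pull (q : ℝ[X]) (f : HE H → ℝ) :
    slop w q (pull c.p c.s f) = c.ε • pull c.p c.s (slop v q f) := by
  unfold slop
  rw [Module.End.mul_apply, Module.End.mul_apply, ← c.pull_aeval, c.A]

variable {Λ : ℝ} {M K : ℕ} (D : FRD Λ M K)

/-- the slices intertwine up to the sign of the symmetry -/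
theorem Sop_pull (a b : ℕ) (f : HE H → ℝ) :
    Sop w D a b (pull c.p c.s f) = c.ε • pull c.p c.s (Sop v D a b f) := by
  unfold Sop
  rw [LinearMap.sum_apply, LinearMap.sum_apply, map_sum, Finset.smul_sum]
  exact Finset.sum_congr rfl fun j _ => c.slop_pull _ f

/-- **the covariances of the slices are invariant up to the sign of the symmetry** -/
theorem SopC_psh (a b : ℕ) (l m : Fld G) :
    (SopC D v a b).b (c.psh l) (c.psh m) = c.ε * (SopC D w a b).b l m := by
  rw [SopC_apply, SopC_apply, c.pair_psh]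
  have h := c.Sop_pull D a b (c.psh m)
  rw [c.pull_psh] at h
  rw [h, Wtx898.pair_smul_right, ← mul_assoc, c.εsq, one_mul]

/-- the action of the symmetry on the even elements -/
def Φ : Ge (Fld G) →ₐ[ℝ] Ge (Fld H) :=
  open Classical in if c.ε = 1 then mpG c.psh else revG.comp (mpG c.psh)

theorem Φ_of_one (h : c.ε = 1) : c.Φ = mpG c.psh := by unfold Φ; rw [if_pos h]

theorem Φ_of_neg (h : c.ε = -1) : c.Φ = revG.comp (mpG c.psh) := by
  unfold Φ; rw [if_neg (by rw [h]; norm_num)]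

/-- **the convolution by the slices commutes with the symmetry** -/
theorem Φ_cvG {S : Cov (Fld G)} {T : Cov (Fld H)}
    (h : ∀ x y, T.b (c.psh x) (c.psh y) = c.ε * S.b x y) (F : Ge (Fld G)) :
    c.Φ (cvG S F) = cvG T (c.Φ F) := by
  rcases c.ε_or with h1 | h1
  · rw [c.Φ_of_one h1]
    refine ge_ext ?_
    rw [coe_mpG, coe_cvG, coe_cvG, coe_mpG]
    exact mp_conv c.psh S T (fun x y => by rw [h, h1, one_mul]) _
  · rw [c.Φ_of_neg h1, AlgHom.comp_apply, AlgHom.comp_apply, cvG_revG]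
    congr 1
    refine ge_ext ?_
    rw [coe_mpG, coe_cvG, coe_cvG, coe_mpG]
    exact mp_conv c.psh S (-T) (fun x y => by
      rw [Cov.neg_b, LinearMap.neg_apply, LinearMap.neg_apply, h, h1]; ring) _







/-! #### sets of faces -/

theorem size_le [DecidableEq H] (r : ℕ) (U : Finset (G × G)) :
    size r (U.image c.φ) ≤ size r U := by
  classical
  refine size_le_of fun P hP hsep => ?_
  obtain ⟨Q, hQ, rfl⟩ := Finset.subset_image_iff.1 hP
  rw [Finset.card_image_of_injective _ c.φ.injective]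
  refine card_le_size (fun x hx => hQ hx) fun a ha b hb hab => ?_
  have := hsep _ (Finset.mem_image_of_mem _ ha) _ (Finset.mem_image_of_mem _ hb)
    (fun h => hab (c.φ.injective h))
  rwa [c.iso] at this

theorem size_image [DecidableEq G] [DecidableEq H] (r : ℕ) (U : Finset (G × G)) :
    size r (U.image c.φ) = size r U := by
  refine le_antisymm (c.size_le r U) ?_
  have h := c.symm.size_le r (U.image c.φ)
  rwa [c.image_symm_image] at h



/-- the bijection of the sets of faces -/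
def img [DecidableEq G] [DecidableEq H] : Finset (G × G) ≃ Finset (H × H) where
  toFun U := U.image c.φ
  invFun U := U.image c.φ.symm
  left_inv U := by
    show (U.image c.φ).image c.φ.symm = U
    rw [Finset.image_image]; simp
  right_inv U := by
    show (U.image c.φ.symm).image c.φ = U
    rw [Finset.image_image]; simp

@[simp] theorem img_apply [DecidableEq G] [DecidableEq H] (U : Finset (G × G)) :
    c.img U = U.image c.φ := rfl



end GIso


/-! ### the symmetries of the plane -/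

section plane

open Crest.Agent.R165.PlaneSumx901 Crest.Agent.R165.PlaneCovx901 Crest.Agent.R165.PlaneLocx901

/-- translations -/
def gTau (t : Fc) : GIso (wPl ℤ) (wPl ℤ) where
  p :=
    { toFun := tauH t
      invFun := tauH (-t)
      left_inv := fun h => by
        refine Prod.ext ?_ rfl
        show h.1 + t + -t = h.1
        abel
      right_inv := fun h => by
        refine Prod.ext ?_ rfl
        show h.1 + -t + t = h.1
        abel }
  s _ := 1
  φ := Equiv.addRight t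
  ε := 1
  fst h := rfl
  iso f g := fd_add f g t
  sq _ := one_mul _
  εsq := one_mul _
  A f := by rw [one_smul]; exact Apl_tauS t f

/-- the inverse rotation of faces -/
def rotI (y x : Fc) : Fc := (y.1 + (x.2 - y.2), y.2 - (x.1 - y.1))

theorem rotI_rot (y x : Fc) : rotI y (rot y x) = x := by ext <;> simp [rot, rotI]
theorem rot_rotI (y x : Fc) : rot y (rotI y x) = x := by ext <;> simp [rot, rotI]
theorem ref_ref (y x : Fc) : ref y (ref y x) = x := by ext <;> simp [ref]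

/-- the cyclic permutation of the directions -/
def cyc4 : Fin 4 ≃ Fin 4 where
  toFun := ![1, 2, 3, 0]
  invFun := ![3, 0, 1, 2]
  left_inv d := by fin_cases d <;> rfl
  right_inv d := by fin_cases d <;> rfl

/-- the reflection of the directions -/
def swp4 : Fin 4 ≃ Fin 4 where
  toFun := ![0, 3, 2, 1]
  invFun := ![0, 3, 2, 1]
  left_inv d := by fin_cases d <;> rfl
  right_inv d := by fin_cases d <;> rfl

/-- the rotation of faces about `y` -/
def rotE (y : Fc) : Fc ≃ Fc := ⟨rot y, rotI y, rotI_rot y, rot_rotI y⟩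

/-- the reflection of faces about `y` -/
def refE (y : Fc) : Fc ≃ Fc := ⟨ref y, ref y, ref_ref y, ref_ref y⟩

/-- rotation by a right angle about the centre of the face `y` -/
def gRho (y : Fc) : GIso (wPl ℤ) (wPl ℤ) where
  p := Equiv.prodCongr (rotE y) cyc4
  s := rhoSgn
  φ := rotE y
  ε := 1
  fst h := rfl
  iso f g := fd_rot y f g
  sq h := by
    obtain ⟨x, d⟩ := h
    fin_cases d <;> simp [rhoSgn]
  εsq := one_mul _
  A f := by rw [one_smul]; exact Apl_rhoS y f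

/-- reflection about the centre of the face `y` -/
def gSig (y : Fc) : GIso (wPl ℤ) (wPl ℤ) where
  p := Equiv.prodCongr (refE y) swp4
  s := sigSgn
  φ := refE y
  ε := -1
  fst h := rfl
  iso f g := fd_ref y f g
  sq h := by
    obtain ⟨x, d⟩ := h
    fin_cases d <;> simp [sigSgn]
  εsq := by norm_num
  A f := by rw [neg_one_smul]; exact Apl_sigS y f

@[simp] theorem gTau_φ (t : Fc) : ((gTau t).φ : Fc → Fc) = (· + t) := rfl
@[simp] theorem gRho_φ (y : Fc) : ((gRho y).φ : Fc → Fc) = rot y := rfl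
@[simp] theorem gSig_φ (y : Fc) : ((gSig y).φ : Fc → Fc) = ref y := rfl
@[simp] theorem gTau_psh (t : Fc) : (gTau t).psh = tauV t := rfl
@[simp] theorem gRho_psh (y : Fc) : (gRho y).psh = rhoV y := rfl
@[simp] theorem gSig_psh (y : Fc) : (gSig y).psh = sigV y := rfl
theorem gTau_Φ (t : Fc) : (gTau t).Φ = mpG (tauV t) := GIso.Φ_of_one _ rfl
theorem gRho_Φ (y : Fc) : (gRho y).Φ = mpG (rhoV y) := GIso.Φ_of_one _ rfl
theorem gSig_Φ (y : Fc) : (gSig y).Φ = revG.comp (mpG (sigV y)) := GIso.Φ_of_neg _ rfl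

@[simp] theorem coe_gTau_Φ (t : Fc) (F : Ge (Fld ℤ)) :
    (((gTau t).Φ F : Ge (Fld ℤ)) : Gr (Fld ℤ)) = mp (tauV t) F := by rw [gTau_Φ]; rfl
@[simp] theorem coe_gRho_Φ (y : Fc) (F : Ge (Fld ℤ)) :
    (((gRho y).Φ F : Ge (Fld ℤ)) : Gr (Fld ℤ)) = mp (rhoV y) F := by rw [gRho_Φ]; rfl
@[simp] theorem coe_gSig_Φ (y : Fc) (F : Ge (Fld ℤ)) :
    (((gSig y).Φ F : Ge (Fld ℤ)) : Gr (Fld ℤ)) = rev' (mp (sigV y) (F : Gr (Fld ℤ))) := by
  rw [gSig_Φ]; rfl

/-- the generating symmetries of the plane -/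
def PlGen (c : GIso (wPl ℤ) (wPl ℤ)) : Prop := (∃ t, c = gTau t) ∨ c = gRho 0 ∨ c = gSig 0

/-- covariance of a family of even activities under one symmetry -/
def Cv (c : GIso (wPl ℤ) (wPl ℤ)) (K : Finset Fc → Ge (Fld ℤ)) : Prop :=
  ∀ U, c.Φ (K U) = K (U.image c.φ)

/-- 901's covariance is covariance under the generating symmetries -/
theorem plSym_iff {K : Finset Fc → Ge (Fld ℤ)} :
    PlSym (fun U => (K U : Gr (Fld ℤ))) ↔ ∀ c, PlGen c → Cv c K := by
  constructor
  · rintro h c (⟨t, rfl⟩ | rfl | rfl) U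
    · exact ge_ext (by rw [coe_gTau_Φ, gTau_φ]; exact (h.tau t U).symm)
    · exact ge_ext (by rw [coe_gRho_Φ, gRho_φ]; exact (h.rho U).symm)
    · exact ge_ext (by rw [coe_gSig_Φ, gSig_φ]; exact (h.sig U).symm)
  · intro h
    refine ⟨fun t U => ?_, fun U => ?_, fun U => ?_⟩
    · have := congrArg (fun F : Ge (Fld ℤ) => (F : Gr (Fld ℤ))) (h _ (Or.inl ⟨t, rfl⟩) U)
      simp only [coe_gTau_Φ, gTau_φ] at this
      exact this.symm
    · have := congrArg (fun F : Ge (Fld ℤ) => (F : Gr (Fld ℤ))) (h _ (Or.inr (Or.inl rfl)) U)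
      simp only [coe_gRho_Φ, gRho_φ] at this
      exact this.symm
    · have := congrArg (fun F : Ge (Fld ℤ) => (F : Gr (Fld ℤ))) (h _ (Or.inr (Or.inr rfl)) U)
      simp only [coe_gSig_Φ, gSig_φ] at this
      exact this.symm



end plane

end Crest.Agent.R165.WtD4x898
end
end

-- ▼ part R165/FlowD4_898

/-!
# Row 165 (S0250), block G: covariance of the flow under global symmetries (helper898)

* `ctG_hom`, `hom_gexp` : every algebra map `Ge V → Ge V'` commutes with `ctG`, `gexp`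
* `ExtrEq`, `SysEq ψ Φ D₁ D₂` : global equivalence of two systems, `ψ : F₁ ≃ F₂` on faces,
  `Φ : Ge V₁ →ₐ Ge V₂` ANY algebra map (e.g. `revG ∘ mpG p`)
* `SysEq.K_eq`, `H_eq`, `A_eq`, `B_eq`, `Q_eq`, `vac_eq`
* `CvL c Lo` : covariance of a local extraction; `extrEq_exF` : equivalence of 417's `exF`
* `PlSys D` : plane system (slices, distances, `exF` with `LocAt`, constant vacuum part);
  `PlSys.sysEq`, `PlSys.plSym` : **`PlSym K0 → PlSym (K k), (H k), (A k), (B k)`**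
-/

set_option autoImplicit false
set_option linter.unusedSectionVars false

noncomputable section

open scoped ENNReal
open Crest.Agent.R165.Gr0x606 Crest.Agent.R165.Gr1x606 Crest.Agent.R165.Latx683
  Crest.Agent.R165.GDefx387 Crest.Agent.R165.GeOpsx337 Crest.Agent.R165.GrLocx337
  Crest.Agent.R165.ExpGx337 Crest.Agent.R165.KCompx892 Crest.Agent.R165.KStepx892
  Crest.Agent.R165.KMapx892 Crest.Agent.R165.KFlowx337 Crest.Agent.R165.WtD4x898

namespace Crest.Agent.R165.FlowD4x898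

section hom

variable {V : Type*} [AddCommGroup V] [Module ℝ V] {V' : Type*} [AddCommGroup V'] [Module ℝ V']

/-- the constant term is invariant under every algebra map -/
theorem ctG_hom (Φ : Ge V →ₐ[ℝ] Ge V') (a : Ge V) : ctG (Φ a) = ctG a := by
  have h1 : IsNilpotent (Φ (nl a)) := (nl_nil a).map Φ
  have h2 : ctG (Φ (nl a)) = 0 := (h1.map (ctG (V := V'))).eq_zero
  conv_lhs => rw [← add_nl a]
  rw [map_add, map_add, AlgHom.commutes, h2, add_zero, AlgHom.commutes]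
  rfl

theorem hom_nexp (Φ : Ge V →ₐ[ℝ] Ge V') {a : Ge V} (ha : IsNilpotent a) :
    Φ (nexp a) = nexp (Φ a) := by
  obtain ⟨k, hk⟩ := ha
  have hk' : Φ a ^ k = 0 := by rw [← map_pow, hk, map_zero]
  rw [nexp_eq_sum hk, nexp_eq_sum hk', map_sum]
  exact Finset.sum_congr rfl fun i _ => by rw [map_smul, map_pow]

/-- the exponential is natural for every algebra map -/
theorem hom_gexp (Φ : Ge V →ₐ[ℝ] Ge V') (a : Ge V) : Φ (gexp a) = gexp (Φ a) := by
  have h : Φ (nl a) = nl (Φ a) := by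
    rw [nl, nl, map_sub, AlgHom.commutes, ctG_hom]
  rw [gexp, gexp, map_smul, hom_nexp Φ (nl_nil a), h, ctG_hom]

end hom

/-! ### global equivalence of two systems -/

variable {F₁ : Type*} [DecidableEq F₁] {V₁ : Type*} [AddCommGroup V₁] [Module ℝ V₁]
variable {F₂ : Type*} [DecidableEq F₂] {V₂ : Type*} [AddCommGroup V₂] [Module ℝ V₂]

/-- global equivalence of extraction data -/
structure ExtrEq (ψ : F₁ ≃ F₂) (Φ : Ge V₁ →ₐ[ℝ] Ge V₂) (e₁ : Extr F₁ V₁) (e₂ : Extr F₂ V₂) :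
    Prop where
  out : ∀ U T, T.image ψ ∈ e₂.out (U.image ψ) ↔ T ∈ e₁.out U
  X : ∀ U, ∀ T ∈ e₁.out U, ∀ a, Φ (e₁.X U T a) = e₂.X (U.image ψ) (T.image ψ) (Φ a)

/-- global equivalence of systems -/
structure SysEq (ψ : F₁ ≃ F₂) (Φ : Ge V₁ →ₐ[ℝ] Ge V₂) (D₁ : Sys F₁ V₁) (D₂ : Sys F₂ V₂) :
    Prop where
  K0 : ∀ U, Φ (D₁.K0 U) = D₂.K0 (U.image ψ)
  S : ∀ k a, Φ (cvG (D₁.S k) a) = cvG (D₂.S k) (Φ a)
  near : ∀ k a b, D₂.near k (ψ a) (ψ b) ↔ D₁.near k a b
  e : ∀ k, ExtrEq ψ Φ (D₁.e k) (D₂.e k)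
  vac : ∀ a, Φ (D₁.vac a) = D₂.vac (Φ a)

section extr

variable {ψ : F₁ ≃ F₂} {Φ : Ge V₁ →ₐ[ℝ] Ge V₂} {e₁ : Extr F₁ V₁} {e₂ : Extr F₂ V₂}

theorem image_injective (ψ : F₁ ≃ F₂) :
    Function.Injective (fun U : Finset F₁ => U.image ψ) := Finset.image_injective ψ.injective

theorem exists_image (ψ : F₁ ≃ F₂) (W : Finset F₂) : ∃ U : Finset F₁, U.image ψ = W :=
  ⟨W.image ψ.symm, by rw [Finset.image_image]; simp⟩

theorem ExtrEq.out_eq (h : ExtrEq ψ Φ e₁ e₂) (U : Finset F₁) :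
    e₂.out (U.image ψ) = (e₁.out U).image fun T => T.image ψ := by
  ext W
  obtain ⟨T, rfl⟩ := exists_image ψ W
  rw [h.out, Finset.mem_image]
  exact ⟨fun hT => ⟨T, hT, rfl⟩, fun ⟨T', hT', he⟩ => image_injective ψ he ▸ hT'⟩

theorem ExtrEq.inn_eq (h : ExtrEq ψ Φ e₁ e₂) (T : Finset F₁) :
    e₂.inn (T.image ψ) = (e₁.inn T).image fun U => U.image ψ := by
  ext W
  obtain ⟨U, rfl⟩ := exists_image ψ W
  rw [← e₂.mem_iff, h.out, e₁.mem_iff, Finset.mem_image]
  exact ⟨fun hT => ⟨U, hT, rfl⟩, fun ⟨T', hT', he⟩ => image_injective ψ he ▸ hT'⟩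

theorem ExtrEq.lost_eq (h : ExtrEq ψ Φ e₁ e₂) {H₁ : Finset F₁ → Ge V₁} {H₂ : Finset F₂ → Ge V₂}
    (hH : ∀ U, Φ (H₁ U) = H₂ (U.image ψ)) (U : Finset F₁) :
    Φ (e₁.lost H₁ U) = e₂.lost H₂ (U.image ψ) := by
  rw [Extr.lost, Extr.lost, h.out_eq, map_sum,
    Finset.sum_image (fun a _ b _ hab => image_injective ψ hab)]
  exact Finset.sum_congr rfl fun T hT => by rw [h.X U T hT, hH]

theorem ExtrEq.gain_eq (h : ExtrEq ψ Φ e₁ e₂) {H₁ : Finset F₁ → Ge V₁} {H₂ : Finset F₂ → Ge V₂}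
    (hH : ∀ U, Φ (H₁ U) = H₂ (U.image ψ)) (T : Finset F₁) :
    Φ (e₁.gain H₁ T) = e₂.gain H₂ (T.image ψ) := by
  rw [Extr.gain, Extr.gain, h.inn_eq, map_sum,
    Finset.sum_image (fun a _ b _ hab => image_injective ψ hab)]
  exact Finset.sum_congr rfl fun U hU => by rw [h.X U T ((e₁.mem_iff U T).2 hU), hH]

theorem ExtrEq.AA_eq (h : ExtrEq ψ Φ e₁ e₂) {vac₁ : Ge V₁ →ₗ[ℝ] Ge V₁}
    {vac₂ : Ge V₂ →ₗ[ℝ] Ge V₂} (hv : ∀ a, Φ (vac₁ a) = vac₂ (Φ a)) {H₁ : Finset F₁ → Ge V₁}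
    {H₂ : Finset F₂ → Ge V₂} (hH : ∀ U, Φ (H₁ U) = H₂ (U.image ψ)) (U : Finset F₁) :
    Φ (AA vac₁ e₁ H₁ U) = AA vac₂ e₂ H₂ (U.image ψ) := by
  rw [AA, AA, map_sub, map_sub, h.gain_eq hH, h.lost_eq hH, hv, hH]

theorem ExtrEq.BB_eq (h : ExtrEq ψ Φ e₁ e₂) {vac₁ : Ge V₁ →ₗ[ℝ] Ge V₁}
    {vac₂ : Ge V₂ →ₗ[ℝ] Ge V₂} (hv : ∀ a, Φ (vac₁ a) = vac₂ (Φ a)) {H₁ : Finset F₁ → Ge V₁}
    {H₂ : Finset F₂ → Ge V₂} (hH : ∀ U, Φ (H₁ U) = H₂ (U.image ψ)) (U : Finset F₁) :
    Φ (BB vac₁ e₁ H₁ U) = BB vac₂ e₂ H₂ (U.image ψ) := by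
  rw [BB, BB, map_sub, map_one, hom_gexp, h.AA_eq hv hH]

/-- reclustering is equivariant -/
theorem KK_equiv {n₁ n₁' : F₁ → F₁ → Prop} {n₂ n₂' : F₂ → F₂ → Prop}
    (hn : ∀ a b, n₂ (ψ a) (ψ b) ↔ n₁ a b) (hn' : ∀ a b, n₂' (ψ a) (ψ b) ↔ n₁' a b)
    {K₁ B₁ : Finset F₁ → Ge V₁} {K₂ B₂ : Finset F₂ → Ge V₂}
    (hK : ∀ U, Φ (K₁ U) = K₂ (U.image ψ)) (hB : ∀ U, Φ (B₁ U) = B₂ (U.image ψ)) (W : Finset F₁) :
    Φ (KK n₁ n₁' K₁ B₁ W) = KK n₂ n₂' K₂ B₂ (W.image ψ) :=
  KK_map (φ := ψ.symm) ⟨fun a _ => ψ.symm_apply_apply a, fun a _ b _ => (hn a b).symm,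
    fun a _ b _ => (hn' a b).symm⟩ Φ.toRingHom (fun U _ _ => hK U) (fun U _ _ => hB U)

end extr

namespace SysEq

variable {ψ : F₁ ≃ F₂} {Φ : Ge V₁ →ₐ[ℝ] Ge V₂} {D₁ : Sys F₁ V₁} {D₂ : Sys F₂ V₂}

theorem H_of_K (h : SysEq ψ Φ D₁ D₂) {k : ℕ} (hK : ∀ U, Φ (D₁.K k U) = D₂.K k (U.image ψ))
    (U : Finset F₁) : Φ (D₁.H k U) = D₂.H k (U.image ψ) := by
  rw [Sys.H, Sys.H, h.S, hK]

/-- **equivariance of the activities** -/
theorem K_eq (h : SysEq ψ Φ D₁ D₂) (k : ℕ) (U : Finset F₁) :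
    Φ (D₁.K k U) = D₂.K k (U.image ψ) := by
  induction k generalizing U with
  | zero => exact h.K0 U
  | succ k ih =>
    rw [Sys.K_succ, Sys.K_succ]
    exact KK_equiv (h.near k) (h.near (k + 1)) (h.H_of_K ih)
      (fun U => (h.e k).BB_eq h.vac (h.H_of_K ih) U) U

theorem H_eq (h : SysEq ψ Φ D₁ D₂) (k : ℕ) (U : Finset F₁) :
    Φ (D₁.H k U) = D₂.H k (U.image ψ) := h.H_of_K (h.K_eq k) U






end SysEq

/-! ### extraction at single faces -/

section ex

open Crest.Agent.R165.PStepx417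

variable {G : Type} [CommRing G] [CN G] [DecidableEq G] {H : Type} [CommRing H] [CN H]
  [DecidableEq H] {w : BW G} {v : BW H}

/-- equivalence of two extractions at single faces -/
theorem extrEq_exF (c : GIso w v) {p : G × G → Prop} [DecidablePred p] {q : H × H → Prop}
    [DecidablePred q] (hpq : ∀ f, q (c.φ f) ↔ p f) {Lo : G × G → Ge (Fld G) →ₗ[ℝ] Ge (Fld G)}
    {Lo' : H × H → Ge (Fld H) →ₗ[ℝ] Ge (Fld H)}
    (hL : ∀ f, p f → ∀ a, c.Φ (Lo f a) = Lo' (c.φ f) (c.Φ a)) (r : ℕ) :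
    ExtrEq c.φ c.Φ (exF p Lo r) (exF q Lo' r) where
  out U T := by
    show T.image c.φ ∈ exOut q r (U.image c.φ) ↔ T ∈ exOut p r U
    rw [mem_exOut, mem_exOut, c.size_image]
    refine and_congr Iff.rfl ?_
    constructor
    · rintro ⟨f, hf, hq, he⟩
      obtain ⟨g, hg, rfl⟩ := Finset.mem_image.1 hf
      refine ⟨g, hg, (hpq g).1 hq, ?_⟩
      refine image_injective c.φ ?_
      show T.image c.φ = ({g} : Finset (G × G)).image c.φ
      rw [he, Finset.image_singleton]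
    · rintro ⟨f, hf, hp, rfl⟩
      exact ⟨c.φ f, Finset.mem_image_of_mem _ hf, (hpq f).2 hp, Finset.image_singleton _ _⟩
  X U T hT a := by
    obtain ⟨_, f, _, hp, rfl⟩ := (mem_exOut p r).1 hT
    rw [Finset.image_singleton, exF_X, exF_X, Finset.sum_singleton, Finset.sum_singleton, map_smul,
      hL f hp, Finset.card_image_of_injective _ c.φ.injective]

theorem hom_vac0 {V : Type*} [AddCommGroup V] [Module ℝ V] {V' : Type*} [AddCommGroup V']
    [Module ℝ V'] (Φ : Ge V →ₐ[ℝ] Ge V') (a : Ge V) : Φ (vac0 V a) = vac0 V' (Φ a) := by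
  rw [vac0_apply, vac0_apply, ctG_hom, AlgHom.commutes]

end ex

/-! ### the plane -/

section plane

open Crest.Agent.R165.PStepx417 Crest.Agent.R165.PlaneModesx901 Crest.Agent.R165.PlaneSumx901
  Crest.Agent.R165.PlaneCovx901 Crest.Agent.R165.PlaneLocx901 Crest.Agent.R165.FRDPolyx439
  Crest.Agent.R165.FRDLatx439

/-- the slices of the plane are invariant -/
theorem symS_SopC {Λ : ℝ} {M K : ℕ} (D : FRD Λ M K) (a b : ℕ) : SymS (SopC D (wPl ℤ) a b) where
  tau t x y := by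
    have := (gTau t).SopC_psh D a b x y
    rw [show (gTau t).ε = 1 from rfl, one_mul] at this
    exact this
  rho z x y := by
    have := (gRho z).SopC_psh D a b x y
    rw [show (gRho z).ε = 1 from rfl, one_mul] at this
    exact this
  sig z x y := by
    have := (gSig z).SopC_psh D a b x y
    rw [show (gSig z).ε = -1 from rfl, neg_one_mul] at this
    exact this

theorem SymS.psh {S : Cov (Fld ℤ)} (h : SymS S) {c : GIso (wPl ℤ) (wPl ℤ)} (hc : PlGen c)
    (x y : Fld ℤ) : S.b (c.psh x) (c.psh y) = c.ε * S.b x y := by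
  rcases hc with ⟨t, rfl⟩ | rfl | rfl
  · rw [show (gTau t).ε = 1 from rfl, one_mul]; exact h.tau t x y
  · rw [show (gRho 0).ε = 1 from rfl, one_mul]; exact h.rho 0 x y
  · rw [show (gSig 0).ε = -1 from rfl, neg_one_mul]; exact h.sig 0 x y

theorem SymS.Φ_cvG {S : Cov (Fld ℤ)} (h : SymS S) {c : GIso (wPl ℤ) (wPl ℤ)} (hc : PlGen c)
    (a : Ge (Fld ℤ)) : c.Φ (cvG S a) = cvG S (c.Φ a) := c.Φ_cvG (SymS.psh h hc) a

theorem SymS.zero : SymS 0 := ⟨fun _ _ _ => rfl, fun _ _ _ => rfl, fun _ _ _ => by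
  show (0 : ℝ) = -0; rw [neg_zero]⟩

theorem SymS.add {S T : Cov (Fld ℤ)} (hS : SymS S) (hT : SymS T) : SymS (S + T) where
  tau t x y := by
    simp only [Cov.add_b, LinearMap.add_apply]; rw [hS.tau, hT.tau]
  rho z x y := by
    simp only [Cov.add_b, LinearMap.add_apply]; rw [hS.rho, hT.rho]
  sig z x y := by
    simp only [Cov.add_b, LinearMap.add_apply]; rw [hS.sig, hT.sig]; ring

/-- covariance of a localisation -/
theorem Φ_Loc {Lo : Fc → Ge (Fld ℤ) →ₗ[ℝ] Ge (Fld ℤ)}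
    (hLo : ∀ f a, ((Lo f a : Ge (Fld ℤ)) : Gr (Fld ℤ)) = LocAt f (a : Gr (Fld ℤ)))
    {c : GIso (wPl ℤ) (wPl ℤ)} (hc : PlGen c) (f : Fc) (a : Ge (Fld ℤ)) :
    c.Φ (Lo f a) = Lo (c.φ f) (c.Φ a) := by
  refine ge_ext ?_
  rcases hc with ⟨t, rfl⟩ | rfl | rfl
  · rw [coe_gTau_Φ, hLo, hLo, coe_gTau_Φ, gTau_φ, LocAt_tau]
  · rw [coe_gRho_Φ, hLo, hLo, coe_gRho_Φ, gRho_φ, LocAt_rho]
  · rw [coe_gSig_Φ, hLo, hLo, coe_gSig_Φ, gSig_φ, LocAt_sig]

/-- systems with the symmetries of the plane -/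
structure PlSys (D : Sys Fc (Fld ℤ)) : Prop where
  S : ∀ k, SymS (D.S k)
  near : ∀ k c, PlGen c → ∀ a b, D.near k (c.φ a) (c.φ b) ↔ D.near k a b
  e : ∀ k c, PlGen c → ExtrEq c.φ c.Φ (D.e k) (D.e k)
  vac : ∀ c, PlGen c → ∀ a, c.Φ (D.vac a) = D.vac (c.Φ a)

/-- the standard plane system -/
theorem PlSys.of {D : Sys Fc (Fld ℤ)} (hS : ∀ k, SymS (D.S k)) {R : ℕ → ℕ}
    (hnear : ∀ k a b, D.near k a b ↔ fd a b ≤ R k) {p : ℕ → Fc → Prop}
    [∀ k, DecidablePred (p k)] (hp : ∀ k f, p k f) {Lo : ℕ → Fc → Ge (Fld ℤ) →ₗ[ℝ] Ge (Fld ℤ)}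
    (hLo : ∀ k f a, ((Lo k f a : Ge (Fld ℤ)) : Gr (Fld ℤ)) = LocAt f (a : Gr (Fld ℤ)))
    {r : ℕ → ℕ} (he : ∀ k, D.e k = exF (p k) (Lo k) (r k)) (hvac : D.vac = vac0 (Fld ℤ)) :
    PlSys D where
  S := hS
  near k c _ a b := by rw [hnear, hnear, c.iso]
  e k c hc := by
    rw [he k]
    exact extrEq_exF c (fun f => iff_of_true (hp k _) (hp k f))
      (fun f _ a => Φ_Loc (hLo k) hc f a) (r k)
  vac c _ a := by rw [hvac, hom_vac0]

theorem PlSys.sysEq {D : Sys Fc (Fld ℤ)} (h : PlSys D)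
    (h0 : PlSym fun U => (D.K0 U : Gr (Fld ℤ))) {c : GIso (wPl ℤ) (wPl ℤ)} (hc : PlGen c) :
    SysEq c.φ c.Φ D D where
  K0 := plSym_iff.1 h0 c hc
  S k a := SymS.Φ_cvG (h.S k) hc a
  near k a b := h.near k c hc a b
  e k := h.e k c hc
  vac := h.vac c hc

/-- **the activities of the plane are covariant under translations, rotations, reflections** -/
theorem PlSys.plSym_K {D : Sys Fc (Fld ℤ)} (h : PlSys D)
    (h0 : PlSym fun U => (D.K0 U : Gr (Fld ℤ))) (k : ℕ) :
    PlSym fun U => (D.K k U : Gr (Fld ℤ)) :=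
  plSym_iff.2 fun _ hc U => (h.sysEq h0 hc).K_eq k U




/-! #### one-step versions -/





theorem plSym_KK {n n' : Fc → Fc → Prop}
    (hn : ∀ c, PlGen c → ∀ a b, n (c.φ a) (c.φ b) ↔ n a b)
    (hn' : ∀ c, PlGen c → ∀ a b, n' (c.φ a) (c.φ b) ↔ n' a b) {K B : Finset Fc → Ge (Fld ℤ)}
    (hK : PlSym fun U => (K U : Gr (Fld ℤ))) (hB : PlSym fun U => (B U : Gr (Fld ℤ))) :
    PlSym fun U => ((KK n n' K B U : Ge (Fld ℤ)) : Gr (Fld ℤ)) :=
  plSym_iff.2 fun c hc U => KK_equiv (hn c hc) (hn' c hc) (plSym_iff.1 hK c hc)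
    (plSym_iff.1 hB c hc) U


end plane

end Crest.Agent.R165.FlowD4x898
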