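import Mathlib
import Crest.Prelude.Def_PerturbedIsing
import Crest.Agent.R165.Red_541
import Crest.Agent.R165.Sym_541
import Crest.Agent.R165.Red2_541

-- ▼ part R165/Mast_541
section

/-!
# Row 165 (S0250): the universality leaf from "master estimates" (helper541)

* `MasterD` : comparison of perturbed and unperturbed moments in `C²` domains, relative error
* `MasterP` : the same in large plus discs, uniformly in the radius
* `DiscLim` : torus and plus-disc expectations of every finite bond set have the same limit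
* `PRatioB_of` : these imply `PRatioB`
-/

set_option autoImplicit false

noncomputable section

open Filter Topology Finset
open Crest.ProbabilityR.IsingModel

namespace Crest.Agent.R165.Mastx541

open Crest.Agent.R165.Centx541
open Crest.Agent.R165.Redx541
open Crest.Agent.R165.Symx541
open Crest.Agent.R165.Red2x541
open Crest.Agent.R165.Topx683

/-- the error scale: `a^m |⟨σ_X⟩_0| + |⟨σ_X ∏(ε - e0)⟩_0|` -/
def errS (D : Set ℂ) (a : ℝ) (b : BoundaryCondition) {n m : ℕ} (x : Fin n → ℂ) (y : Fin m → ℂ)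
    (j : Fin m → Fin 2) : ℝ :=
  a ^ m * |D0c D a b x (![] : Fin 0 → ℂ) ![]| + |D0c D a b x y j|

/-- the discrepancy -/
def disc (J lam : ℝ) (R : ℕ) (V : Finset (ℤ × ℤ) → ℝ) (β Zs Ze : ℝ) (eb : Fin 2 → ℝ)
    (D : Set ℂ) (a : ℝ) (b : BoundaryCondition) {n m : ℕ} (x : Fin n → ℂ) (y : Fin m → ℂ)
    (j : Fin m → Fin 2) : ℝ :=
  domMom D a b J lam R V β x y j (fun k => eb (j k)) - Zs ^ n * Ze ^ m * D0c D a b x y j

/-- master estimate in `C²` domains -/
def MasterD (J lam : ℝ) (R : ℕ) (V : Finset (ℤ × ℤ) → ℝ) (β Zs Ze : ℝ) (eb : Fin 2 → ℝ) : Prop :=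
  ∀ D : Set ℂ, IsC2JordanDomain D → ∀ (b : BoundaryCondition) (n m : ℕ), 1 ≤ n + m →
    Rel b n → ∀ (x : Fin n → ℂ) (y : Fin m → ℂ) (j : Fin m → Fin 2),
      (∀ i, x i ∈ D) → (∀ k, y k ∈ D) → Function.Injective (Fin.append x y) →
      ∀ ε > 0, ∀ᶠ a : ℝ in 𝓝[>] 0,
        |disc J lam R V β Zs Ze eb D a b x y j| ≤ ε * errS D a b x y j

/-- master estimate in large plus discs: for small mesh, uniformly for large radius -/
def MasterP (J lam : ℝ) (R : ℕ) (V : Finset (ℤ × ℤ) → ℝ) (β Zs Ze : ℝ) (eb : Fin 2 → ℝ) : Prop :=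
  ∀ (n m : ℕ), 1 ≤ n + m → Even n → ∀ (x : Fin n → ℂ) (y : Fin m → ℂ) (j : Fin m → Fin 2),
      Function.Injective (Fin.append x y) →
      ∀ ε > 0, ∀ᶠ a : ℝ in 𝓝[>] 0, ∀ᶠ B : ℝ in atTop,
        |disc J lam R V β Zs Ze eb (Metric.ball 0 B) a .plus x y j| ≤
          ε * errS (Metric.ball 0 B) a .plus x y j

/-- expectation of a finite bond set in the lattice disc of radius `B`, plus boundary condition -/
def discBonds (B : ℝ) (J lam : ℝ) (R : ℕ) (V : Finset (ℤ × ℤ) → ℝ) (β : ℝ)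
    (S : Finset ((ℤ × ℤ) × Fin 2)) : ℝ :=
  domainExpect (Metric.ball 0 B) 1 .plus J lam R V β fun s => ∏ e ∈ S, ep e s

/-- torus and disc have the same limit -/
def DiscLim (J lam : ℝ) (R : ℕ) (V : Finset (ℤ × ℤ) → ℝ) (β : ℝ) : Prop :=
  ∀ S : Finset ((ℤ × ℤ) × Fin 2), ∃ l : ℝ,
    Tendsto (fun L : ℕ => torBonds L J lam R V β S) atTop (𝓝 l) ∧
    Tendsto (fun B : ℝ => discBonds B J lam R V β S) atTop (𝓝 l)

/-! ### plane moments as disc limits -/

theorem domainSites_ball (B a : ℝ) (ha : 0 < a) :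
    domainSites (Metric.ball (0 : ℂ) B) a = domainSites (Metric.ball (0 : ℂ) (B / a)) 1 := by
  ext z
  have h1 : meshPoint a z = (a : ℂ) * meshPoint 1 z := by
    apply Complex.ext <;> simp [meshPoint]
  show meshPoint a z ∈ Metric.ball 0 B ↔ meshPoint 1 z ∈ Metric.ball 0 (B / a)
  rw [mem_ball_zero_iff, mem_ball_zero_iff, h1, norm_mul, Complex.norm_real,
    Real.norm_of_nonneg ha.le, lt_div_iff₀ ha, mul_comm]

theorem domainExpect_ball (B a : ℝ) (ha : 0 < a) (b : BoundaryCondition) (J lam : ℝ) (R : ℕ)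
    (V : Finset (ℤ × ℤ) → ℝ) (β : ℝ) (f : (ℤ × ℤ → Bool) → ℝ) :
    domainExpect (Metric.ball (0 : ℂ) B) a b J lam R V β f =
      domainExpect (Metric.ball (0 : ℂ) (B / a)) 1 b J lam R V β f := by
  have h := domainSites_ball B a ha
  have h1 : (domainSites (Metric.ball (0 : ℂ) B) a).Finite := by
    exact domainSites_finite Metric.isBounded_ball ha
  have h2 : (domainSites (Metric.ball (0 : ℂ) (B / a)) 1).Finite :=
    domainSites_finite Metric.isBounded_ball one_pos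
  have h3 : h1.toFinset = h2.toFinset := by
    ext z
    rw [Set.Finite.mem_toFinset, Set.Finite.mem_toFinset, h]
  unfold domainExpect
  rw [dif_pos h1, dif_pos h2, h3]

/-- general expansion of an observable with an even number of spins in bond sets -/
theorem obs_expand {n m : ℕ} (hn : Even n) (us : Fin n → ℤ × ℤ) (vs : Fin m → ℤ × ℤ)
    (js : Fin m → Fin 2) (c : Fin m → ℝ) :
    ∃ S : Finset (Fin m) → Finset ((ℤ × ℤ) × Fin 2), ∀ s : ℤ × ℤ → Bool,
      obs us vs js c s = ∑ T : Finset (Fin m), (∏ k ∈ Tᶜ, (-c k)) * ∏ e ∈ S T, ep e s := by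
  classical
  have h1 : ∀ T : Finset (Fin m), ∃ S : Finset ((ℤ × ℤ) × Fin 2), ∀ s : ℤ × ℤ → Bool,
      (∏ i, spinSign (s (us i))) * ∏ k ∈ T, (spinSign (s (vs k)) *
        spinSign (s (vs k + unitVec (js k)))) = ∏ e ∈ S, ep e s := by
    intro T
    exact (isB_even hn us).mul (isB_prod T _ fun k _ => isB_ep (vs k, js k))
  choose S hS using h1
  refine ⟨S, fun s => ?_⟩
  simp only [← hS]
  unfold obs
  simp only [sub_eq_add_neg]
  rw [Finset.prod_add, Finset.powerset_univ, Finset.mul_sum]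
  refine Finset.sum_congr rfl fun T _ => ?_
  rw [Finset.compl_eq_univ_sdiff]
  ring

/-- even moments: torus and disc have the same limit -/
theorem moments_lim {J lam : ℝ} {R : ℕ} {V : Finset (ℤ × ℤ) → ℝ} {β : ℝ}
    (h : DiscLim J lam R V β) {n m : ℕ} (hn : Even n) (us : Fin n → ℤ × ℤ)
    (vs : Fin m → ℤ × ℤ) (js : Fin m → Fin 2) (c : Fin m → ℝ) :
    ∃ l : ℝ, Tendsto (fun L : ℕ => torMom L J lam R V β us vs js c) atTop (𝓝 l) ∧
      Tendsto (fun B : ℝ => domainExpect (Metric.ball 0 B) 1 .plus J lam R V β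
        (obs us vs js c)) atTop (𝓝 l) := by
  classical
  obtain ⟨S, hS⟩ := obs_expand hn us vs js c
  choose l hl using h
  refine ⟨∑ T : Finset (Fin m), (∏ k ∈ Tᶜ, (-c k)) * l (S T), ?_, ?_⟩
  · have h2 : ∀ L : ℕ, torMom L J lam R V β us vs js c =
        ∑ T : Finset (Fin m), (∏ k ∈ Tᶜ, (-c k)) * torBonds L J lam R V β (S T) := by
      intro L
      rw [torMom_eq, ← torE_apply]
      have e1 : (fun σ : TorusConfig (L + 1) => obs us vs js c fun z => σ (toTorus (L + 1) z)) =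
          ∑ T : Finset (Fin m), (∏ k ∈ Tᶜ, (-c k)) • fun σ : TorusConfig (L + 1) =>
            ∏ e ∈ S T, ep e fun z => σ (toTorus (L + 1) z) := by
        funext σ
        simp only [Finset.sum_apply, Pi.smul_apply, smul_eq_mul, hS]
      rw [e1, map_sum]
      refine Finset.sum_congr rfl fun T _ => ?_
      rw [map_smul, smul_eq_mul, torE_apply]
      rfl
    simp only [h2]
    exact tendsto_finsetSum _ fun T _ => (hl (S T)).1.const_mul _
  · have h2 : ∀ B : ℝ, domainExpect (Metric.ball 0 B) 1 .plus J lam R V β (obs us vs js c) =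
        ∑ T : Finset (Fin m), (∏ k ∈ Tᶜ, (-c k)) * discBonds B J lam R V β (S T) := by
      intro B
      rw [← domE_apply]
      have e1 : obs us vs js c = ∑ T : Finset (Fin m), (∏ k ∈ Tᶜ, (-c k)) •
          fun s : ℤ × ℤ → Bool => ∏ e ∈ S T, ep e s := by
        funext s
        simp only [Finset.sum_apply, Pi.smul_apply, smul_eq_mul, hS]
      rw [e1, map_sum]
      refine Finset.sum_congr rfl fun T _ => ?_
      rw [map_smul, smul_eq_mul, domE_apply]
      rfl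
    simp only [h2]
    exact tendsto_finsetSum _ fun T _ => (hl (S T)).2.const_mul _

/-- plane moment with an even number of spins = limit of disc moments -/
theorem plMom_lim {J lam : ℝ} {R : ℕ} {V : Finset (ℤ × ℤ) → ℝ} {β : ℝ}
    (h : DiscLim J lam R V β) {n m : ℕ} (hn : Even n) (x : Fin n → ℂ)
    (y : Fin m → ℂ) (js : Fin m → Fin 2) (c : Fin m → ℝ) {a : ℝ} (ha : 0 < a) :
    Tendsto (fun B : ℝ => domMom (Metric.ball 0 B) a .plus J lam R V β x y js c) atTop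
      (𝓝 (plMom J lam R V β (fun i => meshIndex a (x i)) (fun k => meshIndex a (y k)) js c)) := by
  obtain ⟨l, h1, h2⟩ := moments_lim h hn (fun i => meshIndex a (x i))
    (fun k => meshIndex a (y k)) js c
  have e1 : plMom J lam R V β (fun i => meshIndex a (x i)) (fun k => meshIndex a (y k)) js c = l :=
    h1.limUnder_eq
  rw [e1]
  have h3 : Tendsto (fun B : ℝ => B / a) atTop atTop := tendsto_id.atTop_div_const ha
  refine (h2.comp h3).congr fun B => ?_
  unfold domMom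
  rw [domainExpect_ball B a ha]
  rfl

/-! ### The reduction -/

/-- everything the renormalisation group has to deliver -/
def PMaster : Prop :=
  ∀ (J : ℝ), 0 < J → ∀ (R : ℕ) (V : Finset (ℤ × ℤ) → ℝ), VHyp R V →
    ∃ lam₀ : ℝ, 0 < lam₀ ∧ ∃ (βc Zs Ze : ℝ → ℝ) (eb : ℝ → Fin 2 → ℝ),
      ContinuousAt βc 0 ∧ ContinuousAt Zs 0 ∧ ContinuousAt Ze 0 ∧
      βc 0 = criticalBeta J ∧ Zs 0 = 1 ∧ Ze 0 = 1 ∧
      ∀ lam : ℝ, |lam| < lam₀ →
        (0 < βc lam ∧ Zs lam ≠ 0 ∧ Ze lam ≠ 0) ∧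
        MasterD J lam R V (βc lam) (Zs lam) (Ze lam) (eb lam) ∧
        MasterP J lam R V (βc lam) (Zs lam) (Ze lam) (eb lam) ∧
        DiscLim J lam R V (βc lam) ∧
        (∀ j : Fin 2, Tendsto (fun L : ℕ => torBonds L J lam R V (βc lam) {((0, 0), j)}) atTop
          (𝓝 (eb lam j)))

theorem scl_pos (n m : ℕ) {a : ℝ} (ha : 0 < a) : 0 < scl n m a := Real.rpow_pos_of_pos ha _

theorem scl_mul_pow (n m : ℕ) {a : ℝ} (ha : 0 < a) : scl n m a * a ^ m = scl n 0 a := by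
  unfold scl
  rw [← Real.rpow_natCast, ← Real.rpow_add ha]
  congr 1
  push_cast
  ring

/-- an error bound with bounded error scale gives convergence to zero -/
theorem tendsto_zero_of_master {f g : ℝ → ℝ} {C : ℝ}
    (h : ∀ ε > 0, ∀ᶠ a : ℝ in 𝓝[>] 0, |f a| ≤ ε * g a) (hg : ∀ᶠ a : ℝ in 𝓝[>] 0, g a ≤ C) :
    Tendsto f (𝓝[>] 0) (𝓝 0) := by
  rw [Metric.tendsto_nhds]
  intro ε hε
  have hC : 0 < |C| + 1 := by positivity
  have h1 := h (ε / (2 * (|C| + 1))) (by positivity)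
  filter_upwards [h1, hg] with a h1 h2
  rw [dist_zero_right, Real.norm_eq_abs]
  have h3 : g a ≤ |C| + 1 := h2.trans ((le_abs_self C).trans (by linarith))
  calc |f a| ≤ ε / (2 * (|C| + 1)) * g a := h1
    _ ≤ ε / (2 * (|C| + 1)) * (|C| + 1) := mul_le_mul_of_nonneg_left h3 (by positivity)
    _ = ε / 2 := by field_simp
    _ < ε := by linarith

theorem bdd_of_tendsto {f : ℝ → ℝ} {F : ℝ} (h : Tendsto f (𝓝[>] 0) (𝓝 F)) :
    ∀ᶠ a : ℝ in 𝓝[>] 0, |f a| ≤ |F| + 1 := by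
  have h1 := h.abs
  have h2 : ∀ᶠ t : ℝ in 𝓝 |F|, t ≤ |F| + 1 := by
    filter_upwards [Iio_mem_nhds (show |F| < |F| + 1 by linarith)] with t ht
    exact le_of_lt ht
  exact h1.eventually h2

/-- one spin-only rescaled moment is bounded (also for `n = 0`) -/
theorem spin_bdd (hU : UDb) {D : Set ℂ} (hD : IsC2JordanDomain D) {b : BoundaryCondition}
    {n : ℕ} (hR : Rel b n) {m : ℕ} (x : Fin n → ℂ) (y : Fin m → ℂ) (hx : ∀ i, x i ∈ D)
    (hinj : Function.Injective (Fin.append x y)) :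
    ∃ C, ∀ᶠ a : ℝ in 𝓝[>] 0, |scl n 0 a * D0c D a b x (![] : Fin 0 → ℂ) ![]| ≤ C := by
  have hinj0 : Function.Injective (Fin.append x (![] : Fin 0 → ℂ)) := by
    rw [Fin.append_injective_iff] at hinj ⊢
    exact ⟨hinj.1, fun i => i.elim0, fun i k => k.elim0⟩
  rcases Nat.eq_zero_or_pos n with hn | hn
  · subst hn
    exact ⟨|1| + 1, bdd_of_tendsto (F := 1)
      (subs_of (bounded_of_C2 hD) b 1 0 0 (fun _ => 0) (criticalBeta 1) x ![] ![] (fun _ => e0))⟩
  · obtain ⟨F, hF⟩ := hU D hD b n 0 (by omega) hR x ![] ![] hx (fun k => k.elim0) hinj0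
    exact ⟨|F| + 1, bdd_of_tendsto hF⟩

theorem clause_domain (hU : UDb) {J lam : ℝ} {R : ℕ} {V : Finset (ℤ × ℤ) → ℝ} {β Zs Ze : ℝ}
    {eb : Fin 2 → ℝ} (hM : MasterD J lam R V β Zs Ze eb)
    {D : Set ℂ} (hD : IsC2JordanDomain D) (b : BoundaryCondition) (n m : ℕ) (hnm : 1 ≤ n + m)
    (hR : Rel b n) (x : Fin n → ℂ) (y : Fin m → ℂ) (j : Fin m → Fin 2)
    (hx : ∀ i, x i ∈ D) (hy : ∀ k, y k ∈ D) (hinj : Function.Injective (Fin.append x y)) :
    Tendsto (fun a : ℝ => scl n m a *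
      (domMom D a b J lam R V β x y j (fun k => eb (j k))
        - Zs ^ n * Ze ^ m * D0c D a b x y j)) (𝓝[>] 0) (𝓝 0) := by
  obtain ⟨C₁, hC₁⟩ := spin_bdd hU hD hR x y hx hinj
  obtain ⟨F, hF⟩ := hU D hD b n m hnm hR x y j hx hy hinj
  have hC₂ := bdd_of_tendsto hF
  refine tendsto_zero_of_master (g := fun a => scl n m a * errS D a b x y j)
    (C := C₁ + (|F| + 1)) ?_ ?_
  · intro ε hε
    filter_upwards [hM D hD b n m hnm hR x y j hx hy hinj ε hε, self_mem_nhdsWithin] with a h ha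
    have ha' : (0 : ℝ) < a := ha
    have hs := scl_pos n m ha'
    rw [abs_mul, abs_of_pos hs]
    have := mul_le_mul_of_nonneg_left h hs.le
    unfold disc at this
    linarith
  · filter_upwards [hC₁, hC₂, self_mem_nhdsWithin] with a h1 h2 ha
    have ha' : (0 : ℝ) < a := ha
    have hs := scl_pos n m ha'
    have hs0 := scl_pos n 0 ha'
    unfold errS
    rw [mul_add, ← mul_assoc, scl_mul_pow n m ha']
    rw [abs_mul, abs_of_pos hs0] at h1
    rw [abs_mul, abs_of_pos hs] at h2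
    linarith

/-- the spin-only plane moment, rescaled, is bounded -/
theorem plane_spin_bdd (hU : UPb) {n : ℕ} (hn : Even n) {m : ℕ} (x : Fin n → ℂ) (y : Fin m → ℂ)
    (hinj : Function.Injective (Fin.append x y)) :
    ∃ C, ∀ᶠ a : ℝ in 𝓝[>] 0,
      |scl n 0 a * P0c (fun i => meshIndex a (x i))
        (fun k => meshIndex a ((![] : Fin 0 → ℂ) k)) ![]| ≤ C := by
  have hinj0 : Function.Injective (Fin.append x (![] : Fin 0 → ℂ)) := by
    rw [Fin.append_injective_iff] at hinj ⊢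
    exact ⟨hinj.1, fun i => i.elim0, fun i k => k.elim0⟩
  rcases Nat.eq_zero_or_pos n with h0 | h0
  · subst h0
    refine ⟨1, Eventually.of_forall fun a => ?_⟩
    have h1 : P0c (fun i => meshIndex a (x i)) (fun k => meshIndex a ((![] : Fin 0 → ℂ) k)) ![] =
        1 := by
      unfold P0c plMom
      simp only [torMom_zero_zero]
      exact tendsto_const_nhds.limUnder_eq
    rw [h1, scl_zero_zero]
    simp
  · obtain ⟨F, hF⟩ := hU n 0 (by omega) hn x ![] ![] hinj0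
    exact ⟨|F| + 1, bdd_of_tendsto hF⟩

theorem clause_plane (hU : UPb) (h0 : DiscLim 1 0 0 (fun _ => 0) (criticalBeta 1))
    {J lam : ℝ} {R : ℕ} {V : Finset (ℤ × ℤ) → ℝ}
    {β Zs Ze : ℝ} {eb : Fin 2 → ℝ} (hM : MasterP J lam R V β Zs Ze eb) (hL : DiscLim J lam R V β)
    (n m : ℕ) (hnm : 1 ≤ n + m) (hn : Even n) (x : Fin n → ℂ) (y : Fin m → ℂ)
    (j : Fin m → Fin 2) (hinj : Function.Injective (Fin.append x y)) :
    Tendsto (fun a : ℝ => scl n m a *
      (plMom J lam R V β (fun i => meshIndex a (x i)) (fun k => meshIndex a (y k)) j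
          (fun k => eb (j k))
        - Zs ^ n * Ze ^ m * P0c (fun i => meshIndex a (x i)) (fun k => meshIndex a (y k)) j))
      (𝓝[>] 0) (𝓝 0) := by
  obtain ⟨C₁, hC₁⟩ := plane_spin_bdd hU hn x y hinj
  obtain ⟨F, hF⟩ := hU n m hnm hn x y j hinj
  have hC₂ := bdd_of_tendsto hF
  refine tendsto_zero_of_master (g := fun a => scl n m a *
    (a ^ m * |P0c (fun i => meshIndex a (x i)) (fun k => meshIndex a ((![] : Fin 0 → ℂ) k)) ![]| +
      |P0c (fun i => meshIndex a (x i)) (fun k => meshIndex a (y k)) j|))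
    (C := C₁ + (|F| + 1)) ?_ ?_
  · intro ε hε
    filter_upwards [hM n m hnm hn x y j hinj ε hε, self_mem_nhdsWithin] with a h ha
    have ha' : (0 : ℝ) < a := ha
    have hs := scl_pos n m ha'
    have t1 := plMom_lim hL hn x y j (fun k => eb (j k)) ha'
    have t2 : Tendsto (fun B : ℝ => D0c (Metric.ball 0 B) a .plus x y j) atTop
        (𝓝 (P0c (fun i => meshIndex a (x i)) (fun k => meshIndex a (y k)) j)) :=
      plMom_lim h0 hn x y j (fun _ => e0) ha'
    have t3 : Tendsto (fun B : ℝ => D0c (Metric.ball 0 B) a .plus x (![] : Fin 0 → ℂ) ![]) atTop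
        (𝓝 (P0c (fun i => meshIndex a (x i)) (fun k => meshIndex a ((![] : Fin 0 → ℂ) k)) ![])) :=
      plMom_lim h0 hn x ![] ![] (fun _ => e0) ha'
    have t4 := (t1.sub (t2.const_mul (Zs ^ n * Ze ^ m))).abs
    have t5 := (((t3.abs).const_mul (a ^ m)).add t2.abs).const_mul ε
    have h6 := le_of_tendsto_of_tendsto t4 t5 h
    rw [abs_mul, abs_of_pos hs]
    have := mul_le_mul_of_nonneg_left h6 hs.le
    linarith
  · filter_upwards [hC₁, hC₂, self_mem_nhdsWithin] with a h1 h2 ha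
    have ha' : (0 : ℝ) < a := ha
    have hs := scl_pos n m ha'
    have hs0 := scl_pos n 0 ha'
    rw [mul_add, ← mul_assoc, scl_mul_pow n m ha']
    rw [abs_mul, abs_of_pos hs0] at h1
    rw [abs_mul, abs_of_pos hs] at h2
    linarith

/-- **the master estimates imply the universality leaf** (with the unperturbed limits) -/
theorem PRatioB_of (hD : UDb) (hP : UPb) (h0 : DiscLim 1 0 0 (fun _ => 0) (criticalBeta 1))
    (h : PMaster) : PRatioB := by
  intro J hJ R V hV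
  obtain ⟨lam₀, hlam₀, βc, Zs, Ze, eb, hβ, hZs, hZe, hβ0, hZs0, hZe0, H⟩ := h J hJ R V hV
  refine ⟨lam₀, hlam₀, βc, Zs, Ze, eb, hβ, hZs, hZe, hβ0, hZs0, hZe0, fun lam hl => ?_⟩
  obtain ⟨h1, h2, h3, h4, h5⟩ := H lam hl
  refine ⟨h1, ?_, ?_, h5, ?_⟩
  · intro D hDD b n m hnm hR x y j hx hy hinj
    exact clause_domain hD h2 hDD b n m hnm hR x y j hx hy hinj
  · intro S
    obtain ⟨l, hl, -⟩ := h4 S
    exact ⟨l, hl⟩
  · intro n m hnm hn x y j hinj
    exact clause_plane hP h0 h3 h4 n m hnm hn x y j hinj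

end Crest.Agent.R165.Mastx541
end
end

-- ▼ part R165/SR_541

/-!
# Row 165 (S0250): master estimates from spin ratios and conditional energy ratios (helper541)

* `SRD`, `ERD` : `⟨σ_X⟩_λ/⟨σ_X⟩_0 → Zs^n`,
  `⟨σ_X ∏(ε - eb)⟩_λ/⟨σ_X⟩_λ - Ze^m ⟨σ_X ∏(ε - e0)⟩_0/⟨σ_X⟩_0 = o(a^m)` in `C²` domains
* `SRP`, `ERP` : the same in large plus discs
* `PFlow` : the conjunction with the continuity data; `PMaster_of : PFlow → PMaster`
-/

set_option autoImplicit false

noncomputable section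

open Filter Topology Finset
open Crest.ProbabilityR.IsingModel

namespace Crest.Agent.R165.SRx541

open Crest.Agent.R165.Centx541
open Crest.Agent.R165.Redx541
open Crest.Agent.R165.Symx541
open Crest.Agent.R165.Red2x541
open Crest.Agent.R165.Mastx541
open Crest.Agent.R165.Topx683

/-- spin-only moment -/
def spm (D : Set ℂ) (a : ℝ) (b : BoundaryCondition) (J lam : ℝ) (R : ℕ)
    (V : Finset (ℤ × ℤ) → ℝ) (β : ℝ) {n : ℕ} (x : Fin n → ℂ) : ℝ :=
  domMom D a b J lam R V β x (![] : Fin 0 → ℂ) ![] ![]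

/-- unperturbed spin-only moment -/
def spm0 (D : Set ℂ) (a : ℝ) (b : BoundaryCondition) {n : ℕ} (x : Fin n → ℂ) : ℝ :=
  spm D a b 1 0 0 (fun _ => 0) (criticalBeta 1) x

theorem spm0_eq (D : Set ℂ) (a : ℝ) (b : BoundaryCondition) {n : ℕ} (x : Fin n → ℂ) :
    D0c D a b x (![] : Fin 0 → ℂ) ![] = spm0 D a b x := by
  unfold D0c spm0 spm
  congr 1
  funext k
  exact k.elim0

/-- the elementary algebra -/
theorem alg {n m : ℕ} {Zs Ze a ε ε' m0 M0 ml Ml : ℝ} (h0 : m0 ≠ 0) (hl : ml ≠ 0)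
    (ha : 0 < a) (h1 : |ml / m0 - Zs ^ n| * |Ze ^ m| ≤ ε)
    (h2 : |Ml / ml - Ze ^ m * (M0 / m0)| ≤ ε' * a ^ m) (h3 : |ml / m0| * ε' ≤ ε) :
    |Ml - Zs ^ n * Ze ^ m * M0| ≤ ε * (a ^ m * |m0| + |M0|) := by
  have e1 : Ml - Zs ^ n * Ze ^ m * M0 = (ml / m0 - Zs ^ n) * Ze ^ m * M0 +
      (ml / m0) * (Ml / ml - Ze ^ m * (M0 / m0)) * m0 := by
    field_simp
    ring
  rw [e1]
  refine (abs_add_le _ _).trans ?_
  rw [abs_mul, abs_mul, abs_mul, abs_mul]
  have h4 : |ml / m0 - Zs ^ n| * |Ze ^ m| * |M0| ≤ ε * |M0| :=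
    mul_le_mul_of_nonneg_right h1 (abs_nonneg _)
  have h5 : |ml / m0| * |Ml / ml - Ze ^ m * (M0 / m0)| * |m0| ≤ ε * (a ^ m * |m0|) := by
    have h6 : |ml / m0| * |Ml / ml - Ze ^ m * (M0 / m0)| ≤ ε * a ^ m := by
      calc _ ≤ |ml / m0| * (ε' * a ^ m) := mul_le_mul_of_nonneg_left h2 (abs_nonneg _)
        _ = |ml / m0| * ε' * a ^ m := by ring
        _ ≤ ε * a ^ m := mul_le_mul_of_nonneg_right h3 (by positivity)
    calc _ ≤ ε * a ^ m * |m0| := mul_le_mul_of_nonneg_right h6 (abs_nonneg _)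
      _ = _ := by ring
  linarith

/-- unperturbed spin moments do not vanish (Griffiths), domains and discs -/
structure SPos : Prop where
  dom : ∀ D : Set ℂ, IsC2JordanDomain D → ∀ (b : BoundaryCondition) (n : ℕ), Rel b n →
    ∀ x : Fin n → ℂ, (∀ i, x i ∈ D) → Function.Injective x →
      ∀ᶠ a : ℝ in 𝓝[>] 0, spm0 D a b x ≠ 0
  pl : ∀ (n : ℕ), Even n → ∀ x : Fin n → ℂ, Function.Injective x →
    ∀ᶠ a : ℝ in 𝓝[>] 0, ∀ᶠ B : ℝ in atTop, spm0 (Metric.ball 0 B) a .plus x ≠ 0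

/-- spin ratios in domains -/
def SRD (J lam : ℝ) (R : ℕ) (V : Finset (ℤ × ℤ) → ℝ) (β Zs : ℝ) : Prop :=
  ∀ D : Set ℂ, IsC2JordanDomain D → ∀ (b : BoundaryCondition) (n : ℕ), 1 ≤ n → Rel b n →
    ∀ x : Fin n → ℂ, (∀ i, x i ∈ D) → Function.Injective x →
      ∀ ε > 0, ∀ᶠ a : ℝ in 𝓝[>] 0, |spm D a b J lam R V β x / spm0 D a b x - Zs ^ n| ≤ ε

/-- spin ratios in large plus discs -/
def SRP (J lam : ℝ) (R : ℕ) (V : Finset (ℤ × ℤ) → ℝ) (β Zs : ℝ) : Prop :=
  ∀ (n : ℕ), 1 ≤ n → Even n → ∀ x : Fin n → ℂ, Function.Injective x →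
      ∀ ε > 0, ∀ᶠ a : ℝ in 𝓝[>] 0, ∀ᶠ B : ℝ in atTop,
        |spm (Metric.ball 0 B) a .plus J lam R V β x / spm0 (Metric.ball 0 B) a .plus x -
          Zs ^ n| ≤ ε

/-- conditional energies in domains -/
def ERD (J lam : ℝ) (R : ℕ) (V : Finset (ℤ × ℤ) → ℝ) (β Ze : ℝ) (eb : Fin 2 → ℝ) : Prop :=
  ∀ D : Set ℂ, IsC2JordanDomain D → ∀ (b : BoundaryCondition) (n m : ℕ), 1 ≤ m → Rel b n →
    ∀ (x : Fin n → ℂ) (y : Fin m → ℂ) (j : Fin m → Fin 2),
      (∀ i, x i ∈ D) → (∀ k, y k ∈ D) → Function.Injective (Fin.append x y) →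
      ∀ ε > 0, ∀ᶠ a : ℝ in 𝓝[>] 0,
        |domMom D a b J lam R V β x y j (fun k => eb (j k)) / spm D a b J lam R V β x -
          Ze ^ m * (D0c D a b x y j / spm0 D a b x)| ≤ ε * a ^ m

/-- conditional energies in large plus discs -/
def ERP (J lam : ℝ) (R : ℕ) (V : Finset (ℤ × ℤ) → ℝ) (β Ze : ℝ) (eb : Fin 2 → ℝ) : Prop :=
  ∀ (n m : ℕ), 1 ≤ m → Even n → ∀ (x : Fin n → ℂ) (y : Fin m → ℂ) (j : Fin m → Fin 2),
      Function.Injective (Fin.append x y) →
      ∀ ε > 0, ∀ᶠ a : ℝ in 𝓝[>] 0, ∀ᶠ B : ℝ in atTop,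
        |domMom (Metric.ball 0 B) a .plus J lam R V β x y j (fun k => eb (j k)) /
            spm (Metric.ball 0 B) a .plus J lam R V β x -
          Ze ^ m * (D0c (Metric.ball 0 B) a .plus x y j / spm0 (Metric.ball 0 B) a .plus x)| ≤
        ε * a ^ m

theorem spm_zero {D : Set ℂ} (hD : Bornology.IsBounded D) {a : ℝ} (ha : 0 < a)
    (b : BoundaryCondition) (J lam : ℝ) (R : ℕ) (V : Finset (ℤ × ℤ) → ℝ) (β : ℝ)
    (x : Fin 0 → ℂ) : spm D a b J lam R V β x = 1 :=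
  domMom_zero_zero D a b J lam R V β (domainSites_finite hD ha) x _ _ _

/-- pointwise combination: spin ratio and conditional energy ratio give the master estimate -/
theorem comb {n m : ℕ} {Zs Ze : ℝ} (hZs : Zs ≠ 0) (ε : ℝ) (hε : 0 < ε) :
    ∃ δ > 0, ∀ {a m0 M0 ml Ml : ℝ}, 0 < a → m0 ≠ 0 → |ml / m0 - Zs ^ n| ≤ δ →
      |Ml / ml - Ze ^ m * (M0 / m0)| ≤ δ * a ^ m →
      |Ml - Zs ^ n * Ze ^ m * M0| ≤ ε * (a ^ m * |m0| + |M0|) := by
  have hZn : 0 < |Zs ^ n| := abs_pos.2 (pow_ne_zero _ hZs)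
  refine ⟨min (ε / (|Ze ^ m| + 1)) (min (|Zs ^ n| / 2) (ε / (2 * |Zs ^ n|))),
    lt_min (by positivity) (lt_min (by positivity) (by positivity)), ?_⟩
  intro a m0 M0 ml Ml ha h0 h1 h2
  set δ := min (ε / (|Ze ^ m| + 1)) (min (|Zs ^ n| / 2) (ε / (2 * |Zs ^ n|))) with hδ
  have d1 : δ ≤ ε / (|Ze ^ m| + 1) := min_le_left _ _
  have d2 : δ ≤ |Zs ^ n| / 2 := (min_le_right _ _).trans (min_le_left _ _)
  have d3 : δ ≤ ε / (2 * |Zs ^ n|) := (min_le_right _ _).trans (min_le_right _ _)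
  have dpos : 0 < δ := lt_min (by positivity) (lt_min (by positivity) (by positivity))
  have hl : ml ≠ 0 := by
    intro hl
    rw [hl, zero_div, zero_sub, abs_neg] at h1
    linarith
  have hρ : |ml / m0| ≤ 2 * |Zs ^ n| := by
    have := abs_sub_abs_le_abs_sub (ml / m0) (Zs ^ n)
    linarith
  refine alg (ε' := δ) h0 hl ha ?_ h2 ?_
  · calc |ml / m0 - Zs ^ n| * |Ze ^ m| ≤ ε / (|Ze ^ m| + 1) * |Ze ^ m| :=
          mul_le_mul_of_nonneg_right (h1.trans d1) (abs_nonneg _)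
      _ ≤ ε / (|Ze ^ m| + 1) * (|Ze ^ m| + 1) :=
          mul_le_mul_of_nonneg_left (by linarith) (by positivity)
      _ = ε := by field_simp
  · calc |ml / m0| * δ ≤ 2 * |Zs ^ n| * (ε / (2 * |Zs ^ n|)) :=
          mul_le_mul hρ d3 dpos.le (by positivity)
      _ = ε := by field_simp

theorem domMom_m_zero (D : Set ℂ) (a : ℝ) (b : BoundaryCondition) (J lam : ℝ) (R : ℕ)
    (V : Finset (ℤ × ℤ) → ℝ) (β : ℝ) {n : ℕ} (x : Fin n → ℂ) (y : Fin 0 → ℂ)
    (j : Fin 0 → Fin 2) (c : Fin 0 → ℝ) :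
    domMom D a b J lam R V β x y j c = spm D a b J lam R V β x := by
  unfold spm
  congr 1 <;> · funext k; exact k.elim0

theorem D0c_m_zero (D : Set ℂ) (a : ℝ) (b : BoundaryCondition) {n : ℕ} (x : Fin n → ℂ)
    (y : Fin 0 → ℂ) (j : Fin 0 → Fin 2) : D0c D a b x y j = spm0 D a b x :=
  domMom_m_zero D a b 1 0 0 _ _ x y j _

theorem masterD_of (hpos : SPos) {J lam : ℝ} {R : ℕ} {V : Finset (ℤ × ℤ) → ℝ} {β Zs Ze : ℝ}
    {eb : Fin 2 → ℝ} (hZs : Zs ≠ 0) (hS : SRD J lam R V β Zs) (hE : ERD J lam R V β Ze eb) :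
    MasterD J lam R V β Zs Ze eb := by
  intro D hD b n m hnm hR x y j hx hy hinj ε hε
  have hinjx : Function.Injective x := (Fin.append_injective_iff.1 hinj).1
  obtain ⟨δ, hδ, hcomb⟩ := comb (n := n) (m := m) (Ze := Ze) hZs ε hε
  have hs : ∀ᶠ a : ℝ in 𝓝[>] 0, |spm D a b J lam R V β x / spm0 D a b x - Zs ^ n| ≤ δ := by
    rcases Nat.eq_zero_or_pos n with hn | hn
    · subst hn
      filter_upwards [self_mem_nhdsWithin] with a ha
      have ha' : (0 : ℝ) < a := ha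
      unfold spm0
      rw [spm_zero (bounded_of_C2 hD) ha', spm_zero (bounded_of_C2 hD) ha']
      simpa using hδ.le
    · exact hS D hD b n hn hR x hx hinjx δ hδ
  have he : ∀ᶠ a : ℝ in 𝓝[>] 0,
      |domMom D a b J lam R V β x y j (fun k => eb (j k)) / spm D a b J lam R V β x -
        Ze ^ m * (D0c D a b x y j / spm0 D a b x)| ≤ δ * a ^ m := by
    rcases Nat.eq_zero_or_pos m with hm | hm
    · subst hm
      have hs2 : ∀ᶠ a : ℝ in 𝓝[>] 0,
          |spm D a b J lam R V β x / spm0 D a b x - Zs ^ n| < |Zs ^ n| := by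
        have hZn : 0 < |Zs ^ n| := abs_pos.2 (pow_ne_zero _ hZs)
        rcases Nat.eq_zero_or_pos n with hn | hn
        · omega
        · filter_upwards [hS D hD b n hn hR x hx hinjx (|Zs ^ n| / 2) (by positivity)] with a h
          linarith
      filter_upwards [hpos.dom D hD b n hR x hx hinjx, hs2, self_mem_nhdsWithin] with a h0 h2 ha
      have hl : spm D a b J lam R V β x ≠ 0 := by
        intro hl
        rw [hl, zero_div, zero_sub, abs_neg] at h2
        exact lt_irrefl _ h2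
      rw [domMom_m_zero, D0c_m_zero, div_self h0, div_self hl]
      simpa using hδ.le
    · exact hE D hD b n m hm hR x y j hx hy hinj δ hδ
  filter_upwards [hs, he, hpos.dom D hD b n hR x hx hinjx, self_mem_nhdsWithin] with a h1 h2 h3 ha
  have ha' : (0 : ℝ) < a := ha
  unfold disc errS
  rw [spm0_eq]
  exact hcomb ha' h3 h1 h2

theorem masterP_of (hpos : SPos) {J lam : ℝ} {R : ℕ} {V : Finset (ℤ × ℤ) → ℝ} {β Zs Ze : ℝ}
    {eb : Fin 2 → ℝ} (hZs : Zs ≠ 0) (hS : SRP J lam R V β Zs) (hE : ERP J lam R V β Ze eb) :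
    MasterP J lam R V β Zs Ze eb := by
  intro n m hnm hev x y j hinj ε hε
  have hinjx : Function.Injective x := (Fin.append_injective_iff.1 hinj).1
  obtain ⟨δ, hδ, hcomb⟩ := comb (n := n) (m := m) (Ze := Ze) hZs ε hε
  have hs : ∀ δ > 0, ∀ᶠ a : ℝ in 𝓝[>] 0, ∀ᶠ B : ℝ in atTop,
      |spm (Metric.ball 0 B) a .plus J lam R V β x / spm0 (Metric.ball 0 B) a .plus x -
        Zs ^ n| ≤ δ := by
    intro δ hδ
    rcases Nat.eq_zero_or_pos n with hn | hn
    · subst hn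
      filter_upwards [self_mem_nhdsWithin] with a ha
      have ha' : (0 : ℝ) < a := ha
      refine Eventually.of_forall fun B => ?_
      unfold spm0
      rw [spm_zero Metric.isBounded_ball ha', spm_zero Metric.isBounded_ball ha']
      simpa using hδ.le
    · exact hS n hn hev x hinjx δ hδ
  have he : ∀ᶠ a : ℝ in 𝓝[>] 0, ∀ᶠ B : ℝ in atTop,
      |domMom (Metric.ball 0 B) a .plus J lam R V β x y j (fun k => eb (j k)) /
          spm (Metric.ball 0 B) a .plus J lam R V β x -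
        Ze ^ m * (D0c (Metric.ball 0 B) a .plus x y j / spm0 (Metric.ball 0 B) a .plus x)| ≤
        δ * a ^ m := by
    rcases Nat.eq_zero_or_pos m with hm | hm
    · subst hm
      have hZn : 0 < |Zs ^ n| := abs_pos.2 (pow_ne_zero _ hZs)
      filter_upwards [hpos.pl n hev x hinjx, hs (|Zs ^ n| / 2) (by positivity)] with a h1 h2
      filter_upwards [h1, h2] with B h0 h2
      have hl : spm (Metric.ball 0 B) a .plus J lam R V β x ≠ 0 := by
        intro hl
        rw [hl, zero_div, zero_sub, abs_neg] at h2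
        linarith
      rw [domMom_m_zero, D0c_m_zero, div_self h0, div_self hl]
      simpa using hδ.le
    · exact hE n m hm hev x y j hinj δ hδ
  filter_upwards [hs δ hδ, he, hpos.pl n hev x hinjx, self_mem_nhdsWithin] with a h1 h2 h3 ha
  have ha' : (0 : ℝ) < a := ha
  filter_upwards [h1, h2, h3] with B h1 h2 h3
  unfold disc errS
  rw [spm0_eq]
  exact hcomb ha' h3 h1 h2

/-- what the renormalisation group has to deliver, ratio form -/
def PFlow : Prop :=
  ∀ (J : ℝ), 0 < J → ∀ (R : ℕ) (V : Finset (ℤ × ℤ) → ℝ), VHyp R V →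
    ∃ lam₀ : ℝ, 0 < lam₀ ∧ ∃ (βc Zs Ze : ℝ → ℝ) (eb : ℝ → Fin 2 → ℝ),
      ContinuousAt βc 0 ∧ ContinuousAt Zs 0 ∧ ContinuousAt Ze 0 ∧
      βc 0 = criticalBeta J ∧ Zs 0 = 1 ∧ Ze 0 = 1 ∧
      ∀ lam : ℝ, |lam| < lam₀ →
        (0 < βc lam ∧ Zs lam ≠ 0 ∧ Ze lam ≠ 0) ∧
        SRD J lam R V (βc lam) (Zs lam) ∧ ERD J lam R V (βc lam) (Ze lam) (eb lam) ∧
        SRP J lam R V (βc lam) (Zs lam) ∧ ERP J lam R V (βc lam) (Ze lam) (eb lam) ∧
        DiscLim J lam R V (βc lam) ∧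
        (∀ j : Fin 2, Tendsto (fun L : ℕ => torBonds L J lam R V (βc lam) {((0, 0), j)}) atTop
          (𝓝 (eb lam j)))

theorem PMaster_of (hpos : SPos) (h : PFlow) : PMaster := by
  intro J hJ R V hV
  obtain ⟨lam₀, hlam₀, βc, Zs, Ze, eb, hβ, hZs, hZe, hβ0, hZs0, hZe0, H⟩ := h J hJ R V hV
  refine ⟨lam₀, hlam₀, βc, Zs, Ze, eb, hβ, hZs, hZe, hβ0, hZs0, hZe0, fun lam hl => ?_⟩
  obtain ⟨h1, h2, h3, h4, h5, h6, h7⟩ := H lam hl
  exact ⟨h1, masterD_of hpos h1.2.1 h2 h3, masterP_of hpos h1.2.1 h4 h5, h6, h7⟩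

/-- `PMaster` contains the unperturbed disc limit -/
theorem discLim_zero (h : PMaster) : DiscLim 1 0 0 (fun _ => 0) (criticalBeta 1) := by
  obtain ⟨lam₀, hlam₀, βc, Zs, Ze, eb, hβ, hZs, hZe, hβ0, hZs0, hZe0, H⟩ :=
    h 1 one_pos 0 (fun _ => 0) ⟨fun _ h => absurd rfl h, fun _ h => absurd rfl h,
      fun _ _ => rfl, fun _ => rfl, fun _ => rfl⟩
  have := (H 0 (by simpa using hlam₀)).2.2.2.1
  rwa [hβ0] at this

/-- **summary**: unperturbed leaves + positivity + flow outputs imply everything -/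
theorem all_of (hU : ULimB) (hpos : SPos) (h : PFlow) : ULim ∧ PRatio :=
  leavesB hU (PRatioB_of hU.ud hU.up (discLim_zero (PMaster_of hpos h)) (PMaster_of hpos h))

end Crest.Agent.R165.SRx541
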