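import Crest.Agent.R165.RegI_893
import Crest.Agent.R165.QuadB_915
import Crest.Agent.R165.W0S_897
import Crest.Agent.R165.Crude_386

/-!
# Row 165, block G/P: one step of the concrete flow `GSysx387.sys` (helper897)

* `acS`, `StepGeo` : active polymers; the geometric input of one contracting step
* `TT`, `N2`, `N3`, `CF`, `CG`, `etaG` : the constants (they depend on `C, D, l, CX` only)
* `StepGeo.dstep` : the structure `DStep` for the covariance `slC` of the step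
* `good_step` : `b + c ≤ η  ⟹  c' ≤ c/4 + CG b + CG (b + c)²`
-/

set_option autoImplicit false
set_option linter.unusedSectionVars false
set_option linter.unusedVariables false

noncomputable section

open scoped ENNReal
open Crest.Agent.R165.Gr0x606 Crest.Agent.R165.Gr1x606 Crest.Agent.R165.GeOpsx337
  Crest.Agent.R165.ExpGx337 Crest.Agent.R165.KFlowx337
open Crest.Agent.R165.Latx683 Crest.Agent.R165.PNormx417
open Crest.Agent.R165.GDefx387 Crest.Agent.R165.Packx915 Crest.Agent.R165.NSumx915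
open Crest.Agent.R165.Bridgex915 Crest.Agent.R165.NKDefx915 Crest.Agent.R165.DefRecx915
open Crest.Agent.R165.FRDPolyx439 Crest.Agent.R165.FRDLatx439 Crest.Agent.R165.GSysx387
open Crest.Agent.R165.RegGx893 Crest.Agent.R165.RegIx893 Crest.Agent.R165.W0Sx897
open Crest.Agent.R165.Wtx898 Crest.Agent.R165.BgIsox432

namespace Crest.Agent.R165.StepGluex897

/-! ### numerics -/

/-- factor of the small polymers -/
def TT (C : ℝ) (D : ℕ) : ℝ≥0∞ := ENNReal.ofReal (1 + 4 * EE C D)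

/-- number of balls of the old scale covering a ball of the new scale -/
def N2 (l : ℕ) : ℕ := (2 * 2 ^ l + 3) ^ 2

/-- number of output balls -/
def N3 (l : ℕ) : ℕ := (2 * (2 ^ l + 1) + 3) ^ 2

/-- bound of the first order quantities -/
def CF (C : ℝ) (D l : ℕ) (CX : ℝ≥0∞) : ℝ≥0∞ := (1 + 3 * TT C D + 2 * (3 * CX)) * N2 l

/-- the constant of the recursion -/
def CG (C : ℝ) (D l : ℕ) (CX : ℝ≥0∞) : ℝ≥0∞ :=
  (1 + (TT C D + CX)) * N2 l + 10 * N3 l * CF C D l CX ^ 2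

/-- smallness needed for the quadratic part -/
def etaG (C : ℝ) (D l : ℕ) (CX : ℝ≥0∞) : ℝ≥0∞ := (N3 l * (3 * CF C D l CX))⁻¹

theorem TT_ne_top (C : ℝ) (D : ℕ) : TT C D ≠ ∞ := ENNReal.ofReal_ne_top

theorem one_le_TT {C : ℝ} (hC : 1 ≤ C) (D : ℕ) : 1 ≤ TT C D := by
  unfold TT
  have := EE_pos hC D
  rw [← ENNReal.ofReal_one]
  exact ENNReal.ofReal_le_ofReal (by linarith)

theorem CF_ne_top (C : ℝ) (D l : ℕ) {CX : ℝ≥0∞} (h : CX ≠ ∞) : CF C D l CX ≠ ∞ := by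
  unfold CF
  refine ENNReal.mul_ne_top (ENNReal.add_ne_top.2 ⟨ENNReal.add_ne_top.2 ⟨ENNReal.one_ne_top, ?_⟩, ?_⟩)
    (ENNReal.natCast_ne_top _)
  · exact ENNReal.mul_ne_top (by norm_num) (TT_ne_top C D)
  · exact ENNReal.mul_ne_top (by norm_num) (ENNReal.mul_ne_top (by norm_num) h)



theorem nn2_le (l k0 n : ℕ) : nn2 (rr l k0 n) (rr l k0 (n + 1)) = N2 l := by
  unfold nn2 N2
  rw [rr_succ, Nat.mul_div_cancel _ (rr_pos l k0 n)]

theorem nn3_le (l k0 n : ℕ) : nn3 (rr l k0 (n + 1)) (nearR l k0 (n + 1)) ≤ N3 l := by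
  unfold nn3 N3
  have h0 := rr_pos l k0 (n + 1)
  have h1 : (rr l k0 (n + 1) + nearR l k0 (n + 1)) / rr l k0 (n + 1) ≤ 2 ^ l + 1 := by
    refine Nat.div_le_of_le_mul ?_
    have h2 : nearR l k0 (n + 1) ≤ rr l k0 (n + 1 + 1) := Nat.div_le_self _ _
    rw [rr_succ l k0 (n + 1)] at h2
    calc rr l k0 (n + 1) + nearR l k0 (n + 1) ≤ rr l k0 (n + 1) + 2 ^ l * rr l k0 (n + 1) := by
          omega
      _ = rr l k0 (n + 1) * (2 ^ l + 1) := by ring
  have h3 : 2 * ((rr l k0 (n + 1) + nearR l k0 (n + 1)) / rr l k0 (n + 1)) + 3 ≤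
      2 * (2 ^ l + 1) + 3 := by omega
  exact Nat.pow_le_pow_left h3 2

/-- the gain of the large polymers -/
theorem qL_mul_le {C : ℝ} {D l : ℕ} {Γ : ℝ≥0∞} (hΓt : Γ ≠ ∞)
    (hΓ : 8 * (3 * TT C D) ^ 2 * N2 l ≤ Γ) : (3 * TT C D) ^ 2 * Γ⁻¹ * N2 l ≤ 1 / 8 := by
  have h8 : (8 : ℝ≥0∞) * ((3 * TT C D) ^ 2 * Γ⁻¹ * N2 l) ≤ 1 := by
    calc (8 : ℝ≥0∞) * ((3 * TT C D) ^ 2 * Γ⁻¹ * N2 l) = (8 * (3 * TT C D) ^ 2 * N2 l) * Γ⁻¹ := by
          ring
      _ ≤ Γ * Γ⁻¹ := mul_le_mul' hΓ le_rfl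
      _ ≤ 1 := ENNReal.mul_inv_le_one _
  rw [ENNReal.le_div_iff_mul_le (by norm_num) (by norm_num), mul_comm]
  exact h8

theorem one_le_N2 (l : ℕ) : (1 : ℝ≥0∞) ≤ N2 l := by
  have : 1 ≤ N2 l := Nat.one_le_pow _ _ (by positivity)
  exact_mod_cast this

theorem qL_le {C : ℝ} {D l : ℕ} {Γ : ℝ≥0∞} (hΓt : Γ ≠ ∞)
    (hΓ : 8 * (3 * TT C D) ^ 2 * N2 l ≤ Γ) : (3 * TT C D) ^ 2 * Γ⁻¹ ≤ 1 := by
  have h1 := qL_mul_le hΓt hΓ
  refine le_trans (le_mul_of_one_le_right' (one_le_N2 l)) (h1.trans ?_)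
  rw [one_div]
  exact ENNReal.inv_le_one.2 (by norm_num)

/-- bound of the first order quantities, crude step -/
def CFc (l : ℕ) (CX : ℝ≥0∞) : ℝ≥0∞ := (3 + 3 * 1 + 2 * (3 * CX)) * N2 l



theorem CFc_ne_top (l : ℕ) {CX : ℝ≥0∞} (h : CX ≠ ∞) : CFc l CX ≠ ∞ := by
  unfold CFc
  exact ENNReal.mul_ne_top (ENNReal.add_ne_top.2 ⟨by norm_num, ENNReal.mul_ne_top (by norm_num)
    (ENNReal.mul_ne_top (by norm_num) h)⟩) (ENNReal.natCast_ne_top _)









/-! ### geometry of one step -/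

variable {G : Type} [CommRing G] [CN G]

/-- active polymers of step `n` -/
def acS (l k0 n : ℕ) (Ac : Set (G × G)) (U : Finset (G × G)) : Prop :=
  U.Nonempty ∧ Packx915.Conn fd (nearR l k0 n) U ∧ ∀ x ∈ U, x ∈ Ac

/-- **geometric input of one contracting step** of the background `w` with the marks `mk`:
`B` = boundary centres, `Z` = marks and clusters, `loc i` = branch points, `Ac` = active faces -/
structure StepGeo (w : BW G) (mk : Finset (G × G)) (C : ℝ) (Λ r0 D l k0 n Nm Nb : ℕ) {ι : Type*}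
    (loc : ι → G × G) (B Z Ac : Set (G × G)) : Prop where
  /-- weights -/
  wle : ∀ z j, |w z j| ≤ 1
  /-- regularity at all scales up to `32 r'` -/
  geo : Geo w C Λ r0 (32 * rr l k0 (n + 1)) loc B Z Ac
  r0_le : r0 ≤ rr l k0 n
  /-- branch points are far apart -/
  sep : ∀ i j, i ≠ j → 2 * (rr l k0 (n + 1) + D * rr l k0 n) < fd (loc i) (loc j)
  /-- small polymers which are not plane-like are near a defect -/
  near : ∀ U, acS l k0 n Ac U → size (rr l k0 n) U ≤ 1 → ¬ emM w mk (rr l k0 n) U → ∃ x ∈ U,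
      (∃ y ∈ B, fd y x + rr l k0 n ≤ D * rr l k0 n) ∨
      (∃ z ∈ Z, fd z x + rr l k0 n ≤ D * rr l k0 n) ∨
      ∃ i, fd (loc i) x + rr l k0 n ≤ D * rr l k0 n
  cb : DCount fd B (rr l k0 (n + 1) + D * rr l k0 n) (rr l k0 n) Nb
  cm : DCount fd Z (rr l k0 (n + 1) + D * rr l k0 n) (rr l k0 n) Nm
  Nb_le : Nb ≤ 8 * (2 ^ l + D) + 1

section step

variable [DecidableEq G] {w : BW G} {mk : Finset (G × G)} {C : ℝ} {Λ r0 D l k0 n Nm Nb : ℕ}
  {ι : Type*} {loc : ι → G × G} {B Z Ac : Set (G × G)} {Γ : ℝ≥0∞} {a a' : ℝ}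

theorem range_le {l k0 n : ℕ} (h10 : 10 ≤ 2 ^ l) :
    4 * nearR l k0 n + 3 * rr l k0 n + 2 ≤ 2 ^ l * rr l k0 n := by
  have h0 := rr_pos l k0 n
  have h1 : nearR l k0 n = 2 ^ l * rr l k0 n / 8 := by unfold nearR; rw [rr_succ]
  have h2 : 10 * rr l k0 n ≤ 2 ^ l * rr l k0 n := Nat.mul_le_mul_right _ h10
  have h3 : 8 * nearR l k0 n ≤ 2 ^ l * rr l k0 n := by
    rw [h1]; exact Nat.mul_div_le _ _
  omega

/-- **the structure `DStep`** for the covariance of step `n` -/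
theorem StepGeo.dstep [Fintype ι] {M K : ℕ} (F : FRD 16 M K) (hM : MM + 1 ≤ M)
    (H : StepGeo w mk C Λ r0 D l k0 n Nm Nb loc B Z Ac) (hL : BigL C D Nm (1 / 8) (2 ^ l))
    (hLΛ : 2 ^ l ≤ Λ) (ha : 0 < a) (ha2 : a' ≤ 2 * a)
    (hA : cW0 F l k0 n ≤ a') (hΓt : Γ ≠ ∞) (hΓ : (3 * TT C D) ^ 2 ≤ Γ) :
    DStep w a a' (rr l k0 n) (rr l k0 (n + 1)) Γ (3 * Γ) (slC F w l k0 n) (acS l k0 n Ac)
      (emM w mk (rr l k0 n)) (dset loc B Z) (fun _ => D * rr l k0 n) (dN Nb Nm)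
      (dq (EE C D) (Real.sqrt (1 / ((2 ^ l : ℕ) : ℝ)))) ((3 * TT C D) ^ 2 * Γ⁻¹) (TT C D) := by
  have hgeo := H.geo
  have hsep := H.sep
  have hcb := H.cb
  have hcm := H.cm
  have hw0 := fun U => w0S F hM w H.wle l k0 n hA U
  rw [rr_succ] at hgeo hsep hcb hcm hw0 ⊢
  exact Geo.dstepL (Rc := nearR l k0 n) hL hgeo (gramS F w H.wle l k0 n) hLΛ H.r0_le le_rfl
    (rr_pos l k0 n) ha ((cW0_pos F l k0 n).le.trans hA) ha2 (fun U _ => hw0 U) (fun U hU => hU.2.2) (fun U hU => hU.2.1)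
    (range_le hL.ten) hsep H.near hcb hcm hΓt (by norm_num) hΓ

end step

/-! ### the step of the concrete system -/

section sysm

variable [DecidableEq G] [CNZ G] {M K : ℕ} (F : FRD 16 M K) (w : BW G) (mk : Finset (G × G))
  (l k0 : ℕ) (K0 : Finset (G × G) → Ge (Fld G)) (a : ℕ → ℝ) (Γ : ℝ≥0∞)

/-- norm of the plane-like activities of step `n` -/
def bN (n : ℕ) : ℝ≥0∞ :=
  NK w (a n) (rr l k0 n) Γ (fun U => emM w (mk : Set (G × G)) (rr l k0 n) U)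
    (fun U => (((sys F w mk l k0 K0).K n U : Ge (Fld G)) : Gr (Fld G)))

/-- norm of the defect activities of step `n` -/
def cN (n : ℕ) : ℝ≥0∞ :=
  NK w (a n) (rr l k0 n) Γ (fun U => ¬ emM w (mk : Set (G × G)) (rr l k0 n) U)
    (fun U => (((sys F w mk l k0 K0).K n U : Ge (Fld G)) : Gr (Fld G)))

theorem vacCt_sys : VacCt (sys F w mk l k0 K0) := fun _ => rfl

theorem embExtr_sys (n : ℕ) : EmbExtr (rr l k0 n) (emM w (mk : Set (G × G)) (rr l k0 (n + 1)))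
    ((sys F w mk l k0 K0).e n) := by
  classical
  intro U T hT
  obtain ⟨h1, f, hf, hd, hTf⟩ := (PStepx417.mem_exOut (deep w mk l k0 n) (rr l k0 n)).1 hT
  refine ⟨h1, f, hf, hTf, hd.1, ?_⟩
  intro u hu x hx
  rw [Finset.mem_singleton] at hu
  subst hu
  exact hd.2 x hx

variable {F w mk l k0 K0 a Γ} {C : ℝ} {Λ r0 D n Nm Nb : ℕ}
  {ι : Type*} {loc : ι → G × G} {B Z Ac : Set (G × G)} {CX : ℝ≥0∞}

/-- **CONTRACTING STEP** of the concrete flow -/
theorem good_step [GoodG G] [Fintype ι] (hM : MM + 1 ≤ M)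
    (H : StepGeo w mk C Λ r0 D l k0 n Nm Nb loc B Z Ac) (hL : BigL C D Nm (1 / 8) (2 ^ l))
    (hLΛ : 2 ^ l ≤ Λ) (ha : 0 < a n) (ha2 : a (n + 1) ≤ 2 * a n)
    (hA : cW0 F l k0 n ≤ a (n + 1)) (hΓt : Γ ≠ ∞) (hΓ : 8 * (3 * TT C D) ^ 2 * N2 l ≤ Γ)
    (hX : XBd w (a n) (a (n + 1)) (rr l k0 n) (rr l k0 (n + 1)) (acS l k0 n Ac)
      (sys F w mk l k0 K0) n CX) (hCX : CX ≠ ∞)
    (hac : ∀ U, (sys F w mk l k0 K0).K n U ≠ 0 → acS l k0 n Ac U)
    (hbc : bN F w mk l k0 K0 a Γ n + cN F w mk l k0 K0 a Γ n ≤ etaG C D l CX) :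
    cN F w mk l k0 K0 a Γ (n + 1) ≤ 1 / 4 * cN F w mk l k0 K0 a Γ n +
      CG C D l CX * bN F w mk l k0 K0 a Γ n +
      CG C D l CX * (bN F w mk l k0 K0 a Γ n + cN F w mk l k0 K0 a Γ n) ^ 2 := by
  have h8N : (1 : ℝ≥0∞) ≤ 8 * N2 l := by
    calc (1 : ℝ≥0∞) ≤ 8 * 1 := by norm_num
      _ ≤ 8 * N2 l := mul_le_mul' le_rfl (one_le_N2 l)
  have hΓ1 : (3 * TT C D) ^ 2 ≤ Γ := by
    refine le_trans ?_ hΓ
    calc (3 * TT C D) ^ 2 = 1 * (3 * TT C D) ^ 2 := (one_mul _).symm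
      _ ≤ (8 * N2 l) * (3 * TT C D) ^ 2 := mul_le_mul' h8N le_rfl
      _ = _ := by ring
  have hT1 := one_le_TT H.geo.one_le D
  have hΓ11 : 1 ≤ Γ := by
    refine le_trans ?_ hΓ1
    exact one_le_pow₀ (one_le_mul (by norm_num) hT1)
  have hst := H.dstep F hM hL hLΛ ha ha2 hA hΓt hΓ1
  set b := bN F w mk l k0 K0 a Γ n with hb
  set c := cN F w mk l k0 K0 a Γ n with hc
  have hqL := qL_le hΓt hΓ
  have hqL2 := qL_mul_le hΓt hΓ
  set qL : ℝ≥0∞ := (3 * TT C D) ^ 2 * Γ⁻¹ with hqLd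
  have hcF : cF (rr l k0 n) (rr l k0 (n + 1)) qL (TT C D) CX ≤ CF C D l CX := by
    unfold cF CF
    rw [nn2_le]
    gcongr
  have hn3 : ((nn3 (rr l k0 (n + 1)) (nearR l k0 (n + 1)) : ℕ) : ℝ≥0∞) ≤ N3 l := by
    exact_mod_cast nn3_le l k0 n
  have hCFt := CF_ne_top C D l hCX
  have hbct : b + c ≠ ∞ := by
    refine ne_top_of_le_ne_top ?_ hbc
    unfold etaG
    refine ENNReal.inv_ne_top.2 ?_
    refine mul_ne_zero ?_ (mul_ne_zero (by norm_num) ?_)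
    · have : 0 < N3 l := by unfold N3; positivity
      exact_mod_cast this.ne'
    · unfold CF
      refine mul_ne_zero ?_ ?_
      · exact (lt_of_lt_of_le one_pos (by rw [add_assoc]; exact le_self_add)).ne'
      · exact (lt_of_lt_of_le one_pos (one_le_N2 l)).ne'
  have hsmall : nn3 (rr l k0 (n + 1)) (nearR l k0 (n + 1)) *
      (3 * (cF (rr l k0 n) (rr l k0 (n + 1)) qL (TT C D) CX * (b + c))) ≤ 1 := by
    calc (nn3 (rr l k0 (n + 1)) (nearR l k0 (n + 1)) : ℝ≥0∞) *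
        (3 * (cF (rr l k0 n) (rr l k0 (n + 1)) qL (TT C D) CX * (b + c)))
        ≤ N3 l * (3 * (CF C D l CX * etaG C D l CX)) := by gcongr
      _ = (N3 l * (3 * CF C D l CX)) * etaG C D l CX := by ring
      _ ≤ 1 := ENNReal.mul_inv_le_one _
  have key := step_all (sys F w mk l k0 K0) n (em' := emM w (mk : Set (G × G)) (rr l k0 (n + 1)))
    (R' := nearR l k0 (n + 1)) hst (rr_pos l k0 n)
    (rr_mono l k0 (Nat.le_succ n)) (deep_emM w mk ?_) hΓ11 rfl hac (fun U hU => hU.1)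
    (vacCt_sys F w mk l k0 K0) (embExtr_sys F w mk l k0 K0 n) hX (b := b) (c := c) le_rfl le_rfl
    hsmall (ENNReal.mul_ne_top (ne_top_of_le_ne_top hCFt hcF) hbct)
  · refine key.trans ?_
    refine add_le_add (add_le_add (mul_le_mul' ?_ le_rfl) (mul_le_mul' ?_ le_rfl))
      (mul_le_mul' ?_ le_rfl)
    · -- contraction factor
      unfold kapD
      rw [nn2_le]
      have h1 := hL.sum_le H.geo.one_le (rr_pos l k0 n) H.Nb_le
      refine (add_le_add hqL2 h1).trans ?_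
      have e : ENNReal.ofReal (1 / 8) = 1 / 8 := by
        rw [ENNReal.ofReal_div_of_pos (by norm_num)]; norm_num
      rw [e]
      rw [ENNReal.div_add_div_same]
      rw [show (1 : ℝ≥0∞) + 1 = 2 by norm_num]
      rw [ENNReal.div_le_iff_le_mul (by norm_num) (by norm_num), one_div]
      have h48 : (4 : ℝ≥0∞)⁻¹ * 8 = 2 := by
        rw [show (8 : ℝ≥0∞) = 4 * 2 by norm_num, ← mul_assoc,
          ENNReal.inv_mul_cancel (by norm_num) (by norm_num), one_mul]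
      rw [h48]
    · unfold CG
      rw [nn2_le]
      refine le_trans ?_ le_self_add
      gcongr
    · unfold cQ CG
      refine le_trans ?_ le_add_self
      gcongr
  · have h10 := hL.ten
    have h1 : 10 * rr l k0 n ≤ rr l k0 (n + 1) := by
      rw [rr_succ]; exact Nat.mul_le_mul_right _ h10
    unfold s2
    omega


/-! ### the constants -/



end sysm

end Crest.Agent.R165.StepGluex897
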