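import Crest.Agent.R165.FRDLat_439
import Crest.Agent.R165.GramH_439
import Crest.Agent.R165.GSys_387
import Crest.Agent.R165.FRDRest_439
import Crest.Agent.R165.ChartU_432

-- ▼ part R165/GRange_439
section

/-!
# Row 165, block G: finite range of the slices on the half-edge lattice

* `Rng n T` : `T f h` only depends on `f` on the faces within distance `n` of `h`
* `rng_Aop`, `rng_slop`, `rng_Sop` : range of the slices
* `SopC_eq_zero` : the block of slices `a ≤ j < b` vanishes between fields whose faces are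
  further apart than `2 ^ (b - 1) / K`
-/

set_option autoImplicit false
set_option linter.unusedSectionVars false

noncomputable section

namespace Crest.Agent.R165.GRangex439

open scoped ENNReal
open Polynomial Crest.Agent.R165.Gr0x606 Crest.Agent.R165.Latx683 Crest.Agent.R165.PNormx417
  Crest.Agent.R165.GDefx387 Crest.Agent.R165.FRDAbsx439 Crest.Agent.R165.FRDPolyx439
  Crest.Agent.R165.FRDInfx439 Crest.Agent.R165.FRDLatx439

variable {G : Type} [CommRing G] [CN G]

/-- `T` has range `n` -/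
def Rng (n : ℕ) (T : Module.End ℝ (HE G → ℝ)) : Prop :=
  ∀ (f : HE G → ℝ) (h : HE G), (∀ h' : HE G, fd h.1 h'.1 ≤ n → f h' = 0) → T f h = 0

theorem Rng.mono {n m : ℕ} {T : Module.End ℝ (HE G → ℝ)} (h : Rng n T) (hnm : n ≤ m) : Rng m T :=
  fun f x hx => h f x fun x' hx' => hx x' (hx'.trans hnm)

theorem Rng.one : Rng 0 (1 : Module.End ℝ (HE G → ℝ)) := fun f h hf => by
  rw [Module.End.one_apply]
  exact hf h (by simp)

theorem Rng.zero : Rng 0 (0 : Module.End ℝ (HE G → ℝ)) := fun _ _ _ => rfl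

theorem Rng.add {n : ℕ} {T S : Module.End ℝ (HE G → ℝ)} (hT : Rng n T) (hS : Rng n S) :
    Rng n (T + S) := fun f h hf => by
  rw [LinearMap.add_apply, Pi.add_apply, hT f h hf, hS f h hf, add_zero]

theorem Rng.neg {n : ℕ} {T : Module.End ℝ (HE G → ℝ)} (hT : Rng n T) : Rng n (-T) :=
  fun f h hf => by rw [LinearMap.neg_apply, Pi.neg_apply, hT f h hf, neg_zero]

theorem Rng.smul {n : ℕ} {T : Module.End ℝ (HE G → ℝ)} (hT : Rng n T) (c : ℝ) : Rng n (c • T) :=
  fun f h hf => by rw [LinearMap.smul_apply, Pi.smul_apply, hT f h hf, smul_zero]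

theorem Rng.mul {n m : ℕ} {T S : Module.End ℝ (HE G → ℝ)} (hT : Rng n T) (hS : Rng m S) :
    Rng (n + m) (T * S) := fun f h hf => by
  rw [Module.End.mul_apply]
  refine hT _ _ fun h' hh' => hS _ _ fun h'' hh'' => hf _ ?_
  exact (fd_triangle _ _ _).trans (add_le_add hh' hh'')

theorem Rng.pow {n : ℕ} {T : Module.End ℝ (HE G → ℝ)} (hT : Rng n T) (k : ℕ) :
    Rng (k * n) (T ^ k) := by
  induction k with
  | zero => simpa using Rng.one
  | succ k ih =>
    rw [pow_succ', Nat.succ_mul, add_comm]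
    exact hT.mul ih

theorem Rng.sum {ι : Type*} {n : ℕ} (s : Finset ι) (T : ι → Module.End ℝ (HE G → ℝ))
    (h : ∀ i ∈ s, Rng n (T i)) : Rng n (∑ i ∈ s, T i) := by
  classical
  induction s using Finset.induction_on with
  | empty => rw [Finset.sum_empty]; exact Rng.zero.mono (Nat.zero_le _)
  | insert a s ha ih =>
    rw [Finset.sum_insert ha]
    exact (h a (Finset.mem_insert_self _ _)).add
      (ih fun i hi => h i (Finset.mem_insert_of_mem hi))

theorem Rng.aeval {n : ℕ} {T : Module.End ℝ (HE G → ℝ)} (hT : Rng n T) (p : ℝ[X]) :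
    Rng (p.natDegree * n) (Polynomial.aeval T p) := by
  rw [aeval_eq_sum_range]
  refine Rng.sum _ _ fun k hk => Rng.smul (Rng.mono (hT.pow k) ?_) _
  rw [Finset.mem_range] at hk
  exact Nat.mul_le_mul_right _ (by omega)

theorem fd_nb5 {f g : G × G} (h : g ∈ nb5 f) : fd f g ≤ 1 := by
  have h1 := CN.cn_one (G := G)
  have h0 := CN.cn_zero (G := G)
  have hn : cn (-1 : G) ≤ 1 := by rw [CN.cn_neg]; exact h1
  unfold nb5 at h
  simp only [Set.mem_insert_iff, Set.mem_singleton_iff] at h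
  unfold fd
  rcases h with rfl | rfl | rfl | rfl | rfl <;> simp [h0, h1, hn]

theorem rng_Aop (w : BW G) : Rng 1 (Aop w) := fun f h hf =>
  Aop_eq_zero_of w f h fun g hg => hf g (fd_nb5 hg)

theorem rng_Qop (w : BW G) : Rng 2 (Qop w) := ((rng_Aop w).mul (rng_Aop w)).neg

theorem rng_slop (w : BW G) (p : ℝ[X]) : Rng (2 * p.natDegree + 1) (slop w p) := by
  have h := (rng_Aop w).mul ((rng_Qop w).aeval p)
  exact h.mono (by omega)

theorem slop_zero (w : BW G) : slop w (0 : ℝ[X]) = 0 := by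
  unfold slop; rw [map_zero, mul_zero]

variable {Λ : ℝ} {M K : ℕ} (D : FRD Λ M K)

theorem rng_Sop (hK : 0 < K) (w : BW G) (a b : ℕ) : Rng (2 ^ (b - 1) / K) (Sop w D a b) := by
  unfold Sop
  refine Rng.sum _ _ fun j hj => ?_
  by_cases h0 : D.w j = 0
  · rw [h0, slop_zero]; exact Rng.zero.mono (Nat.zero_le _)
  · refine (rng_slop w (D.w j)).mono ?_
    rw [Nat.le_div_iff_mul_le hK, mul_comm]
    refine (D.deg_w j h0).trans (Nat.pow_le_pow_right (by norm_num) ?_)
    rw [Finset.mem_Ico] at hj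
    omega

/-- pairing of far apart fields -/
theorem pair_eq_zero {n : ℕ} {T : Module.End ℝ (HE G → ℝ)} (hT : Rng n T) {l m : Fld G}
    (h : ∀ x y : HE G, l x ≠ 0 → m y ≠ 0 → n < fd x.1 y.1) : pair l (T (m : HE G → ℝ)) = 0 := by
  unfold pair
  refine Finset.sum_eq_zero fun x hx => ?_
  show l x * T (m : HE G → ℝ) x = 0
  rw [hT _ x fun y hy => ?_, mul_zero]
  by_contra hm
  exact absurd (h x y (Finsupp.mem_support_iff.1 hx) hm) (not_lt.2 hy)

/-- **finite range of a block of slices** -/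
theorem SopC_eq_zero (hK : 0 < K) (w : BW G) (a b : ℕ) {l m : Fld G}
    (h : ∀ x y : HE G, l x ≠ 0 → m y ≠ 0 → 2 ^ (b - 1) / K < fd x.1 y.1) :
    (SopC D w a b).b l m = 0 := by
  rw [SopC_apply]
  exact pair_eq_zero (rng_Sop D hK w a b) h


end Crest.Agent.R165.GRangex439
end
end

-- ▼ part R165/GSysOK_439

/-!
# Row 165, block G: `Sys.OK` for the concrete systems `sys`, `sysS` of `GSys_387`

* `slC_range` : finite range of the covariance of step `n` (`5 ≤ l * (k0 + 1)`)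
* `LocG_mem` : `LocG w f a` lives on the faces within distance `1` of `f`
* `sys_OK`, `sysS_OK` : the algebraic hypotheses of the flow
* `sum_slC`, `covS_split`, `covS_split0` : the full covariance = the first `N` steps + the rest
* `slC_gram`, `ext0_gram`, `gw_le_wt_gen`, `gw_step_le`, `gw_step_le_wU`, `gr_step_le_wU` : Gram weights
* `total_sys` : the exact identity for the system without sources, last covariance `restC`
-/

set_option autoImplicit false
set_option linter.unusedSectionVars false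

noncomputable section

open scoped ENNReal
open Crest.Agent.R165.Gr0x606 Crest.Agent.R165.Gr1x606 Crest.Agent.R165.Latx683
open Crest.Agent.R165.PNormx417
open Crest.Agent.R165.GDefx387 Crest.Agent.R165.GeOpsx337 Crest.Agent.R165.KFlowx337
open Crest.Agent.R165.GrLocx337
open Crest.Agent.R165.FRDPolyx439 Crest.Agent.R165.FRDLatx439 Crest.Agent.R165.BgIsox432
open Crest.Agent.R165.FRDAbsx439 Crest.Agent.R165.FRDInfx439
open Crest.Agent.R165.PlaneModesx901 Crest.Agent.R165.PlaneLocx901 Crest.Agent.R165.Locx901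
open Crest.Agent.R165.PStepx417 Crest.Agent.R165.SrcDefx991 Crest.Agent.R165.GSysx387
open Crest.Agent.R165.GRangex439

namespace Crest.Agent.R165.GSysOKx439

section lattice

variable {G : Type} [CommRing G] [CN G]

/-! ### fields -/

theorem fldU_mono {U W : Finset (G × G)} (h : U ⊆ W) : fldU U ≤ fldU W := by
  refine fldS_mono fun f hf => ?_
  obtain ⟨u, hu, hd⟩ := hf
  exact ⟨u, h hu, hd⟩

theorem fldUS_mono {m : ℕ} (sf : Fin m → Finset (G × G)) {U W : Finset (G × G)} (h : U ⊆ W) :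
    fldUS sf U ≤ fldUS sf W := by
  rintro x ⟨h1, h2⟩
  refine ⟨fldU_mono h h1, fun i hi => ?_⟩
  obtain ⟨f, hf, hfU⟩ := h2 i hi
  exact ⟨f, hf, h hfU⟩

/-! ### finite range -/

theorem range_num {l k0 n K : ℕ} (h : 5 ≤ l * (k0 + 1)) (hK : 16 ≤ K) {d : ℕ}
    (hd : nearR l k0 n < d) : 2 ^ (hi l k0 n - 1) / K + 2 < d := by
  have h5 : 5 ≤ hi l k0 n := by
    unfold hi
    exact h.trans (Nat.mul_le_mul_left _ (by omega))
  obtain ⟨m, hm⟩ : ∃ m, hi l k0 n = m + 5 := ⟨hi l k0 n - 5, by omega⟩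
  have e1 : rr l k0 (n + 1) = 2 ^ m * 32 := by
    rw [← hi_eq, hm, pow_add]; norm_num
  have e2 : 2 ^ (hi l k0 n - 1) = 2 ^ m * 16 := by
    rw [hm, show m + 5 - 1 = m + 4 by omega, pow_add]; norm_num
  have e3 : nearR l k0 n = 2 ^ m * 4 := by
    unfold nearR
    rw [e1, show 2 ^ m * 32 = (2 ^ m * 4) * 8 by ring, Nat.mul_div_cancel _ (by norm_num)]
  have e4 : 2 ^ (hi l k0 n - 1) / K ≤ 2 ^ m := by
    rw [e2]
    calc 2 ^ m * 16 / K ≤ 2 ^ m * 16 / 16 := Nat.div_le_div_left hK (by norm_num)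
      _ = 2 ^ m := Nat.mul_div_cancel _ (by norm_num)
  have e5 : 1 ≤ 2 ^ m := Nat.one_le_two_pow
  omega

/-- **finite range of the covariance of a step** -/
theorem slC_range {M K : ℕ} (D : FRD 16 M K) (hK : 16 ≤ K) (w : BW G) {l k0 : ℕ}
    (h : 5 ≤ l * (k0 + 1)) (n : ℕ) {U W : Finset (G × G)}
    (hUW : ¬ KStepx892.touch (near l k0 n) U W) {x y : Fld G} (hx : x ∈ fldU U)
    (hy : y ∈ fldU W) : (slC D w l k0 n).b x y = 0 := by
  refine SopC_eq_zero D (by omega) w _ _ fun a b ha hb => ?_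
  obtain ⟨u, hu, hua⟩ := hx a ha
  obtain ⟨v, hv, hvb⟩ := hy b hb
  have h1 : nearR l k0 n < fd u v := by
    by_contra hcon
    exact hUW ⟨u, hu, v, hv, not_lt.1 hcon⟩
  have h2 := range_num (K := K) h hK h1
  have h3 : fd u v ≤ fd u a.1 + (fd a.1 b.1 + fd b.1 v) :=
    (fd_triangle u a.1 v).trans (Nat.add_le_add_left (fd_triangle a.1 b.1 v) _)
  rw [fd_comm b.1 v] at h3
  omega

/-! ### the localisation is local -/

section chart

variable [CNZ G]

theorem chQ_mem (w : BW G) (f : G × G) {x : Fld ℤ} (hx : x ∈ fldS (ball (0, 0) 1)) :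
    chQ w f x ∈ fldS (nbhd 1 {f}) := by
  refine fldS_ind (P := fun x => chQ w f x ∈ fldS (nbhd 1 {f})) ?_ ?_ ?_ hx
  · rw [map_zero]; exact zero_mem _
  · intro h hh c
    rw [chQ_single]
    refine Submodule.smul_mem _ _ (Submodule.smul_mem _ _ (single_mem_fldS ?_ 1))
    refine ⟨f, Finset.mem_singleton_self f, ?_⟩
    show fd f (psiC f h.1) ≤ 1
    unfold psiC
    refine (fd_add_int f h.1.1 h.1.2).trans ?_
    have h1 : fd ((0, 0) : ℤ × ℤ) h.1 ≤ 1 := hh
    unfold fd at h1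
    have e1 : cn ((0 : ℤ) - h.1.1) = h.1.1.natAbs := by
      rw [zero_sub, CN.cn_neg]; rfl
    have e2 : cn ((0 : ℤ) - h.1.2) = h.1.2.natAbs := by
      rw [zero_sub, CN.cn_neg]; rfl
    simp only [e1, e2] at h1
    exact h1
  · intro a b ha hb
    rw [map_add]
    exact add_mem ha hb

/-- **the localised part lives near the face** -/
theorem LocG_mem (w : BW G) (f : G × G) (a : Ge (Fld G)) : LocG w f a ∈ grG (fldU {f}) := by
  rw [LocG_apply]
  refine mpG_mem (chQ w f) (W := fldS (ball (0, 0) 1)) (fun x hx => chQ_mem w f hx) ?_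
  rw [mem_grG, coe_LocE]
  exact BgIsox432.LocAt_mem (0, 0) _

variable [DecidableEq G]

theorem bulk_mem (w : BW G) (mk : Finset (G × G)) (l k0 n : ℕ) (U : Finset (G × G))
    (T : Finset (G × G)) (a : Ge (Fld G)) :
    (bulk w mk l k0 n).X U T a ∈ grG (fldU T) := by
  classical
  unfold bulk
  rw [exF_X]
  refine Subalgebra.smul_mem _ (Subalgebra.sum_mem _ fun f hf => ?_) _
  exact grG_mono (fldU_mono (Finset.singleton_subset_iff.2 hf)) (LocG_mem w f a)

/-! ### the algebraic hypotheses -/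

theorem near_mono' (l k0 n : ℕ) (a b : G × G) (h : near l k0 n a b) : near l k0 (n + 1) a b :=
  le_trans h (nearR_mono l k0 (Nat.le_succ n))

theorem near_symm' (l k0 n : ℕ) (a b : G × G) (h : near l k0 n a b) : near l k0 n b a := by
  unfold near at *; rwa [fd_comm]

theorem near_refl' (l k0 n : ℕ) (a : G × G) : near l k0 n a a := by
  unfold near; simp

theorem ge_mem_top {V : Type*} [AddCommGroup V] [Module ℝ V] (a : Ge V) :
    a ∈ grG (⊤ : Submodule ℝ V) := by
  rw [mem_grG]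
  refine Gr.induction (P := fun a => a ∈ gr (⊤ : Submodule ℝ V)) ?_ ?_ ?_ (a : Gr V)
  · intro r; exact Subalgebra.algebraMap_mem _ _
  · intro x a ih; exact mul_mem (fi_mem_gr trivial) ih
  · intro a b iha ihb; exact add_mem iha ihb

/-- **`Sys.OK` for the system without sources** (every background) -/
theorem sys_OK {M K : ℕ} (D : FRD 16 M K) (hK : 16 ≤ K) (w : BW G) (mk : Finset (G × G)) {l k0 : ℕ}
    (h : 5 ≤ l * (k0 + 1)) {K0 : Finset (G × G) → Ge (Fld G)}
    (hK0 : ∀ U, K0 U ∈ grG (fldU U)) : (sys D w mk l k0 K0).OK ⊥ where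
  near_mono := near_mono' l k0
  near_symm := near_symm' l k0
  near_refl := near_refl' l k0
  fld_mono _ _ := fldU_mono
  range n _ _ hUW _ hx _ hy := slC_range D hK w h n hUW hx hy
  K0_mem := hK0
  X_mem n U T _ a _ := bulk_mem w mk l k0 n U T a
  vac_mem U a _ := by
    show vac0 (Fld G) a ∈ _
    rw [vac0_apply]
    exact Subalgebra.algebraMap_mem _ _
  vac_src a := by
    show vac0 (Fld G) a ∈ _
    rw [vac0_apply]
    exact Subalgebra.algebraMap_mem _ _
  src_S n x hx y := by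
    rw [(Submodule.mem_bot ℝ).1 hx]
    simp

theorem inG_mem_fldUS {m : ℕ} (sf : Fin m → Finset (G × G)) {U : Finset (G × G)} {a : Ge (Fld G)}
    (ha : a ∈ grG (fldU U)) : inG m a ∈ grG (fldUS sf U) := by
  refine mpG_mem _ (W := fldU U) (fun x hx => ?_) ha
  exact ⟨hx, fun i hi => absurd rfl hi⟩

/-- **`Sys.OK` for the system with sources** -/
theorem sysS_OK {M K m : ℕ} (D : FRD 16 M K) (hK : 16 ≤ K) (w : BW G) (mk : Finset (G × G))
    {l k0 : ℕ} (h : 5 ≤ l * (k0 + 1)) (sf : Fin m → Finset (G × G))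
    {e2 : ℕ → Extr (G × G) (VS (Fld G) m)}
    (he2 : ∀ n U, ∀ T ∈ (e2 n).out U, ∀ a ∈ grG (fldUS sf U), (e2 n).X U T a ∈ grG (fldUS sf T))
    {K0 : Finset (G × G) → Ge (VS (Fld G) m)} (hK0 : ∀ U, K0 U ∈ grG (fldUS sf U)) :
    (sysS D w mk l k0 sf e2 K0).OK (srcW (Fld G) m) where
  near_mono := near_mono' l k0
  near_symm := near_symm' l k0
  near_refl := near_refl' l k0
  fld_mono _ _ := fldUS_mono sf
  range n _ _ hUW _ hx _ hy := by
    show (ext0 m (slC D w l k0 n)).b _ _ = 0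
    rw [ext0_b]
    exact slC_range D hK w h n hUW hx.1 hy.1
  K0_mem := hK0
  X_mem n U T _ a ha := by
    show ((if T ∈ (liftE m (bulk w mk l k0 n)).out U then (liftE m (bulk w mk l k0 n)).X U T else 0) +
      (if T ∈ (e2 n).out U then (e2 n).X U T else 0)) a ∈ _
    rw [LinearMap.add_apply]
    refine add_mem ?_ ?_
    · split_ifs with hT
      · rw [liftE_X]
        exact inG_mem_fldUS sf (bulk_mem w mk l k0 n U T _)
      · exact zero_mem _
    · split_ifs with hT
      · exact he2 n U T hT a ha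
      · exact zero_mem _
  vac_mem U a ha := by
    show vacH a ∈ _
    refine mpG_mem _ (W := fldUS sf U) (fun x hx => ?_) ha
    exact ⟨zero_mem _, hx.2⟩
  vac_src a := by
    show vacH a ∈ _
    refine mpG_mem _ (W := ⊤) (fun x _ => ?_) (ge_mem_top a)
    show ((LinearMap.inr ℝ (Fld G) (Src m) ∘ₗ LinearMap.snd ℝ (Fld G) (Src m)) x : VS (Fld G) m) ∈
      LinearMap.ker (LinearMap.fst ℝ (Fld G) (Src m))
    simp
  src_S n x hx y := by
    show (ext0 m (slC D w l k0 n)).b x y = 0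
    have h1 : x.1 = 0 := hx
    rw [ext0_b, h1]
    simp

end chart

/-! ### the sum of the covariances of the steps -/

theorem lo_le_hi (l k0 n : ℕ) : lo l k0 n ≤ hi l k0 n := by
  unfold lo hi
  split_ifs
  · exact Nat.zero_le _
  · exact Nat.mul_le_mul_left _ (by omega)

variable {M K : ℕ} (D : FRD 16 M K)

theorem sum_slC (w : BW G) (l k0 N : ℕ) :
    ∑ n ∈ Finset.range N, slC D w l k0 n = SopC D w 0 (lo l k0 N) := by
  induction N with
  | zero =>
    rw [Finset.sum_range_zero, lo_zero]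
    unfold SopC
    simp
  | succ n ih =>
    rw [Finset.sum_range_succ, ih, lo_succ]
    unfold slC SopC
    rw [Finset.sum_Ico_consecutive _ (Nat.zero_le _) (lo_le_hi l k0 n)]

section rest

variable [DecidableEq G] {w : BW G} {S : HE G → HE G → ℝ}
  (hS : ∀ h h', S h h' = -S h' h)
  (hinv : ∀ g h', Aop w (fun h => S h h') g = -(Pi.single h' 1 : HE G → ℝ) g)
  (hfin : ∀ h', {h | S h h' ≠ 0}.Finite)

/-- the full covariance is the sum of the first `N` steps and the rest -/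
theorem covS_split (l k0 N : ℕ) : covS S hS =
    FRDRestx439.restC D hS hinv hfin (lo l k0 N) + ∑ n ∈ Finset.range N, slC D w l k0 n := by
  rw [sum_slC, FRDRestx439.covS_eq D hS hinv hfin (lo l k0 N), add_comm]

end rest

/-! ### Gram weights -/

/-- Gram bound of a step, `|w| ≤ 1` -/
theorem slC_gram (w : BW G) (hw : ∀ z j, |w z j| ≤ 1) (l k0 n : ℕ) :
    Gram (slC D w l k0 n) (gw D w (lo l k0 n) (hi l k0 n)) :=
  SopC_gram D w (AopF_bdd w hw) _ _


/-- **(W0), general form**: `r ≤ Q 2^a`, `2^b ≤ N r` -/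
theorem gw_le_wt_gen {Λ : ℝ} {M K : ℕ} (D : FRD Λ M K) (hM : MM + 1 ≤ M) (w : BW G)
    (h : ABtw (preF (HE G)) (AopF w) 0 Λ)
    (a b r : ℕ) (N Q : ℝ) (hr1 : 1 ≤ r) (hQ1 : 1 ≤ Q) (hr : (r : ℝ) ≤ Q * 2 ^ a)
    (hN : (2 : ℝ) ^ b ≤ N * r) {A : ℝ} (hA : 0 < A) (x : G × G) (l : Fld G) :
    gw D w a b l ≤ ENNReal.ofReal (7 * √(D.C * N) * Q ^ MM / A) * wt w A r x l := by
  have hC := D.C_pos
  have hr1' : (1 : ℝ) ≤ r := by exact_mod_cast hr1
  have hr0 : (0 : ℝ) < r := by linarith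
  have h1 := sum_gform_le D (AopF_asy w) h hM a b l
  have hR := RD_nonneg (AopF_asy w) (a := (r : ℝ) ^ 2) (by positivity) MM l
  -- pass to the scale `r / Q`
  have hrQ : (0 : ℝ) < r / Q := by positivity
  have hs1 : RD (preF (HE G)) (AopF w) (4 ^ a) MM l ≤
      RD (preF (HE G)) (AopF w) ((r / Q) ^ 2) MM l := by
    apply RD_anti (AopF_asy w) (by positivity)
    have h2 : (r : ℝ) / Q ≤ 2 ^ a := by rw [div_le_iff₀ (by linarith), mul_comm]; exact hr
    calc ((r : ℝ) / Q) ^ 2 ≤ ((2 : ℝ) ^ a) ^ 2 := by gcongr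
      _ = 4 ^ a := by rw [← pow_mul, mul_comm, pow_mul]; norm_num
  have hs2 : RD (preF (HE G)) (AopF w) ((r / Q) ^ 2) MM l ≤
      Q ^ MM * RD (preF (HE G)) (AopF w) ((r : ℝ) ^ 2) MM l := by
    have h3 := RD_scale (AopF_asy w) (a := (r / Q) ^ 2) (a' := (r : ℝ) ^ 2) (by positivity)
      (by
        have : (r : ℝ) / Q ≤ r := div_le_self hr0.le hQ1
        gcongr) MM l
    refine h3.trans (le_of_eq ?_)
    congr 1
    have e : (r : ℝ) ^ 2 / (r / Q) ^ 2 = Q ^ 2 := by field_simp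
    rw [e, ← pow_mul, mul_comm 2 MM, pow_mul, Real.sqrt_sq (by positivity)]
  have h2 := hs1.trans hs2
  have hN0 : 0 ≤ N * r := (by positivity : (0 : ℝ) ≤ 2 ^ b).trans hN
  set R := RD (preF (HE G)) (AopF w) ((r : ℝ) ^ 2) MM l
  have hQM : (0 : ℝ) ≤ Q ^ MM := by positivity
  have h3 : √(gB D w a b l l) ≤ √(D.C * (N * r)) * (Q ^ MM * R) := by
    have h4 : gB D w a b l l ≤ D.C * (N * r) * (Q ^ MM * R) ^ 2 := by
      refine h1.trans ?_
      have h5 : RD (preF (HE G)) (AopF w) (4 ^ a) MM l ^ 2 ≤ (Q ^ MM * R) ^ 2 :=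
        pow_le_pow_left₀ (RD_nonneg (AopF_asy w) (by positivity) MM l) h2 2
      exact mul_le_mul (mul_le_mul_of_nonneg_left hN hC.le) h5 (sq_nonneg _)
        (mul_nonneg hC.le hN0)
    calc √(gB D w a b l l) ≤ √(D.C * (N * r) * (Q ^ MM * R) ^ 2) := Real.sqrt_le_sqrt h4
      _ = _ := by
        rw [Real.sqrt_mul (mul_nonneg hC.le hN0), Real.sqrt_sq (mul_nonneg hQM hR)]
  have h6 : √(D.C * (N * r)) = √(D.C * N) * √r := by
    rw [← mul_assoc, Real.sqrt_mul' _ (by positivity)]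
  rw [wt_eq, ← mul_assoc]
  calc gw D w a b l ≤ ENNReal.ofReal ((√(D.C * N) * √r * Q ^ MM) * R) := by
        apply ENNReal.ofReal_le_ofReal
        refine h3.trans (le_of_eq ?_)
        rw [h6]; ring
    _ = ENNReal.ofReal (√(D.C * N) * √r * Q ^ MM) * ENNReal.ofReal R :=
        ENNReal.ofReal_mul (by positivity)
    _ ≤ ENNReal.ofReal (√(D.C * N) * √r * Q ^ MM) * (7 * sup1 w r x l) := by
        gcongr
        exact RD_le_sup1 w r x l
    _ = ENNReal.ofReal (7 * √(D.C * N) * Q ^ MM / A) * ENNReal.ofReal (A * √r) *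
        sup1 w r x l := by
        rw [← ENNReal.ofReal_mul (by positivity), ← mul_assoc]
        congr 1
        have h7 : (7 : ℝ≥0∞) = ENNReal.ofReal 7 := by norm_num
        rw [h7, ← ENNReal.ofReal_mul (by positivity)]
        congr 1
        field_simp

/-- the constant of (W0) for all steps -/
def c0 (C : ℝ) (l k0 : ℕ) : ℝ := 7 * √(C * 2 ^ l) * (rr l k0 1 : ℝ) ^ MM

theorem c0_pos {C : ℝ} (hC : 0 < C) (l k0 : ℕ) : 0 < c0 C l k0 := by
  have := rr_pos l k0 1
  unfold c0; positivity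


/-- **(W0) at every step**, old scale -/
theorem gw_step_le_old (hM : MM + 1 ≤ M) (w : BW G) (hw : ∀ z j, |w z j| ≤ 1) (l k0 n : ℕ) {A : ℝ}
    (hA : 0 < A) (x : G × G) (y : Fld G) :
    gw D w (lo l k0 n) (hi l k0 n) y ≤
      ENNReal.ofReal (c0 D.C l k0 / A) * wt w A (rr l k0 n) x y := by
  have hC := D.C_pos
  have h1l : (1 : ℝ) ≤ 2 ^ l := one_le_pow₀ (by norm_num)
  have hr1 : (1 : ℝ) ≤ (rr l k0 1 : ℝ) := by exact_mod_cast rr_pos l k0 1
  have h01 : (rr l k0 0 : ℝ) ≤ (rr l k0 1 : ℝ) := by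
    exact_mod_cast rr_mono l k0 (Nat.zero_le 1)
  have hN : (2 : ℝ) ^ hi l k0 n ≤ 2 ^ l * (rr l k0 n : ℝ) := by
    have : 2 ^ hi l k0 n ≤ 2 ^ l * rr l k0 n := le_of_eq ((hi_eq l k0 n).trans (rr_succ l k0 n))
    exact_mod_cast this
  refine (gw_le_wt_gen D hM w (AopF_bdd w hw) (lo l k0 n) (hi l k0 n) (rr l k0 n) (2 ^ l)
    (rr l k0 1 : ℝ) (rr_pos l k0 n) hr1 ?_ hN hA x y).trans ?_
  · unfold lo
    split_ifs with h0
    · subst h0; simpa using h01
    · have e : (rr l k0 n : ℝ) = 2 ^ (l * (k0 + n)) := by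
        unfold rr; push_cast; rfl
      rw [e]
      exact le_mul_of_one_le_left (by positivity) hr1
  · gcongr
    unfold c0
    exact le_rfl

/-- the Gram weight against the weight relative to a set -/
theorem le_wU {g : Fld G → ℝ≥0∞} {w : BW G} {A : ℝ} {r : ℕ} {ε : ℝ≥0∞} (hε : ε ≠ 0) (hε' : ε ≠ ∞)
    {y : Fld G} (h : ∀ x, g y ≤ ε * wt w A r x y) (U : Finset (G × G)) : g y ≤ ε * wU w A r U y := by
  classical
  unfold wU
  rw [ENNReal.mul_iInf_of_ne hε hε']
  refine le_iInf fun x => ?_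
  rw [ENNReal.mul_iInf_of_ne hε hε']
  refine le_iInf fun _ => ?_
  split_ifs
  · exact h x
  · rw [ENNReal.mul_top hε]; exact le_top

theorem c0_ne {C : ℝ} (hC : 0 < C) (l k0 : ℕ) {A : ℝ} (hA : 0 < A) :
    ENNReal.ofReal (c0 C l k0 / A) ≠ 0 := by
  have := c0_pos hC l k0
  rw [Ne, ENNReal.ofReal_eq_zero, not_le]
  positivity


/-- (W0) against `wU`, old scale -/
theorem gw_step_le_wU_old (hM : MM + 1 ≤ M) (w : BW G) (hw : ∀ z j, |w z j| ≤ 1) (l k0 n : ℕ)
    {A : ℝ} (hA : 0 < A) (U : Finset (G × G)) (y : Fld G) :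
    gw D w (lo l k0 n) (hi l k0 n) y ≤
      ENNReal.ofReal (c0 D.C l k0 / A) * wU w A (rr l k0 n) U y :=
  le_wU (c0_ne D.C_pos l k0 hA) ENNReal.ofReal_ne_top
    (fun x => gw_step_le_old D hM w hw l k0 n hA x y) U




/-! ### the exact identity -/




section total

variable [CNZ G] [DecidableEq G] {w : BW G} {S : HE G → HE G → ℝ}
  (hS : ∀ h h', S h h' = -S h' h)
  (hinv : ∀ g h', Aop w (fun h => S h h') g = -(Pi.single h' 1 : HE G → ℝ) g)
  (hfin : ∀ h', {h | S h h' ≠ 0}.Finite)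

/-- **the exact identity without sources** -/
theorem total_sys (hK : 16 ≤ K) (mk : Finset (G × G)) {l k0 : ℕ} (h : 5 ≤ l * (k0 + 1))
    {K0 : Finset (G × G) → Ge (Fld G)} (hK0 : ∀ U, K0 U ∈ grG (fldU U)) {Λ : Finset (G × G)}
    (h0 : ∀ U, ¬ U ⊆ Λ → K0 U = 0) (N : ℕ) :
    EEG (covS S hS) (KStepx892.ZZ (near l k0 0) Λ K0) =
      Real.exp (ctG ((sys D w mk l k0 K0).E Λ N)) *
        EEG (FRDRestx439.restC D hS hinv hfin (lo l k0 N))
          (KStepx892.ZZ (near l k0 N) Λ ((sys D w mk l k0 K0).K N)) :=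
  Sys.total_real (D := sys D w mk l k0 K0) (sys_OK D hK w mk h hK0) h0 N (covS S hS) _
    (covS_split D hS hinv hfin l k0 N)
    (fun x hx y => by rw [(Submodule.mem_bot ℝ).1 hx]; simp)


end total

end lattice

end Crest.Agent.R165.GSysOKx439
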