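import Mathlib
import Crest.Agent.R165.Gr0_606
import Crest.Agent.R165.En_599
import Crest.Agent.R165.TorusJ1_922

-- ▼ part R165/TorDet_599
section

/-!
Row 165, leaf T2b (helper599): the half-edge matrix on the torus `ZMod M × ZMod M` in the four
sectors, its Fourier block form and determinant.
-/

set_option autoImplicit false
set_option linter.unusedSectionVars false
set_option linter.unusedVariables false

noncomputable section

namespace Crest.Agent.R165.TorDetx599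

open Matrix Complex

/-- half-edges over a group: face, direction (0,1,2,3 = S,E,N,W) -/
abbrev HE (G : Type*) : Type _ := (G × G) × Fin 4

/-- intra-face antisymmetric matrix `+1` above the diagonal -/
def sgn4 (a b : Fin 4) : ℝ := if a < b then 1 else if b < a then -1 else 0

variable {G : Type*} [AddCommGroupWithOne G] [DecidableEq G]

/-- the half-edge matrix with signed bond weights `w z j`
(`j = 1`: vertical primal bond at `z`, between the faces `z - e₁` and `z`;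
`j = 0`: horizontal primal bond at `z`, between the faces `z - e₂` and `z`). -/
def hA (w : G × G → Fin 2 → ℝ) : Matrix (HE G) (HE G) ℝ := Matrix.of fun h k =>
  (if h.1 = k.1 then sgn4 h.2 k.2 else 0)
  + ((if h.2 = 1 ∧ k.2 = 3 ∧ k.1 = h.1 + (1, 0) then w k.1 1 else 0)
    - (if h.2 = 3 ∧ k.2 = 1 ∧ h.1 = k.1 + (1, 0) then w h.1 1 else 0))
  + ((if h.2 = 0 ∧ k.2 = 2 ∧ h.1 = k.1 + (0, 1) then w h.1 0 else 0)
    - (if h.2 = 2 ∧ k.2 = 0 ∧ k.1 = h.1 + (0, 1) then w k.1 0 else 0))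

theorem hA_t (w : G × G → Fin 2 → ℝ) : (hA w)ᵀ = -hA w := by
  ext h k
  simp only [Matrix.transpose_apply, hA, Matrix.of_apply, Matrix.neg_apply]
  have e1 : (if k.1 = h.1 then sgn4 k.2 h.2 else 0) = -(if h.1 = k.1 then sgn4 h.2 k.2 else 0) := by
    by_cases hh : h.1 = k.1
    · rw [if_pos hh, if_pos hh.symm]
      unfold sgn4
      rcases lt_trichotomy h.2 k.2 with h1 | h1 | h1
      · simp [h1, not_lt.2 h1.le]
      · simp [h1]
      · simp [h1, not_lt.2 h1.le]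
    · rw [if_neg hh, if_neg (fun h' => hh h'.symm), neg_zero]
  rw [e1]
  have c1 : (k.2 = 1 ∧ h.2 = 3 ∧ h.1 = k.1 + (1, 0)) ↔ (h.2 = 3 ∧ k.2 = 1 ∧ h.1 = k.1 + (1, 0)) := by
    tauto
  have c2 : (k.2 = 3 ∧ h.2 = 1 ∧ k.1 = h.1 + (1, 0)) ↔ (h.2 = 1 ∧ k.2 = 3 ∧ k.1 = h.1 + (1, 0)) := by
    tauto
  have c3 : (k.2 = 0 ∧ h.2 = 2 ∧ k.1 = h.1 + (0, 1)) ↔ (h.2 = 2 ∧ k.2 = 0 ∧ k.1 = h.1 + (0, 1)) := by
    tauto
  have c4 : (k.2 = 2 ∧ h.2 = 0 ∧ h.1 = k.1 + (0, 1)) ↔ (h.2 = 0 ∧ k.2 = 2 ∧ h.1 = k.1 + (0, 1)) := by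
    tauto
  simp only [c1, c2, c3, c4]
  ring

/-- the symbol -/
def symb (x : ℝ) (z z' w w' : ℂ) : Matrix (Fin 4) (Fin 4) ℂ :=
  !![0, 1, 1 + x * w', 1;
     -1, 0, 1, 1 + x * z;
     -(1 + x * w), -1, 0, 1;
     -1, -(1 + x * z'), -1, 0]

theorem det_symb (x : ℝ) (z z' w w' : ℂ) (hz : z * z' = 1) (hw : w * w' = 1) :
    (symb x z z' w w').det = (1 + x ^ 2) ^ 2 - x * (1 - x ^ 2) * (z + z' + (w + w')) := by
  have h : (symb x z z' w w').det = 4 - ((1 + x * z) + (1 + x * z')) * ((1 + x * w) + (1 + x * w'))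
      + ((1 + x * z) * (1 + x * z')) * ((1 + x * w) * (1 + x * w')) := by
    have a1 : Fin.succAbove (1 : Fin 4) (2 : Fin 3) = 3 := rfl
    have a2 : Fin.succAbove (2 : Fin 4) (2 : Fin 3) = 3 := rfl
    have a3 : Fin.succAbove (3 : Fin 4) (2 : Fin 3) = 2 := rfl
    simp [symb, Matrix.det_succ_row_zero, Fin.sum_univ_succ, a1, a2, a3]
    ring
  rw [h]
  have e1 : (1 + (x:ℂ) * z) * (1 + x * z') = 1 + x * (z + z') + x ^ 2 := by
    linear_combination (x:ℂ) ^ 2 * hz
  have e2 : (1 + (x:ℂ) * w) * (1 + x * w') = 1 + x * (w + w') + x ^ 2 := by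
    linear_combination (x:ℂ) ^ 2 * hw
  rw [e1, e2]; ring

variable (M : ℕ) [NeZero M]

/-- sector weights: seam signs `ε₁` (first coordinate), `ε₂` (second coordinate) -/
def wS (x ε₁ ε₂ : ℝ) (z : ZMod M × ZMod M) (j : Fin 2) : ℝ :=
  x * (if j = 1 then (if z.1 = 0 then ε₁ else 1) else (if z.2 = 0 then ε₂ else 1))

/-- twisted plane wave -/
def pw (θ : ℝ) (k i : ZMod M) : ℂ := Complex.exp (((2 * Real.pi * k.val + θ) / M * i.val : ℝ) * I)

/-- its multiplier -/
def ph (θ : ℝ) (k : ZMod M) : ℂ := Complex.exp (((2 * Real.pi * k.val + θ) / M : ℝ) * I)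

theorem ph_ne (θ : ℝ) (k : ZMod M) : ph M θ k ≠ 0 := Complex.exp_ne_zero _

theorem pw_ne (θ : ℝ) (k i : ZMod M) : pw M θ k i ≠ 0 := Complex.exp_ne_zero _

/-- seam sign -/
def sm (ε : ℝ) (i : ZMod M) : ℝ := if i = 0 then ε else 1

theorem val_add_one (i : ZMod M) : (i + 1).val = if i + 1 = 0 then 0 else i.val + 1 := by
  split_ifs with h
  · rw [h, ZMod.val_zero]
  · rcases Nat.lt_or_ge 1 M with hM | hM
    · have : Fact (1 < M) := ⟨hM⟩
      have h1 : (1 : ZMod M).val = 1 := ZMod.val_one M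
      have : i.val + (1 : ZMod M).val < M := by
        rw [h1]
        by_contra hcon
        have hi := ZMod.val_lt i
        have e : i.val + 1 = M := by omega
        apply h
        have : ((i.val + 1 : ℕ) : ZMod M) = 0 := by rw [e]; simp
        simpa using this
      rw [ZMod.val_add_of_lt this, h1]
    · exfalso
      have : M = 1 := by
        have := NeZero.pos M; omega
      subst this
      exact h (Subsingleton.elim _ _)

theorem val_neg_one_of (i : ZMod M) (h : i + 1 = 0) : i.val + 1 = M := by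
  have h1 : ((i.val + 1 : ℕ) : ZMod M) = 0 := by simpa using h
  have h2 : M ∣ i.val + 1 := (ZMod.natCast_eq_zero_iff _ _).1 h1
  have h3 := ZMod.val_lt i
  have h4 := Nat.le_of_dvd (Nat.succ_pos _) h2
  omega

/-- shift relation -/
theorem pw_succ (θ ε : ℝ) (hε : Complex.exp (θ * I) = ε) (hε2 : ε * ε = 1) (k i : ZMod M) :
    (sm M ε (i + 1) : ℂ) * pw M θ k (i + 1) = ph M θ k * pw M θ k i := by
  have hM : (M:ℂ) ≠ 0 := by exact_mod_cast NeZero.ne M
  unfold sm
  split_ifs with h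
  · have h1 := val_neg_one_of M i h
    have h2 : (i + 1).val = 0 := by rw [h, ZMod.val_zero]
    have h3 : (i.val : ℂ) = M - 1 := by
      have : (i.val : ℂ) + 1 = M := by exact_mod_cast h1
      linear_combination this
    rw [pw, ph, pw, h2, ← Complex.exp_add]
    have e : (((2 * Real.pi * k.val + θ) / M : ℝ) * I + ((2 * Real.pi * k.val + θ) / M * i.val : ℝ) * I : ℂ)
        = (k.val : ℕ) * (2 * Real.pi * I) + θ * I := by
      push_cast
      rw [h3]
      field_simp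
      ring
    rw [e, Complex.exp_add, Complex.exp_nat_mul_two_pi_mul_I, hε]
    simp
  · have h2 : (i + 1).val = i.val + 1 := by rw [val_add_one, if_neg h]
    rw [pw, ph, pw, h2, ← Complex.exp_add]
    rw [show ((1:ℝ):ℂ) = 1 by simp, one_mul]
    congr 1
    push_cast; ring

/-- inverse shift relation -/
theorem pw_pred (θ ε : ℝ) (hε : Complex.exp (θ * I) = ε) (hε2 : ε * ε = 1) (k i : ZMod M) :
    (sm M ε i : ℂ) * pw M θ k (i - 1) = (ph M θ k)⁻¹ * pw M θ k i := by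
  have h := pw_succ M θ ε hε hε2 k (i - 1)
  rw [sub_add_cancel] at h
  have hs : (sm M ε i : ℂ) * (sm M ε i : ℂ) = 1 := by
    unfold sm
    split_ifs
    · exact_mod_cast hε2
    · simp
  have h1 : pw M θ k (i - 1) = (ph M θ k)⁻¹ * ((sm M ε i : ℂ) * pw M θ k i) := by
    rw [h, ← mul_assoc, inv_mul_cancel₀ (ph_ne M θ k), one_mul]
  rw [h1]
  linear_combination ((ph M θ k)⁻¹ * pw M θ k i) * hs

/-- orthogonality in the position variables -/
theorem sum_pw (θ : ℝ) (i j : ZMod M) :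
    ∑ k : ZMod M, pw M θ k i * (pw M θ k j)⁻¹ = if i = j then (M:ℂ) else 0 := by
  split_ifs with h
  · subst h
    simp [mul_inv_cancel₀ (pw_ne M θ _ i), ZMod.card]
  · have hM : (M:ℂ) ≠ 0 := by exact_mod_cast NeZero.ne M
    -- multiplier
    set r : ℂ := Complex.exp ((2 * Real.pi * ((i.val:ℝ) - j.val) / M : ℝ) * I) with hr
    have e : ∀ k : ZMod M, pw M θ k i * (pw M θ k j)⁻¹
        = Complex.exp ((θ * ((i.val:ℝ) - j.val) / M : ℝ) * I) * r ^ k.val := by
      intro k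
      rw [pw, pw, ← Complex.exp_neg, ← Complex.exp_add, hr, ← Complex.exp_nat_mul, ← Complex.exp_add]
      congr 1
      push_cast
      ring
    rw [Finset.sum_congr rfl fun k _ => e k, ← Finset.mul_sum]
    have hsum : ∑ k : ZMod M, r ^ k.val = ∑ k ∈ Finset.range M, r ^ k := by
      refine Finset.sum_nbij (fun k : ZMod M => k.val) ?_ ?_ ?_ ?_
      · intro k _; exact Finset.mem_range.2 (ZMod.val_lt k)
      · intro a _ b _ hab; exact ZMod.val_injective M hab
      · intro k hk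
        have hk' : k < M := by simpa using hk
        exact ⟨(k : ZMod M), by simp, ZMod.val_cast_of_lt hk'⟩
      · intro k _; rfl
    have hr1 : r ≠ 1 := by
      intro h1
      rw [hr, Complex.exp_eq_one_iff] at h1
      obtain ⟨n, hn⟩ := h1
      have h2 : ((i.val:ℝ) - j.val) = n * M := by
        have hpi : (Real.pi : ℂ) ≠ 0 := by exact_mod_cast Real.pi_ne_zero
        have hI := Complex.I_ne_zero
        have : (((i.val:ℝ) - j.val : ℝ) : ℂ) = ((n * M : ℝ) : ℂ) := by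
          push_cast at hn ⊢
          field_simp at hn
          have h3 : (2 * (Real.pi:ℂ)) ≠ 0 := mul_ne_zero two_ne_zero hpi
          linear_combination hn
        exact_mod_cast this
      have h3 : (i.val : ℤ) - j.val = n * M := by exact_mod_cast h2
      apply h
      have h4 : (((i.val : ℤ) - j.val : ℤ) : ZMod M) = 0 := by
        rw [h3]; push_cast; simp
      push_cast at h4
      rw [ZMod.natCast_zmod_val, ZMod.natCast_zmod_val] at h4
      exact sub_eq_zero.1 h4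
    have hrM : r ^ M = 1 := by
      rw [hr, ← Complex.exp_nat_mul]
      have : (M:ℂ) * ((2 * Real.pi * ((i.val:ℝ) - j.val) / M : ℝ) * I)
          = ((i.val : ℤ) - (j.val : ℤ) : ℤ) * (2 * Real.pi * I) := by
        push_cast; field_simp
      rw [this, Complex.exp_int_mul_two_pi_mul_I]
    have hg := mul_neg_geom_sum r M
    rw [hrM, sub_self] at hg
    have hz : ∑ k ∈ Finset.range M, r ^ k = 0 := by
      rcases mul_eq_zero.1 hg with h1 | h1
      · exact absurd (sub_eq_zero.1 h1).symm hr1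
      · exact h1
    rw [hsum, hz, mul_zero]

/-- one-dimensional wave matrix -/
def U1 (θ : ℝ) : Matrix (ZMod M) (ZMod M) ℂ := Matrix.of fun i k => pw M θ k i

theorem det_U1 (θ : ℝ) : (U1 M θ).det ≠ 0 := by
  have hM : (M:ℂ) ≠ 0 := by exact_mod_cast NeZero.ne M
  have h : U1 M θ * (Matrix.of fun k j => (pw M θ k j)⁻¹) = (M:ℂ) • (1 : Matrix (ZMod M) (ZMod M) ℂ) := by
    ext i j
    simp only [U1, Matrix.mul_apply, Matrix.of_apply, Matrix.smul_apply, Matrix.one_apply]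
    rw [sum_pw]
    split_ifs <;> simp
  have := congrArg Matrix.det h
  rw [Matrix.det_mul, Matrix.det_smul, Matrix.det_one, mul_one] at this
  intro h0
  rw [h0, zero_mul] at this
  exact pow_ne_zero _ hM this.symm

/-- wave matrix on half-edges -/
def U4 (θ₁ θ₂ : ℝ) : Matrix (HE (ZMod M)) (HE (ZMod M)) ℂ := Matrix.of fun h k =>
  if h.2 = k.2 then pw M θ₁ k.1.1 h.1.1 * pw M θ₂ k.1.2 h.1.2 else 0

theorem U4_eq (θ₁ θ₂ : ℝ) : U4 M θ₁ θ₂
    = Matrix.kroneckerMap (· * ·) (Matrix.kroneckerMap (· * ·) (U1 M θ₁) (U1 M θ₂))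
      (1 : Matrix (Fin 4) (Fin 4) ℂ) := by
  ext h k
  simp only [U4, Matrix.of_apply, Matrix.kroneckerMap_apply, U1, Matrix.one_apply]
  split_ifs <;> simp

theorem det_U4 (θ₁ θ₂ : ℝ) : (U4 M θ₁ θ₂).det ≠ 0 := by
  rw [U4_eq]
  rw [Matrix.det_kronecker, Matrix.det_kronecker, Matrix.det_one, one_pow, mul_one]
  exact pow_ne_zero _ (mul_ne_zero (pow_ne_zero _ (det_U1 M θ₁)) (pow_ne_zero _ (det_U1 M θ₂)))

/-- block matrix in Fourier space -/
def blk (T : ZMod M × ZMod M → Matrix (Fin 4) (Fin 4) ℂ) : Matrix (HE (ZMod M)) (HE (ZMod M)) ℂ :=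
  Matrix.of fun h k => if h.1 = k.1 then T h.1 h.2 k.2 else 0

theorem det_blk (T : ZMod M × ZMod M → Matrix (Fin 4) (Fin 4) ℂ) :
    (blk M T).det = ∏ p : ZMod M × ZMod M, (T p).det := by
  rw [← Matrix.det_blockDiagonal T]
  rw [← Matrix.det_submatrix_equiv_self (Equiv.prodComm (ZMod M × ZMod M) (Fin 4))
    (Matrix.blockDiagonal T)]
  congr 1

/-- determinant from an intertwining relation -/
theorem det_of_intertwine (θ₁ θ₂ : ℝ) (A : Matrix (HE (ZMod M)) (HE (ZMod M)) ℂ)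
    (T : ZMod M × ZMod M → Matrix (Fin 4) (Fin 4) ℂ) (h : A * U4 M θ₁ θ₂ = U4 M θ₁ θ₂ * blk M T) :
    A.det = ∏ p : ZMod M × ZMod M, (T p).det := by
  have := congrArg Matrix.det h
  rw [Matrix.det_mul, Matrix.det_mul, mul_comm] at this
  rw [← det_blk]
  exact mul_left_cancel₀ (det_U4 M θ₁ θ₂) this

theorem U4_mul_blk (θ₁ θ₂ : ℝ) (T : ZMod M × ZMod M → Matrix (Fin 4) (Fin 4) ℂ)
    (h k : HE (ZMod M)) : (U4 M θ₁ θ₂ * blk M T) h k
      = pw M θ₁ k.1.1 h.1.1 * pw M θ₂ k.1.2 h.1.2 * T k.1 h.2 k.2 := by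
  rw [Matrix.mul_apply, Fintype.sum_prod_type, Finset.sum_eq_single k.1]
  · rw [Finset.sum_eq_single h.2]
    · simp [U4, blk]
    · intro b _ hb; simp [U4]
      intro h'; exact absurd h'.symm hb
    · intro h'; exact absurd (Finset.mem_univ _) h'
  · intro p _ hp
    refine Finset.sum_eq_zero fun a _ => ?_
    simp [blk, hp]
  · intro h'; exact absurd (Finset.mem_univ _) h'

theorem mul_U4 (θ₁ θ₂ : ℝ) (A : Matrix (HE (ZMod M)) (HE (ZMod M)) ℂ)
    (h k : HE (ZMod M)) : (A * U4 M θ₁ θ₂) h k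
      = ∑ f : ZMod M × ZMod M, A h (f, k.2) * (pw M θ₁ k.1.1 f.1 * pw M θ₂ k.1.2 f.2) := by
  rw [Matrix.mul_apply, Fintype.sum_prod_type]
  refine Finset.sum_congr rfl fun f _ => ?_
  rw [Finset.sum_eq_single k.2]
  · simp [U4]
  · intro b _ hb; simp [U4, hb]
  · intro h'; exact absurd (Finset.mem_univ _) h'

/-- the sector symbol -/
def sS (x θ₁ θ₂ : ℝ) (p : ZMod M × ZMod M) : Matrix (Fin 4) (Fin 4) ℂ :=
  symb x (ph M θ₁ p.1) (ph M θ₁ p.1)⁻¹ (ph M θ₂ p.2) (ph M θ₂ p.2)⁻¹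

theorem intertwine (x θ₁ θ₂ ε₁ ε₂ : ℝ) (h1 : Complex.exp (θ₁ * I) = ε₁) (h1' : ε₁ * ε₁ = 1)
    (h2 : Complex.exp (θ₂ * I) = ε₂) (h2' : ε₂ * ε₂ = 1) :
    (hA (wS M x ε₁ ε₂)).map ((↑) : ℝ → ℂ) * U4 M θ₁ θ₂ = U4 M θ₁ θ₂ * blk M (sS M x θ₁ θ₂) := by
  ext h k
  rw [mul_U4, U4_mul_blk]
  obtain ⟨⟨i, j⟩, a⟩ := h
  obtain ⟨⟨p, q⟩, b⟩ := k
  set P := pw M θ₁ p with hP
  set Q := pw M θ₂ q with hQ
  simp only [Matrix.map_apply, hA, Matrix.of_apply]
  have s1 := pw_succ M θ₁ ε₁ h1 h1' p i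
  have s2 := pw_pred M θ₁ ε₁ h1 h1' p i
  have s3 := pw_succ M θ₂ ε₂ h2 h2' q j
  have s4 := pw_pred M θ₂ ε₂ h2 h2' q j
  -- split the sum in five parts
  have hsplit : ∀ f : ZMod M × ZMod M,
      (((if (i, j) = f then sgn4 a b else 0)
        + ((if a = 1 ∧ b = 3 ∧ f = (i, j) + (1, 0) then wS M x ε₁ ε₂ f 1 else 0)
          - (if a = 3 ∧ b = 1 ∧ (i, j) = f + (1, 0) then wS M x ε₁ ε₂ (i, j) 1 else 0))
        + ((if a = 0 ∧ b = 2 ∧ (i, j) = f + (0, 1) then wS M x ε₁ ε₂ (i, j) 0 else 0)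
          - (if a = 2 ∧ b = 0 ∧ f = (i, j) + (0, 1) then wS M x ε₁ ε₂ f 0 else 0)) : ℝ) : ℂ)
        * (P f.1 * Q f.2)
      = (if f = (i, j) then (sgn4 a b : ℂ) * (P i * Q j) else 0)
        + (if f = (i + 1, j) then (if a = 1 ∧ b = 3 then (x:ℂ) * ((sm M ε₁ (i + 1) : ℂ) * P (i + 1)) * Q j else 0) else 0)
        - (if f = (i - 1, j) then (if a = 3 ∧ b = 1 then (x:ℂ) * ((sm M ε₁ i : ℂ) * P (i - 1)) * Q j else 0) else 0)
        + (if f = (i, j - 1) then (if a = 0 ∧ b = 2 then (x:ℂ) * ((sm M ε₂ j : ℂ) * Q (j - 1)) * P i else 0) else 0)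
        - (if f = (i, j + 1) then (if a = 2 ∧ b = 0 then (x:ℂ) * ((sm M ε₂ (j + 1) : ℂ) * Q (j + 1)) * P i else 0) else 0) := by
    intro f
    obtain ⟨f1, f2⟩ := f
    have c1 : ((i, j) = (f1, f2)) ↔ ((f1, f2) = (i, j)) := eq_comm
    have c2 : ((f1, f2) = (i, j) + (1, 0)) ↔ ((f1, f2) = (i + 1, j)) := by simp
    have c3 : ((i, j) = (f1, f2) + (1, 0)) ↔ ((f1, f2) = (i - 1, j)) := by
      simp only [Prod.mk_add_mk, add_zero, Prod.mk.injEq]
      constructor
      · rintro ⟨h1, h2⟩; exact ⟨by rw [h1]; ring, h2.symm⟩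
      · rintro ⟨h1, h2⟩; exact ⟨by rw [h1]; ring, h2.symm⟩
    have c4 : ((i, j) = (f1, f2) + (0, 1)) ↔ ((f1, f2) = (i, j - 1)) := by
      simp only [Prod.mk_add_mk, add_zero, Prod.mk.injEq]
      constructor
      · rintro ⟨h1, h2⟩; exact ⟨h1.symm, by rw [h2]; ring⟩
      · rintro ⟨h1, h2⟩; exact ⟨h1.symm, by rw [h2]; ring⟩
    have c5 : ((f1, f2) = (i, j) + (0, 1)) ↔ ((f1, f2) = (i, j + 1)) := by simp
    simp only [c1, c2, c3, c4, c5]
    simp only [Complex.ofReal_add, Complex.ofReal_sub, apply_ite Complex.ofReal, Complex.ofReal_zero]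
    have t0 : ((if (f1, f2) = (i, j) then ((sgn4 a b : ℝ) : ℂ) else 0)) * (P f1 * Q f2)
        = (if (f1, f2) = (i, j) then (sgn4 a b : ℂ) * (P i * Q j) else 0) := by
      split_ifs with hh
      · simp only [Prod.mk.injEq] at hh; rw [hh.1, hh.2]
      · simp
    have t1 : ((if a = 1 ∧ b = 3 ∧ (f1, f2) = (i + 1, j) then ((wS M x ε₁ ε₂ (f1, f2) 1 : ℝ) : ℂ) else 0))
        * (P f1 * Q f2) = (if (f1, f2) = (i + 1, j) then (if a = 1 ∧ b = 3 then (x:ℂ) * ((sm M ε₁ (i + 1) : ℂ) * P (i + 1)) * Q j else 0) else 0) := by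
      by_cases hh : (f1, f2) = (i + 1, j)
      · have hh' := hh
        simp only [Prod.mk.injEq] at hh'
        by_cases hab : a = 1 ∧ b = 3
        · simp only [hab, and_self, if_true, hh'.1, hh'.2, wS, sm]
          push_cast; ring
        · have : ¬ (a = 1 ∧ b = 3 ∧ (f1, f2) = (i + 1, j)) := fun h => hab ⟨h.1, h.2.1⟩
          rw [if_neg this, if_pos hh, if_neg hab, zero_mul]
      · have : ¬ (a = 1 ∧ b = 3 ∧ (f1, f2) = (i + 1, j)) := fun h => hh h.2.2
        rw [if_neg this, if_neg hh, zero_mul]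
    have t2 : ((if a = 3 ∧ b = 1 ∧ (f1, f2) = (i - 1, j) then ((wS M x ε₁ ε₂ (i, j) 1 : ℝ) : ℂ) else 0))
        * (P f1 * Q f2) = (if (f1, f2) = (i - 1, j) then (if a = 3 ∧ b = 1 then (x:ℂ) * ((sm M ε₁ i : ℂ) * P (i - 1)) * Q j else 0) else 0) := by
      by_cases hh : (f1, f2) = (i - 1, j)
      · have hh' := hh
        simp only [Prod.mk.injEq] at hh'
        by_cases hab : a = 3 ∧ b = 1
        · simp only [hab, and_self, if_true, hh'.1, hh'.2, wS, sm]
          push_cast; ring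
        · have : ¬ (a = 3 ∧ b = 1 ∧ (f1, f2) = (i - 1, j)) := fun h => hab ⟨h.1, h.2.1⟩
          rw [if_neg this, if_pos hh, if_neg hab, zero_mul]
      · have : ¬ (a = 3 ∧ b = 1 ∧ (f1, f2) = (i - 1, j)) := fun h => hh h.2.2
        rw [if_neg this, if_neg hh, zero_mul]
    have t3 : ((if a = 0 ∧ b = 2 ∧ (f1, f2) = (i, j - 1) then ((wS M x ε₁ ε₂ (i, j) 0 : ℝ) : ℂ) else 0))
        * (P f1 * Q f2) = (if (f1, f2) = (i, j - 1) then (if a = 0 ∧ b = 2 then (x:ℂ) * ((sm M ε₂ j : ℂ) * Q (j - 1)) * P i else 0) else 0) := by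
      by_cases hh : (f1, f2) = (i, j - 1)
      · have hh' := hh
        simp only [Prod.mk.injEq] at hh'
        by_cases hab : a = 0 ∧ b = 2
        · simp only [hab, and_self, if_true, hh'.1, hh'.2, wS, sm]
          simp [apply_ite Complex.ofReal]; ring_nf
        · have : ¬ (a = 0 ∧ b = 2 ∧ (f1, f2) = (i, j - 1)) := fun h => hab ⟨h.1, h.2.1⟩
          rw [if_neg this, if_pos hh, if_neg hab, zero_mul]
      · have : ¬ (a = 0 ∧ b = 2 ∧ (f1, f2) = (i, j - 1)) := fun h => hh h.2.2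
        rw [if_neg this, if_neg hh, zero_mul]
    have t4 : ((if a = 2 ∧ b = 0 ∧ (f1, f2) = (i, j + 1) then ((wS M x ε₁ ε₂ (f1, f2) 0 : ℝ) : ℂ) else 0))
        * (P f1 * Q f2) = (if (f1, f2) = (i, j + 1) then (if a = 2 ∧ b = 0 then (x:ℂ) * ((sm M ε₂ (j + 1) : ℂ) * Q (j + 1)) * P i else 0) else 0) := by
      by_cases hh : (f1, f2) = (i, j + 1)
      · have hh' := hh
        simp only [Prod.mk.injEq] at hh'
        by_cases hab : a = 2 ∧ b = 0
        · simp only [hab, and_self, if_true, hh'.1, hh'.2, wS, sm]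
          simp [apply_ite Complex.ofReal]; ring_nf
        · have : ¬ (a = 2 ∧ b = 0 ∧ (f1, f2) = (i, j + 1)) := fun h => hab ⟨h.1, h.2.1⟩
          rw [if_neg this, if_pos hh, if_neg hab, zero_mul]
      · have : ¬ (a = 2 ∧ b = 0 ∧ (f1, f2) = (i, j + 1)) := fun h => hh h.2.2
        rw [if_neg this, if_neg hh, zero_mul]
    rw [← t0, ← t1, ← t2, ← t3, ← t4]
    ring
  rw [Finset.sum_congr rfl fun f _ => hsplit f]
  rw [Finset.sum_sub_distrib, Finset.sum_add_distrib, Finset.sum_sub_distrib, Finset.sum_add_distrib]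
  simp only [Finset.sum_ite_eq', Finset.mem_univ, if_true]
  rw [s1, s2, s3, s4]
  fin_cases a <;> fin_cases b <;> simp [sS, symb, sgn4] <;> ring

/-- **determinant of the sector matrix** -/
theorem det_sector (x θ₁ θ₂ ε₁ ε₂ : ℝ) (h1 : Complex.exp (θ₁ * I) = ε₁) (h1' : ε₁ * ε₁ = 1)
    (h2 : Complex.exp (θ₂ * I) = ε₂) (h2' : ε₂ * ε₂ = 1) :
    (hA (wS M x ε₁ ε₂)).det = ∏ p : ZMod M × ZMod M,
      ((1 + x ^ 2) ^ 2 - 2 * x * (1 - x ^ 2) * (Real.cos ((2 * Real.pi * p.1.val + θ₁) / M)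
        + Real.cos ((2 * Real.pi * p.2.val + θ₂) / M))) := by
  have h := det_of_intertwine M θ₁ θ₂ _ _ (intertwine M x θ₁ θ₂ ε₁ ε₂ h1 h1' h2 h2')
  have hcos : ∀ (θ : ℝ) (k : ZMod M), ph M θ k + (ph M θ k)⁻¹
      = ((2 * Real.cos ((2 * Real.pi * k.val + θ) / M) : ℝ) : ℂ) := by
    intro θ k
    rw [ph, ← Complex.exp_neg, Complex.ofReal_mul, Complex.ofReal_cos, Complex.cos]
    push_cast
    rw [neg_mul]
    ring
  have hdet : ((hA (wS M x ε₁ ε₂)).map ((↑) : ℝ → ℂ)).det = (((hA (wS M x ε₁ ε₂)).det : ℝ) : ℂ) := by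
    have := (RingHom.map_det Complex.ofRealHom (hA (wS M x ε₁ ε₂))).symm
    exact this
  rw [hdet] at h
  have h3 : ∀ p : ZMod M × ZMod M, (sS M x θ₁ θ₂ p).det
      = (((1 + x ^ 2) ^ 2 - 2 * x * (1 - x ^ 2) * (Real.cos ((2 * Real.pi * p.1.val + θ₁) / M)
        + Real.cos ((2 * Real.pi * p.2.val + θ₂) / M)) : ℝ) : ℂ) := by
    intro p
    rw [sS, det_symb x _ _ _ _ (mul_inv_cancel₀ (ph_ne M θ₁ p.1)) (mul_inv_cancel₀ (ph_ne M θ₂ p.2)),
      hcos, hcos]
    push_cast; ring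
  rw [Finset.prod_congr rfl fun p _ => h3 p, ← Complex.ofReal_prod] at h
  exact_mod_cast h

end Crest.Agent.R165.TorDetx599
end
end

-- ▼ part R165/TorProd_599
section

/-!
Row 165, leaf T1 (helper599): one- and two-dimensional cosine products on the torus, and the
comparison of the doubly periodic grid (zero mode removed) with the doubly antiperiodic grid.
-/

set_option autoImplicit false

namespace Crest.Agent.R165.TorProdx599

open Finset Real

/-- The one-dimensional mass `γ(p)` with `cosh γ(p) = 2 - cos p`. -/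
noncomputable def gam (p : ℝ) : ℝ := 2 * Real.arsinh (Real.sin (p / 2))

theorem cosh_gam (p : ℝ) : Real.cosh (gam p) = 2 - Real.cos p := by
  have h1 : Real.cosh (2 * Real.arsinh (Real.sin (p / 2)))
      = 1 + 2 * Real.sinh (Real.arsinh (Real.sin (p / 2))) ^ 2 := by
    rw [Real.cosh_two_mul]
    have := Real.cosh_sq (Real.arsinh (Real.sin (p / 2)))
    rw [this]; ring
  have h2 : Real.cos p = 1 - 2 * Real.sin (p / 2) ^ 2 := by
    have h3 : Real.cos (2 * (p / 2)) = 1 - 2 * Real.sin (p / 2) ^ 2 := by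
      rw [Real.cos_two_mul]
      have := Real.sin_sq_add_cos_sq (p / 2)
      nlinarith
    rw [← h3]; congr 1; ring
  rw [gam, h1, Real.sinh_arsinh, h2]; ring

theorem gam_nonneg {p : ℝ} (h0 : 0 ≤ p) (h1 : p ≤ 2 * π) : 0 ≤ gam p := by
  have h : 0 ≤ Real.sin (p / 2) :=
    Real.sin_nonneg_of_nonneg_of_le_pi (by linarith) (by linarith)
  have := Real.arsinh_nonneg_iff.2 h
  unfold gam; linarith

theorem gam_zero : gam 0 = 0 := by simp [gam]

theorem gam_two_pi : gam (2 * π) = 0 := by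
  have : (2 * π / 2) = π := by ring
  simp [gam, this]

theorem concave_arsinh : ConcaveOn ℝ (Set.Ici (0:ℝ)) Real.arsinh := by
  apply AntitoneOn.concaveOn_of_deriv (convex_Ici 0)
  · exact Real.continuous_arsinh.continuousOn
  · exact Real.differentiable_arsinh.differentiableOn
  · intro x hx y hy hxy
    rw [interior_Ici] at hx hy
    simp only [Set.mem_Ioi] at hx hy
    rw [(Real.hasDerivAt_arsinh x).deriv, (Real.hasDerivAt_arsinh y).deriv]
    apply inv_anti₀
    · positivity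
    · apply Real.sqrt_le_sqrt
      nlinarith

theorem concave_gam : ConcaveOn ℝ (Set.Icc (0:ℝ) (2 * π)) gam := by
  have hs : ConcaveOn ℝ (Set.Icc (0:ℝ) (2 * π)) (fun p => Real.sin (p / 2)) := by
    refine ⟨convex_Icc _ _, ?_⟩
    intro x hx y hy a b ha hb hab
    have := strictConcaveOn_sin_Icc.concaveOn.2 (x := x / 2) (y := y / 2)
      ⟨by linarith [hx.1], by linarith [hx.2]⟩ ⟨by linarith [hy.1], by linarith [hy.2]⟩ ha hb hab
    simp only [smul_eq_mul] at this ⊢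
    have e : (a * x + b * y) / 2 = a * (x / 2) + b * (y / 2) := by ring
    rw [e]; exact this
  refine ⟨convex_Icc _ _, ?_⟩
  intro x hx y hy a b ha hb hab
  have h1 := hs.2 hx hy ha hb hab
  have hx0 : 0 ≤ Real.sin (x / 2) :=
    Real.sin_nonneg_of_nonneg_of_le_pi (by linarith [hx.1]) (by linarith [hx.2])
  have hy0 : 0 ≤ Real.sin (y / 2) :=
    Real.sin_nonneg_of_nonneg_of_le_pi (by linarith [hy.1]) (by linarith [hy.2])
  have h2 := concave_arsinh.2 (x := Real.sin (x / 2)) (y := Real.sin (y / 2)) hx0 hy0 ha hb hab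
  have h3 := Real.arsinh_le_arsinh.2 h1
  simp only [smul_eq_mul, gam] at *
  nlinarith

/-- midpoint rule dominates the trapezoidal rule for the concave function `γ`. -/
theorem sum_gam_le (n : ℕ) (hn : 0 < n) :
    ∑ k ∈ range n, gam (2 * π * k / n) ≤ ∑ k ∈ range n, gam ((2 * π * k + π) / n) := by
  have hn' : (0:ℝ) < n := by exact_mod_cast hn
  have h1 : ∑ k ∈ range n, gam (2 * π * (k + 1 : ℕ) / n) = ∑ k ∈ range n, gam (2 * π * k / n) := by
    have a := Finset.sum_range_succ' (fun k : ℕ => gam (2 * π * k / n)) n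
    have b := Finset.sum_range_succ (fun k : ℕ => gam (2 * π * k / n)) n
    rw [a] at b
    have c : gam (2 * π * (n:ℝ) / n) = 0 := by
      rw [mul_div_assoc, div_self hn'.ne', mul_one, gam_two_pi]
    simp only [Nat.cast_zero, mul_zero, zero_div, gam_zero, add_zero, c] at b
    exact b
  have h2 : ∑ k ∈ range n, gam (2 * π * k / n)
      = ∑ k ∈ range n, ((1/2 : ℝ) * gam (2 * π * k / n) + (1/2 : ℝ) * gam (2 * π * (k + 1 : ℕ) / n)) := by
    rw [Finset.sum_add_distrib, ← Finset.mul_sum, ← Finset.mul_sum, h1]; ring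
  rw [h2]
  apply Finset.sum_le_sum
  intro k hk
  have hk' : (k:ℝ) + 1 ≤ n := by
    have := Finset.mem_range.1 hk
    exact_mod_cast this
  have hk0 : (0:ℝ) ≤ k := Nat.cast_nonneg k
  have hp := Real.pi_pos
  have m1 : 2 * π * (k:ℝ) / n ∈ Set.Icc (0:ℝ) (2 * π) := by
    constructor
    · positivity
    · rw [div_le_iff₀ hn']; nlinarith
  have m2 : 2 * π * ((k + 1 : ℕ):ℝ) / n ∈ Set.Icc (0:ℝ) (2 * π) := by
    push_cast
    constructor
    · positivity
    · rw [div_le_iff₀ hn']; nlinarith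
  have := concave_gam.2 m1 m2 (by norm_num : (0:ℝ) ≤ 1/2) (by norm_num : (0:ℝ) ≤ 1/2) (by norm_num)
  simp only [smul_eq_mul] at this
  refine this.trans (le_of_eq ?_)
  congr 1
  push_cast
  field_simp
  ring

/-- the one-dimensional product. -/
theorem prod_cosh_cos (n : ℕ) (hn : 0 < n) (g θ : ℝ) :
    ∏ k ∈ range n, (2 * Real.cosh g - 2 * Real.cos ((2 * π * k + θ) / n))
      = 2 * Real.cosh (n * g) - 2 * Real.cos θ := by
  have hn0 : n ≠ 0 := hn.ne'
  have hnC : (n:ℂ) ≠ 0 := by exact_mod_cast hn0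
  set ζ : ℂ := Complex.exp (2 * π * Complex.I / n) with hζ
  have hprim : IsPrimitiveRoot ζ n := Complex.isPrimitiveRoot_exp n hn0
  set α : ℂ := Complex.exp (θ * Complex.I / n) with hα
  have hαn : α ^ n = Complex.exp (θ * Complex.I) := by
    rw [hα, ← Complex.exp_nat_mul]; congr 1; field_simp
  have hα'n : (α⁻¹) ^ n = Complex.exp (-(θ * Complex.I)) := by
    rw [inv_pow, hαn, Complex.exp_neg]
  have h1 : ∀ x : ℂ, ∏ k ∈ range n, (x - ζ ^ k * α) = x ^ n - Complex.exp (θ * Complex.I) := by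
    intro x
    have := congrArg (Polynomial.eval x) (X_pow_sub_C_eq_prod hprim hn hαn)
    simp only [Polynomial.eval_sub, Polynomial.eval_pow, Polynomial.eval_X, Polynomial.eval_C,
      Polynomial.eval_prod] at this
    exact this.symm
  have h2 : ∀ x : ℂ, ∏ k ∈ range n, (x - (ζ⁻¹) ^ k * α⁻¹)
      = x ^ n - Complex.exp (-(θ * Complex.I)) := by
    intro x
    have := congrArg (Polynomial.eval x) (X_pow_sub_C_eq_prod hprim.inv hn hα'n)
    simp only [Polynomial.eval_sub, Polynomial.eval_pow, Polynomial.eval_X, Polynomial.eval_C,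
      Polynomial.eval_prod] at this
    exact this.symm
  have h3 : ∀ k ∈ range n, ((2 * Real.cosh g - 2 * Real.cos ((2 * π * k + θ) / n) : ℝ) : ℂ)
      = Complex.exp (-g) * ((Complex.exp g - ζ ^ k * α) * (Complex.exp g - (ζ⁻¹) ^ k * α⁻¹)) := by
    intro k _
    have e1 : ζ ^ k * α = Complex.exp (((2 * π * k + θ) / n : ℝ) * Complex.I) := by
      rw [hζ, hα, ← Complex.exp_nat_mul, ← Complex.exp_add]; congr 1; push_cast; ring
    have e2 : (ζ⁻¹) ^ k * α⁻¹ = Complex.exp (-(((2 * π * k + θ) / n : ℝ) * Complex.I)) := by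
      rw [inv_pow, ← mul_inv, e1, Complex.exp_neg]
    rw [e1, e2]
    set φ : ℝ := (2 * π * k + θ) / n
    have c1 : ((Real.cosh g : ℝ) : ℂ) = (Complex.exp g + Complex.exp (-g)) / 2 := by
      rw [Complex.ofReal_cosh, Complex.cosh]
    have c2 : ((Real.cos φ : ℝ) : ℂ) = (Complex.exp (φ * Complex.I) + Complex.exp (-(φ * Complex.I))) / 2 := by
      rw [Complex.ofReal_cos, Complex.cos]; congr 2; rw [neg_mul]
    have hE : Complex.exp (-(g:ℂ)) * Complex.exp g = 1 := by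
      rw [← Complex.exp_add]; simp
    have hF : Complex.exp (φ * Complex.I) * Complex.exp (-(φ * Complex.I)) = 1 := by
      rw [← Complex.exp_add]; simp
    push_cast
    rw [← Complex.ofReal_cosh, ← Complex.ofReal_cos, c1, c2]
    generalize Complex.exp (-(g:ℂ)) = A at *
    generalize Complex.exp (g:ℂ) = B at *
    generalize Complex.exp (φ * Complex.I) = U at *
    generalize Complex.exp (-(φ * Complex.I)) = V at *
    have : A * ((B - U) * (B - V)) = (A * B) * B - (A * B) * (U + V) + A * (U * V) := by ring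
    rw [this, hE, hF]; ring
  have h4 : ((∏ k ∈ range n, (2 * Real.cosh g - 2 * Real.cos ((2 * π * k + θ) / n)) : ℝ) : ℂ)
      = ((2 * Real.cosh (n * g) - 2 * Real.cos θ : ℝ) : ℂ) := by
    rw [Complex.ofReal_prod, Finset.prod_congr rfl h3, Finset.prod_mul_distrib,
      Finset.prod_mul_distrib, h1, h2, Finset.prod_const, Finset.card_range,
      ← Complex.exp_nat_mul, ← Complex.exp_nat_mul]
    have c1 : ((Real.cosh (n * g) : ℝ) : ℂ) = (Complex.exp (n * g) + Complex.exp (-(n * g))) / 2 := by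
      rw [Complex.ofReal_cosh, Complex.cosh]; push_cast; ring_nf
    have c2 : ((Real.cos θ : ℝ) : ℂ) = (Complex.exp (θ * Complex.I) + Complex.exp (-(θ * Complex.I))) / 2 := by
      rw [Complex.ofReal_cos, Complex.cos]; congr 2; rw [neg_mul]
    have hE : Complex.exp (-((n:ℂ) * g)) * Complex.exp (n * g) = 1 := by
      rw [← Complex.exp_add]; simp
    have hF : Complex.exp (θ * Complex.I) * Complex.exp (-(θ * Complex.I)) = 1 := by
      rw [← Complex.exp_add]; simp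
    rw [Complex.ofReal_sub, Complex.ofReal_mul, Complex.ofReal_mul, c1, c2]
    rw [show (n:ℂ) * -(g:ℂ) = -((n:ℂ) * g) by ring]
    generalize Complex.exp (-((n:ℂ) * g)) = A at *
    generalize Complex.exp ((n:ℂ) * g) = B at *
    generalize Complex.exp (θ * Complex.I) = U at *
    generalize Complex.exp (-(θ * Complex.I)) = V at *
    have : A * ((B - U) * (B - V)) = (A * B) * B - (A * B) * (U + V) + A * (U * V) := by ring
    rw [this, hE, hF]; push_cast; ring
  exact_mod_cast h4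

/-- the one-dimensional product with the zero mode removed. -/
theorem prod_two_sub_cos (n : ℕ) (hn : 0 < n) :
    ∏ k ∈ (range n).erase 0, (2 - 2 * Real.cos (2 * π * k / n)) = (n:ℝ) ^ 2 := by
  obtain ⟨m, rfl⟩ : ∃ m, n = m + 1 := ⟨n - 1, by omega⟩
  have e0 : (range (m + 1)).erase 0 = (range m).image (· + 1) := by
    ext x; simp only [mem_erase, mem_range, mem_image]
    constructor
    · rintro ⟨h1, h2⟩; exact ⟨x - 1, by omega, by omega⟩
    · rintro ⟨y, h1, rfl⟩; omega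
  rw [e0, Finset.prod_image (by intro a _ b _ h; simpa using h)]
  have hnC : ((m + 1 : ℕ):ℂ) ≠ 0 := by exact_mod_cast (Nat.succ_ne_zero m)
  set ζ : ℂ := Complex.exp (2 * π * Complex.I / (m + 1 : ℕ)) with hζ
  have hprim : IsPrimitiveRoot ζ (m + 1) := Complex.isPrimitiveRoot_exp _ (Nat.succ_ne_zero m)
  have h1 := IsPrimitiveRoot.prod_one_sub_pow_eq_order hprim
  have h2 := IsPrimitiveRoot.prod_one_sub_pow_eq_order hprim.inv
  have h3 : ∀ k ∈ range m, ((2 - 2 * Real.cos (2 * π * ((k + 1 : ℕ):ℝ) / (m + 1 : ℕ)) : ℝ) : ℂ)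
      = (1 - ζ ^ (k + 1)) * (1 - (ζ⁻¹) ^ (k + 1)) := by
    intro k _
    have e1 : ζ ^ (k + 1) = Complex.exp (((2 * π * ((k + 1 : ℕ):ℝ) / (m + 1 : ℕ)) : ℝ) * Complex.I) := by
      rw [hζ, ← Complex.exp_nat_mul]; congr 1; push_cast; ring
    have e2 : (ζ⁻¹) ^ (k + 1) = Complex.exp (-(((2 * π * ((k + 1 : ℕ):ℝ) / (m + 1 : ℕ)) : ℝ) * Complex.I)) := by
      rw [inv_pow, e1, Complex.exp_neg]
    rw [e1, e2]
    set φ : ℝ := 2 * π * ((k + 1 : ℕ):ℝ) / (m + 1 : ℕ)
    have c2 : ((Real.cos φ : ℝ) : ℂ) = (Complex.exp (φ * Complex.I) + Complex.exp (-(φ * Complex.I))) / 2 := by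
      rw [Complex.ofReal_cos, Complex.cos]; congr 2; rw [neg_mul]
    have hF : Complex.exp (φ * Complex.I) * Complex.exp (-(φ * Complex.I)) = 1 := by
      rw [← Complex.exp_add]; simp
    rw [Complex.ofReal_sub, Complex.ofReal_mul, c2]
    generalize Complex.exp (φ * Complex.I) = U at *
    generalize Complex.exp (-(φ * Complex.I)) = V at *
    have : (1 - U) * (1 - V) = 1 - (U + V) + U * V := by ring
    rw [this, hF]; push_cast; ring
  have h4 : ((∏ k ∈ range m, (2 - 2 * Real.cos (2 * π * ((k + 1 : ℕ):ℝ) / (m + 1 : ℕ))) : ℝ) : ℂ)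
      = (((m + 1 : ℕ):ℝ) ^ 2 : ℝ) := by
    rw [Complex.ofReal_prod, Finset.prod_congr rfl h3, Finset.prod_mul_distrib, h1, h2]
    push_cast; ring
  exact_mod_cast h4

/-- `4 - 2 cos p - 2 cos q` in hyperbolic form. -/
theorem four_sub (p q : ℝ) : 4 - 2 * Real.cos p - 2 * Real.cos q
    = 2 * Real.cosh (gam p) - 2 * Real.cos q := by rw [cosh_gam]; ring

/-- row product, periodic in the second direction. -/
theorem row_P (n : ℕ) (hn : 0 < n) (p : ℝ) :
    ∏ l ∈ range n, (4 - 2 * Real.cos p - 2 * Real.cos (2 * π * l / n))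
      = 2 * Real.cosh (n * gam p) - 2 := by
  have := prod_cosh_cos n hn (gam p) 0
  simp only [add_zero, Real.cos_zero, mul_one] at this
  rw [← this]
  exact Finset.prod_congr rfl fun l _ => four_sub p _

/-- row product, antiperiodic in the second direction. -/
theorem row_A (n : ℕ) (hn : 0 < n) (p : ℝ) :
    ∏ l ∈ range n, (4 - 2 * Real.cos p - 2 * Real.cos ((2 * π * l + π) / n))
      = 2 * Real.cosh (n * gam p) + 2 := by
  have := prod_cosh_cos n hn (gam p) π
  rw [Real.cos_pi] at this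
  have e : 2 * Real.cosh (n * gam p) + 2 = 2 * Real.cosh (n * gam p) - 2 * (-1) := by ring
  rw [e, ← this]
  exact Finset.prod_congr rfl fun l _ => four_sub p _

/-- The comparison: periodic-periodic grid without the zero mode against the
antiperiodic-antiperiodic grid. -/
theorem PP_le_AA (n : ℕ) (hn : 0 < n) :
    ∏ kl ∈ (range n ×ˢ range n).erase (0, 0),
        (4 - 2 * Real.cos (2 * π * kl.1 / n) - 2 * Real.cos (2 * π * kl.2 / n))
      ≤ (n:ℝ) ^ 2 * ∏ kl ∈ range n ×ˢ range n,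
        (4 - 2 * Real.cos ((2 * π * kl.1 + π) / n) - 2 * Real.cos ((2 * π * kl.2 + π) / n)) := by
  have hn' : (0:ℝ) < n := by exact_mod_cast hn
  -- left side
  have hL : ∏ kl ∈ (range n ×ˢ range n).erase (0, 0),
        (4 - 2 * Real.cos (2 * π * kl.1 / n) - 2 * Real.cos (2 * π * kl.2 / n))
      = (n:ℝ) ^ 2 * ∏ k ∈ (range n).erase 0, (2 * Real.cosh (n * gam (2 * π * k / n)) - 2) := by
    have hsplit : (range n ×ˢ range n).erase (0, 0)
        = ({0} ×ˢ (range n).erase 0) ∪ ((range n).erase 0 ×ˢ range n) := by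
      ext ⟨a, b⟩
      simp only [mem_erase, mem_product, mem_range, mem_union, mem_singleton, ne_eq, Prod.mk.injEq]
      constructor
      · rintro ⟨h1, h2, h3⟩
        by_cases ha : a = 0
        · left; exact ⟨ha, fun hb => h1 ⟨ha, hb⟩, h3⟩
        · right; exact ⟨⟨ha, h2⟩, h3⟩
      · rintro (⟨h1, h2, h3⟩ | ⟨⟨h1, h2⟩, h3⟩)
        · exact ⟨fun h => h2 h.2, by omega, h3⟩
        · exact ⟨fun h => h1 h.1, h2, h3⟩
    have hdisj : Disjoint (({0} : Finset ℕ) ×ˢ (range n).erase 0) ((range n).erase 0 ×ˢ range n) := by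
      rw [Finset.disjoint_left]
      rintro ⟨a, b⟩ h1 h2
      simp only [mem_erase, mem_product, mem_range, mem_singleton, ne_eq] at h1 h2
      exact h2.1.1 h1.1
    rw [hsplit, Finset.prod_union hdisj, Finset.prod_product, Finset.prod_product,
      Finset.prod_singleton]
    have ha : ∏ l ∈ (range n).erase 0,
        (4 - 2 * Real.cos (2 * π * ((0:ℕ):ℝ) / n) - 2 * Real.cos (2 * π * (l:ℝ) / n)) = (n:ℝ) ^ 2 := by
      rw [← prod_two_sub_cos n hn]
      refine Finset.prod_congr rfl fun l _ => ?_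
      simp only [Nat.cast_zero, mul_zero, zero_div, Real.cos_zero]
      ring
    have hb : ∏ k ∈ (range n).erase 0, ∏ l ∈ range n,
        (4 - 2 * Real.cos (2 * π * (k:ℝ) / n) - 2 * Real.cos (2 * π * (l:ℝ) / n))
        = ∏ k ∈ (range n).erase 0, (2 * Real.cosh (n * gam (2 * π * k / n)) - 2) :=
      Finset.prod_congr rfl fun k _ => row_P n hn (2 * π * k / n)
    rw [← hb, ← ha]
  have hR : ∏ kl ∈ range n ×ˢ range n,
        (4 - 2 * Real.cos ((2 * π * kl.1 + π) / n) - 2 * Real.cos ((2 * π * kl.2 + π) / n))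
      = ∏ k ∈ range n, (2 * Real.cosh (n * gam ((2 * π * k + π) / n)) + 2) := by
    rw [Finset.prod_product]
    have hb : ∏ k ∈ range n, ∏ l ∈ range n,
        (4 - 2 * Real.cos ((2 * π * (k:ℝ) + π) / n) - 2 * Real.cos ((2 * π * (l:ℝ) + π) / n))
        = ∏ k ∈ range n, (2 * Real.cosh (n * gam ((2 * π * k + π) / n)) + 2) :=
      Finset.prod_congr rfl fun k _ => row_A n hn ((2 * π * k + π) / n)
    rw [← hb]
  rw [hL, hR]
  apply mul_le_mul_of_nonneg_left _ (by positivity)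
  have hpi := Real.pi_pos
  have hk1 : ∀ k ∈ range n, 0 ≤ gam (2 * π * k / n) := by
    intro k hk
    have : (k:ℝ) ≤ n := by exact_mod_cast (Finset.mem_range.1 hk).le
    refine gam_nonneg (by positivity) ?_
    rw [div_le_iff₀ hn']; nlinarith
  have step1 : ∏ k ∈ (range n).erase 0, (2 * Real.cosh (n * gam (2 * π * k / n)) - 2)
      ≤ ∏ k ∈ (range n).erase 0, Real.exp (n * gam (2 * π * k / n)) := by
    apply Finset.prod_le_prod
    · intro k _
      have := Real.one_le_cosh (n * gam (2 * π * k / n))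
      linarith
    · intro k hk
      have hg := hk1 k (Finset.mem_of_mem_erase hk)
      have h0 : 0 ≤ n * gam (2 * π * k / n) := by positivity
      have : Real.exp (-(n * gam (2 * π * k / n))) ≤ 1 := Real.exp_le_one_iff.2 (by linarith)
      rw [Real.cosh_eq]; linarith
  have step2 : ∏ k ∈ (range n).erase 0, Real.exp (n * gam (2 * π * k / n))
      = Real.exp (n * ∑ k ∈ range n, gam (2 * π * k / n)) := by
    rw [← Real.exp_sum, ← Finset.mul_sum]
    congr 2
    rw [Finset.sum_erase]; simp [gam_zero]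
  have step3 : ∏ k ∈ range n, Real.exp (n * gam ((2 * π * k + π) / n))
      ≤ ∏ k ∈ range n, (2 * Real.cosh (n * gam ((2 * π * k + π) / n)) + 2) := by
    apply Finset.prod_le_prod
    · intro k _; positivity
    · intro k _
      rw [Real.cosh_eq]
      have := Real.exp_pos (-(n * gam ((2 * π * k + π) / n)))
      linarith
  have step4 : ∏ k ∈ range n, Real.exp (n * gam ((2 * π * k + π) / n))
      = Real.exp (n * ∑ k ∈ range n, gam ((2 * π * k + π) / n)) := by
    rw [← Real.exp_sum, ← Finset.mul_sum]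
  rw [step4] at step3
  rw [step2] at step1
  have step5 : Real.exp (n * ∑ k ∈ range n, gam (2 * π * k / n))
      ≤ Real.exp (n * ∑ k ∈ range n, gam ((2 * π * k + π) / n)) :=
    Real.exp_le_exp.2 (mul_le_mul_of_nonneg_left (sum_gam_le n hn) hn'.le)
  exact step1.trans (step5.trans step3)

end Crest.Agent.R165.TorProdx599
end

-- ▼ part R165/Pf_599
section

/-!
Row 165, leaf T2/T3 (helper599): matrix covariances, reweighting by one bilinear exponential,
`E₀[e^Q]² det A₀ = det (A₀ + Y)`, positivity along a path, and the exact formula for a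
two-dimensional kernel (zero modes).
-/

set_option autoImplicit false
set_option linter.unusedSectionVars false

noncomputable section

namespace Crest.Agent.R165.Pfx599

open Crest.Agent.R165.Gr0x606 Matrix

variable {ι : Type*} [Fintype ι] [DecidableEq ι]

/-- covariance with matrix `(B - Bᵀ)/2` -/
def cv (B : Matrix ι ι ℝ) : Cov (ι → ℝ) where
  b := Matrix.toBilin' ((1/2 : ℝ) • (B - Bᵀ))
  alt := fun x => by
    rw [Matrix.toBilin'_apply']
    rw [Matrix.smul_mulVec, Matrix.sub_mulVec, dotProduct_smul, dotProduct_sub]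
    have : x ⬝ᵥ Bᵀ *ᵥ x = x ⬝ᵥ B *ᵥ x := by
      rw [Matrix.mulVec_transpose, dotProduct_comm, Matrix.dotProduct_mulVec]
    rw [this]; simp

theorem cv_b {B : Matrix ι ι ℝ} (hB : Bᵀ = -B) (x y : ι → ℝ) : (cv B).b x y = x ⬝ᵥ B *ᵥ y := by
  show Matrix.toBilin' ((1/2 : ℝ) • (B - Bᵀ)) x y = _
  rw [Matrix.toBilin'_apply', hB]
  congr 2
  ext i j
  simp; ring

/-- the antisymmetric rank-two matrix `u wᵀ - w uᵀ` -/
def r2 (u w : ι → ℝ) : Matrix ι ι ℝ := vecMulVec u w - vecMulVec w u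

theorem r2_t (u w : ι → ℝ) : (r2 u w)ᵀ = -r2 u w := by
  simp [r2, Matrix.transpose_vecMulVec]

theorem r2_mulVec (u w v : ι → ℝ) : r2 u w *ᵥ v = (w ⬝ᵥ v) • u - (u ⬝ᵥ v) • w := by
  simp [r2, Matrix.sub_mulVec, Matrix.vecMulVec_mulVec]

theorem inv_anti {A : Matrix ι ι ℝ} (hA : Aᵀ = -A) : (A⁻¹)ᵀ = -A⁻¹ := by
  rw [Matrix.transpose_nonsing_inv, hA]
  by_cases h : IsUnit A.det
  · have h1 : (-A) * (-A⁻¹) = 1 := by rw [neg_mul_neg, Matrix.mul_nonsing_inv A h]
    exact Matrix.inv_eq_right_inv h1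
  · have h2 : ¬ IsUnit (-A).det := by
      rw [Matrix.det_neg]
      intro h3
      exact h ((IsUnit.mul_iff.1 h3).2)
    rw [Matrix.nonsing_inv_apply_not_isUnit _ h, Matrix.nonsing_inv_apply_not_isUnit _ h2, neg_zero]

/-- covariance `-A⁻¹` -/
def cI (A : Matrix ι ι ℝ) : Cov (ι → ℝ) := cv (-A⁻¹)

theorem cI_b {A : Matrix ι ι ℝ} (hA : Aᵀ = -A) (x y : ι → ℝ) :
    (cI A).b x y = -(x ⬝ᵥ A⁻¹ *ᵥ y) := by
  have h : (-A⁻¹)ᵀ = -(-A⁻¹) := by rw [Matrix.transpose_neg, inv_anti hA]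
  rw [cI, cv_b h, Matrix.neg_mulVec, dotProduct_neg]

theorem cI_b' {A : Matrix ι ι ℝ} (hA : Aᵀ = -A) (x y : ι → ℝ) :
    (cI A).b x y = (A⁻¹ *ᵥ x) ⬝ᵥ y := by
  rw [cI_b hA, Matrix.dotProduct_mulVec, ← Matrix.mulVec_transpose, inv_anti hA,
    Matrix.neg_mulVec, neg_dotProduct, neg_neg]

/-- one bilinear exponential -/
theorem reweight_one {A : Matrix ι ι ℝ} (hA : Aᵀ = -A) (hd : A.det ≠ 0) (y : ℝ) (u w : ι → ℝ)
    (hd' : (A + y • r2 u w).det ≠ 0) (F : Gr (ι → ℝ)) :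
    EE (cI A) ((1 + y • (fi u * fi w)) * F)
      = EE (cI A) (1 + y • (fi u * fi w)) * EE (cI (A + y • r2 u w)) F := by
  have hA' : (A + y • r2 u w)ᵀ = -(A + y • r2 u w) := by
    rw [Matrix.transpose_add, hA, Matrix.transpose_smul, r2_t]
    rw [smul_neg, neg_add]
  have hu : IsUnit A.det := isUnit_iff_ne_zero.2 hd
  have hu' : IsUnit (A + y • r2 u w).det := isUnit_iff_ne_zero.2 hd'
  refine reweight (cI A) (cI (A + y • r2 u w)) (y • (fi u * fi w)) _ (IsExp.bil y u w)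
    (fun l => (y * l u) • w - (y * l w) • u) ?_ ?_ F
  · intro l
    rw [map_smul, dd_fi_mul, dd_fi, ← Algebra.commutes, ← Algebra.smul_def]
    rw [show fi ((y * l u) • w - (y * l w) • u) = (y * l u) • fi w - (y * l w) • fi u by
      simp [fi, map_sub, map_smul]]
    rw [smul_sub, smul_smul, smul_smul]
  · intro z
    set v : ι → ℝ := (A + y • r2 u w)⁻¹ *ᵥ z with hv
    have hz : (A + y • r2 u w) *ᵥ v = z := by
      rw [hv, Matrix.mulVec_mulVec, Matrix.mul_nonsing_inv _ hu', Matrix.one_mulVec]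
    refine ⟨A *ᵥ v, ?_, ?_⟩
    · have h1 : A⁻¹ *ᵥ (A *ᵥ v) = v := by
        rw [Matrix.mulVec_mulVec, Matrix.nonsing_inv_mul _ hu, Matrix.one_mulVec]
      rw [cI_b' hA, cI_b' hA, h1]
      rw [← hz, Matrix.add_mulVec, Matrix.smul_mulVec, r2_mulVec]
      rw [dotProduct_comm v u, dotProduct_comm v w]
      rw [smul_sub, smul_smul, smul_smul]
      abel
    · ext i
      simp only [LinearMap.comp_apply]
      rw [cI_b' hA', cI_b' hA]
      congr 1
      rw [Matrix.mulVec_mulVec, Matrix.nonsing_inv_mul _ hu, Matrix.one_mulVec]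

theorem det_r2 {A : Matrix ι ι ℝ} (hA : Aᵀ = -A) (hd : A.det ≠ 0) (y : ℝ) (u w : ι → ℝ) :
    (A + y • r2 u w).det = A.det * (1 + y * (cI A).b u w) ^ 2 := by
  have hu : IsUnit A.det := isUnit_iff_ne_zero.2 hd
  -- factor
  let P : Matrix ι (Fin 2) ℝ := Matrix.of fun i j => if j = 0 then u i else w i
  let R : Matrix (Fin 2) ι ℝ := Matrix.of fun j i => if j = 0 then w i else -u i
  have hPR : P * R = r2 u w := by
    ext i j
    simp [P, R, r2, Matrix.mul_apply, Fin.sum_univ_two, vecMulVec_apply]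
    ring
  have h1 : A + y • r2 u w = A * (1 + (y • (A⁻¹ * P)) * R) := by
    rw [Matrix.mul_add, Matrix.mul_one, Matrix.smul_mul, Matrix.mul_smul, Matrix.mul_assoc, hPR,
      ← Matrix.mul_assoc, Matrix.mul_nonsing_inv _ hu, Matrix.one_mul]
  rw [h1, Matrix.det_mul, Matrix.det_one_add_mul_comm]
  congr 1
  have hs : ∀ x : ι → ℝ, x ⬝ᵥ A⁻¹ *ᵥ x = 0 := by
    intro x
    have := (cI A).alt x
    rw [cI_b hA] at this
    linarith
  have hsk : w ⬝ᵥ A⁻¹ *ᵥ u = -(u ⬝ᵥ A⁻¹ *ᵥ w) := by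
    have := (cI A).skew w u
    rw [cI_b hA, cI_b hA] at this
    linarith
  have hM : R * (y • (A⁻¹ * P)) = Matrix.of ![![y * (w ⬝ᵥ A⁻¹ *ᵥ u), 0], ![0, y * (w ⬝ᵥ A⁻¹ *ᵥ u)]] := by
    have e : ∀ (a b : Fin 2), (R * (y • (A⁻¹ * P))) a b
        = y * ((fun i => R a i) ⬝ᵥ A⁻¹ *ᵥ (fun i => P i b)) := by
      intro a b
      rw [Matrix.mul_smul, Matrix.smul_apply, smul_eq_mul, ← Matrix.mul_assoc]
      congr 1
      rw [Matrix.mul_assoc]
      simp only [Matrix.mul_apply, dotProduct, Matrix.mulVec]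
    ext a b
    rw [e]
    fin_cases a <;> fin_cases b
    · simp [P, R]
    · have : w ⬝ᵥ A⁻¹ *ᵥ w = 0 := hs w
      simp [P, R, this]
    · have : (-u) ⬝ᵥ A⁻¹ *ᵥ u = 0 := by rw [neg_dotProduct, hs u, neg_zero]
      have h2 : (fun i => -u i) = -u := rfl
      simp [P, R, h2, hs u]
    · have h2 : (fun i => -u i) = -u := rfl
      simp [P, R, h2, hsk]
  rw [hM, cI_b hA]
  rw [hsk]
  simp [Matrix.det_fin_two, Matrix.add_apply]
  ring

/-- ordered product of bilinear exponentials -/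
def bE (L : List (ℝ × (ι → ℝ) × (ι → ℝ))) : Gr (ι → ℝ) :=
  (L.map fun t => 1 + t.1 • (fi t.2.1 * fi t.2.2)).prod

/-- accumulated matrix -/
def aL (A : Matrix ι ι ℝ) (L : List (ℝ × (ι → ℝ) × (ι → ℝ))) : Matrix ι ι ℝ :=
  A + (L.map fun t => t.1 • r2 t.2.1 t.2.2).sum

omit [DecidableEq ι] [Fintype ι] in
@[simp] theorem bE_nil : bE ([] : List (ℝ × (ι → ℝ) × (ι → ℝ))) = 1 := rfl
omit [DecidableEq ι] [Fintype ι] in
theorem bE_cons (t : ℝ × (ι → ℝ) × (ι → ℝ)) (L : List (ℝ × (ι → ℝ) × (ι → ℝ))) :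
    bE (t :: L) = (1 + t.1 • (fi t.2.1 * fi t.2.2)) * bE L := by simp [bE]
omit [DecidableEq ι] [Fintype ι] in
theorem aL_nil (A : Matrix ι ι ℝ) : aL A [] = A := by simp [aL]
omit [DecidableEq ι] [Fintype ι] in
theorem aL_cons (A : Matrix ι ι ℝ) (t : ℝ × (ι → ℝ) × (ι → ℝ)) (L : List (ℝ × (ι → ℝ) × (ι → ℝ))) :
    aL A (t :: L) = aL (A + t.1 • r2 t.2.1 t.2.2) L := by
  simp [aL, add_assoc]

theorem anti_add {A : Matrix ι ι ℝ} (hA : Aᵀ = -A) (y : ℝ) (u w : ι → ℝ) :
    (A + y • r2 u w)ᵀ = -(A + y • r2 u w) := by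
  rw [Matrix.transpose_add, hA, Matrix.transpose_smul, r2_t, smul_neg, neg_add]

theorem continuous_aL (A N : Matrix ι ι ℝ) (L : List (ℝ × (ι → ℝ) × (ι → ℝ))) :
    Continuous fun y : ℝ => (aL (A + y • N) L).det := by
  apply Continuous.matrix_det
  unfold aL
  fun_prop

/-- **Pfaffian squared is the determinant.** -/
theorem pf_sq {A : Matrix ι ι ℝ} (hA : Aᵀ = -A) (hd : A.det ≠ 0)
    (L : List (ℝ × (ι → ℝ) × (ι → ℝ))) :
    (EE (cI A) (bE L)) ^ 2 * A.det = (aL A L).det := by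
  induction L generalizing A with
  | nil => simp [aL_nil]
  | cons t L ih =>
    obtain ⟨y0, u, w⟩ := t
    rw [aL_cons, bE_cons]
    simp only
    -- both sides are continuous functions of `y0`
    let f : ℝ → ℝ := fun y => (EE (cI A) ((1 + y • (fi u * fi w)) * bE L)) ^ 2 * A.det
    let g : ℝ → ℝ := fun y => (aL (A + y • r2 u w) L).det
    have hf : Continuous f := by
      have : f = fun y => (EE (cI A) (bE L) + y * EE (cI A) (fi u * fi w * bE L)) ^ 2 * A.det := by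
        funext y
        simp only [f]
        rw [add_mul, one_mul, smul_mul_assoc, map_add, map_smul, smul_eq_mul]
      rw [this]
      fun_prop
    have hg : Continuous g := continuous_aL A _ L
    have hs : ∀ y : ℝ, EE (cI A) (1 + y • (fi u * fi w)) = 1 + y * (cI A).b u w := by
      intro y
      rw [map_add, EE_one, map_smul, EE_fi_fi, smul_eq_mul]
    have heq : ∀ y : ℝ, 1 + y * (cI A).b u w ≠ 0 → f y = g y := by
      intro y hy
      have hd' : (A + y • r2 u w).det ≠ 0 := by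
        rw [det_r2 hA hd]; exact mul_ne_zero hd (pow_ne_zero 2 hy)
      simp only [f, g]
      rw [reweight_one hA hd y u w hd', ← ih (anti_add hA y u w) hd', det_r2 hA hd, hs]
      ring
    have hdense : Dense {y : ℝ | 1 + y * (cI A).b u w ≠ 0} := by
      by_cases h0 : (cI A).b u w = 0
      · simp [h0]
      · have : {y : ℝ | 1 + y * (cI A).b u w ≠ 0} = {-(1 / (cI A).b u w)}ᶜ := by
          ext y
          simp only [Set.mem_ofPred_eq, Set.mem_compl_iff, Set.mem_singleton_iff, ne_eq, not_iff_not]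
          constructor
          · intro h; field_simp; linarith
          · intro h; rw [h]; field_simp; ring
        rw [this]
        exact dense_compl_singleton _
    have : f = g := Continuous.ext_on hdense hf hg (fun y hy => heq y hy)
    exact congrFun this y0

/-- scaling of the list -/
def sc (t : ℝ) (L : List (ℝ × (ι → ℝ) × (ι → ℝ))) : List (ℝ × (ι → ℝ) × (ι → ℝ)) :=
  L.map fun a => (t * a.1, a.2)

omit [DecidableEq ι] [Fintype ι] in
theorem continuous_EE_sc (S : Cov (ι → ℝ)) (L : List (ℝ × (ι → ℝ) × (ι → ℝ))) (G : Gr (ι → ℝ)) :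
    Continuous fun t : ℝ => EE S (G * bE (sc t L)) := by
  induction L generalizing G with
  | nil => simpa [sc] using continuous_const
  | cons a L ih =>
    have : (fun t : ℝ => EE S (G * bE (sc t (a :: L))))
        = fun t => EE S (G * bE (sc t L)) + t * (a.1 * EE S (G * (fi a.2.1 * fi a.2.2) * bE (sc t L))) := by
      funext t
      have : sc t (a :: L) = (t * a.1, a.2) :: sc t L := rfl
      rw [this, bE_cons]
      simp only
      rw [← mul_assoc G, mul_add, mul_one, add_mul, map_add, mul_smul_comm, smul_mul_assoc,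
        map_smul, smul_eq_mul]
      ring
    rw [this]
    have h1 := ih G
    have h2 := ih (G * (fi a.2.1 * fi a.2.2))
    fun_prop

omit [DecidableEq ι] [Fintype ι] in
theorem sc_one (L : List (ℝ × (ι → ℝ) × (ι → ℝ))) : sc 1 L = L := by
  simp [sc]

omit [DecidableEq ι] [Fintype ι] in
theorem bE_sc_zero (L : List (ℝ × (ι → ℝ) × (ι → ℝ))) : bE (sc 0 L) = 1 := by
  induction L with
  | nil => rfl
  | cons a L ih =>
    have : sc 0 (a :: L) = (0 * a.1, a.2) :: sc 0 L := rfl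
    rw [this, bE_cons, ih]; simp

/-- positivity along a path of nonsingular matrices -/
theorem EE_bE_pos {A : Matrix ι ι ℝ} (hA : Aᵀ = -A) (hd : A.det ≠ 0)
    (L : List (ℝ × (ι → ℝ) × (ι → ℝ))) (h : ∀ t ∈ Set.Icc (0:ℝ) 1, (aL A (sc t L)).det ≠ 0) :
    0 < EE (cI A) (bE L) := by
  let f : ℝ → ℝ := fun t => EE (cI A) (bE (sc t L))
  have hf : Continuous f := by
    have := continuous_EE_sc (cI A) L 1
    simpa [f] using this
  have h0 : f 0 = 1 := by simp [f, bE_sc_zero]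
  have h1 : f 1 = EE (cI A) (bE L) := by simp [f, sc_one]
  have hne : ∀ t ∈ Set.Icc (0:ℝ) 1, f t ≠ 0 := by
    intro t ht h2
    have := pf_sq hA hd (sc t L)
    simp only [f] at h2
    rw [h2] at this
    exact h t ht (by rw [← this]; ring)
  rw [← h1]
  by_contra hcon
  have hle : f 1 ≤ 0 := not_lt.1 hcon
  have : (0:ℝ) ∈ f '' Set.Icc (0:ℝ) 1 := by
    have := intermediate_value_Icc' (show (0:ℝ) ≤ 1 by norm_num) hf.continuousOn
    exact this ⟨hle, by rw [h0]; norm_num⟩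
  obtain ⟨t, ht, h3⟩ := this
  exact hne t ht h3

end Crest.Agent.R165.Pfx599
end
end

-- ▼ part R165/PfZ_599
section

/-!
Row 165, leaf T3 (helper599): reweighting by a list of bilinear exponentials and the exact
formula when the total matrix has a two-dimensional kernel.
-/

set_option autoImplicit false
set_option linter.unusedSectionVars false

noncomputable section

namespace Crest.Agent.R165.PfZx599

open Crest.Agent.R165.Gr0x606 Crest.Agent.R165.Pfx599 Crest.Agent.R165.Enx599 Matrix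

variable {ι : Type*} [Fintype ι] [DecidableEq ι]

/-- the quadratic form of the list -/
def qL (L : List (ℝ × (ι → ℝ) × (ι → ℝ))) : Gr (ι → ℝ) :=
  (L.map fun t => t.1 • (fi t.2.1 * fi t.2.2)).sum

theorem isExp_bE (L : List (ℝ × (ι → ℝ) × (ι → ℝ))) : IsExp (qL L) (bE L) := by
  induction L with
  | nil => exact IsExp.one
  | cons t L ih =>
    rw [bE_cons]
    have : qL (t :: L) = t.1 • (fi t.2.1 * fi t.2.2) + qL L := by simp [qL]
    rw [this]
    exact IsExp.mul (IsExp.bil _ _ _) ih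

/-- the accumulated antisymmetric matrix -/
def mL (L : List (ℝ × (ι → ℝ) × (ι → ℝ))) : Matrix ι ι ℝ :=
  (L.map fun t => t.1 • r2 t.2.1 t.2.2).sum

theorem aL_eq (A : Matrix ι ι ℝ) (L : List (ℝ × (ι → ℝ) × (ι → ℝ))) : aL A L = A + mL L := rfl

theorem mL_t (L : List (ℝ × (ι → ℝ) × (ι → ℝ))) : (mL L)ᵀ = -mL L := by
  induction L with
  | nil => simp [mL]
  | cons t L ih =>
    have : mL (t :: L) = t.1 • r2 t.2.1 t.2.2 + mL L := by simp [mL]
    rw [this, Matrix.transpose_add, ih, Matrix.transpose_smul, r2_t, smul_neg, neg_add]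

theorem aL_t {A : Matrix ι ι ℝ} (hA : Aᵀ = -A) (L : List (ℝ × (ι → ℝ) × (ι → ℝ))) :
    (aL A L)ᵀ = -aL A L := by
  rw [aL_eq, Matrix.transpose_add, hA, mL_t, neg_add]

/-- derivative field of the quadratic form -/
def yL (L : List (ℝ × (ι → ℝ) × (ι → ℝ))) (l : Module.Dual ℝ (ι → ℝ)) : ι → ℝ :=
  (L.map fun t => (t.1 * l t.2.1) • t.2.2 - (t.1 * l t.2.2) • t.2.1).sum

theorem dd_qL (L : List (ℝ × (ι → ℝ) × (ι → ℝ))) (l : Module.Dual ℝ (ι → ℝ)) :
    dd l (qL L) = fi (yL L l) := by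
  induction L with
  | nil => simp [qL, yL]
  | cons t L ih =>
    have h1 : qL (t :: L) = t.1 • (fi t.2.1 * fi t.2.2) + qL L := by simp [qL]
    have h2 : yL (t :: L) l = ((t.1 * l t.2.1) • t.2.2 - (t.1 * l t.2.2) • t.2.1) + yL L l := by
      simp [yL]
    rw [h1, h2, map_add, ih, fi_add]
    congr 1
    rw [map_smul, dd_fi_mul, dd_fi, ← Algebra.commutes, ← Algebra.smul_def]
    rw [show fi ((t.1 * l t.2.1) • t.2.2 - (t.1 * l t.2.2) • t.2.1)
        = (t.1 * l t.2.1) • fi t.2.2 - (t.1 * l t.2.2) • fi t.2.1 by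
      simp [fi, map_sub, map_smul]]
    rw [smul_sub, smul_smul, smul_smul]

/-- dual functional `x ↦ v ⬝ x` -/
def dl (v : ι → ℝ) : Module.Dual ℝ (ι → ℝ) := dotProductBilin ℝ ℝ v

@[simp] theorem dl_apply (v x : ι → ℝ) : dl v x = v ⬝ᵥ x := rfl

theorem yL_dl (L : List (ℝ × (ι → ℝ) × (ι → ℝ))) (l : Module.Dual ℝ (ι → ℝ)) (v : ι → ℝ)
    (hl : ∀ x, l x = v ⬝ᵥ x) : yL L l = -(mL L *ᵥ v) := by
  induction L with
  | nil => simp [yL, mL]
  | cons t L ih =>
    have h1 : mL (t :: L) = t.1 • r2 t.2.1 t.2.2 + mL L := by simp [mL]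
    have h2 : yL (t :: L) l = ((t.1 * l t.2.1) • t.2.2 - (t.1 * l t.2.2) • t.2.1) + yL L l := by
      simp [yL]
    rw [h1, h2, ih, Matrix.add_mulVec, Matrix.smul_mulVec, r2_mulVec, neg_add, hl, hl,
      dotProduct_comm v, dotProduct_comm v, smul_sub, smul_smul, smul_smul]
    abel

/-- **reweighting by the whole list** -/
theorem reweight_list {A : Matrix ι ι ℝ} (hA : Aᵀ = -A) (hd : A.det ≠ 0)
    (L : List (ℝ × (ι → ℝ) × (ι → ℝ))) (hd' : (aL A L).det ≠ 0) (F : Gr (ι → ℝ)) :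
    EE (cI A) (bE L * F) = EE (cI A) (bE L) * EE (cI (aL A L)) F := by
  have hA' := aL_t hA L
  have hu : IsUnit A.det := isUnit_iff_ne_zero.2 hd
  have hu' : IsUnit (aL A L).det := isUnit_iff_ne_zero.2 hd'
  refine reweight (cI A) (cI (aL A L)) (qL L) _ (isExp_bE L) (yL L) (dd_qL L) ?_ F
  intro z
  set v : ι → ℝ := (aL A L)⁻¹ *ᵥ z with hv
  have hz : (aL A L) *ᵥ v = z := by
    rw [hv, Matrix.mulVec_mulVec, Matrix.mul_nonsing_inv _ hu', Matrix.one_mulVec]
  have h1 : A⁻¹ *ᵥ (A *ᵥ v) = v := by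
    rw [Matrix.mulVec_mulVec, Matrix.nonsing_inv_mul _ hu, Matrix.one_mulVec]
  refine ⟨A *ᵥ v, ?_, ?_⟩
  · rw [yL_dl L _ v (fun x => by rw [cI_b' hA, h1]), ← hz, aL_eq, Matrix.add_mulVec, sub_neg_eq_add]
  · ext i
    simp only [LinearMap.comp_apply]
    rw [cI_b' hA', cI_b' hA, h1]

/-- Gaussian convolution with a rank-two covariance -/
theorem conv_wedge (l m : Module.Dual ℝ (ι → ℝ)) (F : Gr (ι → ℝ)) :
    conv (wedge l m) F = F + dd m (dd l F) := by
  induction F using Gr.induction with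
  | h0 r => simp
  | h1 x a ih =>
    have hb : (wedge l m).b x = l x • m - m x • l := by
      ext i; simp [wedge]
    rw [conv_fi_mul, ih, hb, dd_fi_mul, map_sub, map_smul, dd_fi_mul]
    have e1 : ∀ c : Gr (ι → ℝ), dd (l x • m - m x • l) c = l x • dd m c - m x • dd l c := by
      intro c; simp [dd, sub_eq_add_neg]
    rw [e1, map_add, map_add, dd_dd_self m, dd_dd_anti l m (dd l a), dd_dd_self l a]
    simp only [add_zero, map_zero, neg_zero, mul_add]
    abel
  | h2 a b iha ihb => simp only [map_add, iha, ihb]; abel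

/-- data of a two-dimensional kernel with a pseudo-inverse -/
structure Ker2 (A B : Matrix ι ι ℝ) (u1 u2 : ι → ℝ) : Prop where
  anti : Aᵀ = -A
  banti : Bᵀ = -B
  a1 : A *ᵥ u1 = 0
  a2 : A *ᵥ u2 = 0
  b1 : B *ᵥ u1 = 0
  b2 : B *ᵥ u2 = 0
  n1 : u1 ⬝ᵥ u1 = 1
  n2 : u2 ⬝ᵥ u2 = 1
  o : u1 ⬝ᵥ u2 = 0
  ab : A * B = 1 - vecMulVec u1 u1 - vecMulVec u2 u2

theorem Ker2.mul_inv {A B : Matrix ι ι ℝ} {u1 u2 : ι → ℝ} (h : Ker2 A B u1 u2) {t : ℝ}
    (ht : t ≠ 0) : (A + t • r2 u1 u2) * (B + t⁻¹ • r2 u2 u1) = 1 := by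
  have e1 : A * r2 u2 u1 = 0 := by
    rw [r2, Matrix.mul_sub, Matrix.mul_vecMulVec, Matrix.mul_vecMulVec, h.a1, h.a2]
    ext i j; simp
  have e2 : r2 u1 u2 * B = 0 := by
    have hb : ∀ u : ι → ℝ, B *ᵥ u = 0 → u ᵥ* B = 0 := by
      intro u hu
      rw [← Matrix.mulVec_transpose, h.banti, Matrix.neg_mulVec, hu, neg_zero]
    rw [r2, Matrix.sub_mul, Matrix.vecMulVec_mul, Matrix.vecMulVec_mul, hb _ h.b1, hb _ h.b2]
    ext i j; simp
  have e3 : r2 u1 u2 * r2 u2 u1 = vecMulVec u1 u1 + vecMulVec u2 u2 := by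
    have h21 : u2 ⬝ᵥ u1 = 0 := by rw [dotProduct_comm]; exact h.o
    simp only [r2, Matrix.sub_mul, Matrix.mul_sub, Matrix.vecMulVec_mul_vecMulVec, h.n1, h.n2, h.o,
      h21]
    simp
  rw [Matrix.add_mul, Matrix.mul_add, Matrix.mul_add, Matrix.mul_smul, e1, smul_zero,
    Matrix.smul_mul, e2, smul_zero, Matrix.smul_mul, Matrix.mul_smul, smul_smul,
    mul_inv_cancel₀ ht, one_smul, e3, h.ab]
  abel

/-- **the exact formula in the presence of two zero modes.** -/
theorem zero_mode {A0 : Matrix ι ι ℝ} (hA0 : A0ᵀ = -A0) (hd0 : A0.det ≠ 0)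
    (L : List (ℝ × (ι → ℝ) × (ι → ℝ))) {B : Matrix ι ι ℝ} {u1 u2 : ι → ℝ}
    (h : Ker2 (aL A0 L) B u1 u2) (F : Gr (ι → ℝ)) :
    EE (cI A0) (bE L * F)
      = EE (cI A0) (bE L * (fi u1 * fi u2)) * EE (cv (-B)) (dd (dl u2) (dd (dl u1) F)) := by
  -- vanishing of the partition function
  have hdet : (aL A0 L).det = 0 := by
    by_contra hne
    have hun : IsUnit (aL A0 L).det := isUnit_iff_ne_zero.2 hne
    have : u1 = 0 := by
      have := congrArg (fun v => (aL A0 L)⁻¹ *ᵥ v) h.a1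
      simp only [Matrix.mulVec_mulVec, Matrix.nonsing_inv_mul _ hun, Matrix.one_mulVec,
        Matrix.mulVec_zero] at this
      exact this
    have h1 := h.n1
    rw [this] at h1
    simp at h1
  have hZ0 : EE (cI A0) (bE L) = 0 := by
    have := pf_sq hA0 hd0 L
    rw [hdet] at this
    have := (mul_eq_zero.1 this).resolve_right hd0
    exact pow_eq_zero_iff (two_ne_zero) |>.1 this
  -- the perturbed identity
  have key : ∀ t : ℝ, t ≠ 0 →
      EE (cI A0) (bE L * F) + t * EE (cI A0) (bE L * (fi u1 * fi u2) * F)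
        = t * EE (cI A0) (bE L * (fi u1 * fi u2)) * EE (cv (-B)) F
          + EE (cI A0) (bE L * (fi u1 * fi u2)) * EE (cv (-B)) (dd (dl u2) (dd (dl u1) F)) := by
    intro t ht
    have hmi := h.mul_inv ht
    have hdt : (aL A0 (L ++ [(t, u1, u2)])).det ≠ 0 := by
      have e : aL A0 (L ++ [(t, u1, u2)]) = aL A0 L + t • r2 u1 u2 := by
        simp [aL, add_assoc]
      rw [e]
      have := congrArg Matrix.det hmi
      rw [Matrix.det_mul, Matrix.det_one] at this
      exact left_ne_zero_of_mul_eq_one this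
    have e : aL A0 (L ++ [(t, u1, u2)]) = aL A0 L + t • r2 u1 u2 := by
      simp [aL, add_assoc]
    have e2 : bE (L ++ [(t, u1, u2)]) = bE L * (1 + t • (fi u1 * fi u2)) := by
      simp [bE]
    have h1 := reweight_list hA0 hd0 (L ++ [(t, u1, u2)]) hdt F
    have hcov : cI (aL A0 (L ++ [(t, u1, u2)])) = cv (-B) + wedge (t⁻¹ • dl u1) (dl u2) := by
      have hanti : (aL A0 (L ++ [(t, u1, u2)]))ᵀ = -aL A0 (L ++ [(t, u1, u2)]) := aL_t hA0 _
      have hinv : (aL A0 (L ++ [(t, u1, u2)]))⁻¹ = B + t⁻¹ • r2 u2 u1 := by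
        rw [e]; exact Matrix.inv_eq_right_inv hmi
      have hnb : (-B)ᵀ = -(-B) := by rw [Matrix.transpose_neg, h.banti]
      apply Cov.ext
      refine LinearMap.ext₂ fun x y => ?_
      rw [cI_b hanti, hinv, Cov.add_b, LinearMap.add_apply, LinearMap.add_apply, cv_b hnb,
        wedge_b, Matrix.add_mulVec, Matrix.smul_mulVec, r2_mulVec, Matrix.neg_mulVec]
      simp only [dotProduct_add, dotProduct_neg, dotProduct_smul, dotProduct_sub, smul_eq_mul,
        LinearMap.smul_apply, dl_apply]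
      rw [dotProduct_comm x u1, dotProduct_comm x u2]
      ring
    rw [hcov, e2, ← EE_conv, conv_wedge] at h1
    rw [mul_add (bE L), mul_one, add_mul, map_add, mul_smul_comm, smul_mul_assoc, map_smul,
      map_add, map_smul, hZ0, zero_add, smul_eq_mul, smul_eq_mul, map_add] at h1
    rw [h1]
    have hs : dd (dl u2) (dd (t⁻¹ • dl u1) F) = t⁻¹ • dd (dl u2) (dd (dl u1) F) := by
      rw [dd_smul_left, map_smul]
    rw [hs, map_smul, smul_eq_mul]
    field_simp
  have k1 := key 1 one_ne_zero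
  have k2 := key 2 two_ne_zero
  linarith

/-- the square of the reduced partition function -/
theorem zero_mode_sq {A0 : Matrix ι ι ℝ} (hA0 : A0ᵀ = -A0) (hd0 : A0.det ≠ 0)
    (L : List (ℝ × (ι → ℝ) × (ι → ℝ))) {B : Matrix ι ι ℝ} {u1 u2 : ι → ℝ}
    (h : Ker2 (aL A0 L) B u1 u2) (t : ℝ) :
    t ^ 2 * (EE (cI A0) (bE L * (fi u1 * fi u2))) ^ 2 * A0.det
      = (aL A0 L + t • r2 u1 u2).det := by
  have hdet : (aL A0 L).det = 0 := by
    by_contra hne
    have hun : IsUnit (aL A0 L).det := isUnit_iff_ne_zero.2 hne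
    have : u1 = 0 := by
      have := congrArg (fun v => (aL A0 L)⁻¹ *ᵥ v) h.a1
      simp only [Matrix.mulVec_mulVec, Matrix.nonsing_inv_mul _ hun, Matrix.one_mulVec,
        Matrix.mulVec_zero] at this
      exact this
    have h1 := h.n1
    rw [this] at h1
    simp at h1
  have hZ0 : EE (cI A0) (bE L) = 0 := by
    have := pf_sq hA0 hd0 L
    rw [hdet] at this
    have := (mul_eq_zero.1 this).resolve_right hd0
    exact pow_eq_zero_iff (two_ne_zero) |>.1 this
  have e : aL A0 (L ++ [(t, u1, u2)]) = aL A0 L + t • r2 u1 u2 := by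
    simp [aL, add_assoc]
  have e2 : bE (L ++ [(t, u1, u2)]) = bE L * (1 + t • (fi u1 * fi u2)) := by
    simp [bE]
  have h1 := pf_sq hA0 hd0 (L ++ [(t, u1, u2)])
  rw [e, e2, mul_add (bE L), mul_one, mul_smul_comm, map_add, map_smul, hZ0, zero_add,
    smul_eq_mul] at h1
  rw [← h1]; ring

end Crest.Agent.R165.PfZx599
end
end

-- ▼ part R165/TorSec_599
section

/-!
Row 165, leaf T (helper599): the four torus sectors.  Positivity of the sector partition
functions, their squares as products, and the exact formula and bound for the doubly periodic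
sector at the critical weight.
-/

set_option autoImplicit false
set_option linter.unusedSectionVars false

noncomputable section

namespace Crest.Agent.R165.TorSecx599

open Crest.Agent.R165.Gr0x606 Crest.Agent.R165.Pfx599 Crest.Agent.R165.PfZx599
open Crest.Agent.R165.TorDetx599 Crest.Agent.R165.TorProdx599 Matrix

/-! ### bonds -/

variable {G : Type*} [AddCommGroupWithOne G] [DecidableEq G]

/-- first half-edge of a bond -/
def hp (b : (G × G) × Fin 2) : HE G := if b.2 = 1 then (b.1 - (1, 0), 1) else (b.1, 0)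

/-- second half-edge of a bond -/
def hq (b : (G × G) × Fin 2) : HE G := if b.2 = 1 then (b.1, 3) else (b.1 - (0, 1), 2)

/-- basis field of a half-edge -/
def bs (h : HE G) : HE G → ℝ := Pi.single h 1

/-- list of bond terms -/
def bl [Fintype G] (w : G × G → Fin 2 → ℝ) : List (ℝ × (HE G → ℝ) × (HE G → ℝ)) :=
  (Finset.univ : Finset ((G × G) × Fin 2)).toList.map fun b => (w b.1 b.2, bs (hp b), bs (hq b))

theorem r2_bs (h k a b : HE G) : r2 (bs h) (bs k) a b
    = (if a = h ∧ b = k then 1 else 0) - (if a = k ∧ b = h then 1 else 0) := by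
  simp only [r2, bs, Matrix.sub_apply, vecMulVec_apply, Pi.single_apply]
  congr 1
  · by_cases h1 : a = h <;> by_cases h2 : b = k <;> simp [h1, h2]
  · by_cases h1 : a = k <;> by_cases h2 : b = h <;> simp [h1, h2]

theorem mL_bl [Fintype G] (w : G × G → Fin 2 → ℝ) :
    mL (bl w) = ∑ b : (G × G) × Fin 2, w b.1 b.2 • r2 (bs (hp b)) (bs (hq b)) := by
  rw [mL, bl, List.map_map]
  have := Finset.sum_map_toList (Finset.univ : Finset ((G × G) × Fin 2))
    (fun b => w b.1 b.2 • r2 (bs (hp b)) (bs (hq b)))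
  rw [← this]
  rfl

theorem hA_eq [Fintype G] (w : G × G → Fin 2 → ℝ) : hA w = aL (hA 0) (bl w) := by
  rw [aL_eq, mL_bl]
  ext h k
  obtain ⟨h, a⟩ := h
  obtain ⟨k, b⟩ := k
  rw [Matrix.add_apply, Matrix.sum_apply]
  simp only [Matrix.smul_apply, smul_eq_mul, r2_bs]
  rw [Fintype.sum_prod_type]
  simp only [Fin.sum_univ_two, Finset.sum_add_distrib]
  have j0 : ∀ z : G × G, hp (z, (0 : Fin 2)) = (z, 0) := fun z => rfl
  have j1 : ∀ z : G × G, hp (z, (1 : Fin 2)) = (z - (1, 0), 1) := fun z => rfl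
  have j2 : ∀ z : G × G, hq (z, (0 : Fin 2)) = (z - (0, 1), 2) := fun z => rfl
  have j3 : ∀ z : G × G, hq (z, (1 : Fin 2)) = (z, 3) := fun z => rfl
  simp only [j0, j1, j2, j3, Prod.mk.injEq]
  have k1 : ∑ z : G × G, w z 1 * ((if ((h = z - (1, 0) ∧ a = 1) ∧ k = z ∧ b = 3) then (1:ℝ) else 0)
      - (if ((h = z ∧ a = 3) ∧ k = z - (1, 0) ∧ b = 1) then 1 else 0))
      = (if a = 1 ∧ b = 3 ∧ k = h + (1, 0) then w k 1 else 0)
        - (if a = 3 ∧ b = 1 ∧ h = k + (1, 0) then w h 1 else 0) := by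
    simp only [mul_sub, Finset.sum_sub_distrib]
    congr 1
    · rw [Finset.sum_eq_single k]
      · have : ((h = k - (1, 0) ∧ a = 1) ∧ k = k ∧ b = 3) ↔ (a = 1 ∧ b = 3 ∧ k = h + (1, 0)) := by
          constructor
          · rintro ⟨⟨h1, h2⟩, _, h3⟩; exact ⟨h2, h3, by rw [h1]; abel⟩
          · rintro ⟨h1, h2, h3⟩; exact ⟨⟨by rw [h3]; abel, h1⟩, rfl, h2⟩
        rw [if_congr this rfl rfl]
        split_ifs <;> simp
      · intro z _ hz
        have : ¬ ((h = z - (1, 0) ∧ a = 1) ∧ k = z ∧ b = 3) := fun hh => hz hh.2.1.symm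
        rw [if_neg this, mul_zero]
      · intro h'; exact absurd (Finset.mem_univ _) h'
    · rw [Finset.sum_eq_single h]
      · have : ((h = h ∧ a = 3) ∧ k = h - (1, 0) ∧ b = 1) ↔ (a = 3 ∧ b = 1 ∧ h = k + (1, 0)) := by
          constructor
          · rintro ⟨⟨_, h2⟩, h3, h4⟩; exact ⟨h2, h4, by rw [h3]; abel⟩
          · rintro ⟨h1, h2, h3⟩; exact ⟨⟨rfl, h1⟩, by rw [h3]; abel, h2⟩
        rw [if_congr this rfl rfl]
        split_ifs <;> simp
      · intro z _ hz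
        have : ¬ ((h = z ∧ a = 3) ∧ k = z - (1, 0) ∧ b = 1) := fun hh => hz hh.1.1.symm
        rw [if_neg this, mul_zero]
      · intro h'; exact absurd (Finset.mem_univ _) h'
  have k0 : ∑ z : G × G, w z 0 * ((if ((h = z ∧ a = 0) ∧ k = z - (0, 1) ∧ b = 2) then (1:ℝ) else 0)
      - (if ((h = z - (0, 1) ∧ a = 2) ∧ k = z ∧ b = 0) then 1 else 0))
      = (if a = 0 ∧ b = 2 ∧ h = k + (0, 1) then w h 0 else 0)
        - (if a = 2 ∧ b = 0 ∧ k = h + (0, 1) then w k 0 else 0) := by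
    simp only [mul_sub, Finset.sum_sub_distrib]
    congr 1
    · rw [Finset.sum_eq_single h]
      · have : ((h = h ∧ a = 0) ∧ k = h - (0, 1) ∧ b = 2) ↔ (a = 0 ∧ b = 2 ∧ h = k + (0, 1)) := by
          constructor
          · rintro ⟨⟨_, h2⟩, h3, h4⟩; exact ⟨h2, h4, by rw [h3]; abel⟩
          · rintro ⟨h1, h2, h3⟩; exact ⟨⟨rfl, h1⟩, by rw [h3]; abel, h2⟩
        rw [if_congr this rfl rfl]
        split_ifs <;> simp
      · intro z _ hz
        have : ¬ ((h = z ∧ a = 0) ∧ k = z - (0, 1) ∧ b = 2) := fun hh => hz hh.1.1.symm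
        rw [if_neg this, mul_zero]
      · intro h'; exact absurd (Finset.mem_univ _) h'
    · rw [Finset.sum_eq_single k]
      · have : ((h = k - (0, 1) ∧ a = 2) ∧ k = k ∧ b = 0) ↔ (a = 2 ∧ b = 0 ∧ k = h + (0, 1)) := by
          constructor
          · rintro ⟨⟨h1, h2⟩, _, h3⟩; exact ⟨h2, h3, by rw [h1]; abel⟩
          · rintro ⟨h1, h2, h3⟩; exact ⟨⟨by rw [h3]; abel, h1⟩, rfl, h2⟩
        rw [if_congr this rfl rfl]
        split_ifs <;> simp
      · intro z _ hz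
        have : ¬ ((h = z - (0, 1) ∧ a = 2) ∧ k = z ∧ b = 0) := fun hh => hz hh.2.1.symm
        rw [if_neg this, mul_zero]
      · intro h'; exact absurd (Finset.mem_univ _) h'
  rw [k0, k1]
  simp only [hA, Matrix.of_apply, Pi.zero_apply, ite_self, sub_zero, add_zero]
  ring

/-! ### sectors -/

variable (M : ℕ) [NeZero M]

theorem sc_bl (t x ε₁ ε₂ : ℝ) : sc t (bl (wS M x ε₁ ε₂)) = bl (wS M (t * x) ε₁ ε₂) := by
  rw [sc, bl, bl, List.map_map]
  congr 1
  funext b
  simp only [Function.comp_apply, wS, mul_assoc]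

theorem wS_zero (ε₁ ε₂ : ℝ) : wS M 0 ε₁ ε₂ = 0 := by
  funext z j; simp [wS]

theorem det_hA_zero : (hA (0 : ZMod M × ZMod M → Fin 2 → ℝ)).det = 1 := by
  have := det_sector M 0 0 0 1 1 (by simp) (by norm_num) (by simp) (by norm_num)
  rw [wS_zero] at this
  rw [this]; simp

/-- sector partition function -/
def ZZ (x ε₁ ε₂ : ℝ) : ℝ := EE (cI (hA (0 : ZMod M × ZMod M → Fin 2 → ℝ))) (bE (bl (wS M x ε₁ ε₂)))

theorem ZZ_sq (x ε₁ ε₂ : ℝ) : (ZZ M x ε₁ ε₂) ^ 2 = (hA (wS M x ε₁ ε₂)).det := by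
  have := pf_sq (hA_t (0 : ZMod M × ZMod M → Fin 2 → ℝ)) (by rw [det_hA_zero]; norm_num)
    (bl (wS M x ε₁ ε₂))
  rw [det_hA_zero, mul_one, ← hA_eq] at this
  exact this

theorem factor_ge (x a b : ℝ) :
    (x ^ 2 + 2 * x - 1) ^ 2 + 2 * x * (1 - x ^ 2) * (2 - a - b)
      = (1 + x ^ 2) ^ 2 - 2 * x * (1 - x ^ 2) * (a + b) := by ring

theorem factor_pos {x a b : ℝ} (hx : 0 ≤ x) (hx1 : x < Real.sqrt 2 - 1) (ha : a ≤ 1) (hb : b ≤ 1) :
    0 < (1 + x ^ 2) ^ 2 - 2 * x * (1 - x ^ 2) * (a + b) := by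
  have h2 : Real.sqrt 2 ^ 2 = 2 := Real.sq_sqrt (by norm_num)
  have hs : Real.sqrt 2 < 2 := by nlinarith [Real.sqrt_nonneg 2]
  have hx2 : x < 1 := by linarith
  rw [← factor_ge]
  have h3 : x ^ 2 + 2 * x - 1 < 0 := by
    have : (x + 1) ^ 2 < 2 := by
      have : x + 1 < Real.sqrt 2 := by linarith
      nlinarith [Real.sqrt_nonneg 2]
    nlinarith
  have h4 : 0 < (x ^ 2 + 2 * x - 1) ^ 2 := by nlinarith
  have h5 : 0 ≤ 2 * x * (1 - x ^ 2) * (2 - a - b) := by
    have : 0 ≤ 1 - x ^ 2 := by nlinarith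
    have : 0 ≤ 2 - a - b := by linarith
    positivity
  linarith

theorem cos_lt_one_of_odd (k : ℕ) (hk : k < M) :
    Real.cos ((2 * Real.pi * k + Real.pi) / M) < 1 := by
  have hM : (0:ℝ) < M := by exact_mod_cast NeZero.pos M
  have hk' : (k:ℝ) + 1 ≤ M := by exact_mod_cast hk
  have hk0 : (0:ℝ) ≤ k := Nat.cast_nonneg k
  have hpi := Real.pi_pos
  set α := (2 * Real.pi * k + Real.pi) / M with hα
  have h1 : 0 < α := by positivity
  have h2 : α < 2 * Real.pi := by
    rw [hα, div_lt_iff₀ hM]; nlinarith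
  rcases lt_or_eq_of_le (Real.cos_le_one α) with h | h
  · exact h
  · exfalso
    rw [Real.cos_eq_one_iff_of_lt_of_lt (by linarith) h2] at h
    linarith

/-- the critical weight -/
def xc : ℝ := Real.sqrt 2 - 1

theorem xc_pos : 0 < xc := by
  have : (1:ℝ) < Real.sqrt 2 := by
    rw [Real.lt_sqrt (by norm_num)]; norm_num
  unfold xc; linarith


theorem xc_eq : xc ^ 2 + 2 * xc - 1 = 0 := by
  have h2 : Real.sqrt 2 ^ 2 = 2 := Real.sq_sqrt (by norm_num)
  unfold xc; nlinarith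

theorem factor_crit (a b : ℝ) : (1 + xc ^ 2) ^ 2 - 2 * xc * (1 - xc ^ 2) * (a + b)
    = 2 * xc ^ 2 * (4 - 2 * a - 2 * b) := by
  have h := xc_eq
  have h1 : xc ^ 2 = 1 - 2 * xc := by linarith
  have h2 : 1 - xc ^ 2 = 2 * xc := by linarith
  rw [h2]
  have h3 : (1 + xc ^ 2) ^ 2 = 8 * xc ^ 2 := by
    rw [h1]; nlinarith
  rw [h3]; ring

/-- admissible boundary twist: `θ ∈ {0, π}` with sign `ε` -/
structure Tw (θ ε : ℝ) : Prop where
  e : Complex.exp (θ * Complex.I) = ε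
  s : ε * ε = 1

theorem tw_P : Tw 0 1 := ⟨by simp, by norm_num⟩
theorem tw_A : Tw Real.pi (-1) := ⟨by rw [Complex.exp_pi_mul_I]; simp, by norm_num⟩

theorem ZZ_sq' {θ₁ θ₂ ε₁ ε₂ : ℝ} (h1 : Tw θ₁ ε₁) (h2 : Tw θ₂ ε₂) (x : ℝ) :
    (ZZ M x ε₁ ε₂) ^ 2 = ∏ p : ZMod M × ZMod M,
      ((1 + x ^ 2) ^ 2 - 2 * x * (1 - x ^ 2) * (Real.cos ((2 * Real.pi * p.1.val + θ₁) / M)
        + Real.cos ((2 * Real.pi * p.2.val + θ₂) / M))) := by
  rw [ZZ_sq, det_sector M x θ₁ θ₂ ε₁ ε₂ h1.e h1.s h2.e h2.s]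


theorem det_crit_pos {θ₁ θ₂ ε₁ ε₂ : ℝ} (h1 : Tw θ₁ ε₁) (h2 : Tw θ₂ ε₂)
    (hne : θ₁ = Real.pi ∨ θ₂ = Real.pi) : 0 < (hA (wS M xc ε₁ ε₂)).det := by
  rw [det_sector M xc θ₁ θ₂ ε₁ ε₂ h1.e h1.s h2.e h2.s]
  refine Finset.prod_pos fun p _ => ?_
  rw [factor_crit]
  have hx := xc_pos
  have hc1 := Real.cos_le_one ((2 * Real.pi * p.1.val + θ₁) / M)
  have hc2 := Real.cos_le_one ((2 * Real.pi * p.2.val + θ₂) / M)
  rcases hne with h | h
  · subst h
    have := cos_lt_one_of_odd M p.1.val (ZMod.val_lt _)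
    have h3 : 0 < 4 - 2 * Real.cos ((2 * Real.pi * p.1.val + Real.pi) / M)
      - 2 * Real.cos ((2 * Real.pi * p.2.val + θ₂) / M) := by linarith
    positivity
  · subst h
    have := cos_lt_one_of_odd M p.2.val (ZMod.val_lt _)
    have h3 : 0 < 4 - 2 * Real.cos ((2 * Real.pi * p.1.val + θ₁) / M)
      - 2 * Real.cos ((2 * Real.pi * p.2.val + Real.pi) / M) := by linarith
    positivity

/-- positivity at the critical weight in the three sectors with an antiperiodic direction -/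
theorem ZZ_pos_crit {θ₁ θ₂ ε₁ ε₂ : ℝ} (h1 : Tw θ₁ ε₁) (h2 : Tw θ₂ ε₂)
    (hne : θ₁ = Real.pi ∨ θ₂ = Real.pi) : 0 < ZZ M xc ε₁ ε₂ := by
  refine EE_bE_pos (hA_t _) (by rw [det_hA_zero]; norm_num) _ ?_
  intro t ht
  rw [sc_bl, ← hA_eq]
  rcases eq_or_lt_of_le ht.2 with h | h
  · rw [h, one_mul]; exact (det_crit_pos M h1 h2 hne).ne'
  · rw [det_sector M (t * xc) θ₁ θ₂ ε₁ ε₂ h1.e h1.s h2.e h2.s]
    refine (Finset.prod_pos fun p _ => ?_).ne'
    refine factor_pos (mul_nonneg ht.1 xc_pos.le) ?_ (Real.cos_le_one _) (Real.cos_le_one _)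
    have : t * xc < xc := by nlinarith [ht.1, ht.2, xc_pos]
    exact this

/-! ### the doubly periodic sector -/

/-- first zero mode on a face -/
def m1 : Fin 4 → ℝ := ![-(Real.sqrt 2 / 2), 1, -(Real.sqrt 2 / 2), 0]
/-- second zero mode on a face -/
def m2 : Fin 4 → ℝ := ![-(Real.sqrt 2 / 2), 0, Real.sqrt 2 / 2, -1]

/-- normalised zero modes -/
def u1 (h : HE (ZMod M)) : ℝ := m1 h.2 / (Real.sqrt 2 * M)
/-- normalised zero modes -/
def u2 (h : HE (ZMod M)) : ℝ := m2 h.2 / (Real.sqrt 2 * M)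

theorem hA_mulVec_face (w : ZMod M × ZMod M → Fin 2 → ℝ) (φ : HE (ZMod M) → ℝ)
    (f : ZMod M × ZMod M) (a : Fin 4) : (hA w *ᵥ φ) (f, a)
      = (∑ b : Fin 4, sgn4 a b * φ (f, b))
        + ((if a = 1 then w (f + (1, 0)) 1 * φ (f + (1, 0), 3) else 0)
          - (if a = 3 then w f 1 * φ (f - (1, 0), 1) else 0))
        + ((if a = 0 then w f 0 * φ (f - (0, 1), 2) else 0)
          - (if a = 2 then w (f + (0, 1)) 0 * φ (f + (0, 1), 0) else 0)) := by
  rw [Matrix.mulVec, dotProduct, Fintype.sum_prod_type]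
  simp only [hA, Matrix.of_apply, add_mul, sub_mul, Finset.sum_add_distrib, Finset.sum_sub_distrib]
  have e0 : ∑ g : ZMod M × ZMod M, ∑ b : Fin 4, (if f = g then sgn4 a b else 0) * φ (g, b)
      = ∑ b : Fin 4, sgn4 a b * φ (f, b) := by
    rw [Finset.sum_eq_single f]
    · simp
    · intro g _ hg; simp
      intro h; exact absurd h.symm hg
    · intro h; exact absurd (Finset.mem_univ _) h
  have e1 : ∑ g : ZMod M × ZMod M, ∑ b : Fin 4,
      (if a = 1 ∧ b = 3 ∧ g = f + (1, 0) then w g 1 else 0) * φ (g, b)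
      = if a = 1 then w (f + (1, 0)) 1 * φ (f + (1, 0), 3) else 0 := by
    rw [Finset.sum_eq_single (f + (1, 0))]
    · rw [Finset.sum_eq_single 3]
      · by_cases h : a = 1 <;> simp [h]
      · intro b _ hb; simp [hb]
      · intro h; exact absurd (Finset.mem_univ _) h
    · intro g _ hg; simp [hg]
    · intro h; exact absurd (Finset.mem_univ _) h
  have e2 : ∑ g : ZMod M × ZMod M, ∑ b : Fin 4,
      (if a = 3 ∧ b = 1 ∧ f = g + (1, 0) then w f 1 else 0) * φ (g, b)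
      = if a = 3 then w f 1 * φ (f - (1, 0), 1) else 0 := by
    rw [Finset.sum_eq_single (f - (1, 0))]
    · rw [Finset.sum_eq_single 1]
      · by_cases h : a = 3 <;> simp [h]
      · intro b _ hb; simp [hb]
      · intro h; exact absurd (Finset.mem_univ _) h
    · intro g _ hg
      have : ¬ (f = g + (1, 0)) := fun h => hg (by rw [h]; abel)
      simp [this]
    · intro h; exact absurd (Finset.mem_univ _) h
  have e3 : ∑ g : ZMod M × ZMod M, ∑ b : Fin 4,
      (if a = 0 ∧ b = 2 ∧ f = g + (0, 1) then w f 0 else 0) * φ (g, b)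
      = if a = 0 then w f 0 * φ (f - (0, 1), 2) else 0 := by
    rw [Finset.sum_eq_single (f - (0, 1))]
    · rw [Finset.sum_eq_single 2]
      · by_cases h : a = 0 <;> simp [h]
      · intro b _ hb; simp [hb]
      · intro h; exact absurd (Finset.mem_univ _) h
    · intro g _ hg
      have : ¬ (f = g + (0, 1)) := fun h => hg (by rw [h]; abel)
      simp [this]
    · intro h; exact absurd (Finset.mem_univ _) h
  have e4 : ∑ g : ZMod M × ZMod M, ∑ b : Fin 4,
      (if a = 2 ∧ b = 0 ∧ g = f + (0, 1) then w g 0 else 0) * φ (g, b)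
      = if a = 2 then w (f + (0, 1)) 0 * φ (f + (0, 1), 0) else 0 := by
    rw [Finset.sum_eq_single (f + (0, 1))]
    · rw [Finset.sum_eq_single 0]
      · by_cases h : a = 2 <;> simp [h]
      · intro b _ hb; simp [hb]
      · intro h; exact absurd (Finset.mem_univ _) h
    · intro g _ hg; simp [hg]
    · intro h; exact absurd (Finset.mem_univ _) h
  rw [e0, e1, e2, e3, e4]

theorem wS_PP (x : ℝ) (z : ZMod M × ZMod M) (j : Fin 2) : wS M x 1 1 z j = x := by
  simp [wS]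

theorem hA_u1 : hA (wS M xc 1 1) *ᵥ u1 M = 0 := by
  have hs : Real.sqrt 2 ^ 2 = 2 := Real.sq_sqrt (by norm_num)
  have hM : (M:ℝ) ≠ 0 := by exact_mod_cast NeZero.ne M
  ext ⟨f, a⟩
  rw [hA_mulVec_face]
  simp only [wS_PP, u1, Pi.zero_apply, Fin.sum_univ_four]
  have hden : Real.sqrt 2 * (M:ℝ) ≠ 0 := by positivity
  fin_cases a <;> simp [m1, sgn4, xc] <;> field_simp <;> nlinarith

theorem hA_u2 : hA (wS M xc 1 1) *ᵥ u2 M = 0 := by
  have hs : Real.sqrt 2 ^ 2 = 2 := Real.sq_sqrt (by norm_num)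
  have hM : (M:ℝ) ≠ 0 := by exact_mod_cast NeZero.ne M
  ext ⟨f, a⟩
  rw [hA_mulVec_face]
  simp only [wS_PP, u2, Pi.zero_apply, Fin.sum_univ_four]
  have hden : Real.sqrt 2 * (M:ℝ) ≠ 0 := by positivity
  fin_cases a <;> simp [m2, sgn4, xc] <;> field_simp <;> nlinarith

theorem dot_u (m n : Fin 4 → ℝ) :
    (fun h : HE (ZMod M) => m h.2 / (Real.sqrt 2 * M)) ⬝ᵥ (fun h => n h.2 / (Real.sqrt 2 * M))
      = (∑ a, m a * n a) / 2 := by
  have hs : Real.sqrt 2 ^ 2 = 2 := Real.sq_sqrt (by norm_num)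
  have hM : (M:ℝ) ≠ 0 := by exact_mod_cast NeZero.ne M
  rw [dotProduct, Fintype.sum_prod_type]
  simp only [Finset.sum_const, Finset.card_univ, Fintype.card_prod, ZMod.card, nsmul_eq_mul]
  have : ∀ a : Fin 4, m a / (Real.sqrt 2 * M) * (n a / (Real.sqrt 2 * M)) = m a * n a * (1 / (2 * M ^ 2)) := by
    intro a; field_simp; rw [hs]; ring
  rw [Finset.sum_congr rfl fun a _ => this a, ← Finset.sum_mul]
  push_cast; field_simp

theorem n1 : u1 M ⬝ᵥ u1 M = 1 := by
  have hs : Real.sqrt 2 ^ 2 = 2 := Real.sq_sqrt (by norm_num)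
  have := dot_u M m1 m1
  refine this.trans ?_
  simp [m1, Fin.sum_univ_four]; nlinarith

theorem n2 : u2 M ⬝ᵥ u2 M = 1 := by
  have hs : Real.sqrt 2 ^ 2 = 2 := Real.sq_sqrt (by norm_num)
  have := dot_u M m2 m2
  refine this.trans ?_
  simp [m2, Fin.sum_univ_four]; nlinarith

theorem n12 : u1 M ⬝ᵥ u2 M = 0 := by
  have := dot_u M m1 m2
  refine this.trans ?_
  simp [m1, m2, Fin.sum_univ_four]

/-- pseudo-inverse from a regularised inverse -/
theorem ker2_of {ι : Type*} [Fintype ι] [DecidableEq ι] {A : Matrix ι ι ℝ} (hA : Aᵀ = -A)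
    {a b : ι → ℝ} (ha : A *ᵥ a = 0) (hb : A *ᵥ b = 0) (haa : a ⬝ᵥ a = 1) (hbb : b ⬝ᵥ b = 1)
    (hab : a ⬝ᵥ b = 0) (hd : (A + r2 a b).det ≠ 0) :
    Ker2 A ((A + r2 a b)⁻¹ - r2 b a) a b := by
  have hba : b ⬝ᵥ a = 0 := by rw [dotProduct_comm]; exact hab
  set A1 := A + r2 a b with hA1
  have hA1t : A1ᵀ = -A1 := by rw [hA1, Matrix.transpose_add, hA, r2_t, neg_add]
  have hu : IsUnit A1.det := isUnit_iff_ne_zero.2 hd
  have e1 : A1 *ᵥ a = -b := by
    rw [hA1, Matrix.add_mulVec, ha, r2_mulVec, haa, hba]; simp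
  have e2 : A1 *ᵥ b = a := by
    rw [hA1, Matrix.add_mulVec, hb, r2_mulVec, hbb, hab]; simp
  have i1 : A1⁻¹ *ᵥ b = -a := by
    have := congrArg (fun v => A1⁻¹ *ᵥ v) e1
    simp only [Matrix.mulVec_mulVec, Matrix.nonsing_inv_mul _ hu, Matrix.one_mulVec,
      Matrix.mulVec_neg] at this
    rw [this, neg_neg]
  have i2 : A1⁻¹ *ᵥ a = b := by
    have := congrArg (fun v => A1⁻¹ *ᵥ v) e2
    simp only [Matrix.mulVec_mulVec, Matrix.nonsing_inv_mul _ hu, Matrix.one_mulVec] at this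
    exact this.symm
  have hit : (A1⁻¹)ᵀ = -A1⁻¹ := inv_anti hA1t
  have j1 : b ᵥ* A1⁻¹ = a := by
    rw [← Matrix.mulVec_transpose, hit, Matrix.neg_mulVec, i1, neg_neg]
  have j2 : a ᵥ* A1⁻¹ = -b := by
    rw [← Matrix.mulVec_transpose, hit, Matrix.neg_mulVec, i2]
  refine ⟨hA, ?_, ha, hb, ?_, ?_, haa, hbb, hab, ?_⟩
  · rw [Matrix.transpose_sub, hit, r2_t]; abel
  · rw [Matrix.sub_mulVec, i2, r2_mulVec, haa, hba]; simp
  · rw [Matrix.sub_mulVec, i1, r2_mulVec, hab, hbb]; simp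
  · have hAe : A = A1 - r2 a b := by rw [hA1]; abel
    have t1 : A1 * r2 b a = vecMulVec a a + vecMulVec b b := by
      rw [r2, Matrix.mul_sub, Matrix.mul_vecMulVec, Matrix.mul_vecMulVec, e1, e2]
      ext i j; simp [vecMulVec_apply]
    have t2 : r2 a b * A1⁻¹ = vecMulVec a a + vecMulVec b b := by
      rw [r2, Matrix.sub_mul, Matrix.vecMulVec_mul, Matrix.vecMulVec_mul, j1, j2]
      ext i j; simp [vecMulVec_apply]
    have t3 : r2 a b * r2 b a = vecMulVec a a + vecMulVec b b := by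
      simp only [r2, Matrix.sub_mul, Matrix.mul_sub, Matrix.vecMulVec_mul_vecMulVec, haa, hbb, hab,
        hba]
      simp
    rw [hAe, Matrix.sub_mul, Matrix.mul_sub, Matrix.mul_sub, Matrix.mul_nonsing_inv _ hu, t1, t2, t3]
    abel

theorem pw_symm (k i : ZMod M) : pw M 0 k i = pw M 0 i k := by
  rw [pw, pw]; congr 2; push_cast; ring

theorem sum_pw0 (k : ZMod M) : ∑ i : ZMod M, pw M 0 k i = if k = 0 then (M:ℂ) else 0 := by
  have h := sum_pw M 0 k 0
  rw [← h]
  refine Finset.sum_congr rfl fun i _ => ?_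
  have : pw M 0 i 0 = 1 := by rw [pw, ZMod.val_zero]; simp
  rw [this, pw_symm]; simp

/-- Fourier block form of the rank-two regularisation -/
theorem r2_intertwine : (r2 (u1 M) (u2 M)).map ((↑) : ℝ → ℂ) * U4 M 0 0
    = U4 M 0 0 * blk M (fun p => if p = 0 then ((1/2 : ℝ) • r2 m1 m2).map ((↑) : ℝ → ℂ) else 0) := by
  have hs : Real.sqrt 2 ^ 2 = 2 := Real.sq_sqrt (by norm_num)
  have hM : (M:ℝ) ≠ 0 := by exact_mod_cast NeZero.ne M
  have hMC : (M:ℂ) ≠ 0 := by exact_mod_cast NeZero.ne M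
  ext h k
  rw [mul_U4, U4_mul_blk]
  obtain ⟨⟨i, j⟩, a⟩ := h
  obtain ⟨⟨p, q⟩, b⟩ := k
  have e : ∀ f : ZMod M × ZMod M, (r2 (u1 M) (u2 M)).map ((↑) : ℝ → ℂ) ((i, j), a) (f, b)
      = ((r2 m1 m2 a b / (2 * M ^ 2) : ℝ) : ℂ) := by
    intro f
    rw [Matrix.map_apply]
    congr 1
    simp only [r2, Matrix.sub_apply, vecMulVec_apply, u1, u2]
    field_simp
    rw [hs]; ring
  simp only [e]
  rw [← Finset.mul_sum, Fintype.sum_prod_type]
  have e2 : ∑ x : ZMod M, ∑ y : ZMod M, pw M 0 p x * pw M 0 q y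
      = (if p = 0 then (M:ℂ) else 0) * (if q = 0 then (M:ℂ) else 0) := by
    rw [← sum_pw0, ← sum_pw0, Finset.sum_mul_sum]
  rw [e2]
  by_cases hp : p = 0
  · by_cases hq : q = 0
    · subst hp; subst hq
      have h0 : ∀ i : ZMod M, pw M 0 0 i = 1 := by
        intro i; rw [pw_symm, pw, ZMod.val_zero]; simp
      simp only [h0, if_true]
      rw [if_pos (by rfl : ((0:ZMod M), (0:ZMod M)) = 0)]
      simp only [Matrix.map_apply, Matrix.smul_apply, smul_eq_mul]
      push_cast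
      field_simp
    · have : ¬ ((p, q) = (0 : ZMod M × ZMod M)) := fun h => hq (congrArg Prod.snd h)
      simp [hq, this]
  · have : ¬ ((p, q) = (0 : ZMod M × ZMod M)) := fun h => hp (congrArg Prod.fst h)
    simp [hp, this]

theorem det_block0 (t : ℝ) : (symb xc 1 1 1 1 + (t:ℂ) • ((1/2 : ℝ) • r2 m1 m2).map ((↑) : ℝ → ℂ)).det
    = 8 * t ^ 2 := by
  have hs : ((Real.sqrt 2 : ℝ) : ℂ) ^ 2 = 2 := by
    rw [← Complex.ofReal_pow, Real.sq_sqrt (by norm_num)]; simp
  set s : ℂ := ((Real.sqrt 2 : ℝ) : ℂ) with hsdef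
  have hM : (symb xc 1 1 1 1 + (t:ℂ) • ((1/2 : ℝ) • r2 m1 m2).map ((↑) : ℝ → ℂ))
      = !![0, 1 + t * (s / 4), s - t / 2, 1 + t * (s / 4);
           -(1 + t * (s / 4)), 0, 1 + t * (s / 4), s - t / 2;
           -(s - t / 2), -(1 + t * (s / 4)), 0, 1 + t * (s / 4);
           -(1 + t * (s / 4)), -(s - t / 2), -(1 + t * (s / 4)), 0] := by
    ext a b
    fin_cases a <;> fin_cases b <;>
      simp [symb, xc, r2, m1, m2] <;> (try ring_nf) <;> (try simp only [← hsdef]) <;>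
      (try simp only [hs]) <;> (try ring_nf) <;> (try simp)
  rw [hM]
  have a1 : Fin.succAbove (1 : Fin 4) (2 : Fin 3) = 3 := rfl
  have a2 : Fin.succAbove (2 : Fin 4) (2 : Fin 3) = 3 := rfl
  have a3 : Fin.succAbove (3 : Fin 4) (2 : Fin 3) = 2 := rfl
  have key : ∀ a b : ℂ, (!![0, a, b, a; -a, 0, a, b; -b, -a, 0, a; -a, -b, -a, 0] : Matrix (Fin 4) (Fin 4) ℂ).det
      = (2 * a ^ 2 - b ^ 2) ^ 2 := by
    intro a b
    simp [Matrix.det_succ_row_zero, Fin.sum_univ_succ, a1, a2, a3]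
    ring
  rw [key]
  have : 2 * (1 + t * (s / 4)) ^ 2 - (s - t / 2) ^ 2 = 2 * s * t := by
    linear_combination (t ^ 2 / 8 - 1) * hs
  rw [this]
  linear_combination (4 * t ^ 2) * hs

/-- determinant of the regularised doubly periodic matrix -/
theorem det_PP (t : ℝ) : (hA (wS M xc 1 1) + t • r2 (u1 M) (u2 M)).det
    = 8 * t ^ 2 * ∏ p ∈ (Finset.univ : Finset (ZMod M × ZMod M)).erase 0,
      (2 * xc ^ 2 * (4 - 2 * Real.cos (2 * Real.pi * p.1.val / M)
        - 2 * Real.cos (2 * Real.pi * p.2.val / M))) := by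
  have hT : (hA (wS M xc 1 1) + t • r2 (u1 M) (u2 M)).map ((↑) : ℝ → ℂ) * U4 M 0 0
      = U4 M 0 0 * blk M (fun p => sS M xc 0 0 p
        + (t:ℂ) • (if p = 0 then ((1/2 : ℝ) • r2 m1 m2).map ((↑) : ℝ → ℂ) else 0)) := by
    have e1 : (hA (wS M xc 1 1) + t • r2 (u1 M) (u2 M)).map ((↑) : ℝ → ℂ)
        = (hA (wS M xc 1 1)).map ((↑) : ℝ → ℂ) + (t:ℂ) • (r2 (u1 M) (u2 M)).map ((↑) : ℝ → ℂ) := by
      ext a b; simp
    have e2 : blk M (fun p => sS M xc 0 0 p
        + (t:ℂ) • (if p = 0 then ((1/2 : ℝ) • r2 m1 m2).map ((↑) : ℝ → ℂ) else 0))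
        = blk M (sS M xc 0 0) + (t:ℂ) • blk M (fun p => if p = 0 then
          ((1/2 : ℝ) • r2 m1 m2).map ((↑) : ℝ → ℂ) else 0) := by
      ext a b
      simp only [blk, Matrix.of_apply, Matrix.add_apply, Matrix.smul_apply]
      split_ifs <;> simp
    rw [e1, e2, Matrix.add_mul, Matrix.mul_add, Matrix.smul_mul, Matrix.mul_smul, r2_intertwine,
      intertwine M xc 0 0 1 1 (by simp) (by norm_num) (by simp) (by norm_num)]
  have h := det_of_intertwine M 0 0 _ _ hT
  have hdet : ((hA (wS M xc 1 1) + t • r2 (u1 M) (u2 M)).map ((↑) : ℝ → ℂ)).det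
      = (((hA (wS M xc 1 1) + t • r2 (u1 M) (u2 M)).det : ℝ) : ℂ) :=
    (RingHom.map_det Complex.ofRealHom _).symm
  rw [hdet] at h
  rw [← Finset.mul_prod_erase Finset.univ _ (Finset.mem_univ (0 : ZMod M × ZMod M))] at h
  have h0 : (sS M xc 0 0 0 + (t:ℂ) • (if (0 : ZMod M × ZMod M) = 0 then
      ((1/2 : ℝ) • r2 m1 m2).map ((↑) : ℝ → ℂ) else 0)).det = 8 * t ^ 2 := by
    rw [if_pos rfl]
    have : sS M xc 0 0 0 = symb xc 1 1 1 1 := by
      simp [sS, ph]
    rw [this, det_block0]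
  have h1 : ∀ p ∈ (Finset.univ : Finset (ZMod M × ZMod M)).erase 0,
      (sS M xc 0 0 p + (t:ℂ) • (if p = 0 then
        ((1/2 : ℝ) • r2 m1 m2).map ((↑) : ℝ → ℂ) else 0)).det
      = ((2 * xc ^ 2 * (4 - 2 * Real.cos (2 * Real.pi * p.1.val / M)
        - 2 * Real.cos (2 * Real.pi * p.2.val / M)) : ℝ) : ℂ) := by
    intro p hp
    rw [if_neg (Finset.ne_of_mem_erase hp), smul_zero, add_zero, sS,
      det_symb xc _ _ _ _ (mul_inv_cancel₀ (ph_ne M 0 p.1)) (mul_inv_cancel₀ (ph_ne M 0 p.2))]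
    have hcos : ∀ (k : ZMod M), ph M 0 k + (ph M 0 k)⁻¹
        = ((2 * Real.cos (2 * Real.pi * k.val / M) : ℝ) : ℂ) := by
      intro k
      rw [ph, ← Complex.exp_neg, Complex.ofReal_mul, Complex.ofReal_cos, Complex.cos]
      push_cast
      rw [neg_mul, add_zero]
      ring
    rw [hcos, hcos, ← factor_crit]
    push_cast; ring
  rw [h0, Finset.prod_congr rfl h1, ← Complex.ofReal_prod] at h
  exact_mod_cast h

theorem sum_range_zmod (f : ℕ × ℕ → ℝ) :
    ∏ p : ZMod M × ZMod M, f (p.1.val, p.2.val) = ∏ kl ∈ Finset.range M ×ˢ Finset.range M, f kl := by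
  refine Finset.prod_nbij (fun p : ZMod M × ZMod M => (p.1.val, p.2.val)) ?_ ?_ ?_ ?_
  · intro p _; simp [ZMod.val_lt]
  · intro a _ b _ hab
    simp only [Prod.mk.injEq] at hab
    exact Prod.ext (ZMod.val_injective M hab.1) (ZMod.val_injective M hab.2)
  · rintro ⟨k, l⟩ hkl
    have hkl' : k < M ∧ l < M := by simpa using hkl
    exact ⟨((k : ZMod M), (l : ZMod M)), by simp,
      by simp [ZMod.val_cast_of_lt hkl'.1, ZMod.val_cast_of_lt hkl'.2]⟩
  · intro p _; rfl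

theorem prod_erase_zmod (f : ℕ × ℕ → ℝ) :
    ∏ p ∈ (Finset.univ : Finset (ZMod M × ZMod M)).erase 0, f (p.1.val, p.2.val)
      = ∏ kl ∈ (Finset.range M ×ˢ Finset.range M).erase (0, 0), f kl := by
  refine Finset.prod_nbij (fun p : ZMod M × ZMod M => (p.1.val, p.2.val)) ?_ ?_ ?_ ?_
  · intro p hp
    have hp' := Finset.ne_of_mem_erase hp
    simp only [Finset.mem_erase, ne_eq, Prod.mk.injEq, Finset.mem_product, Finset.mem_range,
      ZMod.val_lt, and_self, and_true, ZMod.val_eq_zero]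
    intro h; exact hp' (Prod.ext h.1 h.2)
  · intro a _ b _ hab
    simp only [Prod.mk.injEq] at hab
    exact Prod.ext (ZMod.val_injective M hab.1) (ZMod.val_injective M hab.2)
  · rintro ⟨k, l⟩ hkl
    have hkl'' : (k < M ∧ l < M) ∧ (k = 0 → ¬l = 0) := by simpa using hkl
    have hkl' : ¬ (k = 0 ∧ l = 0) ∧ k < M ∧ l < M :=
      ⟨fun h => hkl''.2 h.1 h.2, hkl''.1.1, hkl''.1.2⟩
    refine ⟨((k : ZMod M), (l : ZMod M)), ?_,
      by simp [ZMod.val_cast_of_lt hkl'.2.1, ZMod.val_cast_of_lt hkl'.2.2]⟩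
    simp only [Finset.coe_erase, Finset.coe_univ, Set.mem_sdiff, Set.mem_univ, true_and,
      Set.mem_singleton_iff]
    intro h0
    apply hkl'.1
    have h1 : ((k : ZMod M)) = 0 := congrArg Prod.fst h0
    have h2 : ((l : ZMod M)) = 0 := congrArg Prod.snd h0
    have h3 := congrArg ZMod.val h1
    have h4 := congrArg ZMod.val h2
    rw [ZMod.val_cast_of_lt hkl'.2.1, ZMod.val_zero] at h3
    rw [ZMod.val_cast_of_lt hkl'.2.2, ZMod.val_zero] at h4
    exact ⟨h3, h4⟩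
  · intro p _; rfl

/-- the reduced doubly periodic partition function -/
def ZP : ℝ := EE (cI (hA (0 : ZMod M × ZMod M → Fin 2 → ℝ)))
  (bE (bl (wS M xc 1 1)) * (fi (u1 M) * fi (u2 M)))

/-- the pseudo-inverse in the doubly periodic sector -/
def BP : Matrix (HE (ZMod M)) (HE (ZMod M)) ℝ :=
  (hA (wS M xc 1 1) + r2 (u1 M) (u2 M))⁻¹ - r2 (u2 M) (u1 M)

theorem prod_PP_pos : 0 < ∏ p ∈ (Finset.univ : Finset (ZMod M × ZMod M)).erase 0,
      (2 * xc ^ 2 * (4 - 2 * Real.cos (2 * Real.pi * p.1.val / M)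
        - 2 * Real.cos (2 * Real.pi * p.2.val / M))) := by
  refine Finset.prod_pos fun p hp => ?_
  have hp' := Finset.ne_of_mem_erase hp
  have hM : (0:ℝ) < M := by exact_mod_cast NeZero.pos M
  have hpi := Real.pi_pos
  have hcos : ∀ k : ZMod M, k ≠ 0 → Real.cos (2 * Real.pi * k.val / M) < 1 := by
    intro k hk
    have hk0 : 0 < k.val := Nat.pos_of_ne_zero (fun h => hk ((ZMod.val_eq_zero k).1 h))
    have hk0' : (0:ℝ) < k.val := by exact_mod_cast hk0
    have hkM : (k.val : ℝ) < M := by exact_mod_cast ZMod.val_lt k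
    set α := 2 * Real.pi * (k.val:ℝ) / M with hα
    have h1 : 0 < α := by positivity
    have h2 : α < 2 * Real.pi := by rw [hα, div_lt_iff₀ hM]; nlinarith
    rcases lt_or_eq_of_le (Real.cos_le_one α) with h | h
    · exact h
    · exfalso
      rw [Real.cos_eq_one_iff_of_lt_of_lt (by linarith) h2] at h
      linarith
  have hx := xc_pos
  have c1 := Real.cos_le_one (2 * Real.pi * p.1.val / M)
  have c2 := Real.cos_le_one (2 * Real.pi * p.2.val / M)
  have h3 : 0 < 4 - 2 * Real.cos (2 * Real.pi * p.1.val / M)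
      - 2 * Real.cos (2 * Real.pi * p.2.val / M) := by
    by_cases h1 : p.1 = 0
    · have h2 : p.2 ≠ 0 := fun h => hp' (Prod.ext h1 h)
      have := hcos _ h2; linarith
    · have := hcos _ h1; linarith
  positivity

theorem ker2_PP : Ker2 (hA (wS M xc 1 1)) (BP M) (u1 M) (u2 M) := by
  refine ker2_of (hA_t _) (hA_u1 M) (hA_u2 M) (n1 M) (n2 M) (n12 M) ?_
  have := det_PP M 1
  rw [one_smul] at this
  rw [this]
  have := prod_PP_pos M
  positivity

/-- **exact formula in the doubly periodic sector** -/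
theorem PP_formula (F : Gr (HE (ZMod M) → ℝ)) :
    EE (cI (hA (0 : ZMod M × ZMod M → Fin 2 → ℝ))) (bE (bl (wS M xc 1 1)) * F)
      = ZP M * EE (cv (-(BP M))) (dd (dl (u2 M)) (dd (dl (u1 M)) F)) := by
  refine zero_mode (hA_t _) (by rw [det_hA_zero]; norm_num) (bl (wS M xc 1 1)) (B := BP M) ?_ F
  rw [← hA_eq]; exact ker2_PP M

theorem ZP_sq : (ZP M) ^ 2 = 8 * ∏ p ∈ (Finset.univ : Finset (ZMod M × ZMod M)).erase 0,
      (2 * xc ^ 2 * (4 - 2 * Real.cos (2 * Real.pi * p.1.val / M)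
        - 2 * Real.cos (2 * Real.pi * p.2.val / M))) := by
  have h := zero_mode_sq (hA_t (0 : ZMod M × ZMod M → Fin 2 → ℝ)) (by rw [det_hA_zero]; norm_num)
    (bl (wS M xc 1 1)) (B := BP M) (u1 := u1 M) (u2 := u2 M) (by rw [← hA_eq]; exact ker2_PP M) 1
  rw [← hA_eq, det_hA_zero, det_PP] at h
  simpa [ZP] using h

/-- **the doubly periodic sector against the doubly antiperiodic one** -/
theorem ZP_le : |ZP M| ≤ (2 / xc) * M * ZZ M xc (-1) (-1) := by
  have hx := xc_pos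
  have hM : (0:ℝ) < M := by exact_mod_cast NeZero.pos M
  have hAA := ZZ_pos_crit M tw_A tw_A (Or.inl rfl)
  have h1 := ZP_sq M
  have h2 : (ZZ M xc (-1) (-1)) ^ 2 = ∏ p : ZMod M × ZMod M,
      (2 * xc ^ 2 * (4 - 2 * Real.cos ((2 * Real.pi * p.1.val + Real.pi) / M)
        - 2 * Real.cos ((2 * Real.pi * p.2.val + Real.pi) / M))) := by
    rw [ZZ_sq' M tw_A tw_A]
    exact Finset.prod_congr rfl fun p _ => factor_crit _ _
  have h3 := PP_le_AA M (NeZero.pos M)
  rw [Finset.prod_mul_distrib, Finset.prod_const, Finset.card_erase_of_mem (Finset.mem_univ _),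
    Finset.card_univ, Fintype.card_prod, ZMod.card] at h1
  rw [Finset.prod_mul_distrib, Finset.prod_const, Finset.card_univ, Fintype.card_prod,
    ZMod.card] at h2
  have e1 := prod_erase_zmod M (fun kl => 4 - 2 * Real.cos (2 * Real.pi * kl.1 / M)
        - 2 * Real.cos (2 * Real.pi * kl.2 / M))
  have e2 := sum_range_zmod M (fun kl => 4 - 2 * Real.cos ((2 * Real.pi * kl.1 + Real.pi) / M)
        - 2 * Real.cos ((2 * Real.pi * kl.2 + Real.pi) / M))
  simp only at e1 e2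
  rw [← e1, ← e2] at h3
  set X := ∏ p ∈ (Finset.univ : Finset (ZMod M × ZMod M)).erase 0,
    (4 - 2 * Real.cos (2 * Real.pi * p.1.val / M) - 2 * Real.cos (2 * Real.pi * p.2.val / M)) with hX
  set Y := ∏ p : ZMod M × ZMod M, (4 - 2 * Real.cos ((2 * Real.pi * p.1.val + Real.pi) / M)
        - 2 * Real.cos ((2 * Real.pi * p.2.val + Real.pi) / M)) with hY
  have hMM : M * M = (M * M - 1) + 1 := by
    have : 0 < M * M := Nat.mul_pos (NeZero.pos M) (NeZero.pos M)
    omega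
  have h4 : (ZP M) ^ 2 ≤ ((2 / xc) * M * ZZ M xc (-1) (-1)) ^ 2 := by
    have e5 : ((2 / xc) * M * ZZ M xc (-1) (-1)) ^ 2
        = (2 / xc) ^ 2 * M ^ 2 * ((2 * xc ^ 2) ^ (M * M - 1) * (2 * xc ^ 2) * Y) := by
      rw [mul_pow, mul_pow, h2, ← pow_succ, ← hMM]
    rw [h1, e5]
    have hp : 0 ≤ (2 * xc ^ 2) ^ (M * M - 1) := by positivity
    have : 8 * ((2 * xc ^ 2) ^ (M * M - 1) * X) ≤ 8 * ((2 * xc ^ 2) ^ (M * M - 1) * (M ^ 2 * Y)) := by
      have := mul_le_mul_of_nonneg_left h3 hp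
      linarith
    refine this.trans (le_of_eq ?_)
    field_simp
    ring
  exact abs_le_of_sq_le_sq h4 (by positivity)

end Crest.Agent.R165.TorSecx599
end
end

-- ▼ part R165/TorBr_599

/-!
Row 165 (helper599): bridge between the matrix form of the torus sectors (`TorSec_599`) and the
weights `ZE` of `TorusJ1_922` / `E0` of `J1a_606`.
-/

set_option autoImplicit false
set_option linter.unusedSectionVars false

noncomputable section

namespace Crest.Agent.R165.TorBrx599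

open Crest.Agent.R165.Gr0x606 Crest.Agent.R165.Gr1x606 Crest.Agent.R165.J1ax606
open Crest.Agent.R165.Pfx599 Crest.Agent.R165.PfZx599
open Crest.Agent.R165.TorDetx599 hiding HE
open Crest.Agent.R165.TorSecx599
open Crest.Agent.R165.TorusCombx922 Crest.Agent.R165.TorusJ1x922
open Matrix

variable (M : ℕ) [NeZero M]

/-- the half-edge index type of the torus -/
abbrev HT : Type := (ZMod M × ZMod M) × Fin 4

/-- the fields as functions -/
def kp : VI (HT M) →ₗ[ℝ] (HT M → ℝ) :=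
  (Finsupp.linearEquivFunOnFinite ℝ ℝ (HT M)).toLinearMap

theorem kp_single (h : HT M) : kp M (Finsupp.single h 1) = bs h := by
  funext k
  simp only [kp, LinearEquiv.coe_coe, Finsupp.linearEquivFunOnFinite_single, bs]


/-- forms on finitely supported functions from their values on the basis -/
theorem form_ext {B B' : LinearMap.BilinForm ℝ (VI (HT M))}
    (h : ∀ i j, B (Finsupp.single i 1) (Finsupp.single j 1)
      = B' (Finsupp.single i 1) (Finsupp.single j 1)) : B = B' := by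
  refine Finsupp.lhom_ext fun i a => ?_
  refine Finsupp.lhom_ext fun j b => ?_
  have e1 : (Finsupp.single i a : VI (HT M)) = a • Finsupp.single i 1 := by simp
  have e2 : (Finsupp.single j b : VI (HT M)) = b • Finsupp.single j 1 := by simp
  rw [e1, e2]
  simp only [map_smul, LinearMap.smul_apply, h]

theorem hA0_apply (h k : HT M) : hA (0 : ZMod M × ZMod M → Fin 2 → ℝ) h k
    = if h.1 = k.1 then sgn4 h.2 k.2 else 0 := by
  simp [hA]

/-- inverse of the intra-face matrix -/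
theorem hA0_mul : hA (0 : ZMod M × ZMod M → Fin 2 → ℝ) * (Matrix.of fun h k : HT M => K0 h k)
    = -1 := by
  ext h k
  obtain ⟨f, a⟩ := h
  obtain ⟨g, b⟩ := k
  rw [Matrix.mul_apply, Fintype.sum_prod_type, Finset.sum_eq_single f]
  · simp only [hA0_apply, Matrix.of_apply, K0]
    by_cases hfg : f = g
    · subst hfg
      simp only [if_true, Fin.sum_univ_four]
      fin_cases a <;> fin_cases b <;> simp [sgn4, k4]
    · simp [hfg]
  · intro f' _ hf'
    refine Finset.sum_eq_zero fun c _ => ?_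
    rw [hA0_apply, if_neg (fun h => hf' (Eq.symm h)), zero_mul]
  · intro h; exact absurd (Finset.mem_univ _) h

theorem hA0_inv : -(hA (0 : ZMod M × ZMod M → Fin 2 → ℝ))⁻¹ = Matrix.of fun h k : HT M => K0 h k := by
  have h1 : hA (0 : ZMod M × ZMod M → Fin 2 → ℝ) * -(Matrix.of fun h k : HT M => K0 h k) = 1 := by
    rw [Matrix.mul_neg, hA0_mul, neg_neg]
  rw [Matrix.inv_eq_right_inv h1, neg_neg]

theorem dot_single {ι : Type*} [Fintype ι] [DecidableEq ι] (B : Matrix ι ι ℝ) (i j : ι) :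
    (Pi.single i 1 : ι → ℝ) ⬝ᵥ B *ᵥ (Pi.single j 1) = B i j := by
  rw [single_one_dotProduct, Matrix.mulVec_single_one]
  rfl

/-- the covariance of the one-face state -/
theorem cov0 (x y : VI (HT M)) : (S0 : Cov (VI (HT M))).b x y
    = (cI (hA (0 : ZMod M × ZMod M → Fin 2 → ℝ))).b (kp M x) (kp M y) := by
  have : (S0 : Cov (VI (HT M))).b
      = (cI (hA (0 : ZMod M × ZMod M → Fin 2 → ℝ))).b.compl₁₂ (kp M) (kp M) := by
    apply form_ext
    intro i j
    rw [LinearMap.compl₁₂_apply, kp_single, kp_single, cI_b (hA_t _), ← dotProduct_neg,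
      ← Matrix.neg_mulVec, hA0_inv, bs, bs, dot_single]
    show formOf K0 _ _ = _
    rw [formOf_single]; rfl
  rw [this]; rfl

/-- `E0` through the matrix covariance -/
theorem E0_eq (X : Gr (VI (HT M))) : E0 X
    = EE (cI (hA (0 : ZMod M × ZMod M → Fin 2 → ℝ))) (mp (kp M) X) := by
  rw [E0_apply, EE_mp (kp M) S0 _ (cov0 M)]

theorem mp_PE (y : Ed M → ℝ) : mp (kp M) ((PE y : Ge (VI (HT M))) : Gr (VI (HT M)))
    = bE (bl fun z j => y (z, j)) := by
  have h1 : ((PE y : Ge (VI (HT M))) : Gr (VI (HT M)))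
      = ((Finset.univ : Finset (Ed M)).toList.map
        fun e => (1 + y e • (ph (pe e) * ph (qe e)) : Gr (VI (HT M)))).prod := by
    have : PE y = ((Finset.univ : Finset (Ed M)).toList.map fun e => (1 + y e • bb e)).prod := by
      rw [PE, Finset.prod_map_toList]
    rw [this]
    have := map_list_prod (Ge (VI (HT M))).val
      ((Finset.univ : Finset (Ed M)).toList.map fun e => (1 + y e • bb e))
    refine this.trans ?_
    rw [List.map_map]
    rfl
  rw [h1, map_list_prod, bE, bl, List.map_map, List.map_map]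
  congr 2
  funext e
  simp only [Function.comp_apply, map_add, map_one, map_smul, map_mul, Gr1x606.ph, mp_fi, kp_single]
  have e1 : (pe e : HT M) = hp e := by
    obtain ⟨z, j⟩ := e
    fin_cases j <;> rfl
  have e2 : (qe e : HT M) = hq e := by
    obtain ⟨z, j⟩ := e
    fin_cases j <;> rfl
  rw [e1, e2]

/-- `ZE` through the matrix covariance -/
theorem ZE_eq (y : Ed M → ℝ) (X : Ge (VI (HT M))) : ZE y X
    = EE (cI (hA (0 : ZMod M × ZMod M → Fin 2 → ℝ)))
      (bE (bl fun z j => y (z, j)) * mp (kp M) (X : Gr (VI (HT M)))) := by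
  rw [ZE, E0_eq, Ge.coe_mul, map_mul, mp_PE]

/-- covariance of a matrix on the finitely supported fields -/
def cF (B : Matrix (HT M) (HT M) ℝ) : Cov (VI (HT M)) where
  b := (cv B).b.compl₁₂ (kp M) (kp M)
  alt _ := (cv B).alt _

theorem cF_b (B : Matrix (HT M) (HT M) ℝ) (x y : VI (HT M)) :
    (cF M B).b x y = (cv B).b (kp M x) (kp M y) := rfl

theorem cF_single {B : Matrix (HT M) (HT M) ℝ} (hB : Bᵀ = -B) (h k : HT M) :
    (cF M B).b (Finsupp.single h 1) (Finsupp.single k 1) = B h k := by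
  rw [cF_b, kp_single, kp_single, cv_b hB, bs, bs, dot_single]

theorem EE_cF (B : Matrix (HT M) (HT M) ℝ) (X : Gr (VI (HT M))) :
    EE (cv B) (mp (kp M) X) = EE (cF M B) X := EE_mp (kp M) (cF M B) (cv B) (cF_b M B) X

/-- nonsingular backgrounds: reweighting -/
theorem ZE_reweight (y : Ed M → ℝ) (hd : (hA fun z j => y (z, j)).det ≠ 0)
    (X : Ge (VI (HT M))) : ZE y X
    = ZE y 1 * EE (cF M (-(hA fun z j => y (z, j))⁻¹)) (X : Gr (VI (HT M))) := by
  have h0 : (hA (0 : ZMod M × ZMod M → Fin 2 → ℝ)).det ≠ 0 := by rw [det_hA_zero]; norm_num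
  have h1 := hA_eq (fun z j => y (z, j) : ZMod M × ZMod M → Fin 2 → ℝ)
  have hd' : (aL (hA 0) (bl fun z j => y (z, j))).det ≠ 0 := by rw [← h1]; exact hd
  rw [ZE_eq, ZE_eq, reweight_list (hA_t _) h0 _ hd', ← h1]
  congr 1
  · simp
  · exact EE_cF M _ _

/-- sector weights in both notations -/
theorem sec_eq (s : Fin 2 × Fin 2) (x : ℝ) : (fun (z : ZMod M × ZMod M) (j : Fin 2) => sec s (z, j) * x)
    = wS M x (if s.2 = 0 then 1 else -1) (if s.1 = 0 then 1 else -1) := by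
  funext z j
  have hj : j = 0 ∨ j = 1 := by omega
  rcases hj with rfl | rfl
  · simp [sec, seam, wS, mul_comm]
  · simp [sec, seam, wS, mul_comm]

/-- twist angle -/
def ang (i : Fin 2) : ℝ := if i = 0 then 0 else Real.pi

theorem tw_ang (i : Fin 2) : Tw (ang i) (if i = 0 then 1 else -1) := by
  unfold ang
  split_ifs
  · exact tw_P
  · exact tw_A

theorem ZE_one (s : Fin 2 × Fin 2) (x : ℝ) : ZE (fun e : Ed M => sec s e * x) 1
    = ZZ M x (if s.2 = 0 then 1 else -1) (if s.1 = 0 then 1 else -1) := by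
  rw [ZE_eq]
  have := sec_eq M s x
  simp only [this, Ge.coe_one, map_one, mul_one, ZZ]

/-- positivity at the critical weight -/
theorem ZE_pos (s : Fin 2 × Fin 2) (hs : s ≠ (0, 0)) :
    0 < ZE (fun e : Ed M => sec s e * xc) 1 := by
  rw [ZE_one]
  refine ZZ_pos_crit M (tw_ang s.2) (tw_ang s.1) ?_
  by_cases h2 : s.2 = 0
  · right
    have h1 : s.1 ≠ 0 := fun h => hs (Prod.ext h h2)
    simp [ang, h1]
  · left; simp [ang, h2]

theorem det_sec_ne (s : Fin 2 × Fin 2) (hs : s ≠ (0, 0)) :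
    (hA fun (z : ZMod M × ZMod M) (j : Fin 2) => sec s (z, j) * xc).det ≠ 0 := by
  rw [sec_eq]
  refine (det_crit_pos M (tw_ang s.2) (tw_ang s.1) ?_).ne'
  by_cases h2 : s.2 = 0
  · right
    have h1 : s.1 ≠ 0 := fun h => hs (Prod.ext h h2)
    simp [ang, h1]
  · left; simp [ang, h2]

/-- the three nonsingular sectors -/
theorem ZE_sector (s : Fin 2 × Fin 2) (hs : s ≠ (0, 0)) (X : Ge (VI (HT M))) :
    ZE (fun e : Ed M => sec s e * xc) X
    = ZE (fun e : Ed M => sec s e * xc) 1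
      * EE (cF M (-(hA fun z j => sec s (z, j) * xc)⁻¹)) (X : Gr (VI (HT M))) :=
  ZE_reweight M (fun e : Ed M => sec s e * xc) (det_sec_ne M s hs) X

/-- first zero mode as a functional on the fields -/
def z1 : Module.Dual ℝ (VI (HT M)) := dl (u1 M) ∘ₗ kp M
/-- second zero mode as a functional on the fields -/
def z2 : Module.Dual ℝ (VI (HT M)) := dl (u2 M) ∘ₗ kp M

theorem z1_single (h : HT M) : z1 M (Finsupp.single h 1) = u1 M h := by
  show (dl (u1 M)) (kp M _) = _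
  rw [kp_single, dl_apply, bs, dotProduct_single_one]

theorem z2_single (h : HT M) : z2 M (Finsupp.single h 1) = u2 M h := by
  show (dl (u2 M)) (kp M _) = _
  rw [kp_single, dl_apply, bs, dotProduct_single_one]

/-- **the doubly periodic sector** -/
theorem ZE_PP (X : Ge (VI (HT M))) :
    ZE (fun e : Ed M => sec (0, 0) e * xc) X
    = ZP M * EE (cF M (-(BP M))) (dd (z2 M) (dd (z1 M) (X : Gr (VI (HT M))))) := by
  rw [ZE_eq]
  have h := sec_eq M (0, 0) xc
  simp only [if_true] at h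
  rw [h, PP_formula, ← EE_cF]
  congr 2
  rw [z1, z2, mp_dd, mp_dd]

/-- comparison of the doubly periodic and doubly antiperiodic sectors -/
theorem ZP_le' : |ZP M| ≤ (2 / xc) * M * ZE (fun e : Ed M => sec (1, 1) e * xc) 1 := by
  rw [ZE_one]
  simpa using ZP_le M

theorem abs_u1_le (h : HT M) : |u1 M h| ≤ 1 / M := by
  have hs : Real.sqrt 2 ^ 2 = 2 := Real.sq_sqrt (by norm_num)
  have hs1 : 1 ≤ Real.sqrt 2 := by
    rw [Real.le_sqrt (by norm_num) (by norm_num)]; norm_num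
  have hM : (0:ℝ) < M := by exact_mod_cast NeZero.pos M
  obtain ⟨f, a⟩ := h
  have hm : |m1 a| ≤ 1 := by
    have : Real.sqrt 2 / 2 ≤ 1 := by nlinarith
    have h0 : 0 ≤ Real.sqrt 2 / 2 := by positivity
    fin_cases a
    · show |-(Real.sqrt 2 / 2)| ≤ 1
      rw [abs_neg, abs_of_nonneg h0]; exact this
    · show |(1:ℝ)| ≤ 1
      simp
    · show |-(Real.sqrt 2 / 2)| ≤ 1
      rw [abs_neg, abs_of_nonneg h0]; exact this
    · show |(0:ℝ)| ≤ 1
      simp
  show |m1 a / (Real.sqrt 2 * M)| ≤ 1 / M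
  rw [abs_div, abs_of_pos (by positivity : (0:ℝ) < Real.sqrt 2 * M)]
  rw [div_le_div_iff₀ (by positivity) hM]
  nlinarith

theorem abs_u2_le (h : HT M) : |u2 M h| ≤ 1 / M := by
  have hs : Real.sqrt 2 ^ 2 = 2 := Real.sq_sqrt (by norm_num)
  have hs1 : 1 ≤ Real.sqrt 2 := by
    rw [Real.le_sqrt (by norm_num) (by norm_num)]; norm_num
  have hM : (0:ℝ) < M := by exact_mod_cast NeZero.pos M
  obtain ⟨f, a⟩ := h
  have hm : |m2 a| ≤ 1 := by
    have : Real.sqrt 2 / 2 ≤ 1 := by nlinarith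
    have h0 : 0 ≤ Real.sqrt 2 / 2 := by positivity
    fin_cases a
    · show |-(Real.sqrt 2 / 2)| ≤ 1
      rw [abs_neg, abs_of_nonneg h0]; exact this
    · show |(0:ℝ)| ≤ 1
      simp
    · show |(Real.sqrt 2 / 2)| ≤ 1
      rw [abs_of_nonneg h0]; exact this
    · show |(-1:ℝ)| ≤ 1
      simp
  show |m2 a / (Real.sqrt 2 * M)| ≤ 1 / M
  rw [abs_div, abs_of_pos (by positivity : (0:ℝ) < Real.sqrt 2 * M)]
  rw [div_le_div_iff₀ (by positivity) hM]
  nlinarith

end Crest.Agent.R165.TorBrx599
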