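import Crest.Agent.R165.Cov1_359
import Crest.Agent.R165.TorBr_599

/-!
# Row 165 (S0250), block J (task 50, helper359): covariances of the torus sectors

* `wT M s : BW (ZMod M)` : critical weights with the seam signs of the sector `s`
* `ZE_eq_PP` : `ZE y X = E0 (PP y univ * X)`
* `exists_isCov_torus` : `s ≠ (0, 0)`: the covariance exists (with `FInv`) and is unique
* `ZE_isInv`, `ZE_isCov` : `ZE y X = ZE y 1 * EE (covS S) X` for ANY inverse / covariance
* `isInv_eq_hA` : the inverse is `-(hA w)⁻¹`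
-/

set_option autoImplicit false

noncomputable section

open Filter Topology
open Crest.Agent.R165.Gr0x606

namespace Crest.Agent.R165.Covx359

open Crest.Agent.R165
open Crest.Agent.R165.Gr1x606 (Ge VI covOf formOf)
open Crest.Agent.R165.J1ax606 (EG HE E0 mon bb)
open Crest.Agent.R165.J2ax606 (PP IsInv)
open Crest.Agent.R165.J2bx606 (FInv)
open Crest.Agent.R165.TorusJ1x922 (ZE PE sec)
open Crest.Agent.R165.TorDetx599 (hA hA_t)
open Matrix

section
variable (M : ℕ) [NeZero M]

/-- critical weights of the torus sector `s` -/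
def wT (s : Fin 2 × Fin 2) : Latx683.BW (ZMod M) := fun z j => sec s (z, j) * Latx683.xc


theorem ZE_eq_PP (y : EG (ZMod M) → ℝ) (X : Ge (VI (HE (ZMod M)))) :
    ZE y X = E0 ((PP y Finset.univ : Gr (VI (HE (ZMod M)))) * (X : Gr (VI (HE (ZMod M))))) := rfl

theorem ZE_one_eq (y : EG (ZMod M) → ℝ) :
    ZE y 1 = E0 (PP y Finset.univ : Gr (VI (HE (ZMod M)))) := by
  rw [ZE_eq_PP, Ge.coe_one, mul_one]




/-- **torus sectors**: existence and uniqueness of the covariance -/
theorem exists_isCov_torus (s : Fin 2 × Fin 2) (hs : s ≠ (0, 0)) :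
    ∃ S, Latx683.IsCov (wT M s) S ∧ FInv (un (wT M s)) S ∧
      ∀ S', Latx683.IsCov (wT M s) S' → S' = S := by
  have hZ : E0 (PP (un (wT M s)) Finset.univ : Gr (VI (HE (ZMod M)))) ≠ 0 := by
    rw [← ZE_one_eq]
    exact (TorBrx599.ZE_pos M s hs).ne'
  obtain ⟨S, hS⟩ := exists_finv_of_Z (w := un (wT M s)) Finset.univ
    (fun e he => absurd (Finset.mem_univ e) he) hZ
  exact ⟨S, isCov_of_finv hS, hS, fun S' hS' => isCov_eq_of_finv hS hS'⟩



end

end Crest.Agent.R165.Covx359
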