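import Crest.Agent.R165.J4K0_126
import Crest.Agent.R165.KInit_892
import Crest.Agent.R165.Bkg_683
import Crest.Agent.R165.GSysOK_439
import Crest.Agent.R165.J2a_606

-- ▼ part R165/K0Loc_950
section

/-!
# Row 165 (S0250), block J: supports and locality of the initial activities `Bk.K0` (helper950)

General, any frame `fr : Fr G A` and background `B : Bk G κ A` of 126:
* `dead fr B i` : the item of the label `i` vanishes
* `K0_empty`, `K0_ne`, `K0_supp`, `K0_mem`, `K0_conn`, and the versions `K1_K0_*` after reclustering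
-/

set_option autoImplicit false
set_option linter.unusedSectionVars false

open Finset

noncomputable section

namespace Crest.Agent.R165.K0Locx950

open Crest.Agent.R165.KCompx892 Crest.Agent.R165.KStepx892 Crest.Agent.R165.J4Actx126
open Crest.Agent.R165.J4Datx126 Crest.Agent.R165.J4Geox126
open Crest.Agent.R165.J4Defx653 Crest.Agent.R165.J4Pathx653
open Crest.Agent.R165.J4RRx653 Crest.Agent.R165.J4RRAx653
open Crest.Agent.R165.J4K0x126
open Crest.Agent.R165.J1ax606 (HE EG pe qe pe_zero pe_one qe_zero qe_one)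

/-! ### general facts -/

section gen

variable {G : Type*} [CommRing G] [DecidableEq G] {A : Type*} [CommRing A] [Algebra ℝ A]
  {κ : Type*} [DecidableEq κ]

/-- the item of the label `i` vanishes -/
def dead (fr : Fr G A) (B : Bk G κ A) (i : Ix G κ) : Prop := B.aI fr i = 0 ∨ B.FI i = 0

variable [Fintype κ] (fr : Fr G A) (B : Bk G κ A)

theorem K0_empty : B.K0 fr ∅ = 0 := (B.datU fr ∅).items.act_empty

/-- where a non-zero activity comes from -/
theorem K0_ne {U : Finset (G × G)} (h : B.K0 fr U ≠ 0) :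
    ∃ T : Finset {i // i ∈ B.ixs U}, Conn (touch (B.datU fr U).Y) T ∧
      supp (B.datU fr U).Y T = U ∧ ∀ i ∈ T, ¬ dead fr B i.1 := by
  classical
  unfold Bk.K0 Items.act at h
  obtain ⟨T, hT, hne⟩ := Finset.exists_ne_zero_of_sum_ne_zero h
  rw [Finset.mem_filter] at hT
  refine ⟨T, hT.2.1, hT.2.2, fun i hi hd => hne ?_⟩
  rw [Dat.w_eq]
  rcases hd with h0 | h0
  · rw [Finset.prod_eq_zero hi (show (B.datU fr U).a i = 0 from h0), zero_mul]
  · rw [Finset.prod_eq_zero hi (show (B.datU fr U).Fe i = 0 from h0), map_zero, mul_zero]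

/-- **supports**: the activities live on the supports of the non-zero items -/
theorem K0_supp {Λ : Finset (G × G)} (hΛ : ∀ i, B.okI i → ¬ dead fr B i → B.YI i ⊆ Λ)
    {U : Finset (G × G)} (hU : ¬ U ⊆ Λ) : B.K0 fr U = 0 := by
  by_contra h
  obtain ⟨T, -, hs, hd⟩ := K0_ne fr B h
  apply hU
  rw [← hs]
  intro f hf
  obtain ⟨i, hi, hfi⟩ := Finset.mem_biUnion.1 hf
  exact hΛ i.1 (B.ixs_ok _ i.2) (hd i hi) hfi

/-- **connectedness** of the supports -/
theorem K0_conn {d : G × G → G × G → ℕ} (h0 : ∀ a, d a a = 0) {R : ℕ}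
    (hY : ∀ i, B.okI i → ¬ dead fr B i → Packx915.Conn d R (B.YI i)) {U : Finset (G × G)}
    (hU : B.K0 fr U ≠ 0) : Packx915.Conn d R U := by
  obtain ⟨T, hc, hs, hd⟩ := K0_ne fr B hU
  have hT : ∀ J ⊆ T, J.Nonempty → J ≠ T →
      ∃ i ∈ J, ∃ j ∈ T, j ∉ J ∧ ∃ a ∈ B.YI i.1, ∃ b ∈ B.YI j.1, d a b ≤ R := by
    intro J hJ hne hJT
    by_contra hcon
    apply hJT
    refine hc.2 J hJ hne fun i hi j hj ht => hcon ?_
    obtain ⟨hj1, hj2⟩ := Finset.mem_sdiff.1 hj
    obtain ⟨f, hf1, hf2⟩ := Finset.not_disjoint_iff.1 ht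
    exact ⟨i, hi, j, hj1, hj2, f, hf1, f, hf2, by rw [h0]; exact Nat.zero_le _⟩
  have key := Packx915.conn_biUnion T (fun i => B.YI i.1)
    (fun i hi => hY i.1 (B.ixs_ok _ i.2) (hd i hi)) hT
  convert key using 1
  refine hs.symm.trans ?_
  ext f
  simp only [supp, Finset.mem_biUnion]
  rfl

omit [Algebra ℝ A] [CommRing G] [DecidableEq G] [DecidableEq κ] [Fintype κ] in
theorem TH_mem [Algebra ℝ A] {E : Type*} {g : E → A} {S : Subalgebra ℝ A} {U : Set E}
    (h : ∀ e ∈ U, g e ∈ S) {F : RR E} (hF : F ∈ RIn U) : TH g F ∈ S := by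
  refine RIn_ind (P := fun F => TH g F ∈ S) ?_ ?_ ?_ hF
  · rw [map_zero]; exact S.zero_mem
  · intro F G hF hG; rw [map_add]; exact S.add_mem hF hG
  · intro c T hT
    rw [map_smul, TH_ep]
    exact S.smul_mem (S.prod_mem fun e he => h e (hT (Finset.mem_coe.2 he))) c

/-- **locality** of the activities -/
theorem K0_mem (𝒢 : Finset (G × G) → Subalgebra ℝ A) (hG : ∀ U W, U ⊆ W → 𝒢 U ≤ 𝒢 W)
    (hb : ∀ e, fr.b e ∈ 𝒢 (faE e)) (hI : ∀ f, fr.I4 f ∈ 𝒢 {f})
    (hs : ∀ k, (B.Ys k).Nonempty → B.as k ∈ 𝒢 (B.Ys k)) (U : Finset (G × G)) :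
    B.K0 fr U ∈ 𝒢 U := by
  classical
  unfold Bk.K0 Items.act
  refine Subalgebra.sum_mem _ fun T hT => ?_
  rw [Finset.mem_filter] at hT
  rw [Dat.w_eq]
  have haI : ∀ i, B.okI i → B.aI fr i ∈ 𝒢 (B.YI i) := by
    intro i hi
    rcases i with p | f | e | k
    · exact one_mem _
    · exact add_mem (Subalgebra.smul_mem _ (hI f) _)
        (Subalgebra.smul_mem _ (mul_mem (hI f) (hI f)) _)
    · exact Subalgebra.smul_mem _ (hb e) _
    · exact hs k hi
  have hg : ∀ e, faE e ⊆ U → B.g fr e ∈ 𝒢 U := fun e he =>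
    sub_mem (one_mem _) (Subalgebra.smul_mem _ (hG _ _ he (hb e)) _)
  have hsub : ∀ i ∈ T, B.YI i.1 ⊆ U := by
    intro i hi
    exact (Finset.subset_biUnion_of_mem (B.datU fr U).Y hi).trans hT.2.2.le
  refine mul_mem (Subalgebra.prod_mem _ fun i hi => ?_) (TH_mem (U := {e | faE e ⊆ U}) hg ?_)
  · exact hG _ _ (hsub i hi) (haI i.1 (B.ixs_ok _ i.2))
  · refine Subalgebra.prod_mem _ fun i hi => ?_
    exact RIn_mono (fun e he => Finset.Subset.trans he (hsub i hi)) ((B.datU fr U).mem i)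

/-! ### `K1` -/

variable (near' : G × G → G × G → Prop)




end gen

end Crest.Agent.R165.K0Locx950
end
end

-- ▼ part R165/JVol_950

/-!
# Row 165 (S0250), block J/P, leaf JVol: the volume of a domain, supports, locality and
connectedness of the initial activities of `Bkg_683` (helper950)

* `Wf T` : the faces with a corner in `T` (where the fields are rescaled), `mem_Wf`, `sc_off`
* `Vol T b R Ys Λ` : the volume `Λ` contains `Wf T`, its neighbours, the faces of the shapes of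
  `BB T b R` and the supports of the sources;  `exists_vol`, `Vol.mono`
* `Vol.supp`, `Vol.supp1`, `Vol.srcs` : consequences for `K00`, `K0` and `srcs`
* `K00_mem`, `K0_mem` : locality for any system of submodules; `K00_fldU`, `K0_fldU` (`ι = id`),
  `K00_fldUS`, `K0_fldUS` (sources `bondSrc e`)
* `K00_empty`, `K0_empty`, `K00_conn` (range `2R+1`), `K0_conn`
-/

set_option autoImplicit false
set_option linter.unusedSectionVars false

open Finset

noncomputable section

namespace Crest.Agent.R165.JVolx950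

open Crest.ProbabilityR.IsingModel
open Crest.Agent.R165.Gr0x606 Crest.Agent.R165.Gr1x606 Crest.Agent.R165.GeOpsx337
open Crest.Agent.R165.GDefx387 Crest.Agent.R165.GSysx387 Crest.Agent.R165.GSysOKx439
open Crest.Agent.R165.KInitx892 Crest.Agent.R165.SrcDefx991 Crest.Agent.R165.GrLocx337
open Crest.Agent.R165.BgIsox432 Crest.Agent.R165.K0Locx950 Crest.Agent.R165.Bkgx683
open Crest.Agent.R165.J4K0x126 Crest.Agent.R165.J4Geox126
open Crest.Agent.R165.J4Defx653 (tpot BB tr bx mem_bx mem_tr)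
open Crest.Agent.R165.J4Pathx653
open Crest.Agent.R165.J4RRx653 (RR ep RIn TH)
open Crest.Agent.R165.J1ax606 (pe qe pe_zero pe_one qe_zero qe_one)
open Crest.Agent.R165.J2ax606 (bar ed he_cases bar_pe bar_qe ed_pe ed_qe)
open Crest.Agent.R165.Latx683 (xc wPl wDom wX BW HE Fld)

/-! ### locality -/

section loc

variable {G : Type} [CommRing G] [DecidableEq G] (B : Bg G) (P : MPar)
variable {κ : Type} [DecidableEq κ] [Fintype κ]
variable {V : Type*} [AddCommGroup V] [Module ℝ V]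

omit [CommRing G] [DecidableEq G] in
theorem bi_mem_grG {W : Submodule ℝ V} {x y : V} (hx : x ∈ W) (hy : y ∈ W) : bi x y ∈ grG W := by
  rw [mem_grG, coe_bi]
  exact mul_mem (fi_mem_gr hx) (fi_mem_gr hy)

omit [CommRing G] [DecidableEq G] in
theorem grG_mono {W W' : Submodule ℝ V} (h : W ≤ W') : grG W ≤ grG W' := fun _ ha => gr_mono h ha


/-- **locality** of the activities of 126, general fields -/
theorem K00_mem (ι : Fld G →ₗ[ℝ] V) (src : Srcs κ G (Ge V)) (W : Finset (G × G) → Submodule ℝ V)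
    (hW : ∀ U U', U ⊆ U' → W U ≤ W U') (hι : ∀ h : HE G, ι (Finsupp.single h 1) ∈ W {h.1})
    (hs : ∀ k, (src.Ys k).Nonempty → src.as k ∈ grG (W (src.Ys k))) (U : Finset (G × G)) :
    B.K00 P ι src U ∈ grG (W U) := by
  refine K0Locx950.K0_mem (frG ι) (B.bk P src) (fun U => grG (W U))
    (fun _ _ h => grG_mono (hW _ _ h)) ?_ ?_ hs U
  · intro e
    refine bi_mem_grG (hW _ _ ?_ (hι _)) (hW _ _ ?_ (hι _))
    · exact Finset.singleton_subset_iff.2 (Finset.mem_insert_self _ _)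
    · exact Finset.singleton_subset_iff.2 (Finset.mem_insert_of_mem (Finset.mem_singleton_self _))
  · intro f
    exact Subalgebra.sum_mem _ fun p _ => bi_mem_grG (hι (f, p.1)) (hι (f, p.2))

variable [CN G]

theorem K0_empty (ι : Fld G →ₗ[ℝ] V) (src : Srcs κ G (Ge V)) (l k0 : ℕ) :
    B.K0 P ι src l k0 ∅ = 0 := K1_empty _ _

theorem K0_mem (ι : Fld G →ₗ[ℝ] V) (src : Srcs κ G (Ge V)) (W : Finset (G × G) → Submodule ℝ V)
    (hW : ∀ U U', U ⊆ U' → W U ≤ W U') (hι : ∀ h : HE G, ι (Finsupp.single h 1) ∈ W {h.1})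
    (hs : ∀ k, (src.Ys k).Nonempty → src.as k ∈ grG (W (src.Ys k))) (l k0 : ℕ)
    (U : Finset (G × G)) : B.K0 P ι src l k0 U ∈ grG (W U) :=
  K1_mem (fun U => grG (W U)) (fun _ _ h => grG_mono (hW _ _ h)) _ U
    fun U' _ => K00_mem B P ι src W hW hι hs U'

omit [DecidableEq G] in
theorem single_mem_fldU (h : HE G) : (Finsupp.single h 1 : Fld G) ∈ fldU {h.1} :=
  single_mem_fldS (show h.1 ∈ nbhd 1 {h.1} from
    ⟨h.1, Finset.mem_singleton_self _, by rw [fd_self]; exact Nat.zero_le _⟩) 1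


theorem K0_fldU (src : Srcs κ G (Ge (Fld G)))
    (hs : ∀ k, (src.Ys k).Nonempty → src.as k ∈ grG (fldU (src.Ys k))) (l k0 : ℕ)
    (U : Finset (G × G)) : B.K0 P LinearMap.id src l k0 U ∈ grG (fldU U) :=
  K0_mem B P LinearMap.id src fldU (fun _ _ h => fldU_mono h) single_mem_fldU hs l k0 U

theorem noSrc_mem (k : Fin 0) (_ : ((noSrc G (Ge (Fld G))).Ys k).Nonempty) :
    (noSrc G (Ge (Fld G))).as k ∈ grG (fldU ((noSrc G (Ge (Fld G))).Ys k)) := k.elim0



theorem K0_noSrc_mem (l k0 : ℕ) (U : Finset (G × G)) :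
    B.K0 P LinearMap.id (noSrc G (Ge (Fld G))) l k0 U ∈ grG (fldU U) :=
  K0_fldU B P _ noSrc_mem l k0 U


section bond

variable {m : ℕ} (e : Fin m → Bkgx683.EG G)

theorem single_mem_fldUS (h : HE G) :
    LinearMap.inl ℝ (Fld G) (Src m) (Finsupp.single h 1) ∈ fldUS (fun i => faE (e i)) {h.1} :=
  ⟨single_mem_fldU h, fun _ hi => absurd rfl hi⟩

theorem tau_mem_fldUS (k : Fin m) :
    (tau k : Ge (VS (Fld G) m)) ∈ grG (fldUS (fun i => faE (e i)) (faE (e k))) := by
  obtain ⟨f, hf⟩ := faE_nonempty (e k)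
  refine bi_mem_grG ⟨zero_mem _, fun i hi => ?_⟩ ⟨zero_mem _, fun i hi => ?_⟩
  · have : i = k := by
      by_contra hne
      exact hi (by rw [th]; exact Pi.single_eq_of_ne hne _)
    subst this
    exact ⟨f, hf, hf⟩
  · have : i = k := by
      by_contra hne
      exact hi (by rw [th']; exact Pi.single_eq_of_ne hne _)
    subst this
    exact ⟨f, hf, hf⟩


theorem K0_fldUS (l k0 : ℕ) (U : Finset (G × G)) :
    B.K0 P (LinearMap.inl ℝ (Fld G) (Src m)) (bondSrc (Fld G) e) l k0 U ∈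
      grG (fldUS (fun i => faE (e i)) U) :=
  K0_mem (V := VS (Fld G) m) B P (LinearMap.inl ℝ (Fld G) (Src m)) (bondSrc (Fld G) e)
    (fldUS fun i => faE (e i)) (fun _ _ h => fldUS_mono (fun i => faE (e i)) h)
    (single_mem_fldUS e) (fun k _ => tau_mem_fldUS e k) l k0 U

end bond

/-! ### connectedness -/

omit [DecidableEq G] in
theorem cn_nat (n : ℕ) : cn ((n : ℕ) : G) ≤ n := by
  induction n with
  | zero => rw [Nat.cast_zero, CN.cn_zero]
  | succ n ih =>
    rw [Nat.cast_succ]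
    exact (CN.cn_add _ _).trans (Nat.add_le_add ih CN.cn_one)

omit [DecidableEq G] in
theorem cn_int (n : ℤ) : cn ((n : ℤ) : G) ≤ n.natAbs := by
  rcases Int.natAbs_eq n with h | h
  · rw [h, Int.cast_natCast, Int.natAbs_natCast]; exact cn_nat _
  · rw [h, Int.cast_neg, Int.cast_natCast, CN.cn_neg, Int.natAbs_neg, Int.natAbs_natCast]
    exact cn_nat _

omit [DecidableEq G] in
theorem fd_fz (u : G × G) {a b : ℤ × ℤ} {s : ℕ} (h1 : (a.1 - b.1).natAbs ≤ s)
    (h2 : (a.2 - b.2).natAbs ≤ s) : fd (fz u a) (fz u b) ≤ s := by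
  unfold fd fz cz
  have e1 : (u + ((a.1 : G), (a.2 : G))).1 - (u + ((b.1 : G), (b.2 : G))).1 =
      ((a.1 - b.1 : ℤ) : G) := by
    simp only [Prod.fst_add]; push_cast; ring
  have e2 : (u + ((a.1 : G), (a.2 : G))).2 - (u + ((b.1 : G), (b.2 : G))).2 =
      ((a.2 - b.2 : ℤ) : G) := by
    simp only [Prod.snd_add]; push_cast; ring
  rw [e1, e2]
  exact max_le ((cn_int _).trans h1) ((cn_int _).trans h2)

theorem shape_diam (u : G × G) {S : Finset (ℤ × ℤ)} {R : ℕ} (hS : S ⊆ bx R) :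
    ∀ x ∈ (Yf S).image (fz u), ∀ y ∈ (Yf S).image (fz u), fd x y ≤ 2 * R + 1 := by
  intro x hx y hy
  obtain ⟨a, ha, rfl⟩ := Finset.mem_image.1 hx
  obtain ⟨b, hb, rfl⟩ := Finset.mem_image.1 hy
  have ha' := Yf_subset hS ha
  have hb' := Yf_subset hS hb
  simp only [Finset.mem_product, Finset.mem_Icc] at ha' hb'
  exact fd_fz u (by omega) (by omega)

theorem faE_diam (e : Bkgx683.EG G) : ∀ x ∈ faE e, ∀ y ∈ faE e, fd x y ≤ 1 := by
  have h : fd (pe e).1 (qe e).1 ≤ 1 := by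
    obtain ⟨z, j⟩ := e
    have hj : j = 0 ∨ j = 1 := by
      fin_cases j
      · exact Or.inl rfl
      · exact Or.inr rfl
    rcases hj with rfl | rfl
    · rw [pe_zero, qe_zero]
      unfold fd
      have e1 : z.1 - (z - (0, 1)).1 = 0 := by simp
      have e2 : z.2 - (z - (0, 1)).2 = 1 := by simp
      rw [e1, e2, CN.cn_zero]
      exact max_le (Nat.zero_le _) CN.cn_one
    · rw [pe_one, qe_one]
      unfold fd
      have e1 : (z - (1, 0)).1 - z.1 = -1 := by simp
      have e2 : (z - (1, 0)).2 - z.2 = 0 := by simp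
      rw [e1, e2, CN.cn_zero, CN.cn_neg]
      exact max_le CN.cn_one (Nat.zero_le _)
  intro x hx y hy
  unfold faE at hx hy
  rw [Finset.mem_insert, Finset.mem_singleton] at hx hy
  rcases hx with rfl | rfl <;> rcases hy with rfl | rfl
  · rw [fd_self]; exact Nat.zero_le _
  · exact h
  · rw [fd_comm]; exact h
  · rw [fd_self]; exact Nat.zero_le _

/-- **connectedness** of the supports, range `2R+1` -/
theorem K00_conn (ι : Fld G →ₗ[ℝ] V) (src : Srcs κ G (Ge V))
    (hs : ∀ k, Packx915.Conn fd (2 * P.R + 1) (src.Ys k)) {U : Finset (G × G)}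
    (hU : B.K00 P ι src U ≠ 0) : Packx915.Conn fd (2 * P.R + 1) U := by
  refine K0Locx950.K0_conn (frG ι) (B.bk P src) (d := fd) (fun a => fd_self a) ?_ hU
  intro i hi _
  rcases i with p | f | e | k
  · exact Packx915.conn_of_diam (shape_diam p.1 (J4Defx653.mem_Can.1 hi.1.1).1)
  · exact Packx915.conn_singleton f
  · exact Packx915.conn_of_diam fun x hx y hy => (faE_diam e x hx y hy).trans (by omega)
  · exact hs k

theorem noSrc_conn (A : Type*) [CommRing A] (R : ℕ) (k : Fin 0) :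
    Packx915.Conn fd R ((noSrc G A).Ys k) := k.elim0

theorem bondSrc_conn {m : ℕ} (e : Fin m → Bkgx683.EG G) {R : ℕ} (hR : 1 ≤ R) (k : Fin m) :
    Packx915.Conn fd R ((bondSrc V e).Ys k) :=
  Packx915.conn_of_diam fun x hx y hy => (faE_diam (e k) x hx y hy).trans hR

/-- **connectedness** of the supports of the reclustered activities -/
theorem K0_conn (ι : Fld G →ₗ[ℝ] V) (src : Srcs κ G (Ge V)) {l k0 : ℕ}
    (hR : 2 * P.R + 1 ≤ nearR l k0 0)
    (hs : ∀ k, Packx915.Conn fd (2 * P.R + 1) (src.Ys k)) {U : Finset (G × G)}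
    (hU : B.K0 P ι src l k0 U ≠ 0) : Packx915.Conn fd (nearR l k0 0) U :=
  K1_conn Bridgex915.pd_fd hR (fun _ h => K00_conn B P ι src hs h) hU

end loc

/-! ### the volume of a domain -/

section dom

/-- the faces with a corner in `T` -/
def Wf (T : Finset (ℤ × ℤ)) : Finset (ℤ × ℤ) :=
  T ∪ (T.image fun z => (z.1 - 1, z.2)) ∪ (T.image fun z => (z.1, z.2 - 1)) ∪
    T.image fun z => (z.1 - 1, z.2 - 1)

theorem mem_Wf {T : Finset (ℤ × ℤ)} {f : ℤ × ℤ} : f ∈ Wf T ↔ cor T f := by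
  unfold Wf cor
  simp only [Finset.mem_union, Finset.mem_image]
  constructor
  · rintro (((h | ⟨z, hz, rfl⟩) | ⟨z, hz, rfl⟩) | ⟨z, hz, rfl⟩)
    · exact Or.inl h
    · exact Or.inr (Or.inl (by simpa using hz))
    · exact Or.inr (Or.inr (Or.inl (by simpa using hz)))
    · exact Or.inr (Or.inr (Or.inr (by simpa using hz)))
  · rintro (h | h | h | h)
    · exact Or.inl (Or.inl (Or.inl h))
    · exact Or.inl (Or.inl (Or.inr ⟨_, h, by simp⟩))
    · exact Or.inl (Or.inr ⟨_, h, by simp⟩)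
    · exact Or.inr ⟨_, h, by simp⟩

variable {T : Finset (ℤ × ℤ)} {b : BoundaryCondition} {n : ℕ} {X : Fin n → ℤ × ℤ} {P : MPar}
variable {κ : Type} [DecidableEq κ] [Fintype κ]
variable {V : Type*} [AddCommGroup V] [Module ℝ V]

theorem sc_off {f : ℤ × ℤ} (hf : f ∉ Wf T) : (Bg.dom T b X).sc P f = 1 := by
  unfold Bg.sc
  exact if_neg fun h => hf (mem_Wf.2 h)

theorem bk_s_off {A : Type*} [CommRing A] [Algebra ℝ A] (src : Srcs κ ℤ A) {f : ℤ × ℤ}
    (hf : f ∉ Wf T) : ((Bg.dom T b X).bk P src).s f = 1 := sc_off hf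

/-- **the volume** contains everything which is needed -/
structure Vol (T : Finset (ℤ × ℤ)) (b : BoundaryCondition) (R : ℕ) {κ : Type}
    (Ys : κ → Finset (ℤ × ℤ)) (Λ : Finset (ℤ × ℤ)) : Prop where
  W : Wf T ⊆ Λ
  nb : ∀ h : HE ℤ, h.1 ∈ Wf T → (bar h).1 ∈ Λ
  BB : ∀ S ∈ BB T b R, Yf S ⊆ Λ
  src : ∀ k, Ys k ⊆ Λ

theorem Vol.mono {R : ℕ} {Ys : κ → Finset (ℤ × ℤ)} {Λ Λ' : Finset (ℤ × ℤ)} (h : Λ ⊆ Λ')
    (v : Vol T b R Ys Λ) : Vol T b R Ys Λ' :=
  ⟨v.W.trans h, fun k hk => h (v.nb k hk), fun S hS => (v.BB S hS).trans h,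
    fun k => (v.src k).trans h⟩


/-- the volume contains the supports of the live labels -/
theorem Vol.live {src : Srcs κ ℤ (Ge V)} {Λ : Finset (ℤ × ℤ)}
    (v : Vol T b P.R src.Ys Λ) (ι : Fld ℤ →ₗ[ℝ] V) (i : Ix ℤ κ)
    (hi : ((Bg.dom T b X).bk P src).okI i) (hd : ¬ dead (frG ι) ((Bg.dom T b X).bk P src) i) :
    ((Bg.dom T b X).bk P src).YI i ⊆ Λ := by
  rcases i with p | f | e | k
  · have h1 : tr p.2 p.1 ∈ J4Defx653.BB T b P.R := hi.2
    have h2 := v.BB _ h1
    rw [Yf_tr] at h2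
    have h3 : (fun f : ℤ × ℤ => f + p.1) = fz p.1 := by
      funext f; unfold fz cz; rw [add_comm]; simp
    rwa [h3] at h2
  · change ({f} : Finset (ℤ × ℤ)) ⊆ Λ
    rw [Finset.singleton_subset_iff]
    by_contra hf
    apply hd
    left
    have hs : ((Bg.dom T b X).bk P src).s f = 1 := bk_s_off src fun h => hf (v.W h)
    have hc : ((Bg.dom T b X).bk P src).cI f = 0 := by
      unfold Bk.cI; rw [hs]; ring
    change ((Bg.dom T b X).bk P src).cI f • _ + _ = _
    rw [hc]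
    simp
  · change faE e ⊆ Λ
    by_cases hp : (pe e).1 ∈ Wf T
    · have hq := v.nb (pe e) hp
      rw [bar_pe] at hq
      unfold faE
      rw [Finset.insert_subset_iff, Finset.singleton_subset_iff]
      exact ⟨v.W hp, hq⟩
    · by_cases hq : (qe e).1 ∈ Wf T
      · have hp' := v.nb (qe e) hq
        rw [bar_qe] at hp'
        unfold faE
        rw [Finset.insert_subset_iff, Finset.singleton_subset_iff]
        exact ⟨hp', v.W hq⟩
      · exfalso
        apply hd
        left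
        change (_ * (((Bg.dom T b X).bk P src).s (pe e).1 *
          ((Bg.dom T b X).bk P src).s (qe e).1 - 1)) • _ = _
        rw [bk_s_off src hp, bk_s_off src hq]
        simp
  · exact v.src k

/-- **supports** of the activities of 126 -/
theorem Vol.supp {src : Srcs κ ℤ (Ge V)} {Λ : Finset (ℤ × ℤ)} (v : Vol T b P.R src.Ys Λ)
    (ι : Fld ℤ →ₗ[ℝ] V) (U : Finset (ℤ × ℤ)) (hU : ¬ U ⊆ Λ) :
    (Bg.dom T b X).K00 P ι src U = 0 :=
  K0_supp (frG ι) _ (v.live ι) hU

/-- **supports** of the reclustered activities -/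
theorem Vol.supp1 {src : Srcs κ ℤ (Ge V)} {Λ : Finset (ℤ × ℤ)} (v : Vol T b P.R src.Ys Λ)
    (ι : Fld ℤ →ₗ[ℝ] V) (l k0 : ℕ) (U : Finset (ℤ × ℤ)) (hU : ¬ U ⊆ Λ) :
    (Bg.dom T b X).K0 P ι src l k0 U = 0 :=
  K1_supp (fun W hW => v.supp ι W hW) hU

/-- the sources inside the volume -/
theorem Vol.srcs {A : Type*} [CommRing A] [Algebra ℝ A] {src : Srcs κ ℤ A}
    {Λ : Finset (ℤ × ℤ)} (v : Vol T b P.R src.Ys Λ) (hne : ∀ k, (src.Ys k).Nonempty) :
    ((Bg.dom T b X).bk P src).srcs Λ = univ := by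
  ext k
  simp only [Bk.srcs, Finset.mem_filter, Finset.mem_univ, true_and, iff_true]
  exact ⟨hne k, v.src k⟩



end dom

end Crest.Agent.R165.JVolx950
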