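import Crest.Agent.R165.K0Iso_900
import Crest.Agent.R165.Bkg_683

/-!
# Row 165 (S0250): the initial activities of the backgrounds of `Bkg_683` correspond (helper900)

* `K0_bg` : general statement for two backgrounds `B`, `B'` and `b : BgIso B.w B'.w Z`
* `hK0_same` : domain with insertions / domain with other insertions (same sites), `τ = id`
* `hK0_dom_pl` : domain / plane (with or without branch point) in the interior, `τ = id`
* `hK0_top` : all shapes allowed and all fields rescaled on both sides (plane, branch point, torus)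
-/

set_option autoImplicit false
set_option linter.unusedSectionVars false

noncomputable section

open Crest.ProbabilityR.IsingModel
open Crest.Agent.R165.Gr0x606 Crest.Agent.R165.Gr1x606 Crest.Agent.R165.Latx683
open Crest.Agent.R165.GDefx387 Crest.Agent.R165.GeOpsx337 Crest.Agent.R165.BgIsox432
open Crest.Agent.R165.J4K0x126 Crest.Agent.R165.J4K0Mapx126 Crest.Agent.R165.J4Geox126
open Crest.Agent.R165.J4Lnkx653 Crest.Agent.R165.J4Defx653 Crest.Agent.R165.J4RRx653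
open Crest.Agent.R165.KInitx892 Crest.Agent.R165.KMapx892 Crest.Agent.R165.GSysx387
open Crest.Agent.R165.Bkgx683 (Bg MPar noSrc frG cor)
open Crest.Agent.R165.K0Isox900 Crest.Agent.R165.DomGeox900

namespace Crest.Agent.R165.K0IsoBx900

variable {G G' : Type} [CommRing G] [CN G] [DecidableEq G] [CommRing G'] [CN G'] [DecidableEq G']

theorem frG_id : frG (LinearMap.id : Fld G →ₗ[ℝ] Fld G) = frV G := rfl

/-- **the initial activities of two backgrounds correspond** -/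
theorem K0_bg {B : Bg G} {B' : Bg G'} {Z : Set (G × G)} (b : BgIso B.w B'.w Z) (P : MPar)
    (l k0 : ℕ) {U : Finset (G × G)} (hU : ∀ f ∈ U, ball f 1 ⊆ Z)
    (htch : ∀ f ∈ U, (B.tch f ↔ B'.tch (b.τ f)))
    (hok : ∀ u ∈ U, ∀ S ∈ Can P.R, Even S.card → (Yf S).image (fz u) ⊆ U →
      (B.ok P.R u S ↔ B'.ok P.R (b.τ u) S)) :
    mpG b.push (B.K0 P LinearMap.id (noSrc G (Ge (Fld G))) l k0 U) =
      B'.K0 P LinearMap.id (noSrc G' (Ge (Fld G'))) l k0 (U.image b.τ) := by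
  refine K1_iso b l k0 (fun f hf => hU f hf (mem_ball_self f 1)) fun U₁ hU₁ _ => ?_
  show mpG b.push ((B.bk P (noSrc G (Ge (Fld G)))).K0 (frG LinearMap.id) U₁) =
    (B'.bk P (noSrc G' (Ge (Fld G')))).K0 (frG LinearMap.id) (U₁.image b.τ)
  rw [frG_id, frG_id]
  refine K0_iso b (fun f hf => hU f (hU₁ hf)) (fun _ => rfl) (fun _ => rfl) (fun f hf => ?_) rfl
    (fun _ _ _ => rfl) fun u hu S hS hev hSU => hok u (hU₁ hu) S hS hev (hSU.trans hU₁)
  show B.sc P f = B'.sc P (b.τ f)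
  unfold Bg.sc
  by_cases h : B.tch f
  · rw [if_pos h, if_pos ((htch f (hU₁ hf)).1 h)]
  · rw [if_neg h, if_neg fun h' => h ((htch f (hU₁ hf)).2 h')]

theorem ball_of_nbhd {Z : Set (G × G)} {l k0 : ℕ} {U : Finset (G × G)}
    (h : nbhd (s2 * rr l k0 0) U ⊆ Z) {f : G × G} (hf : f ∈ U) : ball f 1 ⊆ Z := by
  refine ((ball_subset_nbhd hf).trans (nbhd_mono ?_)).trans h
  have h1 := rr_pos l k0 0
  have h2 : s2 = 128 := rfl
  rw [h2]
  omega

/-- all shapes allowed, all fields rescaled -/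
theorem hK0_top {B : Bg G} {B' : Bg G'} {Z : Set (G × G)} (b : BgIso B.w B'.w Z) (P : MPar)
    (l k0 : ℕ) (h1 : ∀ f, B.tch f) (h2 : ∀ f, B'.tch f) (h3 : ∀ u S, B.ok P.R u S)
    (h4 : ∀ u S, B'.ok P.R u S) (U : Finset (G × G)) (_ : U.Nonempty)
    (hU : nbhd (s2 * rr l k0 0) U ⊆ Z) :
    mpG b.push (B.K0 P LinearMap.id (noSrc G (Ge (Fld G))) l k0 U) =
      B'.K0 P LinearMap.id (noSrc G' (Ge (Fld G'))) l k0 (U.image b.τ) :=
  K0_bg b P l k0 (fun _ hf => ball_of_nbhd hU hf) (fun _ _ => ⟨fun _ => h2 _, fun _ => h1 _⟩)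
    fun _ _ _ _ _ _ => ⟨fun _ => h4 _ _, fun _ => h3 _ _⟩

/-! ### domains -/


theorem mem_tr_fz {S : Finset (ℤ × ℤ)} {u v : ℤ × ℤ} (hv : v ∈ tr S u) :
    ∃ z ∈ S, v = fz u z := by
  rw [mem_tr] at hv
  refine ⟨v - u, hv, ?_⟩
  unfold fz cz
  ext <;> simp

/-- shapes inside the domain are allowed -/
theorem ok_of_corners {T : Finset (ℤ × ℤ)} {bc : BoundaryCondition} {R : ℕ} {u : ℤ × ℤ}
    {S : Finset (ℤ × ℤ)} (hS : S ∈ Can R) {U : Finset (ℤ × ℤ)}
    (hSU : (Yf S).image (fz u) ⊆ U) (hT : ∀ f ∈ U, f ∈ T) : tr S u ∈ BB T bc R := by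
  have hsub : tr S u ⊆ T := by
    intro v hv
    obtain ⟨z, hz, rfl⟩ := mem_tr_fz hv
    exact hT _ (hSU (Finset.mem_image_of_mem _ (subset_Yf S hz)))
  rw [mem_BB]
  refine ⟨hsub.trans subset_thick, fun _ => hsub, ?_⟩
  rw [Finset.inter_eq_left.2 hsub]
  obtain ⟨z, hz⟩ := Can.nonempty hS
  exact ⟨z + u, mem_tr.2 (by rw [add_sub_cancel_right]; exact hz)⟩


end Crest.Agent.R165.K0IsoBx900
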