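import Crest.Agent.R165.SysDeepT_898
import Crest.Agent.R165.K0IsoB_900
import Crest.Agent.R165.JVol_950
import Crest.Agent.R165.Out_683
import Crest.Agent.R165.Comp2_889
import Crest.Agent.R165.Crude_386
import Crest.Agent.R165.GeoDefs_416

/-!
# Row 165 (S0250), block G/P: (I2) on the frozen backgrounds of `Bkg_683` (helper898)

* `Away src mk` : every source sees a mark (`noSrc` with any marks; `realSrc f₀ S t` with `f₀ ∈ mk`)
* `K0_away` : initial activities away from the sources, through any chart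
* `NoIso T` : the complement of `T` has no isolated sites; `noIso_latReg`, `noIso_ball` (discs)
* `cornersIn_of_pl` : plane-like regions of a domain lie inside the domain
* `PlOK B` : in plane-like regions the fields and the shapes are those of the plane; `plOK_pl`,
  `plOK_br`, `plOK_dom`;  `PlOK.init`, `init_tor` : the initial activities
* `deep_Z`, `deep_tor` : `NK` of the deep part of `(B.flow ..).K n` is at most the norm of the plane,
  any marks and sources, amplitude `a ≤ a'`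
* `NP_Z`, `NP_tor` and the literal forms `NP_fl`, `NP_fl_emb`, `NP_flt`, `NP_torF`, `NP_torFt` :
  **the hypothesis `NP (em k) k ≤ b k` of `Comp2_889.comp`** from `PlBd` (bound of the plane)
-/

set_option autoImplicit false
set_option linter.unusedSectionVars false

noncomputable section

open scoped ENNReal
open Crest.ProbabilityR.IsingModel
open Crest.Agent.R165.Gr0x606 Crest.Agent.R165.Gr1x606 Crest.Agent.R165.Latx683
open Crest.Agent.R165.GDefx387 Crest.Agent.R165.GeOpsx337 Crest.Agent.R165.KFlowx337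
open Crest.Agent.R165.BgIsox432 Crest.Agent.R165.GSysx387 Crest.Agent.R165.FRDPolyx439
open Crest.Agent.R165.DefRecx915 Crest.Agent.R165.SysDeepx898 Crest.Agent.R165.NSumx915
open Crest.Agent.R165.Bkgx683 Crest.Agent.R165.Outx683 Crest.Agent.R165.PEndx683
open Crest.Agent.R165.J4K0x126 Crest.Agent.R165.J4K0Mapx126 Crest.Agent.R165.J4Geox126
open Crest.Agent.R165.J4Lnkx653 (frV)
open Crest.Agent.R165.J4Defx653 (tr BB Can)
open Crest.Agent.R165.K0Isox900 Crest.Agent.R165.K0IsoBx900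
open Crest.Agent.R165.Compx889 Crest.Agent.R165.TorChartx723

namespace Crest.Agent.R165.DeepBgx898

/-! ### initial activities away from the sources -/

section src

variable {G G' : Type} [CommRing G] [CN G] [DecidableEq G] [CommRing G'] [CN G'] [DecidableEq G']
variable {κ κ' : Type} [DecidableEq κ] [Fintype κ] [DecidableEq κ'] [Fintype κ']

/-- every source sees a mark -/
def Away {A : Type*} [CommRing A] (src : Srcs κ G A) (mk : Finset (G × G)) : Prop :=
  ∀ k, (src.Ys k).Nonempty → ∃ f ∈ src.Ys k, f ∈ mk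

theorem away_noSrc (A : Type*) [CommRing A] (mk : Finset (G × G)) : Away (noSrc G A) mk :=
  fun k => k.elim0


/-- **the initial activities away from the sources**, through any chart -/
theorem K0_away {B : Bg G} {B' : Bg G'} {Z : Set (G × G)} (b : BgIso B.w B'.w Z) (P : MPar)
    (l k0 : ℕ) {U : Finset (G × G)} (hU : ∀ f ∈ U, ball f 1 ⊆ Z)
    (htch : ∀ f ∈ U, (B.tch f ↔ B'.tch (b.τ f)))
    (hok : ∀ u ∈ U, ∀ S ∈ Can P.R, Even S.card → (Yf S).image (fz u) ⊆ U →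
      (B.ok P.R u S ↔ B'.ok P.R (b.τ u) S))
    (src : Srcs κ G (Ge (Fld G))) (src' : Srcs κ' G' (Ge (Fld G')))
    (hs : ∀ k, (src.Ys k).Nonempty → ¬ src.Ys k ⊆ U)
    (hs' : ∀ k, (src'.Ys k).Nonempty → ¬ src'.Ys k ⊆ U.image b.τ) :
    mpG b.push (B.K0 P LinearMap.id src l k0 U) =
      B'.K0 P LinearMap.id src' l k0 (U.image b.τ) := by
  refine K1_iso b l k0 (fun f hf => hU f hf (mem_ball_self f 1)) fun U₁ hU₁ _ => ?_
  have hsc : ∀ f ∈ U₁, (B.bk P src).s f = (B'.bk P src').s (b.τ f) := by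
    intro f hf
    show B.sc P f = B'.sc P (b.τ f)
    unfold Bg.sc
    by_cases h : B.tch f
    · rw [if_pos h, if_pos ((htch f (hU₁ hf)).1 h)]
    · rw [if_neg h, if_neg fun h' => h ((htch f (hU₁ hf)).2 h')]
  have hc : Chart0 (frV G) (B.bk P src) (frV G') (B'.bk P src') b.τ (fun _ : κ => (none : Option κ'))
      (mpG b.push) U₁ :=
    chart0_of (A := Ge (Fld G)) (A' := Ge (Fld G')) b (fun f hf => hU f (hU₁ hf))
      (hb_V b fun f hf => hU f (hU₁ hf)) (fun f _ => hI_V b f) (fun _ => rfl) (fun _ => rfl)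
      hsc rfl (fun _ _ _ => rfl)
      (fun u hu S hS hev hSU => hok u (hU₁ hu) S hS hev (hSU.trans hU₁))
      (fun k hk hkU => absurd (hkU.trans hU₁) (hs k hk))
      (fun k hk hkU => absurd (hkU.trans hU₁) (hs k hk))
      fun k hk hkU => absurd (hkU.trans (Finset.image_subset_image hU₁)) (hs' k hk)
  exact K0_chart hc

theorem Away.not_sub {src : Srcs κ G (Ge (Fld G))} {mk U : Finset (G × G)} (h : Away src mk)
    (hU : ∀ f ∈ U, f ∉ mk) (k : κ) (hk : (src.Ys k).Nonempty) : ¬ src.Ys k ⊆ U := by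
  intro hs
  obtain ⟨f, hf, hm⟩ := h k hk
  exact hU f (hs hf) hm

end src

/-! ### plane-like regions of a domain lie inside the domain -/

/-- the complement of `T` has no isolated sites -/
def NoIso (T : Set (ℤ × ℤ)) : Prop :=
  ∀ z, z ∉ T → ∃ j : Fin 2, z + unitVec j ∉ T ∨ z - unitVec j ∉ T

theorem noIso_latReg {T : Set (ℤ × ℤ)} {ρ κ : ℝ} (h : Geo.LatReg T ρ κ) (hρ : 1 ≤ ρ) :
    NoIso T := by
  intro z hz
  obtain ⟨k, G, G', hk⟩ := h z
  have h0 : 0 ≤ G 0 := by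
    have h1 := (hk.mem (0, 0) (by simpa using by linarith) (by simpa using by linarith))
    have h2 : rotate^[k] ((0, 0) : ℤ × ℤ) = (0, 0) := by
      induction k with
      | zero => rfl
      | succ k ih => exact Function.iterate_fixed (by simp [rotate]) _
    rw [h2] at h1
    have h3 : z + ((0, 0) : ℤ × ℤ) = z := by ext <;> simp
    rw [h3] at h1
    have h4 := fun h => hz (h1.2 h)
    simpa using h4
  have h5 : z + rotate^[k] ((0, -1) : ℤ × ℤ) ∉ T := by
    intro hc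
    have := (hk.mem (0, -1) (by simpa using by linarith) (by simpa using by linarith)).1 hc
    simp at this
    linarith
  have h6 : rotate^[k] ((0, -1) : ℤ × ℤ) = (0, -1) ∨ rotate^[k] ((0, -1) : ℤ × ℤ) = (1, 0) ∨
      rotate^[k] ((0, -1) : ℤ × ℤ) = (0, 1) ∨ rotate^[k] ((0, -1) : ℤ × ℤ) = (-1, 0) := by
    clear h5 hk
    induction k with
    | zero => exact Or.inl rfl
    | succ k ih =>
      rw [Function.iterate_succ_apply']
      rcases ih with ih | ih | ih | ih <;> rw [ih] <;> simp [rotate]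
  rcases h6 with h6 | h6 | h6 | h6 <;> rw [h6] at h5
  · exact ⟨1, Or.inr (by
      have : z - unitVec 1 = z + (0, -1) := by ext <;> simp [unitVec, sub_eq_add_neg]
      rw [this]; exact h5)⟩
  · exact ⟨0, Or.inl (by simpa [unitVec] using h5)⟩
  · exact ⟨1, Or.inl (by simpa [unitVec] using h5)⟩
  · exact ⟨0, Or.inr (by
      have : z - unitVec 0 = z + (-1, 0) := by ext <;> simp [unitVec, sub_eq_add_neg]
      rw [this]; exact h5)⟩

/-- discs, at every mesh -/
theorem noIso_ball (a B : ℝ) : NoIso (domainSites (Metric.ball (0 : ℂ) B) a) := by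
  intro z hz
  have hn : ∀ v : ℤ × ℤ, v ∈ domainSites (Metric.ball (0 : ℂ) B) a ↔ ‖meshPoint a v‖ < B := by
    intro v
    show meshPoint a v ∈ Metric.ball (0 : ℂ) B ↔ _
    rw [Metric.mem_ball, dist_zero_right]
  have hle : ∀ v : ℤ × ℤ, |(z.1 : ℝ)| ≤ |(v.1 : ℝ)| → v.2 = z.2 →
      ‖meshPoint a z‖ ≤ ‖meshPoint a v‖ := by
    intro v h1 h2
    rw [← sq_le_sq₀ (norm_nonneg _) (norm_nonneg _), ← Complex.normSq_eq_norm_sq,
      ← Complex.normSq_eq_norm_sq, Complex.normSq_apply, Complex.normSq_apply]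
    simp only [meshPoint, h2]
    have h3 := sq_le_sq.2 h1
    have h4 : 0 ≤ a ^ 2 * ((v.1 : ℝ) ^ 2 - (z.1 : ℝ) ^ 2) :=
      mul_nonneg (sq_nonneg _) (by linarith)
    nlinarith
  rw [hn] at hz
  rcases le_total 0 z.1 with h | h
  · refine ⟨0, Or.inl ?_⟩
    rw [hn]
    intro hc
    refine hz (lt_of_le_of_lt (hle _ ?_ ?_) hc)
    · have h' : (0 : ℝ) ≤ z.1 := by exact_mod_cast h
      simp only [unitVec, if_true, Prod.fst_add, Int.cast_add, Int.cast_one]
      rw [abs_of_nonneg h', abs_of_nonneg (by linarith)]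
      linarith
    · simp [unitVec]
  · refine ⟨0, Or.inr ?_⟩
    rw [hn]
    intro hc
    refine hz (lt_of_le_of_lt (hle _ ?_ ?_) hc)
    · have h' : (z.1 : ℝ) ≤ 0 := by exact_mod_cast h
      simp only [unitVec, if_true, Prod.fst_sub, Int.cast_sub, Int.cast_one]
      rw [abs_of_nonpos h', abs_of_nonpos (by linarith)]
      linarith
    · simp [unitVec]

/-! ### geometry -/

theorem xc_pos : 0 < xc := PlaneModesx901.xc_pos

theorem xc_lt_one : xc < 1 := by
  unfold xc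
  have h : Real.sqrt 2 < 2 := by
    rw [Real.sqrt_lt' (by norm_num)]
    norm_num
  linarith

theorem ray_abs {n : ℕ} (X : Fin n → ℤ × ℤ) (z : ℤ × ℤ) (j : Fin 2) : |ray X z j| = 1 := by
  unfold ray
  rw [Finset.abs_prod]
  exact Finset.prod_eq_one fun i _ => by split_ifs <;> simp

theorem dom_bond {T : Set (ℤ × ℤ)} {fr : Bool} {n : ℕ} {X : Fin n → ℤ × ℤ} {z : ℤ × ℤ}
    {j : Fin 2} (h : |wX (wDom T fr) X z j| = xc) : z ∈ T ∨ z + unitVec j ∈ T := by
  have h1 : |wDom T fr z j| = xc := by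
    have : |wX (wDom T fr) X z j| = |ray X z j| * |wDom T fr z j| := abs_mul _ _
    rw [this, ray_abs, one_mul] at h
    exact h
  unfold wDom at h1
  have x0 := xc_pos
  have x1 := xc_lt_one
  cases fr
  · simp only [Bool.false_eq_true, if_false] at h1
    by_contra hc
    rw [if_neg hc, abs_zero] at h1
    linarith
  · simp only [if_true] at h1
    by_contra hc
    rw [if_neg (fun h => hc (Or.inl h.1)), abs_one] at h1
    linarith

section pl

variable {w : BW ℤ} {Z : Set (ℤ × ℤ)}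

theorem pl_s (p : PlaneLike w Z) (f : ℤ × ℤ) : |p.s f| = 1 := by
  have h := p.sq f
  rcases mul_self_eq_one_iff.1 h with h | h <;> rw [h] <;> simp

theorem pl_E (p : PlaneLike w Z) {f : ℤ × ℤ} (hf : f ∈ Z) (hf' : (f.1 + 1, f.2) ∈ Z) :
    |w (f.1 + 1, f.2) 1| = xc := by
  have h : w (f.1 + 1, f.2) 1 = p.s f * p.s (f.1 + 1, f.2) * xc := p.wE f hf hf'
  rw [h, abs_mul, abs_mul, pl_s, pl_s, abs_of_pos xc_pos, one_mul, one_mul]

theorem pl_N (p : PlaneLike w Z) {f : ℤ × ℤ} (hf : f ∈ Z) (hf' : (f.1, f.2 + 1) ∈ Z) :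
    |w (f.1, f.2 + 1) 0| = xc := by
  have h : w (f.1, f.2 + 1) 0 = p.s f * p.s (f.1, f.2 + 1) * xc := p.wN f hf hf'
  rw [h, abs_mul, abs_mul, pl_s, pl_s, abs_of_pos xc_pos, one_mul, one_mul]

end pl

theorem site_mem {T : Set (ℤ × ℤ)} (hT : NoIso T) {fr : Bool} {n : ℕ} {X : Fin n → ℤ × ℤ}
    {Z : Set (ℤ × ℤ)} (p : PlaneLike (wX (wDom T fr) X) Z) {x y : ℤ} (h00 : (x, y) ∈ Z)
    (h10 : (x - 1, y) ∈ Z) (h01 : (x, y - 1) ∈ Z) (h11 : (x - 1, y - 1) ∈ Z) : (x, y) ∈ T := by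
  by_contra hz
  have b1 := pl_N p (f := (x, y - 1)) h01 (by simpa using h00)
  have b2 := pl_N p (f := (x - 1, y - 1)) h11 (by simpa using h10)
  have b3 := pl_E p (f := (x - 1, y)) h10 (by simpa using h00)
  have b4 := pl_E p (f := (x - 1, y - 1)) h11 (by simpa using h01)
  simp only [sub_add_cancel] at b1 b2 b3 b4
  have c1 := (dom_bond b1).resolve_left hz
  have c3 := (dom_bond b3).resolve_left hz
  have c2 := dom_bond b2
  have c4 := dom_bond b4
  have e2 : ((x - 1, y) : ℤ × ℤ) + unitVec 0 = (x, y) := by ext <;> simp [unitVec]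
  have e4 : ((x, y - 1) : ℤ × ℤ) + unitVec 1 = (x, y) := by ext <;> simp [unitVec]
  rw [e2] at c2
  rw [e4] at c4
  have c2' := c2.resolve_right hz
  have c4' := c4.resolve_right hz
  have e5 : ((x, y) : ℤ × ℤ) - unitVec 0 = (x - 1, y) := by ext <;> simp [unitVec]
  have e6 : ((x, y) : ℤ × ℤ) - unitVec 1 = (x, y - 1) := by ext <;> simp [unitVec]
  obtain ⟨j, hj⟩ := hT _ hz
  rcases fin2 j with rfl | rfl
  · rcases hj with hj | hj
    · exact hj c1
    · rw [e5] at hj; exact hj c2'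
  · rcases hj with hj | hj
    · exact hj c3
    · rw [e6] at hj; exact hj c4'

/-- **plane-like regions of a domain lie inside the domain** -/
theorem cornersIn_of_pl {T : Set (ℤ × ℤ)} (hT : NoIso T) {fr : Bool} {n : ℕ}
    {X : Fin n → ℤ × ℤ} {Z : Set (ℤ × ℤ)} (p : PlaneLike (wX (wDom T fr) X) Z) {f : ℤ × ℤ}
    (hf : ball f 1 ⊆ Z) : cornersIn T f := by
  have hm : ∀ m n : ℤ, m.natAbs ≤ 1 → n.natAbs ≤ 1 → (f.1 + m, f.2 + n) ∈ Z :=
    fun m n hm hn => hf (mem_ball_int f hm hn)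
  have g : ∀ m n : ℤ, m = 0 ∨ m = 1 → n = 0 ∨ n = 1 → (f.1 + m, f.2 + n) ∈ T := by
    intro m n hm' hn'
    have k1 := hm m n (by omega) (by omega)
    have k2 := hm (m - 1) n (by omega) (by omega)
    have k3 := hm m (n - 1) (by omega) (by omega)
    have k4 := hm (m - 1) (n - 1) (by omega) (by omega)
    rw [← add_sub_assoc] at k2 k3 k4
    rw [← add_sub_assoc] at k4
    exact site_mem hT p k1 k2 k3 k4
  have g00 := g 0 0 (Or.inl rfl) (Or.inl rfl)
  have g10 := g 1 0 (Or.inr rfl) (Or.inl rfl)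
  have g01 := g 0 1 (Or.inl rfl) (Or.inr rfl)
  have g11 := g 1 1 (Or.inr rfl) (Or.inr rfl)
  simp only [add_zero] at g00 g10 g01
  exact ⟨g00, g10, g01, g11⟩

/-! ### initial activities of the backgrounds -/

section init

variable {κ : Type} [DecidableEq κ] [Fintype κ]

/-- in plane-like regions the background of `ℤ²` has the fields and the shapes of the plane -/
structure PlOK (B : Bg ℤ) : Prop where
  tch : ∀ (Z : Set (ℤ × ℤ)) (_ : PlaneLike B.w Z) (f : ℤ × ℤ), ball f 1 ⊆ Z → B.tch f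
  ok : ∀ (Z : Set (ℤ × ℤ)) (_ : PlaneLike B.w Z) (R : ℕ) (u : ℤ × ℤ) (S : Finset (ℤ × ℤ)),
    S ∈ Can R → (∀ f ∈ (Yf S).image (fz u), ball f 1 ⊆ Z) → B.ok R u S

theorem plOK_pl : PlOK Bg.pl := ⟨fun _ _ _ _ => trivial, fun _ _ _ _ _ _ _ => trivial⟩

theorem plOK_br (x : ℤ × ℤ) : PlOK (Bg.br x) := ⟨fun _ _ _ _ => trivial, fun _ _ _ _ _ _ _ => trivial⟩

theorem plOK_dom {T : Finset (ℤ × ℤ)} (hT : NoIso (T : Set (ℤ × ℤ))) (b : BoundaryCondition)
    {n : ℕ} (X : Fin n → ℤ × ℤ) : PlOK (Bg.dom T b X) where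
  tch _ p _ hf := Or.inl (Finset.mem_coe.1 (cornersIn_of_pl hT p hf).1)
  ok _ p _ _ _ hS h := ok_of_corners hS (Finset.Subset.refl _) fun f hf =>
    Finset.mem_coe.1 (cornersIn_of_pl hT p (h f hf)).1

/-- **the initial activities of a background of `ℤ²`** are those of the plane in the unmarked
plane-like regions -/
theorem PlOK.init {B : Bg ℤ} (h : PlOK B) (P : MPar) {mk : Finset (ℤ × ℤ)}
    {src : Srcs κ ℤ (Ge (Fld ℤ))} (hs : Away src mk) (l k0 : ℕ) :
    Init B.w mk l k0 (B.K0 P LinearMap.id src l k0)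
      (Bg.pl.K0 P LinearMap.id (noSrc ℤ (Ge (Fld ℤ))) l k0) := by
  intro U Z p _ hU hmk
  have hb : ∀ f ∈ U, ball f 1 ⊆ Z := fun f hf => ball_of_nbhd hU hf
  have key := K0_away (B := B) (B' := Bg.pl) (idPl p) P l k0 hb
    (fun f hf => ⟨fun _ => trivial, fun _ => h.tch Z p f (hb f hf)⟩)
    (fun u _ S hS _ hSU => ⟨fun _ => trivial, fun _ =>
      h.ok Z p P.R u S hS fun f hf => hb f (hSU hf)⟩) src (noSrc ℤ (Ge (Fld ℤ)))
    (fun k hk => hs.not_sub (fun f hf => hmk f (hb f hf (mem_ball_self f 1))) k hk)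
    (fun k => k.elim0)
  rw [idPl_τ, Finset.image_id] at key
  exact key


end init

/-! ### (I2) -/

/-- the plane-like part is monotone in the predicate -/
theorem NK_em_mono {G : Type} [CommRing G] [CN G] {w : BW G} {a : ℝ} {r : ℕ} {Γ : ℝ≥0∞}
    {p p' : Finset (G × G) → Prop} {K : Finset (G × G) → Gr (Fld G)} (h : ∀ U, p U → p' U) :
    NK w a r Γ p K ≤ NK w a r Γ p' K := NKDefx915.NK_mono fun U hU => ⟨h U hU, le_rfl⟩

section main

variable {κ : Type} [DecidableEq κ] [Fintype κ] {c : Cst} {P : MPar}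

/-- locality of the sources -/
def SrcLoc {G : Type} [CommRing G] [CN G] [DecidableEq G] (src : Srcs κ G (Ge (Fld G))) : Prop :=
  ∀ k, (src.Ys k).Nonempty → src.as k ∈ grG (fldU (src.Ys k))

theorem srcLoc_noSrc {G : Type} [CommRing G] [CN G] [DecidableEq G] :
    SrcLoc (noSrc G (Ge (Fld G))) := fun k => k.elim0


/-- **(I2)**, backgrounds of `ℤ²`, any marks and sources -/
theorem deep_Z {B : Bg ℤ} (hB : PlOK B) (hl : 5 ≤ c.p * (c.k0 + 1)) {mk : Finset (ℤ × ℤ)}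
    {src : Srcs κ ℤ (Ge (Fld ℤ))} (hs : Away src mk) (hloc : SrcLoc src) (n : ℕ) {a a' : ℝ}
    (ha : a ≤ a') (Γ : ℝ≥0∞) {em : Finset (ℤ × ℤ) → Prop}
    (hem : ∀ U, em U → emM B.w (mk : Set (ℤ × ℤ)) (rr c.p c.k0 n) U) :
    NK B.w a (rr c.p c.k0 n) Γ em
        (fun U => (((B.flow P DD mk src c.p c.k0).K n U : Ge (Fld ℤ)) : Gr (Fld ℤ))) ≤
      NK (wPl ℤ) a' (rr c.p c.k0 n) Γ (fun _ => True)
        (fun U => (((plF c P).K n U : Ge (Fld ℤ)) : Gr (Fld ℤ))) := by
  refine (NK_em_mono hem).trans ((sys_deep DD hl (by norm_num)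
    (fun U => JVolx950.K0_fldU B P src hloc c.p c.k0 U) (hB.init P hs c.p c.k0) n a Γ).trans
    ((NK_em_mono fun U _ => trivial).trans (Crudex386.NK_amp_mono _ ha _ _ _ _)))


/-- **the hypothesis `NP (em k) k ≤ ε q^k` of `Comp2_889.comp`**, backgrounds of `ℤ²`: `a` =
amplitudes of the background, `a'` = amplitudes of the bound of the plane -/
theorem NP_Z {B : Bg ℤ} (hB : PlOK B) (hl : 5 ≤ c.p * (c.k0 + 1)) {mk : Finset (ℤ × ℤ)}
    {src : Srcs κ ℤ (Ge (Fld ℤ))} (hs : Away src mk) (hloc : SrcLoc src) {a a' : ℕ → ℝ}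
    {Γ : ℝ≥0∞} {em : ℕ → Finset (ℤ × ℤ) → Prop} {K : ℕ} {b : ℕ → ℝ≥0∞}
    (hem : ∀ k, k ≤ K → ∀ U, em k U → emM B.w (mk : Set (ℤ × ℤ)) (rr c.p c.k0 k) U)
    (ha : ∀ k, k ≤ K → a k ≤ a' k)
    (hX : ∀ k, k ≤ K → NK (wPl ℤ) (a' k) (rr c.p c.k0 k) Γ (fun _ => True)
      (fun U => (((plF c P).K k U : Ge (Fld ℤ)) : Gr (Fld ℤ))) ≤ b k) (k : ℕ) (hk : k ≤ K) :
    NP (B.flow P DD mk src c.p c.k0) B.w a (rr c.p c.k0) Γ (em k) k ≤ b k :=
  (deep_Z hB hl hs hloc k (ha k hk) Γ (hem k hk)).trans (hX k hk)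


end main

/-! ### literal forms -/

section literal

variable {c : Cst} {P : MPar} {a a' : ℕ → ℝ} {Γ : ℝ≥0∞} {K : ℕ} {b : ℕ → ℝ≥0∞}

/-- the bound of the plane, amplitudes `a'`, bounds `b`, up to step `K` -/
def PlBd (c : Cst) (P : MPar) (a' : ℕ → ℝ) (Γ : ℝ≥0∞) (K : ℕ) (b : ℕ → ℝ≥0∞) : Prop :=
  ∀ k, k ≤ K → NK (wPl ℤ) (a' k) (rr c.p c.k0 k) Γ (fun _ => True)
    (fun U => (((plF c P).K k U : Ge (Fld ℤ)) : Gr (Fld ℤ))) ≤ b k

theorem PlBd.of_PF {J : ℝ} {R : ℕ} {V : Finset (ℤ × ℤ) → ℝ} {C lam β z : ℝ}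
    (h : PF J R V C c lam β z) (K : ℕ) : PlBd c (mpar J lam R V β z) (fun _ => c.A0)
      (ENNReal.ofReal c.Γ) K fun n => ENNReal.ofReal (C * |lam| * (1 / 4) ^ n) :=
  fun k _ => h k

/-- without sources and marks: plane, branch point, domain, disc -/
theorem NP_fl {B : Bg ℤ} (hB : PlOK B) (hl : 5 ≤ c.p * (c.k0 + 1))
    (hX : PlBd c P a' Γ K b) (ha : ∀ k, k ≤ K → a k ≤ a' k) (k : ℕ) (hk : k ≤ K) :
    NP (fl c P B) B.w a (rr c.p c.k0) Γ (emM B.w ∅ (rr c.p c.k0 k)) k ≤ b k :=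
  NP_Z (em := fun k => emM B.w ∅ (rr c.p c.k0 k)) hB hl (away_noSrc _ _) srcLoc_noSrc
    (fun k _ U hU => by rw [Finset.coe_empty]; exact hU) ha hX k hk





end literal

end Crest.Agent.R165.DeepBgx898
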