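import Crest.Agent.R165.Bridge_915
import Crest.Agent.R165.GeoLat4_416
import Crest.Agent.R165.KFlow_337
import Crest.Agent.R165.NKDef_915
import Crest.Agent.R165.GLinI_336

-- ▼ part R165/DBd_915
section

/-!
# Row 165, block G: counting the boundary of a regular lattice domain (helper915)

* `bdS_hit`   : between a site of `T` and a site outside `T` there is a boundary site
* `dcount_bd` : `DCount fd (bdS T) R r (2 R / (r / 3) + 1)` for regular `T` (`R + 1 ≤ ρ`, `6 ≤ r`)
* `close_bd`  : small polymers touching `T` and close to the complement are close to `bdS T`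
-/

set_option autoImplicit false

open Crest.ProbabilityR.IsingModel
open Crest.Agent.R165.GDefx387 Crest.Agent.R165.Packx915 Crest.Agent.R165.NSumx915
open Crest.Agent.R165.Bridgex915 Crest.Agent.R165.Geo

namespace Crest.Agent.R165.DBdx915

theorem fd_int (f g : ℤ × ℤ) : fd f g = max (f.1 - g.1).natAbs (f.2 - g.2).natAbs := rfl

theorem fd_sn (f g : ℤ × ℤ) : (fd f g : ℤ) = sn (g - f) := by
  rw [fd_int, sn, Prod.fst_sub, Prod.snd_sub, Int.abs_eq_natAbs, Int.abs_eq_natAbs]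
  omega

/-- one-dimensional intermediate value principle -/
theorem exists_switch {P : ℕ → Prop} {n : ℕ} (h0 : P 0) (hn : ¬ P n) : ∃ i < n, P i ∧ ¬ P (i + 1) := by
  induction n with
  | zero => exact absurd h0 hn
  | succ n ih =>
    by_cases h : P n
    · exact ⟨n, by omega, h, hn⟩
    · obtain ⟨i, hi, h1⟩ := ih h
      exact ⟨i, by omega, h1⟩

theorem hit_h {T : Set (ℤ × ℤ)} {x x' y : ℤ} (hu : (x, y) ∈ T) (hv : (x', y) ∉ T) :
    ∃ w ∈ bdS T, w.2 = y ∧ (w.1 - x).natAbs ≤ (x' - x).natAbs := by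
  obtain ⟨ε, hε, hx⟩ : ∃ ε : ℤ, (ε = 1 ∨ ε = -1) ∧ x' = x + ε * (x' - x).natAbs := by
    rcases le_total x x' with h | h
    · exact ⟨1, Or.inl rfl, by omega⟩
    · exact ⟨-1, Or.inr rfl, by omega⟩
  obtain ⟨i, hi, h1, h2⟩ := exists_switch (P := fun i : ℕ => (x + ε * i, y) ∈ T)
    (n := (x' - x).natAbs) (by simpa using hu) (by rw [← hx]; exact hv)
  refine ⟨(x + ε * i, y), ⟨(x + ε * ((i + 1 : ℕ) : ℤ), y), ?_, Or.inl ⟨h1, h2⟩⟩, rfl, ?_⟩
  · left
    refine ⟨rfl, ?_⟩
    push_cast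
    rcases hε with rfl | rfl
    · have : x + 1 * (i : ℤ) - (x + 1 * ((i : ℤ) + 1)) = -1 := by ring
      rw [this]; rfl
    · have : x + -1 * (i : ℤ) - (x + -1 * ((i : ℤ) + 1)) = 1 := by ring
      rw [this]; rfl
  · simp only
    rcases hε with rfl | rfl
    · omega
    · omega

theorem hit_v {T : Set (ℤ × ℤ)} {x y y' : ℤ} (hu : (x, y) ∈ T) (hv : (x, y') ∉ T) :
    ∃ w ∈ bdS T, w.1 = x ∧ (w.2 - y).natAbs ≤ (y' - y).natAbs := by
  obtain ⟨ε, hε, hy⟩ : ∃ ε : ℤ, (ε = 1 ∨ ε = -1) ∧ y' = y + ε * (y' - y).natAbs := by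
    rcases le_total y y' with h | h
    · exact ⟨1, Or.inl rfl, by omega⟩
    · exact ⟨-1, Or.inr rfl, by omega⟩
  obtain ⟨i, hi, h1, h2⟩ := exists_switch (P := fun i : ℕ => (x, y + ε * i) ∈ T)
    (n := (y' - y).natAbs) (by simpa using hu) (by rw [← hy]; exact hv)
  refine ⟨(x, y + ε * i), ⟨(x, y + ε * ((i + 1 : ℕ) : ℤ)), ?_, Or.inl ⟨h1, h2⟩⟩, rfl, ?_⟩
  · right
    refine ⟨rfl, ?_⟩
    push_cast
    rcases hε with rfl | rfl
    · have : y + 1 * (i : ℤ) - (y + 1 * ((i : ℤ) + 1)) = -1 := by ring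
      rw [this]; rfl
    · have : y + -1 * (i : ℤ) - (y + -1 * ((i : ℤ) + 1)) = 1 := by ring
      rw [this]; rfl
  · simp only
    rcases hε with rfl | rfl
    · omega
    · omega

/-- between a site of `T` and a site outside `T` there is a boundary site, no further away -/
theorem bdS_hit {T : Set (ℤ × ℤ)} {u v : ℤ × ℤ} (hu : u ∈ T) (hv : v ∉ T) :
    ∃ w ∈ bdS T, fd u w ≤ fd u v := by
  by_cases h : (v.1, u.2) ∈ T
  · obtain ⟨w, hw, h1, h2⟩ := hit_v (x := v.1) (y := u.2) (y' := v.2) h hv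
    refine ⟨w, hw, ?_⟩
    rw [fd_int, fd_int]
    omega
  · obtain ⟨w, hw, h1, h2⟩ := hit_h (x := u.1) (x' := v.1) (y := u.2) hu h
    refine ⟨w, hw, ?_⟩
    rw [fd_int, fd_int]
    omega

/-- counting separated boundary sites in a box -/
theorem LocEpi.card_sep {T : Set (ℤ × ℤ)} {z : ℤ × ℤ} {ρ κ : ℝ} {k : ℕ} {G G' : ℝ → ℝ}
    (h : LocEpi T z ρ κ k G G') {s r : ℕ} (hs : (s : ℝ) + 1 ≤ ρ) (hr : 6 ≤ r)
    {S : Finset (ℤ × ℤ)} (hS : ∀ w ∈ S, w ∈ bdS T ∧ fd z w ≤ s) (hsep : Packx915.Sep fd r S) :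
    S.card ≤ 2 * s / (r / 3) + 1 := by
  classical
  obtain ⟨m, hm', hm⟩ := rotate_iter_inv k
  have hnear : ∀ w ∈ S, |((rotate^[m] (w - z)).2 : ℝ) - G (rotate^[m] (w - z)).1| ≤ 3 / 2 := by
    intro w hw
    refine h.bd_near hm ?_ (hS w hw).1
    have h1 : (sn (w - z) : ℝ) ≤ s := by
      have := (hS w hw).2
      have h2 := fd_sn z w
      have h3 : sn (w - z) ≤ (s : ℤ) := by rw [← h2]; exact_mod_cast this
      exact_mod_cast h3
    linarith
  have hbound : ∀ w ∈ S, |(rotate^[m] (w - z)).1| ≤ (s : ℤ) := by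
    intro w hw
    have h1 : sn (rotate^[m] (w - z)) ≤ (s : ℤ) := by
      rw [sn_rotate_iter, ← fd_sn]
      exact_mod_cast (hS w hw).2
    exact (sn_le.1 h1).1
  -- first coordinates are separated
  have hfar : ∀ w ∈ S, ∀ w' ∈ S, w ≠ w' →
      ((r / 3 : ℕ) : ℤ) ≤ |(rotate^[m] (w - z)).1 - (rotate^[m] (w' - z)).1| := by
    intro w hw w' hw' hne
    by_contra hlt
    rw [not_le] at hlt
    have h1 := hsep w hw w' hw' hne
    have h2 : (fd w w' : ℤ) = sn (rotate^[m] (w - z) - rotate^[m] (w' - z)) := by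
      rw [fd_comm, fd_sn, ← sn_rotate_iter m (w - w')]
      congr 1
      have h3 := rotate_iter_add m (w - w') (w' - z)
      rw [show w - w' + (w' - z) = w - z by ring] at h3
      rw [h3]; ring
    set v := rotate^[m] (w - z) with hv
    set v' := rotate^[m] (w' - z) with hv'
    have h4 := abs_le.1 (hnear w hw)
    have h5 := abs_le.1 (hnear w' hw')
    have h6 := h.lipG (v.1 : ℝ) v'.1
    have h7 : (|(v.1 : ℝ) - v'.1|) < ((r / 3 : ℕ) : ℝ) := by
      have : ((|v.1 - v'.1| : ℤ) : ℝ) < (((r / 3 : ℕ) : ℤ) : ℝ) := Int.cast_lt.2 hlt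
      rw [Int.cast_abs, Int.cast_sub, Int.cast_natCast] at this
      exact this
    have h8 : ((r / 3 : ℕ) : ℝ) ≤ (r : ℝ) / 3 := Nat.cast_div_le
    have h9 := abs_le.1 h6
    have hr' : (6 : ℝ) ≤ r := by exact_mod_cast hr
    have h10 : |(v.2 : ℝ) - v'.2| ≤ r := by
      rw [abs_le]
      constructor <;> nlinarith
    have h11 : |(v.1 : ℝ) - v'.1| ≤ r := by linarith
    have h12 : sn (v - v') ≤ (r : ℤ) := by
      rw [sn_le, Prod.fst_sub, Prod.snd_sub]
      constructor
      · have : ((|v.1 - v'.1| : ℤ) : ℝ) ≤ ((r : ℤ) : ℝ) := by push_cast; exact h11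
        exact_mod_cast this
      · have : ((|v.2 - v'.2| : ℤ) : ℝ) ≤ ((r : ℤ) : ℝ) := by push_cast; exact h10
        exact_mod_cast this
    rw [← h2] at h12
    have : (fd w w') ≤ r := by exact_mod_cast h12
    omega
  -- pigeonhole
  set q : ℤ := ((r / 3 : ℕ) : ℤ) with hq
  have hqpos : 0 < q := by
    have : 0 < r / 3 := by omega
    rw [hq]; exact_mod_cast this
  let φ : ℤ × ℤ → ℤ := fun w => ((rotate^[m] (w - z)).1 + s) / q
  have hmaps : ∀ w ∈ S, φ w ∈ Finset.Icc (0 : ℤ) ((2 * s / (r / 3) : ℕ) : ℤ) := by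
    intro w hw
    have h1 := abs_le.1 (hbound w hw)
    rw [Finset.mem_Icc]
    refine ⟨Int.ediv_nonneg (by omega) hqpos.le, ?_⟩
    have h2 : φ w ≤ (2 * (s : ℤ)) / q := Int.ediv_le_ediv hqpos (by omega)
    refine h2.trans (le_of_eq ?_)
    rw [hq]
    push_cast
    rfl
  have hinj : Set.InjOn φ (S : Set (ℤ × ℤ)) := by
    intro w hw w' hw' he
    by_contra hne
    have h1 := hfar w hw w' hw' hne
    have e1 := Int.mul_ediv_add_emod ((rotate^[m] (w - z)).1 + s) q
    have e2 := Int.mul_ediv_add_emod ((rotate^[m] (w' - z)).1 + s) q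
    have e3 := Int.emod_nonneg ((rotate^[m] (w - z)).1 + s) hqpos.ne'
    have e4 := Int.emod_nonneg ((rotate^[m] (w' - z)).1 + s) hqpos.ne'
    have e5 := Int.emod_lt_of_pos ((rotate^[m] (w - z)).1 + s) hqpos
    have e6 := Int.emod_lt_of_pos ((rotate^[m] (w' - z)).1 + s) hqpos
    have he' : ((rotate^[m] (w - z)).1 + s) / q = ((rotate^[m] (w' - z)).1 + s) / q := he
    rw [he'] at e1
    have h2 : |(rotate^[m] (w - z)).1 - (rotate^[m] (w' - z)).1| < q := by
      rw [abs_lt]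
      constructor <;> linarith
    exact absurd h1 (not_le.2 h2)
  have hcard := Finset.card_le_card_of_injOn φ hmaps hinj
  rw [Int.card_Icc] at hcard
  refine hcard.trans (le_of_eq ?_)
  generalize 2 * s / (r / 3) = N
  omega

theorem dcount_bd {T : Set (ℤ × ℤ)} {ρ κ : ℝ} (h : LatReg T ρ κ) {R r : ℕ}
    (hR : (R : ℝ) + 1 ≤ ρ) (hr : 6 ≤ r) :
    DCount fd (bdS T) R r (2 * R / (r / 3) + 1) := by
  intro f S hS hs
  obtain ⟨k, G, G', hE⟩ := h f
  exact LocEpi.card_sep hE hR hr hS hs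


end Crest.Agent.R165.DBdx915
end

-- ▼ part R165/DefRec_915

/-!
# Row 165, block G/P: one step of the defect norm of a composite background (helper915)

* `PlaneLike.mono`, `emb_anti`, `emb_of_deep` : geometry of the plane-like class
* `EmbExtr` : extraction only from small polymers, only at faces that are plane-like at the new scale
* `DStep` : per-polymer linear bounds in a background with finitely many types of defects
* `NK_lin_le`, `NK_defect` : the defect norm after one step of the flow of `KFlow_337`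
-/

set_option autoImplicit false
set_option linter.unusedSectionVars false

open scoped ENNReal
open Crest.Agent.R165.Gr0x606 Crest.Agent.R165.Gr1x606 Crest.Agent.R165.GeOpsx337
  Crest.Agent.R165.ExpGx337 Crest.Agent.R165.KFlowx337
open Crest.Agent.R165.Latx683 Crest.Agent.R165.PNormx417
open Crest.Agent.R165.GDefx387 Crest.Agent.R165.Packx915 Crest.Agent.R165.NSumx915
open Crest.Agent.R165.Bridgex915 Crest.Agent.R165.DefStepx915 Crest.Agent.R165.NKDefx915

namespace Crest.Agent.R165.DefRecx915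

variable {G : Type} [CommRing G] [CN G] [DecidableEq G]

/-! ### plane-like regions -/

/-- restriction of a plane-like chart -/
def plMono {w : BW G} {Z Z' : Set (G × G)} (p : PlaneLike w Z) (h : Z' ⊆ Z) : PlaneLike w Z' where
  τ := p.τ
  s := p.s
  sq := p.sq
  iso f hf g hg := p.iso f (h hf) g (h hg)
  e1 f hf hf' := p.e1 f (h hf) (h hf')
  e2 f hf hf' := p.e2 f (h hf) (h hf')
  wE f hf hf' := p.wE f (h hf) (h hf')
  wN f hf hf' := p.wN f (h hf) (h hf')

theorem emb_of_subset {w : BW G} {r r' : ℕ} {U U' : Finset (G × G)}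
    (h : nbhd (s2 * r) U ⊆ nbhd (s2 * r') U') (he : Emb w r' U') : Emb w r U :=
  he.map fun p => plMono p h



/-- a small polymer containing a face which is plane-like at the next scale is plane-like -/
theorem emb_of_deep [GoodG G] {w : BW G} {r r' : ℕ} {U : Finset (G × G)} {f : G × G}
    (hr : (s2 + 1) * r ≤ s2 * r') (hf : f ∈ U) (hs : size r U ≤ 1) (he : Emb w r' {f}) :
    Emb w r U := by
  rw [Bridgex915.size_eq_pack] at hs
  have hd := (pack_le_one_iff pd_fd).1 hs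
  refine emb_of_subset ?_ he
  rintro g ⟨u, hu, hg⟩
  refine ⟨f, Finset.mem_singleton_self f, ?_⟩
  have h1 := fd_triangle f u g
  have h2 := hd f hf u hu
  calc fd f g ≤ r + s2 * r := by omega
    _ = (s2 + 1) * r := by ring
    _ ≤ _ := hr

/-- plane-like and away from the marked faces (D17) -/
def emM (w : BW G) (mk : Set (G × G)) (r : ℕ) (U : Finset (G × G)) : Prop :=
  Emb w r U ∧ ∀ u ∈ U, ∀ x ∈ mk, s2 * r < fd u x

/-- the plane-like predicates at two consecutive scales -/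
def Deep (r : ℕ) (em em' : Finset (G × G) → Prop) : Prop :=
  ∀ U, ∀ f ∈ U, size r U ≤ 1 → em' {f} → em U


theorem deep_emM [GoodG G] (w : BW G) (mk : Set (G × G)) {r r' : ℕ}
    (hr : (s2 + 1) * r ≤ s2 * r') : Deep r (emM w mk r) (emM w mk r') := by
  intro U f hf hs he
  refine ⟨emb_of_deep hr hf hs he.1, fun u hu x hx => ?_⟩
  rw [Bridgex915.size_eq_pack] at hs
  have hd := (pack_le_one_iff pd_fd).1 hs f hf u hu
  have h1 := he.2 f (Finset.mem_singleton_self f) x hx
  have h2 := fd_triangle f u x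
  have h3 : (s2 + 1) * r = s2 * r + r := by ring
  omega

/-! ### extraction -/

/-- extraction only from small polymers, moved to faces that are plane-like at the new scale -/
def EmbExtr (r : ℕ) (em' : Finset (G × G) → Prop) (e : Extr (G × G) (Fld G)) : Prop :=
  ∀ U, ∀ T ∈ e.out U, size r U ≤ 1 ∧ ∃ f ∈ U, T = {f} ∧ em' {f}

variable {w : BW G} {a a' : ℝ} {r r' : ℕ} {Γ Γ' : ℝ≥0∞} {em em' : Finset (G × G) → Prop}

theorem EmbExtr.gain_eq_zero {e : Extr (G × G) (Fld G)} (he : EmbExtr r em' e)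
    (H : Finset (G × G) → Ge (Fld G)) {U : Finset (G × G)} (hU : ¬ em' U) :
    e.gain H U = 0 := by
  rw [Extr.gain]
  refine Finset.sum_eq_zero fun U' hU' => ?_
  exfalso
  obtain ⟨_, f, _, hT, hf⟩ := he U' U ((e.mem_iff U' U).2 hU')
  rw [hT] at hU
  exact hU hf

theorem EmbExtr.lost_eq_zero {e : Extr (G × G) (Fld G)} (he : EmbExtr r em' e)
    (hdeep : Deep r em em') (H : Finset (G × G) → Ge (Fld G)) {U : Finset (G × G)}
    (hU : ¬ em U) : e.lost H U = 0 := by
  rw [Extr.lost]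
  refine Finset.sum_eq_zero fun T hT => ?_
  exfalso
  obtain ⟨hs, f, hfU, _, hf⟩ := he U T hT
  exact hU (hdeep U f hfU hs hf)

theorem EmbExtr.lost_large {e : Extr (G × G) (Fld G)} (he : EmbExtr r em' e)
    (H : Finset (G × G) → Ge (Fld G)) {U : Finset (G × G)}
    (hU : 2 ≤ size r U) : e.lost H U = 0 := by
  rw [Extr.lost]
  refine Finset.sum_eq_zero fun T hT => ?_
  exfalso
  obtain ⟨hs, _⟩ := he U T hT
  omega

/-! ### per-polymer linear bounds -/

/-- linear bounds for the active polymers `ac` of a background with defect types `κ`: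
`A i` = defect set, `m i` = distance of the small defect polymers from it, `N i` = number of
`r`-separated points of `A i` in a ball, `q i` = gain of the small polymers of type `i`;
`qL` = gain of the large polymers (with room: `Γ' ≥ Γ` at the new scale), `qT` = factor of the
small polymers -/
structure DStep (w : BW G) (a a' : ℝ) (r r' : ℕ) (Γ Γ' : ℝ≥0∞) (S : Cov (Fld G))
    (ac em : Finset (G × G) → Prop) {κ : Type*} (A : κ → Set (G × G)) (m N : κ → ℕ)
    (q : κ → ℝ≥0∞) (qL qT : ℝ≥0∞) : Prop where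
  count : ∀ i, DCount fd (A i) (r' + m i) r (N i)
  q_ne : ∀ i, q i ≠ 0
  qL_ne : qL ≠ 0
  qT_ne : qT ≠ 0
  large : ∀ U, ac U → 2 ≤ size r U → ∀ K : Ge (Fld G), pG (wU w a r U) K ≠ ∞ →
    Γ' ^ size r' U * pG (wU w a' r' U) (cvG S K) ≤ qL * (Γ ^ size r U * pG (wU w a r U) K)
  small : ∀ U, ac U → size r U ≤ 1 → ¬ em U →
    ∃ i, (∀ u ∈ U, ∃ x ∈ A i, fd u x ≤ m i) ∧ ∀ K : Ge (Fld G), pG (wU w a r U) K ≠ ∞ →
      pG (wU w a' r' U) (nl (cvG S K)) ≤ q i * pG (wU w a r U) K
  any : ∀ U, ac U → size r U ≤ 1 → ∀ K : Ge (Fld G), pG (wU w a r U) K ≠ ∞ →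
    pG (wU w a' r' U) (cvG S K) ≤ qT * pG (wU w a r U) K

theorem pG_nl_le (v : Fld G → ℝ≥0∞) (x : Ge (Fld G)) : pG v (nl x) ≤ pG v x := by
  have h : ((nl x : Ge (Fld G)) : Gr (Fld G)) = GLinx336.noct (x : Gr (Fld G)) := by
    rw [nl, Ge.coe_sub, ge_coe_algebraMap, GLinx336.noct, ctG_apply]
  rw [pG_def, h]
  exact GLinx336.pnorm_noct_le v _

/-- the vacuum part of the flow is the constant part -/
def VacCt (D : Sys (G × G) (Fld G)) : Prop := ∀ x, D.vac x = algebraMap ℝ _ (ctG x)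

section step

variable {κ : Type*} [Fintype κ] {A : κ → Set (G × G)} {m N : κ → ℕ} {q : κ → ℝ≥0∞} {qL qT CX : ℝ≥0∞}
  {ac : Finset (G × G) → Prop}

/-- **linear part of the step**, defect norm -/
theorem NK_lin_le [GoodG G] (D : Sys (G × G) (Fld G)) (k : ℕ)
    (H : DStep w a a' r r' Γ Γ' (D.S k) ac em A m N q qL qT) (hr : 0 < r) (hrr : r ≤ r')
    (hdeep : Deep r em em') (hΓ : 1 ≤ Γ) (hΓΓ : Γ ≤ Γ')
    (hac : ∀ U, D.K k U ≠ 0 → ac U) (hne : ∀ U, ac U → U.Nonempty)
    (hvac : VacCt D) (he : EmbExtr r em' (D.e k))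
    (hlost : ∀ U, ac U → em U → ¬ em' U → size r U ≤ 1 →
      pG (wU w a' r' U) ((D.e k).lost (D.H k) U) ≤ CX * pG (wU w a r U) (D.K k U)) :
    NK w a' r' Γ (fun U => ¬ em' U)
        (fun U => ((D.H k U + D.A k U : Ge (Fld G)) : Gr (Fld G))) ≤
      (qL * (((2 * (r' / r) + 3) ^ 2 : ℕ) : ℝ≥0∞) +
        ∑ i, q i * ((N i * (2 * ((m i + r) / r) + 3) ^ 2 : ℕ) : ℝ≥0∞)) *
          NK w a r Γ (fun U => ¬ em U) (fun U => ((D.K k U : Ge (Fld G)) : Gr (Fld G)))
      + (qL + (qT + CX)) * (((2 * (r' / r) + 3) ^ 2 : ℕ) : ℝ≥0∞) *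
          NK w a r Γ (fun U => em U) (fun U => ((D.K k U : Ge (Fld G)) : Gr (Fld G))) := by
  classical
  have key := NK_defect_step (w := w) (a := a) (a' := a') (r := r) (r' := r') (Γ := Γ) hr hrr A m N q
    qL (qL + (qT + CX)) H.count (fun U => ¬ em U) (fun U => ¬ em' U)
    (fun U => ((D.K k U : Ge (Fld G)) : Gr (Fld G)))
    (fun U => ((D.H k U + D.A k U : Ge (Fld G)) : Gr (Fld G))) ?_
  · simpa only [not_not] using key
  intro U hp' hne0
  -- the linear part vanishes if the activity vanishes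
  have hgain : (D.e k).gain (D.H k) U = 0 := he.gain_eq_zero _ hp'
  have hlin : D.H k U + D.A k U = nl (D.H k U) - (D.e k).lost (D.H k) U := by
    rw [Sys.A, AA, hgain, hvac, nl]; ring
  have hK0 : D.K k U ≠ 0 := by
    intro h0
    apply hne0
    have hH : D.H k U = 0 := by rw [Sys.H, h0, map_zero]
    have hl : (D.e k).lost (D.H k) U = 0 := by
      rw [Extr.lost]
      exact Finset.sum_eq_zero fun T _ => by rw [hH, map_zero]
    rw [hlin, hl, hH]
    simp [nl]
  have hacU := hac U hK0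
  have hUne := hne U hacU
  simp only [hlin]
  by_cases hfin : pG (wU w a r U) (D.K k U) = ∞
  · -- infinite activity: trivial
    have hΓ0 : Γ ^ size r U ≠ 0 := pow_ne_zero _ (lt_of_lt_of_le one_pos hΓ).ne'
    by_cases hE : em U
    · right; left
      refine ⟨not_not.2 hE, ?_⟩
      rw [← pG_def (wU w a r U), hfin, ENNReal.mul_top hΓ0, ENNReal.mul_top]
      · exact le_top
      · intro h
        exact H.qL_ne (add_eq_zero.1 h).1
    · left
      refine ⟨hE, ?_⟩
      rw [← pG_def (wU w a r U), hfin, ENNReal.mul_top hΓ0, ENNReal.mul_top H.qL_ne]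
      exact le_top
  by_cases hs : size r U ≤ 1
  · by_cases hE : em U
    · right; left
      refine ⟨not_not.2 hE, ?_⟩
      have h1 : pG (wU w a' r' U) (nl (D.H k U) - (D.e k).lost (D.H k) U) ≤
          (qT + CX) * pG (wU w a r U) (D.K k U) := by
        refine (pG_sub_le _ _ _).trans ?_
        rw [add_mul]
        exact add_le_add ((pG_nl_le _ _).trans (H.any U hacU hs _ hfin))
          (hlost U hacU hE hp' hs)
      have h2 : Γ ^ size r' U ≤ Γ ^ size r U := by
        rw [Bridgex915.size_eq_pack, Bridgex915.size_eq_pack]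
        exact pow_le_pow_right₀ hΓ (pack_anti hrr)
      calc Γ ^ size r' U * pnorm (wU w a' r' U)
            ((nl (D.H k U) - (D.e k).lost (D.H k) U : Ge (Fld G)) : Gr (Fld G))
          ≤ Γ ^ size r U * ((qT + CX) * pG (wU w a r U) (D.K k U)) := mul_le_mul' h2 h1
        _ = (qT + CX) * (Γ ^ size r U * pG (wU w a r U) (D.K k U)) := by ring
        _ ≤ (qL + (qT + CX)) * (Γ ^ size r U * pG (wU w a r U) (D.K k U)) :=
          mul_le_mul' le_add_self le_rfl
    · right; right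
      obtain ⟨i, hi1, hi2⟩ := H.small U hacU hs hE
      refine ⟨i, hE, hUne, hs, hi1, ?_⟩
      rw [he.lost_eq_zero hdeep _ hE, sub_zero]
      exact hi2 _ hfin
  · have hs' : 2 ≤ size r U := by omega
    have h1 : Γ ^ size r' U * pG (wU w a' r' U) (nl (D.H k U) - (D.e k).lost (D.H k) U) ≤
        qL * (Γ ^ size r U * pG (wU w a r U) (D.K k U)) := by
      rw [he.lost_large _ hs', sub_zero]
      exact (mul_le_mul' (pow_le_pow_left₀ zero_le hΓΓ _) (pG_nl_le _ _)).trans
        (H.large U hacU hs' _ hfin)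
    by_cases hE : em U
    · right; left
      exact ⟨not_not.2 hE, h1.trans (mul_le_mul' le_self_add le_rfl)⟩
    · left
      exact ⟨hE, h1⟩

/-- **one step of the defect norm** (P6-DEFECT): old defect norm with the factor of the linear
step, plus the plane-like norm, plus the quadratic remainder -/
theorem NK_defect [GoodG G] (D : Sys (G × G) (Fld G)) (k : ℕ)
    (H : DStep w a a' r r' Γ Γ' (D.S k) ac em A m N q qL qT) (hr : 0 < r) (hrr : r ≤ r')
    (hdeep : Deep r em em') (hΓ : 1 ≤ Γ) (hΓΓ : Γ ≤ Γ')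
    (hac : ∀ U, D.K k U ≠ 0 → ac U) (hne : ∀ U, ac U → U.Nonempty)
    (hvac : VacCt D) (he : EmbExtr r em' (D.e k))
    (hlost : ∀ U, ac U → em U → ¬ em' U → size r U ≤ 1 →
      pG (wU w a' r' U) ((D.e k).lost (D.H k) U) ≤ CX * pG (wU w a r U) (D.K k U))
    {Y : ℝ≥0∞} (hquad : NK w a' r' Γ (fun U => U.Nonempty)
      (fun U => ((D.B k U - D.A k U + D.Q k U : Ge (Fld G)) : Gr (Fld G))) ≤ Y) :
    NK w a' r' Γ (fun U => ¬ em' U) (fun U => ((D.K (k + 1) U : Ge (Fld G)) : Gr (Fld G))) ≤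
      (qL * (((2 * (r' / r) + 3) ^ 2 : ℕ) : ℝ≥0∞) +
        ∑ i, q i * ((N i * (2 * ((m i + r) / r) + 3) ^ 2 : ℕ) : ℝ≥0∞)) *
          NK w a r Γ (fun U => ¬ em U) (fun U => ((D.K k U : Ge (Fld G)) : Gr (Fld G)))
      + (qL + (qT + CX)) * (((2 * (r' / r) + 3) ^ 2 : ℕ) : ℝ≥0∞) *
          NK w a r Γ (fun U => em U) (fun U => ((D.K k U : Ge (Fld G)) : Gr (Fld G)))
      + Y := by
  have hlin := NK_lin_le (CX := CX) D k H hr hrr hdeep hΓ hΓΓ hac hne hvac he hlost
  refine le_trans ?_ (add_le_add hlin hquad)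
  have h1 : NK w a' r' Γ (fun U => ¬ em' U)
      (fun U => ((D.K (k + 1) U : Ge (Fld G)) : Gr (Fld G))) ≤
      NK w a' r' Γ (fun U => ¬ em' U ∧ U.Nonempty)
      (fun U => ((D.H k U + D.A k U : Ge (Fld G)) : Gr (Fld G)) +
        ((D.B k U - D.A k U + D.Q k U : Ge (Fld G)) : Gr (Fld G))) := by
    rw [NK_eq_NN, NK_eq_NN]
    refine NN_mono fun U => ?_
    by_cases hp : ¬ em' U
    · by_cases hU : U.Nonempty
      · rw [act_of hp, act_of (p := fun U => ¬ em' U ∧ U.Nonempty) ⟨hp, hU⟩]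
        refine le_of_eq ?_
        congr 1
        rw [D.K_succ_eq k hU, ← Ge.coe_add]
        congr 1
        ring
      · rw [act_of hp]
        rw [Finset.not_nonempty_iff_eq_empty.1 hU, D.K_empty k]
        simp
    · rw [act_not hp]
      exact zero_le
  refine h1.trans ((NK_add_le _ _ _ _ _ _ _).trans (add_le_add ?_ ?_))
  · exact NK_mono fun U hU => ⟨hU.1, le_rfl⟩
  · exact NK_mono fun U hU => ⟨hU.2, le_rfl⟩

end step

end Crest.Agent.R165.DefRecx915
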