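import Mathlib
import Crest.Agent.R165.GeoDefs_416
import Crest.Agent.R158.Jt2_785

-- ▼ part R165/GeoA_65
section

/-!
# Row 165, block GEO (helper65), file A: quantitative facts about a `C²` regular simple closed curve

`C2Curve γ` packages the hypotheses of `IsC2JordanDomain`.  Main results (all constants depend on
`γ` only):

* `exists_speed`        : `c ≤ ‖γ'‖ ≤ C`;
* `exists_taylor`       : `‖γ s - γ t - (s-t) γ' t‖ ≤ C |s-t|²`, `‖γ' s - γ' t‖ ≤ C |s-t|`;
* `exists_chord_arc`    : `κ |s-t| ≤ ‖γ s - γ t‖` for `|s-t| ≤ 1/2`;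
* `exists_reach`        : `|Im (conj (γ' t) (γ s - γ t))| ≤ K ‖γ' t‖ ‖γ s - γ t‖²` for all `s t`
                          (positive reach);
* `ball_disj`           : the open balls of radius `≤ 1/(2K)` touching the curve do not meet it.
-/

set_option autoImplicit false

open Set Topology Filter Metric

namespace Crest.Agent.R165.GeoAx65

/-- the curves of `IsC2JordanDomain` -/
structure C2Curve (γ : ℝ → ℂ) : Prop where
  smooth : ContDiff ℝ 2 γ
  per : Function.Periodic γ 1
  inj : Set.InjOn γ (Set.Ico 0 1)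
  reg : ∀ t : ℝ, deriv γ t ≠ 0

namespace C2Curve

variable {γ : ℝ → ℂ}

theorem cont (h : C2Curve γ) : Continuous γ := h.smooth.continuous

theorem diff (h : C2Curve γ) : Differentiable ℝ γ := h.smooth.differentiable (by norm_num)

theorem hasDeriv (h : C2Curve γ) (t : ℝ) : HasDerivAt γ (deriv γ t) t := (h.diff t).hasDerivAt

theorem smooth_deriv (h : C2Curve γ) : ContDiff ℝ 1 (deriv γ) := by
  have h1 : ContDiff ℝ (1 + 1) γ := by
    have : (1 + 1 : WithTop ℕ∞) = 2 := by norm_num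
    rw [this]; exact h.smooth
  exact ((contDiff_succ_iff_deriv (n := 1)).1 h1).2.2

theorem cont_deriv (h : C2Curve γ) : Continuous (deriv γ) := h.smooth_deriv.continuous

theorem diff_deriv (h : C2Curve γ) : Differentiable ℝ (deriv γ) :=
  h.smooth_deriv.differentiable (by norm_num)

theorem cont_deriv2 (h : C2Curve γ) : Continuous (deriv (deriv γ)) := by
  have := h.smooth_deriv
  exact (contDiff_one_iff_deriv.1 this).2

theorem per_deriv (h : C2Curve γ) : Function.Periodic (deriv γ) 1 := by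
  intro t
  have : (fun x => γ (x + 1)) = γ := funext fun x => h.per x
  have h2 := deriv_comp_add_const γ 1 t
  rw [this] at h2
  exact h2.symm

theorem per_deriv2 (h : C2Curve γ) : Function.Periodic (deriv (deriv γ)) 1 := by
  intro t
  have : (fun x => deriv γ (x + 1)) = deriv γ := funext fun x => h.per_deriv x
  have h2 := deriv_comp_add_const (deriv γ) 1 t
  rw [this] at h2
  exact h2.symm

/-- a continuous 1-periodic real function is bounded above -/
theorem bdd_of_per {F : ℝ → ℝ} (hF : Continuous F) (hp : Function.Periodic F 1) :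
    ∃ C : ℝ, ∀ t, F t ≤ C := by
  obtain ⟨x, -, hx⟩ := isCompact_Icc.exists_isMaxOn (nonempty_Icc.2 (zero_le_one (α := ℝ)))
    hF.continuousOn
  refine ⟨F x, fun t => ?_⟩
  obtain ⟨y, hy, hyt⟩ := hp.exists_mem_Ico₀ one_pos t
  rw [hyt]
  exact hx ⟨hy.1, hy.2.le⟩

/-- a continuous 1-periodic real positive function is bounded below by a positive constant -/
theorem pos_of_per {F : ℝ → ℝ} (hF : Continuous F) (hp : Function.Periodic F 1)
    (h0 : ∀ t, 0 < F t) : ∃ c : ℝ, 0 < c ∧ ∀ t, c ≤ F t := by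
  obtain ⟨x, -, hx⟩ := isCompact_Icc.exists_isMinOn (nonempty_Icc.2 (zero_le_one (α := ℝ)))
    hF.continuousOn
  refine ⟨F x, h0 x, fun t => ?_⟩
  obtain ⟨y, hy, hyt⟩ := hp.exists_mem_Ico₀ one_pos t
  rw [hyt]
  exact hx ⟨hy.1, hy.2.le⟩

theorem per_norm_deriv (h : C2Curve γ) : Function.Periodic (fun t => ‖deriv γ t‖) 1 := fun t => by
  show ‖deriv γ (t + 1)‖ = ‖deriv γ t‖
  rw [h.per_deriv t]

theorem per_norm_deriv2 (h : C2Curve γ) : Function.Periodic (fun t => ‖deriv (deriv γ) t‖) 1 :=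
  fun t => by
  show ‖deriv (deriv γ) (t + 1)‖ = ‖deriv (deriv γ) t‖
  rw [h.per_deriv2 t]

theorem exists_speed (h : C2Curve γ) :
    ∃ c C : ℝ, 0 < c ∧ 0 < C ∧ (∀ t, c ≤ ‖deriv γ t‖) ∧ (∀ t, ‖deriv γ t‖ ≤ C) ∧
      ∀ t, ‖deriv (deriv γ) t‖ ≤ C := by
  obtain ⟨c, hc0, hc⟩ := pos_of_per (F := fun t => ‖deriv γ t‖) h.cont_deriv.norm
    h.per_norm_deriv (fun t => norm_pos_iff.2 (h.reg t))
  obtain ⟨C1, hC1⟩ := bdd_of_per (F := fun t => ‖deriv γ t‖) h.cont_deriv.norm h.per_norm_deriv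
  obtain ⟨C2, hC2⟩ := bdd_of_per (F := fun t => ‖deriv (deriv γ) t‖) h.cont_deriv2.norm
    h.per_norm_deriv2
  refine ⟨c, max C1 C2, hc0, ?_, hc, fun t => (hC1 t).trans (le_max_left _ _),
    fun t => (hC2 t).trans (le_max_right _ _)⟩
  exact (hc0.trans_le ((hc 0).trans (hC1 0))).trans_le (le_max_left _ _)

/-- `γ'` is Lipschitz -/
theorem deriv_lip (h : C2Curve γ) {C : ℝ} (hC : ∀ t, ‖deriv (deriv γ) t‖ ≤ C) (s t : ℝ) :
    ‖deriv γ s - deriv γ t‖ ≤ C * |s - t| := by
  have := Convex.norm_image_sub_le_of_norm_deriv_le (f := deriv γ) (s := univ) (x := t) (y := s)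
    (C := C) (fun x _ => h.diff_deriv x) (fun x _ => hC x) convex_univ (mem_univ _) (mem_univ _)
  simpa [Real.norm_eq_abs] using this

/-- second order Taylor bound -/
theorem taylor2 (h : C2Curve γ) {C : ℝ} (hC : ∀ t, ‖deriv (deriv γ) t‖ ≤ C) (s t : ℝ) :
    ‖γ s - γ t - (s - t : ℝ) • deriv γ t‖ ≤ C * |s - t| ^ 2 := by
  set g : ℝ → ℂ := fun x => γ x - (x - t : ℝ) • deriv γ t with hg
  have hgd : ∀ x, HasDerivAt g (deriv γ x - deriv γ t) x := fun x => by
    have h1 : HasDerivAt (fun x : ℝ => (x - t : ℝ) • deriv γ t) ((1 : ℝ) • deriv γ t) x :=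
      ((hasDerivAt_id x).sub_const t).smul_const (deriv γ t)
    rw [one_smul] at h1
    exact (h.hasDeriv x).sub h1
  have hC0 : 0 ≤ C := (norm_nonneg _).trans (hC 0)
  have hb : ∀ x ∈ uIcc t s, ‖deriv γ x - deriv γ t‖ ≤ C * |s - t| := fun x hx => by
    refine (h.deriv_lip hC x t).trans (mul_le_mul_of_nonneg_left ?_ hC0)
    exact abs_sub_left_of_mem_uIcc hx
  have h2 := Convex.norm_image_sub_le_of_norm_hasDerivWithin_le (f := g)
    (f' := fun x => deriv γ x - deriv γ t) (s := uIcc t s) (x := t) (y := s)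
    (C := C * |s - t|) (fun x _ => (hgd x).hasDerivWithinAt) hb (convex_uIcc t s)
    left_mem_uIcc right_mem_uIcc
  have h3 : g s - g t = γ s - γ t - (s - t : ℝ) • deriv γ t := by
    simp [hg]; ring
  rw [h3, Real.norm_eq_abs] at h2
  calc _ ≤ C * |s - t| * |s - t| := h2
    _ = C * |s - t| ^ 2 := by ring

/-- injectivity modulo `1` -/
theorem inj_mod (h : C2Curve γ) {s t : ℝ} (e : γ s = γ t) : ∃ k : ℤ, s = t + k := by
  have h0 : ∀ u : ℝ, γ (Int.fract u) = γ u := fun u => by
    have := h.per.sub_int_mul_eq (x := u) ⌊u⌋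
    rwa [mul_one, Int.self_sub_floor] at this
  have h1 := h0 s
  have h2 := h0 t
  have h3 : Int.fract s = Int.fract t := h.inj ⟨Int.fract_nonneg s, Int.fract_lt_one s⟩
    ⟨Int.fract_nonneg t, Int.fract_lt_one t⟩ (by rw [h1, h2, e])
  refine ⟨⌊s⌋ - ⌊t⌋, ?_⟩
  have := Int.floor_add_fract s
  have := Int.floor_add_fract t
  push_cast
  linarith

/-- chord-arc estimate -/
theorem exists_chord_arc (h : C2Curve γ) :
    ∃ κ : ℝ, 0 < κ ∧ ∀ s t : ℝ, |s - t| ≤ 1 / 2 → κ * |s - t| ≤ ‖γ s - γ t‖ := by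
  obtain ⟨c, C, hc0, hC0, hc, -, hC⟩ := h.exists_speed
  set δ : ℝ := min (1 / 2) (c / (2 * C)) with hδ
  have hδ0 : 0 < δ := lt_min (by norm_num) (by positivity)
  -- near the diagonal
  have hnear : ∀ s t : ℝ, |s - t| ≤ δ → c / 2 * |s - t| ≤ ‖γ s - γ t‖ := fun s t hst => by
    have h1 := h.taylor2 hC s t
    have h2 : ‖(s - t : ℝ) • deriv γ t‖ = |s - t| * ‖deriv γ t‖ := by
      rw [norm_smul, Real.norm_eq_abs]
    have h3 : ‖(s - t : ℝ) • deriv γ t‖ ≤ ‖γ s - γ t‖ + ‖γ s - γ t - (s - t : ℝ) • deriv γ t‖ := by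
      have := norm_sub_le (γ s - γ t) (γ s - γ t - (s - t : ℝ) • deriv γ t)
      simpa using this
    have h4 : C * |s - t| ^ 2 ≤ c / 2 * |s - t| := by
      have h5 : C * |s - t| ≤ c / 2 := by
        have : |s - t| ≤ c / (2 * C) := hst.trans (min_le_right _ _)
        calc C * |s - t| ≤ C * (c / (2 * C)) := mul_le_mul_of_nonneg_left this hC0.le
          _ = c / 2 := by field_simp
      calc C * |s - t| ^ 2 = (C * |s - t|) * |s - t| := by ring
        _ ≤ c / 2 * |s - t| := mul_le_mul_of_nonneg_right h5 (abs_nonneg _)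
    have h6 : c * |s - t| ≤ |s - t| * ‖deriv γ t‖ := by
      rw [mul_comm]; exact mul_le_mul_of_nonneg_left (hc t) (abs_nonneg _)
    nlinarith
  -- far from the diagonal, by compactness
  set P : Set (ℝ × ℝ) := {p | p.2 ∈ Icc (0:ℝ) 1 ∧ δ ≤ |p.1 - p.2| ∧ |p.1 - p.2| ≤ 1 / 2} with hP
  have hPc : IsCompact P := by
    have h1 : IsCompact (Icc (-1:ℝ) 2 ×ˢ Icc (0:ℝ) 1) := isCompact_Icc.prod isCompact_Icc
    refine h1.of_isClosed_subset ?_ ?_
    · refine (isClosed_Icc.preimage continuous_snd).inter ?_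
      have hc1 : Continuous (fun p : ℝ × ℝ => |p.1 - p.2|) :=
        (continuous_fst.sub continuous_snd).abs
      exact (isClosed_le continuous_const hc1).inter (isClosed_le hc1 continuous_const)
    · rintro ⟨s, t⟩ ⟨ht, -, hst⟩
      have := abs_le.1 hst
      simp only [mem_Icc] at ht
      exact ⟨⟨by linarith [this.1], by linarith [this.2]⟩, ht⟩
  have hcont : Continuous (fun p : ℝ × ℝ => ‖γ p.1 - γ p.2‖) :=
    ((h.cont.comp continuous_fst).sub (h.cont.comp continuous_snd)).norm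
  obtain ⟨m, hm0, hm⟩ : ∃ m : ℝ, 0 < m ∧ ∀ p ∈ P, m ≤ ‖γ p.1 - γ p.2‖ := by
    rcases P.eq_empty_or_nonempty with he | hne
    · exact ⟨1, one_pos, fun p hp => by rw [he] at hp; exact absurd hp (notMem_empty _)⟩
    · obtain ⟨p, hp, hmin⟩ := hPc.exists_isMinOn hne hcont.continuousOn
      refine ⟨‖γ p.1 - γ p.2‖, ?_, fun q hq => hmin hq⟩
      rw [norm_pos_iff, sub_ne_zero]
      intro e
      obtain ⟨k, hk⟩ := h.inj_mod e
      have h1 : p.1 - p.2 = k := by linarith
      have h2 := hp.2.1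
      have h3 := hp.2.2
      rw [h1] at h2 h3
      have h4 : k = 0 := by
        by_contra hk0
        have : (1:ℝ) ≤ |(k:ℝ)| := by
          have : (1:ℤ) ≤ |k| := Int.one_le_abs hk0
          exact_mod_cast this
        linarith
      rw [h4] at h2
      simp at h2
      linarith
  refine ⟨min (c / 2) (2 * m), lt_min (by positivity) (by positivity), fun s t hst => ?_⟩
  rcases le_total |s - t| δ with h1 | h1
  · exact (mul_le_mul_of_nonneg_right (min_le_left _ _) (abs_nonneg _)).trans (hnear s t h1)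
  · -- shift both parameters into the compact set
    set k : ℤ := ⌊t⌋ with hk
    have e1 : γ (s - k) = γ s := by
      have := h.per.sub_int_mul_eq (x := s) k
      simpa using this
    have e2 : γ (t - k) = γ t := by
      have := h.per.sub_int_mul_eq (x := t) k
      simpa using this
    have h2 : ((s - k, t - k) : ℝ × ℝ) ∈ P := by
      refine ⟨⟨?_, ?_⟩, ?_, ?_⟩
      · show (0:ℝ) ≤ t - k
        have := Int.floor_le t; linarith
      · show t - k ≤ (1:ℝ)
        have := Int.lt_floor_add_one t; linarith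
      · show δ ≤ |s - k - (t - k)|
        rwa [sub_sub_sub_cancel_right]
      · show |s - k - (t - k)| ≤ 1 / 2
        rwa [sub_sub_sub_cancel_right]
    have h3 := hm _ h2
    simp only [e1, e2] at h3
    calc min (c / 2) (2 * m) * |s - t| ≤ 2 * m * |s - t| :=
          mul_le_mul_of_nonneg_right (min_le_right _ _) (abs_nonneg _)
      _ ≤ 2 * m * (1 / 2) := mul_le_mul_of_nonneg_left hst (by positivity)
      _ = m := by ring
      _ ≤ _ := h3

/-- every parameter can be shifted into the window of half length `1/2` around another one -/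
theorem exists_shift (h : C2Curve γ) (s t : ℝ) : ∃ s' : ℝ, γ s' = γ s ∧ |s' - t| ≤ 1 / 2 := by
  refine ⟨s - round (s - t), ?_, ?_⟩
  · have := h.per.sub_int_mul_eq (x := s) (round (s - t))
    simpa using this
  · have := abs_sub_round (s - t)
    rwa [show s - (round (s - t) : ℝ) - t = s - t - round (s - t) by ring]



/-- the unit normal `i γ'/|γ'|` -/
noncomputable def nrm (γ : ℝ → ℂ) (t : ℝ) : ℂ := Complex.I * deriv γ t / ‖deriv γ t‖



end C2Curve

end Crest.Agent.R165.GeoAx65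
end

-- ▼ part R165/GeoB_65
section

/-!
# Row 165, block GEO (helper65), file B: the trace of a `C²` Jordan curve is uniformly locally a graph

`GraphFn M f`: `f 0 = 0`, `f` differentiable on `ℝ`, `|f' 0| ≤ 1`, `|f'| ≤ 3/2`, `f'` is `M`-Lipschitz.

`C2Curve.exists_graph`: there are `r > 0`, `M ≥ 0` such that for every `t₀` there are one of the four
lattice rotations `ω` and `f` with `GraphFn M f` such that in the box `|u| ≤ r, |v| ≤ 3 r` around
`γ t₀` (coordinates `γ t₀ + ω (u + i v)`) the trace is exactly `{v = f u}`.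
-/

set_option autoImplicit false

open Set Topology Filter Metric

namespace Crest.Agent.R165.GeoBx65

open Crest.Agent.R165.GeoAx65

/-- graph functions: slope `≤ 3/2` (`≤ 1` at the centre), `M`-Lipschitz derivative -/
structure GraphFn (M : ℝ) (f : ℝ → ℝ) : Prop where
  zero : f 0 = 0
  diff : Differentiable ℝ f
  slope0 : |deriv f 0| ≤ 1
  slope : ∀ u, |deriv f u| ≤ 3 / 2
  lip : ∀ u v, |deriv f u - deriv f v| ≤ M * |u - v|

namespace GraphFn

variable {M : ℝ} {f : ℝ → ℝ}

theorem lipf (h : GraphFn M f) (u v : ℝ) : |f u - f v| ≤ 3 / 2 * |u - v| := by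
  have := Convex.norm_image_sub_le_of_norm_deriv_le (f := f) (s := univ) (x := v) (y := u)
    (C := 3 / 2) (fun x _ => h.diff x) (fun x _ => h.slope x) convex_univ (mem_univ _) (mem_univ _)
  simpa [Real.norm_eq_abs] using this

theorem abs_le (h : GraphFn M f) (u : ℝ) : |f u| ≤ 3 / 2 * |u| := by
  have := h.lipf u 0
  simpa [h.zero] using this

theorem cont (h : GraphFn M f) : Continuous f := h.diff.continuous

theorem nonneg (h : GraphFn M f) : 0 ≤ M := by
  have := h.lip 1 0
  have h1 := abs_nonneg (deriv f 1 - deriv f 0)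
  simp at this
  linarith


/-- the graph seen upside down -/
theorem flip (h : GraphFn M f) : GraphFn M (fun u => -f (-u)) := by
  have hd : ∀ u, HasDerivAt (fun u => -f (-u)) (deriv f (-u)) u := fun u => by
    have h1 : HasDerivAt (fun u : ℝ => f (-u)) (deriv f (-u) * (-1)) u :=
      (h.diff (-u)).hasDerivAt.comp u (hasDerivAt_neg u)
    have h2 : HasDerivAt (fun u : ℝ => -f (-u)) (-(deriv f (-u) * (-1))) u := h1.neg
    rwa [mul_neg_one, neg_neg] at h2
  have hd' : ∀ u, deriv (fun u => -f (-u)) u = deriv f (-u) := fun u => (hd u).deriv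
  refine ⟨?_, fun u => (hd u).differentiableAt, ?_, fun u => ?_, fun u v => ?_⟩
  · simp [h.zero]
  · rw [hd', neg_zero]; exact h.slope0
  · rw [hd']; exact h.slope _
  · rw [hd', hd']
    refine (h.lip _ _).trans (le_of_eq ?_)
    rw [show -u - -v = -(u - v) by ring, abs_neg]

/-- recentring at another point (slope at the new centre only `≤ 2`, so this is stated raw) -/
theorem mono {M' : ℝ} (h : GraphFn M f) (hM : M ≤ M') : GraphFn M' f :=
  ⟨h.zero, h.diff, h.slope0, h.slope, fun u v =>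
    (h.lip u v).trans (mul_le_mul_of_nonneg_right hM (abs_nonneg _))⟩

end GraphFn

/-- the four lattice rotations -/
def IsRot (ω : ℂ) : Prop := ω = 1 ∨ ω = Complex.I ∨ ω = -1 ∨ ω = -Complex.I

theorem IsRot.normSq {ω : ℂ} (h : IsRot ω) : Complex.normSq ω = 1 := by
  rcases h with rfl | rfl | rfl | rfl <;> simp [Complex.normSq_neg]

theorem IsRot.norm {ω : ℂ} (h : IsRot ω) : ‖ω‖ = 1 := by
  have := h.normSq
  rw [Complex.normSq_eq_norm_sq] at this
  have h0 := norm_nonneg ω
  nlinarith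

theorem IsRot.conj_mul {ω : ℂ} (h : IsRot ω) : (starRingEnd ℂ) ω * ω = 1 := by
  rw [← Complex.normSq_eq_conj_mul_self, h.normSq]; simp

theorem IsRot.mul_conj {ω : ℂ} (h : IsRot ω) : ω * (starRingEnd ℂ) ω = 1 := by
  rw [mul_comm, h.conj_mul]

theorem IsRot.neg {ω : ℂ} (h : IsRot ω) : IsRot (-ω) := by
  rcases h with rfl | rfl | rfl | rfl
  · exact Or.inr (Or.inr (Or.inl rfl))
  · exact Or.inr (Or.inr (Or.inr rfl))
  · exact Or.inl (neg_neg _)
  · exact Or.inr (Or.inl (neg_neg _))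

/-- some lattice rotation puts a non-zero vector in the right quarter cone -/
theorem exists_rot (w : ℂ) : ∃ ω : ℂ, IsRot ω ∧
    |((starRingEnd ℂ) ω * w).im| ≤ ((starRingEnd ℂ) ω * w).re := by
  rcases le_total |w.im| |w.re| with h | h
  · rcases le_total 0 w.re with h1 | h1
    · refine ⟨1, Or.inl rfl, ?_⟩
      simpa [abs_of_nonneg h1] using h
    · refine ⟨-1, Or.inr (Or.inr (Or.inl rfl)), ?_⟩
      simpa [abs_of_nonpos h1] using h
  · rcases le_total 0 w.im with h1 | h1
    · refine ⟨Complex.I, Or.inr (Or.inl rfl), ?_⟩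
      simpa [abs_of_nonneg h1] using h
    · refine ⟨-Complex.I, Or.inr (Or.inr (Or.inr rfl)), ?_⟩
      simpa [abs_of_nonpos h1] using h

theorem re_ge_of_cone {w : ℂ} (h : |w.im| ≤ w.re) : 7 / 10 * ‖w‖ ≤ w.re := by
  have h1 : ‖w‖ ^ 2 = w.re ^ 2 + w.im ^ 2 := by
    rw [← Complex.normSq_eq_norm_sq, Complex.normSq_apply]; ring
  have h2 : w.im ^ 2 ≤ w.re ^ 2 := by
    rw [← sq_abs w.im]
    exact pow_le_pow_left₀ (abs_nonneg _) h 2
  have h3 : 0 ≤ w.re := (abs_nonneg _).trans h
  have h4 := norm_nonneg w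
  by_contra h5
  push Not at h5
  nlinarith

/-- a curve `G = ∫ H` with `Re H ≥ c > 0`, `|Im H| ≤ 3/2 Re H`, `H` Lipschitz, is a global graph -/
theorem graph_of_cone {H : ℝ → ℂ} {c C t₀ : ℝ} (hc : 0 < c)
    (hlip : ∀ s t, ‖H s - H t‖ ≤ C * |s - t|) (hre : ∀ s, c ≤ (H s).re)
    (him : ∀ s, |(H s).im| ≤ 3 / 2 * (H s).re) (h0 : |(H t₀).im| ≤ (H t₀).re)
    {G : ℝ → ℂ} (hG : ∀ s, HasDerivAt G (H s) s) (hG0 : G t₀ = 0) :
    ∃ f : ℝ → ℝ, GraphFn (3 * C / c ^ 2) f ∧ (∀ s, (G s).im = f (G s).re) ∧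
      (∀ u : ℝ, ∃ s : ℝ, (G s).re = u ∧ |s - t₀| ≤ |u| / c) := by
  have hX : ∀ s, HasDerivAt (fun s => (G s).re) (H s).re s := fun s => by
    exact (Complex.reCLM.hasFDerivAt (x := G s)).comp_hasDerivAt s (hG s)
  have hY : ∀ s, HasDerivAt (fun s => (G s).im) (H s).im s := fun s => by
    exact (Complex.imCLM.hasFDerivAt (x := G s)).comp_hasDerivAt s (hG s)
  set X : ℝ → ℝ := fun s => (G s).re with hXdef
  set Y : ℝ → ℝ := fun s => (G s).im with hYdef
  have hC0 : 0 ≤ C := by
    have := (norm_nonneg _).trans (hlip 1 0)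
    simpa using this
  have hXc : Continuous X := continuous_iff_continuousAt.2 fun s => (hX s).continuousAt
  have hXm : StrictMono X := strictMono_of_deriv_pos fun s => by
    rw [(hX s).deriv]; exact hc.trans_le (hre s)
  -- expansion of `X`
  have hexp : ∀ s t, s ≤ t → c * (t - s) ≤ X t - X s := fun s t hst => by
    have hm : Monotone (fun s => X s - c * s) := by
      have hd : ∀ s, HasDerivAt (fun s => X s - c * s) ((H s).re - c) s := fun s => by
        have h1 : HasDerivAt (fun s : ℝ => c * s) (c * 1) s := (hasDerivAt_id s).const_mul c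
        rw [mul_one] at h1
        exact (hX s).sub h1
      refine monotone_of_deriv_nonneg (fun s => (hd s).differentiableAt) fun s => ?_
      rw [(hd s).deriv]
      linarith [hre s]
    have := hm hst
    simp only at this
    linarith
  have hexp' : ∀ s t, c * |t - s| ≤ |X t - X s| := fun s t => by
    rcases le_total s t with hst | hst
    · rw [abs_of_nonneg (sub_nonneg.2 hst), abs_of_nonneg (sub_nonneg.2 (hXm.monotone hst))]
      exact hexp s t hst
    · rw [abs_sub_comm, abs_of_nonneg (sub_nonneg.2 hst), abs_sub_comm,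
        abs_of_nonneg (sub_nonneg.2 (hXm.monotone hst))]
      exact hexp t s hst
  have hX0 : X t₀ = 0 := by simp [hXdef, hG0]
  have hXsurj : Function.Surjective X := by
    refine hXc.surjective ?_ ?_
    · refine tendsto_atTop.2 fun b => ?_
      filter_upwards [eventually_ge_atTop (max t₀ (t₀ + b / c))] with s hs
      have h1 := hexp t₀ s ((le_max_left _ _).trans hs)
      have h2 : b / c ≤ s - t₀ := by linarith [(le_max_right t₀ (t₀ + b / c)).trans hs]
      have h3 : b ≤ c * (s - t₀) := by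
        calc b = c * (b / c) := by field_simp
          _ ≤ _ := mul_le_mul_of_nonneg_left h2 hc.le
      linarith
    · refine tendsto_atBot.2 fun b => ?_
      filter_upwards [eventually_le_atBot (min t₀ (t₀ + b / c))] with s hs
      have h1 := hexp s t₀ (hs.trans (min_le_left _ _))
      have h2 : s - t₀ ≤ b / c := by linarith [hs.trans (min_le_right t₀ (t₀ + b / c))]
      have h3 : c * (s - t₀) ≤ b := by
        calc c * (s - t₀) ≤ c * (b / c) := mul_le_mul_of_nonneg_left h2 hc.le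
          _ = b := by field_simp
      linarith
  set e : ℝ ≃o ℝ := hXm.orderIsoOfSurjective X hXsurj with he
  have heX : ∀ s, e s = X s := fun s => rfl
  have hXe : ∀ u, X (e.symm u) = u := fun u => by
    rw [← heX]; exact e.apply_symm_apply u
  have heX' : ∀ s, e.symm (X s) = s := fun s => by
    rw [← heX]; exact e.symm_apply_apply s
  have hec : Continuous e.symm := e.symm.continuous
  have hed : ∀ u, HasDerivAt e.symm ((H (e.symm u)).re)⁻¹ u := fun u => by
    refine HasDerivAt.of_local_left_inverse hec.continuousAt (hX (e.symm u)) ?_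
      (Eventually.of_forall fun y => hXe y)
    exact (hc.trans_le (hre _)).ne'
  have hfd : ∀ u, HasDerivAt (fun u => Y (e.symm u)) ((H (e.symm u)).im / (H (e.symm u)).re) u :=
    fun u => by
    have := (hY (e.symm u)).comp u (hed u)
    rw [← div_eq_mul_inv] at this
    exact this
  have hfd' : ∀ u, deriv (fun u => Y (e.symm u)) u = (H (e.symm u)).im / (H (e.symm u)).re :=
    fun u => (hfd u).deriv
  have he0 : e.symm 0 = t₀ := by rw [← hX0, heX']
  have hsl : ∀ u v, |e.symm u - e.symm v| ≤ |u - v| / c := fun u v => by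
    rw [le_div_iff₀ hc, mul_comm]
    have := hexp' (e.symm v) (e.symm u)
    rwa [hXe, hXe] at this
  refine ⟨fun u => Y (e.symm u), ⟨?_, fun u => (hfd u).differentiableAt, ?_, fun u => ?_,
    fun u v => ?_⟩, fun s => ?_, fun u => ⟨e.symm u, hXe u, ?_⟩⟩
  · show Y (e.symm 0) = 0
    rw [he0]; simp [hYdef, hG0]
  · rw [hfd', he0, abs_div, abs_of_pos (hc.trans_le (hre t₀)),
      div_le_one (hc.trans_le (hre t₀))]
    exact h0
  · rw [hfd', abs_div, abs_of_pos (hc.trans_le (hre _)), div_le_iff₀ (hc.trans_le (hre _))]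
    exact him _
  · rw [hfd', hfd']
    set s := e.symm u
    set t := e.symm v
    have hs0 : 0 < (H s).re := hc.trans_le (hre s)
    have ht0 : 0 < (H t).re := hc.trans_le (hre t)
    have e1 : (H s).im / (H s).re - (H t).im / (H t).re =
        ((H s).im - (H t).im) / (H s).re + (H t).im / (H t).re * (((H t).re - (H s).re) / (H s).re) := by
      field_simp
      ring
    have h1 : |(H s).im - (H t).im| ≤ C * |s - t| := by
      rw [← Complex.sub_im]
      exact (Complex.abs_im_le_norm _).trans (hlip s t)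
    have h2 : |(H t).re - (H s).re| ≤ C * |s - t| := by
      rw [abs_sub_comm, ← Complex.sub_re]
      exact (Complex.abs_re_le_norm _).trans (hlip s t)
    have h3 : |(H t).im / (H t).re| ≤ 3 / 2 := by
      rw [abs_div, abs_of_pos ht0, div_le_iff₀ ht0]; exact him t
    have h4 : C * |s - t| / (H s).re ≤ C * |s - t| / c :=
      div_le_div_of_nonneg_left (by positivity) hc (hre s)
    have h5 : C * |s - t| / c ≤ C / c ^ 2 * |u - v| := by
      have := hsl u v
      calc C * |s - t| / c ≤ C * (|u - v| / c) / c := by gcongr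
        _ = C / c ^ 2 * |u - v| := by field_simp
    rw [e1]
    calc |((H s).im - (H t).im) / (H s).re +
          (H t).im / (H t).re * (((H t).re - (H s).re) / (H s).re)|
        ≤ |((H s).im - (H t).im) / (H s).re| +
          |(H t).im / (H t).re * (((H t).re - (H s).re) / (H s).re)| := abs_add_le _ _
      _ ≤ C * |s - t| / (H s).re + 3 / 2 * (C * |s - t| / (H s).re) := by
          rw [abs_mul, abs_div, abs_div ((H t).re - (H s).re), abs_of_pos hs0]
          gcongr
      _ ≤ C / c ^ 2 * |u - v| + 2 * (C / c ^ 2 * |u - v|) := by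
          have := h4.trans h5
          have h6 : 0 ≤ C / c ^ 2 * |u - v| := by positivity
          linarith
      _ = 3 * C / c ^ 2 * |u - v| := by ring
  · show Y s = Y (e.symm (X s))
    rw [heX']
  · have := hsl u 0
    rwa [he0, sub_zero] at this

/-- clamp to an interval -/
noncomputable def clamp (a b x : ℝ) : ℝ := max a (min b x)

theorem clamp_mem {a b : ℝ} (hab : a ≤ b) (x : ℝ) : clamp a b x ∈ Icc a b :=
  ⟨le_max_left _ _, max_le hab (min_le_left _ _)⟩

theorem clamp_of_mem {a b x : ℝ} (hx : x ∈ Icc a b) : clamp a b x = x := by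
  unfold clamp
  rw [min_eq_right hx.2, max_eq_right hx.1]

theorem clamp_lip (a b x y : ℝ) : |clamp a b x - clamp a b y| ≤ |x - y| := by
  unfold clamp
  calc |max a (min b x) - max a (min b y)| ≤ max |a - a| |min b x - min b y| :=
        abs_max_sub_max_le_max _ _ _ _
    _ ≤ |x - y| := by
        rw [sub_self, abs_zero]
        refine max_le (abs_nonneg _) ?_
        calc |min b x - min b y| ≤ max |b - b| |x - y| := abs_min_sub_min_le_max _ _ _ _
          _ = |x - y| := by rw [sub_self, abs_zero, max_eq_right (abs_nonneg _)]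

theorem clamp_cont (a b : ℝ) : Continuous (clamp a b) :=
  continuous_const.max (continuous_const.min continuous_id)

/-- **the trace of a `C²` Jordan curve is uniformly locally a graph over a lattice axis** -/
theorem exists_graph {γ : ℝ → ℂ} (h : C2Curve γ) :
    ∃ r M : ℝ, 0 < r ∧ 0 ≤ M ∧ ∀ t₀ : ℝ, ∃ ω : ℂ, IsRot ω ∧ ∃ f : ℝ → ℝ, GraphFn M f ∧
      ∀ u v : ℝ, |u| ≤ r → |v| ≤ 3 * r →
        (γ t₀ + ω * ⟨u, v⟩ ∈ range γ ↔ v = f u) := by
  obtain ⟨c, C, hc0, hC0, hc, -, hC⟩ := h.exists_speed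
  obtain ⟨κ, hκ0, hκ⟩ := h.exists_chord_arc
  set δ : ℝ := min (1 / 2) (c / (10 * C)) with hδ
  have hδ0 : 0 < δ := lt_min (by norm_num) (by positivity)
  have hCδ : C * δ ≤ c / 10 := by
    calc C * δ ≤ C * (c / (10 * C)) := mul_le_mul_of_nonneg_left (min_le_right _ _) hC0.le
      _ = c / 10 := by field_simp
  set r : ℝ := min (c * δ / 2) (κ * δ / 4) with hr
  have hr0 : 0 < r := lt_min (by positivity) (by positivity)
  refine ⟨r, 3 * C / (c / 2) ^ 2, hr0, by positivity, fun t₀ => ?_⟩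
  obtain ⟨ω, hω, hcone⟩ := exists_rot (deriv γ t₀)
  refine ⟨ω, hω, ?_⟩
  set cl : ℝ → ℝ := clamp (t₀ - δ) (t₀ + δ) with hcl
  set H : ℝ → ℂ := fun s => (starRingEnd ℂ) ω * deriv γ (cl s) with hH
  have hnorm : ‖(starRingEnd ℂ) ω‖ = 1 := by rw [RCLike.norm_conj]; exact hω.norm
  have hHlip : ∀ s t, ‖H s - H t‖ ≤ C * |s - t| := fun s t => by
    rw [hH]
    simp only
    rw [← mul_sub, norm_mul, hnorm, one_mul]
    exact (h.deriv_lip hC _ _).trans (mul_le_mul_of_nonneg_left (clamp_lip _ _ _ _) hC0.le)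
  have hcl0 : cl t₀ = t₀ := clamp_of_mem ⟨by linarith, by linarith⟩
  have hclδ : ∀ s, |cl s - t₀| ≤ δ := fun s => by
    have := clamp_mem (a := t₀ - δ) (b := t₀ + δ) (by linarith) s
    rw [abs_le]
    constructor
    · have := this.1; simp only [← hcl] at this; linarith
    · have := this.2; simp only [← hcl] at this; linarith
  have hdiff : ∀ s, ‖H s - H t₀‖ ≤ c / 10 := fun s => by
    rw [hH]
    simp only
    rw [← mul_sub, norm_mul, hnorm, one_mul, hcl0]
    exact ((h.deriv_lip hC _ _).trans (mul_le_mul_of_nonneg_left (hclδ s) hC0.le)).trans hCδ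
  have hHt0 : H t₀ = (starRingEnd ℂ) ω * deriv γ t₀ := by rw [hH]; simp only; rw [hcl0]
  have hre0 : 7 / 10 * c ≤ (H t₀).re := by
    rw [hHt0]
    have h1 := re_ge_of_cone hcone
    rw [norm_mul, hnorm, one_mul] at h1
    have := hc t₀
    linarith
  have him0 : |(H t₀).im| ≤ (H t₀).re := by rw [hHt0]; exact hcone
  have hre : ∀ s, c / 2 ≤ (H s).re := fun s => by
    have h1 : |(H s).re - (H t₀).re| ≤ c / 10 := by
      rw [← Complex.sub_re]; exact (Complex.abs_re_le_norm _).trans (hdiff s)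
    have := (abs_le.1 h1).1
    linarith
  have him : ∀ s, |(H s).im| ≤ 3 / 2 * (H s).re := fun s => by
    have h1 : |(H s).re - (H t₀).re| ≤ c / 10 := by
      rw [← Complex.sub_re]; exact (Complex.abs_re_le_norm _).trans (hdiff s)
    have h2 : |(H s).im - (H t₀).im| ≤ c / 10 := by
      rw [← Complex.sub_im]; exact (Complex.abs_im_le_norm _).trans (hdiff s)
    have h3 : |(H s).im| ≤ |(H t₀).im| + c / 10 := by
      have := abs_sub_abs_le_abs_sub (H s).im (H t₀).im
      linarith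
    have h4 := (abs_le.1 h1).1
    have h5 := hre s
    linarith
  have hHcont : Continuous H := continuous_const.mul (h.cont_deriv.comp (clamp_cont _ _))
  set G : ℝ → ℂ := fun s => ∫ x in t₀..s, H x with hG
  have hGd : ∀ s, HasDerivAt G (H s) s := fun s =>
    intervalIntegral.integral_hasDerivAt_right (hHcont.intervalIntegrable _ _)
      (hHcont.stronglyMeasurableAtFilter _ _) hHcont.continuousAt
  have hG0 : G t₀ = 0 := by simp [hG]
  obtain ⟨f, hf, hGf, hGs⟩ := graph_of_cone (t₀ := t₀) (c := c / 2) (C := C) (by positivity)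
    hHlip hre him him0 hGd hG0
  refine ⟨f, hf, fun u v hu hv => ?_⟩
  -- the curve agrees with `G` on the window
  have hGγ : ∀ s, |s - t₀| ≤ δ → γ s = γ t₀ + ω * G s := fun s hs => by
    have hs' := abs_le.1 hs
    have h1 : ∫ x in t₀..s, deriv γ x = γ s - γ t₀ :=
      intervalIntegral.integral_deriv_eq_sub (fun x _ => h.diff x)
        (h.cont_deriv.intervalIntegrable _ _)
    have h2 : G s = (starRingEnd ℂ) ω * (γ s - γ t₀) := by
      rw [← h1, ← intervalIntegral.integral_const_mul]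
      refine intervalIntegral.integral_congr fun x hx => ?_
      have hx' : x ∈ Icc (t₀ - δ) (t₀ + δ) := by
        have hx1 := abs_sub_left_of_mem_uIcc hx
        have := abs_le.1 (hx1.trans hs)
        exact ⟨by linarith [this.1], by linarith [this.2]⟩
      show (starRingEnd ℂ) ω * deriv γ (cl x) = (starRingEnd ℂ) ω * deriv γ x
      rw [hcl, clamp_of_mem hx']
    rw [h2, ← mul_assoc, hω.mul_conj, one_mul]
    ring
  have hcancel : ∀ z : ℂ, ∀ s, γ t₀ + ω * z = γ t₀ + ω * G s → z = G s := fun z s e => by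
    have h1 : ω * z = ω * G s := add_left_cancel e
    have h2 : ω ≠ 0 := by
      intro h0; have := hω.norm; rw [h0, norm_zero] at this; exact zero_ne_one this
    exact mul_left_cancel₀ h2 h1
  constructor
  · rintro ⟨s, hs⟩
    obtain ⟨s', hs', hst⟩ := h.exists_shift s t₀
    rw [← hs'] at hs
    have h1 := hκ s' t₀ hst
    have h2 : ‖γ s' - γ t₀‖ ≤ |u| + |v| := by
      rw [hs]
      have : γ t₀ + ω * (⟨u, v⟩ : ℂ) - γ t₀ = ω * ⟨u, v⟩ := by ring
      rw [this, norm_mul, hω.norm, one_mul]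
      exact Complex.norm_le_abs_re_add_abs_im _
    have h3 : κ * |s' - t₀| ≤ κ * δ := by
      have : |u| + |v| ≤ 4 * r := by linarith
      have h4 : 4 * r ≤ κ * δ := by
        have := min_le_right (c * δ / 2) (κ * δ / 4)
        rw [← hr] at this
        linarith
      linarith
    have h4 : |s' - t₀| ≤ δ := le_of_mul_le_mul_left h3 hκ0
    have h5 := hGγ s' h4
    rw [hs] at h5
    have h6 := hcancel _ _ h5
    have h7 := hGf s'
    rw [← h6] at h7
    exact h7
  · intro hv'
    obtain ⟨s, hs1, hs2⟩ := hGs u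
    have h1 : |s - t₀| ≤ δ := by
      refine hs2.trans ?_
      rw [div_le_iff₀ (by positivity)]
      have := min_le_left (c * δ / 2) (κ * δ / 4)
      rw [← hr] at this
      linarith
    refine ⟨s, ?_⟩
    rw [hGγ s h1]
    congr 2
    apply Complex.ext
    · exact hs1
    · show (G s).im = v
      rw [hGf s, hs1, hv']

end Crest.Agent.R165.GeoBx65
end

-- ▼ part R165/GeoC_65

/-!
# Row 165, block GEO (helper65), file C: `C²` Jordan domains have uniform charts

`exists_CD : IsC2JordanDomain D → D.Nonempty → ∃ r M, CD D r M`.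
-/

set_option autoImplicit false

open Set Topology Filter Metric

namespace Crest.Agent.R165.GeoCx65

open Crest.Agent.R165.GeoAx65 Crest.Agent.R165.GeoBx65 Crest.Agent.R165.Geo
open Crest.ProbabilityR.IsingModel Crest.ProbabilityR.Percolation
open Crest.Agent.R158.Jt785

variable {γ : ℝ → ℂ}

theorem isJordanCurve (h : C2Curve γ) : IsJordanCurve γ := by
  refine ⟨h.cont.continuousOn, h.inj, ?_⟩
  have := h.per 0
  rw [zero_add] at this
  exact this.symm

theorem range_eq (h : C2Curve γ) : range γ = curveTrace γ := by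
  refine subset_antisymm ?_ (image_subset_range _ _)
  rintro _ ⟨t, rfl⟩
  obtain ⟨y, hy, hyt⟩ := h.per.exists_mem_Ico₀ one_pos t
  exact ⟨y, ⟨hy.1, hy.2.le⟩, hyt.symm⟩

theorem domain_eq (h : C2Curve γ) :
    {z : ℂ | z ∉ Set.range γ ∧ Bornology.IsBounded (connectedComponentIn (Set.range γ)ᶜ z)} =
      jordanInterior γ := by
  rw [range_eq h]; rfl

/-- the open region above a graph in a box is preconnected -/
theorem isPreconnected_above {f : ℝ → ℝ} (hf : Continuous f) {r : ℝ}
    (hfr : ∀ u, |u| < r → f u < 3 * r) (p ω : ℂ) :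
    IsPreconnected ((fun q : ℝ × ℝ => p + ω * ⟨q.1, q.2⟩) ''
      {q : ℝ × ℝ | |q.1| < r ∧ f q.1 < q.2 ∧ q.2 < 3 * r}) := by
  have e : {q : ℝ × ℝ | |q.1| < r ∧ f q.1 < q.2 ∧ q.2 < 3 * r} =
      (fun q : ℝ × ℝ => (q.1, f q.1 + q.2 * (3 * r - f q.1))) '' (Ioo (-r) r ×ˢ Ioo (0:ℝ) 1) := by
    ext ⟨u, v⟩
    simp only [mem_setOf_eq, mem_image, mem_prod, mem_Ioo, Prod.exists, Prod.mk.injEq]
    constructor
    · rintro ⟨h1, h2, h3⟩
      have h4 := hfr u h1
      refine ⟨u, (v - f u) / (3 * r - f u), ⟨abs_lt.1 h1, div_pos (by linarith) (by linarith), ?_⟩,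
        rfl, ?_⟩
      · rw [div_lt_one (by linarith)]; linarith
      · rw [div_mul_cancel₀ _ (by linarith : (3 * r - f u) ≠ 0)] <;> ring
    · rintro ⟨a, b, ⟨h1, h2, h3⟩, rfl, h5⟩
      have h4 := hfr a (abs_lt.2 h1)
      refine ⟨abs_lt.2 h1, ?_, ?_⟩
      · rw [← h5]
        have := mul_pos h2 (by linarith : 0 < 3 * r - f a)
        linarith
      · rw [← h5]
        have := mul_lt_mul_of_pos_right h3 (by linarith : 0 < 3 * r - f a)
        linarith
  rw [e]
  have h1 : IsPreconnected (Ioo (-r) r ×ˢ Ioo (0:ℝ) 1) := isPreconnected_Ioo.prod isPreconnected_Ioo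
  have h2 := h1.image (fun q : ℝ × ℝ => (q.1, f q.1 + q.2 * (3 * r - f q.1)))
    (by fun_prop)
  refine h2.image _ (Continuous.continuousOn ?_)
  have : Continuous (fun q : ℝ × ℝ => (⟨q.1, q.2⟩ : ℂ)) := Complex.equivRealProdCLM.symm.continuous
  fun_prop

/-- **sidedness**: in a graph box the two sides of the curve are on different sides -/
theorem two_sides (h : C2Curve γ) (hne : (jordanInterior γ).Nonempty) {r M : ℝ} (hr : 0 < r)
    {t₀ : ℝ} {ω : ℂ} (hω : IsRot ω) {f : ℝ → ℝ} (hf : GraphFn M f)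
    (hgr : ∀ u v : ℝ, |u| ≤ r → |v| ≤ 3 * r → (γ t₀ + ω * ⟨u, v⟩ ∈ range γ ↔ v = f u)) :
    (∀ u v : ℝ, |u| < r → |v| < 3 * r → (γ t₀ + ω * ⟨u, v⟩ ∈ jordanInterior γ ↔ f u < v)) ∨
    (∀ u v : ℝ, |u| < r → |v| < 3 * r → (γ t₀ + ω * ⟨u, v⟩ ∈ jordanInterior γ ↔ v < f u)) := by
  have hJ := isJordanCurve h
  set p := γ t₀ with hp
  have hfb : ∀ u, |u| < r → |f u| < 3 * r := fun u hu => by
    have := hf.abs_le u
    have := abs_nonneg u
    linarith
  -- the upper and lower sets
  set A : Set ℂ := (fun q : ℝ × ℝ => p + ω * ⟨q.1, q.2⟩) ''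
      {q : ℝ × ℝ | |q.1| < r ∧ f q.1 < q.2 ∧ q.2 < 3 * r} with hA
  set B : Set ℂ := (fun q : ℝ × ℝ => p + ω * ⟨q.1, q.2⟩) ''
      {q : ℝ × ℝ | |q.1| < r ∧ q.2 < f q.1 ∧ -(3 * r) < q.2} with hB
  have hAc : IsPreconnected A := isPreconnected_above hf.cont
    (fun u hu => (abs_lt.1 (hfb u hu)).2) p ω
  have hBc : IsPreconnected B := by
    have h1 := isPreconnected_above hf.flip.cont (r := r) (fun u hu => by
      have := (abs_lt.1 (hfb (-u) (by rwa [abs_neg]))).1
      linarith) p (-ω)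
    have e : B = (fun q : ℝ × ℝ => p + (-ω) * ⟨q.1, q.2⟩) ''
        {q : ℝ × ℝ | |q.1| < r ∧ -f (-q.1) < q.2 ∧ q.2 < 3 * r} := by
      ext z
      constructor
      · rintro ⟨q, ⟨h1, h2, h3⟩, rfl⟩
        refine ⟨(-q.1, -q.2), ⟨by rwa [abs_neg], ?_, ?_⟩, ?_⟩
        · simp only [neg_neg]; linarith
        · simp only; linarith
        · simp only
          have : (⟨-q.1, -q.2⟩ : ℂ) = -⟨q.1, q.2⟩ := rfl
          rw [this]; ring
      · rintro ⟨q, ⟨h1, h2, h3⟩, rfl⟩
        refine ⟨(-q.1, -q.2), ⟨by rwa [abs_neg], ?_, ?_⟩, ?_⟩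
        · simp only; linarith
        · simp only; linarith
        · simp only
          have : (⟨-q.1, -q.2⟩ : ℂ) = -⟨q.1, q.2⟩ := rfl
          rw [this]; ring
    rw [e]; exact h1
  have hAt : ∀ z ∈ A, z ∉ curveTrace γ := by
    rintro _ ⟨q, ⟨h1, h2, h3⟩, rfl⟩
    rw [← range_eq h]
    simp only
    rw [hgr q.1 q.2 h1.le (abs_le.2 ⟨by linarith [(abs_lt.1 (hfb _ h1)).1], h3.le⟩)]
    exact h2.ne'
  have hBt : ∀ z ∈ B, z ∉ curveTrace γ := by
    rintro _ ⟨q, ⟨h1, h2, h3⟩, rfl⟩
    rw [← range_eq h]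
    simp only
    rw [hgr q.1 q.2 h1.le (abs_le.2 ⟨h3.le, by linarith [(abs_lt.1 (hfb _ h1)).2]⟩)]
    exact h2.ne
  have hcov : ∀ z, z ∉ curveTrace γ → z ∈ jordanInterior γ ∪ ext γ := fun z hz => by
    rcases cover hJ z with h1 | h1 | h1
    · exact absurd h1 hz
    · exact Or.inl h1
    · exact Or.inr h1
  have hor : ∀ S : Set ℂ, IsPreconnected S → (∀ z ∈ S, z ∉ curveTrace γ) →
      S ⊆ jordanInterior γ ∨ S ⊆ ext γ := fun S hS hSt =>
    hS.subset_or_subset (isOpen_ji hJ) (isOpen_ext hJ) (disj_ji_ext hJ)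
      (fun z hz => hcov z (hSt z hz))
  -- the box is a neighbourhood of `p`
  set Q : Set ℂ := (fun q : ℝ × ℝ => p + ω * ⟨q.1, q.2⟩) '' {q : ℝ × ℝ | |q.1| < r ∧ |q.2| < 3 * r}
    with hQ
  have hpar : ∀ z : ℂ, ∃ u v : ℝ, z = p + ω * ⟨u, v⟩ ∧ |u| ≤ ‖z - p‖ ∧ |v| ≤ ‖z - p‖ := fun z => by
    refine ⟨((starRingEnd ℂ) ω * (z - p)).re, ((starRingEnd ℂ) ω * (z - p)).im, ?_, ?_, ?_⟩
    · rw [Complex.eta, ← mul_assoc, hω.mul_conj]; ring
    · refine (Complex.abs_re_le_norm _).trans (le_of_eq ?_)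
      rw [norm_mul, RCLike.norm_conj, hω.norm, one_mul]
    · refine (Complex.abs_im_le_norm _).trans (le_of_eq ?_)
      rw [norm_mul, RCLike.norm_conj, hω.norm, one_mul]
  have hQn : Q ∈ 𝓝 p := by
    refine mem_of_superset (ball_mem_nhds p hr) fun z hz => ?_
    rw [mem_ball, Complex.dist_eq] at hz
    obtain ⟨u, v, e, hu, hv⟩ := hpar z
    exact ⟨(u, v), ⟨hu.trans_lt hz, hv.trans_lt (by linarith)⟩, e.symm⟩
  have hQsub : ∀ z ∈ Q, z ∉ curveTrace γ → z ∈ A ∪ B := by
    rintro _ ⟨q, ⟨h1, h2⟩, rfl⟩ hz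
    rw [← range_eq h] at hz
    simp only at hz
    rw [hgr q.1 q.2 h1.le h2.le] at hz
    rcases lt_or_gt_of_ne hz with h3 | h3
    · exact Or.inr ⟨q, ⟨h1, h3, (abs_lt.1 h2).1⟩, rfl⟩
    · exact Or.inl ⟨q, ⟨h1, h3, (abs_lt.1 h2).2⟩, rfl⟩
  have hpt : p ∈ curveTrace γ := by rw [← range_eq h]; exact mem_range_self _
  have hin : (Q ∩ jordanInterior γ).Nonempty := by
    have h1 : p ∈ closure (jordanInterior γ) := tr_subset_closure_ji hJ hne hpt
    exact mem_closure_iff_nhds.1 h1 Q hQn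
  have hout : (Q ∩ ext γ).Nonempty := by
    have h1 : p ∈ closure (ext γ) := by
      have := frontier_ext hJ hne
      exact frontier_subset_closure (this.symm ▸ hpt)
    exact mem_closure_iff_nhds.1 h1 Q hQn
  have hdisj := disj_ji_ext hJ
  rcases hor A hAc hAt with hA1 | hA1 <;> rcases hor B hBc hBt with hB1 | hB1
  · exfalso
    obtain ⟨z, hz1, hz2⟩ := hout
    have := hQsub z hz1 hz2.1
    rcases this with h1 | h1
    · exact disjoint_left.1 hdisj (hA1 h1) hz2
    · exact disjoint_left.1 hdisj (hB1 h1) hz2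
  · left
    intro u v hu hv
    constructor
    · intro h1
      rcases lt_trichotomy v (f u) with h2 | h2 | h2
      · exfalso
        exact disjoint_left.1 hdisj h1 (hB1 ⟨(u, v), ⟨hu, h2, (abs_lt.1 hv).1⟩, rfl⟩)
      · exfalso
        have := (hgr u v hu.le hv.le).2 h2
        rw [range_eq h] at this
        exact h1.1 this
      · exact h2
    · intro h1
      exact hA1 ⟨(u, v), ⟨hu, h1, (abs_lt.1 hv).2⟩, rfl⟩
  · right
    intro u v hu hv
    constructor
    · intro h1
      rcases lt_trichotomy v (f u) with h2 | h2 | h2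
      · exact h2
      · exfalso
        have := (hgr u v hu.le hv.le).2 h2
        rw [range_eq h] at this
        exact h1.1 this
      · exfalso
        exact disjoint_left.1 hdisj h1 (hA1 ⟨(u, v), ⟨hu, h2, (abs_lt.1 hv).2⟩, rfl⟩)
    · intro h1
      exact hB1 ⟨(u, v), ⟨hu, h1, (abs_lt.1 hv).1⟩, rfl⟩
  · exfalso
    obtain ⟨z, hz1, hz2⟩ := hin
    have := hQsub z hz1 hz2.1
    rcases this with h1 | h1
    · exact disjoint_left.1 hdisj hz2 (hA1 h1)
    · exact disjoint_left.1 hdisj hz2 (hB1 h1)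

theorem IsRot.exists_pow {ω : ℂ} (h : IsRot ω) : ∃ k : ℕ, ω = Complex.I ^ k := by
  rcases h with rfl | rfl | rfl | rfl
  · exact ⟨0, by simp⟩
  · exact ⟨1, by simp⟩
  · exact ⟨2, by simp⟩
  · refine ⟨3, ?_⟩
    rw [pow_succ, Complex.I_sq]; ring

theorem GraphFn.hasDeriv {M : ℝ} {f : ℝ → ℝ} (hf : GraphFn M f) (s : ℝ) :
    HasDerivAt f (deriv f s) s := (hf.diff s).hasDerivAt

/-- **uniform charts with the domain above the graph** -/
theorem exists_chart (h : C2Curve γ) (hne : (jordanInterior γ).Nonempty) :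
    ∃ r M : ℝ, 0 < r ∧ 0 ≤ M ∧ ∀ p ∈ curveTrace γ, ∃ k g g', Chart (jordanInterior γ) p r M k g g' := by
  obtain ⟨r, M, hr, hM, hg⟩ := exists_graph h
  refine ⟨r / 2, M, by positivity, hM, fun p hp => ?_⟩
  rw [← range_eq h] at hp
  obtain ⟨t₀, rfl⟩ := hp
  obtain ⟨ω, hω, f, hf, hgr⟩ := hg t₀
  have hfr : frontier (jordanInterior γ) = range γ := by
    rw [frontier_ji (isJordanCurve h) hne, range_eq h]
  have key : ∀ (ω : ℂ) (f : ℝ → ℝ), IsRot ω → GraphFn M f →
      (∀ u v : ℝ, |u| ≤ r → |v| ≤ 3 * r → (γ t₀ + ω * ⟨u, v⟩ ∈ range γ ↔ v = f u)) →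
      (∀ u v : ℝ, |u| < r → |v| < 3 * r → (γ t₀ + ω * ⟨u, v⟩ ∈ jordanInterior γ ↔ f u < v)) →
      ∃ k g g', Chart (jordanInterior γ) (γ t₀) (r / 2) M k g g' := by
    intro ω f hω hf hgr hside
    obtain ⟨k, rfl⟩ := IsRot.exists_pow hω
    have hz : ∀ s t : ℝ, ((s:ℂ) + (t:ℂ) * Complex.I) = ⟨s, t⟩ := fun s t =>
      (Complex.mk_eq_add_mul_I s t).symm
    refine ⟨k, f, deriv f, hf.zero, GraphFn.hasDeriv hf, hf.slope, hf.lip, fun s t hs ht => ?_,
      fun s t hs ht => ?_⟩
    · rw [hz]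
      exact hside s t (by linarith) (by linarith)
    · rw [hz, hfr]
      exact hgr s t (by linarith) (by linarith)
  rcases two_sides h hne hr hω hf hgr with hs | hs
  · exact key ω f hω hf hgr hs
  · refine key (-ω) (fun u => -f (-u)) hω.neg hf.flip (fun u v hu hv => ?_) (fun u v hu hv => ?_)
    · have h1 := hgr (-u) (-v) (by rwa [abs_neg]) (by rwa [abs_neg])
      have : (⟨-u, -v⟩ : ℂ) = -⟨u, v⟩ := rfl
      rw [this, mul_neg, ← neg_mul] at h1
      rw [h1]
      constructor
      · intro h2; linarith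
      · intro h2; linarith
    · have h1 := hs (-u) (-v) (by rwa [abs_neg]) (by rwa [abs_neg])
      have : (⟨-u, -v⟩ : ℂ) = -⟨u, v⟩ := rfl
      rw [this, mul_neg, ← neg_mul] at h1
      rw [h1]
      constructor
      · intro h2; linarith
      · intro h2; linarith

/-- the interior is connected -/
theorem isConnected_ji (h : C2Curve γ) (hne : (jordanInterior γ).Nonempty) :
    IsConnected (jordanInterior γ) := by
  have hJ := isJordanCurve h
  refine ⟨hne, ?_⟩
  obtain ⟨r, M, hr, hM, hch⟩ := exists_chart h hne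
  obtain ⟨k, g, g', hc⟩ := hch (γ 0) (by rw [← range_eq h]; exact mem_range_self _)
  -- the chart region above the graph is preconnected and contains all points of `ji` near `γ 0`
  set A : Set ℂ := (fun q : ℝ × ℝ => γ 0 + Complex.I ^ k * ⟨q.1, q.2⟩) ''
      {q : ℝ × ℝ | |q.1| < r ∧ g q.1 < q.2 ∧ q.2 < 3 * r} with hA
  have hz : ∀ s t : ℝ, ((s:ℂ) + (t:ℂ) * Complex.I) = ⟨s, t⟩ := fun s t =>
    (Complex.mk_eq_add_mul_I s t).symm
  have hgc : Continuous g := continuous_iff_continuousAt.2 fun s => (hc.hd s).continuousAt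
  have hgb : ∀ u, |g u| ≤ 3 / 2 * |u| := fun u => by
    have := Convex.norm_image_sub_le_of_norm_hasDerivWithin_le (f := g) (f' := g') (s := univ)
      (x := 0) (y := u) (C := 3 / 2) (fun x _ => (hc.hd x).hasDerivWithinAt)
      (fun x _ => hc.slope x) convex_univ (mem_univ _) (mem_univ _)
    simpa [Real.norm_eq_abs, hc.zero] using this
  have hgb' : ∀ u, |u| < r → |g u| < 3 * r := fun u hu => by
    have := hgb u
    have := abs_nonneg u
    linarith
  have hAc : IsPreconnected A := isPreconnected_above hgc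
    (fun u hu => (abs_lt.1 (hgb' u hu)).2) _ _
  have hAsub : A ⊆ (curveTrace γ)ᶜ := by
    rintro _ ⟨q, ⟨h1, h2, h3⟩, rfl⟩
    have h4 := (hc.mem q.1 q.2 h1.le (abs_le.2 ⟨by linarith [(abs_lt.1 (hgb' _ h1)).1], h3.le⟩)).2 h2
    rw [hz] at h4
    exact h4.1
  have hIk : ‖Complex.I ^ k‖ = 1 := by rw [norm_pow, Complex.norm_I, one_pow]
  have hpar : ∀ z : ℂ, ∃ u v : ℝ, z = γ 0 + Complex.I ^ k * ⟨u, v⟩ ∧ |u| ≤ ‖z - γ 0‖ ∧
      |v| ≤ ‖z - γ 0‖ := fun z => by
    have hne0 : Complex.I ^ k ≠ 0 := pow_ne_zero _ Complex.I_ne_zero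
    have hn : ‖(Complex.I ^ k)⁻¹ * (z - γ 0)‖ = ‖z - γ 0‖ := by
      rw [norm_mul, norm_inv, hIk, inv_one, one_mul]
    refine ⟨((Complex.I ^ k)⁻¹ * (z - γ 0)).re, ((Complex.I ^ k)⁻¹ * (z - γ 0)).im, ?_, ?_, ?_⟩
    · rw [Complex.eta, ← mul_assoc, mul_inv_cancel₀ hne0]; ring
    · exact (Complex.abs_re_le_norm _).trans hn.le
    · exact (Complex.abs_im_le_norm _).trans hn.le
  have hnear : ∀ z ∈ jordanInterior γ, ‖z - γ 0‖ < r → z ∈ A := fun z hz0 hzr => by
    obtain ⟨u, v, e, hu, hv⟩ := hpar z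
    have hu' := hu.trans_lt hzr
    have hv' := hv.trans_lt hzr
    have h4 := (hc.mem u v hu'.le (by linarith)).1 (by rw [hz, ← e]; exact hz0)
    exact ⟨(u, v), ⟨hu', h4, by linarith [(abs_lt.1 hv').2]⟩, e.symm⟩
  -- any two points are in the same component
  rw [isPreconnected_iff_subset_of_disjoint]
  have hp0 : γ 0 ∈ curveTrace γ := by rw [← range_eq h]; exact mem_range_self _
  have hmeet : ∀ z ∈ jordanInterior γ, A ⊆ connectedComponentIn (curveTrace γ)ᶜ z := fun z hz0 => by
    have h1 : γ 0 ∈ closure (connectedComponentIn (curveTrace γ)ᶜ z) := by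
      have := frontier_comp_eq hJ hz0
      exact frontier_subset_closure (this.symm ▸ hp0)
    obtain ⟨w, hw1, hw2⟩ := mem_closure_iff_nhds.1 h1 _ (ball_mem_nhds (γ 0) hr)
    rw [mem_ball, Complex.dist_eq] at hw1
    have hwA : w ∈ A := hnear w (comp_subset_ji hz0 hw2) hw1
    rw [connectedComponentIn_eq hw2]
    exact hAc.subset_connectedComponentIn hwA hAsub
  obtain ⟨z₀, hz₀⟩ := hne
  have hAne : A.Nonempty := by
    have h1 : γ 0 ∈ closure (jordanInterior γ) := tr_subset_closure_ji hJ ⟨z₀, hz₀⟩ hp0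
    obtain ⟨w, hw1, hw2⟩ := mem_closure_iff_nhds.1 h1 _ (ball_mem_nhds (γ 0) hr)
    rw [mem_ball, Complex.dist_eq] at hw1
    exact ⟨w, hnear w hw2 hw1⟩
  obtain ⟨w, hw⟩ := hAne
  have heq : jordanInterior γ = connectedComponentIn (curveTrace γ)ᶜ w := by
    ext z
    constructor
    · intro hz0
      have h1 := hmeet z hz0 hw
      rw [← connectedComponentIn_eq h1]
      exact mem_connectedComponentIn hz0.1
    · intro hz0
      have h1 := hmeet z₀ hz₀ hw
      have h2 : connectedComponentIn (curveTrace γ)ᶜ w ⊆ jordanInterior γ := by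
        rw [← connectedComponentIn_eq h1]
        exact comp_subset_ji hz₀
      exact h2 hz0
  have hpc : IsPreconnected (jordanInterior γ) := by
    rw [heq]; exact isPreconnected_connectedComponentIn
  exact isPreconnected_iff_subset_of_disjoint.1 hpc

/-- the complement of the interior is connected -/
theorem isConnected_compl_ji (h : C2Curve γ) (hne : (jordanInterior γ).Nonempty) :
    IsConnected (jordanInterior γ)ᶜ := by
  have hJ := isJordanCurve h
  have h1 : (jordanInterior γ)ᶜ = closure (ext γ) := by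
    refine subset_antisymm (fun z hz => ?_) (fun z hz => ?_)
    · rcases cover hJ z with h2 | h2 | h2
      · have := frontier_ext hJ hne
        exact frontier_subset_closure (this.symm ▸ h2)
      · exact absurd h2 hz
      · exact subset_closure h2
    · rcases closure_ext_subset hJ hz with h2 | h2
      · exact disjoint_right.1 (disj_ji_ext hJ) h2
      · exact disjoint_right.1 (disj_ji_tr γ) h2
  rw [h1]
  refine ⟨?_, (isPreconnected_ext hJ).closure⟩
  rw [← h1]
  exact ⟨γ 0, disjoint_right.1 (disj_ji_tr γ) (by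
    show γ 0 ∈ curveTrace γ
    rw [← range_eq h]; exact mem_range_self _)⟩

/-- **uniform charts of a `C²` Jordan domain** -/
theorem exists_CD {D : Set ℂ} (hD : IsC2JordanDomain D) (hne : D.Nonempty) :
    ∃ r M : ℝ, CD D r M := by
  obtain ⟨γ, h1, h2, h3, h4, h5⟩ := hD
  have h : C2Curve γ := ⟨h1, h2, h3, h4⟩
  rw [domain_eq h] at h5
  subst h5
  have hJ := isJordanCurve h
  obtain ⟨r, M, hr, hM, hch⟩ := exists_chart h hne
  refine ⟨r, M, hr, hM, isOpen_ji hJ, isBounded_ji hJ, isConnected_ji h hne,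
    isConnected_compl_ji h hne, fun p hp => hch p ?_⟩
  rwa [frontier_ji hJ hne] at hp

end Crest.Agent.R165.GeoCx65
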