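import Crest.Agent.R165.RFlat2_65
import Crest.Agent.R165.GeoRL_838
import Crest.Agent.R165.GeoC_65
import Crest.Agent.R165.Nm1_422

-- ▼ part R165/GeoDiscA_65
section

/-!
# Row 165 (S0250): discs and clusters of insertions (helper65)

* `rayw_gauge_out`, `gauge_out`: an even number of insertions inside a box is pure gauge outside
* `domainSites_smul`: scaling of the site set
-/

set_option autoImplicit false

noncomputable section

open Crest.ProbabilityR.IsingModel
open Crest.Agent.R165.Latx683 Crest.Agent.R165.GDefx387 Crest.Agent.R165.Bridgex386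
  Crest.Agent.R165.RIfx891
open Crest.Agent.R165.Tr1x40 (nb)

namespace Crest.Agent.R165.RFlatx65








/-- scaling: `domainSites (ball 0 B) a = domainSites (ball 0 1) (a / B)` -/
theorem domainSites_ball {B a : ℝ} (hB : 0 < B) :
    domainSites (Metric.ball (0 : ℂ) B) a = domainSites (Metric.ball (0 : ℂ) 1) (a / B) := by
  ext z
  have e : meshPoint (a / B) z = (B : ℂ)⁻¹ * meshPoint a z := by
    apply Complex.ext
    · simp [meshPoint, ← Complex.ofReal_inv, div_eq_inv_mul, mul_assoc]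
    · simp [meshPoint, ← Complex.ofReal_inv, div_eq_inv_mul, mul_assoc]
  simp only [domainSites, Set.mem_ofPred_eq, mem_ball_zero_iff, e, norm_mul, norm_inv,
    Complex.norm_real, Real.norm_eq_abs, abs_of_pos hB]
  rw [inv_mul_lt_iff₀ hB, mul_one]

end Crest.Agent.R165.RFlatx65
end
end

-- ▼ part R165/GeoDiscB_65

/-!
# Row 165 (S0250): the discs `ball 0 L` at mesh `a`, uniformly in `L` (helper65)

* `disc_latReg`: lattice regularity with an absolute constant
* `disc_cfg`: position of the insertions with respect to each other and to the boundary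
* `geo_disc`: regularity classes of the faces, fine scales `a R0 ≤ δ(x)`
* `nsteps`: number of scales between `δ / a` and `C / a`
-/

set_option autoImplicit false

noncomputable section

open Crest.ProbabilityR.IsingModel
open Crest.Agent.R165.Geo
open Crest.Agent.R165.Latx683 (BW wDom wX)
open Crest.Agent.R165.GDefx387 (fd fd_comm fd_triangle)
open Crest.Agent.R165.RIfx891 (GapU EXb EXbr)
open Crest.Agent.R165.RegGx893 (RB RD RX)
open Crest.Agent.R165.RFlatx65

namespace Crest.Agent.R165.GeoDiscx65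

/-- **lattice regularity of the discs**, absolute constant -/
theorem disc_latReg : ∃ c0 : ℝ, 0 < c0 ∧ c0 ≤ 1 ∧ ∀ L a : ℝ, 0 < L → 0 < a → ∃ κ : ℝ,
    LatReg (domainSites (Metric.ball (0 : ℂ) L) a) (c0 * L / a) κ ∧ κ * (c0 * L / a) ≤ 1 := by
  obtain ⟨r, M, h⟩ := GeoCx65.exists_CD (Nm1x422.isC2_ball 0 one_pos) ⟨0, by simp⟩
  have hr := h.r_pos
  have hM := h.M_nonneg
  have hc1 : 0 < min (r / 2) (min 1 (1 / (M + 1))) := by positivity
  refine ⟨min (r / 2) (min 1 (1 / (M + 1))), hc1,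
    (min_le_right _ _).trans (min_le_left _ _), fun L a hL ha => ⟨M * (a / L), ?_, ?_⟩⟩
  · rw [domainSites_ball hL]
    have h1 := latReg_domainSites h hc1 (by linarith [min_le_left (r / 2) (min 1 (1 / (M + 1)))])
      (div_pos ha hL)
    rwa [div_div_eq_mul_div] at h1
  · have e : M * (a / L) * (min (r / 2) (min 1 (1 / (M + 1))) * L / a) =
        M * min (r / 2) (min 1 (1 / (M + 1))) := by
      field_simp
    rw [e]
    calc M * min (r / 2) (min 1 (1 / (M + 1))) ≤ M * (1 / (M + 1)) :=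
          mul_le_mul_of_nonneg_left ((min_le_right _ _).trans (min_le_right _ _)) hM
      _ ≤ 1 := by rw [mul_one_div, div_le_one (by linarith)]; linarith

/-- the mesh distance is at most twice the scaled `fd` -/
theorem norm_mesh_le {a : ℝ} (ha : 0 ≤ a) (u v : ℤ × ℤ) :
    ‖meshPoint a u - meshPoint a v‖ ≤ 2 * (a * fd u v) := by
  refine norm_meshPoint_sub_le ha ?_ ?_
  · have h1 : (u.1 - v.1).natAbs ≤ fd u v := by rw [fd_int]; exact le_max_left _ _
    rw [← Int.cast_sub, ← Int.cast_abs, Int.abs_eq_natAbs]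
    exact_mod_cast h1
  · have h1 : (u.2 - v.2).natAbs ≤ fd u v := by rw [fd_int]; exact le_max_right _ _
    rw [← Int.cast_sub, ← Int.cast_abs, Int.abs_eq_natAbs]
    exact_mod_cast h1

/-- the scaled `fd` is at most the mesh distance -/
theorem fd_le_norm {a : ℝ} (ha : 0 ≤ a) (u v : ℤ × ℤ) :
    a * fd u v ≤ ‖meshPoint a u - meshPoint a v‖ := by
  have h1 : a * ((u.1 - v.1).natAbs : ℝ) ≤ ‖meshPoint a u - meshPoint a v‖ := by
    refine le_trans (le_of_eq ?_) (Complex.abs_re_le_norm _)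
    have e : (meshPoint a u - meshPoint a v).re = a * ((u.1 - v.1 : ℤ) : ℝ) := by
      simp only [meshPoint, Complex.sub_re]; push_cast; ring
    rw [e, abs_mul, abs_of_nonneg ha, ← Int.cast_abs, Int.abs_eq_natAbs, Int.cast_natCast]
  have h2 : a * ((u.2 - v.2).natAbs : ℝ) ≤ ‖meshPoint a u - meshPoint a v‖ := by
    refine le_trans (le_of_eq ?_) (Complex.abs_im_le_norm _)
    have e : (meshPoint a u - meshPoint a v).im = a * ((u.2 - v.2 : ℤ) : ℝ) := by
      simp only [meshPoint, Complex.sub_im]; push_cast; ring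
    rw [e, abs_mul, abs_of_nonneg ha, ← Int.cast_abs, Int.abs_eq_natAbs, Int.cast_natCast]
  rw [fd_int, Nat.cast_max]
  rcases max_cases ((u.1 - v.1).natAbs : ℝ) ((u.2 - v.2).natAbs : ℝ) with ⟨e, -⟩ | ⟨e, -⟩ <;>
    rw [e] <;> assumption

/-- boundary sites of the disc are near the circle -/
theorem norm_bdS_disc {L a : ℝ} (ha : 0 < a) {z : ℤ × ℤ}
    (hz : z ∈ bdS (domainSites (Metric.ball (0 : ℂ) L) a)) : L - 2 * a ≤ ‖meshPoint a z‖ := by
  obtain ⟨u, hzu, hu⟩ := hz
  have h1 : ‖meshPoint a z - meshPoint a u‖ ≤ 2 * (a * 1) := by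
    refine norm_meshPoint_sub_le ha.le ?_ ?_
    · rcases hzu with ⟨e1, e2⟩ | ⟨e1, e2⟩
      · rw [← Int.cast_sub, ← Int.cast_abs, e2]; norm_num
      · rw [e1]; simp
    · rcases hzu with ⟨e1, e2⟩ | ⟨e1, e2⟩
      · rw [e1]; simp
      · rw [← Int.cast_sub, ← Int.cast_abs, e2]; norm_num
  rcases hu with ⟨-, h2⟩ | ⟨h2, -⟩
  · have h3 : L ≤ ‖meshPoint a u‖ := by
      by_contra hc
      exact h2 (by simpa [domainSites] using hc)
    have h4 := norm_sub_norm_le (meshPoint a u) (meshPoint a z)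
    rw [norm_sub_rev] at h4
    linarith
  · have h3 : L ≤ ‖meshPoint a z‖ := by
      by_contra hc
      exact h2 (by simpa [domainSites] using hc)
    linarith

/-- a site of the half disc is far from the boundary -/
theorem disc_far {L a : ℝ} (ha : 0 < a) (haL : 8 * a ≤ L) {v z : ℤ × ℤ}
    (hv : ‖meshPoint a v‖ ≤ L / 2) (hz : z ∈ bdS (domainSites (Metric.ball (0 : ℂ) L) a)) :
    L ≤ 8 * (a * fd v z) := by
  have h1 := norm_bdS_disc ha hz
  have h2 := norm_mesh_le ha.le v z
  have h3 := norm_sub_norm_le (meshPoint a z) (meshPoint a v)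
  rw [norm_sub_rev] at h3
  linarith

theorem meshPoint_zero (a : ℝ) : meshPoint a (0, 0) = 0 := by
  apply Complex.ext <;> simp [meshPoint]

/-- **position of the insertions in a large disc** -/
theorem disc_cfg {m : ℕ} {x : Fin m → ℂ} (hx : Function.Injective x) :
    ∃ δ C L0 : ℝ, 0 < δ ∧ 0 < C ∧ 0 < L0 ∧ ∀ a L : ℝ, 0 < a → a ≤ δ → L0 ≤ L →
      ∀ X : Fin m → ℤ × ℤ, (∀ i, ‖meshPoint a (X i) - x i‖ ≤ 2 * δ) →
      (∀ i, X i ∈ domainSites (Metric.ball (0 : ℂ) L) a) ∧
      (∀ i j, i ≠ j → δ < a * fd (X i) (X j)) ∧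
      (∀ i, ∀ z ∈ bdS (domainSites (Metric.ball (0 : ℂ) L) a), L ≤ 8 * (a * fd (X i) z)) ∧
      (∀ i, a * fd (0, 0) (X i) ≤ C) ∧ (∀ i, ‖meshPoint a (X i)‖ ≤ C) ∧ 8 * a ≤ L ∧
      (∀ z ∈ bdS (domainSites (Metric.ball (0 : ℂ) L) a), L ≤ 8 * (a * fd (0, 0) z)) := by
  obtain ⟨K, hK0, hK⟩ : ∃ K : ℝ, 0 ≤ K ∧ ∀ i, ‖x i‖ ≤ K := by
    obtain ⟨K, hK⟩ := (Set.finite_range x).isBounded.exists_norm_le
    exact ⟨max K 0, le_max_right _ _, fun i => (hK _ ⟨i, rfl⟩).trans (le_max_left _ _)⟩
  have h2 : ∀ᶠ δ in nhdsWithin (0 : ℝ) (Set.Ioi 0), ∀ i j, i ≠ j → 6 * δ < ‖x i - x j‖ := by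
    rw [Filter.eventually_all]
    intro i
    rw [Filter.eventually_all]
    intro j
    by_cases hij : i = j
    · filter_upwards with δ h
      exact absurd hij h
    · have h0 : 0 < ‖x i - x j‖ := norm_pos_iff.2 (sub_ne_zero.2 fun h => hij (hx h))
      filter_upwards [Ioo_mem_nhdsGT (show (0 : ℝ) < ‖x i - x j‖ / 6 by positivity)] with δ hδ _
      linarith [hδ.2]
  obtain ⟨δ, hs, hδ⟩ := (h2.and self_mem_nhdsWithin).exists
  have hδ0 : (0 : ℝ) < δ := hδ
  refine ⟨δ, K + 2 * δ, 2 * (K + 2 * δ) + 8 * δ, hδ0, by linarith, by linarith, ?_⟩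
  intro a L ha haδ hL X hX
  have hn : ∀ i, ‖meshPoint a (X i)‖ ≤ K + 2 * δ := by
    intro i
    have h3 := norm_sub_norm_le (meshPoint a (X i)) (x i)
    have h4 := hX i
    have h5 := hK i
    linarith
  refine ⟨fun i => ?_, fun i j hij => ?_, fun i z hz => ?_, fun i => ?_, hn, by linarith,
    fun z hz => ?_⟩
  · have := hn i
    simp only [domainSites, Set.mem_ofPred_eq, mem_ball_zero_iff]
    linarith
  · have h3 := norm_mesh_le ha.le (X i) (X j)
    have h4 : ‖x i - x j‖ ≤ ‖meshPoint a (X i) - x i‖ + ‖meshPoint a (X j) - x j‖ +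
        ‖meshPoint a (X i) - meshPoint a (X j)‖ := by
      have : x i - x j = -(meshPoint a (X i) - x i) + (meshPoint a (X j) - x j) +
          (meshPoint a (X i) - meshPoint a (X j)) := by ring
      rw [this]
      refine (norm_add_le _ _).trans ?_
      gcongr
      refine (norm_add_le _ _).trans ?_
      rw [norm_neg]
    have h5 := hs i j hij
    have h6 := hX i
    have h7 := hX j
    linarith
  · exact disc_far ha (by linarith) ((hn i).trans (by linarith)) hz
  · have h3 := fd_le_norm ha.le (0, 0) (X i)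
    rw [meshPoint_zero, zero_sub, norm_neg] at h3
    exact h3.trans (hn i)
  · exact disc_far ha (by linarith) (by rw [meshPoint_zero, norm_zero]; linarith) hz



end Crest.Agent.R165.GeoDiscx65
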