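import Crest.Agent.R165.NFlow_337
import Crest.Agent.R165.CmpA_432
import Crest.Agent.R165.GSys_387
import Crest.Agent.R165.SysDeep_898

-- ▼ part R165/NDeep_337
section

/-!
# Row 165 (S0250), block G: the norm of the plane-like polymers (helper337)

* `shift` : translation of a plane chart
* `tau_conn` : a chart on a neighbourhood of a connected set is `f + v ↦ v`
* `NK_deep` : `NK w a r Γ em K ≤ NK (wPl ℤ) a r Γ True KP` if every polymer with `em U` (plane-like)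
  is the image of the plane polymer in every chart
-/

set_option autoImplicit false
set_option linter.unusedSectionVars false

noncomputable section

open scoped ENNReal
open Crest.Agent.R165.Gr0x606 Crest.Agent.R165.Gr1x606 Crest.Agent.R165.Latx683
open Crest.Agent.R165.GDefx387 Crest.Agent.R165.GeOpsx337 Crest.Agent.R165.KFlowx337
open Crest.Agent.R165.BgIsox432 Crest.Agent.R165.PNormx417 Crest.Agent.R165.GrLocx337
open Crest.Agent.R165.Packx915 Crest.Agent.R165.NSumx915 Crest.Agent.R165.Bridgex915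

namespace Crest.Agent.R165.NDeepx337

variable {G : Type} [CommRing G] [CN G]

/-- translation of a plane chart -/
def shift {w : BW G} {Z : Set (G × G)} (b : BgIso w (wPl ℤ) Z) (t : ℤ × ℤ) :
    BgIso w (wPl ℤ) Z where
  τ f := b.τ f + t
  s := b.s
  sq := b.sq
  iso f hf g hg := by
    rw [← b.iso f hf g hg]
    unfold fd
    congr 2 <;> · simp
  e1 f hf hf' := by
    rw [b.e1 f hf hf']
    ext
    · simp only [Prod.fst_add]; ring
    · simp
  e2 f hf hf' := by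
    rw [b.e2 f hf hf']
    ext
    · simp
    · simp only [Prod.snd_add]; ring
  wE f hf hf' := b.wE f hf hf'
  wN f hf hf' := b.wN f hf hf'

@[simp] theorem shift_tau {w : BW G} {Z : Set (G × G)} (b : BgIso w (wPl ℤ) Z) (t : ℤ × ℤ)
    (f : G × G) : (shift b t).τ f = b.τ f + t := rfl

/-- the relation `g = f + (τ g - τ f)` -/
def PP {w : BW G} {w' : BW ℤ} {Z : Set (G × G)} (b : BgIso w w' Z) (f g : G × G) : Prop :=
  g = (f.1 + (((b.τ g).1 - (b.τ f).1 : ℤ) : G), f.2 + (((b.τ g).2 - (b.τ f).2 : ℤ) : G))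

theorem PP.refl {w : BW G} {w' : BW ℤ} {Z : Set (G × G)} (b : BgIso w w' Z) (f : G × G) :
    PP b f f := by simp [PP]

theorem PP.trans {w : BW G} {w' : BW ℤ} {Z : Set (G × G)} {b : BgIso w w' Z} {f g h : G × G}
    (h1 : PP b f g) (h2 : PP b g h) : PP b f h := by
  have e1 : g.1 = f.1 + (((b.τ g).1 - (b.τ f).1 : ℤ) : G) := congrArg Prod.fst h1
  have e2 : g.2 = f.2 + (((b.τ g).2 - (b.τ f).2 : ℤ) : G) := congrArg Prod.snd h1
  have e3 : h.1 = g.1 + (((b.τ h).1 - (b.τ g).1 : ℤ) : G) := congrArg Prod.fst h2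
  have e4 : h.2 = g.2 + (((b.τ h).2 - (b.τ g).2 : ℤ) : G) := congrArg Prod.snd h2
  refine Prod.ext ?_ ?_
  · show h.1 = f.1 + (((b.τ h).1 - (b.τ f).1 : ℤ) : G)
    rw [e3, e1]; push_cast; ring
  · show h.2 = f.2 + (((b.τ h).2 - (b.τ f).2 : ℤ) : G)
    rw [e4, e2]; push_cast; ring

theorem PP.symm {w : BW G} {w' : BW ℤ} {Z : Set (G × G)} {b : BgIso w w' Z} {f g : G × G}
    (h1 : PP b f g) : PP b g f := by
  have e1 : g.1 = f.1 + (((b.τ g).1 - (b.τ f).1 : ℤ) : G) := congrArg Prod.fst h1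
  have e2 : g.2 = f.2 + (((b.τ g).2 - (b.τ f).2 : ℤ) : G) := congrArg Prod.snd h1
  refine Prod.ext ?_ ?_
  · show f.1 = g.1 + (((b.τ f).1 - (b.τ g).1 : ℤ) : G)
    rw [e1]; push_cast; ring
  · show f.2 = g.2 + (((b.τ f).2 - (b.τ g).2 : ℤ) : G)
    rw [e2]; push_cast; ring

/-- inside a ball -/
theorem PP.of_ball [CNZ G] {w : BW G} {w' : BW ℤ} {Z : Set (G × G)} (b : BgIso w w' Z) {x g : G × G}
    {R : ℕ} (hx : GDefx387.ball x R ⊆ Z) (hg : g ∈ GDefx387.ball x R) : PP b x g := by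
  obtain ⟨m, n, hm, hn, rfl⟩ := exists_int_of_mem_ball hg
  have h := b.tau_add hx m n hm hn
  unfold PP
  rw [h]
  simp

/-- along a connected set -/
theorem PP.conn [CNZ G] {w : BW G} {w' : BW ℤ} {U : Finset (G × G)} {s R r : ℕ}
    (b : BgIso w w' (nbhd s U)) (hU : Packx915.Conn fd R U) (hR : R ≤ s) (hr : r ≤ s)
    {f : G × G} (hf : near fd r f U) : ∀ g ∈ U, PP b f g := by
  classical
  obtain ⟨u, hu, hfu⟩ := hf
  have hball : ∀ v ∈ U, GDefx387.ball v s ⊆ nbhd s U := fun v hv => ball_subset_nbhd hv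
  have h0 : PP b f u := by
    refine PP.symm (PP.of_ball b (hball u hu) ?_)
    rw [mem_ball, fd_comm]
    omega
  set A : Finset (G × G) := U.filter (fun g => PP b f g) with hA
  have hAU : A = U := by
    by_contra hne
    obtain ⟨a, ha, c, hc, hcA, hac⟩ := hU A (Finset.filter_subset _ _)
      ⟨u, Finset.mem_filter.2 ⟨hu, h0⟩⟩ hne
    rw [hA, Finset.mem_filter] at ha
    refine hcA ?_
    rw [hA, Finset.mem_filter]
    refine ⟨hc, ha.2.trans (PP.of_ball b (hball a ha.1) ?_)⟩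
    rw [mem_ball]
    omega
  intro g hg
  rw [← hAU] at hg
  exact (Finset.mem_filter.1 hg).2

/-- the map back from the plane -/
def bk (f : G × G) (v : ℤ × ℤ) : G × G := (f.1 + (v.1 : G), f.2 + (v.2 : G))


section deep

variable [DecidableEq G] [GoodG G] [CNZ G]


end deep

end Crest.Agent.R165.NDeepx337
end
end

-- ▼ part R165/SysDeepT_898

/-!
# Row 165 (S0250), block G: the plane-like polymers of the torus (helper898)

* `InitG`, `sys_deep_gen` : the comparison of the system of any background with the plane, charts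
  given by one injective map `κ f` for the polymers near `f`
* `κT`, `lf_sub`, `chart_tor` : the torus, polymers contained in a ball of radius `ρ`,
  `4 (ρ + s2 r + 1) ≤ M`
* `sys_deep_tor` : `NK (wTor M ε₁ ε₂) a r Γ (emT ..) K_n ≤ NK (wPl ℤ) a r Γ ⊤ K_n`
-/

set_option autoImplicit false
set_option linter.unusedSectionVars false

noncomputable section

open scoped ENNReal
open Crest.Agent.R165.Gr0x606 Crest.Agent.R165.Gr1x606 Crest.Agent.R165.Latx683
open Crest.Agent.R165.GDefx387 Crest.Agent.R165.GeOpsx337 Crest.Agent.R165.KFlowx337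
open Crest.Agent.R165.BgIsox432 Crest.Agent.R165.PNormx417 Crest.Agent.R165.GrLocx337
open Crest.Agent.R165.NSumx915 Crest.Agent.R165.Bridgex915
open Crest.Agent.R165.GSysx387 Crest.Agent.R165.FRDPolyx439 Crest.Agent.R165.DefRecx915
open Crest.Agent.R165.TorChartx723

namespace Crest.Agent.R165.SysDeepx898

/-! ### any background -/

section sys

variable {G : Type} [CommRing G] [CN G] [CNZ G] [DecidableEq G]
variable {M Kd : ℕ} (D : FRD 16 M Kd)

/-- initial activities which are those of the plane, through every chart of an unmarked region -/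
def InitG (w : BW G) (mk : Finset (G × G)) (l k0 : ℕ) (K0 : Finset (G × G) → Ge (Fld G))
    (K0' : Finset (ℤ × ℤ) → Ge (Fld ℤ)) : Prop :=
  ∀ (U : Finset (G × G)) (Z : Set (G × G)) (b : BgIso w (wPl ℤ) Z), U.Nonempty →
    nbhd (s2 * rr l k0 0) U ⊆ Z → (∀ f ∈ Z, f ∉ mk) → mpG b.push (K0 U) = K0' (U.image b.τ)

theorem sysG_K_eq {w : BW G} {mk : Finset (G × G)} {l k0 : ℕ} (hl : 5 ≤ l * (k0 + 1))
    (hKd : 16 ≤ Kd) {K0 : Finset (G × G) → Ge (Fld G)} {K0' : Finset (ℤ × ℤ) → Ge (Fld ℤ)}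
    (hloc : ∀ U, K0 U ∈ grG (fldU U)) (h0 : InitG w mk l k0 K0 K0') (n : ℕ)
    {U : Finset (G × G)} (hne : U.Nonempty) {Z : Set (G × G)} (b : BgIso w (wPl ℤ) Z)
    (hU : nbhd (s2 * rr l k0 n) U ⊆ Z) (hmk : ∀ f ∈ Z, f ∉ mk) :
    mpG b.push ((sys D w mk l k0 K0).K n U) =
      (sys D (wPl ℤ) ∅ l k0 K0').K n (U.image b.τ) := by
  classical
  have hl' : 1 ≤ l := Nat.one_le_iff_ne_zero.2 fun h => by
    rw [h] at hl; omega
  have hmk' : ∀ f ∈ Z, (f ∈ mk ↔ b.τ f ∈ (∅ : Finset (ℤ × ℤ))) := fun f hf =>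
    iff_of_false (hmk f hf) (Finset.notMem_empty _)
  have h := CmpBgx432.K_eq D b hmk' two_ne_zero hl' (by omega) (K0 := K0) (K0' := K0')
    (fun U hU hZ => h0 U Z b hU hZ hmk) (GSysOKx439.sys_OK D hKd w mk hl hloc) n hne hU
  exact h

/-- **the deep part of the norm of `K_n`**, any background -/
theorem sys_deep_gen {w : BW G} {mk : Finset (G × G)} {l k0 : ℕ} (hl : 5 ≤ l * (k0 + 1))
    (hKd : 16 ≤ Kd) {K0 : Finset (G × G) → Ge (Fld G)} {K0' : Finset (ℤ × ℤ) → Ge (Fld ℤ)}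
    (hloc : ∀ U, K0 U ∈ grG (fldU U)) (h0 : InitG w mk l k0 K0 K0') (n : ℕ) (a : ℝ) (Γ : ℝ≥0∞)
    {em : Finset (G × G) → Prop} (κ : G × G → G × G → ℤ × ℤ)
    (hκ : ∀ f, Function.Injective (κ f))
    (hch : ∀ f U, em U → Near (rr l k0 n) f U → ∃ b : BgIso w (wPl ℤ) (nbhd (s2 * rr l k0 n) U),
      (∀ g ∈ U, b.τ g = κ f g) ∧ b.τ f = κ f f)
    (hmk : ∀ U, em U → ∀ f ∈ nbhd (s2 * rr l k0 n) U, f ∉ mk) :
    NK w a (rr l k0 n) Γ em (fun U => ((sys D w mk l k0 K0).K n U : Gr (Fld G))) ≤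
      NK (wPl ℤ) a (rr l k0 n) Γ (fun _ => True)
        (fun U => ((sys D (wPl ℤ) ∅ l k0 K0').K n U : Gr (Fld ℤ))) := by
  refine NK_deep_gen (rr_pos l k0 n) κ hκ
    (fun U => Sys.K_mem (GSysOKx439.sys_OK D hKd w mk hl hloc) n U) ?_
  intro f U hU _ hn
  refine ⟨trivial, ?_⟩
  obtain ⟨b, hb, hbf⟩ := hch f U hU hn
  have hne : U.Nonempty := let ⟨u, hu, _⟩ := hn; ⟨u, hu⟩
  refine ⟨b, hb, hbf, ?_⟩
  have h1 := congrArg (fun F : Ge (Fld ℤ) => (F : Gr (Fld ℤ)))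
    (sysG_K_eq D hl hKd hloc h0 n hne b le_rfl (hmk U hU))
  have himg : U.image (κ f) = U.image b.τ := Finset.image_congr fun g hg => (hb g hg).symm
  rw [himg]
  exact h1

end sys

/-! ### the torus -/

section tor

variable {M : ℕ} [NeZero M]

/-- the differences of the charts `lf` are the representatives of minimal absolute value -/
theorem lf_sub {c₀ c c' : ZMod M} {R : ℕ} (hR : 4 * R < M) (h : cn (c₀ - c) ≤ R)
    (h' : cn (c₀ - c') ≤ R) : lf c₀ c' - lf c₀ c = (c' - c).valMinAbs := by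
  symm
  refine (ZMod.valMinAbs_spec (c' - c) (lf c₀ c' - lf c₀ c)).2 ⟨?_, ?_⟩
  · rw [Int.cast_sub, lf_cast, lf_cast]
  · have h1 : (c - c₀).valMinAbs.natAbs ≤ R := by
      rw [← CN.cn_neg, neg_sub] at h; exact h
    have h2 : (c' - c₀).valMinAbs.natAbs ≤ R := by
      rw [← CN.cn_neg, neg_sub] at h'; exact h'
    unfold lf
    constructor <;> omega

/-- the canonical chart of the torus at `f` -/
def κT (f g : ZMod M × ZMod M) : ℤ × ℤ := ((g.1 - f.1).valMinAbs, (g.2 - f.2).valMinAbs)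

theorem κT_injective (f : ZMod M × ZMod M) : Function.Injective (κT f) := by
  intro g g' h
  have h1 : (g.1 - f.1).valMinAbs = (g'.1 - f.1).valMinAbs := congrArg Prod.fst h
  have h2 : (g.2 - f.2).valMinAbs = (g'.2 - f.2).valMinAbs := congrArg Prod.snd h
  have e1 := congrArg (fun z : ℤ => (z : ZMod M)) h1
  have e2 := congrArg (fun z : ℤ => (z : ZMod M)) h2
  simp only [ZMod.coe_valMinAbs, sub_left_inj] at e1 e2
  exact Prod.ext e1 e2

/-- the chart of a polymer contained in a ball, normalised at a near face -/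
theorem chart_tor {ε₁ ε₂ : ℝ} (h₁ : ε₁ * ε₁ = 1) (h₂ : ε₂ * ε₂ = 1)
    {U : Finset (ZMod M × ZMod M)} {x₀ : ZMod M × ZMod M} {ρ R r : ℕ}
    (h : ∀ u ∈ U, fd x₀ u ≤ ρ) (hM : 4 * (ρ + R + 1) ≤ M) (hr : r ≤ R) {f : ZMod M × ZMod M}
    (hf : Near r f U) : ∃ b : BgIso (wTor M ε₁ ε₂) (wPl ℤ) (nbhd R U),
      (∀ g ∈ U, b.τ g = κT f g) ∧ b.τ f = κT f f := by
  have hb0 : nbhd R U ⊆ ball x₀ (ρ + R) := nbhd_sub_ball h
  have hfb : fd x₀ f ≤ ρ + R := by
    obtain ⟨u, hu, hfu⟩ := hf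
    have h1 := fd_triangle x₀ u f
    have h2 := h u hu
    rw [fd_comm u f] at h1
    omega
  refine ⟨NDeepx337.shift (ofPlane (planeSub (chart h₁ h₂ x₀ hM) hb0))
    (-((lf x₀.1 f.1, lf x₀.2 f.2) : ℤ × ℤ)), fun g hg => ?_, ?_⟩
  · have hgb : fd x₀ g ≤ ρ + R := (h g hg).trans (by omega)
    obtain ⟨f1, f2⟩ := fd_le hfb
    obtain ⟨g1, g2⟩ := fd_le hgb
    show ((lf x₀.1 g.1, lf x₀.2 g.2) : ℤ × ℤ) + -((lf x₀.1 f.1, lf x₀.2 f.2) : ℤ × ℤ) = _
    refine Prod.ext ?_ ?_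
    · show lf x₀.1 g.1 + -lf x₀.1 f.1 = (g.1 - f.1).valMinAbs
      rw [← sub_eq_add_neg, lf_sub (R := ρ + R) (by omega) f1 g1]
    · show lf x₀.2 g.2 + -lf x₀.2 f.2 = (g.2 - f.2).valMinAbs
      rw [← sub_eq_add_neg, lf_sub (R := ρ + R) (by omega) f2 g2]
  · show ((lf x₀.1 f.1, lf x₀.2 f.2) : ℤ × ℤ) + -((lf x₀.1 f.1, lf x₀.2 f.2) : ℤ × ℤ) = κT f f
    rw [add_neg_cancel]
    unfold κT
    rw [sub_self, sub_self, ZMod.valMinAbs_zero]
    rfl

/-- plane-like polymers of the torus: contained in a ball and away from the marks -/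
def emT (mk : Set (ZMod M × ZMod M)) (ρ r : ℕ) (U : Finset (ZMod M × ZMod M)) : Prop :=
  (∃ x, ∀ u ∈ U, fd x u ≤ ρ) ∧ ∀ u ∈ U, ∀ x ∈ mk, s2 * r < fd u x

variable {Md Kd : ℕ} (D : FRD 16 Md Kd)


/-- the same for every predicate which provides a ball and keeps away from the marks -/
theorem sys_deep_tor_of {ε₁ ε₂ : ℝ} (h₁ : ε₁ * ε₁ = 1) (h₂ : ε₂ * ε₂ = 1)
    {mk : Finset (ZMod M × ZMod M)} {l k0 : ℕ} (hl : 5 ≤ l * (k0 + 1)) (hKd : 16 ≤ Kd)
    {K0 : Finset (ZMod M × ZMod M) → Ge (Fld (ZMod M))} {K0' : Finset (ℤ × ℤ) → Ge (Fld ℤ)}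
    (hloc : ∀ U, K0 U ∈ grG (fldU U)) (h0 : InitG (wTor M ε₁ ε₂) mk l k0 K0 K0') (n : ℕ)
    {em : Finset (ZMod M × ZMod M) → Prop}
    (hem : ∀ U, em U → ∃ x ρ, (∀ u ∈ U, fd x u ≤ ρ) ∧ 4 * (ρ + s2 * rr l k0 n + 1) ≤ M)
    (hmk : ∀ U, em U → ∀ u ∈ U, ∀ x ∈ mk, s2 * rr l k0 n < fd u x) (a : ℝ) (Γ : ℝ≥0∞) :
    NK (wTor M ε₁ ε₂) a (rr l k0 n) Γ em
        (fun U => ((sys D (wTor M ε₁ ε₂) mk l k0 K0).K n U : Gr (Fld (ZMod M)))) ≤
      NK (wPl ℤ) a (rr l k0 n) Γ (fun _ => True)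
        (fun U => ((sys D (wPl ℤ) ∅ l k0 K0').K n U : Gr (Fld ℤ))) := by
  refine sys_deep_gen D hl hKd hloc h0 n a Γ κT κT_injective ?_ ?_
  · intro f U hU hn
    obtain ⟨x, ρ, hx, hρ⟩ := hem U hU
    exact chart_tor h₁ h₂ hx hρ (Nat.le_mul_of_pos_left _ (by decide)) hn
  · rintro U hU f ⟨u, hu, huf⟩ hf
    have := hmk U hU u hu f hf
    omega


end tor

end Crest.Agent.R165.SysDeepx898
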