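import Crest.Agent.R165.BridgeRB2_386
import Crest.Agent.R165.TorChart_723
import Crest.Agent.R165.DefRec_915
import Crest.Agent.R165.W0_336
import Crest.Agent.R165.GSys_387
import Crest.Agent.R165.QuadB_915
import Crest.Agent.R165.PEnd_683
import Crest.Agent.R165.Comp2_889
import Crest.Agent.R165.GSys2_387
import Crest.Agent.R165.SysDeep_898
import Crest.Agent.R165.SysDeepT_898
import Crest.Agent.R165.XBd2_915
import Crest.Agent.R165.SpinDom_432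
import Crest.Agent.R165.K0IsoB_900
import Crest.Agent.R165.J4K0L_126
import Crest.Agent.R165.Const_891
import Crest.Agent.R165.Out_683

-- ▼ part R165/TorRB_583
section

/-!
# Row 165 (S0250): bulk regularity at every face of the torus sectors (helper583)

* `planeOn_tor` : the lifted weights of the sector `wTor M ε₁ ε₂` are plane (up to a gauge) in every
  box of radius `R`, `R + 1 < M`
* `rb_tor` : `RB (wTor M ε₁ ε₂) x CRB Λ 1 R` for every face `x`, `2 (R + 1) ≤ M`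
-/

set_option autoImplicit false

noncomputable section

open Crest.Agent.R165.Latx683 Crest.Agent.R165.GDefx387
  Crest.Agent.R165.Bridgex386 Crest.Agent.R165.BridgeRegx386 Crest.Agent.R165.BridgeRBx386
  Crest.Agent.R165.TorChartx723

namespace Crest.Agent.R165.TorRBx583

open Crest.Agent.R165.RIfx891 Crest.Agent.R165.Campx891

/-- the gauge of one integer coordinate -/
def sgz (M : ℕ) (ε : ℝ) (n : ℤ) : ℝ := if 0 ≤ n ∧ n < M then 1 else ε

theorem sgz_sq (M : ℕ) {ε : ℝ} (hε : ε * ε = 1) (n : ℤ) : sgz M ε n * sgz M ε n = 1 := by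
  unfold sgz
  split_ifs
  · norm_num
  · exact hε

theorem sgz_succ {M : ℕ} (hM : 0 < M) {ε : ℝ} (hε : ε * ε = 1) {n : ℤ} (h1 : -(M : ℤ) ≤ n)
    (h2 : n + 1 < 2 * M) :
    sgz M ε n * sgz M ε (n + 1) = if ((n + 1 : ℤ) : ZMod M) = 0 then ε else 1 := by
  have h3 : ((n + 1 : ℤ) : ZMod M) = 0 ↔ (n + 1 = 0 ∨ n + 1 = M) := by
    rw [ZMod.intCast_zmod_eq_zero_iff_dvd]
    constructor
    · rintro ⟨k, hk⟩
      have hk1 : -1 < k := by
        by_contra hcon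
        push Not at hcon
        have : (M : ℤ) * k ≤ M * (-1) := mul_le_mul_of_nonneg_left hcon (by positivity)
        omega
      have hk2 : k < 2 := by
        by_contra hcon
        push Not at hcon
        have : (M : ℤ) * 2 ≤ M * k := mul_le_mul_of_nonneg_left hcon (by positivity)
        omega
      have hk3 : k = 0 ∨ k = 1 := by omega
      rcases hk3 with rfl | rfl
      · left; rw [hk]; ring
      · right; rw [hk]; ring
    · rintro (h | h)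
      · rw [h]; exact dvd_zero _
      · rw [h]
  unfold sgz
  by_cases h5 : ((n + 1 : ℤ) : ZMod M) = 0
  · rw [if_pos h5]
    rcases h3.1 h5 with h6 | h6
    · rw [if_neg (by omega), if_pos (by omega), mul_one]
    · rw [if_pos (by omega), if_neg (by omega), one_mul]
  · rw [if_neg h5]
    have h6 : ¬ (n + 1 = 0 ∨ n + 1 = M) := fun h => h5 (h3.2 h)
    by_cases h7 : 0 ≤ n ∧ n < M
    · rw [if_pos h7, if_pos (by omega), one_mul]
    · rw [if_neg h7, if_neg (by omega)]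
      exact hε

/-- the gauge on the lifted faces -/
def sF (M : ℕ) (ε₁ ε₂ : ℝ) (P : Face) : ℝ := sgz M ε₁ P.1 * sgz M ε₂ P.2

/-- **the torus sectors are plane in boxes of radius smaller than the side** -/
theorem planeOn_tor {M : ℕ} [NeZero M] {ε₁ ε₂ : ℝ} (h₁ : ε₁ * ε₁ = 1) (h₂ : ε₂ * ε₂ = 1)
    {X : Face} (hX1 : 0 ≤ X.1 ∧ X.1 < M) (hX2 : 0 ≤ X.2 ∧ X.2 < M) {R : ℕ} (hR : R + 1 < M) :
    PlaneOn (wl (wTor M ε₁ ε₂)) (sF M ε₁ ε₂) X R where
  sym := sym_wl _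
  gauge f := by
    unfold sF
    have a := sgz_sq M h₁ f.1
    have b := sgz_sq M h₂ f.2
    calc (sgz M ε₁ f.1 * sgz M ε₂ f.2) ^ 2
        = (sgz M ε₁ f.1 * sgz M ε₁ f.1) * (sgz M ε₂ f.2 * sgz M ε₂ f.2) := by ring
      _ = 1 := by rw [a, b]; ring
  eq f hf h := by
    have hM0 : 0 < M := Nat.pos_of_ne_zero (NeZero.ne M)
    have hb := mem_bx_nat.1 hf
    have hb1 := abs_le.1 hb.1
    have hb2 := abs_le.1 hb.2
    have a := sgz_sq M h₁ f.1
    have b := sgz_sq M h₂ f.2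
    have r1 := sgz_succ (n := f.1) hM0 h₁ (by omega) (by omega)
    have r1' := sgz_succ (n := f.1 - 1) hM0 h₁ (by omega) (by omega)
    have r2 := sgz_succ (n := f.2) hM0 h₂ (by omega) (by omega)
    have r2' := sgz_succ (n := f.2 - 1) hM0 h₂ (by omega) (by omega)
    rw [sub_add_cancel] at r1' r2'
    fin_cases h
    · show wTor M ε₁ ε₂ ((f.1 : ZMod M), ((f.2 - 1 : ℤ) : ZMod M) + 1) 0 =
        sF M ε₁ ε₂ f * sF M ε₁ ε₂ (f.1, f.2 - 1) * xc
      have e : ((f.2 - 1 : ℤ) : ZMod M) + 1 = (f.2 : ZMod M) := by push_cast; ring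
      unfold wTor sF
      rw [if_neg (by decide)]
      simp only [e]
      rw [← r2']
      linear_combination (-(sgz M ε₂ (f.2 - 1) * sgz M ε₂ f.2 * xc)) * a
    · show wTor M ε₁ ε₂ ((f.1 : ZMod M) + 1, (f.2 : ZMod M)) 1 =
        sF M ε₁ ε₂ f * sF M ε₁ ε₂ (f.1 + 1, f.2) * xc
      have e : (f.1 : ZMod M) + 1 = ((f.1 + 1 : ℤ) : ZMod M) := by push_cast; ring
      unfold wTor sF
      rw [if_pos rfl]
      simp only [e]
      rw [← r1]
      linear_combination (-(sgz M ε₁ f.1 * sgz M ε₁ (f.1 + 1) * xc)) * b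
    · show wTor M ε₁ ε₂ ((f.1 : ZMod M), (f.2 : ZMod M) + 1) 0 =
        sF M ε₁ ε₂ f * sF M ε₁ ε₂ (f.1, f.2 + 1) * xc
      have e : (f.2 : ZMod M) + 1 = ((f.2 + 1 : ℤ) : ZMod M) := by push_cast; ring
      unfold wTor sF
      rw [if_neg (by decide)]
      simp only [e]
      rw [← r2]
      linear_combination (-(sgz M ε₂ f.2 * sgz M ε₂ (f.2 + 1) * xc)) * a
    · show wTor M ε₁ ε₂ (((f.1 - 1 : ℤ) : ZMod M) + 1, (f.2 : ZMod M)) 1 =
        sF M ε₁ ε₂ f * sF M ε₁ ε₂ (f.1 - 1, f.2) * xc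
      have e : ((f.1 - 1 : ℤ) : ZMod M) + 1 = (f.1 : ZMod M) := by push_cast; ring
      unfold wTor sF
      rw [if_pos rfl]
      simp only [e]
      rw [← r1']
      linear_combination (-(sgz M ε₁ (f.1 - 1) * sgz M ε₁ f.1 * xc)) * b

/-- **bulk regularity at every face of every sector of the torus** -/
theorem rb_tor {M : ℕ} [NeZero M] {ε₁ ε₂ : ℝ} (h₁ : ε₁ * ε₁ = 1) (h₂ : ε₂ * ε₂ = 1)
    (x : ZMod M × ZMod M) {R : ℕ} (hR : 2 * (R + 1) ≤ M) (Λ : ℕ) :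
    RegGx893.RB (wTor M ε₁ ε₂) x CRB Λ 1 R := by
  have hx : (pf ((x.1.val : ℤ), (x.2.val : ℤ)) : ZMod M × ZMod M) = x := by
    unfold pf
    ext <;> simp
  have h1 : (x.1.val : ℤ) < M := by exact_mod_cast ZMod.val_lt x.1
  have h2 : (x.2.val : ℤ) < M := by exact_mod_cast ZMod.val_lt x.2
  have key := rb_plane (G := ZMod M) (w := wTor M ε₁ ε₂) (inj_zmod M (R := R) (by omega))
    (planeOn_tor h₁ h₂ (X := ((x.1.val : ℤ), (x.2.val : ℤ))) ⟨by positivity, h1⟩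
      ⟨by positivity, h2⟩ (R := R) (by omega)) Λ
  rwa [hx] at key

end Crest.Agent.R165.TorRBx583
end
end

-- ▼ part R165/TorD_583
section

/-!
# Row 165 (S0250): the linear bounds of one step in a homogeneous background with marks (helper583)

* `dstep_marks` : `DStep` of DefRec_915 for a background in which every face satisfies the bulk
  inequality (W1) and every small polymer is plane-like; the only defects are the marked faces
* `dstep_tor`   : the torus sectors (`wTor M ε₁ ε₂`), any set of marks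
-/

set_option autoImplicit false
set_option linter.unusedSectionVars false

noncomputable section

open scoped ENNReal
open Crest.Agent.R165.Gr0x606 Crest.Agent.R165.Gr1x606 Crest.Agent.R165.GeOpsx337
  Crest.Agent.R165.ExpGx337 Crest.Agent.R165.KFlowx337
open Crest.Agent.R165.Latx683 Crest.Agent.R165.PNormx417
open Crest.Agent.R165.GDefx387 Crest.Agent.R165.Packx915 Crest.Agent.R165.NSumx915
open Crest.Agent.R165.Bridgex915 Crest.Agent.R165.DefStepx915 Crest.Agent.R165.NKDefx915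
  Crest.Agent.R165.DefRecx915 Crest.Agent.R165.TorChartx723
  Crest.Agent.R165.BridgeRBx386

namespace Crest.Agent.R165.TorDx583

/-- **linear bounds of one step**, homogeneous background with marks -/
theorem dstep_marks {G : Type} [CommRing G] [CN G] [DecidableEq G] {w : BW G}
    {mk : Finset (G × G)} {a a' : ℝ} {r r' R : ℕ} {Γ : ℝ≥0∞} {S : Cov (Fld G)}
    {g : Fld G → ℝ≥0∞} (hg : Gram S g) {ε p : ℝ≥0∞}
    (hW0 : ∀ U, GLinx336.W0 w g a' r' ε U) (hW1 : ∀ x, WLe w a a' r r' x x LinearMap.id p)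
    (hε : ε ≠ 0) (hp0 : p ≠ 0) (hp1 : (1 + ε) * p ≤ 1) (hR : 4 * R + 3 * r + 2 ≤ r')
    (hΓt : Γ ≠ ∞) (hΓ : 9 ≤ Γ) {ac em : Finset (G × G) → Prop}
    (hac : ∀ U, ac U → Packx915.Conn fd R U)
    (hem : ∀ U, ac U → size r U ≤ 1 → ¬ em U → ∃ u ∈ U, ∃ x ∈ mk, fd u x ≤ s2 * r) :
    DStep w a a' r r' Γ (3 * Γ) S ac em
      (fun _ : Unit => (mk : Set (G × G))) (fun _ => (s2 + 1) * r) (fun _ => mk.card)
      (fun _ => ((1 + ε) * p) ^ 2) (9 * Γ⁻¹) 1 where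
  count _ := dcount_finset mk _ _
  q_ne _ := by
    refine pow_ne_zero 2 (mul_ne_zero ?_ hp0)
    exact (lt_of_lt_of_le one_pos le_self_add).ne'
  qL_ne := mul_ne_zero (by norm_num) (ENNReal.inv_ne_zero.2 hΓt)
  qT_ne := one_ne_zero
  large U hU h2 K hK := by
    have h1 : pG (wU w a' r' U) (cvG S K) ≤ pG (wU w a r U) K :=
      GLinx336.any_small (U := U) hg (hW0 U) hε hp0 hp1 (fun x hx => ⟨x, hx, hW1 x⟩) _
    rw [Bridgex915.size_eq_pack] at h2 ⊢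
    rw [Bridgex915.size_eq_pack]
    have hmono : pack fd r' U ≤ pack fd r U := pack_anti (by omega)
    have key := GLinx336.large_weighted (d := fd) (G := Γ) (a := 3) (b := pack fd r' U)
      (A := 3 ^ pack fd r' U * pG (wU w a' r' U) (cvG S K)) (B := pG (wU w a r U) K)
      pd_fd (hac U hU) hR h2 (by norm_num) hΓt (by norm_num; exact hΓ) hmono
      (mul_le_mul' le_rfl h1)
    calc (3 * Γ) ^ pack fd r' U * pG (wU w a' r' U) (cvG S K)
        = Γ ^ pack fd r' U * (3 ^ pack fd r' U * pG (wU w a' r' U) (cvG S K)) := by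
          rw [mul_pow]; ring
      _ ≤ (3 ^ 2 * Γ⁻¹) * (Γ ^ pack fd r U * pG (wU w a r U) K) := key
      _ = (9 * Γ⁻¹) * (Γ ^ pack fd r U * pG (wU w a r U) K) := by norm_num
  small U hU hs hem' := by
    refine ⟨(), ?_, fun K hK => ?_⟩
    · obtain ⟨u, hu, x, hx, hux⟩ := hem U hU hs hem'
      rw [Bridgex915.size_eq_pack] at hs
      intro v hv
      refine ⟨x, hx, ?_⟩
      have h2 := (pack_le_one_iff pd_fd).1 hs v hv u hu
      have h3 := fd_triangle v u x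
      calc fd v x ≤ r + s2 * r := by omega
        _ = (s2 + 1) * r := by ring
    · have h := GLinx336.cluster_small (U := U) (K := ((K : Ge (Fld G)) : Gr (Fld G))) hg (hW0 U) hε
        hp0 hp1 (fun x hx => ⟨x, hx, hW1 x⟩) K.2 hK
      have e : ((nl (cvG S K) : Ge (Fld G)) : Gr (Fld G)) =
          GLinx336.noct (conv S ((K : Ge (Fld G)) : Gr (Fld G))) := by
        rw [nl, Ge.coe_sub, ge_coe_algebraMap, GLinx336.noct, ctG_apply, coe_cvG]
      rw [pG_def, e]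
      exact h
  any U hU hs K hK := by
    rw [one_mul]
    exact GLinx336.any_small (U := U) hg (hW0 U) hε hp0 hp1 (fun x hx => ⟨x, hx, hW1 x⟩) _

/-! ### numerics of the scales -/

open Crest.Agent.R165.GSysx387 Crest.Agent.R165.FRDPolyx439 Crest.Agent.R165.FRDLatx439

/-- the constant of the bulk regularity, at least one -/
def CT : ℝ := max 1 CRB

theorem one_le_CT : 1 ≤ CT := le_max_left _ _

/-- the factor of (W1) for the ratio `2^l`, amplitudes growing by at most `ρ` -/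
def qW (l : ℕ) (ρ : ℝ) : ℝ≥0∞ :=
  ENNReal.ofReal (ρ * (RegGx893.K1 CT * Real.sqrt (1 / 2 ^ l)))

/-- the factor of (W0), all steps -/
def eW (C : ℝ) (l k0 : ℕ) (A0 : ℝ) : ℝ≥0∞ :=
  ENNReal.ofReal (7 * √(C * 1) * ((2 : ℝ) ^ (l * (k0 + 1))) ^ MM / A0)

theorem K1_pos : 0 < RegGx893.K1 CT := by
  unfold RegGx893.K1
  have := one_le_CT
  positivity

theorem qW_ne_zero {l : ℕ} {ρ : ℝ} (hρ : 0 < ρ) : qW l ρ ≠ 0 := by
  unfold qW
  rw [Ne, ENNReal.ofReal_eq_zero, not_le]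
  exact mul_pos hρ (mul_pos K1_pos (Real.sqrt_pos.2 (by positivity)))

theorem eW_ne_zero {C : ℝ} (hC : 0 < C) {l k0 : ℕ} {A0 : ℝ} (hA : 0 < A0) : eW C l k0 A0 ≠ 0 := by
  unfold eW
  rw [Ne, ENNReal.ofReal_eq_zero, not_le]
  have : 0 < √(C * 1) := Real.sqrt_pos.2 (by linarith)
  positivity

theorem rr_ratio (l k0 n : ℕ) : ((rr l k0 n : ℕ) : ℝ) / (rr l k0 (n + 1) : ℕ) = 1 / 2 ^ l := by
  have h := rr_succ l k0 n
  have h1 : (0 : ℝ) < (rr l k0 n : ℕ) := by exact_mod_cast rr_pos l k0 n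
  rw [h]
  push_cast
  field_simp

/-- (W1) between consecutive scales at a face with bulk regularity up to `8 r_(n+1)` -/
theorem W1_scale {G : Type} [CommRing G] [CN G] {w : BW G} {x : G × G} {l k0 n : ℕ} (hl : 3 ≤ l)
    (H : RegGx893.RB w x CRB (2 ^ l) 1 (8 * rr l k0 (n + 1))) {a a' ρ : ℝ} (ha : 0 < a)
    (ha' : 0 ≤ a') (haa : a' ≤ ρ * a) :
    WLe w a a' (rr l k0 n) (rr l k0 (n + 1)) x x LinearMap.id (qW l ρ) := by
  have H' : RegGx893.RB w x CT (2 ^ l) 1 (8 * rr l k0 (n + 1)) :=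
    H.mono (le_max_right _ _) le_rfl le_rfl le_rfl
  have h8 : 8 ≤ 2 ^ l := by
    calc 8 = 2 ^ 3 := by norm_num
      _ ≤ 2 ^ l := Nat.pow_le_pow_right (by norm_num) hl
  have hr := rr_pos l k0 n
  have hs := rr_succ l k0 n
  have h := RegGx893.W1_bulk (a := a) (a' := a') one_le_CT H' (r := rr l k0 n)
    (r' := rr l k0 (n + 1)) hr (by rw [hs]; exact Nat.mul_le_mul_right _ h8) (le_of_eq hs) le_rfl
    hr ha ha'
  refine Wtx898.WLe.mono h (ENNReal.ofReal_le_ofReal ?_)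
  rw [rr_ratio]
  refine mul_le_mul_of_nonneg_right ?_ (mul_nonneg K1_pos.le (Real.sqrt_nonneg _))
  rwa [div_le_iff₀ ha]

/-- (W0) for the slices of step `n`, all steps -/
theorem W0_scale {G : Type} [CommRing G] [CN G] {Mp K : ℕ} (D : FRD 16 Mp K) (hMp : MM + 1 ≤ Mp)
    {w : BW G} (hw : ∀ z j, |w z j| ≤ 1) (l k0 n : ℕ) {A A0 : ℝ} (hA0 : 0 < A0) (hA : A0 ≤ A)
    (U : Finset (G × G)) :
    GLinx336.W0 w (gw D w (lo l k0 n) (hi l k0 n)) A (rr l k0 (n + 1)) (eW D.C l k0 A0) U := by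
  have hAp : 0 < A := hA0.trans_le hA
  have h1 : ((rr l k0 (n + 1) : ℕ) : ℝ) ≤ (2 : ℝ) ^ (l * (k0 + 1)) * 2 ^ lo l k0 n := by
    rw [← pow_add]
    unfold rr lo
    push_cast
    refine pow_le_pow_right₀ (by norm_num) ?_
    split_ifs with h0
    · subst h0; simp
    · have : l * (k0 + (n + 1)) = l * (k0 + n) + l := by ring
      have h2 : l * (k0 + 1) = l * k0 + l := by ring
      omega
  have h2 : (2 : ℝ) ^ hi l k0 n ≤ 1 * (rr l k0 (n + 1) : ℕ) := by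
    rw [one_mul, ← hi_eq l k0 n]
    push_cast
    exact le_rfl
  have h := GLinx336.W0_next D hMp w (AopF_bdd w hw) (lo l k0 n) (hi l k0 n) (rr l k0 (n + 1)) 1
    ((2 : ℝ) ^ (l * (k0 + 1))) (one_le_pow₀ (by norm_num)) h1 h2 hAp U
  intro x hx l' hl'
  refine (h x hx l' hl').trans (mul_le_mul' (ENNReal.ofReal_le_ofReal ?_) le_rfl)
  exact div_le_div_of_nonneg_left (by positivity) hA0 hA

theorem slC_gram {G : Type} [CommRing G] [CN G] {Mp K : ℕ} (D : FRD 16 Mp K) {w : BW G}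
    (hw : ∀ z j, |w z j| ≤ 1) (l k0 n : ℕ) :
    Gram (slC D w l k0 n) (gw D w (lo l k0 n) (hi l k0 n)) := SopC_gram D w (AopF_bdd w hw) _ _

theorem nearR_le {l : ℕ} (k0 n : ℕ) (hl : 4 ≤ l) : 4 * nearR l k0 n + 3 * rr l k0 n + 2 ≤
    rr l k0 (n + 1) := by
  have h8 : 2 ^ 4 ≤ 2 ^ l := Nat.pow_le_pow_right (by norm_num) hl
  have hr := rr_pos l k0 n
  have hs := rr_succ l k0 n
  have h16 : 16 * rr l k0 n ≤ rr l k0 (n + 1) := by
    rw [hs]; exact Nat.mul_le_mul_right _ h8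
  have h1 : nearR l k0 n = rr l k0 (n + 1) / 8 := rfl
  omega

/-! ### the torus -/

theorem wTor_le {M : ℕ} {ε₁ ε₂ : ℝ} (h₁ : ε₁ * ε₁ = 1) (h₂ : ε₂ * ε₂ = 1) (z : ZMod M × ZMod M)
    (j : Fin 2) : |wTor M ε₁ ε₂ z j| ≤ 1 := by
  have a1 : |ε₁| = 1 := by
    have := abs_mul_abs_self ε₁
    nlinarith [abs_nonneg ε₁]
  have a2 : |ε₂| = 1 := by
    have := abs_mul_abs_self ε₂
    nlinarith [abs_nonneg ε₂]
  have hx : |xc| ≤ 1 := by
    rw [abs_of_pos Crest.Agent.R165.PlaneModesx901.xc_pos]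
    have h2 := Crest.Agent.R165.PlaneModesx901.xc_sq
    have h3 := Crest.Agent.R165.PlaneModesx901.xc_pos
    nlinarith
  have key : ∀ e : ℝ, |e| = 1 → |e * xc| ≤ 1 := fun e he => by rw [abs_mul, he, one_mul]; exact hx
  unfold wTor
  split_ifs
  · exact key _ a1
  · exact key _ (by norm_num)
  · exact key _ a2
  · exact key _ (by norm_num)

/-- the plane-like polymers of the torus: plane, unmarked, inside a ball of radius `< M/4` -/
def emT {M : ℕ} [NeZero M] (w : BW (ZMod M)) (mk : Finset (ZMod M × ZMod M)) (r : ℕ)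
    (U : Finset (ZMod M × ZMod M)) : Prop :=
  emM w (mk : Set (ZMod M × ZMod M)) r U ∧
    ∃ x : ZMod M × ZMod M, ∃ ρ : ℕ, 4 * (ρ + s2 * r + 1) ≤ M ∧ ∀ u ∈ U, u ∈ ball x ρ

/-- small polymers of the torus which are not plane-like are near a mark -/
theorem small_emT {M : ℕ} [NeZero M] {ε₁ ε₂ : ℝ} (h₁ : ε₁ * ε₁ = 1) (h₂ : ε₂ * ε₂ = 1)
    (mk : Finset (ZMod M × ZMod M)) {r : ℕ} (hM : 4 * (r + s2 * r + 1) ≤ M)
    {U : Finset (ZMod M × ZMod M)} (hne : U.Nonempty) (hs : size r U ≤ 1)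
    (hem : ¬ emT (wTor M ε₁ ε₂) mk r U) : ∃ u ∈ U, ∃ x ∈ mk, fd u x ≤ s2 * r := by
  rw [Bridgex915.size_eq_pack] at hs
  obtain ⟨u₀, hu₀⟩ := hne
  have hb : ∀ v ∈ U, fd u₀ v ≤ r := fun v hv => (pack_le_one_iff pd_fd).1 hs u₀ hu₀ v hv
  by_contra hcon
  push Not at hcon
  exact hem ⟨⟨emb_tor h₁ h₂ hb hM, hcon⟩, u₀, r, hM, hb⟩

/-- **linear bounds of one step on the torus**, any sector, any set of marks -/
theorem dstep_tor {M : ℕ} [NeZero M] {ε₁ ε₂ : ℝ} (h₁ : ε₁ * ε₁ = 1) (h₂ : ε₂ * ε₂ = 1)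
    {Mp K : ℕ} (D : FRD 16 Mp K) (hMp : MM + 1 ≤ Mp) (mk : Finset (ZMod M × ZMod M))
    {l k0 n : ℕ} (hl : 4 ≤ l) (hM : 2 * (8 * rr l k0 (n + 1) + 1) ≤ M)
    (hM' : 4 * (rr l k0 n + s2 * rr l k0 n + 1) ≤ M)
    {a a' ρ A0 : ℝ} (ha : 0 < a) (hA0 : 0 < A0) (hA : A0 ≤ a') (hρ : 0 < ρ) (haa : a' ≤ ρ * a)
    (hq : (1 + eW D.C l k0 A0) * qW l ρ ≤ 1) {Γ : ℝ≥0∞} (hΓt : Γ ≠ ∞) (hΓ : 9 ≤ Γ) :
    DStep (wTor M ε₁ ε₂) a a' (rr l k0 n) (rr l k0 (n + 1)) Γ (3 * Γ)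
      (slC D (wTor M ε₁ ε₂) l k0 n)
      (fun U => U.Nonempty ∧ Packx915.Conn fd (nearR l k0 n) U)
      (emT (wTor M ε₁ ε₂) mk (rr l k0 n))
      (fun _ : Unit => (mk : Set _)) (fun _ => (s2 + 1) * rr l k0 n) (fun _ => mk.card)
      (fun _ => ((1 + eW D.C l k0 A0) * qW l ρ) ^ 2) (9 * Γ⁻¹) 1 :=
  dstep_marks (R := nearR l k0 n) (slC_gram D (wTor_le h₁ h₂) l k0 n)
    (fun U => W0_scale D hMp (wTor_le h₁ h₂) l k0 n hA0 hA U)
    (fun x => W1_scale (by omega) (TorRBx583.rb_tor h₁ h₂ x hM _) ha (hA0.le.trans hA) haa)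
    (eW_ne_zero D.C_pos hA0) (qW_ne_zero hρ) hq (nearR_le k0 n hl) hΓt hΓ (fun U h => h.2)
    (fun U hU hs hem => small_emT h₁ h₂ mk hM' hU.1 hs hem)

end Crest.Agent.R165.TorDx583
end
end

-- ▼ part R165/TorNum_583
section

/-!
# Row 165 (S0250): numerics of the torus flow (helper583)

* `kapD_le`, `nn2_eq`, `nn3_eq` : the constants of `step_all` do not depend on the step
* `ev_num` : for all large `p`, `Γ`, `k0`, `A0` and small `δ` the numerical hypotheses hold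
-/

set_option autoImplicit false
set_option linter.unusedSectionVars false

noncomputable section

open Filter Topology
open scoped ENNReal
open Crest.Agent.R165.GDefx387 Crest.Agent.R165.GSysx387 Crest.Agent.R165.DefRecx915
  Crest.Agent.R165.TorDx583 Crest.Agent.R165.PEndx683

namespace Crest.Agent.R165.TorNumx583

theorem rr_div (l k0 n : ℕ) : rr l k0 (n + 1) / rr l k0 n = 2 ^ l := by
  rw [rr_succ, Nat.mul_div_cancel _ (rr_pos l k0 n)]

theorem nn2_eq (l k0 n : ℕ) : nn2 (rr l k0 n) (rr l k0 (n + 1)) = (2 * 2 ^ l + 3) ^ 2 := by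
  unfold nn2
  rw [rr_div]

theorem nn3_le (l k0 n : ℕ) :
    nn3 (rr l k0 (n + 1)) (nearR l k0 (n + 1)) ≤ (2 * (1 + 2 ^ l) + 3) ^ 2 := by
  unfold nn3
  have h : (rr l k0 (n + 1) + nearR l k0 (n + 1)) / rr l k0 (n + 1) ≤ 1 + 2 ^ l := by
    rw [Nat.add_div_left _ (rr_pos l k0 (n + 1))]
    have : nearR l k0 (n + 1) / rr l k0 (n + 1) ≤ 2 ^ l := by
      rw [← rr_div l k0 (n + 1)]
      refine Nat.div_le_div_right ?_
      exact Nat.div_le_self _ _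
    omega
  exact Nat.pow_le_pow_left (by omega) 2

theorem mark_div (r : ℕ) (hr : 0 < r) : ((s2 + 1) * r + r) / r = 130 := by
  have : (s2 + 1) * r + r = 130 * r := by
    have : s2 = 128 := rfl
    rw [this]; ring
  rw [this, Nat.mul_div_cancel _ hr]

/-- the contraction factor does not depend on the step -/
theorem kapD_eq (l k0 n N : ℕ) (q Γ : ℝ≥0∞) :
    kapD (rr l k0 n) (rr l k0 (n + 1)) (fun _ : Unit => (s2 + 1) * rr l k0 n) (fun _ => N)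
      (fun _ => q) (9 * Γ⁻¹) =
      9 * Γ⁻¹ * ((2 * 2 ^ l + 3) ^ 2 : ℕ) + q * ((N * 263 ^ 2 : ℕ) : ℝ≥0∞) := by
  unfold kapD
  rw [nn2_eq, Fintype.sum_unique, mark_div _ (rr_pos l k0 n)]

theorem tendsto_qW (ρ : ℝ) : Tendsto (fun l : ℕ => qW l ρ) atTop (𝓝 0) := by
  have h1 : Tendsto (fun l : ℕ => ρ * (RegGx893.K1 CT * Real.sqrt (1 / 2 ^ l))) atTop (𝓝 0) := by
    have h2 : Tendsto (fun l : ℕ => (1 : ℝ) / 2 ^ l) atTop (𝓝 0) := by
      have := tendsto_pow_atTop_nhds_zero_of_lt_one (r := (1 / 2 : ℝ)) (by norm_num) (by norm_num)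
      refine this.congr fun l => ?_
      rw [div_pow, one_pow]
    have h3 := (Real.continuous_sqrt.tendsto 0).comp h2
    rw [Real.sqrt_zero] at h3
    have h4 := (h3.const_mul (RegGx893.K1 CT)).const_mul ρ
    simpa using h4
  have := (ENNReal.continuous_ofReal.tendsto 0).comp h1
  rwa [ENNReal.ofReal_zero] at this

theorem tendsto_eW (C : ℝ) (l k0 : ℕ) : Tendsto (fun A0 : ℝ => eW C l k0 A0) atTop (𝓝 0) := by
  have h1 : Tendsto (fun A0 : ℝ => 7 * √(C * 1) * ((2 : ℝ) ^ (l * (k0 + 1))) ^ MM / A0) atTop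
      (𝓝 0) := Tendsto.div_atTop tendsto_const_nhds tendsto_id
  have := (ENNReal.continuous_ofReal.tendsto 0).comp h1
  rwa [ENNReal.ofReal_zero] at this

/-- **the numerical hypotheses of the torus flow hold for good constants** (`N` marks) -/
theorem ev_num (C : ℝ) (N : ℕ) : EvC fun c => 4 ≤ c.p ∧ 9 ≤ ENNReal.ofReal c.Γ ∧ 0 < c.A0 ∧
    0 < c.δ ∧ c.δ ≤ 1 ∧ (1 + eW C c.p c.k0 c.A0) * qW c.p 2 ≤ 1 ∧
    9 * (ENNReal.ofReal c.Γ)⁻¹ * ((2 * 2 ^ c.p + 3) ^ 2 : ℕ) +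
      ((1 + eW C c.p c.k0 c.A0) * qW c.p 2) ^ 2 * ((N * 263 ^ 2 : ℕ) : ℝ≥0∞) ≤ 1 / 4 := by
  -- the target for `2 qW`
  set η : ℝ≥0∞ := min 1 ((8 * ((N * 263 ^ 2 : ℕ) : ℝ≥0∞) + 1)⁻¹) with hη
  have hη0 : 0 < η := by
    refine lt_min one_pos (ENNReal.inv_pos.2 ?_)
    exact ENNReal.add_ne_top.2 ⟨ENNReal.mul_ne_top (by norm_num) (ENNReal.natCast_ne_top _),
      ENNReal.one_ne_top⟩
  have hq : ∀ᶠ l : ℕ in atTop, qW l 2 ≤ η / 2 := by
    have := (tendsto_qW 2).eventually (gt_mem_nhds (ENNReal.half_pos hη0.ne'))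
    exact this.mono fun _ h => h.le
  refine (hq.and (eventually_ge_atTop 4)).mono fun l hl => ?_
  have hΓ : ∀ᶠ Γ : ℝ in atTop, 9 * 8 * ((2 * 2 ^ l + 3) ^ 2 : ℕ) ≤ Γ ∧ 9 ≤ Γ :=
    (eventually_ge_atTop _).and (eventually_ge_atTop _)
  refine hΓ.mono fun Γ hΓ => Eventually.of_forall fun k0 => ?_
  have hA : ∀ᶠ A0 : ℝ in atTop, eW C l k0 A0 ≤ 1 ∧ 0 < A0 := by
    refine ((tendsto_eW C l k0).eventually (gt_mem_nhds one_pos)).mono (fun _ h => h.le) |>.and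
      (eventually_gt_atTop 0)
  refine hA.mono fun A0 hA0 => ?_
  have hδ : ∀ᶠ δ : ℝ in 𝓝[>] 0, 0 < δ ∧ δ ≤ 1 := by
    filter_upwards [Ioc_mem_nhdsGT (zero_lt_one' ℝ)] with δ hδ using hδ
  refine hδ.mono fun δ hδ => ?_
  have hp : (1 + eW C l k0 A0) * qW l 2 ≤ η := by
    calc (1 + eW C l k0 A0) * qW l 2 ≤ (1 + 1) * (η / 2) := by gcongr; exacts [hA0.1, hl.1]
      _ = η := by rw [one_add_one_eq_two]; exact ENNReal.mul_div_cancel (by norm_num) (by norm_num)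
  refine ⟨hl.2, ?_, hA0.2, hδ.1, hδ.2, hp.trans (min_le_left _ _), ?_⟩
  · rw [show (9 : ℝ≥0∞) = ENNReal.ofReal 9 by norm_num]
    exact ENNReal.ofReal_le_ofReal hΓ.2
  · have h1 : 9 * (ENNReal.ofReal Γ)⁻¹ * ((2 * 2 ^ l + 3) ^ 2 : ℕ) ≤ 1 / 8 := by
      have hΓ0 : 0 < Γ := by linarith [hΓ.2]
      have h2 : ENNReal.ofReal (9 * 8 * ((2 * 2 ^ l + 3) ^ 2 : ℕ)) ≤ ENNReal.ofReal Γ :=
        ENNReal.ofReal_le_ofReal hΓ.1
      rw [ENNReal.ofReal_mul (by norm_num), ENNReal.ofReal_natCast] at h2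
      have h3 : (9 : ℝ≥0∞) * ((2 * 2 ^ l + 3) ^ 2 : ℕ) * 8 ≤ ENNReal.ofReal Γ := by
        refine le_trans (le_of_eq ?_) h2
        rw [ENNReal.ofReal_mul (by norm_num)]
        norm_num
        ring
      have hΓ1 : ENNReal.ofReal Γ ≠ 0 := by
        rw [Ne, ENNReal.ofReal_eq_zero, not_le]; exact hΓ0
      rw [ENNReal.le_div_iff_mul_le (by norm_num) (by norm_num)]
      calc 9 * (ENNReal.ofReal Γ)⁻¹ * ((2 * 2 ^ l + 3) ^ 2 : ℕ) * 8
          = (9 * ((2 * 2 ^ l + 3) ^ 2 : ℕ) * 8) * (ENNReal.ofReal Γ)⁻¹ := by ring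
        _ ≤ ENNReal.ofReal Γ * (ENNReal.ofReal Γ)⁻¹ := by gcongr
        _ ≤ 1 := ENNReal.mul_inv_le_one _
    have h2 : ((1 + eW C l k0 A0) * qW l 2) ^ 2 * ((N * 263 ^ 2 : ℕ) : ℝ≥0∞) ≤ 1 / 8 := by
      set T : ℝ≥0∞ := ((N * 263 ^ 2 : ℕ) : ℝ≥0∞) with hT
      rw [ENNReal.le_div_iff_mul_le (by norm_num) (by norm_num)]
      calc ((1 + eW C l k0 A0) * qW l 2) ^ 2 * T * 8 ≤ η ^ 2 * T * 8 := by gcongr
        _ = η * (η * (8 * T)) := by ring
        _ ≤ 1 * ((8 * T + 1)⁻¹ * (8 * T + 1)) := by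
            gcongr
            · exact min_le_left _ _
            · exact min_le_right _ _
            · exact le_self_add
        _ ≤ 1 := by rw [one_mul]; exact ENNReal.inv_mul_le_one _
    calc _ ≤ (1 / 8 : ℝ≥0∞) + 1 / 8 := add_le_add h1 h2
      _ = 1 / 4 := by
        rw [← two_mul, show (8 : ℝ≥0∞) = 2 * 4 by norm_num, one_div,
          ENNReal.mul_inv (by norm_num) (by norm_num), ← mul_assoc,
          ENNReal.mul_inv_cancel (by norm_num) (by norm_num), one_mul, one_div]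

end Crest.Agent.R165.TorNumx583
end
end

-- ▼ part R165/TorNorm_583
section

/-!
# Row 165 (S0250): the norm flow on the torus (helper583)

`sys D (wTor M ε₁ ε₂) mk l k0 K0` on `ZMod M`, all sectors, up to the step `K` with
`4 (129 r_K + 1) ≤ M`.

* `str_tor`  : the structural hypotheses `Str` of Comp2_889
* `tor_comp` : the norm bounds at all scales
-/

set_option autoImplicit false
set_option linter.unusedSectionVars false

noncomputable section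

open Filter Topology
open scoped ENNReal
open Crest.Agent.R165.Gr0x606 Crest.Agent.R165.Gr1x606 Crest.Agent.R165.GeOpsx337
  Crest.Agent.R165.ExpGx337 Crest.Agent.R165.KFlowx337
open Crest.Agent.R165.Latx683 Crest.Agent.R165.PNormx417
open Crest.Agent.R165.GDefx387 Crest.Agent.R165.Packx915 Crest.Agent.R165.NSumx915
open Crest.Agent.R165.Bridgex915 Crest.Agent.R165.DefStepx915 Crest.Agent.R165.NKDefx915
  Crest.Agent.R165.DefRecx915 Crest.Agent.R165.Compx889 Crest.Agent.R165.TorChartx723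
  Crest.Agent.R165.GSysx387 Crest.Agent.R165.FRDPolyx439 Crest.Agent.R165.FRDLatx439
  Crest.Agent.R165.TorDx583 Crest.Agent.R165.TorNumx583 Crest.Agent.R165.PEndx683

namespace Crest.Agent.R165.TorNormx583

/-- active polymers -/
def acT {G : Type} [CommRing G] [CN G] (l k0 n : ℕ) (U : Finset (G × G)) : Prop :=
  U.Nonempty ∧ Packx915.Conn fd (nearR l k0 n) U

theorem s2_le {l k0 n : ℕ} (hl : 1 ≤ l) : (s2 + 1) * rr l k0 n ≤ s2 * rr l k0 (n + 1) := by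
  have h2 : 2 ≤ 2 ^ l := by
    calc 2 = 2 ^ 1 := by norm_num
      _ ≤ 2 ^ l := Nat.pow_le_pow_right (by norm_num) hl
  have h3 : 2 * rr l k0 n ≤ rr l k0 (n + 1) := by
    rw [rr_succ]; exact Nat.mul_le_mul_right _ h2
  have hs : s2 = 128 := rfl
  rw [hs]
  omega

/-- **the structural hypotheses on the torus** -/
theorem str_tor {M : ℕ} [NeZero M] {ε₁ ε₂ : ℝ} {Mp Kp : ℕ} (D : FRD 16 Mp Kp) (mk : Finset (ZMod M × ZMod M)) {l k0 : ℕ} (hl : 1 ≤ l)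
    {Γ : ℝ≥0∞} (hΓ : 1 ≤ Γ) {K : ℕ} (hM : ∀ n, n ≤ K → 4 * (rr l k0 n + s2 * rr l k0 n + 1) ≤ M)
    {K0 : Finset (ZMod M × ZMod M) → Ge (Fld (ZMod M))}
    (hac : ∀ k U, (sys D (wTor M ε₁ ε₂) mk l k0 K0).K k U ≠ 0 → acT l k0 k U) :
    Str (sys D (wTor M ε₁ ε₂) mk l k0 K0) (rr l k0) (nearR l k0) Γ (acT l k0)
      (fun k => emT (wTor M ε₁ ε₂) mk (rr l k0 k)) K where
  r_pos := rr_pos l k0
  r_mono k := rr_mono l k0 (Nat.le_succ k)
  Γ1 := hΓ
  vac x := PStepx417.vac0_apply x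
  near k hk := rfl
  hac k hk U hU := hac k U hU
  ne k hk U hU := hU.1
  deep k hk := by
    intro U f hf hs he
    refine ⟨deep_emM _ _ (s2_le hl) U f hf hs he.1, f, rr l k0 k, hM k hk.le, ?_⟩
    rw [Bridgex915.size_eq_pack] at hs
    exact fun v hv => (pack_le_one_iff pd_fd).1 hs f hf v hv
  ext k hk := by
    intro U T hT
    obtain ⟨hs, f, hf, hd, rfl⟩ := (GSysx387.mem_bulk_out ..).1 hT
    refine ⟨hs, f, hf, rfl, ⟨hd.1, fun u hu x hx => ?_⟩, f, 0, ?_, fun u hu => ?_⟩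
    · rw [Finset.mem_singleton.1 hu]
      exact hd.2 x hx
    · have := hM (k + 1) hk
      omega
    · rw [Finset.mem_singleton.1 hu, mem_ball, fd_self]

/-- numerical hypotheses on the constants (they hold by `ev_num`) -/
structure Num (C : ℝ) (N : ℕ) (l k0 : ℕ) (Γ A0 : ℝ) : Prop where
  l4 : 4 ≤ l
  Γ9 : 9 ≤ ENNReal.ofReal Γ
  A0_pos : 0 < A0
  q1 : (1 + eW C l k0 A0) * qW l 2 ≤ 1
  kap : 9 * (ENNReal.ofReal Γ)⁻¹ * ((2 * 2 ^ l + 3) ^ 2 : ℕ) +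
      ((1 + eW C l k0 A0) * qW l 2) ^ 2 * ((N * 263 ^ 2 : ℕ) : ℝ≥0∞) ≤ 1 / 4

theorem ev_Num (C : ℝ) (N : ℕ) : EvC fun c => Num C N c.p c.k0 c.Γ c.A0 :=
  (ev_num C N).mono fun _ h => ⟨h.1, h.2.1, h.2.2.1, h.2.2.2.2.2.1, h.2.2.2.2.2.2⟩

/-- the constant of the first order quantities on the torus -/
def CFT (l : ℕ) (Γ CX : ℝ≥0∞) : ℝ≥0∞ :=
  (9 * Γ⁻¹ + 3 * 1 + 2 * (3 * CX)) * ((2 * 2 ^ l + 3) ^ 2 : ℕ)

/-- the hypotheses with numbers, one step, torus -/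
theorem stepOK_tor {M : ℕ} [NeZero M] {ε₁ ε₂ : ℝ} (h₁ : ε₁ * ε₁ = 1) (h₂ : ε₂ * ε₂ = 1)
    {Mp Kp : ℕ} (D : FRD 16 Mp Kp) (hMp : MM + 1 ≤ Mp) {N l k0 : ℕ} {Γ A0 : ℝ}
    (hN : Num D.C N l k0 Γ A0) (mk : Finset (ZMod M × ZMod M)) (hmk : mk.card ≤ N) {n : ℕ}
    (hM : 4 * (rr l k0 (n + 1) + s2 * rr l k0 (n + 1) + 1) ≤ M) {a a' : ℝ} (ha : 0 < a)
    (hA : A0 ≤ a') (haa : a' ≤ 2 * a) {K0 : Finset (ZMod M × ZMod M) → Ge (Fld (ZMod M))}
    {CX : ℝ≥0∞} (hX : XBd (wTor M ε₁ ε₂) a a' (rr l k0 n) (rr l k0 (n + 1)) (acT l k0 n)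
      (sys D (wTor M ε₁ ε₂) mk l k0 K0) n CX) :
    StepOK (sys D (wTor M ε₁ ε₂) mk l k0 K0) (wTor M ε₁ ε₂) (ENNReal.ofReal Γ) n a a'
      (rr l k0 n) (rr l k0 (n + 1)) (acT l k0 n) (emT (wTor M ε₁ ε₂) mk (rr l k0 n)) (1 / 4)
      (CFT l (ENNReal.ofReal Γ) CX) := by
  have hrr : rr l k0 n ≤ rr l k0 (n + 1) := rr_mono l k0 (Nat.le_succ n)
  have hs : s2 = 128 := rfl
  have hM1 : 2 * (8 * rr l k0 (n + 1) + 1) ≤ M := by rw [hs] at hM; omega
  have hM2 : 4 * (rr l k0 n + s2 * rr l k0 n + 1) ≤ M := by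
    rw [hs] at hM ⊢
    omega
  refine ⟨Unit, inferInstance, fun _ => (mk : Set _), fun _ => (s2 + 1) * rr l k0 n,
    fun _ => mk.card, fun _ => ((1 + eW D.C l k0 A0) * qW l 2) ^ 2, 9 * (ENNReal.ofReal Γ)⁻¹, 1,
    CX, dstep_tor h₁ h₂ D hMp mk hN.l4 hM1 hM2 ha hN.A0_pos hA (by norm_num) haa hN.q1
      ENNReal.ofReal_ne_top hN.Γ9, hX, ?_, ?_⟩
  · rw [kapD_eq]
    refine le_trans (add_le_add le_rfl (mul_le_mul' le_rfl ?_)) hN.kap
    exact_mod_cast Nat.mul_le_mul_right _ hmk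
  · unfold cF CFT
    rw [nn2_eq]

/-- **the norm flow on the torus**: bounds at all scales, uniform in the side, the sector, the
marks and the initial activities -/
theorem tor_comp {Mp Kp : ℕ} (D : FRD 16 Mp Kp) (hMp : MM + 1 ≤ Mp) {N l k0 : ℕ} {Γ A0 : ℝ}
    (hN : Num D.C N l k0 Γ A0) {CX m : ℝ≥0∞} (hCX : CX ≠ ∞) (hm : m ≠ ∞) :
    ∃ M₀ ε₀ : ℝ≥0∞, M₀ ≠ ∞ ∧ ε₀ ≠ 0 ∧
      ∀ (M : ℕ) [NeZero M] (ε₁ ε₂ : ℝ), ε₁ * ε₁ = 1 → ε₂ * ε₂ = 1 →
      ∀ (mk : Finset (ZMod M × ZMod M)), mk.card ≤ N → ∀ K : ℕ,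
      (4 * (rr l k0 K + s2 * rr l k0 K + 1) ≤ M) →
      ∀ a : ℕ → ℝ, (∀ n, A0 ≤ a n) → (∀ n, a (n + 1) ≤ 2 * a n) →
      ∀ K0 : Finset (ZMod M × ZMod M) → Ge (Fld (ZMod M)),
      (∀ k U, (sys D (wTor M ε₁ ε₂) mk l k0 K0).K k U ≠ 0 → acT l k0 k U) →
      (∀ k, k < K → XBd (wTor M ε₁ ε₂) (a k) (a (k + 1)) (rr l k0 k) (rr l k0 (k + 1))
        (acT l k0 k) (sys D (wTor M ε₁ ε₂) mk l k0 K0) k CX) →
      ∀ ε q : ℝ≥0∞, 1 / 2 ≤ q → q ≤ 1 → ε ≤ ε₀ →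
      (∀ k, k ≤ K → NP (sys D (wTor M ε₁ ε₂) mk l k0 K0) (wTor M ε₁ ε₂) a (rr l k0)
        (ENNReal.ofReal Γ) (emT (wTor M ε₁ ε₂) mk (rr l k0 k)) k ≤ ε * q ^ k) →
      NP (sys D (wTor M ε₁ ε₂) mk l k0 K0) (wTor M ε₁ ε₂) a (rr l k0) (ENNReal.ofReal Γ)
        (fun U => ¬ emT (wTor M ε₁ ε₂) mk (rr l k0 0) U) 0 ≤ m * ε →
      (∀ k, k ≤ K → NP (sys D (wTor M ε₁ ε₂) mk l k0 K0) (wTor M ε₁ ε₂) a (rr l k0)
        (ENNReal.ofReal Γ) allP k ≤ M₀ * (ε * q ^ k)) ∧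
      (∀ k, k < K → NC (sys D (wTor M ε₁ ε₂) mk l k0 K0) (rr l k0) (ENNReal.ofReal Γ) k ≤
        M₀ * (ε * q ^ k)) := by
  have hΓ0 : ENNReal.ofReal Γ ≠ 0 := (lt_of_lt_of_le (by norm_num) hN.Γ9).ne'
  have hCF : CFT l (ENNReal.ofReal Γ) CX ≠ ∞ := by
    unfold CFT
    refine ENNReal.mul_ne_top (ENNReal.add_ne_top.2 ⟨ENNReal.add_ne_top.2
      ⟨ENNReal.mul_ne_top (by norm_num) (ENNReal.inv_ne_top.2 hΓ0), by norm_num⟩,
      ENNReal.mul_ne_top (by norm_num) (ENNReal.mul_ne_top (by norm_num) hCX)⟩)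
      (ENNReal.natCast_ne_top _)
  obtain ⟨M₀, ε₀, hM₀, hε₀, h⟩ := comp_good (CFT l (ENNReal.ofReal Γ) CX)
    (((2 * (1 + 2 ^ l) + 3) ^ 2 : ℕ) : ℝ≥0∞) m hCF (ENNReal.natCast_ne_top _) hm
  refine ⟨M₀, ε₀, hM₀, hε₀, ?_⟩
  intro M _ ε₁ ε₂ h₁ h₂ mk hmk K hM a ha haa K0 hac hX ε q hq hq1 hε hb hc0
  have hM' : ∀ n, n ≤ K → 4 * (rr l k0 n + s2 * rr l k0 n + 1) ≤ M := by
    intro n hn
    have := rr_mono l k0 hn
    have hs : s2 = 128 := rfl
    rw [hs] at hM ⊢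
    omega
  exact h (ZMod M) _ (wTor M ε₁ ε₂) a (rr l k0) (nearR l k0) (ENNReal.ofReal Γ) (acT l k0)
    (fun k => emT (wTor M ε₁ ε₂) mk (rr l k0 k)) K ε q hq hq1 hε
    (str_tor D mk (by have := hN.l4; omega) (le_trans (by norm_num) hN.Γ9) hM' hac)
    (fun k _ => by exact_mod_cast nn3_le l k0 k)
    (fun k hk => stepOK_tor h₁ h₂ D hMp hN mk hmk (hM' (k + 1) hk) (hN.A0_pos.trans_le (ha k))
      (ha (k + 1)) (haa k) (hX k hk)) hb hc0

end Crest.Agent.R165.TorNormx583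
end
end

-- ▼ part R165/TorNorm2_583

/-!
# Row 165 (S0250): the norm flow on the torus with real sources (helper583)

* `SrcOK`     : real sources with connected supports, each support contains a mark
* `srcK0_mem`, `srcK0_acS`, `srcK0_iso` : locality, connectedness, comparison with the plane of the
  initial activities with sources (every background)
* `tor_bd`    : bounds of the activities and of the constants of the flow on the torus, from the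
  bound of the plane flow without source and of the initial activities
* `tor_flow`  : the same in terms of the constants, from `PlB` (plane, growing amplitudes)
-/

set_option autoImplicit false
set_option linter.unusedSectionVars false

noncomputable section

open Filter Topology
open scoped ENNReal
open Crest.ProbabilityR.IsingModel
open Crest.Agent.R165.Gr0x606 Crest.Agent.R165.Gr1x606 Crest.Agent.R165.GeOpsx337
  Crest.Agent.R165.ExpGx337 Crest.Agent.R165.KFlowx337 Crest.Agent.R165.Telx337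
open Crest.Agent.R165.Latx683 Crest.Agent.R165.PNormx417 Crest.Agent.R165.GrLocx337
open Crest.Agent.R165.GDefx387 Crest.Agent.R165.Packx915 Crest.Agent.R165.NSumx915
open Crest.Agent.R165.Bridgex915 Crest.Agent.R165.DefStepx915 Crest.Agent.R165.NKDefx915
  Crest.Agent.R165.DefRecx915 Crest.Agent.R165.Compx889 Crest.Agent.R165.TorChartx723
  Crest.Agent.R165.GSysx387 Crest.Agent.R165.FRDPolyx439 Crest.Agent.R165.FRDLatx439
  Crest.Agent.R165.TorDx583 Crest.Agent.R165.TorNumx583 Crest.Agent.R165.PEndx683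
  Crest.Agent.R165.TorNormx583 Crest.Agent.R165.XBdx915 Crest.Agent.R165.SysDeepx898
  Crest.Agent.R165.BgIsox432 Crest.Agent.R165.KInitx892 Crest.Agent.R165.KMapx892
  Crest.Agent.R165.Bkgx683 Crest.Agent.R165.Outx683 Crest.Agent.R165.K0Isox900
  Crest.Agent.R165.K0IsoBx900 Crest.Agent.R165.J4K0x126 Crest.Agent.R165.J4K0Mapx126
  Crest.Agent.R165.J4Geox126 Crest.Agent.R165.J4Lnkx653 Crest.Agent.R165.SpinSysx892
  Crest.Agent.R165.Constx891 Crest.Agent.R165.SpinDomx432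
open Crest.Agent.R165.J1ax606 (pe qe)
open Crest.Agent.R165.J4Defx653 (Can)

namespace Crest.Agent.R165.TorNorm2x583

/-! ### the initial activities with real sources -/

section src

variable {G : Type} [CommRing G] [CN G] [DecidableEq G] {κ : Type} [DecidableEq κ] [Fintype κ]

/-- real sources, connected supports, each support contains a mark -/
structure SrcOK (src : Srcs κ G (Ge (Fld G))) (mk : Finset (G × G)) : Prop where
  real : ∀ k, ∃ t : ℝ, src.as k = algebraMap ℝ (Ge (Fld G)) t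
  conn : ∀ k, Packx915.Conn fd 1 (src.Ys k)
  mark : ∀ k, (src.Ys k).Nonempty → ∃ x ∈ mk, x ∈ src.Ys k

variable {src : Srcs κ G (Ge (Fld G))} {mk : Finset (G × G)}

/-- **locality** -/
theorem srcK0_mem (hs : SrcOK src mk) (B : Bg G) (P : MPar) (l k0 : ℕ) (U : Finset (G × G)) :
    B.K0 P LinearMap.id src l k0 U ∈ grG (fldU U) := by
  unfold Bg.K0
  refine K1_mem (fun U => grG (fldU U)) (fun U W h => grG_mono (GSysOKx439.fldU_mono h)) _ U
    fun U' _ => ?_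
  unfold Bg.K00
  have h1 : ∀ (U : Finset (G × G)) (h : HE G), h.1 ∈ U →
      (Finsupp.single h (1 : ℝ) : Fld G) ∈ (fldU U : Submodule ℝ (Fld G)) := fun U h hh =>
    single_mem_fldS (subset_nbhd U 1 hh) 1
  refine J4K0Lx126.K0_mem (fun U => grG (fldU U)) ?_ ?_ ?_ U'
  · intro U e he
    rw [frG_b]
    exact bi_mem_grG (h1 U _ (he (Finset.mem_insert_self _ _)))
      (h1 U _ (he (Finset.mem_insert_of_mem (Finset.mem_singleton_self _))))
  · intro U f hf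
    rw [frG_I4]
    exact Subalgebra.sum_mem _ fun p _ => bi_mem_grG (h1 U _ hf) (h1 U _ hf)
  · intro U k _
    obtain ⟨t, ht⟩ := hs.real k
    show src.as k ∈ _
    rw [ht]
    exact Subalgebra.algebraMap_mem _ t

/-- **connectedness** -/
theorem srcK0_acS [GoodG G] (hs : SrcOK src mk) (B : Bg G) (P : MPar) {l k0 : ℕ}
    (h1 : 1 ≤ nearR l k0 0) (U : Finset (G × G)) (hU : B.K0 P LinearMap.id src l k0 U ≠ 0) :
    acS fd (nearR l k0 0) Set.univ U := by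
  refine ⟨?_, ?_, fun _ _ => Set.mem_univ _⟩
  · rw [Finset.nonempty_iff_ne_empty]
    rintro rfl
    exact hU (K1_empty _ _)
  · exact K1f_conn h1 (fun U h => J4K0Lx126.K0_conn1 (fun k => hs.conn k) h) hU

variable {G' : Type} [CommRing G'] [CN G'] [DecidableEq G']

/-- no source inside -/
theorem K0_iso_none {w : BW G} {w' : BW G'} {Z : Set (G × G)} (b : BgIso w w' Z)
    {U : Finset (G × G)} (hU : ∀ f ∈ U, ball f 1 ⊆ Z)
    {B : Bk G κ (Ge (Fld G))} {B' : Bk G' (Fin 0) (Ge (Fld G'))}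
    (hy : ∀ e, B.y e = w e.1 e.2) (hy' : ∀ e, B'.y e = w' e.1 e.2)
    (hs : ∀ f ∈ U, B.s f = B'.s (b.τ f)) (hR : B.R = B'.R)
    (ht : ∀ S ∈ Can B.R, Even S.card → B.t S = B'.t S)
    (hok : ∀ u ∈ U, ∀ S ∈ Can B.R, Even S.card → (Yf S).image (fz u) ⊆ U →
      (B.ok u S ↔ B'.ok (b.τ u) S))
    (hno : ∀ k, (B.Ys k).Nonempty → B.Ys k ⊆ U → False) :
    mpG b.push (B.K0 (frV G) U) = B'.K0 (frV G') (U.image b.τ) := by
  have h : Chart0 (frV G) B (frV G') B' b.τ (fun _ : κ => (none : Option (Fin 0)))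
      (mpG b.push) U := by
    refine chart0_of b hU (hb_V b hU) (fun f _ => hI_V b f) hy hy' hs hR ht hok ?_ ?_ ?_
    · exact fun k hk hsub => (hno k hk hsub).elim
    · exact fun k hk hsub => (hno k hk hsub).elim
    · exact fun k' => k'.elim0
  exact K0_chart h

/-- **comparison with a background without sources** on regions without marks -/
theorem srcK0_iso (hs : SrcOK src mk) {B : Bg G} {B' : Bg G'} {Z : Set (G × G)}
    (b : BgIso B.w B'.w Z) (P : MPar) (l k0 : ℕ) {U : Finset (G × G)}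
    (hU : ∀ f ∈ U, ball f 1 ⊆ Z) (hmk : ∀ f ∈ Z, f ∉ mk)
    (htch : ∀ f ∈ U, (B.tch f ↔ B'.tch (b.τ f)))
    (hok : ∀ u ∈ U, ∀ S ∈ Can P.R, Even S.card → (Yf S).image (fz u) ⊆ U →
      (B.ok P.R u S ↔ B'.ok P.R (b.τ u) S)) :
    mpG b.push (B.K0 P LinearMap.id src l k0 U) =
      B'.K0 P LinearMap.id (noSrc G' (Ge (Fld G'))) l k0 (U.image b.τ) := by
  refine K1_iso b l k0 (fun f hf => hU f hf (mem_ball_self f 1)) fun U₁ hU₁ _ => ?_
  show mpG b.push ((B.bk P src).K0 (frG LinearMap.id) U₁) =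
    (B'.bk P (noSrc G' (Ge (Fld G')))).K0 (frG LinearMap.id) (U₁.image b.τ)
  rw [K0IsoBx900.frG_id, K0IsoBx900.frG_id]
  refine K0_iso_none b (fun f hf => hU f (hU₁ hf)) (B := B.bk P src)
    (B' := B'.bk P (noSrc G' (Ge (Fld G')))) (fun _ => rfl) (fun _ => rfl) (fun f hf => ?_) rfl
    (fun _ _ _ => rfl) (fun u hu S hS hev hSU => hok u (hU₁ hu) S hS hev (hSU.trans hU₁)) ?_
  · show B.sc P f = B'.sc P (b.τ f)
    unfold Bg.sc
    by_cases h : B.tch f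
    · rw [if_pos h, if_pos ((htch f (hU₁ hf)).1 h)]
    · rw [if_neg h, if_neg fun h' => h ((htch f (hU₁ hf)).2 h')]
  · intro k hk hsub
    obtain ⟨x, hx, hxk⟩ := hs.mark k hk
    exact hmk x (hU x (hU₁ (hsub hxk)) (mem_ball_self x 1)) hx

end src

/-! ### the torus -/

section tor

variable {κ : Type} [DecidableEq κ] [Fintype κ]

/-- the initial activities of the torus are those of the plane away from the marks -/
theorem initG_tor {M : ℕ} [NeZero M] {ε₁ ε₂ : ℝ} {src : Srcs κ (ZMod M) (Ge (Fld (ZMod M)))}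
    {mk : Finset (ZMod M × ZMod M)} (hs : SrcOK src mk) (P : MPar) (l k0 : ℕ) :
    InitG (wTor M ε₁ ε₂) mk l k0 ((Bg.tor M ε₁ ε₂).K0 P LinearMap.id src l k0)
      (Bg.pl.K0 P LinearMap.id (noSrc ℤ (Ge (Fld ℤ))) l k0) := by
  intro U Z b _ hU hmk
  exact srcK0_iso (B := Bg.tor M ε₁ ε₂) (B' := Bg.pl) hs b P l k0
    (fun _ hf => ball_of_nbhd hU hf) hmk (fun _ _ => Iff.rfl) fun _ _ _ _ _ _ => Iff.rfl

/-- constants -/
structure TC (c : Cst) : Prop where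
  num : Num DD.C 1 c.p c.k0 c.Γ c.A0
  A0_ge : 2 * GSysOKx439.c0 DD.C c.p c.k0 ≤ c.A0
  δ0 : 0 ≤ c.δ
  δ1 : c.δ ≤ 1
  near : 1 ≤ nearR c.p c.k0 0
  five : 5 ≤ c.p * (c.k0 + 1)

theorem ev_TC : EvC TC := by
  have h1 := ev_Num DD.C 1
  have h2 := ev_A0_ge fun p _ k0 => 2 * GSysOKx439.c0 DD.C p k0
  have h3 := ev_std
  have h4 := ev_p_ge 5
  refine (((h1.and h2).and h3).and h4).mono fun c hc => ?_
  obtain ⟨⟨⟨h1, h2⟩, h3⟩, h4⟩ := hc
  refine ⟨h1, h2, h3.δ_pos.le, h3.δ_le, ?_, ?_⟩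
  · have h5 : 2 ^ 3 ≤ 2 ^ (c.p * (c.k0 + 1)) :=
      Nat.pow_le_pow_right (by norm_num) ((by omega : 3 ≤ c.p).trans (Nat.le_mul_of_pos_right _ (by omega)))
    have h6 : rr c.p c.k0 1 = 2 ^ (c.p * (c.k0 + 1)) := rfl
    have h7 : nearR c.p c.k0 0 = rr c.p c.k0 (0 + 1) / 8 := rfl
    rw [h7, zero_add, h6]
    omega
  · exact h4.trans (Nat.le_mul_of_pos_right _ (by omega))

/-- **the flow on the torus with real sources**: bounds of the activities and of the constants -/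
theorem tor_bd {c : Cst} (hc : TC c) : ∃ M₀ ε₀ : ℝ, 0 < M₀ ∧ 0 < ε₀ ∧
    ∀ (P : MPar) (θ : ℝ) (K : ℕ), 0 ≤ θ → θ ≤ ε₀ →
      (∀ n, n ≤ K → NK (wPl ℤ) (amp c n) (rr c.p c.k0 n) (ENNReal.ofReal c.Γ) (fun _ => True)
        (fun U => (((plF c P).K n U : Ge (Fld ℤ)) : Gr (Fld ℤ))) ≤
          ENNReal.ofReal (θ * (1 / 2) ^ n)) →
      ∀ (M : ℕ) [NeZero M] (ε₁ ε₂ : ℝ), ε₁ * ε₁ = 1 → ε₂ * ε₂ = 1 →
      4 * (rr c.p c.k0 K + s2 * rr c.p c.k0 K + 1) ≤ M →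
      ∀ (mk : Finset (ZMod M × ZMod M)), mk.card ≤ 1 →
      ∀ (κ : Type) [DecidableEq κ] [Fintype κ] (src : Srcs κ (ZMod M) (Ge (Fld (ZMod M)))),
      SrcOK src mk →
      NK (wTor M ε₁ ε₂) (amp c 0) (rr c.p c.k0 0) (ENNReal.ofReal c.Γ) (fun _ => True)
        (fun U => (((Bg.tor M ε₁ ε₂).K0 P LinearMap.id src c.p c.k0 U : Ge (Fld (ZMod M))) :
          Gr (Fld (ZMod M)))) ≤ ENNReal.ofReal θ →
      (∀ k, k ≤ K → NK (wTor M ε₁ ε₂) (amp c k) (rr c.p c.k0 k) (ENNReal.ofReal c.Γ)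
        (fun _ => True) (fun U => ((((Bg.tor M ε₁ ε₂).flow P DD mk src c.p c.k0).K k U :
          Ge (Fld (ZMod M))) : Gr (Fld (ZMod M)))) ≤ ENNReal.ofReal (M₀ * θ * (1 / 2) ^ k)) ∧
      Bd ((Bg.tor M ε₁ ε₂).flow P DD mk src c.p c.k0) fd (fun k => rr c.p c.k0 (k + 1))
        (nearR c.p c.k0) (ENNReal.ofReal c.Γ) (fun k => M₀ * θ * (1 / 2) ^ k) K := by
  have hD : MM + 1 ≤ 8 := by norm_num [MM]
  obtain ⟨CX, hCX, hX⟩ := exists_xbd
  obtain ⟨M₀, ε₀, hM₀, hε₀, key⟩ := tor_comp DD hD hc.num (CX := CX) (m := 1) hCX ENNReal.one_ne_top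
  obtain ⟨ε₁', hε₁', hle⟩ : ∃ e : ℝ, 0 < e ∧ ENNReal.ofReal e ≤ ε₀ := by
    rcases eq_or_ne ε₀ ∞ with h | h
    · exact ⟨1, one_pos, by rw [h]; exact le_top⟩
    · exact ⟨ε₀.toReal, ENNReal.toReal_pos hε₀ h, by rw [ENNReal.ofReal_toReal h]⟩
  refine ⟨M₀.toReal + 1, ε₁', by positivity, hε₁', ?_⟩
  intro P θ K hθ hθε hpl M _ ε₁ ε₂ h₁ h₂ hM mk hmk κ _ _ src hs h0
  have half : (1 / 2 : ℝ≥0∞) = ENNReal.ofReal (1 / 2) := by
    rw [ENNReal.ofReal_div_of_pos (by norm_num)]; simp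
  have hA0 := hc.num.A0_pos
  have hamp : ∀ n, c.A0 ≤ amp c n := fun n => by
    unfold Outx683.amp
    have := mul_nonneg hc.δ0 (Nat.cast_nonneg (α := ℝ) n)
    nlinarith
  have hamp2 : ∀ n, amp c (n + 1) ≤ 2 * amp c n := fun n => by
    unfold Outx683.amp
    have := mul_nonneg hc.δ0 (Nat.cast_nonneg (α := ℝ) n)
    have h1 := hc.δ1
    push_cast
    nlinarith
  have hloc := fun U => srcK0_mem hs (Bg.tor M ε₁ ε₂) P c.p c.k0 U
  have hOK : (sys DD (wTor M ε₁ ε₂) mk c.p c.k0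
      ((Bg.tor M ε₁ ε₂).K0 P LinearMap.id src c.p c.k0)).OK ⊥ :=
    GSysOKx439.sys_OK DD (by norm_num) (wTor M ε₁ ε₂) mk hc.five hloc
  have hac0 := fun U h => srcK0_acS hs (Bg.tor M ε₁ ε₂) P hc.near U h
  have hac : ∀ k U, (sys DD (wTor M ε₁ ε₂) mk c.p c.k0
      ((Bg.tor M ε₁ ε₂).K0 P LinearMap.id src c.p c.k0)).K k U ≠ 0 → acT c.p c.k0 k U := by
    intro k U hU
    have := ac_sys DD hac0 k U hU
    exact ⟨this.1, this.2.1⟩
  have hrrK : ∀ k, k ≤ K → 4 * (rr c.p c.k0 k + s2 * rr c.p c.k0 k + 1) ≤ M := by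
    intro k hk
    have := rr_mono c.p c.k0 hk
    have hs : s2 = 128 := rfl
    rw [hs] at hM ⊢
    omega
  have hdeep : ∀ k, k ≤ K → NP (sys DD (wTor M ε₁ ε₂) mk c.p c.k0
      ((Bg.tor M ε₁ ε₂).K0 P LinearMap.id src c.p c.k0)) (wTor M ε₁ ε₂) (amp c) (rr c.p c.k0)
        (ENNReal.ofReal c.Γ) (emT (wTor M ε₁ ε₂) mk (rr c.p c.k0 k)) k ≤
          ENNReal.ofReal θ * (1 / 2) ^ k := by
    intro k hk
    refine (sys_deep_tor_of DD h₁ h₂ hc.five (by norm_num) hloc (initG_tor hs P c.p c.k0) k ?_ ?_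
      (amp c k) (ENNReal.ofReal c.Γ)).trans ?_
    · rintro U ⟨-, x, ρ, hρ, hU⟩
      exact ⟨x, ρ, fun u hu => hU u hu, hρ⟩
    · rintro U ⟨⟨-, hU⟩, -⟩ u hu x hx
      exact hU u hu x hx
    · refine (hpl k hk).trans (le_of_eq ?_)
      rw [ENNReal.ofReal_mul hθ, ENNReal.ofReal_pow (by norm_num), half]
  have hc0 : NP (sys DD (wTor M ε₁ ε₂) mk c.p c.k0
      ((Bg.tor M ε₁ ε₂).K0 P LinearMap.id src c.p c.k0)) (wTor M ε₁ ε₂) (amp c) (rr c.p c.k0)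
        (ENNReal.ofReal c.Γ) (fun U => ¬ emT (wTor M ε₁ ε₂) mk (rr c.p c.k0 0) U) 0 ≤
          1 * ENNReal.ofReal θ := by
    rw [one_mul]
    exact (NK_mono fun U _ => ⟨trivial, le_rfl⟩).trans h0
  obtain ⟨k1, k2⟩ := key M ε₁ ε₂ h₁ h₂ mk hmk K hM (amp c) hamp hamp2 _ hac
    (fun k hk => hX (ZMod M) (wTor M ε₁ ε₂) (TorDx583.wTor_le h₁ h₂) 8 64 DD hD mk c.p c.k0 _ hOK k
      (amp c k) (amp c (k + 1)) (hc.A0_ge.trans (hamp k)) (hA0.trans_le (hamp _)) (hamp2 k) _)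
    (ENNReal.ofReal θ) (1 / 2) le_rfl (ENNReal.half_le_self.trans_eq rfl)
    ((ENNReal.ofReal_le_ofReal hθε).trans hle) hdeep hc0
  have hfin : ∀ k : ℕ, M₀ * (ENNReal.ofReal θ * (1 / 2) ^ k) ≤
      ENNReal.ofReal ((M₀.toReal + 1) * θ * (1 / 2) ^ k) := by
    intro k
    rw [mul_assoc (M₀.toReal + 1), ENNReal.ofReal_mul (by positivity), ENNReal.ofReal_mul hθ,
      ENNReal.ofReal_pow (by norm_num), ← half]
    refine mul_le_mul' ?_ le_rfl
    calc M₀ = ENNReal.ofReal M₀.toReal := (ENNReal.ofReal_toReal hM₀).symm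
      _ ≤ _ := ENNReal.ofReal_le_ofReal (by linarith)
  refine ⟨fun k hk => (k1 k hk).trans (hfin k), fun k hk => (k2 k hk).trans (hfin k), ?_⟩
  intro k hk U hU
  have hKU : (sys DD (wTor M ε₁ ε₂) mk c.p c.k0
      ((Bg.tor M ε₁ ε₂).K0 P LinearMap.id src c.p c.k0)).K k U ≠ 0 := by
    intro h
    apply hU
    show ctG (Sys.H _ k U) = 0
    rw [Sys.H]
    have h' : ((Bg.tor M ε₁ ε₂).flow P DD mk src c.p c.k0).K k U = 0 := h
    rw [h', map_zero, map_zero]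
  exact hac k U hKU

/-! ### in terms of the constants -/

/-- the plane flow with growing amplitudes (conclusion of helper889's `plane_P8`) -/
def PlB (J : ℝ) (R : ℕ) (V : Finset (ℤ × ℤ) → ℝ) : Prop :=
  EvC fun c => ∀ C : ℝ, ∃ ε > 0, ∃ C' ≥ 0, ∀ lam β z : ℝ, |lam| < ε → NearP J C lam β z →
    PF J R V C c lam β z → ∀ n, NK (wPl ℤ) (Outx683.amp c n) (rr c.p c.k0 n)
      (ENNReal.ofReal c.Γ) (fun _ => True)
      (fun U => (((plF c (mpar J lam R V β z)).K n U : Ge (Fld ℤ)) : Gr (Fld ℤ))) ≤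
        ENNReal.ofReal (C' * |lam| * (1 / 2) ^ n)

/-- **the flow on the torus** with any source whose initial activities are at most `s` -/
theorem tor_flow {J : ℝ} {R : ℕ} {V : Finset (ℤ × ℤ) → ℝ} (hpl : PlB J R V) :
    EvC fun c => ∀ C : ℝ, ∃ ε > 0, ∃ η > 0, ∃ C' ≥ 0, ∀ lam β z : ℝ, |lam| < ε →
      NearP J C lam β z → PF J R V C c lam β z → ∀ s : ℝ, 0 ≤ s → s ≤ η →
      ∀ (M : ℕ) [NeZero M] (ε₁ ε₂ : ℝ), ε₁ * ε₁ = 1 → ε₂ * ε₂ = 1 → ∀ K : ℕ,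
      4 * (rr c.p c.k0 K + s2 * rr c.p c.k0 K + 1) ≤ M →
      ∀ (mk : Finset (ZMod M × ZMod M)), mk.card ≤ 1 →
      ∀ (κ : Type) [DecidableEq κ] [Fintype κ] (src : Srcs κ (ZMod M) (Ge (Fld (ZMod M)))),
      SrcOK src mk →
      NK (wTor M ε₁ ε₂) c.A0 (rr c.p c.k0 0) (ENNReal.ofReal c.Γ) (fun _ => True)
        (fun U => (((Bg.tor M ε₁ ε₂).K0 (mpar J lam R V β z) LinearMap.id src c.p c.k0 U :
          Ge (Fld (ZMod M))) : Gr (Fld (ZMod M)))) ≤ ENNReal.ofReal s →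
      (∀ k, k ≤ K → NK (wTor M ε₁ ε₂) (Outx683.amp c k) (rr c.p c.k0 k) (ENNReal.ofReal c.Γ)
        (fun _ => True)
        (fun U => ((((Bg.tor M ε₁ ε₂).flow (mpar J lam R V β z) DD mk src c.p c.k0).K k U :
          Ge (Fld (ZMod M))) : Gr (Fld (ZMod M)))) ≤
            ENNReal.ofReal (C' * (|lam| + s) * (1 / 2) ^ k)) ∧
      Bd ((Bg.tor M ε₁ ε₂).flow (mpar J lam R V β z) DD mk src c.p c.k0) fd
        (fun k => rr c.p c.k0 (k + 1)) (nearR c.p c.k0) (ENNReal.ofReal c.Γ)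
        (fun k => C' * (|lam| + s) * (1 / 2) ^ k) K := by
  refine (EvC.and ev_TC hpl).mono fun c hc C => ?_
  obtain ⟨hT, hP⟩ := hc
  obtain ⟨M₀, ε₀, hM₀, hε₀, key⟩ := tor_bd hT
  obtain ⟨ε₁, hε₁, C₁, hC₁, hP⟩ := hP C
  have hpos : 0 < C₁ + 1 := by linarith
  refine ⟨min ε₁ (ε₀ / 2 / (C₁ + 1)), lt_min hε₁ (by positivity), ε₀ / 2, by positivity,
    M₀ * (C₁ + 1), by positivity, ?_⟩
  intro lam β z hlam hn hPF s hs hsη M _ e₁ e₂ h₁ h₂ K hM mk hmk κ _ _ src hsrc h0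
  have hl1 := hlam.trans_le (min_le_left _ _)
  have hl2 : (C₁ + 1) * |lam| ≤ ε₀ / 2 := by
    have := (hlam.trans_le (min_le_right _ _)).le
    rwa [le_div_iff₀ hpos, mul_comm] at this
  have hθ : 0 ≤ C₁ * |lam| + s := by positivity
  have habs := abs_nonneg lam
  obtain ⟨k1, k2⟩ := key (mpar J lam R V β z) (C₁ * |lam| + s) K hθ (by nlinarith)
    (fun n _ => (hP lam β z hl1 hn hPF n).trans (ENNReal.ofReal_le_ofReal
      (mul_le_mul_of_nonneg_right (by linarith) (by positivity)))) M e₁ e₂ h₁ h₂ hM mk hmk κ src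
    hsrc (by
      have e : Outx683.amp c 0 = c.A0 := by unfold Outx683.amp; simp
      rw [e]
      exact h0.trans (ENNReal.ofReal_le_ofReal (by nlinarith)))
  have hle : ∀ k : ℕ, M₀ * (C₁ * |lam| + s) * (1 / 2) ^ k ≤
      M₀ * (C₁ + 1) * (|lam| + s) * (1 / 2 : ℝ) ^ k := by
    intro k
    refine mul_le_mul_of_nonneg_right ?_ (by positivity)
    rw [mul_assoc M₀]
    exact mul_le_mul_of_nonneg_left (by nlinarith) hM₀.le
  refine ⟨fun k hk => (k1 k hk).trans (ENNReal.ofReal_le_ofReal (hle k)), ?_, k2.conn⟩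
  intro k hk
  exact (k2.nn k hk).trans (ENNReal.ofReal_le_ofReal (hle k))

end tor

end Crest.Agent.R165.TorNorm2x583
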