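import Crest.Agent.R165.Out_683
import Crest.Agent.R165.JVol_950
import Crest.Agent.R165.CmpBg_432
import Crest.Agent.R165.K0IsoB_900
import Crest.Agent.R165.DomGeo_900

/-!
# Row 165 (S0250): equality of the constants of two flows of `Out_683` (helper900)

* `fl_OK` : the flows without sources satisfy `Sys.OK`
* `rhoH_le` : `rhoH k ≤ 128 rr (k+1)`
* `cc_iso`, `cc_id` : constants correspond along an isomorphism of backgrounds
* `far_br` : **far from the branch point the flow `brF` has the constants of `plF`**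
* `tr_br` : the constants `zetaK` do not depend on the position of the branch point
-/

set_option autoImplicit false
set_option linter.unusedSectionVars false

noncomputable section

open scoped ENNReal
open Crest.ProbabilityR.IsingModel
open Crest.Agent.R165.Gr0x606 Crest.Agent.R165.Gr1x606 Crest.Agent.R165.GeOpsx337
open Crest.Agent.R165.Latx683 Crest.Agent.R165.GDefx387 Crest.Agent.R165.GSysx387
open Crest.Agent.R165.KFlowx337 Crest.Agent.R165.Telx337 Crest.Agent.R165.FRDPolyx439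
open Crest.Agent.R165.BgIsox432 Crest.Agent.R165.CmpBgx432 Crest.Agent.R165.GSysOKx439
open Crest.Agent.R165.Bkgx683 Crest.Agent.R165.PEndx683 Crest.Agent.R165.Outx683
open Crest.Agent.R165.Spinx930 Crest.Agent.R165.SpinSysx892
open Crest.Agent.R165.K0IsoBx900 Crest.Agent.R165.DomGeox900

namespace Crest.Agent.R165.FarBx900

section gen

variable {G G' : Type} [CommRing G] [CN G] [CNZ G] [DecidableEq G]
  [CommRing G'] [CN G'] [CNZ G'] [DecidableEq G']

/-- the algebraic hypotheses of the flow -/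
theorem fl_OK {c : Cst} (h5 : 5 ≤ c.p * (c.k0 + 1)) (P : MPar) (B : Bg G) : (fl c P B).OK ⊥ :=
  sys_OK DD (by norm_num) B.w ∅ h5 (JVolx950.K0_noSrc_mem B P c.p c.k0)

theorem fl_emp (c : Cst) (P : MPar) (B : Bg G) : (fl c P B).K0 ∅ = 0 :=
  JVolx950.K0_empty B P LinearMap.id (noSrc G (Ge (Fld G))) c.p c.k0

theorem rhoH_le (l k0 k : ℕ) : rhoH l k0 k ≤ 128 * rr l k0 (k + 1) := by
  unfold rhoH
  have h1 : rr l k0 k ≤ rr l k0 (k + 1) := rr_mono l k0 (Nat.le_succ k)
  have h2 : s2 = 128 := rfl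
  rw [h2]
  omega

/-- **constants correspond along an isomorphism of backgrounds** -/
theorem cc_iso {c : Cst} (h5 : 5 ≤ c.p * (c.k0 + 1)) (hp : 1 ≤ c.p) (P : MPar) {B : Bg G}
    {B' : Bg G'} {Z : Set (G × G)} (b : BgIso B.w B'.w Z) (h2 : (2 : G') ≠ 0)
    (hK0 : ∀ U : Finset (G × G), U.Nonempty → nbhd (s2 * rr c.p c.k0 0) U ⊆ Z →
      mpG b.push (B.K0 P LinearMap.id (noSrc G (Ge (Fld G))) c.p c.k0 U) =
        B'.K0 P LinearMap.id (noSrc G' (Ge (Fld G'))) c.p c.k0 (U.image b.τ))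
    (k : ℕ) {U : Finset (G × G)} (hne : U.Nonempty) (hU : nbhd (rhoH c.p c.k0 k) U ⊆ Z) :
    cc (fl c P B) k U = cc (fl c P B') k (U.image b.τ) :=
  ct_eq DD b (mk := ∅) (mk' := ∅) (fun _ _ => by simp) h2 hp (by norm_num) hK0
    (src := ⊥) (fl_OK h5 P B) k hne hU

end gen



/-- translation of the branch point -/
theorem cc_br_tr {c : Cst} (h5 : 5 ≤ c.p * (c.k0 + 1)) (hp : 1 ≤ c.p) (P : MPar) (x : ℤ × ℤ)
    (k : ℕ) {U : Finset (ℤ × ℤ)} (hne : U.Nonempty) :
    cc (brF c P x) k U = cc (brF c P (0, 0)) k (U.image fun f => (f.1 - x.1, f.2 - x.2)) :=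
  cc_iso (B := Bg.br x) (B' := Bg.br (0, 0)) h5 hp P (brTrans x Set.univ) (by norm_num)
    (hK0_top (B := Bg.br x) (B' := Bg.br (0, 0)) (brTrans x Set.univ) P c.p c.k0
      (fun _ => trivial) (fun _ => trivial) (fun _ _ => trivial) (fun _ _ => trivial)) k hne
    (Set.subset_univ _)



theorem cc_empty {G : Type} [CommRing G] [CN G] [CNZ G] [DecidableEq G] (c : Cst) (P : MPar)
    (B : Bg G) (k : ℕ) : cc (fl c P B) k ∅ = 0 := by
  rw [cc, H_empty (fl_emp c P B), map_zero]

/-- the translation as a bijection -/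
def trE (x : ℤ × ℤ) : ℤ × ℤ ≃ ℤ × ℤ where
  toFun f := (f.1 - x.1, f.2 - x.2)
  invFun f := (f.1 + x.1, f.2 + x.2)
  left_inv f := by ext <;> simp
  right_inv f := by ext <;> simp


end Crest.Agent.R165.FarBx900
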