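import Crest.Agent.R165.Fin3_315
import Crest.Agent.R165.Tel_337
import Crest.Agent.R165.GSysOK_439
import Crest.Agent.R165.FrAll_887

/-!
# Row 165 (S0250), P9: the final factor in the form `Telx337.Zf` (helper315)

The last step `n` is only required to satisfy `κ R ≤ rr p k0 n` (`R` = radius of the background,
the gap is `1 / (Cg R)`), the amplitude `A` is any function which tends to infinity.

* `fl_sys` : the data `Telx337.Fl` of the concrete system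
* `zf_bound` : quantitative; `zf_tendsto` : along any filter
* `zf_plus` : plus backgrounds in boxes of radii `R → ∞` (domains and discs), any insertions
* `zf_plus_dom`, `zf_free_dom` : domains, meshes `a → 0`
* `inv_dom_plus`, `inv_dom_free` : covariances of domains have finite columns
-/

set_option autoImplicit false
set_option linter.unusedSectionVars false

noncomputable section

namespace Crest.Agent.R165.Fin4x315

open scoped ENNReal
open Filter Topology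
open Crest.ProbabilityR.IsingModel
open Crest.Agent.R165.Gr0x606 Crest.Agent.R165.Gr1x606 Crest.Agent.R165.Latx683
  Crest.Agent.R165.PNormx417 Crest.Agent.R165.GDefx387 Crest.Agent.R165.FRDPolyx439
  Crest.Agent.R165.FRDLatx439 Crest.Agent.R165.FRDRestx439 Crest.Agent.R165.GeOpsx337
  Crest.Agent.R165.FRDAbsx439 Crest.Agent.R165.BgIsox432
  Crest.Agent.R165.KFlowx337 Crest.Agent.R165.Telx337 Crest.Agent.R165.GrLocx337
  Crest.Agent.R165.NSumx915 Crest.Agent.R165.Bridgex915 Crest.Agent.R165.KStepx892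
  Crest.Agent.R165.Fin0x315 Crest.Agent.R165.Fin1x315 Crest.Agent.R165.Fin2x315
  Crest.Agent.R165.Fin3x315 Crest.Agent.R165.PStepx417
  Crest.Agent.R165.Scalex900 Crest.Agent.R165.GSysx387

/-! ### the data of the concrete system -/

section fl

variable {G : Type} [CommRing G] [CN G] [CNZ G] [DecidableEq G] {M K : ℕ} (D : FRD 16 M K)


end fl

/-! ### general form -/

section gen

variable {G : Type} [CommRing G] [CN G] [CNZ G] [DecidableEq G] {M K : ℕ} (D : FRD 16 M K)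

/-- number of balls at the last scale -/
def cntK (κ Cv : ℝ) : ℕ := (2 * ⌊Cv / κ⌋₊ + 3) ^ 2

/-- size of the final weight at the last scale -/
def ampK (C κ Cg : ℝ) : ℝ := 7 * √(C * Cg / κ)

theorem net_lower [GoodG G] {κ R Cv : ℝ} (hκ : 0 < κ) (hR : 0 < R) (hCv : 0 ≤ Cv) {r : ℕ}
    (hr : κ * R ≤ r) (x : G × G) :
    ∃ net : Finset (G × G), net.card ≤ cntK κ Cv ∧
      ∀ V : Finset (G × G), (∀ f ∈ V, (fd x f : ℝ) ≤ Cv * R) →
        ∀ f ∈ V, ∃ q ∈ net, fd q f ≤ r := by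
  have hr1 : (0 : ℝ) < r := lt_of_lt_of_le (by positivity) hr
  have hr0 : 0 < r := by exact_mod_cast hr1
  obtain ⟨net, hn, hc⟩ := exists_net (G := G) hr0 ⌊Cv * R⌋₊ x
  refine ⟨net, hn.trans ?_, fun V hV => hc V fun f hf => Nat.le_floor (hV f hf)⟩
  unfold cntK
  have h1 : ⌊Cv * R⌋₊ / r ≤ ⌊Cv / κ⌋₊ := by
    apply Nat.le_floor
    refine (Nat.cast_div_le).trans ?_
    have h2 : ((⌊Cv * R⌋₊ : ℕ) : ℝ) ≤ Cv * R := Nat.floor_le (by positivity)
    calc ((⌊Cv * R⌋₊ : ℕ) : ℝ) / r ≤ Cv * R / r := by gcongr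
      _ ≤ Cv / κ := by
        rw [div_le_div_iff₀ hr1 hκ]
        have := mul_le_mul_of_nonneg_left hr hCv
        nlinarith
  gcongr

theorem amp_lower {C κ R Cg : ℝ} (hC : 0 ≤ C) (hκ : 0 < κ) (hR : 0 < R) (hCg : 0 < Cg) {r : ℕ}
    (hr : κ * R ≤ r) : 7 * √(C / ((Cg * R)⁻¹ * r)) ≤ ampK C κ Cg := by
  have hr1 : (0 : ℝ) < r := lt_of_lt_of_le (by positivity) hr
  refine mul_le_mul_of_nonneg_left (Real.sqrt_le_sqrt ?_) (by norm_num)
  have e1 : C / ((Cg * R)⁻¹ * r) = C * Cg * (R / r) := by field_simp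
  have e2 : C * Cg / κ = C * Cg * (1 / κ) := by ring
  rw [e1, e2]
  refine mul_le_mul_of_nonneg_left ?_ (by positivity)
  rw [div_le_div_iff₀ hr1 hκ]
  nlinarith

/-- final weight against the weights of the flow -/
theorem gr_lower (hM : MM ≤ M) {w : BW G} (hw : ∀ z j, |w z j| ≤ 1) {p k0 n : ℕ} (hn : 1 ≤ n)
    {κ R Cg : ℝ} (hκ : 0 < κ) (hR : 0 < R) (hCg : 0 < Cg) (hr : κ * R ≤ rr p k0 n)
    {A : ℝ} (hA : ampK D.C κ Cg ≤ A) (U : Finset (G × G)) (l : Fld G) :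
    gr D w (Cg * R)⁻¹ (lo p k0 n) l ≤ wU w A (rr p k0 n) U l := by
  have hC := D.C_pos
  have hA0 : 0 < A := lt_of_lt_of_le (by unfold ampK; positivity) hA
  rw [lo_pos hn]
  exact gr_le_wU D hM w (by positivity) (AopF_bdd w hw) _ _ (rr_pos p k0 n) le_rfl hA0
    ((amp_lower hC.le hκ hR hCg hr).trans hA) U l

/-- **the final factor**, quantitative -/
theorem zf_bound [GoodG G] (hM : MM ≤ M) {w : BW G} {S : HE G → HE G → ℝ} (h : Inv w S)
    (hw : ∀ z j, |w z j| ≤ 1) {p k0 n : ℕ} (hn : 1 ≤ n)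
    {κ R Cg Cv : ℝ} (hκ : 0 < κ) (hR : 0 < R) (hCg : 0 < Cg) (hCv : 0 ≤ Cv)
    (hr : κ * R ≤ rr p k0 n)
    (hgap : ∀ f : Fld G, l2 (f : HE G → ℝ) ≤ Cg * R * l2 (Aop w (f : HE G → ℝ))) {A : ℝ}
    (hA : ampK D.C κ Cg ≤ A) {Γ : ℝ≥0∞} (hΓ : 1 ≤ Γ) (nr : G × G → G × G → Prop) (x : G × G)
    (Λ : Finset (G × G)) (hV : ∀ f ∈ Λ, (fd x f : ℝ) ≤ Cv * R) (F : Finset (G × G) → Ge (Fld G))
    {η : ℝ} (hη0 : 0 ≤ η) (hη1 : η ≤ 1)
    (hF : cntK κ Cv * NK w A (rr p k0 n) Γ (fun _ => True)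
        (fun U => (F U : Gr (Fld G))) ≤ ENNReal.ofReal η) :
    |EEG (h.last D p k0 n) (ZZ nr Λ F) - 1| ≤ 2 * η := by
  have h1 := h.last_gram D hw (by positivity) hgap p k0 n
  rw [EEG_apply]
  refine FinBx900.EE_zz_sub_one_le h1 _ Λ F hη0 hη1 ?_
  obtain ⟨net, hc, hnt⟩ := net_lower hκ hR hCv hr x
  refine le_trans ?_ hF
  refine (Finset.sum_le_sum fun U _ => ?_).trans
    ((sum_nes_le_NK hΓ w A _ (fun U => (F U : Gr (Fld G))) Λ net (hnt Λ hV)).trans ?_)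
  · exact pnorm_le_pnorm (fun l => gr_lower D hM hw hn hκ hR hCg hr hA U l) _
  · gcongr



/-- the last scale tends to infinity -/
theorem n_pos_of_lower {α : Type*} {l : Filter α} {p k0 : ℕ} {κ : ℝ} (hκ : 0 < κ)
    {R : α → ℝ} (hR : Tendsto R l atTop) {n : α → ℕ} (hr : ∀ᶠ a in l, κ * R a ≤ rr p k0 (n a)) :
    ∀ᶠ a in l, 1 ≤ n a := by
  filter_upwards [hr, (hR.const_mul_atTop hκ).eventually_gt_atTop (rr p k0 0 : ℝ)] with a h1 h2
  by_contra hcon
  have h3 : n a = 0 := by omega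
  rw [h3] at h1
  linarith

/-- **the final factor tends to one** -/
theorem zf_tendsto [GoodG G] (hM : MM ≤ M) {α : Type*} {l : Filter α} {p k0 : ℕ}
    {κ Cg Cv : ℝ} (hκ : 0 < κ) (hCg : 0 < Cg) (hCv : 0 ≤ Cv) {Γ : ℝ≥0∞} (hΓ : 1 ≤ Γ)
    {R : α → ℝ} (hR : Tendsto R l atTop) {w : α → BW G} (hw : ∀ᶠ a in l, ∀ z j, |w a z j| ≤ 1)
    (hgap : ∀ᶠ a in l, ∀ f : Fld G,
      l2 (f : HE G → ℝ) ≤ Cg * R a * l2 (Aop (w a) (f : HE G → ℝ)))
    {A : α → ℝ} (hA : Tendsto A l atTop) {Q : α → Sys (G × G) (Fld G)} {Λ : α → Finset (G × G)}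
    {n : α → ℕ} {Sf : α → Cov (Fld G)}
    (hr : ∀ᶠ a in l, κ * R a ≤ rr p k0 (n a))
    (hSf : ∀ᶠ a in l, ∃ (S : HE G → HE G → ℝ) (h : Inv (w a) S), Sf a = h.last D p k0 (n a))
    {x : α → G × G} (hV : ∀ᶠ a in l, ∀ f ∈ Λ a, (fd (x a) f : ℝ) ≤ Cv * R a)
    (hK : Tendsto (fun a => NK (w a) (A a) (rr p k0 (n a)) Γ (fun _ => True)
      (fun U => ((Q a).K (n a) U : Gr (Fld G)))) l (𝓝 0)) :
    Tendsto (fun a => Zf (Q a) (Λ a) (n a) (Sf a)) l (𝓝 1) := by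
  have hA1 : ∀ᶠ a in l, ampK D.C κ Cg ≤ A a := hA.eventually_ge_atTop _
  have hn1 := n_pos_of_lower (p := p) (k0 := k0) hκ hR hr
  have hR0 : ∀ᶠ a in l, 0 < R a := hR.eventually_gt_atTop 0
  set N : α → ℝ≥0∞ := fun a => NK (w a) (A a) (rr p k0 (n a)) Γ (fun _ => True)
      (fun U => ((Q a).K (n a) U : Gr (Fld G))) with hN
  have hNr : Tendsto (fun a => (cntK κ Cv : ℝ) * (N a).toReal) l (𝓝 0) := by
    have h1 := (ENNReal.tendsto_toReal ENNReal.zero_ne_top).comp hK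
    have h2 := h1.const_mul (cntK κ Cv : ℝ)
    simpa using h2
  have hN1 : ∀ᶠ a in l, N a < 1 := hK.eventually_lt_const one_pos
  have hN2 : ∀ᶠ a in l, (cntK κ Cv : ℝ) * (N a).toReal ≤ 1 := by
    filter_upwards [hNr.eventually_lt_const one_pos] with a ha using ha.le
  rw [tendsto_iff_norm_sub_tendsto_zero]
  refine squeeze_zero' (g := fun a => 2 * ((cntK κ Cv : ℝ) * (N a).toReal))
    (Eventually.of_forall fun a => norm_nonneg _) ?_ (by simpa using hNr.const_mul 2)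
  filter_upwards [hgap, hR0, hA1, hr, hn1, hV, hN1, hN2, hSf, hw] with a h1 h2 h3 h4 h5 h6 h7 h8 h9 h10
  obtain ⟨S, h, hh⟩ := h9
  rw [Real.norm_eq_abs, Zf, hh]
  refine zf_bound D hM h h10 h5 hκ h2 hCg hCv h4 h1 h3 hΓ _ (x a) (Λ a) h6 _ (by positivity) h8 ?_
  rw [ENNReal.ofReal_mul (by positivity), ENNReal.ofReal_toReal h7.ne_top, ENNReal.ofReal_natCast]

end gen

/-! ### lattice domains -/

section dom

variable {M K : ℕ} (D : FRD 16 M K)







end dom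

end Crest.Agent.R165.Fin4x315
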