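import Crest.Agent.R165.K0Src_722
import Crest.Agent.R165.TorIso_723
import Crest.Agent.R165.JVol_950

/-!
# Row 165 (S0250): real sources, instances for the torus and the discs (helper722)

`src` is any source record with `IsReal src Y S t` (support `Y`, bonds `S`, constant `t`).

* `K0_real_mem`, `K0_src_empty` : locality, empty set
* `K0_iso_off`  : correspondence away from the sources
* `K0_iso_img`  : correspondence, `Y' = τ(Y)`, `S' = τ(S)`, `Y ⊆ Z`
* `hK0_torB`    : plane / torus (chart `torB` of 723), hypothesis `hK0` of `cc_tor`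
* `hK0_secB`    : two sectors of the torus (chart `secB`), hypothesis `hK0` of `cc_sec`
-/

set_option autoImplicit false
set_option linter.unusedSectionVars false

noncomputable section

open Crest.ProbabilityR.IsingModel
open Crest.Agent.R165.Gr0x606 Crest.Agent.R165.Gr1x606 Crest.Agent.R165.Latx683
open Crest.Agent.R165.GDefx387 Crest.Agent.R165.GeOpsx337 Crest.Agent.R165.BgIsox432
open Crest.Agent.R165.J4K0x126 Crest.Agent.R165.J4K0Mapx126 Crest.Agent.R165.J4Geox126
open Crest.Agent.R165.J4Lnkx653 Crest.Agent.R165.J4Defx653 Crest.Agent.R165.J4RRx653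
open Crest.Agent.R165.KInitx892 Crest.Agent.R165.KMapx892 Crest.Agent.R165.GSysx387
open Crest.Agent.R165.Bkgx683 (Bg MPar noSrc frG cor Srcs realSrc)
open Crest.Agent.R165.K0Isox900 Crest.Agent.R165.DomGeox900 Crest.Agent.R165.K0IsoBx900
open Crest.Agent.R165.J1ax606 (EG pe qe pe_zero pe_one qe_zero qe_one)
open Crest.Agent.R165.TorIsox723 Crest.Agent.R165.MetGx723 Crest.Agent.R165.TorChartx723

namespace Crest.Agent.R165.K0Srcx722

variable {G G' : Type} [CommRing G] [CN G] [DecidableEq G] [CommRing G'] [CN G'] [DecidableEq G']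

theorem K0_src_empty {κ : Type} [DecidableEq κ] [Fintype κ] (B : Bg G) (P : MPar)
    (src : Srcs κ G (Ge (Fld G))) (l k0 : ℕ) : B.K0 P LinearMap.id src l k0 ∅ = 0 :=
  JVolx950.K0_empty B P _ src l k0

/-- **locality** with a real source -/
theorem K0_real_mem (B : Bg G) (P : MPar) {src : Srcs (Fin 1) G (Ge (Fld G))}
    {Y : Finset (G × G)} {S : Finset (EG G)} {t : ℝ} (hs : IsReal src Y S t) (l k0 : ℕ)
    (U : Finset (G × G)) : B.K0 P LinearMap.id src l k0 U ∈ grG (fldU U) := by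
  refine JVolx950.K0_fldU B P _ (fun k _ => ?_) l k0 U
  obtain rfl : k = 0 := Subsingleton.elim _ _
  rw [hs.as]
  exact Subalgebra.algebraMap_mem _ _




section tor

variable {M : ℕ} [NeZero M] {ε₁ ε₂ ε₁' ε₂' : ℝ}



/-- **two sectors of the torus**, same real source: the hypothesis `hK0` of
`TorIsox723.cc_sec` -/
theorem hK0_secB (h₁ : ε₁ * ε₁ = 1) (h₂ : ε₂ * ε₂ = 1) (h₁' : ε₁' * ε₁' = 1)
    (h₂' : ε₂' * ε₂' = 1) (x₀ : ZMod M × ZMod M) {R : ℕ} (hR : 4 * (R + 1) ≤ M) (P : MPar)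
    (l k0 : ℕ) {src src' : Srcs (Fin 1) (ZMod M) (Ge (Fld (ZMod M)))}
    {Y : Finset (ZMod M × ZMod M)} {S : Finset (EG (ZMod M))} {t : ℝ}
    (hs : IsReal src Y S t) (hs' : IsReal src' Y S t) (hSY : ∀ e ∈ S, faE e ⊆ Y)
    (U : Finset (ZMod M × ZMod M)) (_ : U.Nonempty) (hU : nbhd (s2 * rr l k0 0) U ⊆ ball x₀ R) :
    mpG (secB h₁ h₂ h₁' h₂' x₀ hR).push ((Bg.tor M ε₁ ε₂).K0 P LinearMap.id src l k0 U) =
      (Bg.tor M ε₁' ε₂').K0 P LinearMap.id src' l k0 U := by
  have hid : (secB h₁ h₂ h₁' h₂' x₀ hR).τ = id := rfl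
  have key := K0_iso_src (B := Bg.tor M ε₁ ε₂) (B' := Bg.tor M ε₁' ε₂')
    (secB h₁ h₂ h₁' h₂' x₀ hR) P l k0 (U := U) (fun _ hf => ball_of_nbhd hU hf)
    (fun _ _ => ⟨fun _ => trivial, fun _ => trivial⟩)
    (fun _ _ _ _ _ _ => ⟨fun _ => trivial, fun _ => trivial⟩) hs hs' hSY
    (fun _ => by
      have he : (ebm (id : ZMod M × ZMod M → ZMod M × ZMod M)) = id := rfl
      rw [hid, he, Finset.image_id, Finset.image_id]
      exact ⟨rfl, rfl⟩)
    (fun h => by rw [hid, Finset.image_id] at h; exact h)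
  rw [hid, Finset.image_id] at key
  exact key


end tor

end Crest.Agent.R165.K0Srcx722
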