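import Crest.Agent.R165.J4K0Map_126
import Crest.Agent.R165.Bkg_683
import Crest.Agent.R165.FlowD4_898
import Crest.Agent.R165.J4Lnk2_653

-- ▼ part R165/J4K0D_126
section

/-!
# Row 165 (S0250), block J4: dropping dead labels, transport along live labels (helper126)

* `act_dat_sum` : the activity of `B.dat fr 𝔍 h` as a sum over subsets of `𝔍`
* `act_drop`    : labels with `aI = 0` or `FI = 0` can be dropped
* `dat_map`     : transport of activities along a bijection of label sets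
-/

set_option autoImplicit false
set_option linter.unusedSectionVars false

noncomputable section

open Finset

namespace Crest.Agent.R165.J4K0Dx126
open Crest.Agent.R165.KCompx892 Crest.Agent.R165.J4Actx126
open Crest.Agent.R165.J4Datx126 Crest.Agent.R165.J4Geox126 Crest.Agent.R165.J4K0x126
open Crest.Agent.R165.J4K0Mapx126
open Crest.Agent.R165.J4Defx653 Crest.Agent.R165.J4Pathx653
open Crest.Agent.R165.J4RRx653 Crest.Agent.R165.J4RRAx653
open Crest.Agent.R165.J1ax606 (HE EG pe qe pe_zero pe_one qe_zero qe_one)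

variable {G : Type*} [CommRing G] [DecidableEq G]
variable {A : Type*} [CommRing A] [Algebra ℝ A] {κ : Type*} [DecidableEq κ]

/-- weight of a finite set of labels -/
def wJ (fr : Fr G A) (B : Bk G κ A) (T : Finset (Ix G κ)) : A :=
  (∏ i ∈ T, B.aI fr i) * TH (B.g fr) (∏ i ∈ T, B.FI i)

theorem wJ_zero {fr : Fr G A} {B : Bk G κ A} {T : Finset (Ix G κ)} {i : Ix G κ} (hi : i ∈ T)
    (h : B.aI fr i = 0 ∨ B.FI i = 0) : wJ fr B T = 0 := by
  unfold wJ
  rcases h with h | h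
  · rw [Finset.prod_eq_zero hi h, zero_mul]
  · rw [Finset.prod_eq_zero hi h, map_zero, mul_zero]

open Classical in
/-- the activity as a sum over subsets of the label set -/
theorem act_dat_sum (fr : Fr G A) (B : Bk G κ A) (𝔍 : Finset (Ix G κ)) (h𝔍 : ∀ i ∈ 𝔍, B.okI i)
    (U : Finset (G × G)) : (B.dat fr 𝔍 h𝔍).items.act U =
      ∑ T ∈ 𝔍.powerset with Conn (touch B.YI) T ∧ supp B.YI T = U, wJ fr B T := by
  have hv : Function.Injective (Subtype.val : {i // i ∈ 𝔍} → Ix G κ) := Subtype.val_injective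
  have hsupp : ∀ T : Finset {i // i ∈ 𝔍},
      supp B.YI (T.image Subtype.val) = supp (B.dat fr 𝔍 h𝔍).items.Y T := by
    intro T
    have := supp_image (Y := (B.dat fr 𝔍 h𝔍).items.Y) (Y' := B.YI) (e := Subtype.val)
      (ψ := fun f => f) (T := T) (fun i _ => (Finset.image_id').symm)
    rw [this, Finset.image_id']
  have hconn : ∀ T : Finset {i // i ∈ 𝔍},
      Conn (touch B.YI) (T.image Subtype.val) ↔ Conn (touch (B.dat fr 𝔍 h𝔍).items.Y) T := by
    intro T
    exact conn_image hv.injOn fun i _ j _ => Iff.rfl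
  unfold Items.act
  refine Finset.sum_nbij' (fun T => T.image Subtype.val) (fun T => T.subtype (· ∈ 𝔍)) ?_ ?_ ?_ ?_ ?_
  · intro T hT
    rw [Finset.mem_filter] at hT ⊢
    refine ⟨?_, (hconn T).2 hT.2.1, by rw [hsupp]; exact hT.2.2⟩
    rw [Finset.mem_powerset]
    intro i hi
    obtain ⟨j, -, rfl⟩ := Finset.mem_image.1 hi
    exact j.2
  · intro T hT
    rw [Finset.mem_filter, Finset.mem_powerset] at hT
    have e : (T.subtype (· ∈ 𝔍)).image Subtype.val = T := by
      ext i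
      rw [Finset.mem_image]
      constructor
      · rintro ⟨j, hj, rfl⟩
        exact (Finset.mem_subtype.1 hj)
      · intro hi
        exact ⟨⟨i, hT.1 hi⟩, Finset.mem_subtype.2 hi, rfl⟩
    rw [Finset.mem_filter]
    refine ⟨Finset.mem_univ _, ?_, ?_⟩
    · rw [← hconn, e]; exact hT.2.1
    · rw [← hsupp, e]; exact hT.2.2
  · intro T _
    ext i
    rw [Finset.mem_subtype, Finset.mem_image]
    constructor
    · rintro ⟨j, hj, hij⟩
      rw [hv hij] at hj
      exact hj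
    · intro hi
      exact ⟨i, hi, rfl⟩
  · intro T hT
    rw [Finset.mem_filter, Finset.mem_powerset] at hT
    ext i
    rw [Finset.mem_image]
    constructor
    · rintro ⟨j, hj, rfl⟩
      exact (Finset.mem_subtype.1 hj)
    · intro hi
      exact ⟨⟨i, hT.1 hi⟩, Finset.mem_subtype.2 hi, rfl⟩
  · intro T _
    rw [Dat.w_eq]
    unfold wJ
    rw [Finset.prod_image hv.injOn, Finset.prod_image hv.injOn]
    rfl

/-- **dead labels can be dropped** -/
theorem act_drop (fr : Fr G A) (B : Bk G κ A) {𝔍 𝔍' : Finset (Ix G κ)} (hsub : 𝔍' ⊆ 𝔍)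
    (h𝔍 : ∀ i ∈ 𝔍, B.okI i) (h𝔍' : ∀ i ∈ 𝔍', B.okI i) {U : Finset (G × G)}
    (hd : ∀ i ∈ 𝔍, B.YI i ⊆ U → i ∉ 𝔍' → B.aI fr i = 0 ∨ B.FI i = 0) :
    (B.dat fr 𝔍 h𝔍).items.act U = (B.dat fr 𝔍' h𝔍').items.act U := by
  classical
  rw [act_dat_sum, act_dat_sum]
  symm
  refine Finset.sum_subset ?_ ?_
  · intro T hT
    rw [Finset.mem_filter, Finset.mem_powerset] at hT ⊢
    exact ⟨hT.1.trans hsub, hT.2⟩
  · intro T hT hT'
    rw [Finset.mem_filter, Finset.mem_powerset] at hT hT'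
    have h1 : ¬ T ⊆ 𝔍' := fun h => hT' ⟨h, hT.2⟩
    obtain ⟨i, hi, hi'⟩ := Finset.not_subset.1 h1
    exact wJ_zero hi (hd i (hT.1 hi) (supp_subset_iff.1 hT.2.2.le i hi) hi')

/-- dropping for the initial activities -/
theorem K0_drop [Fintype κ] (fr : Fr G A) (B : Bk G κ A) {U : Finset (G × G)}
    {𝔍 : Finset (Ix G κ)} (hsub : 𝔍 ⊆ B.ixs U) (h𝔍 : ∀ i ∈ 𝔍, B.okI i)
    (hd : ∀ i, B.okI i → B.YI i ⊆ U → i ∉ 𝔍 → B.aI fr i = 0 ∨ B.FI i = 0) :
    B.K0 fr U = (B.dat fr 𝔍 h𝔍).items.act U :=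
  act_drop fr B hsub B.ixs_ok h𝔍 fun i hi hiU hi' => hd i (B.ixs_ok i hi) hiU hi'

section map
variable {G' : Type*} [CommRing G'] [DecidableEq G']
variable {A' : Type*} [CommRing A'] [Algebra ℝ A'] {κ' : Type*} [DecidableEq κ']

/-- **transport of activities along a bijection of label sets** -/
theorem dat_map {fr : Fr G A} {B : Bk G κ A} {fr' : Fr G' A'} {B' : Bk G' κ' A'}
    {ψ : G × G → G' × G'} {eb : EG G → EG G'} {m : Ix G κ → Ix G' κ'} {τ : A →ₐ[ℝ] A'}
    {U : Finset (G × G)} {𝔍 : Finset (Ix G κ)} {𝔍' : Finset (Ix G' κ')}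
    (h𝔍 : ∀ i ∈ 𝔍, B.okI i) (h𝔍' : ∀ i ∈ 𝔍', B'.okI i) (hU : ∀ i ∈ 𝔍, B.YI i ⊆ U)
    (face : Set.InjOn ψ U) (einj : Set.InjOn eb {e | faE e ⊆ U})
    (g : ∀ e, faE e ⊆ U → τ (B.g fr e) = B'.g fr' (eb e))
    (mem : ∀ i ∈ 𝔍, m i ∈ 𝔍') (minj : Set.InjOn m 𝔍) (surj : ∀ i' ∈ 𝔍', ∃ i ∈ 𝔍, m i = i')
    (Y : ∀ i ∈ 𝔍, B'.YI (m i) = (B.YI i).image ψ)
    (a : ∀ i ∈ 𝔍, τ (B.aI fr i) = B'.aI fr' (m i))
    (F : ∀ i ∈ 𝔍, B'.FI (m i) = em eb (B.FI i)) :
    τ ((B.dat fr 𝔍 h𝔍).items.act U) = (B'.dat fr' 𝔍' h𝔍').items.act (U.image ψ) := by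
  have hinj : Function.Injective
      (fun i : {i // i ∈ 𝔍} => (⟨m i.1, mem i.1 i.2⟩ : {i // i ∈ 𝔍'})) := by
    intro i j hij
    have : m i.1 = m j.1 := congrArg Subtype.val hij
    exact Subtype.ext (minj i.2 j.2 this)
  have key := act_transport (I := (B.dat fr 𝔍 h𝔍).items) (I' := (B'.dat fr' 𝔍' h𝔍').items)
    (ψ := ψ) (U := U) (e := fun i => (⟨m i.1, mem i.1 i.2⟩ : {i // i ∈ 𝔍'})) ?_
    (τ : A →+* A').toAddMonoidHom ?_
  · exact key
  · refine ⟨face, fun i _ j _ hij => hinj hij, fun i _ => ?_, fun i' hi' => ?_⟩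
    · exact Y _ i.2
    · obtain ⟨i, h1, h3⟩ := surj i'.1 i'.2
      exact ⟨⟨i, h1⟩, hU i h1, Subtype.ext h3⟩
  · intro T _
    change τ ((B.dat fr 𝔍 h𝔍).items.w T) = (B'.dat fr' 𝔍' h𝔍').items.w _
    rw [Dat.w_eq, Dat.w_eq, Finset.prod_image fun i _ j _ hij => hinj hij,
      Finset.prod_image fun i _ j _ hij => hinj hij, map_mul, map_prod]
    congr 1
    · refine Finset.prod_congr rfl fun i _ => ?_
      exact a _ i.2
    · have hFU : ∏ i ∈ T, (B.dat fr 𝔍 h𝔍).Fe i ∈ RIn {e : EG G | faE e ⊆ U} := by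
        refine Subalgebra.prod_mem _ fun i _ => ?_
        refine RIn_mono ?_ (B.FI_mem (h𝔍 i.1 i.2))
        intro e he
        exact Finset.Subset.trans he (hU i.1 i.2)
      change τ (TH (B.g fr) (∏ i ∈ T, (B.dat fr 𝔍 h𝔍).Fe i)) =
        TH (B'.g fr') (∏ i ∈ T, B'.FI (m i.1))
      have e1 : ∏ i ∈ T, B'.FI (m i.1) = em eb (∏ i ∈ T, (B.dat fr 𝔍 h𝔍).Fe i) := by
        rw [map_prod]
        exact Finset.prod_congr rfl fun i _ => F _ i.2
      rw [e1, TH_em_on einj _ hFU, TH_algHom]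
      exact TH_congr_of_mem (fun e he => g e he) hFU

end map

end Crest.Agent.R165.J4K0Dx126
end
end

-- ▼ part R165/J4K0Sym_126

/-!
# Row 165 (S0250), block J4: symmetries of the plane of the initial activities (helper126)

* `LSym`      : a symmetry of faces, finite sets of sites and bonds; `lTr`, `lRot`, `lRef`, `comp`
* `K0_lsym`   : covariance of `K0` under a lattice symmetry
* `K00_plSym` : `PlSym (Bg.pl.K00 (mpar J lam R V β z) id noSrc)`
* `K0_plSym`  : `PlSym (Bg.pl.K0 .. l k0)`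
-/

set_option autoImplicit false
set_option linter.unusedSectionVars false

noncomputable section

open Finset

namespace Crest.Agent.R165.J4K0Symx126
open Crest.ProbabilityR.IsingModel
open Crest.Agent.R165.KCompx892 Crest.Agent.R165.J4Actx126
open Crest.Agent.R165.J4Datx126 Crest.Agent.R165.J4Geox126 Crest.Agent.R165.J4K0x126
open Crest.Agent.R165.J4K0Mapx126 Crest.Agent.R165.J4K0Dx126
open Crest.Agent.R165.J4Defx653 Crest.Agent.R165.J4Pathx653
open Crest.Agent.R165.J4RRx653 Crest.Agent.R165.J4RRAx653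
open Crest.Agent.R165.J1ax606 (HE EG pe qe pe_zero pe_one qe_zero qe_one)

/-! ### lattice symmetries -/

/-- a symmetry of faces, finite sets of sites and bonds -/
structure LSym where
  /-- on faces -/
  ψ : ℤ × ℤ → ℤ × ℤ
  /-- on finite sets of sites -/
  β : Finset (ℤ × ℤ) → Finset (ℤ × ℤ)
  /-- on bonds -/
  E : Ed → Ed
  ψ_inj : Function.Injective ψ
  ψ_surj : Function.Surjective ψ
  β_inj : Function.Injective β
  β_surj : Function.Surjective β
  E_inj : Function.Injective E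
  E_surj : Function.Surjective E
  card : ∀ B, (β B).card = B.card
  Yf : ∀ B, Yf (β B) = (Yf B).image ψ
  faE : ∀ e, faE (E e) = (faE e).image ψ
  kB : ∀ t B, B.Nonempty → kB t (β B) = em E (kB t B)

namespace LSym

variable (L : LSym)

theorem ne {B : Finset (ℤ × ℤ)} (h : B.Nonempty) : (L.β B).Nonempty := by
  rw [← Finset.card_pos, L.card]; exact h.card_pos

theorem ne' {B : Finset (ℤ × ℤ)} (h : (L.β B).Nonempty) : B.Nonempty := by
  rw [← Finset.card_pos, ← L.card]; exact h.card_pos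

/-- composition -/
def comp (L M : LSym) : LSym where
  ψ := L.ψ ∘ M.ψ
  β := L.β ∘ M.β
  E := L.E ∘ M.E
  ψ_inj := L.ψ_inj.comp M.ψ_inj
  ψ_surj := L.ψ_surj.comp M.ψ_surj
  β_inj := L.β_inj.comp M.β_inj
  β_surj := L.β_surj.comp M.β_surj
  E_inj := L.E_inj.comp M.E_inj
  E_surj := L.E_surj.comp M.E_surj
  card B := by rw [Function.comp_apply, L.card, M.card]
  Yf B := by rw [Function.comp_apply, L.Yf, M.Yf, Finset.image_image]
  faE e := by rw [Function.comp_apply, L.faE, M.faE, Finset.image_image]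
  kB t B hB := by
    rw [Function.comp_apply, L.kB t _ (M.ne hB), M.kB t _ hB, em_comp]

end LSym

theorem tr_surj (z : ℤ × ℤ) : Function.Surjective fun B => tr B z := fun B =>
  ⟨tr B (-z), by show tr (tr B (-z)) z = B; rw [tr_tr, neg_add_cancel, tr_zero]⟩

/-- translation -/
def lTr (z : ℤ × ℤ) : LSym where
  ψ x := x + z
  β B := tr B z
  E := trEd z
  ψ_inj := add_left_injective z
  ψ_surj x := ⟨x - z, sub_add_cancel x z⟩
  β_inj := tr_injective z
  β_surj := tr_surj z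
  E_inj := trEd_inj z
  E_surj e := ⟨trEd (-z) e, by rw [trEd_trEd, neg_add_cancel]; exact Prod.ext (add_zero _) rfl⟩
  card B := card_tr B z
  Yf B := Yf_tr B z
  faE e := faE_trEd z e
  kB t B hB := kB_tr t z hB

/-- rotation (of the sites about the origin) -/
def lRot : LSym where
  ψ := rF
  β := rB
  E := rotEd
  ψ_inj := rF_inj
  ψ_surj x := ⟨(x.2, -x.1 - 1), by unfold rF; ext <;> dsimp only <;> omega⟩
  β_inj := Finset.image_injective rotate_inj
  β_surj B := ⟨rB (rB (rB B)), rB_four B⟩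
  E_inj := rotEd_inj
  E_surj e := ⟨rotEd (rotEd (rotEd e)), rotEd_four e⟩
  card B := card_rB B
  Yf B := Yf_rB B
  faE e := faE_rotEd e
  kB t B _ := kB_rB t B

/-- reflection (of the sites in the first axis) -/
def lRef : LSym where
  ψ := gF
  β := fB
  E := refEd
  ψ_inj := gF_inj
  ψ_surj x := ⟨(x.1, -x.2 - 1), by unfold gF; ext <;> dsimp only <;> omega⟩
  β_inj := Finset.image_injective reflect_inj
  β_surj B := ⟨fB B, fB_fB B⟩
  E_inj := refEd_inj
  E_surj e := ⟨refEd e, refEd_refEd e⟩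
  card B := card_fB B
  Yf B := Yf_fB B
  faE e := faE_refEd e
  kB t B _ := kB_fB t B

/-- rotation of the faces about the face `0` -/
def lRho : LSym := (lTr (1, 0)).comp lRot

/-- reflection of the faces in the second axis -/
def lSig : LSym := (lTr (1, 0)).comp (lRot.comp (lRot.comp lRef))

/-! ### placed shapes -/

theorem ez_int (u : ℤ × ℤ) : (ez (G := ℤ) u : Ed → Ed) = trEd u := by
  funext e
  unfold ez fz cz trEd
  rw [Prod.mk.injEq]
  refine ⟨?_, rfl⟩
  simp only [Int.cast_id]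
  rw [add_comm]

theorem fz_int (u z : ℤ × ℤ) : fz (G := ℤ) u z = z + u := by
  unfold fz cz
  simp only [Int.cast_id]
  rw [add_comm]

theorem Yf_place (u : ℤ × ℤ) (S : Finset (ℤ × ℤ)) : (Yf S).image (fz (G := ℤ) u) = Yf (tr S u) := by
  rw [Yf_tr]
  exact Finset.image_congr fun z _ => fz_int u z

theorem kB_place (t : ℝ) (u : ℤ × ℤ) {S : Finset (ℤ × ℤ)} (h : S.Nonempty) :
    em (ez (G := ℤ) u) (kB t S) = kB t (tr S u) := by
  rw [ez_int, kB_tr t u h]

/-- canonical data of a placed set -/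
def can (B : Finset (ℤ × ℤ)) : (ℤ × ℤ) × Finset (ℤ × ℤ) := (lmin B, tr B (-lmin B))

theorem place_can (B : Finset (ℤ × ℤ)) : tr (can B).2 (can B).1 = B := by
  unfold can
  rw [tr_tr, neg_add_cancel, tr_zero]

theorem can_place {u : ℤ × ℤ} {S : Finset (ℤ × ℤ)} (h : IsLexMin S 0) : can (tr S u) = (u, S) := by
  have h1 : lmin (tr S u) = u := by
    have h2 := (lmin_spec (B := tr S u) ⟨_, (h.tr u).1⟩)
    have h3 := h.tr u
    rw [zero_add] at h3
    exact h2.unique h3
  unfold can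
  rw [h1, tr_tr, add_neg_cancel, tr_zero]

theorem can_mem {R : ℕ} {t : Finset (ℤ × ℤ) → ℝ} (hR : Rng R t)
    {B : Finset (ℤ × ℤ)} (hB : B.Nonempty) (h : t B ≠ 0) : (can B).2 ∈ Can R := by
  have hm := lmin_spec hB
  unfold can
  rw [mem_Can]
  refine ⟨fun x hx => ?_, ?_⟩
  · rw [mem_tr] at hx
    have h1 := hR B h _ hx _ hm.1
    rw [mem_bx]
    simpa using h1
  · simpa using hm.tr (-lmin B)

/-! ### covariance -/

section cov
variable {A : Type*} [CommRing A] [Algebra ℝ A] {κ : Type*} [DecidableEq κ] [Fintype κ]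

/-- the label map of a lattice symmetry -/
def mL (L : LSym) : Ix ℤ κ → Ix ℤ κ
  | .inl p => .inl (can (L.β (tr p.2 p.1)))
  | .inr (.inl f) => .inr (.inl (L.ψ f))
  | .inr (.inr (.inl e)) => .inr (.inr (.inl (L.E e)))
  | .inr (.inr (.inr k)) => .inr (.inr (.inr k))

/-- a translation invariant background without sources -/
structure Hom (B : Bk ℤ κ A) (y0 s0 : ℝ) : Prop where
  y : ∀ e, B.y e = y0
  s : ∀ f, B.s f = s0
  ok : ∀ u S, B.ok u S
  tT : TrInv B.t
  tR : Rng B.R B.t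

/-- the live labels: shapes with non-vanishing potential, faces, bonds -/
def live (B : Bk ℤ κ A) : Ix ℤ κ → Prop
  | .inl p => B.t p.2 ≠ 0
  | _ => True

open Classical in
/-- the live labels inside `U` -/
def liv (B : Bk ℤ κ A) (U : Finset (ℤ × ℤ)) : Finset (Ix ℤ κ) := (B.ixs U).filter (live B)

theorem mem_liv {B : Bk ℤ κ A} {U : Finset (ℤ × ℤ)} {i : Ix ℤ κ} :
    i ∈ liv B U ↔ (B.okI i ∧ B.YI i ⊆ U) ∧ live B i := by
  classical
  unfold liv
  rw [Finset.mem_filter, B.mem_ixs]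

theorem K0_liv (fr : Fr ℤ A) (B : Bk ℤ κ A) (U : Finset (ℤ × ℤ)) :
    B.K0 fr U = (B.dat fr (liv B U) (fun i hi => (mem_liv.1 hi).1.1)).items.act U := by
  refine K0_drop fr B (fun i hi => B.mem_ixs.2 (mem_liv.1 hi).1) _ fun i h1 h2 h3 => Or.inr ?_
  rw [mem_liv] at h3
  have h4 : ¬ live B i := fun h => h3 ⟨⟨h1, h2⟩, h⟩
  rcases i with p | f | e | k
  · unfold live at h4
    rw [not_not] at h4
    change em (ez p.1) (kB (B.t p.2) p.2) = 0
    rw [h4, kB_zero, map_zero]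
  · exact absurd trivial h4
  · exact absurd trivial h4
  · exact absurd trivial h4

/-- **covariance of the initial activities under a lattice symmetry** -/
theorem K0_lsym [IsEmpty κ] {fr : Fr ℤ A} {B : Bk ℤ κ A} {y0 s0 : ℝ} (hB : Hom B y0 s0)
    (L : LSym) (hL : ∀ S, B.t (L.β S) = B.t S) (τ : A →ₐ[ℝ] A)
    (hb : ∀ e, τ (fr.b e) = fr.b (L.E e)) (hI : ∀ f, τ (fr.I4 f) = fr.I4 (L.ψ f))
    (U : Finset (ℤ × ℤ)) : τ (B.K0 fr U) = B.K0 fr (U.image L.ψ) := by
  rw [K0_liv, K0_liv]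
  -- shapes
  have hsh : ∀ p : (ℤ × ℤ) × Finset (ℤ × ℤ), p.2 ∈ Can B.R → Even p.2.card → B.t p.2 ≠ 0 →
      (can (L.β (tr p.2 p.1))).2 ∈ Can B.R ∧ Even (can (L.β (tr p.2 p.1))).2.card ∧
        B.t (can (L.β (tr p.2 p.1))).2 = B.t p.2 := by
    intro p h1 h2 h3
    have hne : (L.β (tr p.2 p.1)).Nonempty := by
      refine L.ne ?_
      rw [← Finset.card_pos, card_tr]
      exact (Can.nonempty h1).card_pos
    have ht : B.t (L.β (tr p.2 p.1)) = B.t p.2 := by rw [hL, hB.tT]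
    refine ⟨can_mem hB.tR hne (by rw [ht]; exact h3), ?_, ?_⟩
    · unfold can
      rw [card_tr, L.card, card_tr]
      exact h2
    · unfold can
      rw [hB.tT, ht]
  have hYs : ∀ p : (ℤ × ℤ) × Finset (ℤ × ℤ),
      (Yf (can (L.β (tr p.2 p.1))).2).image (fz (G := ℤ) (can (L.β (tr p.2 p.1))).1) =
        ((Yf p.2).image (fz (G := ℤ) p.1)).image L.ψ := by
    intro p
    rw [Yf_place, place_can, L.Yf, Yf_place]
  have hYI : ∀ i ∈ liv B U, B.YI (mL L i) = (B.YI i).image L.ψ := by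
    intro i hi
    rcases i with p | f | e | k
    · exact hYs p
    · exact (Finset.image_singleton _ _).symm
    · exact L.faE e
    · exact isEmptyElim k
  refine dat_map (m := mL L) (eb := L.E) _ _ (fun i hi => (mem_liv.1 hi).1.2) L.ψ_inj.injOn
    L.E_inj.injOn ?_ ?_ ?_ ?_ hYI ?_ ?_
  · intro e _
    unfold Bk.g
    rw [map_sub, map_one, map_smul, hb, hB.y, hB.y, hB.s, hB.s, hB.s, hB.s]
  · intro i hi
    have h0 := hYI i hi
    rw [mem_liv] at hi
    rw [mem_liv]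
    refine ⟨⟨?_, ?_⟩, ?_⟩
    · rcases i with p | f | e | k
      · obtain ⟨h1, h2, -⟩ := hsh p hi.1.1.1.1 hi.1.1.1.2 hi.2
        exact ⟨⟨h1, h2⟩, hB.ok _ _⟩
      · trivial
      · trivial
      · exact isEmptyElim k
    · rw [h0]
      exact Finset.image_subset_image hi.1.2
    · rcases i with p | f | e | k
      · obtain ⟨-, -, h3⟩ := hsh p hi.1.1.1.1 hi.1.1.1.2 hi.2
        change B.t _ ≠ 0
        rw [h3]; exact hi.2
      · trivial
      · trivial
      · exact isEmptyElim k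
  · intro i hi j hj hij
    rw [Finset.mem_coe, mem_liv] at hi hj
    rcases i with p | f | e | k
    · rcases j with p' | f' | e' | k'
      · unfold mL at hij
        rw [Sum.inl.injEq] at hij
        have h1 : L.β (tr p.2 p.1) = L.β (tr p'.2 p'.1) := by
          rw [← place_can (L.β (tr p.2 p.1)), hij, place_can]
        have h2 := L.β_inj h1
        have h3 := can_place (u := p.1) (mem_Can.1 hi.1.1.1.1).2
        have h4 := can_place (u := p'.1) (mem_Can.1 hj.1.1.1.1).2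
        rw [h2, h4] at h3
        rw [Sum.inl.injEq]
        exact h3.symm
      · unfold mL at hij; cases hij
      · unfold mL at hij; cases hij
      · exact isEmptyElim k'
    · rcases j with p' | f' | e' | k'
      · unfold mL at hij; cases hij
      · unfold mL at hij
        rw [Sum.inr.injEq, Sum.inl.injEq] at hij
        rw [L.ψ_inj hij]
      · unfold mL at hij; cases hij
      · exact isEmptyElim k'
    · rcases j with p' | f' | e' | k'
      · unfold mL at hij; cases hij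
      · unfold mL at hij; cases hij
      · unfold mL at hij
        rw [Sum.inr.injEq, Sum.inr.injEq, Sum.inl.injEq] at hij
        rw [L.E_inj hij]
      · exact isEmptyElim k'
    · exact isEmptyElim k
  · intro i' hi'
    rw [mem_liv] at hi'
    obtain ⟨⟨hok, hY'⟩, hlv⟩ := hi'
    rcases i' with p | f | e | k
    · obtain ⟨B0, hB0⟩ := L.β_surj (tr p.2 p.1)
      have hne : B0.Nonempty := by
        refine L.ne' ?_
        rw [hB0, ← Finset.card_pos, card_tr]
        exact (Can.nonempty hok.1.1).card_pos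
      have ht : B.t B0 = B.t p.2 := by rw [← hL, hB0, hB.tT]
      have hlv' : B.t p.2 ≠ 0 := hlv
      have hcard : Even B0.card := by
        rw [← L.card, hB0, card_tr]; exact hok.1.2
      refine ⟨.inl (can B0), ?_, ?_⟩
      · rw [mem_liv]
        refine ⟨⟨⟨⟨can_mem hB.tR hne (by rw [ht]; exact hlv'), ?_⟩, hB.ok _ _⟩, ?_⟩, ?_⟩
        · unfold can
          rw [card_tr]; exact hcard
        · change (Yf (can B0).2).image (fz (G := ℤ) (can B0).1) ⊆ U
          rw [Yf_place, place_can]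
          have h5 : (Yf B0).image L.ψ ⊆ U.image L.ψ := by
            rw [← L.Yf, hB0, ← Yf_place]
            exact hY'
          exact (Finset.image_subset_image_iff L.ψ_inj).1 h5
        · change B.t (can B0).2 ≠ 0
          unfold can
          rw [hB.tT, ht]; exact hlv'
      · change (Sum.inl (can (L.β (tr (can B0).2 (can B0).1))) : Ix ℤ κ) = _
        rw [place_can, hB0, can_place (mem_Can.1 hok.1.1).2]
    · obtain ⟨g, hg, hg'⟩ := Finset.mem_image.1 (hY' (Finset.mem_singleton_self f))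
      refine ⟨.inr (.inl g), ?_, ?_⟩
      · rw [mem_liv]
        exact ⟨⟨trivial, Finset.singleton_subset_iff.2 hg⟩, trivial⟩
      · change (Sum.inr (Sum.inl (L.ψ g)) : Ix ℤ κ) = _
        rw [hg']
    · obtain ⟨g, hg⟩ := L.E_surj e
      refine ⟨.inr (.inr (.inl g)), ?_, ?_⟩
      · rw [mem_liv]
        refine ⟨⟨trivial, ?_⟩, trivial⟩
        change J4Geox126.faE g ⊆ U
        have h5 : (J4Geox126.faE g).image L.ψ ⊆ U.image L.ψ := by
          rw [← L.faE, hg]
          exact hY'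
        exact (Finset.image_subset_image_iff L.ψ_inj).1 h5
      · change (Sum.inr (Sum.inr (Sum.inl (L.E g))) : Ix ℤ κ) = _
        rw [hg]
    · exact isEmptyElim k
  · intro i hi
    rcases i with p | f | e | k
    · exact map_one τ
    · change τ (B.cI f • fr.I4 f + (B.cI f ^ 2 / 2) • (fr.I4 f * fr.I4 f)) =
        B.cI (L.ψ f) • fr.I4 (L.ψ f) + (B.cI (L.ψ f) ^ 2 / 2) • (fr.I4 (L.ψ f) * fr.I4 (L.ψ f))
      have hc : B.cI f = B.cI (L.ψ f) := by unfold Bk.cI; rw [hB.s, hB.s]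
      rw [map_add, map_smul, map_smul, map_mul, hI, hc]
    · change τ ((B.y e * (B.s (pe e).1 * B.s (qe e).1 - 1)) • fr.b e) =
        (B.y (L.E e) * (B.s (pe (L.E e)).1 * B.s (qe (L.E e)).1 - 1)) • fr.b (L.E e)
      rw [map_smul, hb, hB.y, hB.y, hB.s, hB.s, hB.s, hB.s]
    · exact isEmptyElim k
  · intro i hi
    rw [mem_liv] at hi
    rcases i with p | f | e | k
    · obtain ⟨h1, -, h3⟩ := hsh p hi.1.1.1.1 hi.1.1.1.2 hi.2
      have hne : (tr p.2 p.1).Nonempty := by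
        rw [← Finset.card_pos, card_tr]
        exact (Can.nonempty hi.1.1.1.1).card_pos
      change em (ez (can (L.β (tr p.2 p.1))).1)
        (kB (B.t (can (L.β (tr p.2 p.1))).2) (can (L.β (tr p.2 p.1))).2) =
          em L.E (em (ez p.1) (kB (B.t p.2) p.2))
      rw [h3, kB_place _ _ (Can.nonempty h1), place_can, L.kB _ _ hne,
        kB_place _ _ (Can.nonempty hi.1.1.1.1)]
    · exact (map_one _).symm
    · exact (map_one _).symm
    · exact isEmptyElim k

end cov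

/-! ### the plane -/

section plane

open Crest.Agent.R165.Gr0x606 Crest.Agent.R165.Gr1x606 Crest.Agent.R165.GeOpsx337
open Crest.Agent.R165.GDefx387 Crest.Agent.R165.GSysx387 Crest.Agent.R165.KFlowx337
open Crest.Agent.R165.PlaneModesx901 Crest.Agent.R165.PlaneSumx901 Crest.Agent.R165.WtD4x898
open Crest.Agent.R165.KInitx892 Crest.Agent.R165.Bkgx683 Crest.Agent.R165.FlowD4x898
open Crest.Agent.R165.Latx683 (xc wPl Fld)

variable {V' : Type*} [AddCommGroup V'] [Module ℝ V']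

theorem bi_smul2 (a c : ℝ) (x y : V') : bi (a • x) (c • y) = (a * c) • bi x y := by
  apply ge_ext
  rw [coe_bi, Ge.coe_smul, coe_bi, fi_smul, fi_smul, smul_mul_smul_comm]

theorem bi_swap (x y : V') : bi x y = -bi y x := by
  apply ge_ext
  rw [Ge.coe_neg, coe_bi, coe_bi, fi_anti]

theorem revG_bi (x y : V') : revG (bi x y) = -bi x y := by
  apply ge_ext
  rw [coe_revG, coe_bi, Locx901.rev'_mul, Locx901.rev'_fi, Locx901.rev'_fi, Ge.coe_neg, coe_bi,
    fi_anti]

theorem mpG_push_bi (p : Latx683.HE ℤ → Latx683.HE ℤ) (s : Latx683.HE ℤ → ℝ)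
    (h k : Latx683.HE ℤ) :
    mpG (push p s) (bi (Finsupp.single h 1) (Finsupp.single k 1)) =
      (s h * s k) • bi (Finsupp.single (p h) 1) (Finsupp.single (p k) 1) := by
  rw [mpG_bi, push_single, push_single, bi_smul2]

theorem I4_six {G : Type} [CommRing G] (ι : Fld G →ₗ[ℝ] V') (f : G × G) :
    (frG ι).I4 f =
      bi (ι (Finsupp.single (f, 0) 1)) (ι (Finsupp.single (f, 1) 1)) +
      bi (ι (Finsupp.single (f, 0) 1)) (ι (Finsupp.single (f, 2) 1)) +
      bi (ι (Finsupp.single (f, 0) 1)) (ι (Finsupp.single (f, 3) 1)) +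
      bi (ι (Finsupp.single (f, 1) 1)) (ι (Finsupp.single (f, 2) 1)) +
      bi (ι (Finsupp.single (f, 1) 1)) (ι (Finsupp.single (f, 3) 1)) +
      bi (ι (Finsupp.single (f, 2) 1)) (ι (Finsupp.single (f, 3) 1)) := by
  have h : (Finset.univ : Finset (Fin 4 × Fin 4)).filter (fun p => p.1 < p.2) =
      {(0, 1), (0, 2), (0, 3), (1, 2), (1, 3), (2, 3)} := by decide
  rw [frG_I4, h, Finset.sum_insert (by decide), Finset.sum_insert (by decide),
    Finset.sum_insert (by decide), Finset.sum_insert (by decide), Finset.sum_insert (by decide),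
    Finset.sum_singleton]
  ring

theorem tau_b (t : ℤ × ℤ) (e : Ed) :
    mpG (tauV t) ((frG (G := ℤ) LinearMap.id).b e) = (frG LinearMap.id).b ((lTr t).E e) := by
  rw [frG_b, frG_b]
  change mpG (push (tauH t) fun _ => 1) (bi (Finsupp.single (pe e) 1) (Finsupp.single (qe e) 1)) =
    bi (Finsupp.single (pe (trEd t e)) 1) (Finsupp.single (qe (trEd t e)) 1)
  rw [mpG_push_bi, one_mul, one_smul]
  obtain ⟨z, j⟩ := e
  rcases fin2 j with rfl | rfl
  · unfold trEd tauH
    rw [pe_zero, pe_zero, qe_zero, qe_zero]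
    dsimp only
    rw [add_sub_right_comm]
  · unfold trEd tauH
    rw [pe_one, pe_one, qe_one, qe_one]
    dsimp only
    rw [add_sub_right_comm]

theorem tau_I4 (t : ℤ × ℤ) (f : ℤ × ℤ) :
    mpG (tauV t) ((frG (G := ℤ) LinearMap.id).I4 f) = (frG LinearMap.id).I4 ((lTr t).ψ f) := by
  rw [I4_six, I4_six]
  change mpG (push (tauH t) fun _ => 1) _ = _
  simp only [map_add, LinearMap.id_apply, mpG_push_bi, one_mul, one_smul]
  rfl

theorem rho_b (e : Ed) :
    mpG (rhoV 0) ((frG (G := ℤ) LinearMap.id).b e) = (frG LinearMap.id).b (lRho.E e) := by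
  rw [frG_b, frG_b]
  change mpG (push (rhoH 0) rhoSgn)
    (bi (Finsupp.single (pe e) 1) (Finsupp.single (qe e) 1)) =
    bi (Finsupp.single (pe (lRho.E e)) 1) (Finsupp.single (qe (lRho.E e)) 1)
  rw [mpG_push_bi]
  obtain ⟨⟨x, y⟩, j⟩ := e
  rcases fin2 j with rfl | rfl
  · have h : lRho.E ((x, y), 0) = ((-y + 1, x), 1) := by
      change trEd (1, 0) (rotEd ((x, y), 0)) = _
      simp [trEd, rotEd, rotate]
    have h1 : (rhoH 0 (pe (((x, y), 0) : Ed)) : Latx683.HE ℤ) = pe (((-y + 1, x), 1) : Ed) := by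
      rw [pe_zero, pe_one]; simp [rhoH, rot]
    have h2 : (rhoH 0 (qe (((x, y), 0) : Ed)) : Latx683.HE ℤ) = qe (((-y + 1, x), 1) : Ed) := by
      rw [qe_zero, qe_one]; simp [rhoH, rot]; ring
    have h3 : rhoSgn (pe (((x, y), 0) : Ed)) * rhoSgn (qe (((x, y), 0) : Ed)) = 1 := by
      rw [pe_zero, qe_zero]; simp [rhoSgn]
    rw [h, h1, h2, h3, one_smul]
  · have h : lRho.E ((x, y), 1) = ((-y, x), 0) := by
      change trEd (1, 0) (rotEd ((x, y), 1)) = _
      simp [trEd, rotEd, rotate]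
    have h1 : (rhoH 0 (pe (((x, y), 1) : Ed)) : Latx683.HE ℤ) = qe (((-y, x), 0) : Ed) := by
      rw [pe_one, qe_zero]; simp [rhoH, rot]
    have h2 : (rhoH 0 (qe (((x, y), 1) : Ed)) : Latx683.HE ℤ) = pe (((-y, x), 0) : Ed) := by
      rw [qe_one, pe_zero]; simp [rhoH, rot]
    have h3 : rhoSgn (pe (((x, y), 1) : Ed)) * rhoSgn (qe (((x, y), 1) : Ed)) = -1 := by
      rw [pe_one, qe_one]; simp [rhoSgn]
    rw [h, h1, h2, h3, neg_one_smul, ← bi_swap]

theorem rho_I4 (f : ℤ × ℤ) :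
    mpG (rhoV 0) ((frG (G := ℤ) LinearMap.id).I4 f) = (frG LinearMap.id).I4 (lRho.ψ f) := by
  rw [I4_six, I4_six]
  change mpG (push (rhoH 0) rhoSgn) _ = _
  have h0 : rot 0 f = lRho.ψ f := by
    change rot 0 f = rF f + (1, 0)
    obtain ⟨x, y⟩ := f
    simp [rot, rF]
  simp only [map_add, LinearMap.id_apply, mpG_push_bi]
  simp only [rhoH, rhoSgn, h0, Matrix.cons_val_zero, Matrix.cons_val_one, Matrix.cons_val,
    one_mul, mul_one, mul_neg, one_smul, neg_smul]
  rw [← bi_swap, ← bi_swap, ← bi_swap]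
  ring

theorem sig_b (e : Ed) :
    revG (mpG (sigV 0) ((frG (G := ℤ) LinearMap.id).b e)) = (frG LinearMap.id).b (lSig.E e) := by
  rw [frG_b, frG_b]
  change revG (mpG (push (sigH 0) sigSgn)
    (bi (Finsupp.single (pe e) 1) (Finsupp.single (qe e) 1))) =
    bi (Finsupp.single (pe (lSig.E e)) 1) (Finsupp.single (qe (lSig.E e)) 1)
  rw [mpG_push_bi, map_smul, revG_bi]
  obtain ⟨⟨x, y⟩, j⟩ := e
  rcases fin2 j with rfl | rfl
  · have h : lSig.E ((x, y), 0) = ((-x, y), 0) := by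
      change trEd (1, 0) (rotEd (rotEd (refEd ((x, y), 0)))) = _
      simp [trEd, rotEd, refEd, rotate, reflect]
    have h1 : (sigH 0 (pe (((x, y), 0) : Ed)) : Latx683.HE ℤ) = pe (((-x, y), 0) : Ed) := by
      rw [pe_zero, pe_zero]; simp [sigH, ref]
    have h2 : (sigH 0 (qe (((x, y), 0) : Ed)) : Latx683.HE ℤ) = qe (((-x, y), 0) : Ed) := by
      rw [qe_zero, qe_zero]; simp [sigH, ref]
    have h3 : sigSgn (pe (((x, y), 0) : Ed)) * sigSgn (qe (((x, y), 0) : Ed)) = -1 := by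
      rw [pe_zero, qe_zero]; simp [sigSgn]
    rw [h, h1, h2, h3, neg_one_smul, neg_neg]
  · have h : lSig.E ((x, y), 1) = ((-x + 1, y), 1) := by
      change trEd (1, 0) (rotEd (rotEd (refEd ((x, y), 1)))) = _
      simp [trEd, rotEd, refEd, rotate, reflect]
    have h1 : (sigH 0 (pe (((x, y), 1) : Ed)) : Latx683.HE ℤ) = qe (((-x + 1, y), 1) : Ed) := by
      rw [pe_one, qe_one]; simp [sigH, ref]; ring
    have h2 : (sigH 0 (qe (((x, y), 1) : Ed)) : Latx683.HE ℤ) = pe (((-x + 1, y), 1) : Ed) := by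
      rw [qe_one, pe_one]; simp [sigH, ref]
    have h3 : sigSgn (pe (((x, y), 1) : Ed)) * sigSgn (qe (((x, y), 1) : Ed)) = 1 := by
      rw [pe_one, qe_one]; simp [sigSgn]
    rw [h, h1, h2, h3, one_smul, ← bi_swap]

theorem sig_I4 (f : ℤ × ℤ) :
    revG (mpG (sigV 0) ((frG (G := ℤ) LinearMap.id).I4 f)) =
      (frG LinearMap.id).I4 (lSig.ψ f) := by
  rw [I4_six, I4_six]
  change revG (mpG (push (sigH 0) sigSgn) _) = _
  have h0 : ref 0 f = lSig.ψ f := by
    change ref 0 f = rF (rF (gF f)) + (1, 0)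
    obtain ⟨x, y⟩ := f
    simp [ref, rF, gF]
  simp only [map_add, LinearMap.id_apply, mpG_push_bi, map_smul, revG_bi]
  simp only [sigH, sigSgn, h0, Matrix.cons_val_zero, Matrix.cons_val_one, Matrix.cons_val,
    one_mul, mul_one, mul_neg, one_smul, neg_smul, neg_neg]
  rw [← bi_swap, ← bi_swap, ← bi_swap]
  ring

variable {κ : Type} [DecidableEq κ] [Fintype κ]

theorem rot0_eq : (rot 0 : ℤ × ℤ → ℤ × ℤ) = lRho.ψ := by
  funext f
  change rot 0 f = rF f + (1, 0)
  obtain ⟨x, y⟩ := f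
  simp [rot, rF]

theorem ref0_eq : (ref 0 : ℤ × ℤ → ℤ × ℤ) = lSig.ψ := by
  funext f
  change ref 0 f = rF (rF (gF f)) + (1, 0)
  obtain ⟨x, y⟩ := f
  simp [ref, rF, gF]

/-- **the initial activities of a homogeneous background have the symmetries of the plane** -/
theorem plSym_hom [IsEmpty κ] {B : Bk ℤ κ (Ge (Fld ℤ))} {y0 s0 : ℝ} (hB : Hom B y0 s0)
    (hr : ∀ S, B.t (rB S) = B.t S) (hf : ∀ S, B.t (fB S) = B.t S) :
    PlSym fun U => ((B.K0 (frG LinearMap.id) U : Ge (Fld ℤ)) : Gr (Fld ℤ)) := by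
  refine plSym_iff.2 ?_
  rintro c (⟨t, rfl⟩ | rfl | rfl) U
  · rw [gTau_Φ]
    exact K0_lsym hB (lTr t) (fun S => hB.tT S t) (mpG (tauV t)) (tau_b t) (tau_I4 t) U
  · rw [gRho_Φ, gRho_φ, rot0_eq]
    exact K0_lsym hB lRho (fun S => (hB.tT _ _).trans (hr S)) (mpG (rhoV 0)) rho_b rho_I4 U
  · rw [gSig_Φ, gSig_φ, ref0_eq]
    exact K0_lsym hB lSig (fun S => (hB.tT _ _).trans ((hr _).trans ((hr _).trans (hf S))))
      (revG.comp (mpG (sigV 0))) sig_b sig_I4 U

/-! ### the potential -/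

theorem isNN_of_image {B : Finset (ℤ × ℤ)} (L : LSym) (hL : ∀ e : Ed, pr (L.E e) = L.β (pr e)) :
    IsNN (L.β B) ↔ IsNN B := by
  constructor
  · rintro ⟨e, he⟩
    obtain ⟨e', rfl⟩ := L.E_surj e
    exact ⟨e', L.β_inj (he.trans (hL e'))⟩
  · rintro ⟨e, rfl⟩
    exact ⟨L.E e, (hL e).symm⟩

theorem tpot_lsym {J lam β : ℝ} {V : Finset (ℤ × ℤ) → ℝ} (L : LSym)
    (hL : ∀ e : Ed, pr (L.E e) = L.β (pr e)) (hV : ∀ B, V (L.β B) = V B) (B : Finset (ℤ × ℤ)) :
    tpot J lam β V (L.β B) = tpot J lam β V B := by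
  classical
  unfold tpot
  rw [hV]
  congr 2
  by_cases h : IsNN B
  · rw [if_pos h, if_pos ((isNN_of_image L hL).2 h)]
  · rw [if_neg h, if_neg fun h' => h ((isNN_of_image L hL).1 h')]

theorem hom_pl {J lam β z : ℝ} {R : ℕ} {V : Finset (ℤ × ℤ) → ℝ} (hT : TrInv V) (hR : Rng R V)
    (src : Srcs κ ℤ (Ge (Fld ℤ))) :
    Hom (Bg.pl.bk (mpar J lam R V β z) src) xc (Real.sqrt (1 + z)) where
  y _ := rfl
  s f := by
    show Bg.sc _ _ f = _
    exact if_pos trivial
  ok _ _ := trivial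
  tT B t := tpot_lsym (lTr t) (fun e => pr_trEd t e) (fun B => hT B t) B
  tR := J4Lnkx653.tpot_rng hR

/-- **PlSym of the initial activities of the plane** (hard core form) -/
theorem K00_plSym {J lam β z : ℝ} {R : ℕ} {V : Finset (ℤ × ℤ) → ℝ} (hT : TrInv V) (hR : Rng R V)
    (hr : ∀ S, V (rB S) = V S) (hf : ∀ S, V (fB S) = V S) :
    PlSym fun U => ((Bg.pl.K00 (mpar J lam R V β z) LinearMap.id (noSrc ℤ (Ge (Fld ℤ))) U :
      Ge (Fld ℤ)) : Gr (Fld ℤ)) :=
  plSym_hom (hom_pl hT hR _) (tpot_lsym lRot (fun e => pr_rotEd e) hr)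
    (tpot_lsym lRef (fun e => pr_refEd e) hf)

/-- **PlSym of the initial activities of the plane** (reclustered) -/
theorem K0_plSym {J lam β z : ℝ} {R : ℕ} {V : Finset (ℤ × ℤ) → ℝ} (hT : TrInv V) (hR : Rng R V)
    (hr : ∀ S, V (rB S) = V S) (hf : ∀ S, V (fB S) = V S) (l k0 : ℕ) :
    PlSym fun U => ((Bg.pl.K0 (mpar J lam R V β z) LinearMap.id (noSrc ℤ (Ge (Fld ℤ))) l k0 U :
      Ge (Fld ℤ)) : Gr (Fld ℤ)) := by
  refine plSym_KK (fun c _ a b => c.φ.injective.eq_iff) (fun c _ a b => ?_)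
    (K00_plSym hT hR hr hf) ?_
  · unfold near
    rw [c.iso]
  · refine plSym_iff.2 fun c _ U => ?_
    exact map_zero _

end plane

end Crest.Agent.R165.J4K0Symx126
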