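import Crest.Agent.R165.Comp5_889
import Crest.Agent.R165.J4K0Sym_126
import Crest.Agent.R165.TorNorm2_583
import Crest.Agent.R165.Red_541

/-!
# Row 165 (S0250): the plane flow with growing amplitudes, no hypothesis left (helper117)

* `plB : VHyp R V → PlB J R V` (889's `plane_P8` with 126's `K0_plSym`)
-/

set_option autoImplicit false

noncomputable section

open Finset
open Crest.ProbabilityR.IsingModel
open Crest.Agent.R165.Topx683 (VHyp)
open Crest.Agent.R165.TorNorm2x583 (PlB)

namespace Crest.Agent.R165.PlBx117

/-- **(P8), the plane**, for the perturbations of S0250 -/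
theorem plB {J : ℝ} {R : ℕ} {V : Finset (ℤ × ℤ) → ℝ} (hV : VHyp R V) : PlB J R V :=
  Compx889.plane_P8 J R V fun _ _ _ l k0 =>
    J4K0Symx126.K0_plSym (fun A z => hV.trans A z) (fun A h => hV.range A h)
      (fun S => hV.rot S) (fun S => hV.refl S) l k0

end Crest.Agent.R165.PlBx117
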