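import Crest.Agent.R165.J4Lnk2_653
import Crest.Agent.R165.J4K0_126
import Crest.Agent.R165.SrcDef_991

/-!
# Row 165 (S0250), block J4: sources (helper653)

* `coP_tauP`, `coP_sum` : coefficients of `∑_J tauP J * inG (c J)`
* `THA_src` : `THA` of `P * ∏_k (1 + tau_k F_k)`
* `frV` : the frame of the fields, `frS` : the frame with `m` sources
* `K0_plain` : `ZZ (=) Λ K0 = TH g PΛ * M` without sources
* `K0_src`   : `ZZ (=) Λ K0 = ∑_I tauP I * inG (TH g (PΛ * ∏_I F) * M)` with sources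
-/

set_option autoImplicit false

noncomputable section

open Finset
open Crest.ProbabilityR.IsingModel

namespace Crest.Agent.R165.J4Lnkx653

open Crest.Agent.R165.J4Defx653 Crest.Agent.R165.J4RRx653 Crest.Agent.R165.J4RRAx653
  Crest.Agent.R165.J4Pathx653
open Crest.Agent.R165.Gr0x606 Crest.Agent.R165.Gr1x606 Crest.Agent.R165.J1ax606
open Crest.Agent.R165.GeOpsx337 Crest.Agent.R165.SrcDefx991
open Crest.Agent.R165.J4K0x126 Crest.Agent.R165.J4Geox126
open Crest.Agent.R165.KStepx892 (ZZ)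

/-! ### coefficients of the sources -/

section src

variable {V : Type*} [AddCommGroup V] [Module ℝ V] {m : ℕ}










/-! ### `THA` with sources -/

variable {E : Type*}

theorem THA_src (g : E → Ge V) (P : RR E) (F : Fin m → RR E) (K : Finset (Fin m)) :
    THA (fun e => inG m (g e)) (ofR (Ge (VS V m)) P *
        ∏ k ∈ K, (1 + CA (tau k) * ofR (Ge (VS V m)) (F k))) =
      ∑ I ∈ K.powerset, tauP I * inG m (TH g (P * ∏ k ∈ I, F k)) := by
  rw [Finset.prod_one_add, Finset.mul_sum, map_sum]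
  refine Finset.sum_congr rfl fun I _ => ?_
  have h1 : (∏ k ∈ I, (CA (tau k) * ofR (Ge (VS V m)) (F k)) : RA (Ge (VS V m)) E) =
      CA (tauP I) * ofR (Ge (VS V m)) (∏ k ∈ I, F k) := by
    rw [Finset.prod_mul_distrib, map_prod, tauP]
    congr 1
    exact (map_prod (algebraMap (Ge (VS V m)) (RA (Ge (VS V m)) E)) _ _).symm
  have h2 : ofR (Ge (VS V m)) P * (CA (tauP I) * ofR (Ge (VS V m)) (∏ k ∈ I, F k)) =
      (CA (tauP I) * ofR (Ge (VS V m)) (P * ∏ k ∈ I, F k) : RA (Ge (VS V m)) E) := by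
    rw [map_mul]; ring
  rw [h1, h2, THA_CA_mul, THA_ofR, TH_algHom (inG m)]

end src

/-! ### frames and backgrounds -/

section K0

variable {G : Type} [CommRing G] [DecidableEq G] {m : ℕ}

/-- the intra-face form `∑_{a<b} φ_a φ_b = ½ φ A₀ φ` -/
def I4 (f : G × G) : Ge (VI (HE G)) :=
  ∑ p ∈ (univ : Finset (Fin 4 × Fin 4)).filter (fun p => p.1 < p.2),
    bi (Finsupp.single (f, p.1) 1) (Finsupp.single (f, p.2) 1)

/-- the frame of the fields -/
def frV (G : Type) [CommRing G] [DecidableEq G] : Fr G (Ge (VI (HE G))) := ⟨bb, I4⟩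

/-- the frame with sources -/
def frS (G : Type) [CommRing G] [DecidableEq G] (m : ℕ) : Fr G (Ge (VS (VI (HE G)) m)) :=
  ⟨fun e => inG m (bb e), fun f => inG m (I4 f)⟩

/-- the rescaled image of a bond variable -/
def gs (y : EG G → ℝ) (s : G × G → ℝ) (e : EG G) : Ge (VI (HE G)) :=
  1 - (2 * (y e * (s (pe e).1 * s (qe e).1))) • bb e

/-- the factor of the faces in `Λ` and of the bonds inside `Λ` -/
def Ms (y : EG G → ℝ) (s : G × G → ℝ) (Λ : Finset (G × G)) : Ge (VI (HE G)) :=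
  (∏ f ∈ Λ, (1 + ((s f * s f - 1) • I4 f + ((s f * s f - 1) ^ 2 / 2) • (I4 f * I4 f)))) *
    ∏ e ∈ Bk.edg Λ, (1 + (y e * (s (pe e).1 * s (qe e).1 - 1)) • bb e)

/-- the product of the shapes inside `Λ` -/
def PL {κ : Type*} {A : Type*} [CommRing A] [Algebra ℝ A] (B : Bk G κ A) (Λ : Finset (G × G)) :
    RR (EG G) := ∏ p ∈ B.shp Λ, (1 + em (ez p.1) (kB (B.t p.2) p.2))

/-- **no sources** -/
theorem K0_plain {κ : Type*} [DecidableEq κ] [Fintype κ] [IsEmpty κ] (B : Bk G κ (Ge (VI (HE G))))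
    (Λ : Finset (G × G)) :
    ZZ (fun a b : G × G => a = b) Λ (B.K0 (frV G)) = TH (gs B.y B.s) (PL B Λ) * Ms B.y B.s Λ := by
  rw [← B.K0_ZZ (frV G) Λ]
  have h1 : B.srcs Λ = ∅ := by
    ext k; exact isEmptyElim k
  rw [h1, Finset.prod_empty, mul_one, Ms, mul_assoc]
  congr 1
  have h2 : (∏ p ∈ B.shp Λ, (1 + ofR (Ge (VI (HE G))) (em (ez p.1) (kB (B.t p.2) p.2))) :
      RA (Ge (VI (HE G))) (EG G)) = ofR (Ge (VI (HE G))) (PL B Λ) := by
    rw [PL, map_prod]
    refine Finset.prod_congr rfl fun p _ => ?_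
    rw [map_add, map_one]
  rw [h2, THA_ofR]
  rfl

/-- **with sources** -/
theorem K0_src (B : Bk G (Fin m) (Ge (VS (VI (HE G)) m))) (hB : B.as = tau) (Λ : Finset (G × G)) :
    ZZ (fun a b : G × G => a = b) Λ (B.K0 (frS G m)) =
      ∑ I ∈ (B.srcs Λ).powerset, tauP I *
        inG m (TH (gs B.y B.s) (PL B Λ * ∏ k ∈ I, B.Fs k) * Ms B.y B.s Λ) := by
  rw [← B.K0_ZZ (frS G m) Λ, hB]
  have h2 : (∏ p ∈ B.shp Λ, (1 + ofR (Ge (VS (VI (HE G)) m)) (em (ez p.1) (kB (B.t p.2) p.2))) :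
      RA (Ge (VS (VI (HE G)) m)) (EG G)) = ofR (Ge (VS (VI (HE G)) m)) (PL B Λ) := by
    rw [PL, map_prod]
    refine Finset.prod_congr rfl fun p _ => ?_
    rw [map_add, map_one]
  have hg : B.g (frS G m) = fun e => inG m (gs B.y B.s e) := by
    funext e
    unfold Bk.g gs frS
    rw [map_sub, map_one, map_smul]
  have hM : (∏ f ∈ Λ, (1 + (B.cI f • (frS G m).I4 f + (B.cI f ^ 2 / 2) •
        ((frS G m).I4 f * (frS G m).I4 f)))) *
      (∏ e ∈ Bk.edg Λ, (1 + (B.y e * (B.s (pe e).1 * B.s (qe e).1 - 1)) • (frS G m).b e)) =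
      inG m (Ms B.y B.s Λ) := by
    unfold Ms frS
    simp only [map_mul, map_prod, map_add, map_one, map_smul]
    rfl
  rw [h2, hg, THA_src, mul_assoc, hM, Finset.sum_mul]
  refine Finset.sum_congr rfl fun I _ => ?_
  rw [map_mul (inG m), mul_assoc]


end K0

/-! ### domains: the product of the shapes is the perturbation -/

theorem ez_eq_trEd (u : ℤ × ℤ) : (ez u : Ed → EG ℤ) = trEd u := by
  funext e
  unfold ez fz cz trEd
  rw [Prod.mk.injEq]
  refine ⟨?_, rfl⟩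
  rw [add_comm]
  simp

open Classical in
theorem PL_dom {κ : Type*} {A : Type*} [CommRing A] [Algebra ℝ A] (B : Bk ℤ κ A)
    (T : Finset (ℤ × ℤ)) (b : BoundaryCondition) (hok : ∀ u S, B.ok u S ↔ tr S u ∈ BB T b B.R)
    (ht : TrInv B.t) (hr : Rng B.R B.t) (hev : ∀ S, B.t S ≠ 0 → Even S.card)
    (Λ : Finset (ℤ × ℤ)) (hΛ : ∀ S ∈ BB T b B.R, Yf S ⊆ Λ) :
    PL B Λ = GT T b B.R B.t := by
  rw [GT_prod T b B.R B.t ht hr, Finset.prod_sigma', PL]
  symm
  refine Finset.prod_bij_ne_one (fun p _ _ => (p.1, p.2)) ?_ ?_ ?_ ?_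
  · rintro ⟨u, S⟩ h hne
    simp only [mem_sigma, mem_filter] at h
    rw [Bk.mem_shp]
    refine ⟨⟨⟨h.2.1, ?_⟩, (hok u S).2 h.2.2⟩, ?_⟩
    · by_contra hodd
      apply hne
      dsimp only
      have : B.t S = 0 := by
        by_contra h0
        exact hodd (hev S h0)
      rw [this, kB_zero, map_zero, add_zero]
    · have h1 := hΛ _ h.2.2
      rw [Yf_tr] at h1
      have h2 : (fun f : ℤ × ℤ => f + u) = fz u := by
        funext f; unfold fz cz; rw [add_comm]; simp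
      rwa [h2] at h1
  · rintro ⟨u, S⟩ _ _ ⟨u', S'⟩ _ _ heq
    simp only [Prod.mk.injEq] at heq
    obtain ⟨rfl, rfl⟩ := heq
    rfl
  · rintro ⟨u, S⟩ h _
    rw [Bk.mem_shp] at h
    refine ⟨⟨u, S⟩, ?_, ?_, rfl⟩
    · simp only [mem_sigma, mem_filter]
      have h1 := (hok u S).1 h.1.2
      refine ⟨?_, h.1.1.1, h1⟩
      refine (mem_BB.1 h1).1 ?_
      rw [mem_tr]
      simpa using (mem_Can.1 h.1.1.1).2.1
    · rwa [← ez_eq_trEd]
  · rintro ⟨u, S⟩ _ _
    dsimp only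
    rw [ez_eq_trEd]

end Crest.Agent.R165.J4Lnkx653
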