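import Crest.Agent.R165.Resc_599
import Crest.Agent.R165.TorBr_599
import Crest.Agent.R165.J4Lnk3_653
import Crest.Agent.R165.TorChart_723
import Crest.Agent.R165.PPd_63
import Crest.Agent.R165.KInit_892

/-!
# Row 165 (S0250), torus, leaf T6: the representation of the torus sums (helper599)

* `bkR w ρ ok t R τ S f₀` : the background data with one real source `1 + τ eps_S` (any lattice)
* `K0_real`  : `ZZ (=) Λ K0 = TH g (PL * (1 + τ F)) * Ms` with real amplitudes
* `sec_wTor` : the sectors are the backgrounds `wTor` of 723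
* `ZS_rep`   : `ZS s (GTor (1 + τ eps_S)) = ρ^(-4 M²) ZE (ZZ (=) univ K0)`
* `ZS_nz`    : `s ≠ (0,0)`: `... = c EEG (covS S) (ZZ (near 0) univ (K1 K0))`
* `ZS_PP`    : the doubly periodic sector
-/

set_option autoImplicit false
set_option linter.unusedSectionVars false

noncomputable section

open Finset
open Crest.ProbabilityR.IsingModel

namespace Crest.Agent.R165.TorRepx599

open Crest.Agent.R165.Gr0x606 Crest.Agent.R165.Gr1x606 Crest.Agent.R165.J1ax606
open Crest.Agent.R165.J1bx606 Crest.Agent.R165.J2ax606 Crest.Agent.R165.J2bx606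
open Crest.Agent.R165.GeOpsx337 Crest.Agent.R165.J4Defx653 Crest.Agent.R165.J4RRx653
open Crest.Agent.R165.J4RRAx653 Crest.Agent.R165.J4Pathx653 Crest.Agent.R165.J4Lnkx653
open Crest.Agent.R165.J4K0x126 Crest.Agent.R165.J4Geox126
open Crest.Agent.R165.KStepx892 (ZZ)
open Crest.Agent.R165.TorusCombx922 Crest.Agent.R165.TorusJ1x922 Crest.Agent.R165.TorusJ2x922
open Crest.Agent.R165.TorChartx723 (wTor)
open Crest.Agent.R165.PPdx63 (ZS)
open Crest.Agent.R165.Latx683 (BW xc)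

section any
variable {G : Type} [CommRing G] [DecidableEq G]

theorem I4_eq (f : G × G) : J4Lnkx653.I4 f = Rescx599.I4 f := by
  unfold J4Lnkx653.I4 Rescx599.I4 Rescx599.q4
  rw [sum_filter, Fintype.sum_prod_type]
  simp only [Fin.sum_univ_four]
  simp
  abel

theorem Ms_eq (y : EG G → ℝ) (s : G × G → ℝ) (Λ : Finset (G × G)) :
    Ms y s Λ = Rescx599.mF y Λ s := by
  unfold Ms Rescx599.mF
  simp only [I4_eq]

theorem gs_eq (y : EG G → ℝ) (s : G × G → ℝ) : J4Lnkx653.gs y s = Rescx599.gs y s := rfl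





variable {κ : Type*} [DecidableEq κ] [Fintype κ]

/-- **real sources** -/
theorem K0_real (B : Bk G κ (Ge (VI (HE G)))) (τ : κ → ℝ) (hτ : ∀ k, B.as k = algebraMap ℝ _ (τ k))
    (Λ : Finset (G × G)) :
    ZZ (fun a b : G × G => a = b) Λ (B.K0 (frV G)) =
      Ms B.y B.s Λ * TH (J4Lnkx653.gs B.y B.s) (PL B Λ * ∏ k ∈ B.srcs Λ, (1 + τ k • B.Fs k)) := by
  rw [← B.K0_ZZ (frV G) Λ]
  have h2 : (∏ p ∈ B.shp Λ, (1 + ofR (Ge (VI (HE G))) (em (ez p.1) (kB (B.t p.2) p.2))) :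
      RA (Ge (VI (HE G))) (EG G)) = ofR (Ge (VI (HE G))) (PL B Λ) := by
    rw [PL, map_prod]
    refine Finset.prod_congr rfl fun p _ => ?_
    rw [map_add, map_one]
  have h3 : (∏ k ∈ B.srcs Λ, (1 + CA (B.as k) * ofR (Ge (VI (HE G))) (B.Fs k)) :
      RA (Ge (VI (HE G))) (EG G)) =
      ofR (Ge (VI (HE G))) (∏ k ∈ B.srcs Λ, (1 + τ k • B.Fs k)) := by
    rw [map_prod]
    refine Finset.prod_congr rfl fun k _ => ?_
    rw [map_add, map_one, ofR_smul, hτ, CA_mul]
  rw [h2, h3, ← map_mul, THA_ofR, mul_comm (Ms B.y B.s Λ), Ms, ← mul_assoc]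
  rfl


end any

/-! ### the torus -/

section tor
variable (M : ℕ) [NeZero M]

/-- sign of a sector component -/
def eS (i : Fin 2) : ℝ := if i = 0 then 1 else -1

theorem eS_sq (i : Fin 2) : eS i * eS i = 1 := by unfold eS; split_ifs <;> norm_num

theorem sec_wTor (s : Fin 2 × Fin 2) : (fun (z : ZMod M × ZMod M) (j : Fin 2) => sec s (z, j) * xc) =
    wTor M (eS s.2) (eS s.1) := by
  funext z j
  have hj : j = 0 ∨ j = 1 := by omega
  rcases hj with rfl | rfl
  · simp [sec, seam, wTor, eS]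
  · simp [sec, seam, wTor, eS]

theorem sy_wTor (s : Fin 2 × Fin 2) : (sy s (fun _ => xc) : Ed M → ℝ) =
    fun e => wTor M (eS s.2) (eS s.1) e.1 e.2 := by
  funext e
  have h := congrFun (congrFun (sec_wTor M s) e.1) e.2
  exact h


/-- the shapes on the torus -/
theorem PL_tor {κ : Type*} {A : Type*} [CommRing A] [Algebra ℝ A] (B : Bk (ZMod M) κ A)
    (hok : ∀ u S, B.ok u S) (hev : ∀ S, B.t S ≠ 0 → Even S.card) :
    PL B univ = GTor M B.R B.t := by
  classical
  unfold PL GTor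
  have h1 : ∏ u : ZMod M × ZMod M, ∏ S ∈ Can B.R, (1 + em (torEd M u) (kB (B.t S) S)) =
      ∏ p ∈ (univ : Finset (ZMod M × ZMod M)) ×ˢ Can B.R,
        (1 + em (torEd M p.1) (kB (B.t p.2) p.2)) := by
    rw [prod_product]
  rw [h1]
  refine prod_subset ?_ ?_
  · intro p hp
    rw [Bk.mem_shp] at hp
    exact mem_product.2 ⟨mem_univ _, hp.1.1.1⟩
  · intro p hp hp'
    have h2 : B.t p.2 = 0 := by
      by_contra h0
      apply hp'
      rw [Bk.mem_shp]
      exact ⟨⟨⟨(mem_product.1 hp).2, hev _ h0⟩, hok _ _⟩, subset_univ _⟩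
    rw [h2, kB_zero, map_zero, add_zero]


/-- the Schwinger-Dyson functional of a sector -/
theorem sd_ZE (y : Ed M → ℝ) :
    SD y (E0 ∘ₗ LinearMap.mulLeft ℝ (PE y : Gr (VI (HE (ZMod M))))) := by
  have h := (SD_E0 (G := ZMod M)).edges y univ (fun e h => absurd (mem_univ e) h)
  have e1 : (fun _ : EG (ZMod M) => (0 : ℝ)) + y = y := by
    funext e; rw [Pi.add_apply, zero_add]
  rw [e1] at h
  exact h

/-- **rescaling on the torus** -/
theorem ZE_resc (y : Ed M → ℝ) (ρ : ℝ) (X : RR (Ed M)) :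
    ZE y (Ms y (fun _ => ρ) univ * J4RRx653.TH (J4Lnkx653.gs y fun _ => ρ) X) =
      (ρ ^ 4) ^ (M ^ 2) * ZE y (THG y X) := by
  have h := Rescx599.resc_TH (sd_ZE M y) univ univ (subset_univ _) (fun _ _ => mem_univ _)
    (fun _ => ρ) (fun f hf => absurd (mem_univ f) hf) X
  rw [prod_const, card_univ, Fintype.card_prod, ZMod.card, ← pow_two] at h
  rw [Ms_eq, gs_eq]
  exact h




/-! ### the covariances of the sectors -/

open Crest.Agent.R165.TorDetx599 (wS)
open Matrix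


/-- the matrix and the operator -/
theorem hA_Aop (w : BW (ZMod M)) (φ : Latx683.HE (ZMod M) → ℝ) :
    TorDetx599.hA w *ᵥ φ = Latx683.Aop w φ := by
  ext ⟨f, a⟩
  rw [TorSecx599.hA_mulVec_face]
  have e1 : ∀ x : ZMod M × ZMod M, x + (1, 0) = (x.1 + 1, x.2) := fun x => by ext <;> simp
  have e2 : ∀ x : ZMod M × ZMod M, x + (0, 1) = (x.1, x.2 + 1) := fun x => by ext <;> simp
  have e3 : ∀ x : ZMod M × ZMod M, x - (1, 0) = (x.1 - 1, x.2) := fun x => by ext <;> simp
  have e4 : ∀ x : ZMod M × ZMod M, x - (0, 1) = (x.1, x.2 - 1) := fun x => by ext <;> simp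
  rw [e1, e2, e3, e4]
  fin_cases a
  · simp [Latx683.yN, TorDetx599.sgn4, Fin.sum_univ_four]
  · simp [Latx683.yE, TorDetx599.sgn4, Fin.sum_univ_four]
  · simp [Latx683.yN, TorDetx599.sgn4, Fin.sum_univ_four]
    ring
  · simp [Latx683.yE, TorDetx599.sgn4, Fin.sum_univ_four]
    ring

theorem inv_neg' {n : Type*} [Fintype n] [DecidableEq n] (A : Matrix n n ℝ) :
    (-A)⁻¹ = -A⁻¹ := by
  by_cases h : IsUnit A.det
  · apply Matrix.inv_eq_right_inv
    rw [neg_mul_neg, Matrix.mul_nonsing_inv _ h]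
  · have h2 : ¬ IsUnit (-A).det := by
      rw [isUnit_iff_ne_zero, not_not] at h ⊢
      rw [Matrix.det_neg, h, mul_zero]
    rw [Matrix.nonsing_inv_apply_not_isUnit _ h, Matrix.nonsing_inv_apply_not_isUnit _ h2, neg_zero]

theorem hA_inv_t (w : BW (ZMod M)) : ((TorDetx599.hA w)⁻¹)ᵀ = -(TorDetx599.hA w)⁻¹ := by
  rw [Matrix.transpose_nonsing_inv, TorDetx599.hA_t, inv_neg']

/-- the kernel of an invertible background -/
def kT (w : BW (ZMod M)) (h k : Latx683.HE (ZMod M)) : ℝ := (-(TorDetx599.hA w)⁻¹) h k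

theorem kT_skew (w : BW (ZMod M)) (h k : Latx683.HE (ZMod M)) : kT M w h k = -kT M w k h := by
  unfold kT
  have h1 := hA_inv_t M w
  have h2 := congrFun (congrFun h1 k) h
  rw [Matrix.transpose_apply, Matrix.neg_apply] at h2
  rw [Matrix.neg_apply, Matrix.neg_apply, h2]

theorem kT_inv (w : BW (ZMod M)) (hd : (TorDetx599.hA w).det ≠ 0) (g h' : Latx683.HE (ZMod M)) :
    Latx683.Aop w (fun h => kT M w h h') g = -(Pi.single h' 1 : Latx683.HE (ZMod M) → ℝ) g := by
  rw [← hA_Aop]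
  have h1 : (TorDetx599.hA w) * (-(TorDetx599.hA w)⁻¹) = -1 := by
    rw [mul_neg, Matrix.mul_nonsing_inv _ (isUnit_iff_ne_zero.2 hd)]
  have h2 := congrFun (congrFun h1 g) h'
  rw [Matrix.mul_apply] at h2
  rw [Matrix.mulVec, dotProduct]
  change ∑ k, TorDetx599.hA w g k * (-(TorDetx599.hA w)⁻¹) k h' = _
  rw [h2, Matrix.neg_apply, Matrix.one_apply, Pi.single_apply]

theorem cF_eq (w : BW (ZMod M)) : TorBrx599.cF M (-(TorDetx599.hA w)⁻¹) =
    Latx683.covS (kT M w) (kT_skew M w) := by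
  apply Cov.ext
  apply TorBrx599.form_ext
  intro h k
  rw [TorBrx599.cF_single M ?_]
  · rw [show (Latx683.covS (kT M w) (kT_skew M w)).b = Latx683.formS (kT M w) from rfl,
      Latx683.formS_single]
    rfl
  · rw [Matrix.transpose_neg, hA_inv_t]



/-- the touching relation at distance `R'` -/
def nr (R' : ℕ) (f g : ZMod M × ZMod M) : Prop := GDefx387.fd f g ≤ R'



end tor

end Crest.Agent.R165.TorRepx599
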