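import Crest.Agent.R165.TorNorm2_583
import Crest.Agent.R165.TorK_723
import Crest.Agent.R165.TorRep_599
import Crest.Agent.R165.K0Src_722
import Crest.Agent.R165.TorTan_723

-- ▼ part R165/SrcReal_583

/-!
# Row 165 (S0250): real sources on the torus (helper583)

* `conn_image` : connectedness of the image under a map which does not increase distances
* `conn_rect`, `conn_boxG` : rectangles and boxes are connected by unit steps
* `srcOK_of_isReal`, `srcOK_pr` : `SrcOK` for the real sources of the plane and of the torus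
-/

set_option autoImplicit false
set_option linter.unusedSectionVars false

noncomputable section

open Crest.Agent.R165.Gr0x606 Crest.Agent.R165.Gr1x606 Crest.Agent.R165.GeOpsx337
open Crest.Agent.R165.Latx683 Crest.Agent.R165.GDefx387 Crest.Agent.R165.TorTanx723
open Crest.Agent.R165.Bkgx683 Crest.Agent.R165.TorNorm2x583 Crest.Agent.R165.K0Srcx722
  Crest.Agent.R165.MetGx723

namespace Crest.Agent.R165.SrcRealx583

theorem conn_image {X X' : Type*} [DecidableEq X'] {d : X → X → ℕ} {d' : X' → X' → ℕ} {f : X → X'}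
    (hf : ∀ x y, d' (f x) (f y) ≤ d x y) {R : ℕ} {U : Finset X} (h : Packx915.Conn d R U) :
    Packx915.Conn d' R (U.image f) := by
  classical
  intro A hA hne hneU
  obtain ⟨a, ha, b, hb, hbA, hab⟩ := h (U.filter fun x => f x ∈ A) (Finset.filter_subset _ _)
    (by
      obtain ⟨y, hy⟩ := hne
      obtain ⟨x, hx, rfl⟩ := Finset.mem_image.1 (hA hy)
      exact ⟨x, Finset.mem_filter.2 ⟨hx, hy⟩⟩)
    (by
      intro heq
      apply hneU
      refine Finset.Subset.antisymm hA fun y hy => ?_
      obtain ⟨x, hx, rfl⟩ := Finset.mem_image.1 hy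
      rw [← heq] at hx
      exact (Finset.mem_filter.1 hx).2)
  refine ⟨f a, (Finset.mem_filter.1 ha).2, f b, Finset.mem_image_of_mem _ hb, fun hfb =>
    hbA (Finset.mem_filter.2 ⟨hb, hfb⟩), (hf a b).trans hab⟩



section real

variable {G : Type} [CommRing G] [CN G] [DecidableEq G]

theorem srcOK_of_isReal {src : Srcs (Fin 1) G (Ge (Fld G))} {Y : Finset (G × G)}
    {S : Finset (EG G)} {t : ℝ} (h : IsReal src Y S t) (hY : Packx915.Conn fd 1 Y) {f₀ : G × G}
    (hf : f₀ ∈ Y) : SrcOK src {f₀} where
  real k := ⟨t, by rw [Subsingleton.elim k 0]; exact h.as⟩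
  conn k := by rw [Subsingleton.elim k 0, h.Ys]; exact hY
  mark k _ := ⟨f₀, Finset.mem_singleton_self _, by rw [Subsingleton.elim k 0, h.Ys]; exact hf⟩


end real

end Crest.Agent.R165.SrcRealx583
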