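import Crest.Agent.R161.Gks_375
import Crest.Prelude.Def_PerturbedIsing
import Crest.Agent.R165.Red_541

-- ▼ part R165/Gk0_422
section

/-!
# Row 165 (S0250): Griffiths inequalities for Ising models on finite site sets (helper422)

Sites `V`, bonds `κ` with end points `p q : κ → V`, coupling `K ≥ 0`. A finite set `T` of active sites
(all other spins are `+`) and a finite set `E` of bonds. `minusOn A` is the configuration that is `-`
exactly on `A`.

* `ZZ K p q T E F = ∑_{A ⊆ T} wt(E) F`,  `EX = ZZ F / ZZ 1`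
* `PosV F` : `F` is a positive combination of characters after restriction to every `T`
* `gks` : Griffiths II; `EX_mono_bonds`, `EX_anti_sites`: monotonicity in bonds, antitonicity in sites
* `EX_congr_bonds`, `EX_drop_sites`, `EX_union`: irrelevant bonds / sites, factorisation
-/

set_option autoImplicit false
set_option linter.unusedSectionVars false
set_option linter.unusedVariables false

noncomputable section

open Finset
open Crest.ProbabilityR.IsingModel (spinSign)

namespace Crest.Agent.R165.Gk0x422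

open Crest.Agent.R161

variable {V κ : Type*} [DecidableEq V]

/-! ### configurations -/

/-- the configuration that is minus exactly on `A` -/
def minusOn (A : Finset V) (v : V) : Bool := decide (v ∉ A)

theorem spin_minusOn (A : Finset V) (v : V) :
    spinSign (minusOn A v) = if v ∈ A then -1 else 1 := by
  unfold spinSign minusOn
  by_cases h : v ∈ A <;> simp [h]

theorem spin_sq (b : Bool) : spinSign b * spinSign b = 1 := by
  cases b <;> simp [spinSign]

theorem spin_minusOn_of_mem {A : Finset V} {v : V} (h : v ∈ A) : spinSign (minusOn A v) = -1 := by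
  rw [spin_minusOn, if_pos h]

theorem spin_minusOn_of_notMem {A : Finset V} {v : V} (h : v ∉ A) : spinSign (minusOn A v) = 1 := by
  rw [spin_minusOn, if_neg h]

/-- the configuration of `τ : T → ℤˣ`, plus outside -/
def sOf (T : Finset V) (τ : T → ℤˣ) (v : V) : Bool :=
  if h : v ∈ T then decide (τ ⟨v, h⟩ = 1) else true

/-- the minus set of `τ` -/
def mset (T : Finset V) (τ : T → ℤˣ) : Finset V :=
  (univ.filter fun v : T => τ v ≠ 1).map (Function.Embedding.subtype _)

theorem mem_mset {T : Finset V} {τ : T → ℤˣ} {v : V} :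
    v ∈ mset T τ ↔ ∃ h : v ∈ T, τ ⟨v, h⟩ ≠ 1 := by
  unfold mset
  simp only [mem_map, mem_filter, mem_univ, true_and, Function.Embedding.coe_subtype,
    Subtype.exists, exists_and_right, exists_eq_right]

theorem mset_subset (T : Finset V) (τ : T → ℤˣ) : mset T τ ⊆ T := fun v hv => (mem_mset.1 hv).1

theorem sOf_eq (T : Finset V) (τ : T → ℤˣ) : sOf T τ = minusOn (mset T τ) := by
  funext v
  unfold sOf minusOn
  by_cases h : v ∈ T
  · simp only [h, dif_pos]
    by_cases h2 : τ ⟨v, h⟩ = 1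
    · have : v ∉ mset T τ := by
        rw [mem_mset]; rintro ⟨h3, h4⟩; exact h4 h2
      simp [h2, this]
    · have : v ∈ mset T τ := mem_mset.2 ⟨h, h2⟩
      simp [h2, this]
  · have : v ∉ mset T τ := fun h2 => h (mset_subset T τ h2)
    simp [h, this]

/-- sums over configurations of `T` as sums over subsets -/
theorem sum_sOf (T : Finset V) (G : (V → Bool) → ℝ) :
    ∑ τ : T → ℤˣ, G (sOf T τ) = ∑ A ∈ T.powerset, G (minusOn A) := by
  refine Finset.sum_bij' (fun τ _ => mset T τ)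
    (fun A _ => fun v : T => if (v : V) ∈ A then (-1 : ℤˣ) else 1) ?_ ?_ ?_ ?_ ?_
  · intro τ _
    exact mem_powerset.2 (mset_subset T τ)
  · intro A _; exact mem_univ _
  · intro τ _
    funext v
    by_cases h : (v : V) ∈ mset T τ
    · rw [if_pos h]
      obtain ⟨h1, h2⟩ := mem_mset.1 h
      rcases Int.units_eq_one_or (τ v) with h3 | h3
      · exact absurd h3 h2
      · exact h3.symm
    · rw [if_neg h]
      by_contra h2
      exact h (mem_mset.2 ⟨v.2, fun h3 => h2 h3.symm⟩)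
  · intro A hA
    ext v
    rw [mem_mset]
    constructor
    · rintro ⟨h1, h2⟩
      by_contra h3
      exact h2 (by simp [h3])
    · intro hv
      exact ⟨mem_powerset.1 hA hv, by simp [hv]⟩
  · intro τ _
    rw [sOf_eq]

/-! ### positive and ferromagnetic functions of the full configuration -/

/-- positive combination of characters after restriction to every finite set -/
def PosV (F : (V → Bool) → ℝ) : Prop :=
  ∀ T : Finset V, Gks375.Pos fun τ : T → ℤˣ => F (sOf T τ)

/-- ferromagnetic after restriction to every finite set -/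
def FerroV (F : (V → Bool) → ℝ) : Prop :=
  ∀ T : Finset V, Gks375.Ferro fun τ : T → ℤˣ => F (sOf T τ)

theorem FerroV.pos {F : (V → Bool) → ℝ} (h : FerroV F) : PosV F := fun T => (h T).pos

theorem PosV.const {r : ℝ} (hr : 0 ≤ r) : PosV (fun _ : V → Bool => r) :=
  fun _ => Gks375.Pos.const hr

theorem PosV.mul {F G : (V → Bool) → ℝ} (hF : PosV F) (hG : PosV G) :
    PosV fun s => F s * G s := fun T => (hF T).mul (hG T)

theorem PosV.add {F G : (V → Bool) → ℝ} (hF : PosV F) (hG : PosV G) :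
    PosV fun s => F s + G s := fun T => (hF T).add (hG T)

theorem PosV.congr {F G : (V → Bool) → ℝ} (hF : PosV F) (h : ∀ s, G s = F s) : PosV G :=
  fun T => (hF T).congr fun _ => h _

theorem PosV.prod {ι : Type*} (S : Finset ι) {F : ι → (V → Bool) → ℝ}
    (hF : ∀ k ∈ S, PosV (F k)) : PosV fun s => ∏ k ∈ S, F k s :=
  fun T => Gks375.Pos.prod S fun k hk => hF k hk T

theorem FerroV.mul {F G : (V → Bool) → ℝ} (hF : FerroV F) (hG : FerroV G) :
    FerroV fun s => F s * G s := fun T => (hF T).mul (hG T)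

theorem FerroV.prod {ι : Type*} (S : Finset ι) {F : ι → (V → Bool) → ℝ}
    (hF : ∀ k ∈ S, FerroV (F k)) : FerroV fun s => ∏ k ∈ S, F k s :=
  fun T => Gks375.Ferro.prod S fun k hk => hF k hk T

theorem spin_sOf (T : Finset V) (τ : T → ℤˣ) (v : V) :
    spinSign (sOf T τ v) = if h : v ∈ T then ((τ ⟨v, h⟩ : ℤ) : ℝ) else 1 := by
  unfold sOf
  by_cases h : v ∈ T
  · simp only [h, dif_pos]
    rcases Int.units_eq_one_or (τ ⟨v, h⟩) with h3 | h3 <;> simp [h3, spinSign]
  · simp [h, spinSign]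

theorem PosV.spin (v : V) : PosV fun s => spinSign (s v) := by
  intro T
  by_cases h : v ∈ T
  · refine (Gks375.Pos.spin (⟨v, h⟩ : T)).congr fun τ => ?_
    show spinSign (sOf T τ v) = _
    rw [spin_sOf, dif_pos h]
  · refine (Gks375.Pos.one).congr fun τ => ?_
    show spinSign (sOf T τ v) = _
    rw [spin_sOf, dif_neg h]

theorem exp_spin (K : ℝ) {x : ℝ} (hx : x = 1 ∨ x = -1) :
    Real.exp (K * x) = Real.cosh K + Real.sinh K * x := by
  rcases hx with h | h
  · rw [h, mul_one, mul_one, Real.cosh_add_sinh]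
  · rw [h, mul_neg, mul_neg, mul_one, mul_one, ← sub_eq_add_neg, Real.cosh_sub_sinh]


theorem spin_mul_or (b c : Bool) : spinSign b * spinSign c = 1 ∨ spinSign b * spinSign c = -1 := by
  cases b <;> cases c <;> simp [spinSign]

/-- the pair of spins as a character of `T` -/
theorem pair_chi (T : Finset V) (u v : V) : ∃ S : Finset T, ∀ τ : T → ℤˣ,
    spinSign (sOf T τ u) * spinSign (sOf T τ v) = Gks375.chi S τ := by
  by_cases hu : u ∈ T
  · by_cases hv : v ∈ T
    · by_cases huv : u = v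
      · subst huv
        exact ⟨∅, fun τ => by rw [Gks375.chi_empty, spin_sq]⟩
      · refine ⟨{⟨u, hu⟩, ⟨v, hv⟩}, fun τ => ?_⟩
        have hne : (⟨u, hu⟩ : T) ≠ ⟨v, hv⟩ := fun h => huv (congrArg Subtype.val h)
        rw [spin_sOf, spin_sOf, dif_pos hu, dif_pos hv]
        simp [Gks375.chi, Finset.prod_pair hne]
    · refine ⟨{⟨u, hu⟩}, fun τ => ?_⟩
      rw [spin_sOf, spin_sOf, dif_pos hu, dif_neg hv]
      simp [Gks375.chi]
  · by_cases hv : v ∈ T
    · refine ⟨{⟨v, hv⟩}, fun τ => ?_⟩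
      rw [spin_sOf, spin_sOf, dif_neg hu, dif_pos hv]
      simp [Gks375.chi]
    · refine ⟨∅, fun τ => ?_⟩
      rw [spin_sOf, spin_sOf, dif_neg hu, dif_neg hv]
      simp [Gks375.chi]

theorem sinh_le_cosh (K : ℝ) : Real.sinh K ≤ Real.cosh K := by
  have := Real.cosh_sub_sinh K
  have := Real.exp_pos (-K)
  linarith

theorem FerroV.bond {K : ℝ} (hK : 0 ≤ K) (u v : V) :
    FerroV fun s : V → Bool => Real.exp (K * (spinSign (s u) * spinSign (s v))) := by
  intro T
  obtain ⟨S, hS⟩ := pair_chi T u v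
  refine (Gks375.Ferro.affine (Real.sinh_nonneg_iff.2 hK) (sinh_le_cosh K) S).congr fun τ => ?_
  show Real.exp (K * (spinSign (sOf T τ u) * spinSign (sOf T τ v))) = _
  rw [exp_spin K (spin_mul_or _ _), hS]

/-! ### the model -/

/-- Boltzmann weight of the bonds in `E` -/
def wt (K : ℝ) (p q : κ → V) (E : Finset κ) (s : V → Bool) : ℝ :=
  ∏ e ∈ E, Real.exp (K * (spinSign (s (p e)) * spinSign (s (q e))))

/-- unnormalised expectation -/
def ZZ (K : ℝ) (p q : κ → V) (T : Finset V) (E : Finset κ) (F : (V → Bool) → ℝ) : ℝ :=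
  ∑ A ∈ T.powerset, wt K p q E (minusOn A) * F (minusOn A)

/-- expectation -/
def EX (K : ℝ) (p q : κ → V) (T : Finset V) (E : Finset κ) (F : (V → Bool) → ℝ) : ℝ :=
  ZZ K p q T E F / ZZ K p q T E fun _ => 1

variable {K : ℝ} {p q : κ → V} {T T' : Finset V} {E E' : Finset κ} {F G : (V → Bool) → ℝ}

theorem wt_pos (s : V → Bool) : 0 < wt K p q E s := Finset.prod_pos fun _ _ => Real.exp_pos _

theorem ferro_wt (hK : 0 ≤ K) (p q : κ → V) (E : Finset κ) : FerroV (wt K p q E) :=
  FerroV.prod E fun _ _ => FerroV.bond hK _ _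

theorem ZZ_one_pos : 0 < ZZ K p q T E fun _ => 1 := by
  unfold ZZ
  refine Finset.sum_pos (fun A _ => ?_) ⟨∅, by simp⟩
  rw [mul_one]
  exact wt_pos _

theorem ZZ_eq_sum (F : (V → Bool) → ℝ) :
    ZZ K p q T E F = ∑ τ : T → ℤˣ, wt K p q E (sOf T τ) * F (sOf T τ) :=
  (sum_sOf T fun s => wt K p q E s * F s).symm

theorem ZZ_nonneg (hK : 0 ≤ K) (hF : PosV F) : 0 ≤ ZZ K p q T E F := by
  rw [ZZ_eq_sum]
  exact (((ferro_wt hK p q E).pos.mul hF) T).sum_nonneg

theorem EX_nonneg (hK : 0 ≤ K) (hF : PosV F) : 0 ≤ EX K p q T E F :=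
  div_nonneg (ZZ_nonneg hK hF) ZZ_one_pos.le


/-- Griffiths II, unnormalised -/
theorem gksZ (hK : 0 ≤ K) (hF : PosV F) (hG : PosV G) :
    ZZ K p q T E F * ZZ K p q T E G ≤
      (ZZ K p q T E fun _ => 1) * ZZ K p q T E fun s => F s * G s := by
  have h := Gks375.gks2 (w := fun τ : T → ℤˣ => wt K p q E (sOf T τ))
    (ferro_wt hK p q E T) (hF T) (hG T)
  rw [ZZ_eq_sum, ZZ_eq_sum, ZZ_eq_sum, ZZ_eq_sum]
  simpa only [mul_one] using h

/-- Griffiths II -/
theorem gks (hK : 0 ≤ K) (hF : PosV F) (hG : PosV G) :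
    EX K p q T E F * EX K p q T E G ≤ EX K p q T E fun s => F s * G s := by
  have h := gksZ (p := p) (q := q) (T := T) (E := E) hK hF hG
  have h0 : 0 < ZZ K p q T E fun _ => 1 := ZZ_one_pos
  unfold EX
  rw [div_mul_div_comm, div_le_div_iff₀ (mul_pos h0 h0) h0]
  calc _ ≤ ((ZZ K p q T E fun _ => 1) * ZZ K p q T E fun s => F s * G s) *
        (ZZ K p q T E fun _ => 1) := mul_le_mul_of_nonneg_right h h0.le
    _ = _ := by ring

/-- more bonds, larger expectations -/
theorem EX_mono_bonds [DecidableEq κ] (hK : 0 ≤ K) (hF : PosV F) (h : E ⊆ E') :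
    EX K p q T E F ≤ EX K p q T E' F := by
  have hw : ∀ s : V → Bool, wt K p q E' s = wt K p q E s * wt K p q (E' \ E) s := by
    intro s
    unfold wt
    rw [mul_comm, Finset.prod_sdiff h]
  have e1 : ∀ H : (V → Bool) → ℝ, ZZ K p q T E' H =
      ZZ K p q T E fun s => H s * wt K p q (E' \ E) s := by
    intro H
    unfold ZZ
    refine Finset.sum_congr rfl fun A _ => ?_
    rw [hw]; ring
  have h1 := gksZ (p := p) (q := q) (T := T) (E := E) hK hF (ferro_wt hK p q (E' \ E)).pos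
  have h0 : 0 < ZZ K p q T E fun _ => 1 := ZZ_one_pos
  have h2 : 0 < ZZ K p q T E' fun _ => 1 := ZZ_one_pos
  have e2 : (ZZ K p q T E' fun _ => 1) = ZZ K p q T E (wt K p q (E' \ E)) := by
    rw [e1]; simp only [one_mul]
  unfold EX
  rw [div_le_div_iff₀ h0 h2, e1 F, e2, mul_comm _ (ZZ K p q T E fun _ => 1)]
  exact h1

/-- fixing spins to plus increases expectations -/
theorem EX_anti_sites (hK : 0 ≤ K) (hF : PosV F) (h : T' ⊆ T) :
    EX K p q T E F ≤ EX K p q T' E F := by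
  set g : (V → Bool) → ℝ := fun s => ∏ v ∈ T \ T', (1 / 2 + 1 / 2 * spinSign (s v)) with hg
  have hgp : PosV g := PosV.prod _ fun v _ =>
    (PosV.const (by norm_num : (0:ℝ) ≤ 1 / 2)).add
      ((PosV.const (by norm_num : (0:ℝ) ≤ 1 / 2)).mul (PosV.spin v))
  have hg1 : ∀ A ⊆ T', g (minusOn A) = 1 := by
    intro A hA
    refine Finset.prod_eq_one fun v hv => ?_
    rw [spin_minusOn_of_notMem fun hvA => (mem_sdiff.1 hv).2 (hA hvA)]
    norm_num
  have hg0 : ∀ A ⊆ T, ¬ A ⊆ T' → g (minusOn A) = 0 := by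
    intro A hA hA'
    obtain ⟨v, hv1, hv2⟩ := Finset.not_subset.1 hA'
    refine Finset.prod_eq_zero (i := v) (mem_sdiff.2 ⟨hA hv1, hv2⟩) ?_
    rw [spin_minusOn_of_mem hv1]
    norm_num
  have e1 : ∀ H : (V → Bool) → ℝ, ZZ K p q T' E H = ZZ K p q T E fun s => H s * g s := by
    intro H
    unfold ZZ
    rw [← Finset.sum_subset (Finset.powerset_mono.2 h)]
    · refine Finset.sum_congr rfl fun A hA => ?_
      show _ = wt K p q E (minusOn A) * (H (minusOn A) * g (minusOn A))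
      rw [hg1 A (mem_powerset.1 hA), mul_one]
    · intro A hA hA'
      show wt K p q E (minusOn A) * (H (minusOn A) * g (minusOn A)) = 0
      rw [hg0 A (mem_powerset.1 hA) fun h2 => hA' (mem_powerset.2 h2), mul_zero, mul_zero]
  have h1 := gksZ (p := p) (q := q) (T := T) (E := E) hK hF hgp
  have h0 : 0 < ZZ K p q T E fun _ => 1 := ZZ_one_pos
  have h2 : 0 < ZZ K p q T' E fun _ => 1 := ZZ_one_pos
  have e2 : (ZZ K p q T' E fun _ => 1) = ZZ K p q T E g := by
    rw [e1]; simp only [one_mul]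
  unfold EX
  rw [div_le_div_iff₀ h0 h2, e1 F, e2, mul_comm _ (ZZ K p q T E fun _ => 1)]
  exact h1

/-- bonds with both ends inactive do not matter -/
theorem EX_congr_bonds [DecidableEq κ] (h : E ⊆ E')
    (h2 : ∀ e ∈ E' \ E, p e ∉ T ∧ q e ∉ T) : EX K p q T E' F = EX K p q T E F := by
  set c : ℝ := ∏ _e ∈ E' \ E, Real.exp K with hc
  have hc0 : c ≠ 0 := (Finset.prod_pos fun _ _ => Real.exp_pos _).ne'
  have hw : ∀ A ⊆ T, wt K p q E' (minusOn A) = c * wt K p q E (minusOn A) := by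
    intro A hA
    unfold wt
    rw [← Finset.prod_sdiff h]
    congr 1
    refine Finset.prod_congr rfl fun e he => ?_
    obtain ⟨h3, h4⟩ := h2 e he
    rw [spin_minusOn_of_notMem fun h5 => h3 (hA h5), spin_minusOn_of_notMem fun h5 => h4 (hA h5),
      mul_one, mul_one]
  have e1 : ∀ H : (V → Bool) → ℝ, ZZ K p q T E' H = c * ZZ K p q T E H := by
    intro H
    unfold ZZ
    rw [Finset.mul_sum]
    refine Finset.sum_congr rfl fun A hA => ?_
    rw [hw A (mem_powerset.1 hA), mul_assoc]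
  unfold EX
  rw [e1 F, e1 fun _ => 1, mul_div_mul_left _ _ hc0]

/-- sum over the subsets of a disjoint union -/
theorem sum_powerset_union (T₁ T₂ : Finset V) (h : Disjoint T₁ T₂) (f : Finset V → ℝ) :
    ∑ A ∈ (T₁ ∪ T₂).powerset, f A = ∑ A ∈ T₁.powerset, ∑ B ∈ T₂.powerset, f (A ∪ B) := by
  rw [← Finset.sum_product']
  refine Finset.sum_bij' (fun A _ => (A ∩ T₁, A ∩ T₂)) (fun P _ => P.1 ∪ P.2) ?_ ?_ ?_ ?_ ?_
  · intro A _
    simp
  · intro P hP
    simp only [mem_product, mem_powerset] at hP ⊢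
    exact union_subset_union hP.1 hP.2
  · intro A hA
    simp only
    rw [← Finset.inter_union_distrib_left, inter_eq_left.2 (mem_powerset.1 hA)]
  · intro P hP
    simp only [mem_product, mem_powerset] at hP
    have h1 : P.2 ∩ T₁ = ∅ := by
      rw [← disjoint_iff_inter_eq_empty]
      exact (h.mono_right hP.2).symm
    have h2 : P.1 ∩ T₂ = ∅ := by
      rw [← disjoint_iff_inter_eq_empty]
      exact h.mono_left hP.1
    simp only [union_inter_distrib_right, h1, h2, union_empty, empty_union,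
      inter_eq_left.2 hP.1, inter_eq_left.2 hP.2]
  · intro A hA
    simp only
    rw [← Finset.inter_union_distrib_left, inter_eq_left.2 (mem_powerset.1 hA)]

/-- sites touched by nothing do not matter -/
theorem EX_drop_sites (h : T' ⊆ T) (hE : ∀ e ∈ E, p e ∉ T \ T' ∧ q e ∉ T \ T')
    (hF : ∀ A B : Finset V, A ⊆ T' → B ⊆ T \ T' → F (minusOn (A ∪ B)) = F (minusOn A)) :
    EX K p q T E F = EX K p q T' E F := by
  have hT : T' ∪ (T \ T') = T := Finset.union_sdiff_of_subset h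
  have hsp : ∀ A B : Finset V, B ⊆ T \ T' → ∀ v, v ∉ T \ T' →
      minusOn (A ∪ B) v = minusOn A v := by
    intro A B hB v hv
    unfold minusOn
    have : v ∉ B := fun h2 => hv (hB h2)
    simp [this]
  have hw : ∀ A B : Finset V, B ⊆ T \ T' →
      wt K p q E (minusOn (A ∪ B)) = wt K p q E (minusOn A) := by
    intro A B hB
    unfold wt
    refine Finset.prod_congr rfl fun e he => ?_
    rw [hsp A B hB _ (hE e he).1, hsp A B hB _ (hE e he).2]
  have e1 : ∀ H : (V → Bool) → ℝ,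
      (∀ A B : Finset V, A ⊆ T' → B ⊆ T \ T' → H (minusOn (A ∪ B)) = H (minusOn A)) →
      ZZ K p q T E H = ((T \ T').powerset.card : ℝ) * ZZ K p q T' E H := by
    intro H hH
    unfold ZZ
    conv_lhs => rw [← hT]
    rw [sum_powerset_union T' (T \ T') Finset.disjoint_sdiff, Finset.mul_sum]
    refine Finset.sum_congr rfl fun A hA => ?_
    rw [Finset.sum_congr rfl (g := fun _ => wt K p q E (minusOn A) * H (minusOn A)),
      Finset.sum_const, nsmul_eq_mul]
    intro B hB
    rw [hw A B (mem_powerset.1 hB), hH A B (mem_powerset.1 hA) (mem_powerset.1 hB)]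
  have hc : ((T \ T').powerset.card : ℝ) ≠ 0 := by
    rw [Finset.card_powerset]; positivity
  unfold EX
  rw [e1 F hF, e1 (fun _ => 1) fun _ _ _ _ => rfl, mul_div_mul_left _ _ hc]

/-- factorisation over two non-touching pieces -/
theorem EX_union [DecidableEq κ] {T₁ T₂ : Finset V} {E₁ E₂ : Finset κ} (hT : Disjoint T₁ T₂)
    (hE : Disjoint E₁ E₂)
    (h1 : ∀ e ∈ E₁, p e ∉ T₂ ∧ q e ∉ T₂) (h2 : ∀ e ∈ E₂, p e ∉ T₁ ∧ q e ∉ T₁)
    (hF : ∀ A B : Finset V, A ⊆ T₁ → B ⊆ T₂ → F (minusOn (A ∪ B)) = F (minusOn A))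
    (hG : ∀ A B : Finset V, A ⊆ T₁ → B ⊆ T₂ → G (minusOn (A ∪ B)) = G (minusOn B)) :
    EX K p q (T₁ ∪ T₂) (E₁ ∪ E₂) (fun s => F s * G s) = EX K p q T₁ E₁ F * EX K p q T₂ E₂ G := by
  have hw : ∀ A B : Finset V, A ⊆ T₁ → B ⊆ T₂ → wt K p q (E₁ ∪ E₂) (minusOn (A ∪ B)) =
      wt K p q E₁ (minusOn A) * wt K p q E₂ (minusOn B) := by
    intro A B hA hB
    unfold wt
    rw [Finset.prod_union hE]
    congr 1
    · refine Finset.prod_congr rfl fun e he => ?_
      have h3 : ∀ v, v ∉ T₂ → minusOn (A ∪ B) v = minusOn A v := by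
        intro v hv
        have : v ∉ B := fun h => hv (hB h)
        simp [minusOn, this]
      rw [h3 _ (h1 e he).1, h3 _ (h1 e he).2]
    · refine Finset.prod_congr rfl fun e he => ?_
      have h3 : ∀ v, v ∉ T₁ → minusOn (A ∪ B) v = minusOn B v := by
        intro v hv
        have : v ∉ A := fun h => hv (hA h)
        simp [minusOn, this]
      rw [h3 _ (h2 e he).1, h3 _ (h2 e he).2]
  have e1 : ∀ H L : (V → Bool) → ℝ,
      (∀ A B : Finset V, A ⊆ T₁ → B ⊆ T₂ → H (minusOn (A ∪ B)) = H (minusOn A)) →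
      (∀ A B : Finset V, A ⊆ T₁ → B ⊆ T₂ → L (minusOn (A ∪ B)) = L (minusOn B)) →
      ZZ K p q (T₁ ∪ T₂) (E₁ ∪ E₂) (fun s => H s * L s) =
        ZZ K p q T₁ E₁ H * ZZ K p q T₂ E₂ L := by
    intro H L hH hL
    unfold ZZ
    rw [sum_powerset_union T₁ T₂ hT, Finset.sum_mul_sum]
    refine Finset.sum_congr rfl fun A hA => Finset.sum_congr rfl fun B hB => ?_
    have hA' := mem_powerset.1 hA
    have hB' := mem_powerset.1 hB
    show wt K p q (E₁ ∪ E₂) (minusOn (A ∪ B)) * (H (minusOn (A ∪ B)) * L (minusOn (A ∪ B))) = _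
    rw [hw A B hA' hB', hH A B hA' hB', hL A B hA' hB']
    ring
  have e2 := e1 (fun _ => 1) (fun _ => 1) (fun _ _ _ _ => rfl) fun _ _ _ _ => rfl
  simp only [mul_one] at e2
  unfold EX
  rw [e1 F G hF hG, e2, div_mul_div_comm]

end Crest.Agent.R165.Gk0x422
end
end

-- ▼ part R165/Gk1_422
section

/-!
# Row 165 (S0250): Griffiths facts for the unperturbed model on `ℤ²` and on tori (helper422)

* `domainExpect_plus`, `domainExpect_free`: `domainExpect` at `lam = 0` is `EX` on `ℤ²`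
* `torusExpect_eq`: `torusExpect` at `lam = 0` is `EX` on the torus
* `Gp T u`, `Gf T u`: plus / free spin correlations of a finite `T ⊆ ℤ²` (coupling `K`)
* `Gp_anti`, `Gf_mono`, `Gp_mul_le`, `Gf_mul_le`, `Gp_split`, `Gf_le_Gp`, `free_le_torus`, `torus_le_plus`
-/

set_option autoImplicit false
set_option linter.unusedSectionVars false
set_option linter.unusedVariables false

noncomputable section

open Finset
open Crest.ProbabilityR.IsingModel

namespace Crest.Agent.R165.Gk1x422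

open Crest.Agent.R165.Gk0x422

/-! ### transfer between two systems -/

section transfer

variable {V₁ V₂ κ₁ κ₂ : Type*} [DecidableEq V₁] [DecidableEq V₂] [DecidableEq κ₁] [DecidableEq κ₂]

theorem EX_transfer {K : ℝ} {p₁ q₁ : κ₁ → V₁} {p₂ q₂ : κ₂ → V₂} (φ : V₁ → V₂) (ψ : κ₁ → κ₂)
    {T : Finset V₁} {E : Finset κ₁} {F₁ : (V₁ → Bool) → ℝ} {F₂ : (V₂ → Bool) → ℝ}
    (hψ : Set.InjOn ψ E)
    (hp : ∀ e ∈ E, p₂ (ψ e) = φ (p₁ e)) (hq : ∀ e ∈ E, q₂ (ψ e) = φ (q₁ e))
    (hT : Set.InjOn φ T)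
    (hpT : ∀ e ∈ E, ∀ v ∈ T, φ (p₁ e) = φ v → p₁ e = v)
    (hqT : ∀ e ∈ E, ∀ v ∈ T, φ (q₁ e) = φ v → q₁ e = v)
    (hF : ∀ A ⊆ T, F₁ (minusOn A) = F₂ (minusOn (A.image φ))) :
    EX K p₁ q₁ T E F₁ = EX K p₂ q₂ (T.image φ) (E.image ψ) F₂ := by
  have hmem : ∀ A ⊆ T, ∀ v : V₁, (∀ w ∈ T, φ v = φ w → v = w) →
      minusOn (A.image φ) (φ v) = minusOn A v := by
    intro A hA v hv
    unfold minusOn
    have : φ v ∈ A.image φ ↔ v ∈ A := by
      constructor
      · intro h
        obtain ⟨w, hw, hw2⟩ := mem_image.1 h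
        rw [hv w (hA hw) hw2.symm]; exact hw
      · exact fun h => mem_image_of_mem _ h
    simp [this]
  have hw : ∀ A ⊆ T, wt K p₁ q₁ E (minusOn A) = wt K p₂ q₂ (E.image ψ) (minusOn (A.image φ)) := by
    intro A hA
    unfold wt
    rw [Finset.prod_image hψ]
    refine Finset.prod_congr rfl fun e he => ?_
    rw [hp e he, hq e he, hmem A hA _ (hpT e he), hmem A hA _ (hqT e he)]
  have key : ∀ (G₁ : (V₁ → Bool) → ℝ) (G₂ : (V₂ → Bool) → ℝ),
      (∀ A ⊆ T, G₁ (minusOn A) = G₂ (minusOn (A.image φ))) →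
      ZZ K p₁ q₁ T E G₁ = ZZ K p₂ q₂ (T.image φ) (E.image ψ) G₂ := by
    intro G₁ G₂ hG
    unfold ZZ
    refine Finset.sum_bij (fun A _ => A.image φ) ?_ ?_ ?_ ?_
    · intro A hA
      exact mem_powerset.2 (image_subset_image (mem_powerset.1 hA))
    · intro A hA B hB hAB
      have hA' := mem_powerset.1 hA
      have hB' := mem_powerset.1 hB
      ext v
      constructor
      · intro hv
        obtain ⟨w, hw, hw2⟩ := mem_image.1 (hAB ▸ mem_image_of_mem φ hv : φ v ∈ B.image φ)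
        rw [← hT (hB' hw) (hA' hv) hw2]; exact hw
      · intro hv
        obtain ⟨w, hw, hw2⟩ := mem_image.1 (hAB.symm ▸ mem_image_of_mem φ hv : φ v ∈ A.image φ)
        rw [← hT (hA' hw) (hB' hv) hw2]; exact hw
    · intro B hB
      have hB' := mem_powerset.1 hB
      refine ⟨T.filter fun v => φ v ∈ B, mem_powerset.2 (filter_subset _ _), ?_⟩
      ext w
      simp only [mem_image, mem_filter]
      constructor
      · rintro ⟨v, ⟨-, hv⟩, rfl⟩; exact hv
      · intro hw
        obtain ⟨v, hv, rfl⟩ := mem_image.1 (hB' hw)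
        exact ⟨v, ⟨hv, hw⟩, rfl⟩
    · intro A hA
      have hA' := mem_powerset.1 hA
      rw [hw A hA', hG A hA']
  unfold EX
  rw [key F₁ F₂ hF, key (fun _ => 1) (fun _ => 1) fun _ _ => rfl]

end transfer

/-! ### spin products -/

/-- product of spins -/
def sp {V : Type*} {n : ℕ} (u : Fin n → V) (s : V → Bool) : ℝ := ∏ i, spinSign (s (u i))

theorem sp_pos {V : Type*} [DecidableEq V] {n : ℕ} (u : Fin n → V) : PosV (sp u) :=
  PosV.prod _ fun i _ => PosV.spin (u i)


theorem sp_append {V : Type*} {n m : ℕ} (u : Fin n → V) (v : Fin m → V) (s : V → Bool) :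
    sp (Fin.append u v) s = sp u s * sp v s := by
  unfold sp
  rw [Fin.prod_univ_add]
  simp [Fin.append_left, Fin.append_right]

theorem spin_congr {V : Type*} [DecidableEq V] {A B : Finset V} {v : V} (h : v ∈ A ↔ v ∈ B) :
    minusOn A v = minusOn B v := by
  unfold minusOn; simp [h]

/-! ### the plane lattice -/

/-- bonds of `ℤ²`: base point and direction -/
abbrev ZB : Type := (ℤ × ℤ) × Fin 2

def zp (e : ZB) : ℤ × ℤ := e.1
def zq (e : ZB) : ℤ × ℤ := e.1 + unitVec e.2

/-- bonds touching `T` -/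
def plusE (T : Finset (ℤ × ℤ)) : Finset ZB :=
  (T ×ˢ univ) ∪ ((T ×ˢ (univ : Finset (Fin 2))).image fun e => (e.1 - unitVec e.2, e.2))

/-- bonds inside `T` -/
def freeE (T : Finset (ℤ × ℤ)) : Finset ZB :=
  (T ×ˢ univ).filter fun e => zq e ∈ T

theorem mem_plusE {T : Finset (ℤ × ℤ)} {e : ZB} : e ∈ plusE T ↔ zp e ∈ T ∨ zq e ∈ T := by
  unfold plusE zp zq
  simp only [mem_union, mem_product, mem_univ, and_true, mem_image]
  constructor
  · rintro (h | ⟨w, h, rfl⟩)
    · exact Or.inl h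
    · right; simpa using h
  · rintro (h | h)
    · exact Or.inl h
    · right
      exact ⟨(e.1 + unitVec e.2, e.2), h, by ext <;> simp⟩

theorem mem_freeE {T : Finset (ℤ × ℤ)} {e : ZB} : e ∈ freeE T ↔ zp e ∈ T ∧ zq e ∈ T := by
  unfold freeE zp
  simp only [mem_filter, mem_product, mem_univ, and_true]

theorem freeE_subset_plusE (T : Finset (ℤ × ℤ)) : freeE T ⊆ plusE T := fun e he =>
  mem_plusE.2 (Or.inl (mem_freeE.1 he).1)

theorem plusE_mono {T T' : Finset (ℤ × ℤ)} (h : T ⊆ T') : plusE T ⊆ plusE T' := fun e he =>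
  mem_plusE.2 ((mem_plusE.1 he).imp (fun x => h x) (fun x => h x))

theorem freeE_mono {T T' : Finset (ℤ × ℤ)} (h : T ⊆ T') : freeE T ⊆ freeE T' := fun e he =>
  mem_freeE.2 ⟨h (mem_freeE.1 he).1, h (mem_freeE.1 he).2⟩

/-- plus correlations -/
def Gp (K : ℝ) (T : Finset (ℤ × ℤ)) {n : ℕ} (u : Fin n → ℤ × ℤ) : ℝ :=
  EX K zp zq T (plusE T) (sp u)

/-- free correlations -/
def Gf (K : ℝ) (T : Finset (ℤ × ℤ)) {n : ℕ} (u : Fin n → ℤ × ℤ) : ℝ :=
  EX K zp zq T (freeE T) (sp u)

variable {K : ℝ} {T T' : Finset (ℤ × ℤ)} {n m : ℕ}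

theorem Gp_nonneg (hK : 0 ≤ K) (T : Finset (ℤ × ℤ)) (u : Fin n → ℤ × ℤ) : 0 ≤ Gp K T u :=
  EX_nonneg hK (sp_pos u)

theorem Gf_nonneg (hK : 0 ≤ K) (T : Finset (ℤ × ℤ)) (u : Fin n → ℤ × ℤ) : 0 ≤ Gf K T u :=
  EX_nonneg hK (sp_pos u)

/-- Griffiths II, plus -/
theorem Gp_mul_le (hK : 0 ≤ K) (T : Finset (ℤ × ℤ)) (u : Fin n → ℤ × ℤ) (v : Fin m → ℤ × ℤ) :
    Gp K T u * Gp K T v ≤ Gp K T (Fin.append u v) := by
  have h := gks (p := zp) (q := zq) (T := T) (E := plusE T) hK (sp_pos u) (sp_pos v)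
  have e : sp (Fin.append u v) = fun s => sp u s * sp v s := funext (sp_append u v)
  unfold Gp
  rw [e]; exact h

/-- Griffiths II, free -/
theorem Gf_mul_le (hK : 0 ≤ K) (T : Finset (ℤ × ℤ)) (u : Fin n → ℤ × ℤ) (v : Fin m → ℤ × ℤ) :
    Gf K T u * Gf K T v ≤ Gf K T (Fin.append u v) := by
  have h := gks (p := zp) (q := zq) (T := T) (E := freeE T) hK (sp_pos u) (sp_pos v)
  have e : sp (Fin.append u v) = fun s => sp u s * sp v s := funext (sp_append u v)
  unfold Gf
  rw [e]; exact h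

/-- smaller domains have larger plus correlations -/
theorem Gp_anti (hK : 0 ≤ K) (h : T' ⊆ T) (u : Fin n → ℤ × ℤ) : Gp K T u ≤ Gp K T' u := by
  have h1 := EX_anti_sites (p := zp) (q := zq) (E := plusE T) hK (sp_pos u) h
  have h2 := EX_congr_bonds (K := K) (p := zp) (q := zq) (T := T') (F := sp u) (plusE_mono h)
    (fun e he => by
      have := fun h3 => (mem_sdiff.1 he).2 (mem_plusE.2 h3)
      exact ⟨fun h3 => this (Or.inl h3), fun h3 => this (Or.inr h3)⟩)
  unfold Gp
  rw [← h2]; exact h1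

theorem sp_minusOn_union {u : Fin n → ℤ × ℤ} {A B : Finset (ℤ × ℤ)} (h : ∀ i, u i ∉ B) :
    sp u (minusOn (A ∪ B)) = sp u (minusOn A) := by
  unfold sp
  refine Finset.prod_congr rfl fun i _ => ?_
  rw [spin_congr (A := A ∪ B) (B := A)]
  simp [h i]

/-- free correlations of a subgraph `(T', E')` of `T` -/
theorem free_sub_le (hK : 0 ≤ K) (h : T' ⊆ T) {E' : Finset ZB} (hE : E' ⊆ freeE T')
    {u : Fin n → ℤ × ℤ} (hu : ∀ i, u i ∈ T') : EX K zp zq T' E' (sp u) ≤ Gf K T u := by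
  have h1 := EX_drop_sites (K := K) (p := zp) (q := zq) (T := T) (T' := T') (E := E')
    (F := sp u) h
    (fun e he => by
      have := mem_freeE.1 (hE he)
      exact ⟨fun h3 => (mem_sdiff.1 h3).2 this.1, fun h3 => (mem_sdiff.1 h3).2 this.2⟩)
    (fun A B _ hB => sp_minusOn_union fun i h3 => (mem_sdiff.1 (hB h3)).2 (hu i))
  rw [← h1]
  exact EX_mono_bonds hK (sp_pos u) (hE.trans (freeE_mono h))

/-- larger domains have larger free correlations -/
theorem Gf_mono (hK : 0 ≤ K) (h : T' ⊆ T) {u : Fin n → ℤ × ℤ} (hu : ∀ i, u i ∈ T') :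
    Gf K T' u ≤ Gf K T u := free_sub_le hK h (Finset.Subset.refl _) hu

theorem Gf_le_Gp (hK : 0 ≤ K) (T : Finset (ℤ × ℤ)) (u : Fin n → ℤ × ℤ) : Gf K T u ≤ Gp K T u :=
  EX_mono_bonds hK (sp_pos u) (freeE_subset_plusE T)

/-- no bond joins `T₁` and `T₂` -/
def NonTouch (T₁ T₂ : Finset (ℤ × ℤ)) : Prop :=
  Disjoint T₁ T₂ ∧ ∀ e : ZB, ¬ (zp e ∈ T₁ ∧ zq e ∈ T₂) ∧ ¬ (zp e ∈ T₂ ∧ zq e ∈ T₁)

theorem not_mem_of_plusE {T₁ T₂ : Finset (ℤ × ℤ)} (h : NonTouch T₁ T₂) {e : ZB}
    (he : e ∈ plusE T₁) : zp e ∉ T₂ ∧ zq e ∉ T₂ := by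
  have hd : ∀ v, v ∈ T₁ → v ∉ T₂ := fun v h1 h2 => (Finset.disjoint_left.1 h.1) h1 h2
  rcases mem_plusE.1 he with h1 | h1
  · exact ⟨hd _ h1, fun h2 => (h.2 e).1 ⟨h1, h2⟩⟩
  · exact ⟨fun h2 => (h.2 e).2 ⟨h2, h1⟩, hd _ h1⟩

theorem NonTouch.symm {T₁ T₂ : Finset (ℤ × ℤ)} (h : NonTouch T₁ T₂) : NonTouch T₂ T₁ :=
  ⟨h.1.symm, fun e => ⟨(h.2 e).2, (h.2 e).1⟩⟩

/-- **splitting**: two non-touching subdomains decouple the plus correlations from above -/
theorem Gp_split (hK : 0 ≤ K) {T₁ T₂ : Finset (ℤ × ℤ)} (h : NonTouch T₁ T₂) (hT : T₁ ∪ T₂ ⊆ T)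
    {u : Fin n → ℤ × ℤ} {v : Fin m → ℤ × ℤ} (hu : ∀ i, u i ∈ T₁) (hv : ∀ i, v i ∈ T₂) :
    Gp K T (Fin.append u v) ≤ Gp K T₁ u * Gp K T₂ v := by
  refine (Gp_anti hK hT _).trans (le_of_eq ?_)
  have hdE : Disjoint (plusE T₁) (plusE T₂) := by
    rw [Finset.disjoint_left]
    intro e h1 h2
    have h3 := not_mem_of_plusE h h1
    rcases mem_plusE.1 h2 with h4 | h4
    · exact h3.1 h4
    · exact h3.2 h4
  have hE : plusE (T₁ ∪ T₂) = plusE T₁ ∪ plusE T₂ := by
    ext e
    simp only [mem_plusE, mem_union]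
    tauto
  have hd : ∀ w, w ∈ T₁ → w ∉ T₂ := fun w h1 h2 => (Finset.disjoint_left.1 h.1) h1 h2
  have e : sp (Fin.append u v) = fun s => sp u s * sp v s := funext (sp_append u v)
  unfold Gp
  rw [hE, e]
  refine EX_union h.1 hdE (fun e he => not_mem_of_plusE h he)
    (fun e he => not_mem_of_plusE h.symm he) ?_ ?_
  · intro A B _ hB
    exact sp_minusOn_union fun i h3 => hd _ (hu i) (hB h3)
  · intro A B hA _
    rw [Finset.union_comm]
    exact sp_minusOn_union fun i h3 => hd _ (hA h3) (hv i)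

/-! ### `domainExpect` at `lam = 0` -/

theorem sum_extendConfig (T : Finset (ℤ × ℤ)) (b : BoundaryCondition) (hb : b.exterior = true)
    (G : (ℤ × ℤ → Bool) → ℝ) :
    ∑ σ : T → Bool, G (extendConfig T b σ) = ∑ A ∈ T.powerset, G (minusOn A) := by
  refine Finset.sum_bij' (fun σ _ => (univ.filter fun v : T => σ v = false).map
      (Function.Embedding.subtype _))
    (fun A _ => fun v : T => decide ((v : ℤ × ℤ) ∉ A)) ?_ ?_ ?_ ?_ ?_
  · intro σ _
    rw [mem_powerset]
    intro v hv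
    simp only [mem_map, mem_filter, mem_univ, true_and, Function.Embedding.coe_subtype,
      Subtype.exists, exists_and_right, exists_eq_right] at hv
    exact hv.1
  · intro A _; exact mem_univ _
  · intro σ _
    funext v
    by_cases h : σ v = false
    · have : (v : ℤ × ℤ) ∈ (univ.filter fun v : T => σ v = false).map
          (Function.Embedding.subtype _) := by
        simp only [mem_map, mem_filter, mem_univ, true_and, Function.Embedding.coe_subtype]
        exact ⟨v, h, rfl⟩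
      simp [h]
    · simp [h]
  · intro A hA
    ext v
    simp only [mem_map, mem_filter, mem_univ, true_and, Function.Embedding.coe_subtype,
      Subtype.exists, exists_and_right, exists_eq_right, decide_eq_false_iff_not, not_not]
    exact ⟨fun h => h.2, fun h => ⟨mem_powerset.1 hA h, h⟩⟩
  · intro σ _
    congr 1
    funext v
    unfold extendConfig minusOn
    by_cases h : v ∈ T
    · by_cases h2 : σ ⟨v, h⟩ = false
      · simp [h, h2]
      · simp only [Bool.not_eq_false] at h2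
        simp [h, h2]
    · simp [h, hb]

theorem plus_energy (T : Finset (ℤ × ℤ)) (J : ℝ) (R : ℕ) (V : Finset (ℤ × ℤ) → ℝ) (β : ℝ)
    (s : ℤ × ℤ → Bool) :
    Real.exp (-β * domainEnergy T .plus J 0 R V s) = wt (β * J) zp zq (plusE T) s := by
  unfold wt
  rw [← Real.exp_sum]
  congr 1
  unfold domainEnergy
  rw [← Finset.mul_sum]
  have hE : plusE T = (T ×ˢ univ) ∪ (((T ×ˢ (univ : Finset (Fin 2))).filter
      fun e => e.1 - unitVec e.2 ∉ T).image fun e => (e.1 - unitVec e.2, e.2)) := by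
    ext e
    rw [mem_plusE]
    simp only [mem_union, mem_product, mem_univ, and_true, mem_image, mem_filter,
      zp, zq]
    constructor
    · intro h
      by_cases h1 : e.1 ∈ T
      · exact Or.inl h1
      · rcases h with h | h
        · exact absurd h h1
        · right
          refine ⟨(e.1 + unitVec e.2, e.2), ⟨h, ?_⟩, by ext <;> simp⟩
          simpa using h1
    · rintro (h | ⟨w, ⟨h, h2⟩, rfl⟩)
      · exact Or.inl h
      · right; simpa using h
  have hd : Disjoint (T ×ˢ (univ : Finset (Fin 2))) (((T ×ˢ (univ : Finset (Fin 2))).filter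
      fun e => e.1 - unitVec e.2 ∉ T).image fun e => (e.1 - unitVec e.2, e.2)) := by
    rw [Finset.disjoint_left]
    intro e h1 h2
    simp only [mem_product, mem_univ, and_true, mem_image, mem_filter] at h1 h2
    obtain ⟨w, ⟨h, h3⟩, rfl⟩ := h2
    exact h3 h1
  rw [hE, Finset.sum_union hd, Finset.sum_image, Finset.sum_filter, Finset.sum_product,
    Finset.sum_product]
  · simp only [zp, zq, sub_add_cancel, ne_eq, reduceCtorEq, not_false_eq_true, true_and,
      false_and, if_false, zero_mul, sub_zero]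
    ring
  · intro e he e' he' h
    simp only [Prod.mk.injEq] at h
    obtain ⟨h1, h2⟩ := h
    ext
    · have := congrArg Prod.fst h1
      rw [h2] at this
      simpa using this
    · have := congrArg Prod.snd h1
      rw [h2] at this
      simpa using this
    · rw [h2]

theorem free_energy (T : Finset (ℤ × ℤ)) (J : ℝ) (R : ℕ) (V : Finset (ℤ × ℤ) → ℝ) (β : ℝ)
    (s : ℤ × ℤ → Bool) :
    Real.exp (-β * domainEnergy T .free J 0 R V s) = wt (β * J) zp zq (freeE T) s := by
  unfold wt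
  rw [← Real.exp_sum]
  congr 1
  unfold domainEnergy freeE
  rw [← Finset.mul_sum, Finset.sum_filter, Finset.sum_product]
  have h1 : ∀ z ∈ T, ∀ j : Fin 2,
      (if (BoundaryCondition.free = BoundaryCondition.free ∧ z + unitVec j ∉ T) then (0 : ℝ)
        else spinSign (s z) * spinSign (s (z + unitVec j))) =
      if zq (z, j) ∈ T then spinSign (s (zp (z, j))) * spinSign (s (zq (z, j))) else 0 := by
    intro z _ j
    by_cases h : z + unitVec j ∈ T <;> simp [h, zp, zq]
  rw [Finset.sum_congr rfl fun z hz => Finset.sum_congr rfl fun j _ => h1 z hz j]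
  simp
  ring

theorem domainExpect_eq_EX (D : Set ℂ) (a : ℝ) (b : BoundaryCondition) (J : ℝ) (R : ℕ)
    (V : Finset (ℤ × ℤ) → ℝ) (β : ℝ) (h : (domainSites D a).Finite) (hb : b.exterior = true)
    (E : Finset ZB)
    (hE : ∀ s, Real.exp (-β * domainEnergy h.toFinset b J 0 R V s) = wt (β * J) zp zq E s)
    (f : (ℤ × ℤ → Bool) → ℝ) :
    domainExpect D a b J 0 R V β f = EX (β * J) zp zq h.toFinset E f := by
  unfold domainExpect EX ZZ
  rw [dif_pos h]
  rw [sum_extendConfig h.toFinset b hb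
      (fun s => f s * Real.exp (-β * domainEnergy h.toFinset b J 0 R V s)),
    sum_extendConfig h.toFinset b hb
      (fun s => Real.exp (-β * domainEnergy h.toFinset b J 0 R V s))]
  congr 1
  · refine Finset.sum_congr rfl fun A _ => ?_
    rw [hE, mul_comm]
  · refine Finset.sum_congr rfl fun A _ => ?_
    rw [hE, mul_one]

theorem domainExpect_plus (D : Set ℂ) (a : ℝ) (J : ℝ) (R : ℕ)
    (V : Finset (ℤ × ℤ) → ℝ) (β : ℝ) (h : (domainSites D a).Finite)
    (f : (ℤ × ℤ → Bool) → ℝ) :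
    domainExpect D a .plus J 0 R V β f = EX (β * J) zp zq h.toFinset (plusE h.toFinset) f :=
  domainExpect_eq_EX D a .plus J R V β h rfl _ (plus_energy _ J R V β) f

theorem domainExpect_free (D : Set ℂ) (a : ℝ) (J : ℝ) (R : ℕ)
    (V : Finset (ℤ × ℤ) → ℝ) (β : ℝ) (h : (domainSites D a).Finite)
    (f : (ℤ × ℤ → Bool) → ℝ) :
    domainExpect D a .free J 0 R V β f = EX (β * J) zp zq h.toFinset (freeE h.toFinset) f :=
  domainExpect_eq_EX D a .free J R V β h rfl _ (free_energy _ J R V β) f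

/-! ### the torus -/

section torus

variable (L : ℕ) [NeZero L]

abbrev TB : Type := (ZMod L × ZMod L) × Fin 2

def tp (e : TB L) : ZMod L × ZMod L := e.1
def tq (e : TB L) : ZMod L × ZMod L := e.1 + toTorus L (unitVec e.2)

theorem toTorus_add (x y : ℤ × ℤ) : toTorus L (x + y) = toTorus L x + toTorus L y := by
  unfold toTorus
  ext <;> simp

theorem sum_torusConfig (G : (ZMod L × ZMod L → Bool) → ℝ) :
    ∑ σ : TorusConfig L, G σ = ∑ A ∈ (univ : Finset (ZMod L × ZMod L)).powerset,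
      G (minusOn A) := by
  refine Finset.sum_bij' (fun σ _ => univ.filter fun v => σ v = false)
    (fun A _ => minusOn A) ?_ ?_ ?_ ?_ ?_
  · intro σ _; simp
  · intro A _; exact mem_univ _
  · intro σ _
    funext v
    unfold minusOn
    cases h : σ v <;> simp [h]
  · intro A _
    ext v
    simp [minusOn]
  · intro σ _
    congr 1
    funext v
    unfold minusOn
    cases h : σ v <;> simp [h]

theorem torus_energy (J : ℝ) (R : ℕ) (V : Finset (ℤ × ℤ) → ℝ) (β : ℝ) (s : TorusConfig L) :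
    Real.exp (-β * energy L J 0 R V s) = wt (β * J) (tp L) (tq L) univ s := by
  unfold wt
  rw [← Real.exp_sum]
  congr 1
  unfold energy
  rw [← Finset.mul_sum]
  have hsum : ∑ e : TB L, spinSign (s (tp L e)) * spinSign (s (tq L e)) =
      ∑ u : ZMod L × ZMod L, ∑ j : Fin 2,
        spinSign (s (tp L (u, j))) * spinSign (s (tq L (u, j))) := by
    rw [← Finset.sum_product', Finset.univ_product_univ]
  rw [hsum]
  simp only [Fin.sum_univ_two, tp, tq, zero_mul, sub_zero]
  have e0 : toTorus L (unitVec 0) = (1, 0) := by simp [toTorus, unitVec]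
  have e1 : toTorus L (unitVec 1) = (0, 1) := by simp [toTorus, unitVec]
  rw [e0, e1]
  have h : ∀ u : ZMod L × ZMod L, (u.1 + 1, u.2) = u + (1, 0) ∧ (u.1, u.2 + 1) = u + (0, 1) := by
    intro u
    constructor <;> ext <;> simp
  simp only [fun u => (h u).1, fun u => (h u).2]
  ring

theorem torusExpect_eq (J : ℝ) (R : ℕ) (V : Finset (ℤ × ℤ) → ℝ) (β : ℝ)
    (f : TorusConfig L → ℝ) :
    torusExpect L J 0 R V β f = EX (β * J) (tp L) (tq L) univ univ f := by
  unfold torusExpect EX ZZ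
  rw [sum_torusConfig L fun s => f s * Real.exp (-β * energy L J 0 R V s),
    sum_torusConfig L fun s => Real.exp (-β * energy L J 0 R V s)]
  congr 1
  · refine Finset.sum_congr rfl fun A _ => ?_
    rw [torus_energy, mul_comm]
  · refine Finset.sum_congr rfl fun A _ => ?_
    rw [torus_energy, mul_one]

/-- torus correlations -/
def Gt (K : ℝ) {n : ℕ} (u : Fin n → ℤ × ℤ) : ℝ :=
  EX K (tp L) (tq L) univ univ (sp fun i => toTorus L (u i))

/-- the box `[-N, N]²` embeds in the torus -/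
theorem toTorus_inj {N : ℤ} (hN : 2 * N < L) {u v : ℤ × ℤ}
    (hu : |u.1| ≤ N ∧ |u.2| ≤ N) (hv : |v.1| ≤ N ∧ |v.2| ≤ N)
    (h : toTorus L u = toTorus L v) : u = v := by
  have key : ∀ x y : ℤ, |x| ≤ N → |y| ≤ N → ((x : ZMod L) = (y : ZMod L)) → x = y := by
    intro x y hx hy hxy
    rw [ZMod.intCast_eq_intCast_iff_dvd_sub] at hxy
    by_contra hne
    have h1 : 0 < |y - x| := abs_pos.2 fun h => hne (by linarith)
    have h2 : (L : ℤ) ≤ |y - x| := Int.le_of_dvd h1 ((dvd_abs _ _).2 hxy)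
    have h3 : |y - x| ≤ |y| + |x| := abs_sub _ _
    linarith
  unfold toTorus at h
  rw [Prod.mk.injEq] at h
  ext
  · exact key _ _ hu.1 hv.1 h.1
  · exact key _ _ hu.2 hv.2 h.2

/-- `T` with its neighbours lies in the box of size `N` -/
def InBox (T : Finset (ℤ × ℤ)) (N : ℤ) : Prop := ∀ v ∈ T, |v.1| + 1 ≤ N ∧ |v.2| + 1 ≤ N

theorem unitVec_abs (j : Fin 2) : |(unitVec j).1| ≤ 1 ∧ |(unitVec j).2| ≤ 1 := by
  fin_cases j <;> simp [unitVec]

theorem plusE_box {T : Finset (ℤ × ℤ)} {N : ℤ} (h : InBox T N) {e : ZB} (he : e ∈ plusE T) :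
    (|(zp e).1| ≤ N ∧ |(zp e).2| ≤ N) ∧ (|(zq e).1| ≤ N ∧ |(zq e).2| ≤ N) := by
  have hj := unitVec_abs e.2
  have hq : zq e = zp e + unitVec e.2 := rfl
  have h1 : (zq e).1 = (zp e).1 + (unitVec e.2).1 := by rw [hq]; rfl
  have h2 : (zq e).2 = (zp e).2 + (unitVec e.2).2 := by rw [hq]; rfl
  have a1 := abs_le.1 hj.1
  have a2 := abs_le.1 hj.2
  rcases mem_plusE.1 he with h3 | h3
  · have h4 := h _ h3
    have b1 := abs_le.1 (show |(zp e).1| ≤ N - 1 by linarith [h4.1])
    have b2 := abs_le.1 (show |(zp e).2| ≤ N - 1 by linarith [h4.2])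
    refine ⟨⟨abs_le.2 ⟨by linarith, by linarith⟩, abs_le.2 ⟨by linarith, by linarith⟩⟩,
      ⟨abs_le.2 ⟨by linarith, by linarith⟩, abs_le.2 ⟨by linarith, by linarith⟩⟩⟩
  · have h4 := h _ h3
    have b1 := abs_le.1 (show |(zq e).1| ≤ N - 1 by linarith [h4.1])
    have b2 := abs_le.1 (show |(zq e).2| ≤ N - 1 by linarith [h4.2])
    refine ⟨⟨abs_le.2 ⟨by linarith, by linarith⟩, abs_le.2 ⟨by linarith, by linarith⟩⟩,
      ⟨abs_le.2 ⟨by linarith, by linarith⟩, abs_le.2 ⟨by linarith, by linarith⟩⟩⟩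

/-- bond map to the torus -/
def tb (e : ZB) : TB L := (toTorus L e.1, e.2)

variable {L}

theorem transfer_torus {N : ℤ} (hN : 2 * N < L) {T : Finset (ℤ × ℤ)} (hT : InBox T N)
    {E : Finset ZB} (hE : E ⊆ plusE T) {n : ℕ} {u : Fin n → ℤ × ℤ} (hu : ∀ i, u i ∈ T) :
    EX K zp zq T E (sp u) =
      EX K (tp L) (tq L) (T.image (toTorus L)) (E.image (tb L)) (sp fun i => toTorus L (u i)) := by
  have hTb : ∀ v ∈ T, |v.1| ≤ N ∧ |v.2| ≤ N := fun v hv =>
    ⟨by linarith [(hT v hv).1], by linarith [(hT v hv).2]⟩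
  refine EX_transfer (toTorus L) (tb L) ?_ ?_ ?_ ?_ ?_ ?_ ?_
  · intro e he e' he' h
    unfold tb at h
    rw [Prod.mk.injEq] at h
    have := toTorus_inj L hN (plusE_box hT (hE he)).1 (plusE_box hT (hE he')).1 h.1
    exact Prod.ext this h.2
  · intro e _; rfl
  · intro e _
    show toTorus L e.1 + toTorus L (unitVec e.2) = toTorus L (zq e)
    rw [← toTorus_add]; rfl
  · intro v hv w hw h
    exact toTorus_inj L hN (hTb v hv) (hTb w hw) h
  · intro e he v hv h
    exact toTorus_inj L hN (plusE_box hT (hE he)).1 (hTb v hv) h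
  · intro e he v hv h
    exact toTorus_inj L hN (plusE_box hT (hE he)).2 (hTb v hv) h
  · intro A hA
    unfold sp
    refine Finset.prod_congr rfl fun i _ => ?_
    congr 1
    unfold minusOn
    have : toTorus L (u i) ∈ A.image (toTorus L) ↔ u i ∈ A := by
      constructor
      · intro h
        obtain ⟨w, hw, hw2⟩ := mem_image.1 h
        rw [← toTorus_inj L hN (hTb w (hA hw)) (hTb _ (hu i)) hw2]; exact hw
      · exact fun h => mem_image_of_mem _ h
    simp [this]

/-- torus correlations are below the plus correlations -/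
theorem torus_le_plus (hK : 0 ≤ K) {N : ℤ} (hN : 2 * N < L) {T : Finset (ℤ × ℤ)}
    (hT : InBox T N) {n : ℕ} {u : Fin n → ℤ × ℤ} (hu : ∀ i, u i ∈ T) :
    Gt L K u ≤ Gp K T u := by
  have h1 := EX_anti_sites (K := K) (p := tp L) (q := tq L) (E := univ) hK
    (sp_pos fun i => toTorus L (u i)) (subset_univ (T.image (toTorus L)))
  have h2 := EX_congr_bonds (K := K) (p := tp L) (q := tq L) (T := T.image (toTorus L))
    (F := sp fun i => toTorus L (u i)) (subset_univ ((plusE T).image (tb L))) ?_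
  · unfold Gt Gp
    rw [transfer_torus hN hT (Finset.Subset.refl _) hu, ← h2]
    exact h1
  · intro e he
    have he2 := (mem_sdiff.1 he).2
    constructor
    · intro h3
      obtain ⟨v, hv, hv2⟩ := mem_image.1 h3
      exact he2 (mem_image.2 ⟨(v, e.2), mem_plusE.2 (Or.inl hv), Prod.ext hv2 rfl⟩)
    · intro h3
      obtain ⟨v, hv, hv2⟩ := mem_image.1 h3
      refine he2 (mem_image.2 ⟨(v - unitVec e.2, e.2), mem_plusE.2 (Or.inr ?_), Prod.ext ?_ rfl⟩)
      · show v - unitVec e.2 + unitVec e.2 ∈ T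
        rw [sub_add_cancel]; exact hv
      · show toTorus L (v - unitVec e.2) = e.1
        have : toTorus L (v - unitVec e.2) + toTorus L (unitVec e.2) = e.1 + toTorus L (unitVec e.2) := by
          rw [← toTorus_add, sub_add_cancel]; exact hv2
        exact add_right_cancel this

/-- free correlations of a subgraph are below the torus correlations -/
theorem free_sub_le_torus (hK : 0 ≤ K) {N : ℤ} (hN : 2 * N < L) {T : Finset (ℤ × ℤ)}
    (hT : InBox T N) {E : Finset ZB} (hE : E ⊆ freeE T) {n : ℕ} {u : Fin n → ℤ × ℤ}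
    (hu : ∀ i, u i ∈ T) : EX K zp zq T E (sp u) ≤ Gt L K u := by
  have h0 := transfer_torus (K := K) hN hT (hE.trans (freeE_subset_plusE T)) hu
  have h1 := EX_drop_sites (K := K) (p := tp L) (q := tq L) (T := univ)
    (T' := T.image (toTorus L)) (E := E.image (tb L)) (F := sp fun i => toTorus L (u i))
    (subset_univ _) ?_ ?_
  · rw [h0, ← h1]
    exact EX_mono_bonds hK (sp_pos _) (subset_univ _)
  · intro e he
    obtain ⟨e', he', rfl⟩ := mem_image.1 he
    have h3 := mem_freeE.1 (hE he')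
    constructor
    · intro h4
      exact (mem_sdiff.1 h4).2 (mem_image_of_mem _ h3.1)
    · intro h4
      refine (mem_sdiff.1 h4).2 ?_
      have : tq L (tb L e') = toTorus L (zq e') := by
        show toTorus L e'.1 + toTorus L (unitVec e'.2) = toTorus L (zq e')
        rw [← toTorus_add]; rfl
      rw [this]
      exact mem_image_of_mem _ h3.2
  · intro A B _ hB
    unfold sp
    refine Finset.prod_congr rfl fun i _ => ?_
    have : toTorus L (u i) ∉ B := fun h3 => (mem_sdiff.1 (hB h3)).2 (mem_image_of_mem _ (hu i))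
    rw [spin_congr (A := A ∪ B) (B := A)]
    simp [this]


theorem exists_inBox (T : Finset (ℤ × ℤ)) : ∃ N : ℤ, InBox T N := by
  refine ⟨∑ v ∈ T, (|v.1| + |v.2| + 1), fun v hv => ?_⟩
  have h := Finset.single_le_sum (f := fun v : ℤ × ℤ => |v.1| + |v.2| + 1)
    (fun w _ => by positivity) hv
  have h1 := abs_nonneg v.1
  have h2 := abs_nonneg v.2
  exact ⟨by linarith, by linarith⟩

end torus

end Crest.Agent.R165.Gk1x422
end
end

-- ▼ part R165/U5Props_422

/-!
# Row 165 (S0250): interface of block U5 (normalisation of spin correlations at `lam = 0`) (helper422)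

See TEXT U5 (note 935).

* `Kc`, `TT D a`, `GB b T u` : spin correlations of the critical model on lattice points
* `Conf D n`, `LApp u x` : configurations, lattice approximations
* `SpinIn Lam` : inputs (I1) ratio limits and (I1c) covariance up to a constant
* `Merge` : merging, for discs (output of S1; input (I3))
* `TwoPt g` : two-point function of discs (output of S2)
* `SLim b n D x F` : scaling limit of a spin correlation
* `SpinOut b` : final output for the boundary condition `b`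
* `D0_eq_GB`, `spinLim_of_SLim` : bridge to `Top_683` / `Red_541`
-/

set_option autoImplicit false
set_option linter.unusedSectionVars false
set_option linter.unusedVariables false

noncomputable section

open Filter Topology Finset
open Crest.ProbabilityR.IsingModel

namespace Crest.Agent.R165.U5Px422

open Crest.Agent.R165.Gk0x422
open Crest.Agent.R165.Gk1x422
open Crest.Agent.R165.Topx683
open Crest.Agent.R165.Redx541

/-- critical coupling `β_c J` at `J = 1` -/
def Kc : ℝ := criticalBeta 1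

theorem Kc_nonneg : 0 ≤ Kc := by
  unfold Kc criticalBeta
  have h : 0 ≤ Real.log (1 + Real.sqrt 2) := Real.log_nonneg (by
    have := Real.sqrt_nonneg 2
    linarith)
  positivity

open Classical in
/-- the site set of `D` at mesh `a` as a finset (`∅` if infinite) -/
def TT (D : Set ℂ) (a : ℝ) : Finset (ℤ × ℤ) :=
  if h : (domainSites D a).Finite then h.toFinset else ∅

theorem mem_TT {D : Set ℂ} (hD : Bornology.IsBounded D) {a : ℝ} (ha : 0 < a) {z : ℤ × ℤ} :
    z ∈ TT D a ↔ meshPoint a z ∈ D := by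
  have h := domainSites_finite hD ha
  unfold TT
  rw [dif_pos h, Set.Finite.mem_toFinset]
  rfl

theorem TT_mono {D D' : Set ℂ} (hD' : Bornology.IsBounded D') (h : D ⊆ D') {a : ℝ} (ha : 0 < a) :
    TT D a ⊆ TT D' a := fun z hz =>
  (mem_TT hD' ha).2 (h ((mem_TT (hD'.subset h) ha).1 hz))

/-- critical spin correlations on a finite set of sites -/
def GB (b : BoundaryCondition) (T : Finset (ℤ × ℤ)) {n : ℕ} (u : Fin n → ℤ × ℤ) : ℝ :=
  match b with
  | .plus => Gp Kc T u
  | .free => Gf Kc T u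
  | .minus => (-1) ^ n * Gp Kc T u

/-- configurations of `n` distinct points of `D` -/
def Conf (D : Set ℂ) (n : ℕ) : Set (Fin n → ℂ) := {x | (∀ i, x i ∈ D) ∧ Function.Injective x}

/-- lattice approximation of `x` as the mesh `a ↓ 0` -/
def LApp {n : ℕ} (u : ℝ → Fin n → ℤ × ℤ) (x : Fin n → ℂ) : Prop :=
  ∀ i, Tendsto (fun a : ℝ => meshPoint a (u a i)) (𝓝[>] 0) (𝓝 (x i))

/-- the cases in which the spin correlation is not zero for a trivial reason -/
def Allow (b : BoundaryCondition) (n : ℕ) : Prop := b = .plus ∨ (b = .free ∧ Even n)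

/-- **inputs (I1), (I1c)** -/
structure SpinIn (Lam : BoundaryCondition → (n : ℕ) → Set ℂ → (Fin n → ℂ) → ℝ) : Prop where
  pos : ∀ b n D, Allow b n → IsC2JordanDomain D → ∀ x ∈ Conf D n, 0 < Lam b n D x
  ratio : ∀ b n D, Allow b n → IsC2JordanDomain D → ∀ x ∈ Conf D n, ∀ x' ∈ Conf D n,
    ∀ u u' : ℝ → Fin n → ℤ × ℤ, LApp u x → LApp u' x' →
      Tendsto (fun a : ℝ => GB b (TT D a) (u a) / GB b (TT D a) (u' a)) (𝓝[>] 0)
        (𝓝 (Lam b n D x / Lam b n D x'))
  cov : ∀ b n D D', Allow b n → IsC2JordanDomain D → IsC2JordanDomain D' → ∀ φ : ℂ → ℂ,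
    DifferentiableOn ℂ φ D → Set.BijOn φ D D' → ∃ k : ℝ, 0 < k ∧ ∀ x ∈ Conf D n,
      Lam b n D' (fun i => φ (x i)) * ∏ i, ‖deriv φ (x i)‖ ^ ((1 : ℝ) / 8) = k * Lam b n D x

/-- the plane correlations exist as limits of tori -/
def PlaneLim (P : {n : ℕ} → (Fin n → ℤ × ℤ) → ℝ) : Prop :=
  ∀ (n : ℕ) (u : Fin n → ℤ × ℤ),
    Tendsto (fun L : ℕ => Gt (L + 1) Kc u) atTop (𝓝 (P u))

/-- **merging (S1)**, for discs: the plus and the free two-point functions are asymptotically equal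
to the plane two-point function when the two points come together -/
def Merge (P : {n : ℕ} → (Fin n → ℤ × ℤ) → ℝ) : Prop :=
  ∀ (c : ℂ) (r : ℝ), 0 < r → ∀ z ∈ Metric.ball c r, ∀ ε > 0, ∃ δ > 0,
    ∀ x : Fin 2 → ℂ, x 0 ≠ x 1 → ‖x 0 - z‖ < δ → ‖x 1 - z‖ < δ → ∀ u, LApp u x →
      ∀ᶠ a in 𝓝[>] (0 : ℝ), 0 < P (u a) ∧
        GB .plus (TT (Metric.ball c r) a) (u a) ≤ (1 + ε) * P (u a) ∧
        (1 - ε) * P (u a) ≤ GB .free (TT (Metric.ball c r) a) (u a)

/-- scaling limit of a spin correlation -/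
def SLim (b : BoundaryCondition) {n : ℕ} (D : Set ℂ) (x : Fin n → ℂ) (F : ℝ) : Prop :=
  ∀ u : ℝ → Fin n → ℤ × ℤ, LApp u x →
    Tendsto (fun a : ℝ => a ^ (-((n : ℝ) / 8)) * GB b (TT D a) (u a)) (𝓝[>] 0) (𝓝 F)

/-- **two-point function of discs (S2)** -/
structure TwoPt (g : ℂ → ℝ → (Fin 2 → ℂ) → ℝ) : Prop where
  pos : ∀ (c : ℂ) (r : ℝ), 0 < r → ∀ x ∈ Conf (Metric.ball c r) 2, 0 < g c r x
  lim : ∀ (c : ℂ) (r : ℝ), 0 < r → ∀ x ∈ Conf (Metric.ball c r) 2,
    SLim .plus (Metric.ball c r) x (g c r x)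
  sim : ∀ (c : ℂ) (r : ℝ), 0 < r → ∀ x ∈ Conf (Metric.ball (0 : ℂ) 1) 2,
    g c r (fun i => c + r * x i) = r ^ (-(1 : ℝ) / 4) * g 0 1 x

/-- final output for the boundary condition `b` and `n` spins -/
def SpinOut (b : BoundaryCondition) (n : ℕ) : Prop :=
  ∃ F : Set ℂ → (Fin n → ℂ) → ℝ,
    (∀ D, IsC2JordanDomain D → ∀ x ∈ Conf D n, 0 < F D x ∧ SLim b D x (F D x)) ∧
    ∀ D D', IsC2JordanDomain D → IsC2JordanDomain D' → ∀ φ : ℂ → ℂ,
      DifferentiableOn ℂ φ D → Set.BijOn φ D D' → ∀ x ∈ Conf D n,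
        F D x = (∏ i, ‖deriv φ (x i)‖ ^ ((1 : ℝ) / 8)) * F D' (fun i => φ (x i))

/-! ### lattice approximations -/

theorem meshPoint_re (a : ℝ) (z : ℤ × ℤ) : (meshPoint a z).re = a * z.1 := rfl
theorem meshPoint_im (a : ℝ) (z : ℤ × ℤ) : (meshPoint a z).im = a * z.2 := rfl

theorem meshPoint_meshIndex {a : ℝ} (ha : 0 < a) (x : ℂ) :
    ‖meshPoint a (meshIndex a x) - x‖ ≤ 2 * a := by
  have key : ∀ t : ℝ, |a * (⌊t / a⌋ : ℝ) - t| ≤ a := by
    intro t
    have h1 := Int.floor_le (t / a)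
    have h2 := Int.lt_floor_add_one (t / a)
    rw [le_div_iff₀ ha] at h1
    rw [div_lt_iff₀ ha] at h2
    rw [abs_le]
    constructor <;> nlinarith
  refine (Complex.norm_le_abs_re_add_abs_im _).trans ?_
  rw [Complex.sub_re, Complex.sub_im, meshPoint_re, meshPoint_im]
  have h1 := key x.re
  have h2 := key x.im
  unfold meshIndex
  simp only
  linarith

theorem lapp_meshIndex {n : ℕ} (x : Fin n → ℂ) : LApp (fun a i => meshIndex a (x i)) x := by
  intro i
  rw [tendsto_iff_norm_sub_tendsto_zero]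
  have h : Tendsto (fun a : ℝ => 2 * a) (𝓝[>] 0) (𝓝 0) := by
    have : Tendsto (fun a : ℝ => 2 * a) (𝓝 0) (𝓝 (2 * 0)) := tendsto_id.const_mul 2
    rw [mul_zero] at this
    exact this.mono_left nhdsWithin_le_nhds
  refine squeeze_zero' (Eventually.of_forall fun _ => norm_nonneg _) ?_ h
  filter_upwards [self_mem_nhdsWithin] with a ha
  exact meshPoint_meshIndex ha (x i)

theorem LApp.mem {n : ℕ} {u : ℝ → Fin n → ℤ × ℤ} {x : Fin n → ℂ} (h : LApp u x) {D : Set ℂ}
    (hD : Bornology.IsBounded D) (hO : IsOpen D) (hx : ∀ i, x i ∈ D) :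
    ∀ᶠ a in 𝓝[>] (0 : ℝ), ∀ i, u a i ∈ TT D a := by
  have h1 : ∀ i, ∀ᶠ a in 𝓝[>] (0 : ℝ), meshPoint a (u a i) ∈ D := fun i =>
    (h i).eventually_mem (hO.mem_nhds (hx i))
  have h2 := eventually_all.2 h1
  filter_upwards [h2, self_mem_nhdsWithin] with a ha ha0 i
  exact (mem_TT hD ha0).2 (ha i)

/-! ### bridge to `Top_683` / `Red_541` -/

theorem domainExpect_GB (D : Set ℂ) (hD : Bornology.IsBounded D) {a : ℝ} (ha : 0 < a)
    (b : BoundaryCondition) (hb : b ≠ .minus) {n : ℕ} (u : Fin n → ℤ × ℤ) :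
    domainExpect D a b 1 0 0 (fun _ => 0) (criticalBeta 1) (sp u) = GB b (TT D a) u := by
  have h := domainSites_finite hD ha
  have hT : TT D a = h.toFinset := by unfold TT; rw [dif_pos h]
  cases b with
  | plus => rw [domainExpect_plus D a 1 0 _ _ h, mul_one, hT]; rfl
  | free => rw [domainExpect_free D a 1 0 _ _ h, mul_one, hT]; rfl
  | minus => exact absurd rfl hb


theorem D0c_eq_GB (D : Set ℂ) (hD : Bornology.IsBounded D) {a : ℝ} (ha : 0 < a)
    (b : BoundaryCondition) (hb : b ≠ .minus) {n : ℕ} (x : Fin n → ℂ) :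
    D0c D a b x (![] : Fin 0 → ℂ) ![] = GB b (TT D a) fun i => meshIndex a (x i) := by
  rw [← domainExpect_GB D hD ha b hb]
  unfold D0c Crest.Agent.R165.Centx541.domMom
  congr 1
  funext s
  simp [sp, Crest.Agent.R165.Centx541.obs]

/-- `SLim` gives the `SpinLim` of helper420 -/
theorem spinLim_of_SLim {D : Set ℂ} (hD : Bornology.IsBounded D) {b : BoundaryCondition}
    (hb : b ≠ .minus) {n : ℕ} {x : Fin n → ℂ} {F : ℝ} (h : SLim b D x F) :
    Tendsto (fun a : ℝ => scl n 0 a * D0c D a b x (![] : Fin 0 → ℂ) ![]) (𝓝[>] 0) (𝓝 F) := by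
  refine (h _ (lapp_meshIndex x)).congr' ?_
  filter_upwards [self_mem_nhdsWithin] with a ha
  rw [D0c_eq_GB D hD ha b hb]
  unfold scl
  simp

/-! ### elementary facts in this language -/

theorem GB_plus_mul_le (T : Finset (ℤ × ℤ)) {n m : ℕ} (u : Fin n → ℤ × ℤ) (v : Fin m → ℤ × ℤ) :
    GB .plus T u * GB .plus T v ≤ GB .plus T (Fin.append u v) := Gp_mul_le Kc_nonneg T u v

theorem GB_free_mul_le (T : Finset (ℤ × ℤ)) {n m : ℕ} (u : Fin n → ℤ × ℤ) (v : Fin m → ℤ × ℤ) :
    GB .free T u * GB .free T v ≤ GB .free T (Fin.append u v) := Gf_mul_le Kc_nonneg T u v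

theorem GB_plus_anti {T T' : Finset (ℤ × ℤ)} (h : T' ⊆ T) {n : ℕ} (u : Fin n → ℤ × ℤ) :
    GB .plus T u ≤ GB .plus T' u := Gp_anti Kc_nonneg h u

theorem GB_free_mono {T T' : Finset (ℤ × ℤ)} (h : T' ⊆ T) {n : ℕ} {u : Fin n → ℤ × ℤ}
    (hu : ∀ i, u i ∈ T') : GB .free T' u ≤ GB .free T u := Gf_mono Kc_nonneg h hu

theorem GB_nonneg {b : BoundaryCondition} (hb : b ≠ .minus) (T : Finset (ℤ × ℤ)) {n : ℕ}
    (u : Fin n → ℤ × ℤ) : 0 ≤ GB b T u := by
  cases b with
  | plus => exact Gp_nonneg Kc_nonneg T u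
  | free => exact Gf_nonneg Kc_nonneg T u
  | minus => exact absurd rfl hb

/-- the free correlations are below the plane -/
theorem free_le_plane {P : {n : ℕ} → (Fin n → ℤ × ℤ) → ℝ} (hP : PlaneLim P) {T : Finset (ℤ × ℤ)}
    {E : Finset ZB} (hE : E ⊆ freeE T) {n : ℕ} {u : Fin n → ℤ × ℤ} (hu : ∀ i, u i ∈ T) :
    EX Kc zp zq T E (sp u) ≤ P u := by
  obtain ⟨N, hN⟩ := exists_inBox T
  refine ge_of_tendsto (hP n u) ?_
  filter_upwards [eventually_ge_atTop (2 * N.toNat + 1)] with L hL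
  refine free_sub_le_torus Kc_nonneg (N := N) ?_ hN hE hu
  have h1 := Int.self_le_toNat N
  push_cast
  have h2 : ((2 * N.toNat + 1 : ℕ) : ℤ) ≤ (L : ℤ) := by exact_mod_cast hL
  push_cast at h2
  linarith

/-- the plane correlations are below plus -/
theorem plane_le_plus {P : {n : ℕ} → (Fin n → ℤ × ℤ) → ℝ} (hP : PlaneLim P) {T : Finset (ℤ × ℤ)}
    {n : ℕ} {u : Fin n → ℤ × ℤ} (hu : ∀ i, u i ∈ T) : P u ≤ GB .plus T u := by
  obtain ⟨N, hN⟩ := exists_inBox T
  refine le_of_tendsto (hP n u) ?_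
  filter_upwards [eventually_ge_atTop (2 * N.toNat + 1)] with L hL
  refine torus_le_plus Kc_nonneg (N := N) ?_ hN hu
  have h1 := Int.self_le_toNat N
  push_cast
  have h2 : ((2 * N.toNat + 1 : ℕ) : ℤ) ≤ (L : ℤ) := by exact_mod_cast hL
  push_cast at h2
  linarith

end Crest.Agent.R165.U5Px422
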