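import Crest.Agent.R165.JRunV_445
import Crest.Agent.R165.TorRep_599
import Crest.Agent.R165.Fin4_315
import Crest.Agent.R165.PinLim_723
import Crest.Agent.R165.K0SrcT_722
import Crest.Agent.R165.DiscMk2_117
import Crest.Agent.R165.SrcReal_583
import Crest.Agent.R165.FarB_900
import Crest.Agent.R165.MarkEq_723
import Crest.Agent.R165.K0Src_722
import Crest.Agent.R165.U5Props_422
import Crest.Agent.R165.PlB_117
import Crest.Agent.R165.Bkg3_683

-- ▼ part R165/JRunR_445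
section

/-!
# Row 165 (S0250): bond expectations of domains and runs with a real source (helper445)

Generic real sources: any `src : Srcs κ ℤ (Ge (Fld ℤ))` with `src.as k = algebraMap (τ k)`.

* `K00_real` : `EEG (covS S) (ZZ (=) Λ (K00 P id src)) = csD T z Λ * EG' (TH (gw w) (GT * ∏ (1 + τ_k F_k)))`
* `domE_real` : `E_D[F] * EXf 1 = EXf F` (no insertions) for every `F` of the eps-algebra
* `runM hS c P h5 mk src hmem v N` : the run with marks `mk` and sources `src`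
* `domE_run` : `1 + t E_D[F] = (runM (source 1 + t F)).start / (runM (source 1)).start`
* `disc_run` : the same for `discBonds`, large discs
-/

set_option autoImplicit false
set_option linter.unusedSectionVars false

noncomputable section

open Finset Filter Topology
open Crest.ProbabilityR.IsingModel

namespace Crest.Agent.R165.JRunx445

open Crest.Agent.R165.Gr0x606 Crest.Agent.R165.Gr1x606 Crest.Agent.R165.GeOpsx337
  Crest.Agent.R165.ExpGx337 Crest.Agent.R165.KStepx892 Crest.Agent.R165.KFlowx337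
  Crest.Agent.R165.SrcDefx991 Crest.Agent.R165.SRabsx900 Crest.Agent.R165.KInitx892
open Crest.Agent.R165.Latx683 (BW wDom ray wX wPl IsCov covS Fld HE xc)
open Crest.Agent.R165.GDefx387 Crest.Agent.R165.GSysx387 Crest.Agent.R165.GSysOKx439
  Crest.Agent.R165.FRDPolyx439 Crest.Agent.R165.BgIsox432
open Crest.Agent.R165.Bkgx683 Crest.Agent.R165.Outx683
open Crest.Agent.R165.PEndx683 (Cst)
open Crest.Agent.R165.J4Defx653 (tpot tr TrInv Rng epsE)
open Crest.Agent.R165.J4Lnkx653 (tpot_even tpot_rng domE_spins DepOn J2On Nsum_pos GT_eval)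
open Crest.Agent.R165.J4RRx653 (RR RIn TH TH_mul_sq)
open Crest.Agent.R165.J2ax606 (bar)
open Crest.Agent.R165.J4K0x126 (Bk Fr)
open Crest.Agent.R165.J4Geox126 (faE Yf)
open Crest.Agent.R165.J4Lnkx653 (frV frS gw EG' PL GT obR PL_dom fsr wD_nil)
open Crest.Agent.R165.Topx683 Crest.Agent.R165.Redx541 Crest.Agent.R165.Red2x541
  Crest.Agent.R165.Centx541 Crest.Agent.R165.Symx541 Crest.Agent.R165.SRx541
open Crest.Agent.R165.UKerx420 (wD Cof Sof Sof_spec Sof_skew)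
open Crest.Agent.R165.JDomAx606 Crest.Agent.R165.Fin2x315 Crest.Agent.R165.JVolx950
open Crest.Agent.R165.U5Px422 (TT mem_TT)
open Crest.Agent.R165.Telx337 (cc)
open Crest.Agent.R165.UDomCx420 (Nsum)

/-! ### the initial activities with real sources -/

section dom

variable {T : Finset (ℤ × ℤ)} {b : BoundaryCondition} {n : ℕ} {X : Fin n → ℤ × ℤ}
  {κ : Type} [DecidableEq κ] [Fintype κ]

/-- **real sources** -/
theorem K00_real {S : HE ℤ → HE ℤ → ℝ} (hS : IsCov (Bg.dom T b X).w S) (P : MPar)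
    (ht : TrInv P.t) (hr : Rng P.R P.t) (hev : ∀ S, P.t S ≠ 0 → Even S.card)
    (src : Srcs κ ℤ (Ge (Fld ℤ))) (τ : κ → ℝ) (hτ : ∀ k, src.as k = algebraMap ℝ _ (τ k))
    (hne : ∀ k, (src.Ys k).Nonempty) {Λ : Finset (ℤ × ℤ)} (v : Vol T b P.R src.Ys Λ) :
    EEG (covS S hS.skew) (ZZ (fun f g : ℤ × ℤ => f = g) Λ
      ((Bg.dom T b X).K00 P LinearMap.id src)) =
      csD T P.z Λ * EG' (covS S hS.skew)
        (TH (gw (Bg.dom T b X).w) (GT T b P.R P.t * ∏ k, (1 + τ k • src.Fs k))) := by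
  classical
  have h1 := TorRepx599.K0_real ((Bg.dom T b X).bk P src) τ hτ Λ
  rw [v.srcs hne, PL_dom ((Bg.dom T b X).bk P src) T b (fun _ _ => Iff.rfl) ht hr hev Λ v.BB] at h1
  have h2 := eeg_resc hS Λ (Λ.filter fun f => cor T f) (filter_subset _ _)
    (fun h hh => (volD_of_vol v).nb h (mem_filter.1 hh).2) ((Bg.dom T b X).bk P src).s
    (fun f hf => sc_off P fun hc => hf (mem_filter.2 ⟨(volD_of_vol v).cor f hc, hc⟩))
    (GT T b P.R P.t * ∏ k, (1 + τ k • src.Fs k))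
  have h3 : ∏ f ∈ Λ.filter (fun f => cor T f),
      ((Bg.dom T b X).bk P src).s f ^ 4 = csD T P.z Λ := prod_sc P Λ
  rw [h3, mul_comm (TH _ _)] at h2
  rw [← h2]
  congr 1

end dom

/-! ### expectations of elements of the eps-algebra -/

/-- the expectation of an observable of the eps-algebra in a domain, no insertions -/
theorem domE_real {D : Set ℂ} {a : ℝ} {b : BoundaryCondition} (hb : b ≠ BoundaryCondition.minus)
    (h : (domainSites D a).Finite) {J : ℝ} (hJ : J ≠ 0) (lam β : ℝ) {R : ℕ}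
    {V : Finset (ℤ × ℤ) → ℝ} (hV : TrInv V) (hr : Rng R V) (hev : ∀ A, V A ≠ 0 → Even A.card)
    (h0 : Lk D a b (fun i : Fin 0 => i.elim0)) (F : RR (Bkgx683.EG ℤ))
    (hF : b = BoundaryCondition.free → DepOn h.toFinset F) :
    domainExpect D a b J lam R V β (fun s => TH (epsE s) F) =
      EXf D a b J lam R V β h (fun i : Fin 0 => i.elim0) F /
        EXf D a b J lam R V β h (fun i : Fin 0 => i.elim0) 1 := by
  have hw : wD (UFinx420.isF b) D a (fun i : Fin 0 => i.elim0) = wDom (domainSites D a) (UFinx420.isF b) :=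
    wD_nil _ _ _ _
  have e1 := h0.on h (F * GD D a b J lam R V β h) fun hbf => (hF hbf).mul (GD_dep h hbf hev)
  have e2 := h0.on h (GD D a b J lam R V β h) fun hbf => GD_dep h hbf hev
  have hp : 0 < Nsum h.toFinset (wDom (domainSites D a) (UFinx420.isF b)) (fun _ => 1) := by
    have := Nsum_pos D a b h (1 : RR (Bkgx683.EG ℤ)) (fun s => by simp)
    simpa using this
  rw [domE_spins D a b hb h hJ lam β R V hV hr hev]
  have e3 : ∀ s, TH (epsE s) F * TH (epsE s) (GT h.toFinset b (max R 1) (tpot J lam β V)) =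
      TH (epsE s) (F * GD D a b J lam R V β h) := fun s => by
    rw [TH_mul_sq _ (J4Pathx653.epsE_sq s)]; rfl
  rw [hw] at e1 e2
  unfold EXf
  rw [hw, one_mul]
  unfold J2On at e1 e2
  simp only [e3]
  rw [e1]
  have e4 : Nsum h.toFinset (wDom (domainSites D a) (UFinx420.isF b))
      (fun s => TH (epsE s) (GT h.toFinset b (max R 1) (tpot J lam β V))) = _ := e2
  rw [e4, mul_div_mul_left _ _ hp.ne']

/-- `EXf` is linear -/
theorem EXf_add_smul (D : Set ℂ) (a : ℝ) (b : BoundaryCondition) (J lam : ℝ) (R : ℕ)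
    (V : Finset (ℤ × ℤ) → ℝ) (β : ℝ) (h : (domainSites D a).Finite) {n : ℕ} (X : Fin n → ℤ × ℤ)
    (F F' : RR (Bkgx683.EG ℤ)) (t : ℝ) :
    EXf D a b J lam R V β h X (F + t • F') =
      EXf D a b J lam R V β h X F + t * EXf D a b J lam R V β h X F' := by
  unfold EXf
  rw [add_mul, smul_mul_assoc, map_add, map_smul, J4Lnkx653.EG'_add, J4Lnkx653.EG'_smul]

/-- the denominator is positive -/
theorem EXf_one_pos {D : Set ℂ} {a : ℝ} {b : BoundaryCondition} (h : (domainSites D a).Finite)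
    {J lam : ℝ} {R : ℕ} {V : Finset (ℤ × ℤ) → ℝ} {β : ℝ} (hev : ∀ A, V A ≠ 0 → Even A.card)
    (h0 : Lk D a b (fun i : Fin 0 => i.elim0)) :
    0 < EXf D a b J lam R V β h (fun i : Fin 0 => i.elim0) 1 := by
  have h1 := E0_pos (J := J) (lam := lam) (R := R) (β := β) h hev h0
  have e : EXf D a b J lam R V β h (fun i : Fin 0 => i.elim0) 1 = E0f D a b J lam R V β h := by
    rw [EXf, E0f, one_mul, wD_nil]
  rw [e]
  exact h1

/-! ### runs with marks and real sources -/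

section run

variable {T : Finset (ℤ × ℤ)} {b : BoundaryCondition} {n : ℕ} {X : Fin n → ℤ × ℤ}
  {κ : Type} [DecidableEq κ] [Fintype κ]

theorem okM (c : Cst) (P : MPar) (T : Finset (ℤ × ℤ)) (b : BoundaryCondition) {n : ℕ}
    (X : Fin n → ℤ × ℤ) (h5 : 5 ≤ c.p * (c.k0 + 1)) (mk : Finset (ℤ × ℤ))
    (src : Srcs κ ℤ (Ge (Fld ℤ)))
    (hmem : ∀ k, (src.Ys k).Nonempty → src.as k ∈ grG (fldU (src.Ys k))) :
    ((Bg.dom T b X).flow P DD mk src c.p c.k0).OK ⊥ :=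
  sys_OK DD (by norm_num) _ mk h5 fun U => K0_fldU _ P src hmem c.p c.k0 U

theorem suppM (c : Cst) (P : MPar) (mk : Finset (ℤ × ℤ)) (src : Srcs κ ℤ (Ge (Fld ℤ)))
    {Λ : Finset (ℤ × ℤ)} (v : Vol T b P.R src.Ys Λ) (U : Finset (ℤ × ℤ)) (hU : ¬ U ⊆ Λ) :
    ((Bg.dom T b X).flow P DD mk src c.p c.k0).K0 U = 0 := v.supp1 LinearMap.id c.p c.k0 U hU

/-- **the run with marks `mk` and sources `src`** -/
def runM {S : HE ℤ → HE ℤ → ℝ} (hS : Inv (Bg.dom T b X).w S) (c : Cst) (P : MPar)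
    (h5 : 5 ≤ c.p * (c.k0 + 1)) (mk : Finset (ℤ × ℤ)) (src : Srcs κ ℤ (Ge (Fld ℤ)))
    (hmem : ∀ k, (src.Ys k).Nonempty → src.as k ∈ grG (fldU (src.Ys k)))
    {Λ : Finset (ℤ × ℤ)} (v : Vol T b P.R src.Ys Λ) (N : ℕ) :
    Run (ℤ × ℤ) (Fld ℤ) :=
  runOf DD hS mk c.p c.k0 ((Bg.dom T b X).K0 P LinearMap.id src c.p c.k0)
    (okM c P T b X h5 mk src hmem) Λ (suppM c P mk src v) N

variable {S : HE ℤ → HE ℤ → ℝ} (hS : Inv (Bg.dom T b X).w S) (c : Cst) (P : MPar)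
    (h5 : 5 ≤ c.p * (c.k0 + 1)) (mk : Finset (ℤ × ℤ)) (src : Srcs κ ℤ (Ge (Fld ℤ)))
    (hmem : ∀ k, (src.Ys k).Nonempty → src.as k ∈ grG (fldU (src.Ys k)))
    {Λ : Finset (ℤ × ℤ)} (v : Vol T b P.R src.Ys Λ) (N : ℕ)


theorem runM_n : (runM hS c P h5 mk src hmem v N).n = N := rfl

theorem runM_c (k : ℕ) (U : Finset (ℤ × ℤ)) : (runM hS c P h5 mk src hmem v N).c k U =
    cc ((Bg.dom T b X).flow P DD mk src c.p c.k0) k U := rfl

theorem runM_fin : (runM hS c P h5 mk src hmem v N).fin =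
    EEG (hS.last DD c.p c.k0 N) (ZZ (near c.p c.k0 N) Λ
      (((Bg.dom T b X).flow P DD mk src c.p c.k0).K N)) := rfl

theorem runM_start : (runM hS c P h5 mk src hmem v N).start =
    EEG (covS S hS.skew) (ZZ (fun f g : ℤ × ℤ => f = g) Λ
      ((Bg.dom T b X).K00 P LinearMap.id src)) := by
  rw [ZZ_K1 (near' := near c.p c.k0 0) ((okM c P T b X h5 mk src hmem).near_symm 0)
    ((okM c P T b X h5 mk src hmem).near_refl 0) Λ _]
  rfl

theorem cM_empty (k : ℕ) : cc ((Bg.dom T b X).flow P DD mk src c.p c.k0) k ∅ = 0 := by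
  rw [cc, Telx337.H_empty, map_zero]
  exact JVolx950.K0_empty (Bg.dom T b X) P LinearMap.id src c.p c.k0

theorem runM_c_empty (k : ℕ) : (runM hS c P h5 mk src hmem v N).c k ∅ = 0 := by
  rw [runM_c]
  exact cM_empty c P mk src k

end run

/-- **the ratio of two runs with sources** -/
theorem ratio_totalM {T : Finset (ℤ × ℤ)} {b : BoundaryCondition} {n m : ℕ} {X : Fin n → ℤ × ℤ}
    {Y : Fin m → ℤ × ℤ} {κ κ' : Type} [DecidableEq κ] [Fintype κ] [DecidableEq κ'] [Fintype κ']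
    {S S' : HE ℤ → HE ℤ → ℝ} (hX : Inv (Bg.dom T b X).w S)
    (hY : Inv (Bg.dom T b Y).w S') (c : Cst) (P : MPar) (h5 : 5 ≤ c.p * (c.k0 + 1))
    (mk mk' : Finset (ℤ × ℤ)) (src : Srcs κ ℤ (Ge (Fld ℤ))) (src' : Srcs κ' ℤ (Ge (Fld ℤ)))
    (hmem : ∀ k, (src.Ys k).Nonempty → src.as k ∈ grG (fldU (src.Ys k)))
    (hmem' : ∀ k, (src'.Ys k).Nonempty → src'.as k ∈ grG (fldU (src'.Ys k)))
    {Λ Λ' : Finset (ℤ × ℤ)} (v : Vol T b P.R src.Ys Λ) (v' : Vol T b P.R src'.Ys Λ') (N : ℕ) :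
    (runM hX c P h5 mk src hmem v N).start / (runM hY c P h5 mk' src' hmem' v' N).start =
      Real.exp (∑ k ∈ range N, ∑' U, (cc ((Bg.dom T b X).flow P DD mk src c.p c.k0) k U -
        cc ((Bg.dom T b Y).flow P DD mk' src' c.p c.k0) k U)) *
        ((runM hX c P h5 mk src hmem v N).fin / (runM hY c P h5 mk' src' hmem' v' N).fin) := by
  have h := ratio_eq (runM hX c P h5 mk src hmem v N) (runM hY c P h5 mk' src' hmem' v' N)
    ((runM_n hX c P h5 mk src hmem v N).trans (runM_n hY c P h5 mk' src' hmem' v' N).symm)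
    (fun k _ => runM_c_empty hX c P h5 mk src hmem v N k)
    (fun k _ => runM_c_empty hY c P h5 mk' src' hmem' v' N k)
  simp only [runM_c, runM_n] at h
  exact h

/-! ### the model -/

/-- **the initial value of a run with real sources** -/
theorem Links.start {D : Set ℂ} {a : ℝ} {b : BoundaryCondition} {n : ℕ} {X : Fin n → ℤ × ℤ}
    (hX : Links D a b X) {J lam : ℝ} {R : ℕ} {V : Finset (ℤ × ℤ) → ℝ} {β z : ℝ}
    (hV : VHyp R V) (c : Cst) (h5 : 5 ≤ c.p * (c.k0 + 1)) (mk : Finset (ℤ × ℤ))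
    {κ : Type} [DecidableEq κ] [Fintype κ] (src : Srcs κ ℤ (Ge (Fld ℤ))) (τ : κ → ℝ)
    (hτ : ∀ k, src.as k = algebraMap ℝ _ (τ k)) (hne : ∀ k, (src.Ys k).Nonempty)
    (hmem : ∀ k, (src.Ys k).Nonempty → src.as k ∈ grG (fldU (src.Ys k)))
    {Λ : Finset (ℤ × ℤ)} (v : Vol (TT D a) b (mpar J lam R V β z).R src.Ys Λ) (N : ℕ) :
    (runM hX.invB c (mpar J lam R V β z) h5 mk src hmem v N).start =
      csD (TT D a) z Λ * EXf D a b J lam R V β hX.fin X (∏ k, (1 + τ k • src.Fs k)) := by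
  rw [runM_start]
  have hex : ∃ S, IsCov (Bg.dom (TT D a) b X).w S := by
    rw [hX.w]; exact hX.lk.ex
  have h := K00_real (Sof_spec hex) (mpar J lam R V β z) (TrInv.tpot hV.trans)
    (tpot_rng hV.range) (tpot_even hV.even) src τ hτ hne v
  have h2 : covS (Sof (Bg.dom (TT D a) b X).w) (Sof_spec hex).skew =
      Cof (Bg.dom (TT D a) b X).w := rfl
  rw [h2, hX.w, mul_comm (GT _ _ _ _)] at h
  unfold EXf GD
  change EEG (Cof (Bg.dom (TT D a) b X).w) _ = _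
  rw [← hX.tt, hX.w]
  exact h

/-- **ratio of expectations = ratio of the initial values of two runs with real sources** -/
theorem Links.start_ratio {D : Set ℂ} {a : ℝ} {b : BoundaryCondition} {n : ℕ}
    {X : Fin n → ℤ × ℤ} (hX : Links D a b X) {J lam : ℝ} {R : ℕ} {V : Finset (ℤ × ℤ) → ℝ}
    {β z : ℝ} (hz : 0 < 1 + z)
    (hV : VHyp R V) (c : Cst) (h5 : 5 ≤ c.p * (c.k0 + 1)) (mk mk' : Finset (ℤ × ℤ))
    {κ κ' : Type} [DecidableEq κ] [Fintype κ] [DecidableEq κ'] [Fintype κ']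
    (src : Srcs κ ℤ (Ge (Fld ℤ))) (src' : Srcs κ' ℤ (Ge (Fld ℤ))) (τ : κ → ℝ) (τ' : κ' → ℝ)
    (hτ : ∀ k, src.as k = algebraMap ℝ _ (τ k)) (hτ' : ∀ k, src'.as k = algebraMap ℝ _ (τ' k))
    (hne : ∀ k, (src.Ys k).Nonempty) (hne' : ∀ k, (src'.Ys k).Nonempty)
    (hmem : ∀ k, (src.Ys k).Nonempty → src.as k ∈ grG (fldU (src.Ys k)))
    (hmem' : ∀ k, (src'.Ys k).Nonempty → src'.as k ∈ grG (fldU (src'.Ys k)))
    {Λ : Finset (ℤ × ℤ)} (v : Vol (TT D a) b (mpar J lam R V β z).R src.Ys Λ)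
    (v' : Vol (TT D a) b (mpar J lam R V β z).R src'.Ys Λ) (N : ℕ) :
    (runM hX.invB c (mpar J lam R V β z) h5 mk src hmem v N).start /
        (runM hX.invB c (mpar J lam R V β z) h5 mk' src' hmem' v' N).start =
      EXf D a b J lam R V β hX.fin X (∏ k, (1 + τ k • src.Fs k)) /
        EXf D a b J lam R V β hX.fin X (∏ k, (1 + τ' k • src'.Fs k)) := by
  rw [hX.start hV c h5 mk src τ hτ hne hmem v N, hX.start hV c h5 mk' src' τ' hτ' hne' hmem' v' N,
    mul_div_mul_left _ _ (csD_ne _ hz _)]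

/-- **one real source**: `1 + t E_D[F]` is the ratio of two runs, any marks, generic record -/
theorem Links.one_add {D : Set ℂ} {a : ℝ} {b : BoundaryCondition}
    (hX : Links D a b (fun i : Fin 0 => i.elim0)) (hb : b ≠ BoundaryCondition.minus)
    {J : ℝ} (hJ : J ≠ 0) {lam : ℝ} {R : ℕ} {V : Finset (ℤ × ℤ) → ℝ} {β z : ℝ} (hz : 0 < 1 + z)
    (hV : VHyp R V) (c : Cst) (h5 : 5 ≤ c.p * (c.k0 + 1)) (mk mk' : Finset (ℤ × ℤ))
    {κ κ' : Type} [DecidableEq κ] [Fintype κ] [DecidableEq κ'] [Fintype κ']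
    (src : Srcs κ ℤ (Ge (Fld ℤ))) (src' : Srcs κ' ℤ (Ge (Fld ℤ))) (τ : κ → ℝ) (τ' : κ' → ℝ)
    (hτ : ∀ k, src.as k = algebraMap ℝ _ (τ k)) (hτ' : ∀ k, src'.as k = algebraMap ℝ _ (τ' k))
    (hne : ∀ k, (src.Ys k).Nonempty) (hne' : ∀ k, (src'.Ys k).Nonempty)
    (hmem : ∀ k, (src.Ys k).Nonempty → src.as k ∈ grG (fldU (src.Ys k)))
    (hmem' : ∀ k, (src'.Ys k).Nonempty → src'.as k ∈ grG (fldU (src'.Ys k)))
    {Λ : Finset (ℤ × ℤ)} (v : Vol (TT D a) b (mpar J lam R V β z).R src.Ys Λ)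
    (v' : Vol (TT D a) b (mpar J lam R V β z).R src'.Ys Λ) (N : ℕ)
    (t : ℝ) (F : RR (Bkgx683.EG ℤ)) (hF : b = BoundaryCondition.free → DepOn hX.fin.toFinset F)
    (hs : ∏ k, (1 + τ k • src.Fs k) = 1 + t • F) (hs' : ∏ k, (1 + τ' k • src'.Fs k) = 1) :
    1 + t * domainExpect D a b J lam R V β (fun s => TH (epsE s) F) =
      (runM hX.invB c (mpar J lam R V β z) h5 mk src hmem v N).start /
        (runM hX.invB c (mpar J lam R V β z) h5 mk' src' hmem' v' N).start := by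
  rw [hX.start_ratio hz hV c h5 mk mk' src src' τ τ' hτ hτ' hne hne' hmem hmem' v v' N, hs, hs',
    EXf_add_smul, domE_real hb hX.fin hJ lam β hV.trans hV.range hV.even hX.lk F hF, add_div,
    div_self (EXf_one_pos hX.fin hV.even hX.lk).ne', mul_div_assoc]

theorem TH_epS (s : ℤ × ℤ → Bool) (S : Finset (Bkgx683.EG ℤ)) :
    TH (epsE s) (∏ e ∈ S, J4RRx653.ep (Finsupp.single e 1)) = ∏ e ∈ S, Symx541.ep e s := by
  rw [J4RRx653.TH_prod_sq _ (J4Pathx653.epsE_sq s)]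
  refine prod_congr rfl fun e _ => ?_
  rw [J4Pathx653.TH_single]
  rfl

/-- **bond expectations in large discs**, generic real source -/
theorem disc_run : ∀ᶠ B : ℝ in atTop,
    ∃ (hX : Links (Metric.ball (0 : ℂ) B) 1 .plus (fun i : Fin 0 => i.elim0)),
      ∀ (J : ℝ), J ≠ 0 → ∀ (R : ℕ) (V : Finset (ℤ × ℤ) → ℝ), VHyp R V → ∀ (c : Cst)
        (h5 : 5 ≤ c.p * (c.k0 + 1)) (lam β z : ℝ), 0 < 1 + z → ∀ (mk mk' : Finset (ℤ × ℤ))
        (src src' : Srcs (Fin 1) ℤ (Ge (Fld ℤ))) (t : ℝ) (S : Finset (Bkgx683.EG ℤ))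
        (_ : ∀ k, src.as k = algebraMap ℝ _ t) (_ : ∀ k, src'.as k = algebraMap ℝ _ 0)
        (_ : ∀ k, src.Fs k = ∏ e ∈ S, J4RRx653.ep (Finsupp.single e 1))
        (_ : ∀ k, (src.Ys k).Nonempty) (_ : ∀ k, (src'.Ys k).Nonempty)
        (hmem : ∀ k, (src.Ys k).Nonempty → src.as k ∈ grG (fldU (src.Ys k)))
        (hmem' : ∀ k, (src'.Ys k).Nonempty → src'.as k ∈ grG (fldU (src'.Ys k)))
        (Λ : Finset (ℤ × ℤ))
        (v : Vol (TT (Metric.ball (0 : ℂ) B) 1) .plus (mpar J lam R V β z).R src.Ys Λ)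
        (v' : Vol (TT (Metric.ball (0 : ℂ) B) 1) .plus (mpar J lam R V β z).R src'.Ys Λ) (N : ℕ),
        1 + t * Mastx541.discBonds B J lam R V β S =
            (runM hX.invB c (mpar J lam R V β z) h5 mk src hmem v N).start /
              (runM hX.invB c (mpar J lam R V β z) h5 mk' src' hmem' v' N).start := by
  filter_upwards [links_disc one_pos] with B hB
  refine ⟨hB 0 _, fun J hJ R V hV c h5 lam β z hz mk mk' src src' t S h1 h2 h3 hne hne' hmem hmem' Λ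
    v v' N => ?_⟩
  have h := (hB 0 (fun i : Fin 0 => i.elim0)).one_add (by decide) hJ (lam := lam) (β := β) hz hV c h5
    mk mk' src src' (fun _ => t) (fun _ => 0) h1 h2 hne hne' hmem hmem' v v' N t
    (∏ e ∈ S, J4RRx653.ep (Finsupp.single e 1)) (fun h => absurd h (by decide))
    (by rw [Fintype.prod_unique, h3]) (by simp)
  rw [← h]
  congr 2
  unfold Mastx541.discBonds
  congr 1
  funext s
  exact (TH_epS s S).symm

end Crest.Agent.R165.JRunx445
end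
end

-- ▼ part R165/DisFin_892
section

/-!
# Row 165 (S0250): the last step in growing discs and the limit of `1 + t * discBonds` (helper892)

Mesh one, discs `ball 0 B`, `B → ∞`, any source record, any marks.

* `TB B`, `dB B` : sites of the disc and its background (plus, no insertions)
* `fin_disc`  : the last factor of a run tends to one, uniformly in the volume (box), from the
  bound `NK → 0` of the activities at the last scale
* `ratio_disc`: `1 + t * discBonds B → exp (expo P1 P2)` from `PinData`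
-/

set_option autoImplicit false
set_option linter.unusedSectionVars false

noncomputable section

open Finset Filter Topology
open scoped ENNReal
open Crest.ProbabilityR.IsingModel

namespace Crest.Agent.R165.DisFinx892

open Crest.Agent.R165.Gr0x606 Crest.Agent.R165.Gr1x606 Crest.Agent.R165.GeOpsx337
  Crest.Agent.R165.ExpGx337 Crest.Agent.R165.KStepx892 Crest.Agent.R165.KFlowx337
  Crest.Agent.R165.SRabsx900 Crest.Agent.R165.KInitx892
open Crest.Agent.R165.Latx683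
open Crest.Agent.R165.GDefx387 Crest.Agent.R165.GSysx387 Crest.Agent.R165.GSysOKx439
  Crest.Agent.R165.FRDPolyx439 Crest.Agent.R165.BgIsox432
open Crest.Agent.R165.Bkgx683 Crest.Agent.R165.Outx683
open Crest.Agent.R165.PEndx683 (Cst)
open Crest.Agent.R165.Topx683 Crest.Agent.R165.Fin2x315 Crest.Agent.R165.Fin3x315
  Crest.Agent.R165.Fin4x315 Crest.Agent.R165.JVolx950 Crest.Agent.R165.JRunx445
open Crest.Agent.R165.U5Px422 (TT mem_TT)
open Crest.Agent.R165.Telx337 (cc)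
open Crest.Agent.R165.Bridgex915 Crest.Agent.R165.PinSysx723 Crest.Agent.R165.K0Srcx722

/-- the sites of the disc of radius `B` at mesh one -/
abbrev TB (B : ℝ) : Finset (ℤ × ℤ) := TT (Metric.ball (0 : ℂ) B) 1

/-- the background of the disc of radius `B` at mesh one -/
abbrev dB (B : ℝ) : Bg ℤ := Bg.dom (TB B) .plus (fun i : Fin 0 => i.elim0)


theorem TB_box {B : ℝ} {z : ℤ × ℤ} (hz : z ∈ TB B) :
    |((z.1 : ℝ) - ((0, 0) : ℤ × ℤ).1)| ≤ B ∧ |((z.2 : ℝ) - ((0, 0) : ℤ × ℤ).2)| ≤ B := by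
  have h0 : z ∈ domainSites (Metric.ball (0 : ℂ) B) 1 := by
    have h1 : z ∈ TT (Metric.ball (0 : ℂ) B) 1 := hz
    unfold TT at h1
    split_ifs at h1 with h
    · exact h.mem_toFinset.1 h1
    · exact absurd h1 (notMem_empty _)
  have h := GapFinx40.sites_le (D := Metric.ball (0 : ℂ) B) (B := B) (a := 1)
    (fun z hz => (mem_ball_zero_iff.1 hz).le) one_pos z h0
  rwa [div_one] at h

/-- **the last factor in growing discs**, any record of sources, any marks -/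
theorem fin_disc {κ : Type} [DecidableEq κ] [Fintype κ] (c : Cst) (P : MPar)
    (mk : Finset (ℤ × ℤ)) (src : Srcs κ ℤ (Ge (Fld ℤ))) (hΓ : 1 ≤ c.Γ)
    {Kf : ℝ → ℕ} {κ' : ℝ} (hκ : 0 < κ') (hKf : ∀ᶠ B in atTop, κ' * B ≤ rr c.p c.k0 (Kf B))
    {A : ℝ → ℝ} (hA : Tendsto A atTop atTop)
    (hN : Tendsto (fun B => NK (dB B).w (A B) (rr c.p c.k0 (Kf B)) (ENNReal.ofReal c.Γ)
      (fun _ => True) (fun U => ((((dB B).flow P DD mk src c.p c.k0).K (Kf B) U : Ge (Fld ℤ)) :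
        Gr (Fld ℤ)))) atTop (𝓝 0)) (Cv : ℝ) (hCv : 0 ≤ Cv) :
    ∃ η : ℝ → ℝ, Tendsto η atTop (𝓝 0) ∧ ∀ᶠ B in atTop,
      ∀ (S : HE ℤ → HE ℤ → ℝ) (hS : Inv (dB B).w S) (h5 : 5 ≤ c.p * (c.k0 + 1))
        (hmem : ∀ k, (src.Ys k).Nonempty → src.as k ∈ grG (fldU (src.Ys k)))
        (Λ : Finset (ℤ × ℤ)) (v : Vol (TB B) .plus P.R src.Ys Λ)
        (_ : ∀ f ∈ Λ, (fd ((0, 0) : ℤ × ℤ) f : ℝ) ≤ Cv * B),
        |(runM hS c P h5 mk src hmem v (Kf B)).fin - 1| ≤ η B := by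
  set N : ℝ → ℝ≥0∞ := fun B => NK (dB B).w (A B) (rr c.p c.k0 (Kf B)) (ENNReal.ofReal c.Γ)
      (fun _ => True) (fun U => ((((dB B).flow P DD mk src c.p c.k0).K (Kf B) U : Ge (Fld ℤ)) :
        Gr (Fld ℤ))) with hNdef
  have hA1 : ∀ᶠ B in atTop, ampK DD.C κ' CPl ≤ A B := hA.eventually_ge_atTop _
  have hn1 := n_pos_of_lower (p := c.p) (k0 := c.k0) hκ (R := fun B : ℝ => B) tendsto_id hKf
  have hNr : Tendsto (fun B => (cntK κ' Cv : ℝ) * (N B).toReal) atTop (𝓝 0) := by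
    have h1 := (ENNReal.tendsto_toReal ENNReal.zero_ne_top).comp hN
    have h2 := h1.const_mul (cntK κ' Cv : ℝ)
    simpa using h2
  have hN1 : ∀ᶠ B in atTop, N B < 1 := hN.eventually_lt_const one_pos
  have hN2 : ∀ᶠ B in atTop, (cntK κ' Cv : ℝ) * (N B).toReal ≤ 1 := by
    filter_upwards [hNr.eventually_lt_const one_pos] with a ha using ha.le
  refine ⟨fun B => 2 * ((cntK κ' Cv : ℝ) * (N B).toReal), by simpa using hNr.const_mul 2, ?_⟩
  filter_upwards [hA1, hKf, hn1, hN1, hN2, eventually_ge_atTop (1 : ℝ)] with B h3 h4 h5' h7 h8 hB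
  intro S hS h5 hmem Λ v hΛ
  rw [runM_fin]
  refine zf_bound DD (by norm_num [MM]) hS (abs_wX_le _ _ _) h5' hκ (R := B) (Cg := CPl)
    (Cv := Cv) (by linarith) CPl_pos hCv h4 (fun f => ?_) h3
    (Γ := ENNReal.ofReal c.Γ) (by rw [← ENNReal.ofReal_one]; exact ENNReal.ofReal_le_ofReal hΓ)
    (near c.p c.k0 (Kf B)) (0, 0) Λ hΛ _ (by positivity) h8 ?_
  · exact gap_plus (fun i : Fin 0 => i.elim0) hB (fun f hf => TB_box hf) f
  · rw [ENNReal.ofReal_mul (by positivity), ENNReal.ofReal_toReal h7.ne_top, ENNReal.ofReal_natCast]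

/-- **the limit of `1 + t * discBonds`** -/
theorem ratio_disc {J : ℝ} (hJ : J ≠ 0) {R : ℕ} {V : Finset (ℤ × ℤ) → ℝ} (hV : VHyp R V)
    (c : Cst) (h5 : 5 ≤ c.p * (c.k0 + 1)) (hΓ : 1 ≤ c.Γ) {lam β z : ℝ} (hz : 0 < 1 + z)
    (mk : Finset (ℤ × ℤ)) {Y : Finset (ℤ × ℤ)} (hY : Y.Nonempty) {S : Finset (Bkgx683.EG ℤ)}
    {t : ℝ} {src src' : Srcs (Fin 1) ℤ (Ge (Fld ℤ))} (h1 : IsReal src Y S t)
    (h0 : IsReal src' Y S 0)
    {Kf : ℝ → ℕ} {κ' : ℝ} (hκ : 0 < κ') (hKf : ∀ᶠ B in atTop, κ' * B ≤ rr c.p c.k0 (Kf B))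
    {A : ℝ → ℝ} (hA : Tendsto A atTop atTop)
    (hN1 : Tendsto (fun B => NK (dB B).w (A B) (rr c.p c.k0 (Kf B)) (ENNReal.ofReal c.Γ)
      (fun _ => True) (fun U => ((((dB B).flow (mpar J lam R V β z) DD mk src c.p c.k0).K (Kf B) U :
        Ge (Fld ℤ)) : Gr (Fld ℤ)))) atTop (𝓝 0))
    (hN0 : Tendsto (fun B => NK (dB B).w (A B) (rr c.p c.k0 (Kf B)) (ENNReal.ofReal c.Γ)
      (fun _ => True) (fun U => ((((dB B).flow (mpar J lam R V β z) DD mk src' c.p c.k0).K (Kf B) U :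
        Ge (Fld ℤ)) : Gr (Fld ℤ)))) atTop (𝓝 0))
    {e : ℝ} (he : Tendsto (fun B => ∑ k ∈ range (Kf B), ∑' U,
      (cc ((dB B).flow (mpar J lam R V β z) DD mk src c.p c.k0) k U -
        cc ((dB B).flow (mpar J lam R V β z) DD mk src' c.p c.k0) k U)) atTop (𝓝 e)) :
    Tendsto (fun B : ℝ => 1 + t * Mastx541.discBonds B J lam R V β S) atTop (𝓝 (Real.exp e)) := by
  classical
  have hne1 : ∀ k, (src.Ys k).Nonempty := fun k => by
    rw [Subsingleton.elim k 0, h1.Ys]; exact hY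
  have hne0 : ∀ k, (src'.Ys k).Nonempty := fun k => by
    rw [Subsingleton.elim k 0, h0.Ys]; exact hY
  have hm1 : ∀ k, (src.Ys k).Nonempty → src.as k ∈ grG (fldU (src.Ys k)) := fun k _ => by
    rw [Subsingleton.elim k 0, h1.as]; exact Subalgebra.algebraMap_mem _ _
  have hm0 : ∀ k, (src'.Ys k).Nonempty → src'.as k ∈ grG (fldU (src'.Ys k)) := fun k _ => by
    rw [Subsingleton.elim k 0, h0.as]; exact Subalgebra.algebraMap_mem _ _
  -- the volume
  set P := mpar J lam R V β z with hP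
  obtain ⟨m0, hm0'⟩ : ∃ m0 : ℕ, ∀ f ∈ Y, fd ((0, 0) : ℤ × ℤ) f ≤ m0 :=
    ⟨Y.sup fun f => fd ((0, 0) : ℤ × ℤ) f, fun f hf => Finset.le_sup (f := fun f =>
      fd ((0, 0) : ℤ × ℤ) f) hf⟩
  set Λ : ℝ → Finset (ℤ × ℤ) := fun B => boxV (0, 0) (⌊B⌋₊ + P.R + 2 + m0) with hΛ
  have hvol : ∀ (B : ℝ) (Ys : Fin 1 → Finset (ℤ × ℤ)) (_ : Ys 0 = Y),
      Vol (TB B) .plus P.R Ys (Λ B) := by
    intro B Ys hYs
    refine vol_boxV (m₀ := ⌊B⌋₊) (fun z hz => ?_) (by omega) fun k f hf => ?_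
    · obtain ⟨a1, a2⟩ := TB_box hz
      exact Nat.le_floor (fd_le_real a1 a2)
    · rw [Subsingleton.elim k 0, hYs] at hf
      exact mem_boxV.2 ((hm0' f hf).trans (by omega))
  have v1 : ∀ B, Vol (TB B) .plus P.R src.Ys (Λ B) := fun B => hvol B _ h1.Ys
  have v0 : ∀ B, Vol (TB B) .plus P.R src'.Ys (Λ B) := fun B => hvol B _ h0.Ys
  have hΛf : ∀ᶠ B : ℝ in atTop, ∀ f ∈ Λ B, (fd ((0, 0) : ℤ × ℤ) f : ℝ) ≤
      (1 + ((P.R : ℝ) + 2 + m0)) * B := by
    filter_upwards [eventually_ge_atTop (1 : ℝ)] with B hB f hf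
    have a1 := mem_boxV.1 hf
    have a2 : (fd ((0, 0) : ℤ × ℤ) f : ℝ) ≤ (⌊B⌋₊ : ℝ) + P.R + 2 + m0 := by exact_mod_cast a1
    have a3 : (⌊B⌋₊ : ℝ) ≤ B := Nat.floor_le (by linarith)
    have a4 : ((P.R : ℝ) + 2 + m0) ≤ ((P.R : ℝ) + 2 + m0) * B :=
      le_mul_of_one_le_right (by positivity) hB
    linarith
  obtain ⟨η1, hη1, hf1⟩ := fin_disc c P mk src hΓ hκ hKf hA hN1 (1 + ((P.R : ℝ) + 2 + m0))
    (by positivity)
  obtain ⟨η0, hη0, hf0⟩ := fin_disc c P mk src' hΓ hκ hKf hA hN0 (1 + ((P.R : ℝ) + 2 + m0))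
    (by positivity)
  -- the last factors as functions
  have key : ∀ᶠ B : ℝ in atTop, ∃ z1 z0 : ℝ, |z1 - 1| ≤ η1 B ∧ |z0 - 1| ≤ η0 B ∧
      1 + t * Mastx541.discBonds B J lam R V β S =
        Real.exp (∑ k ∈ range (Kf B), ∑' U,
          (cc ((dB B).flow P DD mk src c.p c.k0) k U -
            cc ((dB B).flow P DD mk src' c.p c.k0) k U)) * (z1 / z0) := by
    filter_upwards [disc_run, hf1, hf0, hΛf] with B hB hB1 hB0 hL
    obtain ⟨hX, hB⟩ := hB
    have hrun := hB J hJ R V hV c h5 lam β z hz mk mk src src' t S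
      (fun k => by rw [Subsingleton.elim k 0, h1.as]) (fun k => by rw [Subsingleton.elim k 0, h0.as])
      (fun k => by rw [Subsingleton.elim k 0, h1.Fs]) hne1 hne0 hm1 hm0 (Λ B) (v1 B) (v0 B) (Kf B)
    refine ⟨_, _, hB1 _ hX.invB h5 hm1 (Λ B) (v1 B) hL, hB0 _ hX.invB h5 hm0 (Λ B) (v0 B) hL, ?_⟩
    rw [hrun, ratio_totalM]
  have hex := (Real.continuous_exp.tendsto _).comp he
  choose! z1 z0 hz1 hz0 hzz using fun B (h : ∃ z1 z0 : ℝ, |z1 - 1| ≤ η1 B ∧ |z0 - 1| ≤ η0 B ∧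
      1 + t * Mastx541.discBonds B J lam R V β S =
        Real.exp (∑ k ∈ range (Kf B), ∑' U,
          (cc ((dB B).flow P DD mk src c.p c.k0) k U -
            cc ((dB B).flow P DD mk src' c.p c.k0) k U)) * (z1 / z0)) => h
  have t1 : Tendsto z1 atTop (𝓝 1) := by
    rw [tendsto_iff_norm_sub_tendsto_zero]
    refine squeeze_zero' (Eventually.of_forall fun a => norm_nonneg _) ?_ hη1
    filter_upwards [key] with B hB
    rw [Real.norm_eq_abs]
    exact hz1 B hB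
  have t0 : Tendsto z0 atTop (𝓝 1) := by
    rw [tendsto_iff_norm_sub_tendsto_zero]
    refine squeeze_zero' (Eventually.of_forall fun a => norm_nonneg _) ?_ hη0
    filter_upwards [key] with B hB
    rw [Real.norm_eq_abs]
    exact hz0 B hB
  have h2 := hex.mul (t1.div t0 one_ne_zero)
  rw [div_one, mul_one] at h2
  refine h2.congr' ?_
  filter_upwards [key] with B hB
  exact (hzz B hB).symm

end Crest.Agent.R165.DisFinx892
end
end

-- ▼ part R165/DisG_892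
section

/-!
# Row 165 (S0250): the disc half of the limit of bond expectations, generic real source (helper892)

* `C0R J R V` : the initial activities with a real source are small (all backgrounds on `ℤ`)
* `disc_bounds` : for almost all constants: bounds `Bd` (sources `t` and `0`) and the bound of the
  last activities, up to the step `KB c δ B`
* `disc_lim` : `1 + t * discBonds B → exp (expo ..)`, from the bounds and the local equalities
-/

set_option autoImplicit false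
set_option linter.unusedSectionVars false

noncomputable section

open Finset Filter Topology
open scoped ENNReal
open Crest.ProbabilityR.IsingModel

namespace Crest.Agent.R165.DisGx892

open Crest.Agent.R165.Gr0x606 Crest.Agent.R165.Gr1x606 Crest.Agent.R165.GeOpsx337
  Crest.Agent.R165.KStepx892 Crest.Agent.R165.KFlowx337
open Crest.Agent.R165.Latx683
open Crest.Agent.R165.GDefx387 Crest.Agent.R165.GSysx387 Crest.Agent.R165.BgIsox432
open Crest.Agent.R165.Bkgx683 Crest.Agent.R165.Outx683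
open Crest.Agent.R165.PEndx683 Crest.Agent.R165.Topx683 Crest.Agent.R165.Constx891
open Crest.Agent.R165.U5Px422 (TT mem_TT)
open Crest.Agent.R165.Telx337 (cc)
open Crest.Agent.R165.SpinSysx892 Crest.Agent.R165.TorTanx723
open Crest.Agent.R165.Bridgex915 Crest.Agent.R165.PinSysx723 Crest.Agent.R165.K0Srcx722
open Crest.Agent.R165.DisFinx892 Crest.Agent.R165.DiscMkx117 Crest.Agent.R165.Fin3x315
open Crest.Agent.R165.TorNorm2x583 (PlB)

/-- **the initial activities with a real source are small**, all backgrounds on `ℤ`, connected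
supports -/
def C0R (J : ℝ) (R : ℕ) (V : Finset (ℤ × ℤ) → ℝ) : Prop :=
  EvC fun c => ∀ C η : ℝ, 0 < η → ∃ ε > 0, ∀ lam β z : ℝ, |lam| < ε → NearP J C lam β z →
    ∀ (Y : Finset (ℤ × ℤ)), Packx915.Conn fd 1 Y → ∀ (S : Finset (Bkgx683.EG ℤ)),
      ∃ t0 > 0, ∀ t : ℝ, |t| < t0 → ∀ B : Bg ℤ, (∀ z j, |B.w z j| ≤ 1) →
      ∀ src : Srcs (Fin 1) ℤ (Ge (Fld ℤ)), IsReal src Y S t →
        NK B.w c.A0 (rr c.p c.k0 0) (ENNReal.ofReal c.Γ) (fun _ => True)
          (fun U => ((B.K0 (mpar J lam R V β z) LinearMap.id src c.p c.k0 U : Ge (Fld ℤ)) :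
            Gr (Fld ℤ))) ≤ ENNReal.ofReal η

/-- the flow of the disc of radius `B` at mesh one with the mark `0` -/
abbrev fB (c : Cst) (P : MPar) (src : Srcs (Fin 1) ℤ (Ge (Fld ℤ))) (B : ℝ) :
    Sys (ℤ × ℤ) (Fld ℤ) := (dB B).flow P DD {(0, 0)} src c.p c.k0

/-- the flow of the plane with the mark `0` -/
abbrev fP (c : Cst) (P : MPar) (src : Srcs (Fin 1) ℤ (Ge (Fld ℤ))) :
    Sys (ℤ × ℤ) (Fld ℤ) := Bg.pl.flow P DD {(0, 0)} src c.p c.k0

/-- the bounds which are used -/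
structure DBd (c : Cst) (P : MPar) (src : Srcs (Fin 1) ℤ (Ge (Fld ℤ))) (δ : ℝ) (E : ℕ → ℝ) :
    Prop where
  bd : ∀ᶠ B : ℝ in atTop, Bd (fB c P src B) fd (fun k => rr c.p c.k0 (k + 1)) (nearR c.p c.k0)
    (ENNReal.ofReal c.Γ) E (KB c δ B)
  nk : Tendsto (fun B => NK (dB B).w (Outx683.amp c (KB c δ B)) (rr c.p c.k0 (KB c δ B))
    (ENNReal.ofReal c.Γ) (fun _ => True) (fun U => (((fB c P src B).K (KB c δ B) U : Ge (Fld ℤ)) :
      Gr (Fld ℤ)))) atTop (𝓝 0)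

/-- `1 + z` is positive -/
theorem one_add_z_pos {J C lam β z : ℝ} (hn : NearP J C lam β z)
    (hl : |lam| < 1 / (2 * (|C| + 1))) : 0 < 1 + z := by
  have h1 : |z| ≤ C * |lam| := by
    unfold NearP at hn
    linarith [abs_nonneg (β - criticalBeta J)]
  have h2 : C * |lam| ≤ (|C| + 1) * |lam| :=
    mul_le_mul_of_nonneg_right (by linarith [le_abs_self C]) (abs_nonneg _)
  have h3 : (|C| + 1) * |lam| < 1 / 2 := by
    have hC : 0 < |C| + 1 := by positivity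
    rw [lt_div_iff₀ (by positivity)] at hl
    linarith
  have h4 := neg_abs_le z
  linarith

/-- **the bounds in growing discs**, real sources -/
theorem disc_bounds {J : ℝ} {R : ℕ} {V : Finset (ℤ × ℤ) → ℝ} (hpl : PlB J R V)
    (hc0 : C0R J R V) :
    EvC fun c => Std c ∧ 5 ≤ c.p * (c.k0 + 1) ∧ ∃ δ0 > 0, ∀ C : ℝ, ∃ ε > 0, ∀ lam β z : ℝ,
      |lam| < ε → NearP J C lam β z → PF J R V C c lam β z →
      0 < 1 + z ∧ ∃ E : ℕ → ℝ, (∀ k, 0 ≤ E k) ∧ Summable E ∧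
      ∀ (Y : Finset (ℤ × ℤ)), Packx915.Conn fd 1 Y → ((0, 0) : ℤ × ℤ) ∈ Y →
      ∀ S : Finset (Bkgx683.EG ℤ), ∃ t0 > 0, ∀ t : ℝ, |t| < t0 →
        ∀ src : Srcs (Fin 1) ℤ (Ge (Fld ℤ)), IsReal src Y S t →
          DBd c (mpar J lam R V β z) src δ0 E := by
  refine ev_mono3 (disc_flow hpl) (ev_dcst (max R 1)) hc0 ?_
  rintro c ⟨δ0, hδ0, H⟩ hc H0
  refine ⟨hc.std, hc.five, δ0, hδ0, fun C => ?_⟩
  obtain ⟨ε, hε, η, hη, C', hC', H⟩ := H C
  obtain ⟨ε', hε', H0⟩ := H0 C η hη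
  refine ⟨min (min ε ε') (1 / (2 * (|C| + 1))), lt_min (lt_min hε hε') (by positivity), ?_⟩
  intro lam β z hl hn hPF
  have hl1 : |lam| < ε := hl.trans_le ((min_le_left _ _).trans (min_le_left _ _))
  have hl2 : |lam| < ε' := hl.trans_le ((min_le_left _ _).trans (min_le_right _ _))
  have hl3 : |lam| < 1 / (2 * (|C| + 1)) := hl.trans_le (min_le_right _ _)
  have hB : 0 ≤ C' * (|lam| + η) := by positivity
  refine ⟨one_add_z_pos hn hl3, fun k => C' * (|lam| + η) * (1 / 2) ^ k, fun k => by positivity,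
    (summable_geometric_of_lt_one (by norm_num) (by norm_num)).mul_left _, ?_⟩
  intro Y hY h0Y S
  obtain ⟨t0, ht0, H1⟩ := H0 lam β z hl2 hn Y hY S
  refine ⟨t0, ht0, fun t ht src hs => ?_⟩
  have hok := SrcRealx583.srcOK_of_isReal hs hY h0Y
  have hp : 1 ≤ c.p := by have := hc.std.p_pos; omega
  have key := H lam β z hl1 hn hPF η hη.le le_rfl δ0 hδ0 le_rfl Y
  have key2 : ∀ᶠ B : ℝ in atTop,
      (∀ k, k ≤ KB c δ0 B → NK (dB B).w (Outx683.amp c k) (rr c.p c.k0 k)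
        (ENNReal.ofReal c.Γ) (fun _ => True)
        (fun U => (((fB c (mpar J lam R V β z) src B).K k U : Ge (Fld ℤ)) : Gr (Fld ℤ))) ≤
          ENNReal.ofReal (C' * (|lam| + η) * (1 / 2) ^ k)) ∧
      Bd (fB c (mpar J lam R V β z) src B) fd
        (fun k => rr c.p c.k0 (k + 1)) (nearR c.p c.k0) (ENNReal.ofReal c.Γ)
        (fun k => C' * (|lam| + η) * (1 / 2) ^ k) (KB c δ0 B) := by
    filter_upwards [key] with B hB
    exact hB (TB B) (Kw9x871.coe_TT Metric.isBounded_ball one_pos) .plus (fun i => i.elim0)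
      (Fin 1) src (SrcOK.of_583 hok) (away_of_583 hok)
      (fun k => by rw [Subsingleton.elim k 0, hs.Ys])
      (H1 t ht (dB B) (abs_wX_le _ _ _) src hs)
  refine ⟨key2.mono fun B h => h.2, ?_⟩
  refine tendsto_of_tendsto_of_tendsto_of_le_of_le' tendsto_const_nhds
    (last_tendsto (c := c) hp hδ0 (C' * (|lam| + η))) (Eventually.of_forall fun _ => zero_le) ?_
  filter_upwards [key2] with B hB
  exact hB.1 _ le_rfl

/-- **the limit**, from the bounds and the pinned data -/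
theorem disc_lim {J : ℝ} (hJ : J ≠ 0) {R : ℕ} {V : Finset (ℤ × ℤ) → ℝ} (hV : VHyp R V)
    {c : Cst} (hc : Std c) (h5 : 5 ≤ c.p * (c.k0 + 1)) {lam β z : ℝ} (hz : 0 < 1 + z)
    {δ : ℝ} (hδ : 0 < δ) {E : ℕ → ℝ}
    {Y : Finset (ℤ × ℤ)} (h0Y : ((0, 0) : ℤ × ℤ) ∈ Y) {S : Finset (Bkgx683.EG ℤ)}
    {t : ℝ} {src src' : Srcs (Fin 1) ℤ (Ge (Fld ℤ))} (h1 : IsReal src Y S t)
    (h0 : IsReal src' Y S 0) (b1 : DBd c (mpar J lam R V β z) src δ E)
    (b0 : DBd c (mpar J lam R V β z) src' δ E)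
    (pin : PinData (atTop : Filter ℝ) (fun _ => fd) fd (fun _ => ((0, 0) : ℤ × ℤ)) (0, 0)
      (fun _ => id) (fun D => MetGx723.boxG (0, 0) D) (fun k => rr c.p c.k0 (k + 1))
      (nearR c.p c.k0) c.Γ E (KB c δ) (fB c (mpar J lam R V β z) src)
      (fB c (mpar J lam R V β z) src') (fP c (mpar J lam R V β z) src)
      (fP c (mpar J lam R V β z) src')) :
    Tendsto (fun B : ℝ => 1 + t * Mastx541.discBonds B J lam R V β S) atTop
      (𝓝 (Real.exp (expo (fP c (mpar J lam R V β z) src) (fP c (mpar J lam R V β z) src')))) := by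
  have hp : 1 ≤ c.p := by have := hc.p_pos; omega
  exact ratio_disc hJ hV c h5 (by linarith [hc.Γ_ge]) hz {(0, 0)} ⟨_, h0Y⟩ h1 h0
    (κ' := δ / 2 ^ c.p) (by positivity) (Eventually.of_forall fun B => rr_KB_ge hp δ B)
    (amp_KB_tendsto hc hδ) b1.nk b0.nk pin.expo_tendsto

end Crest.Agent.R165.DisGx892
end
end

-- ▼ part R165/DisPin_65
section

/-!
# Row 165 (S0250): the local source in growing discs at fixed mesh (helper65)

The flows with the mark `f₀` and an arbitrary source record `src` (no source generators):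
`flm c P B mk src = B.flow P DD mk src c.p c.k0`.

* `flm_OK`, `cc_flm_iso`, `cc_flm_pin`, `cc_flm_empty`
* `isoD` : in the interior the domain without insertion is the plane
* `cc_dom_pl` : the constants of the domain are those of the plane for sets inside
* `ev_corners` : exhaustion of the plane by the discs `TT (ball 0 B) 1`
* `disPin` : **`PinData` for the discs** from the bounds and the correspondence of the initial
  activities
* `disPin_real` : **`PinData` for the discs, real sources** (`IsReal src Y S t`), only the bounds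
  `bd1`, `bd2` of the discs are needed
-/

set_option autoImplicit false
set_option linter.unusedSectionVars false

noncomputable section

open Filter Topology
open scoped ENNReal
open Crest.ProbabilityR.IsingModel
open Crest.Agent.R165.Gr0x606 Crest.Agent.R165.Gr1x606 Crest.Agent.R165.GeOpsx337
open Crest.Agent.R165.Latx683 Crest.Agent.R165.GDefx387 Crest.Agent.R165.GSysx387
open Crest.Agent.R165.KFlowx337 Crest.Agent.R165.Telx337 Crest.Agent.R165.FRDPolyx439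
open Crest.Agent.R165.BgIsox432 Crest.Agent.R165.CmpBgx432 Crest.Agent.R165.GSysOKx439
open Crest.Agent.R165.Bkgx683 Crest.Agent.R165.PEndx683 Crest.Agent.R165.Outx683
open Crest.Agent.R165.SpinSysx892 Crest.Agent.R165.DomGeox900
open Crest.Agent.R165.Pinx723 Crest.Agent.R165.PinSysx723 Crest.Agent.R165.MetGx723
open Crest.Agent.R165.TorTanx723 (mem_box_iff)
open Crest.Agent.R165.U5Px422 (TT mem_TT)
open Crest.Agent.R165.K0Srcx722 Crest.Agent.R165.PinLimx723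
open Crest.Agent.R165.J4Geox126 (faE)

namespace Crest.Agent.R165.DisPinx65

section gen

variable {G G' : Type} [CommRing G] [CN G] [CNZ G] [DecidableEq G] [CommRing G'] [CN G'] [CNZ G']
  [DecidableEq G'] {κ κ' : Type} [DecidableEq κ] [Fintype κ] [DecidableEq κ'] [Fintype κ']

/-- the flow with marks and an arbitrary source record -/
abbrev flm (c : Cst) (P : MPar) (B : Bg G) (mk : Finset (G × G)) (src : Srcs κ G (Ge (Fld G))) :
    Sys (G × G) (Fld G) := B.flow P DD mk src c.p c.k0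

/-- the constants of the sources are local -/
def SrcLoc (src : Srcs κ G (Ge (Fld G))) : Prop :=
  ∀ k, (src.Ys k).Nonempty → src.as k ∈ grG (fldU (src.Ys k))

theorem flm_OK {c : Cst} (h5 : 5 ≤ c.p * (c.k0 + 1)) (P : MPar) (B : Bg G) (mk : Finset (G × G))
    {src : Srcs κ G (Ge (Fld G))} (hs : SrcLoc src) : (flm c P B mk src).OK ⊥ :=
  sys_OK DD (by norm_num) B.w mk h5 (JVolx950.K0_fldU B P src hs c.p c.k0)

theorem flm_emp (c : Cst) (P : MPar) (B : Bg G) (mk : Finset (G × G))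
    (src : Srcs κ G (Ge (Fld G))) : (flm c P B mk src).K0 ∅ = 0 :=
  JVolx950.K0_empty B P LinearMap.id src c.p c.k0

theorem cc_flm_empty (c : Cst) (P : MPar) (B : Bg G) (mk : Finset (G × G))
    (src : Srcs κ G (Ge (Fld G))) (k : ℕ) : cc (flm c P B mk src) k ∅ = 0 := by
  rw [cc, H_empty (flm_emp c P B mk src), map_zero]

/-- **constants correspond along an isomorphism of backgrounds** (marks and sources) -/
theorem cc_flm_iso {c : Cst} (h5 : 5 ≤ c.p * (c.k0 + 1)) (hp : 1 ≤ c.p) (P : MPar) {B : Bg G}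
    {B' : Bg G'} {Z : Set (G × G)} (b : BgIso B.w B'.w Z) (h2 : (2 : G') ≠ 0)
    {mk : Finset (G × G)} {mk' : Finset (G' × G')} (hmk : ∀ f ∈ Z, (f ∈ mk ↔ b.τ f ∈ mk'))
    {src : Srcs κ G (Ge (Fld G))} {src' : Srcs κ' G' (Ge (Fld G'))} (hs : SrcLoc src)
    (hK0 : ∀ U : Finset (G × G), U.Nonempty → nbhd (s2 * rr c.p c.k0 0) U ⊆ Z →
      mpG b.push (B.K0 P LinearMap.id src c.p c.k0 U) =
        B'.K0 P LinearMap.id src' c.p c.k0 (U.image b.τ))
    (k : ℕ) {U : Finset (G × G)} (hU : nbhd (rhoH c.p c.k0 k) U ⊆ Z) :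
    cc (flm c P B mk src) k U = cc (flm c P B' mk' src') k (U.image b.τ) := by
  rcases U.eq_empty_or_nonempty with rfl | hne
  · rw [Finset.image_empty, cc_flm_empty, cc_flm_empty]
  · exact ct_eq DD b hmk h2 hp (by norm_num) hK0 (src := ⊥) (flm_OK h5 P B mk hs) k hne hU

/-- **pinning**: initial activities which agree off the mark give the same constants off the mark -/
theorem cc_flm_pin (c : Cst) (P : MPar) (B : Bg G) {mk : Finset (G × G)} {f₀ : G × G}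
    (hf : f₀ ∈ mk) {src : Srcs κ G (Ge (Fld G))} {src' : Srcs κ' G (Ge (Fld G))}
    (h0 : ∀ U, f₀ ∉ U → B.K0 P LinearMap.id src c.p c.k0 U = B.K0 P LinearMap.id src' c.p c.k0 U)
    (n : ℕ) {U : Finset (G × G)} (hU : f₀ ∉ U) :
    cc (flm c P B mk src) n U = cc (flm c P B mk src') n U :=
  MarkEqx723.cc_eq DD B.w mk c.p c.k0 hf h0 n hU

end gen

/-! ### domains and the plane -/

theorem ray_fin0 (X : Fin 0 → ℤ × ℤ) (z : ℤ × ℤ) (j : Fin 2) : ray X z j = 1 := by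
  simp [ray]

/-- in the interior the domain without insertion is the plane -/
def isoD (T : Finset (ℤ × ℤ)) (bc : BoundaryCondition) (X : Fin 0 → ℤ × ℤ) {Z : Set (ℤ × ℤ)}
    (hZ : ∀ f ∈ Z, cornersIn (T : Set (ℤ × ℤ)) f) : BgIso (Bg.dom T bc X).w Bg.pl.w Z :=
  sameIso
    (fun f hf hf' => by
      have h1 := (critOn_dom hZ (isF bc)).1 f hf hf'
      have h1' : wDom (T : Set (ℤ × ℤ)) (isF bc) (f.1 + 1, f.2) 1 = xc := h1
      show yE (wX (wDom (T : Set (ℤ × ℤ)) (isF bc)) X) f = yE (wPl ℤ) f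
      simp only [yE, wX, wPl, h1', ray_fin0, one_mul])
    (fun f hf hf' => by
      have h1 := (critOn_dom hZ (isF bc)).2 f hf hf'
      have h1' : wDom (T : Set (ℤ × ℤ)) (isF bc) (f.1, f.2 + 1) 0 = xc := h1
      show yN (wX (wDom (T : Set (ℤ × ℤ)) (isF bc)) X) f = yN (wPl ℤ) f
      simp only [yN, wX, wPl, h1', ray_fin0, one_mul])

@[simp] theorem isoD_τ (T : Finset (ℤ × ℤ)) (bc : BoundaryCondition) (X : Fin 0 → ℤ × ℤ)
    {Z : Set (ℤ × ℤ)} (hZ : ∀ f ∈ Z, cornersIn (T : Set (ℤ × ℤ)) f) :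
    (isoD T bc X hZ).τ = id := rfl

/-- **correspondence of the initial activities** of the domain and of the plane, in the interior -/
def K0Cor (P : MPar) (l k0 : ℕ) {κ : Type} [DecidableEq κ] [Fintype κ]
    (src : Srcs κ ℤ (Ge (Fld ℤ))) (bc : BoundaryCondition) (X : Fin 0 → ℤ × ℤ) : Prop :=
  ∀ (T : Finset (ℤ × ℤ)) (Z : Set (ℤ × ℤ)) (hZ : ∀ f ∈ Z, cornersIn (T : Set (ℤ × ℤ)) f)
    (U : Finset (ℤ × ℤ)), U.Nonempty → nbhd (s2 * rr l k0 0) U ⊆ Z →
      mpG (isoD T bc X hZ).push ((Bg.dom T bc X).K0 P LinearMap.id src l k0 U) =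
        Bg.pl.K0 P LinearMap.id src l k0 U

section dom

variable {κ : Type} [DecidableEq κ] [Fintype κ]

/-- the constants of the domain are those of the plane for sets in the interior -/
theorem cc_dom_pl {c : Cst} (h5 : 5 ≤ c.p * (c.k0 + 1)) (hp : 1 ≤ c.p) (P : MPar)
    {src : Srcs κ ℤ (Ge (Fld ℤ))} (hs : SrcLoc src) {bc : BoundaryCondition}
    {X : Fin 0 → ℤ × ℤ} (hK : K0Cor P c.p c.k0 src bc X) (mk : Finset (ℤ × ℤ))
    {T : Finset (ℤ × ℤ)} {Z : Set (ℤ × ℤ)} (hZ : ∀ f ∈ Z, cornersIn (T : Set (ℤ × ℤ)) f)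
    (k : ℕ) {U : Finset (ℤ × ℤ)} (hU : nbhd (rhoH c.p c.k0 k) U ⊆ Z) :
    cc (flm c P (Bg.dom T bc X) mk src) k U = cc (flm c P Bg.pl mk src) k U := by
  have h := cc_flm_iso h5 hp P (B := Bg.dom T bc X) (B' := Bg.pl) (isoD T bc X hZ) (by norm_num)
    (mk := mk) (mk' := mk) (fun f _ => Iff.rfl) (src := src) (src' := src) hs
    (fun U hne hU => by
      rw [hK T Z hZ U hne hU, isoD_τ, Finset.image_id]) k hU
  rw [isoD_τ, Finset.image_id] at h
  exact h

/-! ### the discs -/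

/-- the discs at mesh `1` exhaust the plane -/
theorem ev_corners (f₀ : ℤ × ℤ) (R : ℕ) : ∀ᶠ B : ℝ in atTop,
    ∀ f ∈ ball f₀ R, cornersIn ((TT (Metric.ball (0 : ℂ) B) 1 : Finset (ℤ × ℤ)) : Set (ℤ × ℤ)) f := by
  filter_upwards [eventually_gt_atTop (|(f₀.1 : ℝ)| + |(f₀.2 : ℝ)| + 2 * (R + 1))] with B hB f hf
  have hfd : fd f₀ f ≤ R := mem_ball.1 hf
  have hf1 : |(f₀.1 : ℝ) - f.1| ≤ R := by
    have h1 : (f₀.1 - f.1).natAbs ≤ R := (le_max_left _ _).trans hfd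
    rw [← Int.cast_sub, ← Int.cast_abs, Int.abs_eq_natAbs]
    exact_mod_cast h1
  have hf2 : |(f₀.2 : ℝ) - f.2| ≤ R := by
    have h1 : (f₀.2 - f.2).natAbs ≤ R := (le_max_right _ _).trans hfd
    rw [← Int.cast_sub, ← Int.cast_abs, Int.abs_eq_natAbs]
    exact_mod_cast h1
  have key : ∀ z : ℤ × ℤ, |(z.1 : ℝ) - f.1| ≤ 1 → |(z.2 : ℝ) - f.2| ≤ 1 →
      z ∈ ((TT (Metric.ball (0 : ℂ) B) 1 : Finset (ℤ × ℤ)) : Set (ℤ × ℤ)) := by
    intro z h1 h2
    rw [Finset.mem_coe, mem_TT Metric.isBounded_ball one_pos, mem_ball_zero_iff]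
    refine lt_of_le_of_lt (Complex.norm_le_abs_re_add_abs_im _) ?_
    simp only [meshPoint, one_mul]
    have a1 := abs_sub_abs_le_abs_sub (z.1 : ℝ) (f.1 : ℝ)
    have a2 := abs_sub_abs_le_abs_sub (z.2 : ℝ) (f.2 : ℝ)
    have a3 := abs_sub_abs_le_abs_sub (f.1 : ℝ) (f₀.1 : ℝ)
    have a4 := abs_sub_abs_le_abs_sub (f.2 : ℝ) (f₀.2 : ℝ)
    rw [abs_sub_comm] at hf1 hf2
    linarith
  refine ⟨key f (by simp) (by simp), key _ ?_ ?_, key _ ?_ ?_, key _ ?_ ?_⟩ <;> simp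

/-- the local constants of the discs are those of the plane -/
theorem ev_loc {c : Cst} (h5 : 5 ≤ c.p * (c.k0 + 1)) (hp : 1 ≤ c.p) (P : MPar)
    {src : Srcs κ ℤ (Ge (Fld ℤ))} (hs : SrcLoc src) {bc : BoundaryCondition}
    {X : Fin 0 → ℤ × ℤ} (hK : K0Cor P c.p c.k0 src bc X) (mk : Finset (ℤ × ℤ)) (f₀ : ℤ × ℤ)
    (k D : ℕ) : ∀ᶠ B : ℝ in atTop, ∀ U ⊆ boxG f₀ D,
      cc (flm c P (Bg.dom (TT (Metric.ball (0 : ℂ) B) 1) bc X) mk src) k (U.image id) =
        cc (flm c P Bg.pl mk src) k U := by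
  filter_upwards [ev_corners f₀ (D + rhoH c.p c.k0 k)] with B hB U hU
  rw [Finset.image_id]
  exact cc_dom_pl h5 hp P hs hK mk hB k (nbhd_subset_ball fun u hu => mem_box_iff.1 (hU hu))


/-- **`PinData` for the discs**, bounds of the discs only -/
theorem disPin' {c : Cst} (h5 : 5 ≤ c.p * (c.k0 + 1)) (hp : 1 ≤ c.p) (P : MPar) (f₀ : ℤ × ℤ)
    {src src' : Srcs κ ℤ (Ge (Fld ℤ))} (hs : SrcLoc src) (hs' : SrcLoc src')
    {bc : BoundaryCondition} {X : Fin 0 → ℤ × ℤ} (hK : K0Cor P c.p c.k0 src bc X)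
    (hK' : K0Cor P c.p c.k0 src' bc X)
    (hpin : ∀ B' : Bg ℤ, ∀ U', f₀ ∉ U' → B'.K0 P LinearMap.id src c.p c.k0 U' =
      B'.K0 P LinearMap.id src' c.p c.k0 U')
    {r R : ℕ → ℕ} {Γ : ℝ} {E : ℕ → ℝ} {Kf : ℝ → ℕ} (hΓ : 1 < Γ) (hE : ∀ k, 0 ≤ E k)
    (hsum : Summable E) (hKf : Tendsto Kf atTop atTop)
    (bd1 : ∀ᶠ B : ℝ in atTop, Bd (flm c P (Bg.dom (TT (Metric.ball (0 : ℂ) B) 1) bc X) {f₀} src)
      fd r R (ENNReal.ofReal Γ) E (Kf B))
    (bd2 : ∀ᶠ B : ℝ in atTop, Bd (flm c P (Bg.dom (TT (Metric.ball (0 : ℂ) B) 1) bc X) {f₀} src')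
      fd r R (ENNReal.ofReal Γ) E (Kf B)) :
    PinData (atTop : Filter ℝ) (fun _ => fd) (fd : ℤ × ℤ → ℤ × ℤ → ℕ) (fun _ => f₀) f₀
      (fun _ => id) (fun D => boxG f₀ D) r R Γ E Kf
      (fun B => flm c P (Bg.dom (TT (Metric.ball (0 : ℂ) B) 1) bc X) {f₀} src)
      (fun B => flm c P (Bg.dom (TT (Metric.ball (0 : ℂ) B) 1) bc X) {f₀} src')
      (flm c P Bg.pl {f₀} src) (flm c P Bg.pl {f₀} src') :=
  PinData.of_growing (exh_id atTop f₀) (iso_id atTop f₀) hΓ hE hsum hKf bd1 bd2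
    (Eventually.of_forall fun _ k _ hU =>
      cc_flm_pin c P _ (Finset.mem_singleton_self f₀) (hpin _) k hU)
    (fun k _ hU => cc_flm_pin c P _ (Finset.mem_singleton_self f₀) (hpin _) k hU)
    (fun k D => ev_loc h5 hp P hs hK {f₀} f₀ k D) (fun k D => ev_loc h5 hp P hs' hK' {f₀} f₀ k D)

end dom

/-! ### real sources -/

section real

variable {G : Type} [CommRing G] [CN G] [CNZ G] [DecidableEq G]

theorem srcLoc_real {src : Srcs (Fin 1) G (Ge (Fld G))} {Y : Finset (G × G)} {S : Finset (EG G)}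
    {t : ℝ} (hs : IsReal src Y S t) : SrcLoc src := by
  intro k _
  obtain rfl : k = 0 := Subsingleton.elim _ _
  rw [hs.as]
  exact Subalgebra.algebraMap_mem _ _

theorem k0cor_real (P : MPar) (l k0 : ℕ) {src : Srcs (Fin 1) ℤ (Ge (Fld ℤ))}
    {Y : Finset (ℤ × ℤ)} {S : Finset (EG ℤ)} {t : ℝ} (hs : IsReal src Y S t)
    (hSY : ∀ e ∈ S, faE e ⊆ Y) (bc : BoundaryCondition) (X : Fin 0 → ℤ × ℤ) :
    K0Cor P l k0 src bc X := by
  intro T Z hZ U hne hU
  have h := hK0_dom_pl_src (B' := Bg.pl) (isoD T bc X hZ) (fun _ => rfl) hZ P l k0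
    (fun _ => trivial) (fun _ _ => trivial) hs hs hSY U hne hU
  rwa [isoD_τ, Finset.image_id] at h

theorem pin_real (P : MPar) (l k0 : ℕ) {src src' : Srcs (Fin 1) ℤ (Ge (Fld ℤ))}
    {Y Y' : Finset (ℤ × ℤ)} {S S' : Finset (EG ℤ)} {t t' : ℝ} (hs : IsReal src Y S t)
    (hs' : IsReal src' Y' S' t') {f₀ : ℤ × ℤ} (h1 : f₀ ∈ Y) (h1' : f₀ ∈ Y') (B : Bg ℤ)
    (U : Finset (ℤ × ℤ)) (hU : f₀ ∉ U) :
    B.K0 P LinearMap.id src l k0 U = B.K0 P LinearMap.id src' l k0 U :=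
  K0_t B P LinearMap.id hs hs' l k0 h1 h1' hU

/-- **`PinData` for the discs with real sources**: only the bounds of the discs are needed -/
theorem disPin_real {c : Cst} (h5 : 5 ≤ c.p * (c.k0 + 1)) (hp : 1 ≤ c.p) (P : MPar)
    {f₀ : ℤ × ℤ} {src src' : Srcs (Fin 1) ℤ (Ge (Fld ℤ))} {Y Y' : Finset (ℤ × ℤ)}
    {S S' : Finset (EG ℤ)} {t t' : ℝ} (hs : IsReal src Y S t) (hs' : IsReal src' Y' S' t')
    (hSY : ∀ e ∈ S, faE e ⊆ Y) (hSY' : ∀ e ∈ S', faE e ⊆ Y') (h1 : f₀ ∈ Y) (h1' : f₀ ∈ Y')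
    (bc : BoundaryCondition) (X : Fin 0 → ℤ × ℤ)
    {r R : ℕ → ℕ} {Γ : ℝ} {E : ℕ → ℝ} {Kf : ℝ → ℕ} (hΓ : 1 < Γ) (hE : ∀ k, 0 ≤ E k)
    (hsum : Summable E) (hKf : Tendsto Kf atTop atTop)
    (bd1 : ∀ᶠ B : ℝ in atTop, Bd (flm c P (Bg.dom (TT (Metric.ball (0 : ℂ) B) 1) bc X) {f₀} src)
      fd r R (ENNReal.ofReal Γ) E (Kf B))
    (bd2 : ∀ᶠ B : ℝ in atTop, Bd (flm c P (Bg.dom (TT (Metric.ball (0 : ℂ) B) 1) bc X) {f₀} src')
      fd r R (ENNReal.ofReal Γ) E (Kf B)) :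
    PinData (atTop : Filter ℝ) (fun _ => fd) (fd : ℤ × ℤ → ℤ × ℤ → ℕ) (fun _ => f₀) f₀
      (fun _ => id) (fun D => boxG f₀ D) r R Γ E Kf
      (fun B => flm c P (Bg.dom (TT (Metric.ball (0 : ℂ) B) 1) bc X) {f₀} src)
      (fun B => flm c P (Bg.dom (TT (Metric.ball (0 : ℂ) B) 1) bc X) {f₀} src')
      (flm c P Bg.pl {f₀} src) (flm c P Bg.pl {f₀} src') :=
  disPin' h5 hp P f₀ (srcLoc_real hs) (srcLoc_real hs') (k0cor_real P c.p c.k0 hs hSY bc X)
    (k0cor_real P c.p c.k0 hs' hSY' bc X) (pin_real P c.p c.k0 hs hs' h1 h1') hΓ hE hsum hKf bd1 bd2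

end real

end Crest.Agent.R165.DisPinx65
end
end

-- ▼ part R165/DisL_892

/-!
# Row 165 (S0250): the disc half of the limit of the bond expectations (helper892)

* `disL_gen` : any connected support `Y` containing `0` and the faces of `S`
* `disL_box` : the canonical box `boxS S` of helper683: literally the leaf, from the smallness of the
  initial activities `C0R`
-/

set_option autoImplicit false
set_option linter.unusedSectionVars false

noncomputable section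

open Finset Filter Topology
open scoped ENNReal
open Crest.ProbabilityR.IsingModel

namespace Crest.Agent.R165.DisLx892

open Crest.Agent.R165.Gr0x606 Crest.Agent.R165.Gr1x606 Crest.Agent.R165.GeOpsx337
open Crest.Agent.R165.Latx683 Crest.Agent.R165.GDefx387 Crest.Agent.R165.BgIsox432
open Crest.Agent.R165.Bkgx683 Crest.Agent.R165.Outx683 Crest.Agent.R165.Bkg3x683
open Crest.Agent.R165.PEndx683 Crest.Agent.R165.Topx683 Crest.Agent.R165.Constx891
open Crest.Agent.R165.J4Geox126 (faE)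
open Crest.Agent.R165.PinSysx723 Crest.Agent.R165.K0Srcx722
open Crest.Agent.R165.DisGx892

/-- **the limit in growing discs**, any connected support -/
theorem disL_gen {J : ℝ} (hJ : J ≠ 0) {R : ℕ} {V : Finset (ℤ × ℤ) → ℝ} (hV : VHyp R V)
    (hc0 : C0R J R V) : ForP J (PF J R V) fun c lam β z =>
      ∀ (Y : Finset (ℤ × ℤ)), Packx915.Conn fd 1 Y → ((0, 0) : ℤ × ℤ) ∈ Y →
      ∀ S : Finset (Bkgx683.EG ℤ), (∀ e ∈ S, faE e ⊆ Y) → ∃ t0 > 0, ∀ t : ℝ, |t| < t0 →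
      ∀ src src' : Srcs (Fin 1) ℤ (Ge (Fld ℤ)), IsReal src Y S t → IsReal src' Y S 0 →
        Tendsto (fun B : ℝ => 1 + t * Mastx541.discBonds B J lam R V β S) atTop
          (𝓝 (Real.exp (expo (fP c (mpar J lam R V β z) src)
            (fP c (mpar J lam R V β z) src')))) := by
  refine (disc_bounds (PlBx117.plB hV) hc0).mono ?_
  rintro c ⟨hstd, h5, δ0, hδ0, H⟩ C
  obtain ⟨ε, hε, H⟩ := H C
  refine ⟨ε, hε, fun lam β z hl hn hPF Y hY h0Y S hSY => ?_⟩
  obtain ⟨hz, E, hE, hsum, H⟩ := H lam β z hl hn hPF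
  obtain ⟨t0, ht0, H⟩ := H Y hY h0Y S
  refine ⟨t0, ht0, fun t ht src src' hs hs' => ?_⟩
  have b1 := H t ht src hs
  have b0 := H 0 (by rw [abs_zero]; exact ht0) src' hs'
  have hp : 1 ≤ c.p := by have := hstd.p_pos; omega
  refine disc_lim hJ hV hstd h5 hz hδ0 (E := E) h0Y hs hs' b1 b0 ?_
  exact DisPinx65.disPin_real h5 hp (mpar J lam R V β z) hs hs' hSY hSY h0Y h0Y .plus
    (fun i : Fin 0 => i.elim0) (by linarith [hstd.Γ_ge]) hE hsum
    (DiscMkx117.KB_tendsto hp hδ0) b1.bd b0.bd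

/-- **the leaf**, canonical boxes, from the smallness of the initial activities -/
theorem disL_box {J : ℝ} (hJ : J ≠ 0) {R : ℕ} {V : Finset (ℤ × ℤ) → ℝ} (hV : VHyp R V)
    (hc0 : C0R J R V) : ForP J (PF J R V) fun c lam β z =>
      ∀ S : Finset ((ℤ × ℤ) × Fin 2), ∃ t0 > 0, ∀ t : ℝ, 0 < t → t < t0 →
        Tendsto (fun B : ℝ => 1 + t * Mastx541.discBonds B J lam R V β S) atTop
          (𝓝 (Real.exp (expo (fltY c (mpar J lam R V β z) Bg.pl 0 (boxS S) S t)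
            (fltY c (mpar J lam R V β z) Bg.pl 0 (boxS S) S 0)))) := by
  refine (disL_gen hJ hV hc0).mono fun c H C => ?_
  obtain ⟨ε, hε, H⟩ := H C
  refine ⟨ε, hε, fun lam β z hl hn hPF S => ?_⟩
  obtain ⟨t0, ht0, H⟩ := H lam β z hl hn hPF (boxS S) (boxS_conn S) (zero_mem_boxS S) S
    (faE_boxS S)
  exact ⟨t0, ht0, fun t ht ht' => H t (by rw [abs_of_pos ht]; exact ht') _ _ (isReal_box _ S t)
    (isReal_box _ S 0)⟩

end Crest.Agent.R165.DisLx892
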