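import Crest.Agent.R165.GeoScale_420
import Crest.Agent.R165.GeoCo_838
import Crest.Agent.R165.GeoDiscB_65
import Crest.Agent.R165.DiscK_892

/-!
# Row 165 (S0250): the geometry of every step of a large disc (helper420)

`T = domainSites (ball 0 B) a`, `n` insertions `x`, `m` marks `y`, the filter
`(𝓝[>] 0).curry atTop` of the pairs `(a, B)`.

* `cfg_disc` : separated configuration of size `c(x)/a`;  `cfg_disc0` : no insertions, size `c0 B/a`
* `clu_disc` : the cluster configuration (838's `Clu`) about the origin, box of radius `⌈C/a⌉`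
* `stepGeo_of_clu` : `StepGeo` in the cluster phase, absolute constants
* `DiscG`, `disc_good`, `disc_good0` : the premises of `StepOKx838.Good` (`dom`, `clu`) at the fine
  steps `k < k1`, the coarse steps `k2 ≤ k < kf`, and at all steps without insertions
-/

set_option autoImplicit false
set_option linter.unusedSectionVars false

noncomputable section

open Filter Topology
open Crest.ProbabilityR.IsingModel
open Crest.Agent.R165.Gr0x606 Crest.Agent.R165.Latx683 Crest.Agent.R165.GDefx387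
open Crest.Agent.R165.BgIsox432 Crest.Agent.R165.Geo Crest.Agent.R165.DBdx915
open Crest.Agent.R165.Packx915 Crest.Agent.R165.NSumx915 Crest.Agent.R165.DefRecx915
open Crest.Agent.R165.RegGx893 Crest.Agent.R165.RegIx893 Crest.Agent.R165.GSysx387
open Crest.Agent.R165.RIfx891 (GapU EXb EXbr)
open Crest.Agent.R165.GeoCox838 Crest.Agent.R165.GeoDiscx65 Crest.Agent.R165.Scalex900
open Crest.Agent.R165.GeoGx65 (norm_meshPoint_meshIndex)
open Crest.Agent.R165.GeoIx838 (Sep)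
open Crest.Agent.R165.DiscKx892 (dl k1 k2 kf)

namespace Crest.Agent.R165.GeoScx420

/-- enlarging the constants -/
theorem StepGeo.mono {G : Type} [CommRing G] [CN G] {ι : Type*} {w : BW G} {C C' : ℝ}
    {Λ r0 r0' D L r : ℕ} {loc : ι → G × G} {B Z : Set (G × G)} {ac em : Finset (G × G) → Prop}
    (h : StepGeo w C Λ r0 D L r loc B Z ac em) (hC : C ≤ C') (hr : r0 ≤ r0') :
    StepGeo w C' Λ r0' D L r loc B Z ac em :=
  ⟨h.geo.mono hC le_rfl hr le_rfl, h.sep, h.near, h.nb, h.nm⟩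

/-! ### configurations in discs -/

theorem cfg_of_latReg {T : Set (ℤ × ℤ)} {ρ κ : ℝ} (h : LatReg T ρ κ) (hκ : κ * ρ ≤ 1) {N : ℕ}
    (hN : (N : ℝ) ≤ ρ) : ∃ κ : ℝ, LatReg T N κ ∧ κ * N ≤ 1 := by
  refine ⟨κ, latReg_mono h hN, ?_⟩
  have hκ0 : 0 ≤ κ := by
    obtain ⟨k, G, G', hG⟩ := h 0
    exact hG.kappa_nonneg
  exact (mul_le_mul_of_nonneg_left hN hκ0).trans hκ


/-- **separated configuration in a large disc** -/
theorem cfg_disc {n m : ℕ} {x : Fin n → ℂ} {y : Fin m → ℂ}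
    (hinj : Function.Injective (Fin.append x y)) :
    ∃ c a0 B0 : ℝ, 0 < c ∧ 0 < a0 ∧ 0 < B0 ∧ ∀ a B : ℝ, 0 < a → a ≤ a0 → B0 ≤ B →
      Cfg (domainSites (Metric.ball (0 : ℂ) B) a) (fun i => meshIndex a (x i))
        (fun j => meshIndex a (y j)) ⌊c / a⌋₊ := by
  obtain ⟨c0, hc0, -, Hr⟩ := disc_latReg
  obtain ⟨δ, C, B0, hδ, hC, hB0, H⟩ := disc_cfg hinj
  set c : ℝ := min δ (min (B0 / 16) (c0 * B0)) with hc
  have hcp : 0 < c := lt_min hδ (lt_min (by positivity) (by positivity))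
  refine ⟨c, δ, B0, hcp, hδ, hB0, fun a B ha haδ hB => ?_⟩
  have hBp : 0 < B := hB0.trans_le hB
  obtain ⟨h1, h2, h3, -, -, -, -⟩ := H a B ha haδ hB (fun i => meshIndex a (Fin.append x y i))
    fun i => (norm_meshPoint_meshIndex ha _).trans (by linarith)
  obtain ⟨κ, hκ1, hκ2⟩ := Hr B a hBp ha
  have hfl : ((⌊c / a⌋₊ : ℕ) : ℝ) ≤ c / a := Nat.floor_le (by positivity)
  have hfa : a * ((⌊c / a⌋₊ : ℕ) : ℝ) ≤ c := by rwa [le_div_iff₀ ha, mul_comm] at hfl
  have hs : ∀ i j, i ≠ j →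
      ⌊c / a⌋₊ < fd (meshIndex a (Fin.append x y i)) (meshIndex a (Fin.append x y j)) := by
    intro i j hij
    have h4 := h2 i j hij
    have h5 : a * ((⌊c / a⌋₊ : ℕ) : ℝ) < a * (fd (meshIndex a (Fin.append x y i))
      (meshIndex a (Fin.append x y j)) : ℝ) := (hfa.trans (min_le_left _ _)).trans_lt h4
    exact_mod_cast lt_of_mul_lt_mul_left h5 ha.le
  have hb : ∀ i, ∀ z ∈ bdS (domainSites (Metric.ball (0 : ℂ) B) a),
      ⌊c / a⌋₊ < fd (meshIndex a (Fin.append x y i)) z := by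
    intro i z hz
    have h4 := h3 i z hz
    have h6 : c ≤ B0 / 16 := (min_le_right _ _).trans (min_le_left _ _)
    have h5 : a * ((⌊c / a⌋₊ : ℕ) : ℝ) < a * (fd (meshIndex a (Fin.append x y i)) z : ℝ) := by
      linarith
    exact_mod_cast lt_of_mul_lt_mul_left h5 ha.le
  refine ⟨cfg_of_latReg hκ1 hκ2 ?_, fun i => ?_, fun j => ?_, fun i => ?_, fun j => ?_,
    fun i j hij => ?_, fun i j hij => ?_, fun i j => ?_⟩
  · refine hfl.trans ?_
    have h6 : c ≤ c0 * B0 := (min_le_right _ _).trans (min_le_right _ _)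
    have h7 : c0 * B0 ≤ c0 * B := mul_le_mul_of_nonneg_left hB hc0.le
    gcongr
    linarith
  · have := h1 (Fin.castAdd m i); rwa [Fin.append_left] at this
  · have := h1 (Fin.natAdd n j); rwa [Fin.append_right] at this
  · have := hb (Fin.castAdd m i); rwa [Fin.append_left] at this
  · have := hb (Fin.natAdd n j); rwa [Fin.append_right] at this
  · have := hs (Fin.castAdd m i) (Fin.castAdd m j) (by simpa [Fin.ext_iff] using hij)
    rwa [Fin.append_left, Fin.append_left] at this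
  · have := hs (Fin.natAdd n i) (Fin.natAdd n j) (by simpa [Fin.ext_iff] using hij)
    rwa [Fin.append_right, Fin.append_right] at this
  · have := hs (Fin.castAdd m i) (Fin.natAdd n j) (by
      intro h7
      have := congrArg Fin.val h7
      simp only [Fin.val_castAdd, Fin.val_natAdd] at this
      have := i.2
      omega)
    rwa [Fin.append_left, Fin.append_right] at this

/-- **the cluster configuration in a large disc** -/
theorem clu_disc {n m : ℕ} {x : Fin n → ℂ} {y : Fin m → ℂ} (hn : Even n)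
    (hinj : Function.Injective (Fin.append x y)) :
    ∃ C a0 B0 : ℝ, 0 < C ∧ 0 < a0 ∧ 0 < B0 ∧ ∀ a B : ℝ, 0 < a → a ≤ a0 → B0 ≤ B →
      ∀ R0 : ℕ, 16 * (a * R0) ≤ B →
      Clu (domainSites (Metric.ball (0 : ℂ) B) a) (fun i => meshIndex a (x i)) (0, 0)
        (Set.range (fun i => meshIndex a (x i)) ∪ Set.range (fun j => meshIndex a (y j)))
        ⌈C / a⌉₊ R0 := by
  obtain ⟨δ, C, B0, hδ, hC, hB0, H⟩ := disc_cfg hinj
  refine ⟨C, δ, max B0 (16 * (C + 2 * δ) + 1), hC, hδ, lt_max_of_lt_left hB0,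
    fun a B ha haδ hB R0 hR0 => ?_⟩
  have hB1 : B0 ≤ B := (le_max_left _ _).trans hB
  have hB2 : 16 * (C + 2 * δ) + 1 ≤ B := (le_max_right _ _).trans hB
  obtain ⟨-, -, -, h4, -, -, h7⟩ := H a B ha haδ hB1 (fun i => meshIndex a (Fin.append x y i))
    fun i => (norm_meshPoint_meshIndex ha _).trans (by linarith)
  have hbox : ∀ i, fd (0, 0) (meshIndex a (Fin.append x y i)) ≤ ⌈C / a⌉₊ := by
    intro i
    have h5 := h4 i
    have h6 : (fd (0, 0) (meshIndex a (Fin.append x y i)) : ℝ) ≤ C / a := by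
      rw [le_div_iff₀ ha, mul_comm]; exact h5
    exact_mod_cast h6.trans (Nat.le_ceil _)
  have hceil : a * ((⌈C / a⌉₊ : ℕ) : ℝ) ≤ C + a := by
    have h5 := (Nat.ceil_lt_add_one (show 0 ≤ C / a by positivity)).le
    calc a * ((⌈C / a⌉₊ : ℕ) : ℝ) ≤ a * (C / a + 1) := mul_le_mul_of_nonneg_left h5 ha.le
      _ = C + a := by field_simp
  refine ⟨hn, ?_, fun i => Or.inl ⟨i, rfl⟩, ?_, fun z hz => ?_⟩
  · show meshPoint a (0, 0) ∈ Metric.ball (0 : ℂ) B
    rw [meshPoint_zero, Metric.mem_ball, dist_self]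
    linarith
  · rintro z (⟨i, rfl⟩ | ⟨j, rfl⟩)
    · have := hbox (Fin.castAdd m i); rwa [Fin.append_left] at this
    · have := hbox (Fin.natAdd n j); rwa [Fin.append_right] at this
  · have h5 := h7 z hz
    have h6 : a * ((R0 + ⌈C / a⌉₊ + 1 : ℕ) : ℝ) < a * (fd (0, 0) z : ℝ) := by
      push_cast
      linarith
    exact_mod_cast lt_of_mul_lt_mul_left h6 ha.le

/-! ### the cluster phase -/



/-! ### all steps -/



/-- the separation of the fine phase, from a configuration -/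
theorem sep_of_cfg {T : Set (ℤ × ℤ)} {n m : ℕ} {X : Fin n → ℤ × ℤ} {Y : Fin m → ℤ × ℤ} {ρ R : ℕ}
    (h : Cfg T X Y ρ) (hR : R + 1 ≤ ρ) : Sep T X (Set.range Y) R := by
  refine ⟨h.XT, fun i z hz => hR.trans_lt (h.Xb i z hz), fun i j hij => ?_, ?_, ?_⟩
  · have := h.XX i j hij
    omega
  · rintro _ ⟨j, rfl⟩ z hz
    exact hR.trans_lt (h.Yb j z hz)
  · rintro _ ⟨j, rfl⟩ i
    have := h.XY i j
    rw [fd_comm]
    omega

/-- **the geometric premises of `StepOKx838.Good` in a large disc**, `P = (a, B)`,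
`T = domainSites (ball 0 B) a`, insertions `X`, marks `Y` -/
structure DiscG (p k0 C1 : ℕ) (u v c : ℝ) {n m : ℕ} (x : Fin n → ℂ) (y : Fin m → ℂ) (P : ℝ × ℝ) :
    Prop where
  pos : 0 < P.1
  posB : 0 < P.2
  le_k1 : ∀ k ≤ k1 p k0 u P.1, (rr p k0 k : ℝ) ≤ u / P.1
  le_kf : ∀ k ≤ kf p k0 c P, (rr p k0 k : ℝ) ≤ c * P.2 / P.1
  reg : ∃ ρ κ : ℝ, LatReg (domainSites (Metric.ball (0 : ℂ) P.2) P.1) ρ κ ∧ κ * ρ ≤ 1 ∧
    ∀ k < kf p k0 c P, (C1 : ℝ) * rr p k0 (k + 1) ≤ ρ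
  fine : ∀ k < k1 p k0 u P.1, Sep (domainSites (Metric.ball (0 : ℂ) P.2) P.1)
    (fun i => meshIndex P.1 (x i)) (Set.range fun j => meshIndex P.1 (y j))
    (32 * rr p k0 (k + 1))
  marks : ∀ k < k1 p k0 u P.1, ∀ i j, i ≠ j →
    10 * rr p k0 (k + 1) < fd (meshIndex P.1 (y i)) (meshIndex P.1 (y j))
  k1_le : k1 p k0 u P.1 ≤ kf p k0 c P
  k2_le : k2 p k0 v P.1 ≤ kf p k0 c P
  coarse : Even n → ∀ k, k2 p k0 v P.1 ≤ k → k < kf p k0 c P → ∃ R1 : ℕ,
    Clu (domainSites (Metric.ball (0 : ℂ) P.2) P.1) (fun i => meshIndex P.1 (x i)) (0, 0)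
      (Set.range (fun j => meshIndex P.1 (y j)) ∪ Set.range (fun i => meshIndex P.1 (x i)))
      R1 (32 * rr p k0 (k + 1)) ∧ 4 * R1 + 8 ≤ rr p k0 k


theorem range_elim0 (Y : Fin 0 → ℤ × ℤ) : Set.range Y = ∅ := Set.range_eq_empty Y

/-- no marks, fine steps (form of `Good.dom`) -/
theorem DiscG.fine0 {p k0 C1 : ℕ} {u v c : ℝ} {n : ℕ} {x : Fin n → ℂ} {y : Fin 0 → ℂ}
    {P : ℝ × ℝ} (h : DiscG p k0 C1 u v c x y P) {k : ℕ} (hk : k < k1 p k0 u P.1) :
    Sep (domainSites (Metric.ball (0 : ℂ) P.2) P.1) (fun i => meshIndex P.1 (x i))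
      ((∅ : Finset (ℤ × ℤ)) : Set (ℤ × ℤ)) (32 * rr p k0 (k + 1)) := by
  have := h.fine k hk
  rwa [range_elim0, ← Finset.coe_empty] at this

/-- no marks, coarse steps (form of `Good.clu`) -/
theorem DiscG.coarse0 {p k0 C1 : ℕ} {u v c : ℝ} {n : ℕ} {x : Fin n → ℂ} {y : Fin 0 → ℂ}
    {P : ℝ × ℝ} (h : DiscG p k0 C1 u v c x y P) (hn : Even n) {k : ℕ} (hk : k2 p k0 v P.1 ≤ k)
    (hk' : k < kf p k0 c P) : ∃ R1 : ℕ,
    Clu (domainSites (Metric.ball (0 : ℂ) P.2) P.1) (fun i => meshIndex P.1 (x i)) (0, 0)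
      (((∅ : Finset (ℤ × ℤ)) : Set (ℤ × ℤ)) ∪ Set.range (fun i => meshIndex P.1 (x i)))
      R1 (32 * rr p k0 (k + 1)) ∧ 4 * R1 + 8 ≤ rr p k0 k := by
  have := h.coarse hn k hk hk'
  rwa [range_elim0, ← Finset.coe_empty] at this

/-- **the geometry of large discs**: `c` depends on `C1` only -/
theorem disc_good (C1 : ℕ) : ∃ c1 : ℝ, 0 < c1 ∧ ∀ (n m : ℕ) (x : Fin n → ℂ) (y : Fin m → ℂ),
    Function.Injective (Fin.append x y) → ∃ u0 v0 : ℝ, 0 < u0 ∧ 0 < v0 ∧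
    ∀ u v c : ℝ, 0 < u → u ≤ u0 → v0 ≤ v → 0 < c → c ≤ c1 → ∀ p k0 : ℕ, 1 ≤ p →
    ∀ᶠ P in dl, DiscG p k0 C1 u v c x y P := by
  obtain ⟨c0, hc0, -, Hr⟩ := disc_latReg
  refine ⟨min (c0 / (C1 + 1)) (1 / 512), by positivity, fun n m x y hinj => ?_⟩
  obtain ⟨cx, a1, B1, hcx, ha1, hB1, Hf⟩ := cfg_disc hinj
  -- the cluster configuration, if `n` is even
  obtain ⟨K, a2, B2, hK, ha2, hB2, Hc⟩ : ∃ K a2 B2 : ℝ, 0 < K ∧ 0 < a2 ∧ 0 < B2 ∧ (Even n →
      ∀ a B : ℝ, 0 < a → a ≤ a2 → B2 ≤ B → ∀ R0 : ℕ, 16 * (a * R0) ≤ B →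
      Clu (domainSites (Metric.ball (0 : ℂ) B) a) (fun i => meshIndex a (x i)) (0, 0)
        (Set.range (fun i => meshIndex a (x i)) ∪ Set.range (fun j => meshIndex a (y j)))
        ⌈K / a⌉₊ R0) := by
    by_cases hn : Even n
    · obtain ⟨K, a2, B2, h1, h2, h3, h4⟩ := clu_disc (x := x) (y := y) hn hinj
      exact ⟨K, a2, B2, h1, h2, h3, fun _ => h4⟩
    · exact ⟨1, 1, 1, one_pos, one_pos, one_pos, fun h => absurd h hn⟩
  refine ⟨cx / 33, 4 * K + 12, by positivity, by positivity, ?_⟩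
  intro u v c hu hu0 hv0 hc hcc p k0 hp
  have hcc1 : C1 * c ≤ c0 := by
    have h1 := hcc.trans (min_le_left _ _)
    rw [le_div_iff₀ (by positivity)] at h1
    linarith
  have hcc3 : 512 * c ≤ 1 := by
    have := hcc.trans (min_le_right _ _)
    linarith
  have hux : 33 * u ≤ cx := by linarith
  have hsm : ∀ᶠ a : ℝ in 𝓝[>] 0, a ≤ min 1 (min a1 a2) :=
    mem_of_superset (Ioc_mem_nhdsGT (show (0:ℝ) < min 1 (min a1 a2) by positivity)) fun a ha => ha.2
  have e1 : ∀ᶠ a : ℝ in 𝓝[>] 0, ∀ᶠ B : ℝ in atTop, DiscG p k0 C1 u v c x y (a, B) := by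
    filter_upwards [hsm, ev_pow_le ((2 : ℝ) ^ (p * k0)) hu, self_mem_nhdsWithin] with a hsa hua ha0
    have ha : (0 : ℝ) < a := ha0
    have ha1' : a ≤ a1 := hsa.trans ((min_le_right _ _).trans (min_le_left _ _))
    have ha2' : a ≤ a2 := hsa.trans ((min_le_right _ _).trans (min_le_right _ _))
    have ha1'' : a ≤ 1 := hsa.trans (min_le_left _ _)
    have t := DiscKx892.kf_tendsto_B hp k0 hc ha
    filter_upwards [eventually_ge_atTop (max (max B1 B2) (2 ^ (p * k0) * a / c)),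
      t.eventually_ge_atTop (k1 p k0 u a), t.eventually_ge_atTop (k2 p k0 v a)]
      with B hB hk1 hk2
    have hBB1 : B1 ≤ B := ((le_max_left _ _).trans (le_max_left _ _)).trans hB
    have hBB2 : B2 ≤ B := ((le_max_right _ _).trans (le_max_left _ _)).trans hB
    have hBp : 0 < B := hB1.trans_le hBB1
    have hcB : (2 : ℝ) ^ (p * k0) ≤ c * B / a := by
      have h3 := (le_max_right _ _).trans hB
      rw [div_le_iff₀ hc] at h3
      rw [le_div_iff₀ ha]; linarith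
    have hle1 : ∀ k ≤ k1 p k0 u a, (rr p k0 k : ℝ) ≤ u / a := fun k hk =>
      DiscKx892.rr_le_k1 hua hk
    have hlef : ∀ k ≤ kf p k0 c (a, B), (rr p k0 k : ℝ) ≤ c * B / a := fun k hk =>
      DiscKx892.rr_le_kf (P := (a, B)) hcB hk
    have h33 : ∀ k < k1 p k0 u a, 33 * rr p k0 (k + 1) ≤ ⌊cx / a⌋₊ := by
      intro k hk
      refine Nat.le_floor ?_
      push_cast
      have h1 := hle1 (k + 1) hk
      calc (33 : ℝ) * rr p k0 (k + 1) ≤ 33 * (u / a) := by linarith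
        _ = (33 * u) / a := by ring
        _ ≤ cx / a := by gcongr
    have hcf := Hf a B ha ha1' hBB1
    obtain ⟨κ, hκ1, hκ2⟩ := Hr B a hBp ha
    refine ⟨ha, hBp, hle1, hlef, ⟨_, κ, hκ1, hκ2, fun k hk => ?_⟩, fun k hk => ?_,
      fun k hk i j hij => ?_, hk1, hk2, fun hn k hk1 hk2 => ?_⟩
    · have h1 := hlef (k + 1) hk
      refine (mul_le_mul_of_nonneg_left h1 (Nat.cast_nonneg _)).trans ?_
      rw [← mul_div_assoc, ← mul_assoc]
      gcongr
    · have h1 := h33 k hk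
      have h2 := rr_pos p k0 (k + 1)
      exact sep_of_cfg hcf (by omega)
    · have h1 := h33 k hk
      have h2 := hcf.YY i j hij
      change 10 * rr p k0 (k + 1) < fd (meshIndex a (y i)) (meshIndex a (y j))
      omega
    · have hv : v / a < (rr p k0 k : ℝ) := DiscKx892.lt_rr_k2 hp v a hk1
      refine ⟨⌈K / a⌉₊, ?_, ?_⟩
      · rw [Set.union_comm]
        refine Hc hn a B ha ha2' hBB2 _ ?_
        have h1 := hlef (k + 1) hk2
        have h9 : a * (rr p k0 (k + 1) : ℝ) ≤ c * B := by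
          rw [le_div_iff₀ ha] at h1; linarith
        push_cast
        nlinarith
      · have h7 := (Nat.ceil_lt_add_one (show 0 ≤ K / a by positivity)).le
        have h8 : ((4 * ⌈K / a⌉₊ + 8 : ℕ) : ℝ) ≤ v / a := by
          push_cast
          have h9 : (4 * K + 12) / a ≤ v / a := by gcongr
          have h10 : (4 * K + 12) / a = 4 * (K / a) + 12 / a := by ring
          have h11 : 12 ≤ 12 / a := by rw [le_div_iff₀ ha]; nlinarith
          linarith
        exact_mod_cast (h8.trans hv.le)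
  exact eventually_curry_iff.2 e1

/-- **no insertions beyond `x`, no marks** -/
theorem disc_good0 (C1 : ℕ) : ∃ c1 : ℝ, 0 < c1 ∧ ∀ (n : ℕ) (x : Fin n → ℂ),
    Function.Injective x → ∃ u0 v0 : ℝ, 0 < u0 ∧ 0 < v0 ∧
    ∀ u v c : ℝ, 0 < u → u ≤ u0 → v0 ≤ v → 0 < c → c ≤ c1 → ∀ p k0 : ℕ, 1 ≤ p →
    ∀ᶠ P in dl, DiscG p k0 C1 u v c x (Fin.elim0 : Fin 0 → ℂ) P := by
  obtain ⟨c1, hc1, H⟩ := disc_good C1
  refine ⟨c1, hc1, fun n x hx => H n 0 x Fin.elim0 ?_⟩
  intro i j hij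
  have h1 : ∀ i : Fin (n + 0), Fin.append x (Fin.elim0 : Fin 0 → ℂ) i = x i := fun i => by
    have := Fin.append_left x (Fin.elim0 : Fin 0 → ℂ) i
    exact this
  rw [h1, h1] at hij
  exact hx hij

end Crest.Agent.R165.GeoScx420
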