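import Crest.Agent.R165.XBd2_915
import Crest.Agent.R165.StrS_897
import Crest.Agent.R165.Out_683
import Crest.Agent.R165.Const_891
import Crest.Agent.R165.DiscK_892
import Crest.Agent.R165.DiscMk2_117
import Crest.Agent.R165.DiscGeo_420
import Crest.Agent.R165.C0_950
import Crest.Agent.R165.U5Props_422

-- ▼ part R165/CrudeD_915
section

/-!
# Row 165, discs (D5): `StepOK` for the crude steps (helper915)

At a crude step the amplitude drops by the factor `2 √(2^p)`; no geometry is used.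

* `StepOK.mono_ac`
* `CrOK c` : the numerical conditions on the constants, `ev_crOK : EvC CrOK`
* `CFcr c` : the constant (depends on `p` only), `CFcr_ne_top`
* `stepOK_cr` : `StepOK` for every background with `|w| ≤ 1`, every marks, every initial activities
* `stepOK_aD` : the crude steps of the amplitudes `aD` of 892 (`q = 2 √(2^p)`)
-/

set_option autoImplicit false
set_option linter.unusedSectionVars false

noncomputable section

open scoped ENNReal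
open Filter Topology
open Crest.Agent.R165.Gr0x606 Crest.Agent.R165.Gr1x606 Crest.Agent.R165.GeOpsx337
  Crest.Agent.R165.KFlowx337 Crest.Agent.R165.GrLocx337
open Crest.Agent.R165.Latx683 Crest.Agent.R165.PNormx417 Crest.Agent.R165.GDefx387
open Crest.Agent.R165.FRDPolyx439 Crest.Agent.R165.FRDLatx439
open Crest.Agent.R165.BgIsox432 Crest.Agent.R165.Bridgex915 Crest.Agent.R165.DefRecx915
  Crest.Agent.R165.GSysx387 Crest.Agent.R165.GSysOKx439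
open Crest.Agent.R165.Compx889 Crest.Agent.R165.W0Sx897 Crest.Agent.R165.StepGluex897
open Crest.Agent.R165.StrSx897 Crest.Agent.R165.PEndx683 Crest.Agent.R165.Outx683
open Crest.Agent.R165.Constx891 Crest.Agent.R165.XBdx915 Crest.Agent.R165.DiscPhx892

namespace Crest.Agent.R165.CrudeDx915

section mono

variable {G : Type} [CommRing G] [CN G] [DecidableEq G]

/-- fewer active polymers -/
theorem StepOK.mono_ac {D : Sys (G × G) (Fld G)} {w : BW G} {Γ : ℝ≥0∞} {k : ℕ} {a a' : ℝ}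
    {r r' : ℕ} {ac ac' em : Finset (G × G) → Prop} {κ₀ CF : ℝ≥0∞}
    (h : StepOK D w Γ k a a' r r' ac em κ₀ CF) (hac : ∀ U, ac' U → ac U) :
    StepOK D w Γ k a a' r r' ac' em κ₀ CF := by
  obtain ⟨κ, hκ, A, m, N, q, qL, qT, CX, H, hX, h1, h2⟩ := h
  refine ⟨κ, hκ, A, m, N, q, qL, qT, CX, ?_, fun U hU => hX U (hac U hU), h1, h2⟩
  exact
    { count := H.count
      q_ne := H.q_ne
      qL_ne := H.qL_ne
      qT_ne := H.qT_ne
      large := fun U hU => H.large U (hac U hU)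
      small := fun U hU => H.small U (hac U hU)
      any := fun U hU => H.any U (hac U hU) }


end mono

/-- the numerical conditions of the crude steps -/
structure CrOK (c : Cst) : Prop where
  h10 : 10 ≤ 2 ^ c.p
  hΓ : 3 ≤ c.Γ
  hr : 2 ≤ rr c.p c.k0 0
  hA : ∀ n, cW0 DD c.p c.k0 n ≤ c.A0
  hA2 : 2 * c0 DD.C c.p c.k0 ≤ c.A0

theorem ev_crOK : EvC CrOK := by
  have h1 := ev_p_ge 4
  have h2 := ev_Γ_ge 3
  have h3 := ev_k0_ge fun _ _ => 1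
  have h4 := ev_A0_ge fun p _ k0 => cW0 DD p k0 0
  have h5 := ev_A0_ge fun p _ k0 => cW0 DD p k0 1
  have h6 := ev_A0_ge fun p _ k0 => 2 * c0 DD.C p k0
  refine (((((h1.and h2).and h3).and h4).and h5).and h6).mono fun c hc => ?_
  obtain ⟨⟨⟨⟨⟨e1, e2⟩, e3⟩, e4⟩, e5⟩, e6⟩ := hc
  refine ⟨?_, e2, ?_, fun n => ?_, e6⟩
  · calc 10 ≤ 2 ^ 4 := by norm_num
      _ ≤ 2 ^ c.p := Nat.pow_le_pow_right (by norm_num) e1
  · unfold rr
    calc 2 = 2 ^ 1 := rfl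
      _ ≤ 2 ^ (c.p * (c.k0 + 0)) := Nat.pow_le_pow_right (by norm_num) (by
          rw [add_zero]
          exact Nat.one_le_iff_ne_zero.2 (Nat.mul_ne_zero (by omega) (by omega)))
  · rcases Nat.eq_zero_or_pos n with hn | hn
    · rw [hn]; exact e4
    · refine le_trans (le_of_eq ?_) e5
      unfold cW0
      rw [if_neg (by omega), if_neg (by omega)]

/-- the absolute constant of the extraction maps -/
def CXabs : ℝ≥0∞ := exists_xbd.choose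

theorem CXabs_ne_top : CXabs ≠ ∞ := exists_xbd.choose_spec.1

theorem xbd_abs {G : Type} [CommRing G] [CN G] [CNZ G] [GoodG G]
    [DecidableEq G] {w : BW G} (hw : ∀ z j, |w z j| ≤ 1) {M K : ℕ} (D : FRD 16 M K)
    (hM : MM + 1 ≤ M) {mk : Finset (G × G)} {l k0 : ℕ} {K0 : Finset (G × G) → Ge (Fld G)}
    (hOK : (sys D w mk l k0 K0).OK ⊥) (n : ℕ) {a a' : ℝ} (ha : 2 * c0 D.C l k0 ≤ a) (ha' : 0 < a')
    (haa : a' ≤ 2 * a) (ac : Finset (G × G) → Prop) :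
    XBd w a a' (rr l k0 n) (rr l k0 (n + 1)) ac (sys D w mk l k0 K0) n CXabs :=
  exists_xbd.choose_spec.2 G w hw M K D hM mk l k0 K0 hOK n a a' ha ha' haa ac

/-- the constant of the crude steps -/
def CFcr (c : Cst) : ℝ≥0∞ := CS c.p CXabs

theorem CFcr_ne_top (c : Cst) : CFcr c ≠ ∞ := CS_ne_top c.p CXabs_ne_top

theorem DD_M : MM + 1 ≤ 8 := by unfold MM; norm_num

section crude

variable {G : Type} [CommRing G] [CN G] [CNZ G] [GoodG G] [DecidableEq G] {w : BW G} {c : Cst}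
  {mk : Finset (G × G)} {K0 : Finset (G × G) → Ge (Fld G)}

/-- **`StepOK` for a crude step**, every background with `|w| ≤ 1` -/
theorem stepOK_cr (hc : CrOK c) (hw : ∀ z j, |w z j| ≤ 1) (hOK : (sys DD w mk c.p c.k0 K0).OK ⊥)
    (n : ℕ) {a a' : ℝ} (ha' : c.A0 ≤ a')
    (hdrop : 2 * (a' * Real.sqrt (rr c.p c.k0 (n + 1))) ≤ a * Real.sqrt (rr c.p c.k0 n))
    {ac : Finset (G × G) → Prop} (hne : ∀ U, ac U → U.Nonempty)
    (hcn : ∀ U, ac U → Packx915.Conn fd (nearR c.p c.k0 n) U) (em : Finset (G × G) → Prop) :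
    StepOK (sys DD w mk c.p c.k0 K0) w (ENNReal.ofReal c.Γ) n a a' (rr c.p c.k0 n)
      (rr c.p c.k0 (n + 1)) ac em (CFcr c) (CFcr c) := by
  have hA0 : 0 < c.A0 := (by have := c0_pos DD.C_pos c.p c.k0; linarith [hc.hA2])
  have ha'0 : 0 < a' := hA0.trans_le ha'
  have hr1 : (0 : ℝ) < Real.sqrt (rr c.p c.k0 n) :=
    Real.sqrt_pos.2 (by exact_mod_cast rr_pos c.p c.k0 n)
  have hr2 : Real.sqrt (rr c.p c.k0 n) ≤ Real.sqrt (rr c.p c.k0 (n + 1)) :=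
    Real.sqrt_le_sqrt (by exact_mod_cast rr_mono c.p c.k0 (Nat.le_succ n))
  have haa : 2 * a' ≤ a := by
    have h1 : 2 * (a' * Real.sqrt (rr c.p c.k0 n)) ≤ a * Real.sqrt (rr c.p c.k0 n) :=
      le_trans (by gcongr) hdrop
    have h2 : (2 * a') * Real.sqrt (rr c.p c.k0 n) ≤ a * Real.sqrt (rr c.p c.k0 n) := by
      linarith
    exact le_of_mul_le_mul_right h2 hr1
  have ha : c.A0 ≤ a := by linarith
  have hn : 2 ≤ rr c.p c.k0 n := hc.hr.trans (rr_mono c.p c.k0 (Nat.zero_le n))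
  have h := stepOK_crude (F := DD) (l := c.p) (k0 := c.k0) (n := n) (mk := mk) (K0 := K0)
    (Ac := Set.univ) (CX := CXabs) (Γ := ENNReal.ofReal c.Γ) DD_M hw hc.h10 hn
    (by linarith) ha'0.le hdrop ((hc.hA n).trans ha') (by
      have h3 : (3 : ℝ≥0∞) = ENNReal.ofReal 3 := by norm_num
      rw [h3]; exact ENNReal.ofReal_le_ofReal hc.hΓ)
    (xbd_abs hw DD DD_M hOK n (hc.hA2.trans ha) ha'0 (by linarith) _) em
  exact StepOK.mono_ac h fun U hU => ⟨hne U hU, hcn U hU, fun x _ => Set.mem_univ x⟩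

/-- the drop of the amplitudes `aD` at the crude steps -/
theorem aD_drop {A₀ δ : ℝ} {K₁ K₂ k p k0 : ℕ} (hk : K₁ ≤ k) (hk2 : k < K₂) :
    2 * (aD A₀ δ (2 * Real.sqrt (2 ^ p)) K₁ K₂ (k + 1) * Real.sqrt (rr p k0 (k + 1))) =
      aD A₀ δ (2 * Real.sqrt (2 ^ p)) K₁ K₂ k * Real.sqrt (rr p k0 k) := by
  have hs : (0 : ℝ) < Real.sqrt (2 ^ p) := Real.sqrt_pos.2 (by positivity)
  rw [aD_crude (by positivity) hk hk2, rr_succ]
  push_cast
  rw [Real.sqrt_mul (by positivity)]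
  field_simp

/-- **(D5)**: the crude steps of a large disc -/
theorem stepOK_aD (hc : CrOK c) (hδ : 0 ≤ c.δ) (hw : ∀ z j, |w z j| ≤ 1)
    (hOK : (sys DD w mk c.p c.k0 K0).OK ⊥) {K₁ K₂ k : ℕ} (h12 : K₁ ≤ K₂)
    (hJ : (2 * Real.sqrt (2 ^ c.p)) ^ (K₂ - K₁) ≤ 1 + c.δ * K₁) (hk : K₁ ≤ k) (hk2 : k < K₂)
    {ac : Finset (G × G) → Prop} (hne : ∀ U, ac U → U.Nonempty)
    (hcn : ∀ U, ac U → Packx915.Conn fd (nearR c.p c.k0 k) U) (em : Finset (G × G) → Prop) :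
    StepOK (sys DD w mk c.p c.k0 K0) w (ENNReal.ofReal c.Γ) k
      (aD c.A0 c.δ (2 * Real.sqrt (2 ^ c.p)) K₁ K₂ k)
      (aD c.A0 c.δ (2 * Real.sqrt (2 ^ c.p)) K₁ K₂ (k + 1)) (rr c.p c.k0 k)
      (rr c.p c.k0 (k + 1)) ac em (CFcr c) (CFcr c) := by
  have hA0 : 0 < c.A0 := (by have := c0_pos DD.C_pos c.p c.k0; linarith [hc.hA2])
  have hq : 1 ≤ 2 * Real.sqrt (2 ^ c.p) := by
    have : (1 : ℝ) ≤ Real.sqrt (2 ^ c.p) := by
      rw [← Real.sqrt_one]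
      exact Real.sqrt_le_sqrt (one_le_pow₀ (by norm_num))
    linarith
  exact stepOK_cr hc hw hOK k (aD_ge h12 hA0.le hδ hq hJ (k + 1)) (aD_drop hk hk2).le hne hcn em

end crude

end Crest.Agent.R165.CrudeDx915
end
end

-- ▼ part R165/DiscComp_722

/-!
# Row 165 (S0250), large discs: the norm bounds of the flows through the three phases (helper722)

Parameters `P = (a, B)`: mesh `a`, radius `B`; filter `DiscKx892.dl = (𝓝[>] 0).curry atTop`.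

* `Geo3 c C1 T X mk K1 K2 K` : geometry of the three phases (fine `< K1`, crude, coarse `≥ K2`)
* `ctlJ3` : `Compx889.CtlJ` of the flow of a domain from `Geo3` (any marks, any local sources), number
  of crude steps `≤ K2 - K1`, amplitudes `aD` of 892 with `q = 2 √(2^p)`
* `ctl_free` : `Ctl` without insertions and marks, the same amplitudes
* `Out3` : the bounds; `out3`, `out3_free`
* `ev_disc3` : **(H1) of `spinData_disc`**: for all constants, small `lam`, parameters with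
  controlled plane flow: the bounds hold for the insertions `x` and for no insertions, eventually
  along `dl`, for all `u ≤ u0`, `v ≥ v0`, `cc ≤ c1`; only hypothesis `PlB` (plane, growing
  amplitudes)
-/

set_option autoImplicit false
set_option linter.unusedSectionVars false

noncomputable section

open Filter Topology
open scoped ENNReal
open Crest.ProbabilityR.IsingModel
open Crest.Agent.R165.Geo (LatReg bdS)
open Crest.Agent.R165.Gr0x606 Crest.Agent.R165.Gr1x606 Crest.Agent.R165.GeOpsx337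
open Crest.Agent.R165.Latx683 (BW wDom wX wPl Fld)
open Crest.Agent.R165.GDefx387 Crest.Agent.R165.GSysx387 Crest.Agent.R165.KFlowx337
open Crest.Agent.R165.DefRecx915 Crest.Agent.R165.Compx889 Crest.Agent.R165.NKDefx915
open Crest.Agent.R165.Bkgx683 Crest.Agent.R165.Outx683 Crest.Agent.R165.PEndx683
open Crest.Agent.R165.Constx891 Crest.Agent.R165.StepOKx838 Crest.Agent.R165.DomAcx117
open Crest.Agent.R165.BgIsox432 Crest.Agent.R165.Bridgex915 Crest.Agent.R165.Scalex900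
open Crest.Agent.R165.GeoIx838 (Sep SepP)
open Crest.Agent.R165.GeoCox838 (Clu)
open Crest.Agent.R165.StepGluex897 (acS)
open Crest.Agent.R165.DiscMkx117 Crest.Agent.R165.DiscPhx892 Crest.Agent.R165.DiscKx892
open Crest.Agent.R165.CrudeDx915 Crest.Agent.R165.GeoScx420 Crest.Agent.R165.DeepBgx898
open Crest.Agent.R165.U5Px422 (TT)
open Crest.Agent.R165.TorNorm2x583 (PlB)

namespace Crest.Agent.R165.DiscCompx722

/-! ### the amplitudes -/

/-- the drop of the amplitudes at a crude step -/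
abbrev qD (c : Cst) : ℝ := 2 * Real.sqrt (2 ^ c.p)

theorem one_le_qD (c : Cst) : 1 ≤ qD c := by
  have : (1 : ℝ) ≤ Real.sqrt (2 ^ c.p) := by
    rw [← Real.sqrt_one]
    exact Real.sqrt_le_sqrt (one_le_pow₀ (by norm_num))
  unfold qD
  linarith

/-- the amplitudes of a large disc -/
abbrev aC (c : Cst) (K1 K2 : ℕ) (k : ℕ) : ℝ := aD c.A0 c.δ (qD c) K1 K2 k

section amp

variable {c : Cst} {K1 K2 : ℕ}

theorem aC_ge (hc : Std c) (h12 : K1 ≤ K2) (hJ : qD c ^ (K2 - K1) ≤ 1 + c.δ * K1) (k : ℕ) :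
    c.A0 ≤ aC c K1 K2 k :=
  aD_ge h12 (zero_le_one.trans hc.A0_ge) hc.δ_pos.le (one_le_qD c) hJ k

theorem aC_le (hc : Std c) (h12 : K1 ≤ K2) (k : ℕ) : aC c K1 K2 k ≤ Outx683.amp c k :=
  aD_le h12 (zero_le_one.trans hc.A0_ge) hc.δ_pos.le (one_le_qD c) k

theorem aC_zero (h12 : K1 ≤ K2) : aC c K1 K2 0 = c.A0 := by
  unfold aC
  rw [aD_fine h12 (Nat.zero_le _)]
  unfold Compx889.amp
  simp

/-- the amplitudes at most double -/
theorem aC_two (hc : Std c) (h12 : K1 ≤ K2) (hJ : qD c ^ (K2 - K1) ≤ 1 + c.δ * K1) (k : ℕ) :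
    aC c K1 K2 (k + 1) ≤ 2 * aC c K1 K2 k := by
  have hA : 0 ≤ c.A0 := zero_le_one.trans hc.A0_ge
  have h0 : 0 ≤ aC c K1 K2 k := hA.trans (aC_ge hc h12 hJ k)
  by_cases hk : k < K1 ∨ K2 ≤ k
  · have h1 := (aD_step h12 hA hc.δ_pos.le (one_le_qD c) hJ hk).2
    have h2 := hc.δ_le
    refine h1.trans (mul_le_mul_of_nonneg_right (by linarith) h0)
  · have h1 : K1 ≤ k := by omega
    have h2 : k < K2 := by omega
    have h3 : 0 < qD c := one_pos.trans_le (one_le_qD c)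
    unfold aC
    rw [aD_crude h3 h1 h2]
    have h4 : aD c.A0 c.δ (qD c) K1 K2 k / qD c ≤ aD c.A0 c.δ (qD c) K1 K2 k :=
      div_le_self h0 (one_le_qD c)
    linarith

end amp

/-! ### the geometry -/

/-- **geometry of the three phases** -/
structure Geo3 (c : Cst) (C1 : ℕ) (T : Set (ℤ × ℤ)) {m : ℕ} (X : Fin m → ℤ × ℤ)
    (mk : Finset (ℤ × ℤ)) (K1 K2 K : ℕ) : Prop where
  reg : ∃ ρ κ : ℝ, LatReg T ρ κ ∧ κ * ρ ≤ 1 ∧ ∀ k < K, (C1 : ℝ) * rr c.p c.k0 (k + 1) ≤ ρ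
  fine : ∀ k < K1, Sep T X mk (32 * rr c.p c.k0 (k + 1))
  marks : ∀ k < K1, MkOK mk (rr c.p c.k0 k) (10 * rr c.p c.k0 (k + 1))
  coarse : ∀ k, K2 ≤ k → k < K → ∃ (z0 : ℤ × ℤ) (R1 : ℕ),
    Clu T X z0 ((mk : Set (ℤ × ℤ)) ∪ Set.range X) R1 (32 * rr c.p c.k0 (k + 1)) ∧
      4 * R1 + 8 ≤ rr c.p c.k0 k

section det

variable {T : Finset (ℤ × ℤ)} {b : BoundaryCondition} {m : ℕ} {X : Fin m → ℤ × ℤ} {P : MPar}
variable {κ : Type} [DecidableEq κ] [Fintype κ]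

/-- **controlled flow with crude steps**: any insertions, marks, local sources -/
theorem ctlJ3 {c : Cst} {CF : ℝ≥0∞} {C1 : ℕ} (H : Good c CF C1) (hc : Std c) (hcr : CrOK c)
    (h5 : 5 ≤ c.p * (c.k0 + 1)) {q : ℕ} (hq : 2 * P.R + 1 ≤ q) (hq2 : 2 ≤ q)
    (hqr : q ≤ s2 * rr c.p c.k0 0) {src : Srcs κ ℤ (Ge (Fld ℤ))} (hs : SrcOK src)
    (hsT : ∀ k, src.Ys k ⊆ nbF T q) {mk : Finset (ℤ × ℤ)} {K1 K2 K : ℕ} (h12 : K1 ≤ K2)
    (hJ : qD c ^ (K2 - K1) ≤ 1 + c.δ * K1) (hG : Geo3 c C1 (T : Set (ℤ × ℤ)) X mk K1 K2 K) :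
    CtlJ c CF (CFcr c) (K2 - K1) (Ph K1 K2) (aC c K1 K2)
      ((Bg.dom T b X).flow P DD mk src c.p c.k0) (Bg.dom T b X).w
      (fun n => acS c.p c.k0 n (nbT T q))
      (fun n => emM (Bg.dom T b X).w (mk : Set (ℤ × ℤ)) (rr c.p c.k0 n)) K where
  str := StrSx897.str_flow (Bg.dom T b X) P DD mk src hs.con (by omega)
    (fun U hU x hx => by
      rw [← coe_nbF]
      by_contra hcon
      exact hU (K00_near hq hq2 hsT _ U fun h => hcon (h hx)))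
    (by
      rw [← ENNReal.ofReal_one]
      exact ENNReal.ofReal_le_ofReal (by linarith [hc.Γ_ge])) K
  step n hn hph := by
    obtain ⟨ρ, κ', hT, hκ, hK⟩ := hG.reg
    have hq3 : q ≤ s2 * rr c.p c.k0 n :=
      hqr.trans (Nat.mul_le_mul_left _ (rr_mono _ _ (Nat.zero_le n)))
    have hact : ∀ U, acS c.p c.k0 n (nbT T q) U → ∃ u ∈ U, ∃ z ∈ (T : Set (ℤ × ℤ)), fd u z ≤ q :=
      fun U hU => by
        obtain ⟨u, hu⟩ := hU.1
        exact ⟨u, hu, hU.2.2 u hu⟩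
    rcases hph with h1 | h1
    · exact H.dom T ρ κ' hT hκ m X mk (isF b) _ (ok_flow h5 (Bg.dom T b X) P mk hs) n q _ _ _
        (hK n hn) (hG.fine n h1) (hG.marks n h1) hq3 (fun U hU => hU.2.1) hact
        (aC_ge hc h12 hJ n) (aC_ge hc h12 hJ (n + 1)) (aC_two hc h12 hJ n)
    · obtain ⟨z0, R1, h2, h3⟩ := hG.coarse n h1 hn
      exact H.clu T ρ κ' hT hκ m X mk (isF b) z0 R1 _ (ok_flow h5 (Bg.dom T b X) P mk hs) n q _ _ _
        (hK n hn) h2 h3 hq3 (fun U hU => hU.2.1) hact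
        (aC_ge hc h12 hJ n) (aC_ge hc h12 hJ (n + 1)) (aC_two hc h12 hJ n)
  crude n _ hph := by
    rw [not_Ph] at hph
    exact stepOK_aD hcr hc.δ_pos.le (abs_wX_dom T (isF b) X)
      (ok_flow h5 (Bg.dom T b X) P mk hs) h12 hJ hph.1 hph.2 (fun U hU => hU.1)
      (fun U hU => hU.2.1) _
  count := cr_Ph K1 K2 K

/-- **controlled flow without insertions and marks**, the same amplitudes -/
theorem ctl_free {c : Cst} {CF : ℝ≥0∞} {C1 : ℕ} (H : Good c CF C1) (hc : Std c)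
    (h5 : 5 ≤ c.p * (c.k0 + 1)) {q : ℕ} (hq : 2 * P.R + 1 ≤ q) (hq2 : 2 ≤ q)
    (hqr : q ≤ s2 * rr c.p c.k0 0) {src : Srcs κ ℤ (Ge (Fld ℤ))} (hs : SrcOK src)
    (hsT : ∀ k, src.Ys k ⊆ nbF T q) {K1 K2 K : ℕ} (h12 : K1 ≤ K2)
    (hJ : qD c ^ (K2 - K1) ≤ 1 + c.δ * K1) (X0 : Fin 0 → ℤ × ℤ)
    (hG : ∃ ρ κ : ℝ, LatReg (T : Set (ℤ × ℤ)) ρ κ ∧ κ * ρ ≤ 1 ∧
      ∀ k < K, (C1 : ℝ) * rr c.p c.k0 (k + 1) ≤ ρ) :
    Ctl c CF (aC c K1 K2) ((Bg.dom T b X0).flow P DD ∅ src c.p c.k0) (Bg.dom T b X0).w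
      (fun n => acS c.p c.k0 n (nbT T q))
      (fun n => emM (Bg.dom T b X0).w ((∅ : Finset (ℤ × ℤ)) : Set (ℤ × ℤ)) (rr c.p c.k0 n)) K := by
  obtain ⟨ρ, κ', hT, hκ, hK⟩ := hG
  refine ctl_dom H h5 (by linarith [hc.Γ_ge]) hq hq2 hqr hs hsT hT hκ hK (fun n _ => ?_)
    (fun n _ => ?_) (aC_ge hc h12 hJ) (aC_two hc h12 hJ)
  · rw [Finset.coe_empty]
    exact ⟨fun i => i.elim0, fun i => i.elim0, fun i => i.elim0,
      fun u hu => absurd hu (Set.notMem_empty u), fun u hu => absurd hu (Set.notMem_empty u)⟩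
  · rw [Finset.coe_empty]
    exact MkOK.empty _ _

end det

/-! ### the bounds -/

/-- **the bounds of a flow** up to the step `K`: `M` in all phases, `M0` up to the step `K1` -/
structure Out3 (c : Cst) (D : Sys (ℤ × ℤ) (Fld ℤ)) (w : BW ℤ) (K1 K2 K : ℕ) (M0 M t : ℝ) :
    Prop where
  np : ∀ k, k ≤ K → NPc c D w (aC c K1 K2) allP k ≤ ENNReal.ofReal (M * t * (1 / 2) ^ k)
  nc : ∀ k, k < K → NCc c D k ≤ ENNReal.ofReal (M * t * (1 / 2) ^ k)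
  npf : ∀ k, k ≤ K → k ≤ K1 →
    NPc c D w (aC c K1 K2) allP k ≤ ENNReal.ofReal (M0 * t * (1 / 2) ^ k)
  ncf : ∀ k, k < K → k < K1 → NCc c D k ≤ ENNReal.ofReal (M0 * t * (1 / 2) ^ k)
  act : ∀ k, k < K → ∀ U, D.K k U ≠ 0 → U.Nonempty ∧ Packx915.Conn fd (nearR c.p c.k0 k) U

/-- the constants in the form of `SpinSys_892` -/
theorem Out3.bd {c : Cst} {D : Sys (ℤ × ℤ) (Fld ℤ)} {w : BW ℤ} {K1 K2 K : ℕ} {M0 M t : ℝ}
    (h : Out3 c D w K1 K2 K M0 M t) :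
    SpinSysx892.Bd D fd (fun k => rr c.p c.k0 (k + 1)) (nearR c.p c.k0) (ENNReal.ofReal c.Γ)
      (fun k => M * t * (1 / 2) ^ k) K := bd_of_ac h.nc h.act


/-- the norm of the activities as `NK` -/
theorem Out3.nk {c : Cst} {D : Sys (ℤ × ℤ) (Fld ℤ)} {w : BW ℤ} {K1 K2 K : ℕ} {M0 M t : ℝ}
    (h : Out3 c D w K1 K2 K M0 M t) (k : ℕ) (hk : k ≤ K) :
    NK w (aC c K1 K2 k) (rr c.p c.k0 k) (ENNReal.ofReal c.Γ) (fun _ => True)
      (fun U => ((D.K k U : Ge (Fld ℤ)) : Gr (Fld ℤ))) ≤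
        ENNReal.ofReal (M * t * (1 / 2) ^ k) := h.np k hk

section det2

variable {T : Finset (ℤ × ℤ)} {b : BoundaryCondition} {m : ℕ} {X : Fin m → ℤ × ℤ}

/-- the inputs of the composition: deep polymers and initial activities -/
theorem inputs3 {c : Cst} (hc : Std c) {P : MPar} (h5 : 5 ≤ c.p * (c.k0 + 1))
    (hT : PlOK (Bg.dom T b X)) {K1 K2 K : ℕ} (h12 : K1 ≤ K2) {m' t : ℝ}
    (hpl : ∀ n, n ≤ K → NK (wPl ℤ) (Outx683.amp c n) (rr c.p c.k0 n) (ENNReal.ofReal c.Γ)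
      (fun _ => True) (fun U => (((plF c P).K n U : Ge (Fld ℤ)) : Gr (Fld ℤ))) ≤
        ENNReal.ofReal (m' * t * (1 / 2) ^ n))
    (h0 : NK (Bg.dom T b X).w c.A0 (rr c.p c.k0 0) (ENNReal.ofReal c.Γ) (fun _ => True)
      (fun U => (((fl c P (Bg.dom T b X)).K 0 U : Ge (Fld ℤ)) : Gr (Fld ℤ))) ≤
        ENNReal.ofReal (m' * t)) :
    (∀ k, k ≤ K → NPc c (domF c P T b X) (Bg.dom T b X).w (aC c K1 K2)
      (emM (Bg.dom T b X).w ((∅ : Finset (ℤ × ℤ)) : Set (ℤ × ℤ)) (rr c.p c.k0 k)) k ≤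
        ENNReal.ofReal (m' * t * (1 / 2) ^ k)) ∧
    NPc c (domF c P T b X) (Bg.dom T b X).w (aC c K1 K2)
      (fun U => ¬ emM (Bg.dom T b X).w ((∅ : Finset (ℤ × ℤ)) : Set (ℤ × ℤ)) (rr c.p c.k0 0) U) 0 ≤
        ENNReal.ofReal (m' * t) := by
  refine ⟨fun k hk => ?_, ?_⟩
  · rw [Finset.coe_empty]
    exact NP_fl (a' := Outx683.amp c) (b := fun n => ENNReal.ofReal (m' * t * (1 / 2) ^ n)) hT h5
      hpl (fun k _ => aC_le hc h12 k) k hk
  · refine le_trans ?_ h0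
    unfold NPc NP
    rw [aC_zero h12]
    exact NK_mono fun U _ => ⟨trivial, le_rfl⟩

/-- the bounds from the composition theorem with crude steps -/
theorem out3_of {c : Cst} {CF : ℝ≥0∞} {J : ℕ} {D : Sys (ℤ × ℤ) (Fld ℤ)} {w : BW ℤ}
    {Ac : Set (ℤ × ℤ)} {em : ℕ → Finset (ℤ × ℤ) → Prop} {K1 K2 K : ℕ} {M0 M t : ℝ}
    (h : CtlJ c CF (CFcr c) J (Ph K1 K2) (aC c K1 K2) D w (fun n => acS c.p c.k0 n Ac) em K)
    (hb : (∀ k, k ≤ K → NPc c D w (aC c K1 K2) allP k ≤ ENNReal.ofReal (M * t * (1 / 2) ^ k)) ∧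
      (∀ k, k < K → NCc c D k ≤ ENNReal.ofReal (M * t * (1 / 2) ^ k)) ∧
      (∀ k, k ≤ K → (∀ i, i < k → Ph K1 K2 i) →
        NPc c D w (aC c K1 K2) allP k ≤ ENNReal.ofReal (M0 * t * (1 / 2) ^ k)) ∧
      (∀ k, k < K → (∀ i, i ≤ k → Ph K1 K2 i) →
        NCc c D k ≤ ENNReal.ofReal (M0 * t * (1 / 2) ^ k))) : Out3 c D w K1 K2 K M0 M t where
  np := hb.1
  nc := hb.2.1
  npf k hk hk1 := hb.2.2.1 k hk fun i hi => Or.inl (by omega)
  ncf k hk hk1 := hb.2.2.2 k hk fun i hi => Or.inl (by omega)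
  act k hk U hU := by
    have h5 := h.str.hac k hk U hU
    exact ⟨h5.1, h5.2.1⟩

theorem out3_ctl {c : Cst} {CF : ℝ≥0∞} {D : Sys (ℤ × ℤ) (Fld ℤ)} {w : BW ℤ}
    {Ac : Set (ℤ × ℤ)} {em : ℕ → Finset (ℤ × ℤ) → Prop} {K1 K2 K : ℕ} {M0 t : ℝ}
    (h : Ctl c CF (aC c K1 K2) D w (fun n => acS c.p c.k0 n Ac) em K)
    (hb : (∀ k, k ≤ K → NPc c D w (aC c K1 K2) allP k ≤ ENNReal.ofReal (M0 * t * (1 / 2) ^ k)) ∧
      (∀ k, k < K → NCc c D k ≤ ENNReal.ofReal (M0 * t * (1 / 2) ^ k))) :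
    Out3 c D w K1 K2 K M0 M0 t where
  np := hb.1
  nc := hb.2
  npf k hk _ := hb.1 k hk
  ncf k hk _ := hb.2 k hk
  act k hk U hU := by
    have h5 := h.str.hac k hk U hU
    exact ⟨h5.1, h5.2.1⟩

theorem Out3.mono {c : Cst} {D : Sys (ℤ × ℤ) (Fld ℤ)} {w : BW ℤ} {K1 K2 K : ℕ}
    {M0 M M0' M' t : ℝ} (h : Out3 c D w K1 K2 K M0 M t) (ht : 0 ≤ t) (h0 : M0 ≤ M0')
    (h1 : M ≤ M') : Out3 c D w K1 K2 K M0' M' t where
  np k hk := (h.np k hk).trans (ENNReal.ofReal_le_ofReal (by gcongr))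
  nc k hk := (h.nc k hk).trans (ENNReal.ofReal_le_ofReal (by gcongr))
  npf k hk hk1 := (h.npf k hk hk1).trans (ENNReal.ofReal_le_ofReal (by gcongr))
  ncf k hk hk1 := (h.ncf k hk hk1).trans (ENNReal.ofReal_le_ofReal (by gcongr))
  act := h.act

end det2

/-! ### the inputs, for all constants -/

theorem mkOK_empty (r R : ℕ) : MkOK ((∅ : Finset (ℤ × ℤ)) : Set (ℤ × ℤ)) r R := by
  rw [Finset.coe_empty]; exact MkOK.empty _ _

/-- the geometry of 420 as `Geo3`, no marks -/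
theorem geo3_of {c : Cst} {C1 : ℕ} {u v cc : ℝ} {n : ℕ} {x : Fin n → ℂ} {P : ℝ × ℝ}
    (h : DiscG c.p c.k0 C1 u v cc x (Fin.elim0 : Fin 0 → ℂ) P) (hn : Even n) {T : Set (ℤ × ℤ)}
    (hT : T = domainSites (Metric.ball (0 : ℂ) P.2) P.1) :
    Geo3 c C1 T (fun i => meshIndex P.1 (x i)) ∅ (k1 c.p c.k0 u P.1) (k2 c.p c.k0 v P.1)
      (kf c.p c.k0 cc P) where
  reg := by rw [hT]; exact h.reg
  fine k hk := by rw [hT]; exact h.fine0 hk
  marks k _ := mkOK_empty _ _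
  coarse k h1 h2 := by
    obtain ⟨R1, h3, h4⟩ := h.coarse0 hn h1 h2
    rw [hT]
    exact ⟨(0, 0), R1, h3, h4⟩

/-- real form of the smallness at the crude steps -/
theorem small_real {p : ℕ} (hp : 1 ≤ p) (k0 : ℕ) {u ε e : ℝ} (hu : 0 < u) (hε : 0 ≤ ε)
    (he : 0 < e) : ∀ᶠ a in 𝓝[>] (0 : ℝ), ∀ k, k1 p k0 u a ≤ k → ε * (1 / 2) ^ k ≤ e := by
  have h := small_k1 hp k0 hu (q := (1 / 2 : ℝ≥0∞)) (by
    rw [one_div]; exact ENNReal.inv_lt_one.2 (by norm_num)) (ε := ENNReal.ofReal ε)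
    (e := ENNReal.ofReal e) ENNReal.ofReal_ne_top (by
      rw [Ne, ENNReal.ofReal_eq_zero, not_le]; exact he)
  filter_upwards [h] with a ha k hk
  have h1 := ha k hk
  rw [← geo_real hε] at h1
  exact (ENNReal.ofReal_le_ofReal_iff he.le).1 h1

/-- **(H1) of `spinData_disc`**: the bounds of the flows in the large discs, three phases, with the
insertions `x` and without insertions, for any boundary condition -/
theorem ev_disc3 {J : ℝ} {R : ℕ} {V : Finset (ℤ × ℤ) → ℝ} (hpl : PlB J R V) :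
    EvC fun c => ∃ C1 : ℕ, 32 ≤ C1 ∧ ∃ c1 : ℝ, 0 < c1 ∧ ∀ C : ℝ, ∃ ε > 0, ∃ M0 : ℝ, 0 < M0 ∧
      ∀ n : ℕ, Even n → ∀ x : Fin n → ℂ, Function.Injective x → ∃ u0 v0 : ℝ, 0 < u0 ∧ u0 ≤ v0 ∧
      ∀ u v cc : ℝ, 0 < u → u ≤ u0 → v0 ≤ v → 0 < cc → cc ≤ c1 → ∃ M : ℝ, M0 ≤ M ∧
      ∀ᶠ P in dl, DiscG c.p c.k0 C1 u v cc x (Fin.elim0 : Fin 0 → ℂ) P ∧
        k1 c.p c.k0 u P.1 ≤ k2 c.p c.k0 v P.1 ∧
        qD c ^ (k2 c.p c.k0 v P.1 - k1 c.p c.k0 u P.1) ≤ 1 + c.δ * k1 c.p c.k0 u P.1 ∧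
        ∀ lam β z : ℝ, |lam| < ε → NearP J C lam β z → PF J R V C c lam β z →
        ∀ T : Finset (ℤ × ℤ), (T : Set (ℤ × ℤ)) = domainSites (Metric.ball (0 : ℂ) P.2) P.1 →
        ∀ b : BoundaryCondition,
          Out3 c (domF c (mpar J lam R V β z) T b fun i => meshIndex P.1 (x i))
            (Bg.dom T b fun i => meshIndex P.1 (x i)).w (k1 c.p c.k0 u P.1) (k2 c.p c.k0 v P.1)
            (kf c.p c.k0 cc P) M0 M |lam| ∧
          ∀ X0 : Fin 0 → ℤ × ℤ, Out3 c (domF c (mpar J lam R V β z) T b X0) (Bg.dom T b X0).w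
            (k1 c.p c.k0 u P.1) (k2 c.p c.k0 v P.1) (kf c.p c.k0 cc P) M0 M0 |lam| := by
  refine ev_mono3 (stepOK_ev.and hpl) ((ev_dcst (max R 1)).and ev_crOK) (C0x950.c0_ev J R V) ?_
  rintro c ⟨⟨CF, hCF, C1, H⟩, hpl⟩ ⟨hc, hcr⟩ hc0
  obtain ⟨c1, hc1, hgeo⟩ := disc_good0 C1
  have hp : 1 ≤ c.p := by have := hc.std.p_pos; omega
  refine ⟨C1, H.one_le, c1, hc1, fun C => ?_⟩
  obtain ⟨ε1, hε1, m1, hm1, hpl⟩ := hpl C
  obtain ⟨ε2, hε2, m2, hm2, hc0⟩ := hc0 C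
  obtain ⟨Ma, εa, hMa, hεa, ha⟩ := Ctl.bound c hCF (m1 + m2)
  obtain ⟨Mb, εb, hMb, hεb, hb⟩ := CtlJ.bound c hCF (m1 + m2)
  refine ⟨min (min ε1 ε2) (min εa εb), by positivity, max Ma Mb, by positivity, ?_⟩
  intro n hn x hx
  obtain ⟨u0, v0, hu0, hv0, hgeo⟩ := hgeo n x hx
  refine ⟨u0, max v0 u0, hu0, le_max_right _ _, ?_⟩
  intro u v cc hu huu hvv hcc hcc1
  have huv : u ≤ v := huu.trans ((le_max_right _ _).trans hvv)
  have hv : 0 < v := hu.trans_le huv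
  obtain ⟨Jn, hJn⟩ := exists_J (v := v) hu
  obtain ⟨MJ, eJ, hMJ, heJ, hbJ⟩ := hb (CFcr c) Jn (CFcr_ne_top c)
  refine ⟨max (max Ma Mb) MJ, le_max_left _ _, ?_⟩
  filter_upwards [hgeo u v cc hu huu ((le_max_left _ _).trans hvv) hcc hcc1 c.p c.k0 hp,
    ev_a (ev_hJ hp c.k0 hu hv hc.std.δ_pos (one_le_qD c)),
    ev_a (ev_div (M := (2 : ℝ) ^ (c.p * c.k0)) hv),
    ev_a (small_real hp c.k0 hu (le_min (le_min hε1.le hε2.le) (le_min hεa.le hεb.le)) heJ)]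
    with P hG hJ hv2 hsm
  have h12 : k1 c.p c.k0 u P.1 ≤ k2 c.p c.k0 v P.1 := k1_le_k2 hG.pos huv
  refine ⟨hG, h12, hJ, ?_⟩
  intro lam β z hlam hnear hPF T hT b
  obtain ⟨⟨hl1, hl2⟩, hla, hlb⟩ : (|lam| < ε1 ∧ |lam| < ε2) ∧ |lam| < εa ∧ |lam| < εb := by
    rw [lt_min_iff, lt_min_iff, lt_min_iff] at hlam
    exact hlam
  have hNI : DeepBgx898.NoIso (T : Set (ℤ × ℤ)) := by rw [hT]; exact noIso_ball P.1 P.2
  have habs := abs_nonneg lam
  have hpl' : ∀ n, n ≤ kf c.p c.k0 cc P → NK (wPl ℤ) (Outx683.amp c n) (rr c.p c.k0 n)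
      (ENNReal.ofReal c.Γ) (fun _ => True)
      (fun U => (((plF c (mpar J lam R V β z)).K n U : Ge (Fld ℤ)) : Gr (Fld ℤ))) ≤
        ENNReal.ofReal ((m1 + m2) * |lam| * (1 / 2) ^ n) := fun n _ =>
    (hpl lam β z hl1 hnear hPF n).trans (ENNReal.ofReal_le_ofReal (by
      refine mul_le_mul_of_nonneg_right ?_ (by positivity)
      exact mul_le_mul_of_nonneg_right (by linarith) habs))
  have h0' : ∀ {m : ℕ} (X : Fin m → ℤ × ℤ), NK (Bg.dom T b X).w c.A0 (rr c.p c.k0 0)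
      (ENNReal.ofReal c.Γ) (fun _ => True)
      (fun U => (((fl c (mpar J lam R V β z) (Bg.dom T b X)).K 0 U : Ge (Fld ℤ)) :
        Gr (Fld ℤ))) ≤ ENNReal.ofReal ((m1 + m2) * |lam|) := fun X =>
    (hc0 lam β z hl2 hnear ℤ (Bg.dom T b X) (abs_wX_dom T (isF b) X) _ _).trans
      (ENNReal.ofReal_le_ofReal (mul_le_mul_of_nonneg_right (by linarith) habs))
  refine ⟨?_, fun X0 => ?_⟩
  · have hctl := ctlJ3 (b := b) (P := mpar J lam R V β z) H hc.std hcr hc.five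
      (q := 2 * max R 1 + 2) (by change 2 * max R 1 + 1 ≤ _; omega) (by omega) hc.q_le
      (SrcOK.no ℤ) (fun k => k.elim0) h12 hJ (geo3_of hG hn hT)
    have hctl' : CtlJ c CF (CFcr c) Jn (Ph (k1 c.p c.k0 u P.1) (k2 c.p c.k0 v P.1)) _ _ _ _ _ _ :=
      ⟨hctl.str, hctl.step, hctl.crude, hctl.count.trans (hJn c.p c.k0 hp P.1 hG.pos hv2)⟩
    obtain ⟨i1, i2⟩ := inputs3 (b := b) (X := fun i => meshIndex P.1 (x i)) hc.std hc.five
      (plOK_dom hNI b _) h12 hpl' (h0' _)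
    refine (out3_of hctl' (hbJ ℤ _ _ _ _ _ _ _ |lam| hctl' habs hlb.le ?_ i1 i2)).mono habs
      (le_max_right _ _) (le_max_right _ _)
    intro k _ hk
    rw [not_Ph] at hk
    refine le_trans ?_ (hsm k hk.1)
    exact mul_le_mul_of_nonneg_right hlam.le (by positivity)
  · have hctl := ctl_free (b := b) (P := mpar J lam R V β z) H hc.std hc.five
      (q := 2 * max R 1 + 2) (by change 2 * max R 1 + 1 ≤ _; omega) (by omega) hc.q_le
      (SrcOK.no ℤ) (fun k => k.elim0) h12 hJ X0 (geo3_of hG hn hT).reg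
    obtain ⟨i1, i2⟩ := inputs3 (b := b) (X := X0) hc.std hc.five
      (plOK_dom hNI b _) h12 hpl' (h0' _)
    exact (out3_ctl hctl (ha ℤ _ _ _ _ _ _ |lam| hctl habs hla.le i1 i2)).mono habs
      (le_max_left _ _) (le_max_left _ _)

end Crest.Agent.R165.DiscCompx722
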