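import Mathlib
import Crest.Agent.R165.NcCut_811
import Crest.Agent.R165.RIface_891
import Crest.Agent.R165.Lim1_943

/-!
# EX at a plus boundary, part 1: normalised sequences and interior bounds (row 165, helper811)
-/

set_option autoImplicit false

noncomputable section

namespace Crest.Agent.R165.EXb1x811

open Finset Filter Topology Crest.Agent.R165.Tr1x40 Crest.Agent.R165.Tr2x40
  Crest.Agent.R165.Intx811 Crest.Agent.R165.NcCutx811 Crest.Agent.R165.RIfx891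

open Crest.Agent.R165.PotAx894 (Q mem_Q)
open Crest.Agent.R165.PotBx894 (Harm DL DD)
open Crest.Agent.R165.Lim1x943 (pt LocBd exists_nbhd d1)

/-- linear form of the normal -/
def lin (n z : ℂ) : ℝ := n.re * z.re + n.im * z.im

/-- the open half box -/
def Om (n : ℂ) : Set ℂ := {z | |z.re| < 1 ∧ |z.im| < 1 ∧ lin n z < 0}

theorem continuous_lin (n : ℂ) : Continuous (lin n) := by
  unfold lin
  fun_prop

theorem isOpen_Om (n : ℂ) : IsOpen (Om n) := by
  have h1 : IsOpen {z : ℂ | |z.re| < 1} := isOpen_lt (by fun_prop) continuous_const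
  have h2 : IsOpen {z : ℂ | |z.im| < 1} := isOpen_lt (by fun_prop) continuous_const
  have h3 : IsOpen {z : ℂ | lin n z < 0} := isOpen_lt (continuous_lin n) continuous_const
  exact h1.inter (h2.inter h3)

/-- normalised sequence of exact solutions in asymptotically flat boxes -/
structure Sq (U : Ultrafilter ℕ) (n : ℂ) where
  r : ℕ → ℝ
  ε : ℕ → ℝ
  nn : ℕ → ℂ
  w : ℕ → Fld
  φ : ℕ → Fld
  hr : Tendsto r U atTop
  hε : Tendsto ε U (𝓝 0)
  hn : Tendsto nn U (𝓝 n)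
  n1 : ‖n‖ = 1
  sym : ∀ k, Sym (w k)
  plus : ∀ k, IsPlusOn (w k) 0 (r k)
  inside : ∀ k, ∀ f ∈ bx 0 (r k), dotn (nn k) 0 f ≤ -(ε k * r k) → ∀ h, w k f h = xc
  outside : ∀ k, ∀ f ∈ bx 0 (r k), ε k * r k ≤ dotn (nn k) 0 f → ∀ h, w k f h = 0
  exact : ∀ k, ∀ f ∈ bx 0 (r k), A (w k) (φ k) f = 0
  norm : ∀ k, NB 0 (r k) (φ k) ≤ 1

theorem dotn_eq (n : ℂ) (r : ℝ) (hr : 0 < r) (f : Face) : dotn n 0 f = r * lin n (pt r f) := by
  unfold dotn lin
  simp only [Prod.fst_zero, Prod.snd_zero, Int.cast_zero, sub_zero, Lim1x943.pt_re, Lim1x943.pt_im]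
  field_simp

theorem lin_sub_le (n n' z : ℂ) (h1 : |z.re| ≤ 1) (h2 : |z.im| ≤ 1) :
    |lin n z - lin n' z| ≤ 2 * ‖n - n'‖ := by
  have e : lin n z - lin n' z = (n - n').re * z.re + (n - n').im * z.im := by
    unfold lin; simp; ring
  rw [e]
  have a1 := Complex.abs_re_le_norm (n - n')
  have a2 := Complex.abs_im_le_norm (n - n')
  calc |(n - n').re * z.re + (n - n').im * z.im|
      ≤ |(n - n').re * z.re| + |(n - n').im * z.im| := abs_add_le _ _
    _ ≤ ‖n - n'‖ * 1 + ‖n - n'‖ * 1 := by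
        rw [abs_mul, abs_mul]
        gcongr
    _ = 2 * ‖n - n'‖ := by ring

theorem mass_le_NB (φ : Fld) (f : Face) (ρ : ℕ) (r : ℝ) (h : Q f ρ ⊆ bx 0 r) :
    mass φ f ρ ≤ NB 0 r φ ^ 2 := by
  rw [NB_sq]
  exact sum_le_sum_of_subset_of_nonneg h fun _ _ _ => nsq_nonneg _

/-- the key geometric lemma: near a compact of `Om n` everything is in plane gauge. -/
theorem geo {U : Ultrafilter ℕ} {n : ℂ} (S : Sq U n) {K : Set ℂ} (hK : IsCompact K)
    (hKΩ : K ⊆ Om n) :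
    ∃ δ : ℝ, 0 < δ ∧ ∀ᶠ k in (U : Filter ℕ), 1 ≤ S.r k ∧ ∀ f : Face, pt (S.r k) f ∈ K →
      ∀ ρ : ℕ, (ρ : ℝ) ≤ δ * S.r k → ∀ g ∈ Q f ρ, g ∈ bx 0 (S.r k) ∧ ∀ h, S.w k g h = xc := by
  rcases K.eq_empty_or_nonempty with rfl | hne
  · refine ⟨1, one_pos, ?_⟩
    filter_upwards [S.hr.eventually_ge_atTop 1] with k hk
    exact ⟨hk, fun f hf => absurd hf (Set.notMem_empty _)⟩
  obtain ⟨δ, hδ, K', hK', hK'Ω, hKK', hnb⟩ := exists_nbhd (isOpen_Om n) hK hKΩ
  have hne' : K'.Nonempty := hne.mono hKK'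
  obtain ⟨z0, hz0, hmax⟩ := hK'.exists_isMaxOn hne' (continuous_lin n).continuousOn
  set m := -(lin n z0) with hm
  have hm0 : 0 < m := by have := (hK'Ω hz0).2.2; rw [hm]; linarith
  have hlin : ∀ z ∈ K', lin n z ≤ -m := fun z hz => by
    have := hmax hz
    rw [hm, neg_neg]; exact this
  refine ⟨δ / 2, by positivity, ?_⟩
  have e1 : ∀ᶠ k in (U : Filter ℕ), ‖S.nn k - n‖ < m / 4 := by
    have := S.hn
    rw [tendsto_iff_norm_sub_tendsto_zero] at this
    exact this.eventually_lt_const (by positivity)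
  have e2 : ∀ᶠ k in (U : Filter ℕ), S.ε k < m / 2 := S.hε.eventually_lt_const (by positivity)
  filter_upwards [S.hr.eventually_ge_atTop 1, e1, e2] with k hk h1 h2
  refine ⟨hk, fun f hf ρ hρ g hg => ?_⟩
  have hr0 : 0 < S.r k := by linarith
  have hgK : pt (S.r k) g ∈ K' := by
    apply hnb _ hf
    unfold d1
    simp only [Lim1x943.pt_re, Lim1x943.pt_im]
    rw [mem_Q] at hg
    have a1 : |(g.1 : ℝ) - f.1| ≤ ρ := by exact_mod_cast hg.1
    have a2 : |(g.2 : ℝ) - f.2| ≤ ρ := by exact_mod_cast hg.2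
    rw [← sub_div, ← sub_div, abs_div, abs_div, abs_of_pos hr0, ← add_div, div_le_iff₀ hr0]
    linarith
  have hb := hK'Ω hgK
  have hbx : g ∈ bx 0 (S.r k) := by
    rw [mem_bx_real]
    have b1 := hb.1
    have b2 := hb.2.1
    simp only [Lim1x943.pt_re, Lim1x943.pt_im, abs_div, abs_of_pos hr0, div_lt_one hr0] at b1 b2
    simp only [Prod.fst_zero, Prod.snd_zero, Int.cast_zero, sub_zero]
    exact ⟨b1.le, b2.le⟩
  refine ⟨hbx, S.inside k g hbx ?_⟩
  rw [dotn_eq _ _ hr0]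
  have c1 := lin_sub_le (S.nn k) n (pt (S.r k) g) hb.1.le hb.2.1.le
  have c2 := hlin _ hgK
  have c3 := (abs_le.1 c1).2
  have c4 : lin (S.nn k) (pt (S.r k) g) ≤ -(m / 2) := by linarith
  nlinarith


/-- the rescaled components -/
def v {U : Ultrafilter ℕ} {n : ℂ} (S : Sq U n) (a : Fin 4) : ℕ → ℤ × ℤ → ℝ :=
  fun k f => S.r k * S.φ k f a




end Crest.Agent.R165.EXb1x811
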