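import Crest.Agent.R165.BxA_797
import Mathlib
import Crest.Agent.R165.NcCut_811
import Crest.Agent.R165.RIface_891
import Crest.Agent.R165.SqK_470

-- ▼ part R165/BxB_797
section

/-!
# Row 165 (S0250), block R: EX at a branch vertex, the two charts (helper797)

* `locEx1`, `locEx2` : the fields `e` and `t2 · e` are locally exact in the two charts
* `pt_bound` : pointwise bound away from the vertex
* `exists_charts` : the limits `F1`, `F2`
-/

set_option autoImplicit false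

noncomputable section

namespace Crest.Agent.R165.Bxx797

open Finset Filter Topology
open Crest.Agent.R165.Tr1x40
open Crest.Agent.R165.Campx891 (q)
open Crest.Agent.R165.RIfx891
open Crest.Agent.R165.PotAx894 (Q mem_Q self_mem_Q Q_mono)
open Crest.Agent.R165.Intx811 (mass mass_nonneg harm pt_est sup_est)
open Crest.Agent.R165.Lim1x943 (pt flr LocBd LocUnif LocZero Bds lim limC d1 exists_nbhd pt_re pt_im)
open Crest.Agent.R165.LimEx797

/-- gauge `t2` -/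
theorem gauge_t2 : Gauge t2 := by
  intro f; unfold t2; split_ifs <;> norm_num

/-- weights in the second chart -/
def w2 : Fld := fun f h => t2 f * t2 (nb f h) * w0 f h

theorem isOpen_Om1 : IsOpen Om1 := Complex.isOpen_slitPlane.preimage continuous_neg

theorem isOpen_Om2 : IsOpen Om2 := Complex.isOpen_slitPlane

/-- the charts inside the unit disc -/
def Ob1 : Set ℂ := Om1 ∩ Metric.ball 0 1
def Ob2 : Set ℂ := Om2 ∩ Metric.ball 0 1

theorem isOpen_Ob1 : IsOpen Ob1 := isOpen_Om1.inter Metric.isOpen_ball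
theorem isOpen_Ob2 : IsOpen Ob2 := isOpen_Om2.inter Metric.isOpen_ball

theorem w0_eq_of {g : Face} (h1 : ¬ (g.2 = 0 ∧ 0 ≤ g.1)) (h2 : ¬ (g.2 + 1 = 0 ∧ 0 ≤ g.1))
    (h : Fin 4) : w0 g h = xc := by
  unfold w0 rayw
  rw [if_neg, one_mul]
  rintro (⟨-, a, b⟩ | ⟨-, a, b⟩)
  · exact h1 ⟨a, b⟩
  · exact h2 ⟨a, b⟩

theorem t2_nonneg {f : Face} (h : 0 ≤ f.2) : t2 f = -1 := if_pos h
theorem t2_neg {f : Face} (h : f.2 < 0) : t2 f = 1 := if_neg (not_le.2 h)

theorem rayw_S {g : Face} (h : g.2 = 0 ∧ 0 ≤ g.1) : rayw 0 g 0 = -1 := by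
  unfold rayw; rw [if_pos]; exact Or.inl ⟨rfl, h.1, h.2⟩
theorem rayw_N {g : Face} (h : g.2 + 1 = 0 ∧ 0 ≤ g.1) : rayw 0 g 2 = -1 := by
  unfold rayw; rw [if_pos]; exact Or.inr ⟨rfl, h.1, h.2⟩
theorem rayw_S' {g : Face} (h : ¬ (g.2 = 0 ∧ 0 ≤ g.1)) : rayw 0 g 0 = 1 := by
  unfold rayw; rw [if_neg]
  rintro (⟨-, a, b⟩ | ⟨c, -⟩)
  · exact h ⟨a, b⟩
  · exact absurd c (by decide)
theorem rayw_N' {g : Face} (h : ¬ (g.2 + 1 = 0 ∧ 0 ≤ g.1)) : rayw 0 g 2 = 1 := by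
  unfold rayw; rw [if_neg]
  rintro (⟨c, -⟩ | ⟨-, a, b⟩)
  · exact absurd c (by decide)
  · exact h ⟨a, b⟩
theorem rayw_E (g : Face) : rayw 0 g 1 = 1 := by
  unfold rayw; rw [if_neg]
  rintro (⟨c, -⟩ | ⟨c, -⟩) <;> exact absurd c (by decide)
theorem rayw_W (g : Face) : rayw 0 g 3 = 1 := by
  unfold rayw; rw [if_neg]
  rintro (⟨c, -⟩ | ⟨c, -⟩) <;> exact absurd c (by decide)

theorem w2_eq_of {g : Face} (h1 : ¬ (g.2 = 0 ∧ g.1 < 0)) (h2 : ¬ (g.2 + 1 = 0 ∧ g.1 < 0))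
    (h : Fin 4) : w2 g h = xc := by
  have key : t2 g * t2 (nb g h) * rayw 0 g h = 1 := by
    fin_cases h
    · show t2 g * t2 (nb g 0) * rayw 0 g 0 = 1
      by_cases a : g.2 = 0
      · have b : 0 ≤ g.1 := by by_contra hb; exact h1 ⟨a, not_le.1 hb⟩
        rw [t2_nonneg a.ge, t2_neg (by rw [nb_zero]; simp only; omega), rayw_S ⟨a, b⟩]; norm_num
      · rw [rayw_S' fun hc => a hc.1]
        rcases lt_or_ge g.2 0 with c | c
        · rw [t2_neg c, t2_neg (by rw [nb_zero]; simp only; omega)]; norm_num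
        · rw [t2_nonneg c, t2_nonneg (by rw [nb_zero]; simp only; omega)]; norm_num
    · show t2 g * t2 (nb g 1) * rayw 0 g 1 = 1
      have e : t2 (nb g 1) = t2 g := by rw [nb_one]; rfl
      rw [rayw_E, e, mul_one, ← pow_two, gauge_t2 g]
    · show t2 g * t2 (nb g 2) * rayw 0 g 2 = 1
      by_cases a : g.2 + 1 = 0
      · have b : 0 ≤ g.1 := by by_contra hb; exact h2 ⟨a, not_le.1 hb⟩
        rw [t2_neg (by omega), t2_nonneg (by rw [nb_two]; simp only; omega), rayw_N ⟨a, b⟩]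
        norm_num
      · rw [rayw_N' fun hc => a hc.1]
        rcases lt_or_ge g.2 0 with c | c
        · rw [t2_neg c, t2_neg (by rw [nb_two]; simp only; omega)]; norm_num
        · rw [t2_nonneg c, t2_nonneg (by rw [nb_two]; simp only; omega)]; norm_num
    · show t2 g * t2 (nb g 3) * rayw 0 g 3 = 1
      have e : t2 (nb g 3) = t2 g := by rw [nb_three]; rfl
      rw [rayw_W, e, mul_one, ← pow_two, gauge_t2 g]
  unfold w2 w0
  rw [← mul_assoc, key, one_mul]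

theorem A_w2 (e : Fld) (f : Face) : A w2 (gm t2 e) f = fun h => t2 f * A w0 e f h :=
  A_gm gauge_t2 (w' := w0) (fun _ => rfl) e

theorem mass_le_NB {φ : Fld} {f : Face} {R : ℕ} {ρ : ℝ} (h : ∀ g ∈ Q f R, g ∈ bx 0 ρ) :
    mass φ f R ≤ NB 0 ρ φ ^ 2 := by
  rw [NB_sq]
  exact sum_le_sum_of_subset_of_nonneg h fun g _ _ => nsq_nonneg _

theorem mass_gm (φ : Fld) (f : Face) (R : ℕ) : mass (gm t2 φ) f R = mass φ f R :=
  sum_congr rfl fun g _ => nsq_gm gauge_t2 φ g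

theorem mem_bx_of_ball {r : ℝ} (hr : 0 < r) {g : Face} (h : pt r g ∈ Metric.ball (0 : ℂ) 1) :
    g ∈ bx 0 r := by
  rw [mem_ball_zero_iff] at h
  have h1 := Complex.abs_re_le_norm (pt r g)
  have h2 := Complex.abs_im_le_norm (pt r g)
  rw [pt_re, abs_div, abs_of_pos hr] at h1
  rw [pt_im, abs_div, abs_of_pos hr] at h2
  rw [mem_bx_real]
  simp only [Prod.fst_zero, Prod.snd_zero, Int.cast_zero, sub_zero]
  constructor
  · have := h1.trans h.le
    rwa [div_le_iff₀ hr, one_mul] at this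
  · have := h2.trans h.le
    rwa [div_le_iff₀ hr, one_mul] at this

theorem d1_pt_le {r ρ : ℝ} (hr : 0 < r) {f g : Face} {R : ℕ} (hR : (R : ℝ) ≤ ρ * r)
    (hg : g ∈ Q f R) : d1 (pt r g) (pt r f) ≤ 2 * ρ := by
  rw [mem_Q] at hg
  have g1 : |(g.1 : ℝ) - f.1| ≤ R := by exact_mod_cast hg.1
  have g2 : |(g.2 : ℝ) - f.2| ≤ R := by exact_mod_cast hg.2
  unfold d1
  simp only [pt_re, pt_im, ← sub_div, abs_div, abs_of_pos hr]
  rw [← add_div, div_le_iff₀ hr]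
  linarith

/-- common part of the two charts -/
theorem locEx_of {ι : Type} {U : Filter ι} {r : ι → ℝ} (hr : Tendsto r U atTop) {Ω : Set ℂ}
    (hΩ : IsOpen Ω) {w e : ι → Fld} (hb : ∀ z ∈ Ω, z ∈ Metric.ball (0 : ℂ) 1)
    (hw : ∀ n, 0 < r n → ∀ g : Face, pt (r n) g ∈ Ω → pt (r n) (g.1, g.2 + 1) ∈ Ω →
      ∀ h, w n g h = xc)
    (hex : ∀ᶠ k in U, ∀ f ∈ bx 0 (r k), ∀ h, A (w k) (e k) f h = 0)
    (hnorm : ∀ᶠ k in U, NB 0 (r k) (e k) ≤ 1) : LocEx U r Ω w e := by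
  intro K hK hKΩ
  obtain ⟨δ, hδ, K', hK', hK'Ω, -, hnb⟩ := exists_nbhd hΩ hK hKΩ
  refine ⟨δ / 4, by positivity, 1, ?_⟩
  filter_upwards [hex, hnorm, hr.eventually_gt_atTop 0, hr.eventually_ge_atTop (2 / δ)]
    with n he hn hr0 hrd f hf
  have hfl : ((⌊δ / 4 * r n⌋₊ : ℕ) : ℝ) ≤ δ / 4 * r n := Nat.floor_le (by positivity)
  have hmem : ∀ g ∈ Q f ⌊δ / 4 * r n⌋₊, pt (r n) g ∈ Ω ∧ pt (r n) (g.1, g.2 + 1) ∈ Ω := by
    intro g hg
    have h1 := d1_pt_le hr0 hfl hg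
    refine ⟨hK'Ω (hnb _ hf _ (h1.trans (by linarith))), hK'Ω (hnb _ hf _ ?_)⟩
    have h2 : d1 (pt (r n) (g.1, g.2 + 1)) (pt (r n) g) ≤ δ / 2 := by
      unfold d1
      simp only [pt_re, pt_im, sub_self, abs_zero, zero_add, ← sub_div]
      push_cast
      rw [show (g.2 : ℝ) + 1 - g.2 = 1 by ring, abs_div, abs_one, abs_of_pos hr0,
        div_le_iff₀ hr0]
      rw [div_le_iff₀ hδ] at hrd
      linarith
    have := Lim1x943.d1_triangle (pt (r n) (g.1, g.2 + 1)) (pt (r n) g) (pt (r n) f)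
    linarith
  refine ⟨fun g hg h => ⟨hw n hr0 g (hmem g hg).1 (hmem g hg).2 h, ?_⟩, ?_⟩
  · exact he g (mem_bx_of_ball hr0 (hb _ (hmem g hg).1)) h
  · have h1 := mass_le_NB (φ := e n) (f := f) (R := ⌊δ / 4 * r n⌋₊) (ρ := r n)
      (fun g hg => mem_bx_of_ball hr0 (hb _ (hmem g hg).1))
    have h2 : NB 0 (r n) (e n) ^ 2 ≤ 1 := by
      have := apply_nonneg (NB 0 (r n)) (e n)
      nlinarith
    exact h1.trans h2

theorem not_cut1 {r : ℝ} (hr : 0 < r) {g : Face} (h : pt r g ∈ Om1) : ¬ (g.2 = 0 ∧ 0 ≤ g.1) := by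
  rintro ⟨a, b⟩
  have h' : -pt r g ∈ Complex.slitPlane := h
  rw [Complex.mem_slitPlane_iff] at h'
  have hb : (0 : ℝ) ≤ g.1 := by exact_mod_cast b
  rcases h' with h' | h'
  · rw [Complex.neg_re, pt_re] at h'
    have : 0 ≤ (g.1 : ℝ) / r := by positivity
    linarith
  · rw [Complex.neg_im, pt_im, a] at h'
    simp at h'

theorem not_cut2 {r : ℝ} (hr : 0 < r) {g : Face} (h : pt r g ∈ Om2) : ¬ (g.2 = 0 ∧ g.1 < 0) := by
  rintro ⟨a, b⟩
  have h' : pt r g ∈ Complex.slitPlane := h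
  rw [Complex.mem_slitPlane_iff] at h'
  have hb : (g.1 : ℝ) < 0 := by exact_mod_cast b
  rcases h' with h' | h'
  · rw [pt_re] at h'
    have : (g.1 : ℝ) / r ≤ 0 := div_nonpos_of_nonpos_of_nonneg hb.le hr.le
    linarith
  · rw [pt_im, a] at h'
    simp at h'

section seq

variable {U : Ultrafilter ℕ} {r : ℕ → ℝ} {e : ℕ → Fld}

theorem locEx1 (hr : Tendsto r (U : Filter ℕ) atTop)
    (hex : ∀ᶠ k in (U : Filter ℕ), ∀ f ∈ bx 0 (r k), A w0 (e k) f = 0)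
    (hnorm : ∀ᶠ k in (U : Filter ℕ), NB 0 (r k) (e k) ≤ 1) :
    LocEx (U : Filter ℕ) r Ob1 (fun _ => w0) e := by
  refine locEx_of hr isOpen_Ob1 (fun z hz => hz.2) ?_ ?_ hnorm
  · intro n hn g h1 h2 h
    exact w0_eq_of (not_cut1 hn h1.1) (not_cut1 hn h2.1) h
  · exact hex.mono fun k hk f hf h => by rw [hk f hf]; rfl

theorem locEx2 (hr : Tendsto r (U : Filter ℕ) atTop)
    (hex : ∀ᶠ k in (U : Filter ℕ), ∀ f ∈ bx 0 (r k), A w0 (e k) f = 0)
    (hnorm : ∀ᶠ k in (U : Filter ℕ), NB 0 (r k) (e k) ≤ 1) :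
    LocEx (U : Filter ℕ) r Ob2 (fun _ => w2) (fun k => gm t2 (e k)) := by
  refine locEx_of hr isOpen_Ob2 (fun z hz => hz.2) ?_ ?_ ?_
  · intro n hn g h1 h2 h
    exact w2_eq_of (not_cut2 hn h1.1) (not_cut2 hn h2.1) h
  · exact hex.mono fun k hk f hf h => by rw [A_w2]; simp only; rw [hk f hf]; simp
  · exact hnorm.mono fun k hk => by rw [NB_gm gauge_t2]; exact hk

end seq

/-! ### pointwise bound away from the vertex -/

theorem sup_of {w φ : Fld} {f : Face} {R : ℕ} (hR : 0 < R) (hw : ∀ g ∈ Q f R, ∀ h, w g h = xc)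
    (he : ∀ g ∈ Q f R, ∀ h, A w φ g h = 0) (a : Fin 4) :
    φ f a ^ 2 ≤ 113729 / (R : ℝ) ^ 2 * mass φ f R := by
  have e1 : R - 1 + 1 = R := by omega
  refine sup_est hR (harm (w := w) ?_ ?_ a) (self_mem_Q f _)
  · rw [e1]; exact hw
  · rw [e1]; exact he

/-- sup norm of a face -/
def dist0 (f : Face) : ℕ := max f.1.natAbs f.2.natAbs

theorem pt_bound {e : Fld} {ρ : ℝ} (he : ∀ f ∈ bx 0 ρ, A w0 e f = 0) {f : Face}
    (hd : 32 ≤ dist0 f) (hρ : 2 * (dist0 f : ℝ) ≤ ρ) (a : Fin 4) :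
    |e f a| ≤ 2700 / dist0 f * NB 0 (2 * dist0 f) e := by
  set d := dist0 f with hdd
  have hd0 : (0 : ℝ) < d := by
    have : 0 < d := by omega
    exact_mod_cast this
  have hR : 0 < d / 4 := by omega
  have hbox : ∀ g ∈ Q f (d / 4), g ∈ bx 0 (2 * (d : ℝ)) := by
    intro g hg
    rw [mem_Q, abs_le, abs_le] at hg
    rw [mem_bx_real]
    simp only [Prod.fst_zero, Prod.snd_zero, Int.cast_zero, sub_zero]
    have h1 : |g.1| ≤ 2 * (d : ℤ) ∧ |g.2| ≤ 2 * (d : ℤ) := by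
      have a1 : f.1.natAbs ≤ d := le_max_left _ _
      have a2 : f.2.natAbs ≤ d := le_max_right _ _
      rw [abs_le, abs_le]
      omega
    constructor
    · exact_mod_cast h1.1
    · exact_mod_cast h1.2
  have hexact : ∀ g ∈ Q f (d / 4), A w0 e g = 0 := fun g hg => he g (bx_mono 0 hρ (hbox g hg))
  have main : ∀ φ : Fld, (∃ w : Fld, (∀ g ∈ Q f (d / 4), ∀ h, w g h = xc) ∧
      (∀ g ∈ Q f (d / 4), ∀ h, A w φ g h = 0)) → φ f a ^ 2 ≤
        (2700 / d) ^ 2 * mass φ f (d / 4) := by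
    rintro φ ⟨w, h1, h2⟩
    refine (sup_of hR h1 h2 a).trans (mul_le_mul_of_nonneg_right ?_ (mass_nonneg _ _ _))
    have h3 : (d : ℝ) ≤ 8 * ((d / 4 : ℕ) : ℝ) := by
      have : d ≤ 8 * (d / 4) := by omega
      exact_mod_cast this
    have h4 : (0 : ℝ) < ((d / 4 : ℕ) : ℝ) := by exact_mod_cast hR
    rw [div_pow, div_le_div_iff₀ (by positivity) (by positivity)]
    nlinarith [mul_self_le_mul_self hd0.le h3]
  have fin : ∀ x : ℝ, x ^ 2 ≤ (2700 / d) ^ 2 * mass e f (d / 4) →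
      |x| ≤ 2700 / d * NB 0 (2 * (d : ℝ)) e := by
    intro x hx
    have h1 := mass_le_NB hbox (φ := e)
    refine abs_le_of_sq_le_sq ?_ (by positivity)
    rw [mul_pow]
    exact hx.trans (mul_le_mul_of_nonneg_left h1 (by positivity))
  by_cases hc : f.1 = d
  · have h1 := main (gm t2 e) ⟨w2, fun g hg => w2_eq_of (by rw [mem_Q, abs_le, abs_le] at hg; omega)
      (by rw [mem_Q, abs_le, abs_le] at hg; omega), fun g hg h => by
        rw [A_w2]; simp only; rw [hexact g hg]; simp⟩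
    rw [mass_gm, gm_apply, mul_pow, gauge_t2, one_mul] at h1
    exact fin _ h1
  · have hcase : f.1 = -(d : ℤ) ∨ f.2 = d ∨ f.2 = -(d : ℤ) := by
      have : d = f.1.natAbs ∨ d = f.2.natAbs := by
        rw [hdd]; unfold dist0; exact max_choice _ _
      omega
    exact fin _ (main e ⟨w0, fun g hg => w0_eq_of (by rw [mem_Q, abs_le, abs_le] at hg; omega)
      (by rw [mem_Q, abs_le, abs_le] at hg; omega), fun g hg h => by rw [hexact g hg]; rfl⟩)

end Crest.Agent.R165.Bxx797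
end
end

-- ▼ part R165/BxC_797
section

/-!
# Row 165 (S0250), block R: EX at a branch vertex, the limits `F1`, `F2` (helper797)
-/

set_option autoImplicit false

noncomputable section

namespace Crest.Agent.R165.Bxx797

open Finset Filter Topology
open Crest.Agent.R165.Tr1x40
open Crest.Agent.R165.Campx891 (q)
open Crest.Agent.R165.RIfx891
open Crest.Agent.R165.PotAx894 (Q mem_Q self_mem_Q Q_mono)
open Crest.Agent.R165.Lim1x943 (pt flr LocBd LocUnif LocZero Bds lim limC d1 exists_nbhd pt_re pt_im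
  tendsto_flr_sub)
open Crest.Agent.R165.LimEx797

/-- no concentration at the branch vertex, exact solutions -/
def NCbr (K : ℝ) : Prop := ∀ (e : Fld) (ρ t : ℝ), 1 ≤ t → t ≤ ρ → (∀ f ∈ bx 0 ρ, A w0 e f = 0) →
  NB 0 t e ^ 2 ≤ K * (t / ρ) * NB 0 ρ e ^ 2

theorem lv_one (c : ℂ) : lv c 1 = c.re := rfl
theorem lv_three (c : ℂ) : lv c 3 = -c.im := rfl

theorem continuousOn_lv {F : ℂ → ℂ} {Ω : Set ℂ} (hF : ContinuousOn F Ω) (h : Fin 4) :
    ContinuousOn (fun z => lv (F z) h) Ω := by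
  have h1 := Complex.continuous_re.comp_continuousOn hF
  have h2 := Complex.continuous_im.comp_continuousOn hF
  fin_cases h
  · exact ((h1.add h2).neg).div_const _
  · exact h1
  · exact (h2.sub h1).div_const _
  · exact h2.neg

theorem abs_lv_le (c : ℂ) (h : Fin 4) : |lv c h| ≤ ‖c‖ := by
  have hn : ‖c‖ ^ 2 = c.re ^ 2 + c.im ^ 2 := by
    rw [← Complex.normSq_eq_norm_sq, Complex.normSq_apply]; ring
  refine abs_le_of_sq_le_sq ?_ (norm_nonneg _)
  rw [hn]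
  have h2 := sq2
  have s2 : Real.sqrt 2 ≠ 0 := ne_of_gt sq2_pos
  have e : ∀ a : ℝ, (a / Real.sqrt 2) ^ 2 = a ^ 2 / 2 := by
    intro a; rw [div_pow, Real.sq_sqrt (by norm_num)]
  fin_cases h
  · show (-(c.re + c.im) / Real.sqrt 2) ^ 2 ≤ _
    rw [e]; nlinarith [sq_nonneg (c.re - c.im)]
  · show c.re ^ 2 ≤ _
    nlinarith [sq_nonneg c.im]
  · show ((c.im - c.re) / Real.sqrt 2) ^ 2 ≤ _
    rw [e]; nlinarith [sq_nonneg (c.re + c.im)]
  · show (-c.im) ^ 2 ≤ _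
    nlinarith [sq_nonneg c.re]

theorem lv_sub (c d : ℂ) (h : Fin 4) : lv (c - d) h = lv c h - lv d h := by
  fin_cases h <;> simp only [lv, Complex.sub_re, Complex.sub_im] <;> ring

theorem lv_smul (k : ℝ) (c : ℂ) (h : Fin 4) : lv (k * c) h = k * lv c h := by
  fin_cases h <;> simp only [lv, Complex.mul_re, Complex.mul_im, Complex.ofReal_re,
    Complex.ofReal_im] <;> ring

theorem lv_inj {c d : ℂ} (h : ∀ k, lv c k = lv d k) : c = d := by
  have h1 := h 1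
  have h3 := h 3
  rw [lv_one, lv_one] at h1
  rw [lv_three, lv_three] at h3
  exact Complex.ext h1 (by linarith)

theorem tendsto_flr {U : Filter ℕ} {r : ℕ → ℝ} (hr : Tendsto r U atTop) (z : ℂ) :
    Tendsto (fun n => (dist0 (flr (r n) z) : ℝ) / r n) U (𝓝 (max |z.re| |z.im|)) := by
  obtain ⟨h1, h2⟩ := tendsto_flr_sub hr 0 z
  have e0 : ∀ x : ℝ, flr x 0 = 0 := by
    intro x; ext <;> simp [flr]
  simp only [e0, Prod.fst_zero, Prod.snd_zero, sub_zero, Complex.zero_re, Complex.zero_im] at h1 h2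
  refine ((h1.abs).max (h2.abs)).congr' ?_
  filter_upwards [hr.eventually_gt_atTop 0] with n hn
  rw [abs_div, abs_div, abs_of_pos hn, max_div_div_right hn.le]
  congr 1
  unfold dist0
  rw [Nat.cast_max, Nat.cast_natAbs, Nat.cast_natAbs]
  push_cast
  rfl

section seq

variable {U : Ultrafilter ℕ} {r : ℕ → ℝ} {e : ℕ → Fld} {K : ℝ}

/-- the pointwise bound, rescaled -/
theorem scaled_bound (hr : Tendsto r (U : Filter ℕ) atTop)
    (hex : ∀ᶠ k in (U : Filter ℕ), ∀ f ∈ bx 0 (r k), A w0 (e k) f = 0)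
    (hnorm : ∀ᶠ k in (U : Filter ℕ), NB 0 (r k) (e k) ≤ 1) (hK0 : 0 ≤ K) (hK : NCbr K) :
    ∀ᶠ n in (U : Filter ℕ), ∀ f : Face, 32 ≤ dist0 f → 2 * (dist0 f : ℝ) ≤ r n → ∀ a,
      (r n * e n f a) ^ 2 * (dist0 f / r n) ≤ 2 * 2700 ^ 2 * K := by
  filter_upwards [hex, hnorm, hr.eventually_gt_atTop 0] with n h1 h2 hr0 f hd hd2 a
  have hd0 : (0 : ℝ) < dist0 f := by
    have : 0 < dist0 f := by omega
    exact_mod_cast this
  have h3 := pt_bound h1 hd hd2 a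
  have hd1 : (1 : ℝ) ≤ dist0 f := by
    have : 1 ≤ dist0 f := by omega
    exact_mod_cast this
  have h4 := hK (e n) (r n) (2 * dist0 f) (by linarith) hd2 h1
  have h5 : NB 0 (r n) (e n) ^ 2 ≤ 1 := by
    have := apply_nonneg (NB 0 (r n)) (e n)
    nlinarith
  have h6 : NB 0 (2 * (dist0 f : ℝ)) (e n) ^ 2 ≤ K * (2 * dist0 f / r n) := by
    refine h4.trans ?_
    have : 0 ≤ K * (2 * dist0 f / r n) := by positivity
    nlinarith
  have h7 : (e n f a) ^ 2 ≤ (2700 / dist0 f) ^ 2 * (K * (2 * dist0 f / r n)) := by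
    have h8 : (e n f a) ^ 2 ≤ (2700 / dist0 f * NB 0 (2 * (dist0 f : ℝ)) (e n)) ^ 2 :=
      sq_le_sq' (by linarith [(abs_le.1 h3).1]) (abs_le.1 h3).2
    rw [mul_pow] at h8
    exact h8.trans (mul_le_mul_of_nonneg_left h6 (by positivity))
  calc (r n * e n f a) ^ 2 * (dist0 f / r n) = r n ^ 2 * (dist0 f / r n) * (e n f a) ^ 2 := by ring
    _ ≤ r n ^ 2 * (dist0 f / r n) * ((2700 / dist0 f) ^ 2 * (K * (2 * dist0 f / r n))) := by
        gcongr
    _ = 2 * 2700 ^ 2 * K := by field_simp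

/-- bound of a limit -/
theorem limit_bound (hr : Tendsto r (U : Filter ℕ) atTop)
    (hex : ∀ᶠ k in (U : Filter ℕ), ∀ f ∈ bx 0 (r k), A w0 (e k) f = 0)
    (hnorm : ∀ᶠ k in (U : Filter ℕ), NB 0 (r k) (e k) ≤ 1) (hK0 : 0 ≤ K) (hK : NCbr K)
    {s : Face → ℝ} (hs : Gauge s) {Ω : Set ℂ} (hΩ : IsOpen Ω) {F : ℂ → ℂ} (hF : ContinuousOn F Ω)
    (hlim : ∀ h, LocUnif (U : Filter ℕ) r Ω (vc r (fun k => gm s (e k)) h) (fun z => lv (F z) h))
    {z : ℂ} (hz : z ∈ Ω) (hz0 : z ≠ 0) (hz1 : ‖z‖ ≤ 1 / 4) :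
    ‖F z‖ ^ 2 * ‖z‖ ≤ 8 * 2700 ^ 2 * K := by
  have hmax : ‖z‖ ≤ 2 * max |z.re| |z.im| := by
    have := Complex.norm_le_abs_re_add_abs_im z
    have a := le_max_left |z.re| |z.im|
    have b := le_max_right |z.re| |z.im|
    linarith
  have hzn : 0 < ‖z‖ := norm_pos_iff.2 hz0
  have hm0 : 0 < max |z.re| |z.im| := by linarith
  have hm1 : max |z.re| |z.im| ≤ 1 / 4 :=
    max_le ((Complex.abs_re_le_norm z).trans hz1) ((Complex.abs_im_le_norm z).trans hz1)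
  have ht := tendsto_flr hr z
  have key : ∀ h, (lv (F z) h) ^ 2 * max |z.re| |z.im| ≤ 2 * 2700 ^ 2 * K := by
    intro h
    have t1 := (hlim h).tendsto hr hΩ (continuousOn_lv hF h) hz
    have t2 := (t1.pow 2).mul ht
    refine le_of_tendsto t2 ?_
    have e1 : ∀ᶠ n in (U : Filter ℕ), (dist0 (flr (r n) z) : ℝ) / r n < 1 / 2 :=
      ht.eventually_lt_const (by linarith)
    have e2 : ∀ᶠ n in (U : Filter ℕ), max |z.re| |z.im| / 2 < (dist0 (flr (r n) z) : ℝ) / r n :=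
      ht.eventually_const_lt (by linarith)
    filter_upwards [scaled_bound hr hex hnorm hK0 hK, e1, e2, hr.eventually_gt_atTop 0,
      hr.eventually_ge_atTop (64 / max |z.re| |z.im|)] with n hn h1 h2 hr0 hr1
    have hd2 : 2 * (dist0 (flr (r n) z) : ℝ) ≤ r n := by
      rw [div_lt_iff₀ hr0] at h1; linarith
    have hd1 : 32 ≤ dist0 (flr (r n) z) := by
      rw [lt_div_iff₀ hr0] at h2
      rw [div_le_iff₀ hm0] at hr1
      have : (32 : ℝ) < dist0 (flr (r n) z) := by nlinarith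
      have : 32 < dist0 (flr (r n) z) := by exact_mod_cast this
      omega
    have := hn _ hd1 hd2 h
    have e : vc r (fun k => gm s (e k)) h n (flr (r n) z) ^ 2 = (r n * e n (flr (r n) z) h) ^ 2 := by
      unfold vc
      simp only
      rw [gm_apply, mul_pow, mul_pow, mul_pow, hs, one_mul]
    rw [e]; exact this
  have hn : ‖F z‖ ^ 2 = (lv (F z) 1) ^ 2 + (lv (F z) 3) ^ 2 := by
    rw [← Complex.normSq_eq_norm_sq, Complex.normSq_apply, lv_one, lv_three]; ring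
  have k1 := key 1
  have k3 := key 3
  calc ‖F z‖ ^ 2 * ‖z‖ ≤ ‖F z‖ ^ 2 * (2 * max |z.re| |z.im|) := by gcongr
    _ = 2 * ((lv (F z) 1) ^ 2 * max |z.re| |z.im| + (lv (F z) 3) ^ 2 * max |z.re| |z.im|) := by
        rw [hn]; ring
    _ ≤ 8 * 2700 ^ 2 * K := by linarith

theorem gm_one (φ : Fld) : gm (fun _ => 1) φ = φ := by
  funext f h; rw [gm_apply, one_mul]

/-- the two limits -/
structure Charts (U : Ultrafilter ℕ) (r : ℕ → ℝ) (e : ℕ → Fld) (C : ℝ) (F1 F2 : ℂ → ℂ) :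
    Prop where
  d1 : DifferentiableOn ℂ F1 Ob1
  d2 : DifferentiableOn ℂ F2 Ob2
  lim1 : ∀ h, LocUnif (U : Filter ℕ) r Ob1 (fun n f => r n * e n f h) (fun z => lv (F1 z) h)
  lim2 : ∀ h, LocUnif (U : Filter ℕ) r Ob2 (fun n f => r n * (t2 f * e n f h))
    (fun z => lv (F2 z) h)
  up : ∀ z ∈ Metric.ball (0 : ℂ) 1, 0 < z.im → F2 z = -F1 z
  dn : ∀ z ∈ Metric.ball (0 : ℂ) 1, z.im < 0 → F2 z = F1 z
  b1 : ∀ z ∈ Ob1, ‖z‖ ≤ 1 / 4 → ‖F1 z‖ ^ 2 * ‖z‖ ≤ C
  b2 : ∀ z ∈ Ob2, ‖z‖ ≤ 1 / 4 → ‖F2 z‖ ^ 2 * ‖z‖ ≤ C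

theorem ne_zero_of_Ob1 {z : ℂ} (hz : z ∈ Ob1) : z ≠ 0 := by
  rintro rfl
  have h : -(0 : ℂ) ∈ Complex.slitPlane := hz.1
  simp at h

theorem ne_zero_of_Ob2 {z : ℂ} (hz : z ∈ Ob2) : z ≠ 0 := by
  rintro rfl
  have h : (0 : ℂ) ∈ Complex.slitPlane := hz.1
  simp at h

theorem mem_Om1_of_im {z : ℂ} (h : z.im ≠ 0) : z ∈ Om1 := by
  show -z ∈ Complex.slitPlane
  rw [Complex.mem_slitPlane_iff]; right; simpa using h

theorem mem_Om2_of_im {z : ℂ} (h : z.im ≠ 0) : z ∈ Om2 := by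
  show z ∈ Complex.slitPlane
  rw [Complex.mem_slitPlane_iff]; right; exact h

theorem exists_charts (hr : Tendsto r (U : Filter ℕ) atTop)
    (hex : ∀ᶠ k in (U : Filter ℕ), ∀ f ∈ bx 0 (r k), A w0 (e k) f = 0)
    (hnorm : ∀ᶠ k in (U : Filter ℕ), NB 0 (r k) (e k) ≤ 1) (hK0 : 0 ≤ K) (hK : NCbr K) :
    ∃ F1 F2 : ℂ → ℂ, Charts U r e (8 * 2700 ^ 2 * K) F1 F2 := by
  obtain ⟨F1, hd1, hl1⟩ := (locEx1 hr hex hnorm).exists_limit hr isOpen_Ob1
  obtain ⟨F2, hd2, hl2⟩ := (locEx2 hr hex hnorm).exists_limit hr isOpen_Ob2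
  have e2 : ∀ h n f, vc r (fun k => gm t2 (e k)) h n f = r n * (t2 f * e n f h) :=
    fun h n f => rfl
  have hl1' : ∀ h, LocUnif (U : Filter ℕ) r Ob1 (vc r (fun k => gm (fun _ => 1) (e k)) h)
      (fun z => lv (F1 z) h) := by
    intro h
    have := hl1 h
    simp only [gm_one]; exact this
  refine ⟨F1, F2, hd1, hd2, hl1, hl2, ?_, ?_, ?_, ?_⟩
  · intro z hz him
    have z1 : z ∈ Ob1 := ⟨mem_Om1_of_im him.ne', hz⟩
    have z2 : z ∈ Ob2 := ⟨mem_Om2_of_im him.ne', hz⟩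
    refine lv_inj fun h => ?_
    have a1 := (hl1 h).tendsto hr isOpen_Ob1 (continuousOn_lv hd1.continuousOn h) z1
    have a2 := (hl2 h).tendsto hr isOpen_Ob2 (continuousOn_lv hd2.continuousOn h) z2
    have a3 : Tendsto (fun n => vc r (fun k => gm t2 (e k)) h n (flr (r n) z)) (U : Filter ℕ)
        (𝓝 (-lv (F1 z) h)) := by
      refine a1.neg.congr' ?_
      filter_upwards [hr.eventually_gt_atTop 0] with n hn
      rw [e2, t2_nonneg (by
        show 0 ≤ ⌊r n * z.im⌋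
        exact Int.floor_nonneg.2 (by positivity))]
      unfold vc; ring
    have := tendsto_nhds_unique a2 a3
    rw [this]
    have : -F1 z = ((-1 : ℝ) : ℂ) * F1 z := by push_cast; ring
    rw [this, lv_smul]; ring
  · intro z hz him
    have z1 : z ∈ Ob1 := ⟨mem_Om1_of_im him.ne, hz⟩
    have z2 : z ∈ Ob2 := ⟨mem_Om2_of_im him.ne, hz⟩
    refine lv_inj fun h => ?_
    have a1 := (hl1 h).tendsto hr isOpen_Ob1 (continuousOn_lv hd1.continuousOn h) z1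
    have a2 := (hl2 h).tendsto hr isOpen_Ob2 (continuousOn_lv hd2.continuousOn h) z2
    have a3 : Tendsto (fun n => vc r (fun k => gm t2 (e k)) h n (flr (r n) z)) (U : Filter ℕ)
        (𝓝 (lv (F1 z) h)) := by
      refine a1.congr' ?_
      filter_upwards [hr.eventually_gt_atTop 0] with n hn
      rw [e2, t2_neg (by
        show ⌊r n * z.im⌋ < 0
        exact Int.floor_lt.2 (by push_cast; nlinarith))]
      unfold vc; ring
    exact tendsto_nhds_unique a2 a3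
  · intro z hz h1
    exact limit_bound hr hex hnorm hK0 hK (s := fun _ => 1) (fun _ => by norm_num) isOpen_Ob1
      hd1.continuousOn hl1' hz (ne_zero_of_Ob1 hz) h1
  · intro z hz h1
    exact limit_bound hr hex hnorm hK0 hK gauge_t2 isOpen_Ob2 hd2.continuousOn hl2 hz
      (ne_zero_of_Ob2 hz) h1

end seq

end Crest.Agent.R165.Bxx797
end
end

-- ▼ part R165/BxD_797
section

/-!
# Row 165 (S0250), block R: EX at a branch vertex, the regular part (helper797)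

`exists_g` : `F1 = g m1`, `F2 = g m2` with `g` holomorphic near `0`; quantitative form
`‖F z - g(0) m z‖ ≤ L √‖z‖`.
-/

set_option autoImplicit false

noncomputable section

namespace Crest.Agent.R165.Bxx797

open Finset Filter Topology

theorem exp_neg_half_pi : Complex.exp (-(Real.pi : ℂ) * Complex.I * (1 / 2)) = -Complex.I := by
  have e : -(Real.pi : ℂ) * Complex.I * (1 / 2) = ((-(Real.pi / 2) : ℝ) : ℂ) * Complex.I := by
    push_cast; ring
  rw [e, Complex.exp_mul_I, ← Complex.ofReal_cos, ← Complex.ofReal_sin, Real.cos_neg,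
    Real.sin_neg, Real.cos_pi_div_two, Real.sin_pi_div_two]
  simp

theorem exp_half_pi : Complex.exp ((Real.pi : ℂ) * Complex.I * (1 / 2)) = Complex.I := by
  have e : (Real.pi : ℂ) * Complex.I * (1 / 2) = (((Real.pi / 2) : ℝ) : ℂ) * Complex.I := by
    push_cast; ring
  rw [e, Complex.exp_mul_I, ← Complex.ofReal_cos, ← Complex.ofReal_sin,
    Real.cos_pi_div_two, Real.sin_pi_div_two]
  simp

theorem neg_cpow_up {z : ℂ} (h : 0 < z.im) :
    (-z) ^ (1 / 2 : ℂ) = -Complex.I * z ^ (1 / 2 : ℂ) := by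
  have hz : z ≠ 0 := by rintro rfl; simp at h
  have hl : Complex.log (-z) = Complex.log z + -(Real.pi : ℂ) * Complex.I := by
    rw [Complex.log, Complex.log, Complex.arg_neg_eq_arg_sub_pi_of_im_pos h, norm_neg]
    push_cast; ring
  rw [Complex.cpow_def_of_ne_zero (neg_ne_zero.2 hz), Complex.cpow_def_of_ne_zero hz, hl, add_mul,
    Complex.exp_add, exp_neg_half_pi]
  ring

theorem neg_cpow_dn {z : ℂ} (h : z.im < 0) :
    (-z) ^ (1 / 2 : ℂ) = Complex.I * z ^ (1 / 2 : ℂ) := by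
  have hz : z ≠ 0 := by rintro rfl; simp at h
  have hl : Complex.log (-z) = Complex.log z + (Real.pi : ℂ) * Complex.I := by
    rw [Complex.log, Complex.log, Complex.arg_neg_eq_arg_add_pi_of_im_neg h, norm_neg]
    push_cast; ring
  rw [Complex.cpow_def_of_ne_zero (neg_ne_zero.2 hz), Complex.cpow_def_of_ne_zero hz, hl, add_mul,
    Complex.exp_add, exp_half_pi]
  ring

theorem norm_cpow_half (z : ℂ) : ‖z ^ (1 / 2 : ℂ)‖ = Real.sqrt ‖z‖ := by
  have e : (1 / 2 : ℂ) = ((1 / 2 : ℝ) : ℂ) := by push_cast; ring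
  rw [e, Complex.norm_cpow_real, Real.sqrt_eq_rpow]

theorem norm_m1 (z : ℂ) : ‖m1 z‖ = (Real.sqrt ‖z‖)⁻¹ := by
  unfold m1
  rw [Complex.cpow_neg, norm_inv, norm_cpow_half, norm_neg]

theorem norm_m2 (z : ℂ) : ‖m2 z‖ = (Real.sqrt ‖z‖)⁻¹ := by
  unfold m2
  rw [Complex.cpow_neg, norm_mul, norm_inv, norm_cpow_half, norm_neg, Complex.norm_I, one_mul]

theorem cpow_half_ne {z : ℂ} (hz : z ≠ 0) : z ^ (1 / 2 : ℂ) ≠ 0 := by
  rw [Complex.cpow_def_of_ne_zero hz]; exact Complex.exp_ne_zero _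

theorem m1_mul {z : ℂ} (hz : z ≠ 0) : (-z) ^ (1 / 2 : ℂ) * m1 z = 1 := by
  unfold m1
  rw [Complex.cpow_neg, mul_inv_cancel₀ (cpow_half_ne (neg_ne_zero.2 hz))]

theorem m2_mul {z : ℂ} (hz : z ≠ 0) : Complex.I * z ^ (1 / 2 : ℂ) * m2 z = 1 := by
  unfold m2
  rw [Complex.cpow_neg]
  have h1 : z ^ (1 / 2 : ℂ) * (z ^ (1 / 2 : ℂ))⁻¹ = 1 := mul_inv_cancel₀ (cpow_half_ne hz)
  linear_combination (-Complex.I * Complex.I) * h1 - Complex.I_mul_I

open Classical in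
/-- the regular function -/
def GG (F1 F2 : ℂ → ℂ) (z : ℂ) : ℂ :=
  if z ∈ Om1 then F1 z * (-z) ^ (1 / 2 : ℂ) else Complex.I * F2 z * z ^ (1 / 2 : ℂ)

theorem GG_1 {F1 F2 : ℂ → ℂ} {z : ℂ} (hz : z ∈ Om1) : GG F1 F2 z = F1 z * (-z) ^ (1 / 2 : ℂ) :=
  if_pos hz

section

variable {U : Ultrafilter ℕ} {r : ℕ → ℝ} {e : ℕ → Tr1x40.Fld} {C : ℝ} {F1 F2 : ℂ → ℂ}

theorem Charts.GG_2 (H : Charts U r e C F1 F2) {z : ℂ} (hz : z ∈ Ob2) :
    GG F1 F2 z = Complex.I * F2 z * z ^ (1 / 2 : ℂ) := by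
  by_cases h1 : z ∈ Om1
  · rw [GG_1 h1]
    have him : z.im ≠ 0 := by
      intro h0
      have a : -z ∈ Complex.slitPlane := h1
      have b : z ∈ Complex.slitPlane := hz.1
      rw [Complex.mem_slitPlane_iff] at a b
      rw [Complex.neg_re, Complex.neg_im, h0] at a
      rw [h0] at b
      simp only [neg_zero, ne_eq, not_true_eq_false, or_false] at a b
      linarith
    rcases lt_or_gt_of_ne him with h | h
    · rw [neg_cpow_dn h, H.dn z hz.2 h]; ring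
    · rw [neg_cpow_up h, H.up z hz.2 h]; ring
  · exact if_neg h1

theorem mem_Om {z : ℂ} (hz : z ≠ 0) : z ∈ Om1 ∨ z ∈ Om2 := by
  by_cases him : z.im = 0
  · have hre : z.re ≠ 0 := fun h => hz (Complex.ext h him)
    rcases lt_or_gt_of_ne hre with h | h
    · left
      show -z ∈ Complex.slitPlane
      rw [Complex.mem_slitPlane_iff]; left; simpa using h
    · right
      show z ∈ Complex.slitPlane
      rw [Complex.mem_slitPlane_iff]; left; exact h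
  · exact Or.inl (mem_Om1_of_im him)

theorem Charts.diffG (H : Charts U r e C F1 F2) :
    DifferentiableOn ℂ (GG F1 F2) (Metric.ball 0 1 \ {0}) := by
  rintro z ⟨hz1, hz0⟩
  have hz0' : z ≠ 0 := hz0
  refine DifferentiableAt.differentiableWithinAt ?_
  rcases mem_Om hz0' with h | h
  · have hz : z ∈ Ob1 := ⟨h, hz1⟩
    have hd : DifferentiableAt ℂ (fun z => F1 z * (-z) ^ (1 / 2 : ℂ)) z := by
      refine (H.d1.differentiableAt (isOpen_Ob1.mem_nhds hz)).mul ?_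
      exact (differentiableAt_id.neg).cpow (differentiableAt_const _) h
    refine hd.congr_of_eventuallyEq ?_
    filter_upwards [isOpen_Ob1.mem_nhds hz] with y hy
    exact GG_1 hy.1
  · have hz : z ∈ Ob2 := ⟨h, hz1⟩
    have hd : DifferentiableAt ℂ (fun z => Complex.I * F2 z * z ^ (1 / 2 : ℂ)) z := by
      refine ((H.d2.differentiableAt (isOpen_Ob2.mem_nhds hz)).const_mul _).mul ?_
      exact differentiableAt_id.cpow (differentiableAt_const _) h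
    refine hd.congr_of_eventuallyEq ?_
    filter_upwards [isOpen_Ob2.mem_nhds hz] with y hy
    exact H.GG_2 hy

theorem Charts.normG (H : Charts U r e C F1 F2) {z : ℂ} (hz0 : z ≠ 0) (hz : ‖z‖ ≤ 1 / 4) :
    ‖GG F1 F2 z‖ ^ 2 ≤ C := by
  have hb : z ∈ Metric.ball (0 : ℂ) 1 := by rw [mem_ball_zero_iff]; linarith
  rcases mem_Om hz0 with h | h
  · rw [GG_1 h, norm_mul, mul_pow, norm_cpow_half, norm_neg, Real.sq_sqrt (norm_nonneg _)]
    exact H.b1 z ⟨h, hb⟩ hz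
  · rw [H.GG_2 ⟨h, hb⟩, norm_mul, norm_mul, Complex.norm_I, one_mul, mul_pow, norm_cpow_half,
      Real.sq_sqrt (norm_nonneg _)]
    exact H.b2 z ⟨h, hb⟩ hz

/-- Lipschitz constant of the regular part -/
def LL (C : ℝ) : ℝ := 8 * Real.sqrt C

theorem Charts.exists_g (H : Charts U r e C F1 F2) (hC : 0 ≤ C) :
    ∃ g : ℂ, ‖g‖ ^ 2 ≤ C ∧
      (∀ z ∈ Ob1, ‖z‖ < 1 / 4 → ‖F1 z - g * m1 z‖ ≤ LL C * Real.sqrt ‖z‖) ∧
      (∀ z ∈ Ob2, ‖z‖ < 1 / 4 → ‖F2 z - g * m2 z‖ ≤ LL C * Real.sqrt ‖z‖) := by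
  have hn : Metric.ball (0 : ℂ) (1 / 4) ∈ 𝓝 (0 : ℂ) := Metric.ball_mem_nhds _ (by norm_num)
  have hbd : ∀ z ∈ Metric.ball (0 : ℂ) (1 / 4), z ≠ 0 → ‖GG F1 F2 z‖ ≤ Real.sqrt C := by
    intro z hz hz0
    rw [mem_ball_zero_iff] at hz
    exact Real.le_sqrt_of_sq_le (H.normG hz0 hz.le)
  have hsub : Metric.ball (0 : ℂ) (1 / 4) \ {0} ⊆ Metric.ball 0 1 \ {0} :=
    Set.diff_subset_diff_left (Metric.ball_subset_ball (by norm_num))
  have hrem := Complex.differentiableOn_update_limUnder_of_bddAbove hn (H.diffG.mono hsub)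
    ⟨Real.sqrt C, by
      rintro _ ⟨z, hz, rfl⟩
      exact hbd z hz.1 hz.2⟩
  set G := Function.update (GG F1 F2) 0 (limUnder (𝓝[≠] (0 : ℂ)) (GG F1 F2)) with hG
  have hGz : ∀ z, z ≠ 0 → G z = GG F1 F2 z := fun z hz => Function.update_of_ne hz _ _
  have hcont : ContinuousAt G 0 := (hrem.differentiableAt hn).continuousAt
  have hG0 : ‖G 0‖ ≤ Real.sqrt C := by
    have h1 : Tendsto (fun z => ‖G z‖) (𝓝[≠] (0 : ℂ)) (𝓝 ‖G 0‖) :=
      (hcont.norm.tendsto).mono_left nhdsWithin_le_nhds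
    refine le_of_tendsto h1 ?_
    filter_upwards [self_mem_nhdsWithin, nhdsWithin_le_nhds hn] with z hz hz'
    rw [hGz z hz]; exact hbd z hz' hz
  have hball : ∀ z ∈ Metric.ball (0 : ℂ) (1 / 4), ‖G z‖ ≤ Real.sqrt C := by
    intro z hz
    by_cases h0 : z = 0
    · rw [h0]; exact hG0
    · rw [hGz z h0]; exact hbd z hz h0
  have hlip : ∀ z ∈ Metric.ball (0 : ℂ) (1 / 4), ‖G z - G 0‖ ≤ LL C * ‖z‖ := by
    intro z hz
    have := Complex.dist_le_div_mul_dist_of_mapsTo_ball (f := G) (c := 0) (z := z) (R₁ := 1 / 4)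
      (R₂ := 2 * Real.sqrt C) hrem (fun w hw => by
        rw [Metric.mem_closedBall, dist_eq_norm]
        have := norm_sub_le (G w) (G 0)
        have := hball w hw
        linarith) hz
    rw [dist_eq_norm, dist_zero_right] at this
    refine this.trans (le_of_eq ?_)
    unfold LL; ring
  refine ⟨G 0, ?_, ?_, ?_⟩
  · have := Real.sq_sqrt hC
    nlinarith [norm_nonneg (G 0), Real.sqrt_nonneg C]
  · intro z hz hz4
    have hz0 := ne_zero_of_Ob1 hz
    have hzb : z ∈ Metric.ball (0 : ℂ) (1 / 4) := by rwa [mem_ball_zero_iff]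
    have e1 : F1 z - G 0 * m1 z = (G z - G 0) * m1 z := by
      rw [hGz z hz0, GG_1 hz.1]
      linear_combination (-F1 z) * m1_mul hz0
    have hs : 0 < Real.sqrt ‖z‖ := Real.sqrt_pos.2 (norm_pos_iff.2 hz0)
    rw [e1, norm_mul, norm_m1]
    calc ‖G z - G 0‖ * (Real.sqrt ‖z‖)⁻¹ ≤ (LL C * ‖z‖) * (Real.sqrt ‖z‖)⁻¹ := by
          gcongr; exact hlip z hzb
      _ = LL C * Real.sqrt ‖z‖ := by
          rw [mul_assoc]; congr 1
          rw [← div_eq_mul_inv, Real.div_sqrt]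
  · intro z hz hz4
    have hz0 := ne_zero_of_Ob2 hz
    have hzb : z ∈ Metric.ball (0 : ℂ) (1 / 4) := by rwa [mem_ball_zero_iff]
    have e1 : F2 z - G 0 * m2 z = (G z - G 0) * m2 z := by
      rw [hGz z hz0, H.GG_2 hz]
      linear_combination (-F2 z) * m2_mul hz0
    have hs : 0 < Real.sqrt ‖z‖ := Real.sqrt_pos.2 (norm_pos_iff.2 hz0)
    rw [e1, norm_mul, norm_m2]
    calc ‖G z - G 0‖ * (Real.sqrt ‖z‖)⁻¹ ≤ (LL C * ‖z‖) * (Real.sqrt ‖z‖)⁻¹ := by
          gcongr; exact hlip z hzb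
      _ = LL C * Real.sqrt ‖z‖ := by
          rw [mul_assoc]; congr 1
          rw [← div_eq_mul_inv, Real.div_sqrt]

end

end Crest.Agent.R165.Bxx797
end
end

-- ▼ part R165/BxE_797
section

/-!
# Row 165 (S0250), block R: EX at a branch vertex, flux identities (helper797)

* `q1`, `q2` : fluxes through a half-edge in terms of the values at the face
* `flux1`, `flux2` : conservation laws, summed over a box
* `sum_recip` : the sum `∑ 1/(l + i t)` is real and at least `1`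
-/

set_option autoImplicit false

noncomputable section

namespace Crest.Agent.R165.Bxx797

open Finset Filter Topology
open Crest.Agent.R165.Tr1x40
open Crest.Agent.R165.RIfx891
open Crest.Agent.R165.PotAx894 (Q mem_Q self_mem_Q Q_mono)
open Crest.Agent.R165.Lim1x943 (pt_re pt_im)

/-! ### telescoping -/

theorem sum_tel (F : ℤ → ℝ) (a : ℤ) (n : ℕ) :
    ∑ i ∈ Icc a (a + n), (F i - F (i - 1)) = F (a + n) - F (a - 1) := by
  induction n with
  | zero => simp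
  | succ n ih =>
    have : Icc a (a + (n + 1 : ℕ)) = insert (a + n + 1) (Icc a (a + n)) := by
      ext i; simp only [mem_insert, mem_Icc]; push_cast; omega
    rw [this, sum_insert (by simp), ih]
    have e : a + (n : ℤ) + 1 - 1 = a + n := by ring
    rw [e]; push_cast; rw [← add_assoc]; ring

theorem sum_neg_Icc (F : ℤ → ℝ) (l : ℤ) :
    ∑ t ∈ Icc (-l) l, F (-t) = ∑ t ∈ Icc (-l) l, F t := by
  refine sum_nbij' (fun t => -t) (fun t => -t) ?_ ?_ ?_ ?_ ?_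
  · intro t ht; rw [mem_Icc] at ht ⊢; omega
  · intro t ht; rw [mem_Icc] at ht ⊢; omega
  · intro t _; simp
  · intro t _; simp
  · intro t _; rfl

/-- the faces along the side `h` of the box of radius `l` -/
def sd (l : ℤ) (h : Fin 4) (t : ℤ) : Face :=
  match h with
  | 0 => (t, -l)
  | 1 => (l, t)
  | 2 => (-t, l)
  | 3 => (-l, -t)

/-- outward normal -/
def nu (h : Fin 4) : ℂ :=
  match h with
  | 0 => -Complex.I
  | 1 => 1
  | 2 => Complex.I
  | 3 => -1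

theorem box_flux (ψ : Face → Fin 4 → ℝ) (hψ : ∀ f h, ψ (nb f h) (op h) = -ψ f h) (l : ℕ) :
    ∑ f ∈ Q 0 l, ∑ h, ψ f h = ∑ t ∈ Icc (-(l : ℤ)) l, ∑ h, ψ (sd l h t) h := by
  have hQ : Q 0 l = Icc (-(l : ℤ)) l ×ˢ Icc (-(l : ℤ)) l := by
    ext f; rw [mem_Q]; simp [abs_le]
  have h3 : ∀ i j : ℤ, ψ (i, j) 3 = -ψ (i - 1, j) 1 := by
    intro i j
    have := hψ (i - 1, j) 1
    simpa using this
  have h0 : ∀ i j : ℤ, ψ (i, j) 0 = -ψ (i, j - 1) 2 := by
    intro i j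
    have := hψ (i, j - 1) 2
    simpa using this
  have hl : ((l : ℤ)) = -(l : ℤ) + ((2 * l : ℕ) : ℤ) := by push_cast; ring
  have tel : ∀ F : ℤ → ℝ, ∑ i ∈ Icc (-(l : ℤ)) l, (F i - F (i - 1)) = F l - F (-l - 1) := by
    intro F
    have := sum_tel F (-(l : ℤ)) (2 * l)
    rw [← hl] at this; exact this
  rw [hQ, sum_product]
  have e1 : ∑ i ∈ Icc (-(l : ℤ)) l, ∑ j ∈ Icc (-(l : ℤ)) l, ∑ h, ψ (i, j) h =
      ∑ j ∈ Icc (-(l : ℤ)) l, ∑ i ∈ Icc (-(l : ℤ)) l, (ψ (i, j) 1 - ψ (i - 1, j) 1) +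
      ∑ i ∈ Icc (-(l : ℤ)) l, ∑ j ∈ Icc (-(l : ℤ)) l, (ψ (i, j) 2 - ψ (i, j - 1) 2) := by
    rw [sum_comm (f := fun j i => ψ (i, j) 1 - ψ (i - 1, j) 1), ← sum_add_distrib]
    refine sum_congr rfl fun i _ => ?_
    rw [← sum_add_distrib]
    refine sum_congr rfl fun j _ => ?_
    rw [Fin.sum_univ_four, h3, h0]; ring
  have e2 : ∀ j : ℤ, ∑ i ∈ Icc (-(l : ℤ)) l, (ψ (i, j) 1 - ψ (i - 1, j) 1) =
      ψ (l, j) 1 + ψ (-l, j) 3 := by
    intro j
    rw [tel (fun i => ψ (i, j) 1), h3]; ring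
  have e3 : ∀ i : ℤ, ∑ j ∈ Icc (-(l : ℤ)) l, (ψ (i, j) 2 - ψ (i, j - 1) 2) =
      ψ (i, l) 2 + ψ (i, -l) 0 := by
    intro i
    rw [tel (fun j => ψ (i, j) 2), h0]; ring
  rw [e1, sum_congr rfl fun j _ => e2 j, sum_congr rfl fun i _ => e3 i, sum_add_distrib,
    sum_add_distrib]
  have e4 : ∑ t ∈ Icc (-(l : ℤ)) l, ∑ h, ψ (sd l h t) h =
      ∑ t ∈ Icc (-(l : ℤ)) l, ψ (t, -l) 0 + ∑ t ∈ Icc (-(l : ℤ)) l, ψ (l, t) 1 +
      ∑ t ∈ Icc (-(l : ℤ)) l, ψ (-t, l) 2 + ∑ t ∈ Icc (-(l : ℤ)) l, ψ (-l, -t) 3 := by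
    rw [← sum_add_distrib, ← sum_add_distrib, ← sum_add_distrib]
    refine sum_congr rfl fun t _ => ?_
    rw [Fin.sum_univ_four]; rfl
  rw [e4, sum_neg_Icc (fun t => ψ (t, l) 2), sum_neg_Icc (fun t => ψ (-l, t) 3)]
  ring

/-! ### fluxes -/

theorem w0_sq (f : Face) (h : Fin 4) : w0 f h ^ 2 = xc ^ 2 := by
  unfold w0; rw [mul_pow, rayw_sq, one_mul]

theorem sym_w0 : Sym w0 := by
  intro f h
  unfold w0
  congr 1
  fin_cases h
  · show rayw 0 (f.1, f.2 - 1) 2 = rayw 0 f 0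
    by_cases hc : f.2 = 0 ∧ 0 ≤ f.1
    · rw [rayw_S hc, rayw_N (by simp only; omega)]
    · rw [rayw_S' hc, rayw_N' (by simp only; omega)]
  · show rayw 0 (f.1 + 1, f.2) 3 = rayw 0 f 1
    rw [rayw_W, rayw_E]
  · show rayw 0 (f.1, f.2 + 1) 0 = rayw 0 f 2
    by_cases hc : f.2 + 1 = 0 ∧ 0 ≤ f.1
    · rw [rayw_N hc, rayw_S (by simp only; omega)]
    · rw [rayw_N' hc, rayw_S' (by simp only; omega)]
  · show rayw 0 (f.1 - 1, f.2) 1 = rayw 0 f 3
    rw [rayw_W, rayw_E]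

/-- first flux -/
def q1 (p : Fin 4 → ℝ) (h : Fin 4) : ℝ := xc ^ 2 * p h ^ 2 - A0 p h ^ 2

/-- second flux -/
def q2 (p : Fin 4 → ℝ) (h : Fin 4) : ℝ := A0 p h * p h

theorem sum_q1 (p : Fin 4 → ℝ) : ∑ h, q1 p h ≤ 0 := by
  have h1 : ∑ h, q1 p h = xc ^ 2 * nsq p - nsq (A0 p) := by
    unfold q1 nsq; rw [sum_sub_distrib, ← mul_sum]
  rw [h1]
  linarith [nsq_A0_ge p]

theorem sum_q2 (p : Fin 4 → ℝ) : ∑ h, q2 p h = 0 := by
  have h1 := A0_antisymm p p
  have h2 : ∑ h, p h * A0 p h = ∑ h, A0 p h * p h := sum_congr rfl fun h _ => mul_comm _ _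
  unfold q2
  linarith

theorem flux1 {e : Fld} {l : ℕ} (he : ∀ f ∈ Q 0 l, A w0 e f = 0) :
    ∑ t ∈ Icc (-(l : ℤ)) l, ∑ h, q1 (e (sd l h t)) h ≤ 0 := by
  have hmem : ∀ t ∈ Icc (-(l : ℤ)) l, ∀ h, sd l h t ∈ Q 0 l := by
    intro t ht h
    rw [mem_Icc] at ht
    rw [mem_Q, abs_le, abs_le]
    fin_cases h <;> simp [sd] <;> omega
  have key : ∀ f ∈ Q 0 l, ∀ h, q1 (e f) h =
      w0 f h ^ 2 * (e f h ^ 2 - e (nb f h) (op h) ^ 2) := by
    intro f hf h
    have h1 : A0 (e f) h + Y w0 e f h = 0 := congrFun (he f hf) h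
    have h2 : A0 (e f) h = -Y w0 e f h := by linarith
    unfold q1
    rw [h2, neg_sq]
    unfold Y
    rw [mul_pow, mul_pow, sg_sq, w0_sq]; ring
  have hb := box_flux (fun f h => w0 f h ^ 2 * (e f h ^ 2 - e (nb f h) (op h) ^ 2))
    (fun f h => by simp only [nb_nb_op, op_op, sym_w0 f h]; ring) l
  rw [sum_congr rfl fun t ht => sum_congr rfl fun h _ => key _ (hmem t ht h) h, ← hb]
  refine sum_nonpos fun f hf => ?_
  rw [← sum_congr rfl fun h _ => key f hf h]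
  exact sum_q1 _

theorem flux2 {e : Fld} {l : ℕ} (he : ∀ f ∈ Q 0 l, A w0 e f = 0) :
    ∑ t ∈ Icc (-(l : ℤ)) l, ∑ h, q2 (e (sd l h t)) h = 0 := by
  have hmem : ∀ t ∈ Icc (-(l : ℤ)) l, ∀ h, sd l h t ∈ Q 0 l := by
    intro t ht h
    rw [mem_Icc] at ht
    rw [mem_Q, abs_le, abs_le]
    fin_cases h <;> simp [sd] <;> omega
  have key : ∀ f ∈ Q 0 l, ∀ h, q2 (e f) h = -(Y w0 e f h * e f h) := by
    intro f hf h
    have h1 : A0 (e f) h + Y w0 e f h = 0 := congrFun (he f hf) h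
    have h2 : A0 (e f) h = -Y w0 e f h := by linarith
    unfold q2
    rw [h2]; ring
  have hb := box_flux (fun f h => -(Y w0 e f h * e f h))
    (fun f h => by simp only [Y, nb_nb_op, op_op, sg_op, sym_w0 f h]; ring) l
  rw [sum_congr rfl fun t ht => sum_congr rfl fun h _ => key _ (hmem t ht h) h, ← hb]
  refine sum_eq_zero fun f hf => ?_
  rw [← sum_congr rfl fun h _ => key f hf h]
  exact sum_q2 _

/-! ### fluxes of light vectors -/

theorem nu_mul_re (h : Fin 4) (c : ℂ) : (nu h * c ^ 2).re =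
    lv c h ^ 2 - lv c (op h) ^ 2 := by
  have e : ∀ a b : ℝ, (a / Real.sqrt 2) ^ 2 - (b / Real.sqrt 2) ^ 2 = (a ^ 2 - b ^ 2) / 2 := by
    intro a b; rw [div_pow, div_pow, Real.sq_sqrt (by norm_num)]; ring
  have hc : c ^ 2 = ⟨c.re ^ 2 - c.im ^ 2, 2 * c.re * c.im⟩ := by
    rw [pow_two]; apply Complex.ext <;> simp <;> ring
  rw [hc]
  fin_cases h
  · show (-Complex.I * _).re = (-(c.re + c.im) / Real.sqrt 2) ^ 2 - ((c.im - c.re) / Real.sqrt 2) ^ 2
    rw [e]; simp; ring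
  · show ((1 : ℂ) * _).re = c.re ^ 2 - (-c.im) ^ 2
    simp
  · show (Complex.I * _).re = ((c.im - c.re) / Real.sqrt 2) ^ 2 - (-(c.re + c.im) / Real.sqrt 2) ^ 2
    rw [e]; simp; ring
  · show ((-1 : ℂ) * _).re = (-c.im) ^ 2 - c.re ^ 2
    simp

theorem A0_lv (c : ℂ) (h : Fin 4) : A0 (lv c) h = -(sg h * xc * lv c (op h)) := by
  have h2 := sq2
  unfold xc
  fin_cases h
  · show c.re + (c.im - c.re) / Real.sqrt 2 + -c.im =
      -(1 * (Real.sqrt 2 - 1) * ((c.im - c.re) / Real.sqrt 2))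
    rw [div_sq2]
    linear_combination ((c.im - c.re) / 2) * h2
  · show -(-(c.re + c.im) / Real.sqrt 2) + (c.im - c.re) / Real.sqrt 2 + -c.im =
      -(1 * (Real.sqrt 2 - 1) * (-c.im))
    rw [div_sq2, div_sq2]
    ring
  · show -(-(c.re + c.im) / Real.sqrt 2) - c.re + -c.im =
      -(-1 * (Real.sqrt 2 - 1) * (-(c.re + c.im) / Real.sqrt 2))
    rw [div_sq2]
    linear_combination ((c.re + c.im) / 2) * h2
  · show -(-(c.re + c.im) / Real.sqrt 2) - c.re - (c.im - c.re) / Real.sqrt 2 =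
      -(-1 * (Real.sqrt 2 - 1) * c.re)
    rw [div_sq2, div_sq2]
    ring

theorem q1_lv (c : ℂ) (h : Fin 4) : q1 (lv c) h = xc ^ 2 * (nu h * c ^ 2).re := by
  unfold q1
  rw [A0_lv, nu_mul_re, neg_sq, mul_pow, mul_pow, sg_sq]; ring

theorem q2_lv (c : ℂ) (h : Fin 4) : q2 (lv c) h = xc / 2 * (nu h * c ^ 2).im := by
  have e : ∀ a b : ℝ, a / Real.sqrt 2 * (b / Real.sqrt 2) = a * b / 2 := by
    intro a b; rw [div_mul_div_comm, sq2]
  have hc : c ^ 2 = ⟨c.re ^ 2 - c.im ^ 2, 2 * c.re * c.im⟩ := by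
    rw [pow_two]; apply Complex.ext <;> simp <;> ring
  unfold q2
  rw [A0_lv, hc]
  fin_cases h
  · show -(1 * xc * ((c.im - c.re) / Real.sqrt 2)) * (-(c.re + c.im) / Real.sqrt 2) =
      xc / 2 * (-Complex.I * _).im
    have := e (c.im - c.re) (-(c.re + c.im))
    simp only [Complex.mul_im, Complex.neg_re, Complex.neg_im, Complex.I_re, Complex.I_im]
    linear_combination (-xc) * this
  · show -(1 * xc * (-c.im)) * c.re = xc / 2 * ((1 : ℂ) * _).im
    simp; ring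
  · show -(-1 * xc * (-(c.re + c.im) / Real.sqrt 2)) * ((c.im - c.re) / Real.sqrt 2) =
      xc / 2 * (Complex.I * _).im
    have := e (-(c.re + c.im)) (c.im - c.re)
    simp only [Complex.mul_im, Complex.I_re, Complex.I_im]
    linear_combination xc * this
  · show -(-1 * xc * c.re) * (-c.im) = xc / 2 * ((-1 : ℂ) * _).im
    simp; ring

/-! ### stability -/

theorem A0_sub' (p p' : Fin 4 → ℝ) (h : Fin 4) : A0 p h - A0 p' h = A0 (fun k => p k - p' k) h := by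
  fin_cases h <;> simp [A0] <;> ring

theorem abs_A0_le {p : Fin 4 → ℝ} {m : ℝ} (hp : ∀ k, |p k| ≤ m) (h : Fin 4) :
    |A0 p h| ≤ 3 * m := by
  have h0 := abs_le.1 (hp 0)
  have h1 := abs_le.1 (hp 1)
  have h2 := abs_le.1 (hp 2)
  have h3 := abs_le.1 (hp 3)
  rw [abs_le]
  fin_cases h <;> simp [A0] <;> constructor <;> linarith

theorem abs_sq_sub_le {x y E M : ℝ} (h : |x - y| ≤ E) (hy : |y| ≤ M) :
    |x ^ 2 - y ^ 2| ≤ E * (2 * M + E) := by
  have hE : 0 ≤ E := (abs_nonneg _).trans h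
  have e : x ^ 2 - y ^ 2 = (x - y) * ((x - y) + 2 * y) := by ring
  rw [e, abs_mul]
  refine mul_le_mul h ?_ (abs_nonneg _) hE
  refine (abs_add_le _ _).trans ?_
  rw [abs_mul, abs_two]; linarith

theorem q1_stab {p : Fin 4 → ℝ} {c : ℂ} {E M : ℝ} (h : ∀ k, |p k - lv c k| ≤ E) (hc : ‖c‖ ≤ M)
    (k : Fin 4) : |q1 p k - xc ^ 2 * (nu k * c ^ 2).re| ≤ 8 * M * E + 10 * E ^ 2 := by
  rw [← q1_lv]
  have hE : 0 ≤ E := (abs_nonneg _).trans (h 0)
  have hM : 0 ≤ M := (norm_nonneg _).trans hc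
  have hx0 := xc_pos
  have hx1 : xc < 1 := xc_lt_one
  have hlv : ∀ k, |lv c k| ≤ M := fun k => (abs_lv_le c k).trans hc
  have h1 := abs_sq_sub_le (h k) (hlv k)
  have h2 : |A0 p k - A0 (lv c) k| ≤ 3 * E := by
    rw [A0_sub']; exact abs_A0_le h k
  have h3 : |A0 (lv c) k| ≤ M := by
    have h4 : |A0 (lv c) k| ^ 2 ≤ M ^ 2 := by
      rw [A0_lv, sq_abs, neg_sq, mul_pow, mul_pow, sg_sq, one_mul, ← sq_abs (lv c (op k))]
      have a := hlv (op k)
      have b := abs_nonneg (lv c (op k))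
      have c1 : xc ^ 2 ≤ 1 := by nlinarith
      calc xc ^ 2 * |lv c (op k)| ^ 2 ≤ 1 * M ^ 2 := by gcongr
        _ = M ^ 2 := one_mul _
    exact abs_le_of_sq_le_sq' h4 hM |>.2
  have h5 := abs_sq_sub_le h2 h3
  have e : q1 p k - q1 (lv c) k =
      xc ^ 2 * (p k ^ 2 - lv c k ^ 2) - (A0 p k ^ 2 - A0 (lv c) k ^ 2) := by
    unfold q1; ring
  rw [e]
  refine (abs_sub _ _).trans ?_
  rw [abs_mul, abs_of_nonneg (sq_nonneg xc)]
  have h6 : xc ^ 2 * |p k ^ 2 - lv c k ^ 2| ≤ 1 * (E * (2 * M + E)) := by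
    have c1 : xc ^ 2 ≤ 1 := by nlinarith
    gcongr
  nlinarith

theorem q2_stab {p : Fin 4 → ℝ} {c : ℂ} {E M : ℝ} (h : ∀ k, |p k - lv c k| ≤ E) (hc : ‖c‖ ≤ M)
    (k : Fin 4) : |q2 p k - xc / 2 * (nu k * c ^ 2).im| ≤ 8 * M * E + 10 * E ^ 2 := by
  rw [← q2_lv]
  have hE : 0 ≤ E := (abs_nonneg _).trans (h 0)
  have hM : 0 ≤ M := (norm_nonneg _).trans hc
  have hx0 := xc_pos
  have hx1 : xc < 1 := xc_lt_one
  have hlv : ∀ k, |lv c k| ≤ M := fun k => (abs_lv_le c k).trans hc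
  have h2 : |A0 p k - A0 (lv c) k| ≤ 3 * E := by
    rw [A0_sub']; exact abs_A0_le h k
  have h3 : |A0 (lv c) k| ≤ M := by
    have h4 : |A0 (lv c) k| ^ 2 ≤ M ^ 2 := by
      rw [A0_lv, sq_abs, neg_sq, mul_pow, mul_pow, sg_sq, one_mul, ← sq_abs (lv c (op k))]
      have a := hlv (op k)
      have b := abs_nonneg (lv c (op k))
      have c1 : xc ^ 2 ≤ 1 := by nlinarith
      calc xc ^ 2 * |lv c (op k)| ^ 2 ≤ 1 * M ^ 2 := by gcongr
        _ = M ^ 2 := one_mul _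
    exact abs_le_of_sq_le_sq' h4 hM |>.2
  have e : q2 p k - q2 (lv c) k =
      (A0 p k - A0 (lv c) k) * ((p k - lv c k) + lv c k) + A0 (lv c) k * (p k - lv c k) := by
    unfold q2; ring
  rw [e]
  have h7 : |(A0 p k - A0 (lv c) k) * ((p k - lv c k) + lv c k)| ≤ 3 * E * (E + M) := by
    rw [abs_mul]
    exact mul_le_mul h2 ((abs_add_le _ _).trans (add_le_add (h k) (hlv k))) (abs_nonneg _)
      (by positivity)
  have h8 : |A0 (lv c) k * (p k - lv c k)| ≤ M * E := by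
    rw [abs_mul]
    exact mul_le_mul h3 (h k) (abs_nonneg _) hM
  refine (abs_add_le _ _).trans ?_
  nlinarith [mul_nonneg hM hE, sq_nonneg E]

theorem q1_smul (a : ℝ) (p : Fin 4 → ℝ) (h : Fin 4) :
    q1 (fun k => a * p k) h = a ^ 2 * q1 p h := by
  have e : A0 (fun k => a * p k) h = a * A0 p h := by
    have := A0_smul a p h
    simpa [Pi.smul_def, smul_eq_mul] using this
  unfold q1; rw [e]; ring

theorem q2_smul (a : ℝ) (p : Fin 4 → ℝ) (h : Fin 4) :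
    q2 (fun k => a * p k) h = a ^ 2 * q2 p h := by
  have e : A0 (fun k => a * p k) h = a * A0 p h := by
    have := A0_smul a p h
    simpa [Pi.smul_def, smul_eq_mul] using this
  unfold q2; rw [e]; ring

/-! ### the sum over a side -/

/-- `∑ 1/(l + i t)` -/
def SS (l : ℕ) : ℝ := ∑ t ∈ Icc (-(l : ℤ)) l, (l : ℝ) / ((l : ℝ) ^ 2 + (t : ℝ) ^ 2)

theorem one_le_SS {l : ℕ} (hl : 0 < l) : 1 ≤ SS l := by
  have hl0 : (0 : ℝ) < l := by exact_mod_cast hl
  have h1 : ∀ t ∈ Icc (-(l : ℤ)) l, 1 / (2 * (l : ℝ)) ≤ (l : ℝ) / ((l : ℝ) ^ 2 + (t : ℝ) ^ 2) := by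
    intro t ht
    rw [mem_Icc] at ht
    have a : (-(l : ℝ)) ≤ t := by exact_mod_cast ht.1
    have b : (t : ℝ) ≤ l := by exact_mod_cast ht.2
    rw [div_le_div_iff₀ (by positivity) (by positivity)]
    nlinarith
  have h2 := sum_le_sum h1
  rw [sum_const, nsmul_eq_mul, Int.card_Icc] at h2
  have e : ((l : ℤ) + 1 - (-(l : ℤ))).toNat = 2 * l + 1 := by omega
  rw [e] at h2
  refine le_trans ?_ h2
  push_cast
  rw [mul_one_div, le_div_iff₀ (by positivity)]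
  linarith

theorem sum_recip (γ : ℂ) (l : ℕ) :
    ∑ t ∈ Icc (-(l : ℤ)) l, (γ / ⟨(l : ℝ), (t : ℝ)⟩ : ℂ).re = γ.re * SS l ∧
    ∑ t ∈ Icc (-(l : ℤ)) l, (γ / ⟨(l : ℝ), (t : ℝ)⟩ : ℂ).im = γ.im * SS l := by
  have hodd : ∑ t ∈ Icc (-(l : ℤ)) l, (t : ℝ) / ((l : ℝ) ^ 2 + (t : ℝ) ^ 2) = 0 := by
    have h1 := sum_neg_Icc (fun t => (t : ℝ) / ((l : ℝ) ^ 2 + (t : ℝ) ^ 2)) l
    simp only [Int.cast_neg, neg_sq, neg_div, sum_neg_distrib] at h1
    linarith
  have hre : ∀ t : ℤ, (γ / ⟨(l : ℝ), (t : ℝ)⟩ : ℂ).re =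
      γ.re * ((l : ℝ) / ((l : ℝ) ^ 2 + (t : ℝ) ^ 2)) +
        γ.im * ((t : ℝ) / ((l : ℝ) ^ 2 + (t : ℝ) ^ 2)) := by
    intro t
    rw [Complex.div_re, Complex.normSq_apply]; simp only; ring_nf
  have him : ∀ t : ℤ, (γ / ⟨(l : ℝ), (t : ℝ)⟩ : ℂ).im =
      γ.im * ((l : ℝ) / ((l : ℝ) ^ 2 + (t : ℝ) ^ 2)) -
        γ.re * ((t : ℝ) / ((l : ℝ) ^ 2 + (t : ℝ) ^ 2)) := by
    intro t
    rw [Complex.div_im, Complex.normSq_apply]; simp only; ring_nf
  constructor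
  · rw [sum_congr rfl fun t _ => hre t, sum_add_distrib, ← mul_sum, ← mul_sum, hodd]
    unfold SS; ring
  · rw [sum_congr rfl fun t _ => him t, sum_sub_distrib, ← mul_sum, ← mul_sum, hodd]
    unfold SS; ring

theorem pt_sd (r : ℝ) (l : ℤ) (h : Fin 4) (t : ℤ) :
    Lim1x943.pt r (sd l h t) = nu h * (⟨(l : ℝ), (t : ℝ)⟩ / (r : ℂ)) := by
  have e : (⟨(l : ℝ), (t : ℝ)⟩ / (r : ℂ) : ℂ) = ⟨(l : ℝ) / r, (t : ℝ) / r⟩ := by
    apply Complex.ext
    · simp
    · simp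
  rw [e]
  fin_cases h <;> apply Complex.ext <;> simp [Lim1x943.pt, sd, nu, neg_div]

end Crest.Agent.R165.Bxx797
end
private theorem rz_73b6763324 : type_of% @_root_.Crest.Agent.R165.Bxx797.nu.eq_1 := @_root_.Crest.Agent.R165.Bxx797.nu.eq_1 -- L54
private theorem rz_5688cfb4a6 : type_of% @_root_.Crest.Agent.R165.Bxx797.sd.eq_1 := @_root_.Crest.Agent.R165.Bxx797.sd.eq_1 -- L46
end

-- ▼ part R165/BxF_797
section

/-!
# Row 165 (S0250), block R: EX at a branch vertex, `g` is real (helper797)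
-/

set_option autoImplicit false

noncomputable section

namespace Crest.Agent.R165.Bxx797

open Finset Filter Topology
open Crest.Agent.R165.Tr1x40 hiding pt
open Crest.Agent.R165.RIfx891
open Crest.Agent.R165.PotAx894 (Q mem_Q self_mem_Q Q_mono)
open Crest.Agent.R165.Lim1x943 (pt flr LocUnif pt_re pt_im)

/-- half annuli -/
def K1 (σ τ : ℝ) : Set ℂ := {z | z.re ≤ 0 ∧ σ ≤ max |z.re| |z.im| ∧ max |z.re| |z.im| ≤ τ}
def K2 (σ τ : ℝ) : Set ℂ := {z | 0 ≤ z.re ∧ σ ≤ max |z.re| |z.im| ∧ max |z.re| |z.im| ≤ τ}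

theorem norm_le_two_max (z : ℂ) : ‖z‖ ≤ 2 * max |z.re| |z.im| := by
  have := Complex.norm_le_abs_re_add_abs_im z
  have a := le_max_left |z.re| |z.im|
  have b := le_max_right |z.re| |z.im|
  linarith

theorem max_le_norm (z : ℂ) : max |z.re| |z.im| ≤ ‖z‖ :=
  max_le (Complex.abs_re_le_norm z) (Complex.abs_im_le_norm z)

theorem continuous_max : Continuous fun z : ℂ => max |z.re| |z.im| :=
  (Complex.continuous_re.abs).max (Complex.continuous_im.abs)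

theorem isCompact_K1 (σ τ : ℝ) : IsCompact (K1 σ τ) := by
  refine Metric.isCompact_of_isClosed_isBounded ?_ ?_
  · exact (isClosed_le Complex.continuous_re continuous_const).inter
      ((isClosed_le continuous_const continuous_max).inter
        (isClosed_le continuous_max continuous_const))
  · refine (Metric.isBounded_closedBall (x := (0 : ℂ)) (r := 2 * τ)).subset ?_
    intro z hz
    rw [mem_closedBall_zero_iff]
    have := norm_le_two_max z
    have := hz.2.2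
    linarith

theorem isCompact_K2 (σ τ : ℝ) : IsCompact (K2 σ τ) := by
  refine Metric.isCompact_of_isClosed_isBounded ?_ ?_
  · exact (isClosed_le continuous_const Complex.continuous_re).inter
      ((isClosed_le continuous_const continuous_max).inter
        (isClosed_le continuous_max continuous_const))
  · refine (Metric.isBounded_closedBall (x := (0 : ℂ)) (r := 2 * τ)).subset ?_
    intro z hz
    rw [mem_closedBall_zero_iff]
    have := norm_le_two_max z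
    have := hz.2.2
    linarith

theorem ne_zero_of_max {σ : ℝ} {z : ℂ} (hσ : 0 < σ) (h : σ ≤ max |z.re| |z.im|) : z ≠ 0 := by
  rintro rfl; simp at h; linarith

theorem K1_sub' {σ τ : ℝ} (hσ : 0 < σ) : K1 σ τ ⊆ Om1 := by
  intro z hz
  have h0 := ne_zero_of_max hσ hz.2.1
  show -z ∈ Complex.slitPlane
  rw [Complex.mem_slitPlane_iff]
  by_cases him : z.im = 0
  · left
    have : z.re ≠ 0 := fun h => h0 (Complex.ext h him)
    have := lt_of_le_of_ne hz.1 this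
    simpa using this
  · right; simpa using him

theorem K2_sub' {σ τ : ℝ} (hσ : 0 < σ) : K2 σ τ ⊆ Om2 := by
  intro z hz
  have h0 := ne_zero_of_max hσ hz.2.1
  show z ∈ Complex.slitPlane
  rw [Complex.mem_slitPlane_iff]
  by_cases him : z.im = 0
  · left
    have : z.re ≠ 0 := fun h => h0 (Complex.ext h him)
    exact lt_of_le_of_ne hz.1 this.symm
  · right; exact him

theorem K1_sub {σ τ : ℝ} (hσ : 0 < σ) (hτ : τ < 1 / 8) : K1 σ τ ⊆ Ob1 := by
  intro z hz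
  refine ⟨K1_sub' hσ hz, ?_⟩
  rw [mem_ball_zero_iff]
  have := norm_le_two_max z
  have := hz.2.2
  linarith

theorem K2_sub {σ τ : ℝ} (hσ : 0 < σ) (hτ : τ < 1 / 8) : K2 σ τ ⊆ Ob2 := by
  intro z hz
  refine ⟨K2_sub' hσ hz, ?_⟩
  rw [mem_ball_zero_iff]
  have := norm_le_two_max z
  have := hz.2.2
  linarith

theorem max_pt {r : ℝ} (hr : 0 < r) (f : Face) :
    max |(pt r f).re| |(pt r f).im| = (dist0 f : ℝ) / r := by
  rw [pt_re, pt_im, abs_div, abs_div, abs_of_pos hr, max_div_div_right hr.le]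
  congr 1
  unfold dist0
  rw [Nat.cast_max, Nat.cast_natAbs, Nat.cast_natAbs]
  push_cast
  rfl

theorem mem_K {r σ τ : ℝ} (hr : 0 < r) {f : Face} (h1 : σ * r ≤ dist0 f)
    (h2 : (dist0 f : ℝ) ≤ τ * r) : pt r f ∈ K1 σ τ ∨ pt r f ∈ K2 σ τ := by
  have e := max_pt hr f
  have a : σ ≤ (dist0 f : ℝ) / r := by rwa [le_div_iff₀ hr]
  have b : (dist0 f : ℝ) / r ≤ τ := by rwa [div_le_iff₀ hr]
  rcases le_total (pt r f).re 0 with h | h
  · left; exact ⟨h, by rw [e]; exact a, by rw [e]; exact b⟩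
  · right; exact ⟨h, by rw [e]; exact a, by rw [e]; exact b⟩

theorem m1_sq (z : ℂ) : m1 z ^ 2 = -z⁻¹ := by
  unfold m1
  rw [← Complex.cpow_nat_mul]
  have e : ((2 : ℕ) : ℂ) * -(1 / 2) = -1 := by push_cast; ring
  rw [e, Complex.cpow_neg_one, inv_neg]

theorem m2_sq (z : ℂ) : m2 z ^ 2 = -z⁻¹ := by
  unfold m2
  rw [mul_pow, ← Complex.cpow_nat_mul]
  have e : ((2 : ℕ) : ℂ) * -(1 / 2) = -1 := by push_cast; ring
  rw [e, Complex.cpow_neg_one, neg_sq, Complex.I_sq]; ring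

theorem norm_m_le {σ : ℝ} (hσ : 0 < σ) {z : ℂ} (h : σ ≤ max |z.re| |z.im|) :
    (Real.sqrt ‖z‖)⁻¹ ≤ (Real.sqrt σ)⁻¹ := by
  have h1 := h.trans (max_le_norm z)
  have h2 : 0 < Real.sqrt σ := Real.sqrt_pos.2 hσ
  exact inv_anti₀ h2 (Real.sqrt_le_sqrt h1)

/-- approximation constant -/
def DD (C : ℝ) : ℝ := Real.sqrt 2 * LL C + 1

theorem LL_nonneg (C : ℝ) : 0 ≤ LL C := by unfold LL; positivity

theorem DD_pos (C : ℝ) : 0 < DD C := by
  unfold DD; have := LL_nonneg C; positivity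

section

variable {U : Ultrafilter ℕ} {r : ℕ → ℝ} {e : ℕ → Fld} {C : ℝ} {F1 F2 : ℂ → ℂ} {g : ℂ}

theorem LL_le {z : ℂ} {τ : ℝ} (h : max |z.re| |z.im| ≤ τ) :
    LL C * Real.sqrt ‖z‖ + Real.sqrt τ ≤ DD C * Real.sqrt τ := by
  have h1 : Real.sqrt ‖z‖ ≤ Real.sqrt 2 * Real.sqrt τ := by
    rw [← Real.sqrt_mul (by norm_num)]
    exact Real.sqrt_le_sqrt (by have := norm_le_two_max z; linarith)
  have h2 := mul_le_mul_of_nonneg_left h1 (LL_nonneg C)
  unfold DD; linarith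

theorem Charts.approx1 (H : Charts U r e C F1 F2)
    (h1 : ∀ z ∈ Ob1, ‖z‖ < 1 / 4 → ‖F1 z - g * m1 z‖ ≤ LL C * Real.sqrt ‖z‖)
    {σ τ : ℝ} (hσ : 0 < σ) (hτ0 : 0 < τ) (hτ : τ < 1 / 8) :
    ∀ᶠ n in (U : Filter ℕ), ∀ f : Face, pt (r n) f ∈ K1 σ τ → ∀ h,
      |r n * e n f h - lv (g * m1 (pt (r n) f)) h| ≤ DD C * Real.sqrt τ := by
  have hs : 0 < Real.sqrt τ := Real.sqrt_pos.2 hτ0
  have hev : ∀ᶠ n in (U : Filter ℕ), ∀ h, ∀ f : Face, pt (r n) f ∈ K1 σ τ →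
      |r n * e n f h - lv (F1 (pt (r n) f)) h| ≤ Real.sqrt τ :=
    eventually_all.2 fun h => H.lim1 h _ (isCompact_K1 σ τ) (K1_sub hσ hτ) _ hs
  filter_upwards [hev] with n hn f hf h
  have a := hn h f hf
  have hz := K1_sub hσ hτ hf
  have hz4 : ‖pt (r n) f‖ < 1 / 4 := by
    have := norm_le_two_max (pt (r n) f)
    have := hf.2.2
    linarith
  have b := (abs_lv_le (F1 (pt (r n) f) - g * m1 (pt (r n) f)) h).trans (h1 _ hz hz4)
  rw [lv_sub] at b
  have c := LL_le (C := C) hf.2.2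
  calc |r n * e n f h - lv (g * m1 (pt (r n) f)) h|
      = |(r n * e n f h - lv (F1 (pt (r n) f)) h) +
          (lv (F1 (pt (r n) f)) h - lv (g * m1 (pt (r n) f)) h)| := by congr 1; ring
    _ ≤ _ := (abs_add_le _ _).trans (by linarith)

theorem Charts.approx2 (H : Charts U r e C F1 F2)
    (h2 : ∀ z ∈ Ob2, ‖z‖ < 1 / 4 → ‖F2 z - g * m2 z‖ ≤ LL C * Real.sqrt ‖z‖)
    {σ τ : ℝ} (hσ : 0 < σ) (hτ0 : 0 < τ) (hτ : τ < 1 / 8) :
    ∀ᶠ n in (U : Filter ℕ), ∀ f : Face, pt (r n) f ∈ K2 σ τ → ∀ h,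
      |r n * (t2 f * e n f h) - lv (g * m2 (pt (r n) f)) h| ≤ DD C * Real.sqrt τ := by
  have hs : 0 < Real.sqrt τ := Real.sqrt_pos.2 hτ0
  have hev : ∀ᶠ n in (U : Filter ℕ), ∀ h, ∀ f : Face, pt (r n) f ∈ K2 σ τ →
      |r n * (t2 f * e n f h) - lv (F2 (pt (r n) f)) h| ≤ Real.sqrt τ :=
    eventually_all.2 fun h => H.lim2 h _ (isCompact_K2 σ τ) (K2_sub hσ hτ) _ hs
  filter_upwards [hev] with n hn f hf h
  have a := hn h f hf
  have hz := K2_sub hσ hτ hf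
  have hz4 : ‖pt (r n) f‖ < 1 / 4 := by
    have := norm_le_two_max (pt (r n) f)
    have := hf.2.2
    linarith
  have b := (abs_lv_le (F2 (pt (r n) f) - g * m2 (pt (r n) f)) h).trans (h2 _ hz hz4)
  rw [lv_sub] at b
  have c := LL_le (C := C) hf.2.2
  calc |r n * (t2 f * e n f h) - lv (g * m2 (pt (r n) f)) h|
      = |(r n * (t2 f * e n f h) - lv (F2 (pt (r n) f)) h) +
          (lv (F2 (pt (r n) f)) h - lv (g * m2 (pt (r n) f)) h)| := by congr 1; ring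
    _ ≤ _ := (abs_add_le _ _).trans (by linarith)

/-- common form: the square of the field -/
theorem Charts.approx (H : Charts U r e C F1 F2) (hr : Tendsto r (U : Filter ℕ) atTop)
    (h1 : ∀ z ∈ Ob1, ‖z‖ < 1 / 4 → ‖F1 z - g * m1 z‖ ≤ LL C * Real.sqrt ‖z‖)
    (h2 : ∀ z ∈ Ob2, ‖z‖ < 1 / 4 → ‖F2 z - g * m2 z‖ ≤ LL C * Real.sqrt ‖z‖)
    {σ τ : ℝ} (hσ : 0 < σ) (hτ0 : 0 < τ) (hτ : τ < 1 / 8) :
    ∀ᶠ n in (U : Filter ℕ), ∀ f : Face, σ * r n ≤ dist0 f → (dist0 f : ℝ) ≤ τ * r n →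
      ∃ (a : ℝ) (c : ℂ), a ^ 2 = r n ^ 2 ∧ c ^ 2 = -g ^ 2 / pt (r n) f ∧
        ‖c‖ ≤ ‖g‖ * (Real.sqrt σ)⁻¹ ∧ ∀ h, |a * e n f h - lv c h| ≤ DD C * Real.sqrt τ := by
  filter_upwards [H.approx1 h1 hσ hτ0 hτ, H.approx2 h2 hσ hτ0 hτ, hr.eventually_gt_atTop 0]
    with n a1 a2 hr0 f hf1 hf2
  rcases mem_K hr0 hf1 hf2 with h | h
  · refine ⟨r n, g * m1 (pt (r n) f), rfl, ?_, ?_, a1 f h⟩
    · rw [mul_pow, m1_sq]; ring
    · rw [norm_mul, norm_m1]
      exact mul_le_mul_of_nonneg_left (norm_m_le hσ h.2.1) (norm_nonneg _)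
  · refine ⟨r n * t2 f, g * m2 (pt (r n) f), ?_, ?_, ?_, fun k => ?_⟩
    · rw [mul_pow, gauge_t2, mul_one]
    · rw [mul_pow, m2_sq]; ring
    · rw [norm_mul, norm_m2]
      exact mul_le_mul_of_nonneg_left (norm_m_le hσ h.2.1) (norm_nonneg _)
    · have := a2 f h k
      rwa [← mul_assoc] at this

theorem dist0_sd {l : ℕ} {t : ℤ} (ht : t ∈ Icc (-(l : ℤ)) l) (h : Fin 4) : dist0 (sd l h t) = l := by
  rw [mem_Icc] at ht
  unfold dist0
  fin_cases h <;> simp only [sd] <;> omega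

/-- the flux through the boundary of a small box -/
theorem Charts.flux (H : Charts U r e C F1 F2) (hr : Tendsto r (U : Filter ℕ) atTop)
    (hex : ∀ᶠ k in (U : Filter ℕ), ∀ f ∈ bx 0 (r k), A w0 (e k) f = 0)
    (h1 : ∀ z ∈ Ob1, ‖z‖ < 1 / 4 → ‖F1 z - g * m1 z‖ ≤ LL C * Real.sqrt ‖z‖)
    (h2 : ∀ z ∈ Ob2, ‖z‖ < 1 / 4 → ‖F2 z - g * m2 z‖ ≤ LL C * Real.sqrt ‖z‖)
    {s : ℝ} (hs0 : 0 < s) (hs : s < 1 / 8) :
    xc ^ 2 * (-g ^ 2).re ≤ 3 * s * (16 * ‖g‖ * DD C + 10 * DD C ^ 2) ∧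
    xc / 2 * |(-g ^ 2).im| ≤ 3 * s * (16 * ‖g‖ * DD C + 10 * DD C ^ 2) := by
  have hD := DD_pos C
  obtain ⟨n, hap, hexn, hr0, hr1⟩ := ((H.approx hr h1 h2 (σ := s / 2) (by positivity) hs0 hs).and
    (hex.and ((hr.eventually_gt_atTop 0).and (hr.eventually_ge_atTop (2 / s))))).exists
  set l : ℕ := ⌊s * r n⌋₊ with hl
  have hl1 : (l : ℝ) ≤ s * r n := Nat.floor_le (by positivity)
  have hl2 : s * r n < l + 1 := Nat.lt_floor_add_one _
  have hsr : 2 ≤ s * r n := by rw [div_le_iff₀ hs0] at hr1; linarith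
  have hl3 : 0 < l := Nat.floor_pos.2 (by linarith)
  have hl4 : (1 : ℝ) ≤ l := by exact_mod_cast hl3
  have hl5 : s / 2 * r n ≤ l := by linarith
  have hQ : ∀ f ∈ Q 0 l, A w0 (e n) f = 0 := by
    intro f hf
    refine hexn f ?_
    rw [mem_Q] at hf
    rw [mem_bx_real]
    have a1 : |(f.1 : ℝ)| ≤ l := by have := hf.1; rw [Prod.fst_zero, sub_zero] at this; exact_mod_cast this
    have a2 : |(f.2 : ℝ)| ≤ l := by have := hf.2; rw [Prod.snd_zero, sub_zero] at this; exact_mod_cast this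
    have a3 : (l : ℝ) ≤ r n := by nlinarith
    simp only [Prod.fst_zero, Prod.snd_zero, Int.cast_zero, sub_zero]
    exact ⟨a1.trans a3, a2.trans a3⟩
  set E := DD C * Real.sqrt s with hE
  set M := ‖g‖ * (Real.sqrt (s / 2))⁻¹ with hM
  have hsq : Real.sqrt s ^ 2 = s := Real.sq_sqrt hs0.le
  have hss : 0 < Real.sqrt s := Real.sqrt_pos.2 hs0
  have hB : 8 * M * E + 10 * E ^ 2 ≤ 16 * ‖g‖ * DD C + 10 * DD C ^ 2 := by
    have e1 : M * E ≤ 2 * ‖g‖ * DD C := by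
      have e2 : Real.sqrt s ≤ 2 * Real.sqrt (s / 2) := by
        have e3 : (2 : ℝ) * Real.sqrt (s / 2) = Real.sqrt (2 ^ 2 * (s / 2)) := by
          rw [Real.sqrt_mul (by norm_num), Real.sqrt_sq (by norm_num)]
        rw [e3]; exact Real.sqrt_le_sqrt (by linarith)
      have e4 : 0 < Real.sqrt (s / 2) := Real.sqrt_pos.2 (by positivity)
      have e5 : (Real.sqrt (s / 2))⁻¹ * Real.sqrt s ≤ 2 := by
        rw [inv_mul_le_iff₀ e4]; linarith
      have e6 : M * E = ‖g‖ * DD C * ((Real.sqrt (s / 2))⁻¹ * Real.sqrt s) := by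
        rw [hM, hE]; ring
      rw [e6]
      have : 0 ≤ ‖g‖ * DD C := by positivity
      nlinarith
    have e7 : E ^ 2 ≤ DD C ^ 2 := by
      rw [hE, mul_pow, hsq]; nlinarith [sq_nonneg (DD C)]
    nlinarith
  set B := 16 * ‖g‖ * DD C + 10 * DD C ^ 2 with hBdef
  have hB0 : 0 ≤ B := by positivity
  have hnu : ∀ h : Fin 4, nu h ≠ 0 := by
    intro h; fin_cases h <;> simp [nu]
  -- one half-edge
  have key : ∀ t ∈ Icc (-(l : ℤ)) l, ∀ h,
      |r n ^ 2 * q1 (e n (sd l h t)) h - r n * xc ^ 2 * ((-g ^ 2) / ⟨(l : ℝ), (t : ℝ)⟩ : ℂ).re| ≤ B ∧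
      |r n ^ 2 * q2 (e n (sd l h t)) h - r n * (xc / 2) * ((-g ^ 2) / ⟨(l : ℝ), (t : ℝ)⟩ : ℂ).im|
        ≤ B := by
    intro t ht h
    have hd := dist0_sd ht h
    obtain ⟨a, c, ha, hc, hcM, hac⟩ := hap (sd l h t) (by rw [hd]; exact hl5) (by rw [hd]; exact hl1)
    have hlt : (⟨(l : ℝ), (t : ℝ)⟩ : ℂ) ≠ 0 := by
      intro h0
      have := congrArg Complex.re h0
      simp only [Complex.zero_re] at this
      linarith
    have hrn : (r n : ℂ) ≠ 0 := by exact_mod_cast hr0.ne'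
    have hz : nu h * c ^ 2 = (r n : ℂ) * ((-g ^ 2) / ⟨(l : ℝ), (t : ℝ)⟩) := by
      rw [hc, pt_sd]
      have := hnu h
      push_cast
      field_simp
    have s1 := q1_stab hac hcM h
    have s2 := q2_stab hac hcM h
    rw [q1_smul, ha, hz, Complex.re_ofReal_mul] at s1
    rw [q2_smul, ha, hz, Complex.im_ofReal_mul] at s2
    refine ⟨le_trans (le_of_eq ?_) (s1.trans hB), le_trans (le_of_eq ?_) (s2.trans hB)⟩
    · congr 1; ring
    · congr 1; ring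
  obtain ⟨c1, c2⟩ := sum_recip (-g ^ 2) l
  have f1 := flux1 hQ
  have f2 := flux2 hQ
  have hS := one_le_SS hl3
  -- summation
  have hcard : ((Icc (-(l : ℤ)) l).card : ℝ) ≤ 3 * s * r n := by
    rw [Int.card_Icc]
    have e1 : ((l : ℤ) + 1 - (-(l : ℤ))).toNat = 2 * l + 1 := by omega
    rw [e1]; push_cast; linarith
  have sumE : ∀ F G : ℤ → Fin 4 → ℝ, (∀ t ∈ Icc (-(l : ℤ)) l, ∀ h, |F t h - G t h| ≤ B) →
      |∑ t ∈ Icc (-(l : ℤ)) l, ∑ h, F t h - ∑ t ∈ Icc (-(l : ℤ)) l, ∑ h, G t h| ≤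
        3 * s * r n * (4 * B) := by
    intro F G hFG
    rw [← sum_sub_distrib]
    refine (abs_sum_le_sum_abs _ _).trans ?_
    have : ∀ t ∈ Icc (-(l : ℤ)) l, |∑ h, F t h - ∑ h, G t h| ≤ 4 * B := by
      intro t ht
      rw [← sum_sub_distrib]
      refine (abs_sum_le_sum_abs _ _).trans ?_
      refine (sum_le_sum fun h _ => hFG t ht h).trans ?_
      simp
    refine (sum_le_sum this).trans ?_
    rw [sum_const, nsmul_eq_mul]
    gcongr
  have t1 := sumE (fun t h => r n ^ 2 * q1 (e n (sd l h t)) h)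
    (fun t h => r n * xc ^ 2 * ((-g ^ 2) / ⟨(l : ℝ), (t : ℝ)⟩ : ℂ).re) fun t ht h => (key t ht h).1
  have t2' := sumE (fun t h => r n ^ 2 * q2 (e n (sd l h t)) h)
    (fun t h => r n * (xc / 2) * ((-g ^ 2) / ⟨(l : ℝ), (t : ℝ)⟩ : ℂ).im)
      fun t ht h => (key t ht h).2
  have u1 : ∑ t ∈ Icc (-(l : ℤ)) l, ∑ _h : Fin 4,
      r n * xc ^ 2 * ((-g ^ 2) / ⟨(l : ℝ), (t : ℝ)⟩ : ℂ).re = r n * xc ^ 2 * 4 * ((-g ^ 2).re * SS l) := by
    rw [← c1, mul_sum]
    refine sum_congr rfl fun t _ => ?_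
    rw [sum_const]; simp; ring
  have u2 : ∑ t ∈ Icc (-(l : ℤ)) l, ∑ _h : Fin 4,
      r n * (xc / 2) * ((-g ^ 2) / ⟨(l : ℝ), (t : ℝ)⟩ : ℂ).im =
        r n * (xc / 2) * 4 * ((-g ^ 2).im * SS l) := by
    rw [← c2, mul_sum]
    refine sum_congr rfl fun t _ => ?_
    rw [sum_const]; simp; ring
  have v1 : ∑ t ∈ Icc (-(l : ℤ)) l, ∑ h, r n ^ 2 * q1 (e n (sd l h t)) h =
      r n ^ 2 * ∑ t ∈ Icc (-(l : ℤ)) l, ∑ h, q1 (e n (sd l h t)) h := by
    simp only [mul_sum]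
  have v2 : ∑ t ∈ Icc (-(l : ℤ)) l, ∑ h, r n ^ 2 * q2 (e n (sd l h t)) h =
      r n ^ 2 * ∑ t ∈ Icc (-(l : ℤ)) l, ∑ h, q2 (e n (sd l h t)) h := by
    simp only [mul_sum]
  rw [u1, v1] at t1
  rw [u2, v2, f2, mul_zero, zero_sub, abs_neg] at t2'
  have hx := xc_pos
  constructor
  · by_cases hneg : (-g ^ 2).re ≤ 0
    · have : xc ^ 2 * (-g ^ 2).re ≤ 0 := mul_nonpos_of_nonneg_of_nonpos (by positivity) hneg
      have : 0 ≤ 3 * s * B := by positivity
      linarith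
    · push Not at hneg
      have w1 := (abs_le.1 t1).1
      have w2 : r n ^ 2 * ∑ t ∈ Icc (-(l : ℤ)) l, ∑ h, q1 (e n (sd l h t)) h ≤ 0 :=
        mul_nonpos_of_nonneg_of_nonpos (by positivity) f1
      have w3 : r n * xc ^ 2 * 4 * ((-g ^ 2).re * SS l) ≤ 3 * s * r n * (4 * B) := by linarith
      have w4 : (-g ^ 2).re * 1 ≤ (-g ^ 2).re * SS l := mul_le_mul_of_nonneg_left hS hneg.le
      have w5 : r n * (4 * (xc ^ 2 * (-g ^ 2).re)) ≤ r n * (4 * (3 * s * B)) := by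
        calc r n * (4 * (xc ^ 2 * (-g ^ 2).re)) = r n * xc ^ 2 * 4 * ((-g ^ 2).re * 1) := by ring
          _ ≤ r n * xc ^ 2 * 4 * ((-g ^ 2).re * SS l) := by gcongr
          _ ≤ 3 * s * r n * (4 * B) := w3
          _ = r n * (4 * (3 * s * B)) := by ring
      have w6 := le_of_mul_le_mul_left w5 hr0
      linarith
  · have x1 : 0 < r n * (xc / 2) * 4 := by positivity
    have x2 : 0 < SS l := by linarith
    rw [abs_mul (r n * (xc / 2) * 4), abs_mul (-g ^ 2).im, abs_of_pos x1, abs_of_pos x2] at t2'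
    have w5 : r n * (4 * (xc / 2 * |(-g ^ 2).im|)) ≤ r n * (4 * (3 * s * B)) := by
      calc r n * (4 * (xc / 2 * |(-g ^ 2).im|)) = r n * (xc / 2) * 4 * (|(-g ^ 2).im| * 1) := by ring
        _ ≤ r n * (xc / 2) * 4 * (|(-g ^ 2).im| * SS l) := by gcongr
        _ ≤ 3 * s * r n * (4 * B) := t2'
        _ = r n * (4 * (3 * s * B)) := by ring
    have w6 := le_of_mul_le_mul_left w5 hr0
    linarith

theorem le_zero_of {x B : ℝ} (h : ∀ s : ℝ, 0 < s → s < 1 / 8 → x ≤ 3 * s * B) : x ≤ 0 := by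
  have h1 : Tendsto (fun s : ℝ => 3 * s * B) (𝓝[>] 0) (𝓝 (3 * 0 * B)) := by
    refine Tendsto.mono_left ?_ nhdsWithin_le_nhds
    exact ((continuous_const.mul continuous_id).mul continuous_const).tendsto 0
  have h2 := ge_of_tendsto (b := x) h1 (by
    have : Set.Iio (1 / 8 : ℝ) ∈ 𝓝[>] (0 : ℝ) := mem_nhdsWithin_of_mem_nhds (Iio_mem_nhds (by norm_num))
    filter_upwards [this, self_mem_nhdsWithin] with s hs1 hs2
    exact h s hs2 hs1)
  simpa using h2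

/-- **`g` is real** -/
theorem Charts.g_real (H : Charts U r e C F1 F2) (hr : Tendsto r (U : Filter ℕ) atTop)
    (hex : ∀ᶠ k in (U : Filter ℕ), ∀ f ∈ bx 0 (r k), A w0 (e k) f = 0)
    (h1 : ∀ z ∈ Ob1, ‖z‖ < 1 / 4 → ‖F1 z - g * m1 z‖ ≤ LL C * Real.sqrt ‖z‖)
    (h2 : ∀ z ∈ Ob2, ‖z‖ < 1 / 4 → ‖F2 z - g * m2 z‖ ≤ LL C * Real.sqrt ‖z‖) : g.im = 0 := by
  have hx := xc_pos
  have a1 : xc ^ 2 * (-g ^ 2).re ≤ 0 := le_zero_of fun s hs0 hs =>
    (H.flux hr hex h1 h2 hs0 hs).1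
  have a2 : xc / 2 * |(-g ^ 2).im| ≤ 0 := le_zero_of fun s hs0 hs =>
    (H.flux hr hex h1 h2 hs0 hs).2
  have b1 : (-g ^ 2).re ≤ 0 := by
    by_contra hc
    push Not at hc
    have : 0 < xc ^ 2 * (-g ^ 2).re := by positivity
    linarith
  have b2 : (-g ^ 2).im = 0 := by
    by_contra hc
    have : 0 < |(-g ^ 2).im| := abs_pos.2 hc
    have : 0 < xc / 2 * |(-g ^ 2).im| := by positivity
    linarith
  have c1 : (-g ^ 2).re = g.im ^ 2 - g.re ^ 2 := by simp [pow_two]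
  have c2 : (-g ^ 2).im = -(2 * g.re * g.im) := by simp [pow_two]; ring
  rw [c1] at b1
  rw [c2] at b2
  by_contra hc
  have hre : g.re = 0 := by
    rcases mul_eq_zero.1 (neg_eq_zero.1 b2) with h | h
    · linarith
    · exact absurd h hc
  rw [hre] at b1
  have : 0 < g.im ^ 2 := by positivity
  linarith

end

end Crest.Agent.R165.Bxx797
end
end

-- ▼ part R165/BxT_936
section

/-!
# EX at a branch vertex: transfer of the continuum estimate to the lattice (row 165; helper936)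

* `transfer`: locally uniform convergence in the two charts `Om1`, `Om2`, no concentration at the
  branch vertex and a pointwise bound `|F - P₀ m|² ≤ b` on the box of size `τ` give
  `NB 0 (τ r) (e - (P₀/√r) u0)² ≤ 36 τ² b + η` eventually
-/

set_option autoImplicit false
set_option linter.unusedSimpArgs false
set_option linter.unusedVariables false

noncomputable section

namespace Crest.Agent.R165.BxTx936

open Finset Filter Topology
open Crest.Agent.R165.Tr1x40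
open Crest.Agent.R165.RIfx891
open Crest.Agent.R165.Lim1x943 (pt LocUnif)
open Crest.Agent.R165.Bxx797

theorem lv_sub (c d : ℂ) (p : ℝ) (h : Fin 4) : lv (c - p * d) h = lv c h - p * lv d h := by
  fin_cases h <;> simp [lv] <;> ring

theorem t2_sq (f : Face) : t2 f ^ 2 = 1 := by
  unfold t2; split_ifs <;> norm_num

/-- the pieces of the annulus -/
def KK1 (δ τ : ℝ) : Set ℂ :=
  {z | |z.re| ≤ τ ∧ |z.im| ≤ τ ∧ δ ≤ max |z.re| |z.im| ∧ z.re ≤ 0}
def KK2 (δ τ : ℝ) : Set ℂ :=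
  {z | |z.re| ≤ τ ∧ |z.im| ≤ τ ∧ δ ≤ max |z.re| |z.im| ∧ 0 ≤ z.re}

theorem isCompact_box (τ : ℝ) : IsCompact {z : ℂ | |z.re| ≤ τ ∧ |z.im| ≤ τ} := by
  rw [Metric.isCompact_iff_isClosed_bounded]
  constructor
  · have h1 : IsClosed {z : ℂ | |z.re| ≤ τ} := isClosed_le (by fun_prop) continuous_const
    have h2 : IsClosed {z : ℂ | |z.im| ≤ τ} := isClosed_le (by fun_prop) continuous_const
    exact h1.inter h2
  · rw [isBounded_iff_forall_norm_le]
    refine ⟨τ + τ, fun z hz => ?_⟩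
    have h1 := Complex.norm_le_abs_re_add_abs_im z
    exact h1.trans (add_le_add hz.1 hz.2)

theorem isCompact_KK1 (δ τ : ℝ) : IsCompact (KK1 δ τ) := by
  refine (isCompact_box τ).of_isClosed_subset ?_ fun z hz => ⟨hz.1, hz.2.1⟩
  have h1 : IsClosed {z : ℂ | |z.re| ≤ τ} := isClosed_le (by fun_prop) continuous_const
  have h2 : IsClosed {z : ℂ | |z.im| ≤ τ} := isClosed_le (by fun_prop) continuous_const
  have h3 : IsClosed {z : ℂ | δ ≤ max |z.re| |z.im|} :=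
    isClosed_le continuous_const (by fun_prop)
  have h4 : IsClosed {z : ℂ | z.re ≤ 0} := isClosed_le (by fun_prop) continuous_const
  exact h1.inter (h2.inter (h3.inter h4))

theorem isCompact_KK2 (δ τ : ℝ) : IsCompact (KK2 δ τ) := by
  refine (isCompact_box τ).of_isClosed_subset ?_ fun z hz => ⟨hz.1, hz.2.1⟩
  have h1 : IsClosed {z : ℂ | |z.re| ≤ τ} := isClosed_le (by fun_prop) continuous_const
  have h2 : IsClosed {z : ℂ | |z.im| ≤ τ} := isClosed_le (by fun_prop) continuous_const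
  have h3 : IsClosed {z : ℂ | δ ≤ max |z.re| |z.im|} :=
    isClosed_le continuous_const (by fun_prop)
  have h4 : IsClosed {z : ℂ | 0 ≤ z.re} := isClosed_le continuous_const (by fun_prop)
  exact h1.inter (h2.inter (h3.inter h4))

theorem ne_zero_of_max {z : ℂ} {δ : ℝ} (hδ : 0 < δ) (h : δ ≤ max |z.re| |z.im|) : z ≠ 0 := by
  rintro rfl
  simp at h
  linarith

theorem KK1_sub {δ τ : ℝ} (hδ : 0 < δ) : KK1 δ τ ⊆ Om1 := by
  intro z hz
  have hz0 := ne_zero_of_max hδ hz.2.2.1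
  show -z ∈ Complex.slitPlane
  rw [Complex.mem_slitPlane_iff]
  rcases eq_or_lt_of_le hz.2.2.2 with h | h
  · right
    intro h2
    apply hz0
    apply Complex.ext
    · exact h
    · simpa using h2
  · left
    simpa using h

theorem KK2_sub {δ τ : ℝ} (hδ : 0 < δ) : KK2 δ τ ⊆ Om2 := by
  intro z hz
  have hz0 := ne_zero_of_max hδ hz.2.2.1
  show z ∈ Complex.slitPlane
  rw [Complex.mem_slitPlane_iff]
  rcases eq_or_lt_of_le hz.2.2.2 with h | h
  · right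
    intro h2
    apply hz0
    apply Complex.ext
    · exact h.symm
    · simpa using h2
  · left
    exact h

theorem card_bx_le {r : ℝ} (hr : 0 ≤ r) (x : Face) : ((bx x r).card : ℝ) ≤ (2 * r + 1) ^ 2 := by
  unfold bx
  rw [card_product, Int.card_Icc, Int.card_Icc]
  have h0 : 0 ≤ ⌊r⌋ := Int.floor_nonneg.2 hr
  have h1 : (x.1 + ⌊r⌋ + 1 - (x.1 - ⌊r⌋)).toNat = (2 * ⌊r⌋ + 1).toNat := by congr 1; ring
  have h2 : (x.2 + ⌊r⌋ + 1 - (x.2 - ⌊r⌋)).toNat = (2 * ⌊r⌋ + 1).toNat := by congr 1; ring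
  rw [h1, h2]
  have h3 : (((2 * ⌊r⌋ + 1).toNat : ℕ) : ℝ) = 2 * (⌊r⌋ : ℝ) + 1 := by
    have : (((2 * ⌊r⌋ + 1).toNat : ℕ) : ℤ) = 2 * ⌊r⌋ + 1 := Int.toNat_of_nonneg (by omega)
    exact_mod_cast congrArg (fun k : ℤ => (k : ℝ)) this
  push_cast
  rw [h3, ← pow_two]
  have h4 := Int.floor_le r
  have h5 : (0:ℝ) ≤ (⌊r⌋ : ℝ) := by exact_mod_cast h0
  apply pow_le_pow_left₀ (by linarith)
  linarith

/-- pointwise comparison at one face: everything multiplied by `σ = ±1` -/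
theorem face_est {R P0 ε b σ : ℝ} (hR : 0 < R) (hσ : σ ^ 2 = 1) {e u : Fin 4 → ℝ} {F m : ℂ}
    (h1 : ∀ h, |R * (σ * e h) - lv F h| ≤ ε) (h2 : ∀ h, |Real.sqrt R * (σ * u h) - lv m h| ≤ ε)
    (hb : ‖F - P0 * m‖ ^ 2 ≤ b) :
    nsq (fun h => e h - P0 / Real.sqrt R * u h) ≤
      (4 * b + 8 * (ε * (1 + |P0|)) ^ 2) / R ^ 2 := by
  have hs : 0 < Real.sqrt R := Real.sqrt_pos.2 hR
  have hss : Real.sqrt R * Real.sqrt R = R := Real.mul_self_sqrt hR.le
  have hε : 0 ≤ ε := (abs_nonneg _).trans (h1 0)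
  have key : ∀ h, (R * (e h - P0 / Real.sqrt R * u h)) ^ 2
      ≤ 2 * lv (F - P0 * m) h ^ 2 + 2 * (ε * (1 + |P0|)) ^ 2 := by
    intro h
    have e1 : σ * (R * (e h - P0 / Real.sqrt R * u h)) = lv (F - P0 * m) h +
        ((R * (σ * e h) - lv F h) - P0 * (Real.sqrt R * (σ * u h) - lv m h)) := by
      rw [lv_sub]
      have : R * (P0 / Real.sqrt R) = P0 * Real.sqrt R := by
        calc R * (P0 / Real.sqrt R) = Real.sqrt R * Real.sqrt R * (P0 / Real.sqrt R) := by rw [hss]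
          _ = P0 * Real.sqrt R := by field_simp
      linear_combination (-σ * u h) * this
    have e2 : (R * (e h - P0 / Real.sqrt R * u h)) ^ 2
        = (σ * (R * (e h - P0 / Real.sqrt R * u h))) ^ 2 := by
      rw [mul_pow σ, hσ, one_mul]
    rw [e2, e1]
    set A := lv (F - P0 * m) h
    set B := (R * (σ * e h) - lv F h) - P0 * (Real.sqrt R * (σ * u h) - lv m h) with hB
    have hBle : |B| ≤ ε * (1 + |P0|) := by
      calc |B| ≤ |R * (σ * e h) - lv F h| + |P0 * (Real.sqrt R * (σ * u h) - lv m h)| :=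
            abs_sub _ _
        _ ≤ ε + |P0| * ε := by
            rw [abs_mul]
            exact add_le_add (h1 h) (mul_le_mul_of_nonneg_left (h2 h) (abs_nonneg _))
        _ = ε * (1 + |P0|) := by ring
    have hB2 : B ^ 2 ≤ (ε * (1 + |P0|)) ^ 2 := by
      rw [← sq_abs]
      exact pow_le_pow_left₀ (abs_nonneg _) hBle 2
    nlinarith [sq_nonneg (A - B)]
  rw [le_div_iff₀ (by positivity)]
  have h3 : nsq (fun h => e h - P0 / Real.sqrt R * u h) * R ^ 2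
      = ∑ h, (R * (e h - P0 / Real.sqrt R * u h)) ^ 2 := by
    unfold nsq
    rw [sum_mul]
    exact sum_congr rfl fun h _ => by ring
  rw [h3]
  refine (sum_le_sum fun h _ => key h).trans ?_
  rw [sum_add_distrib, ← mul_sum]
  have h4 : ∑ h, lv (F - P0 * m) h ^ 2 = 2 * ‖F - P0 * m‖ ^ 2 := by
    have := nsq_lv (F - P0 * m)
    rw [Complex.normSq_eq_norm_sq] at this
    exact this
  rw [h4]
  simp only [sum_const, card_univ, Fintype.card_fin, nsmul_eq_mul]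
  push_cast
  linarith

/-- splitting a sum over a box into an inner box and the rest -/
theorem NB_split {r t : ℝ} {φ : Fld} {c : ℝ} (hc : 0 ≤ c) (hr : 0 ≤ r)
    (h : ∀ f ∈ bx 0 r, f ∉ bx 0 t → nsq (φ f) ≤ c) :
    NB 0 r φ ^ 2 ≤ NB 0 t φ ^ 2 + (2 * r + 1) ^ 2 * c := by
  rw [NB_sq, NB_sq]
  calc ∑ f ∈ bx 0 r, nsq (φ f)
      ≤ ∑ f ∈ bx 0 r, ((if f ∈ bx 0 t then nsq (φ f) else 0) + c) := by
        refine sum_le_sum fun f hf => ?_
        split_ifs with h1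
        · linarith
        · rw [zero_add]; exact h f hf h1
    _ = ∑ f ∈ (bx 0 r).filter (· ∈ bx 0 t), nsq (φ f) + (bx 0 r).card * c := by
        rw [sum_add_distrib, sum_filter, sum_const, nsmul_eq_mul]
    _ ≤ ∑ f ∈ bx 0 t, nsq (φ f) + (2 * r + 1) ^ 2 * c := by
        refine add_le_add ?_ (mul_le_mul_of_nonneg_right (card_bx_le hr 0) hc)
        refine sum_le_sum_of_subset_of_nonneg ?_ fun f _ _ => nsq_nonneg _
        intro f hf
        exact (mem_filter.1 hf).2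

theorem arith1 {τ R b ε p η E : ℝ} (hR : 0 < R) (hτ : 0 < τ) (hτR : 1 ≤ τ * R) (hb : 0 ≤ b)
    (hη : 0 < η) (hE : E = 144 * τ ^ 2 * p ^ 2 + 1) (hε : ε ^ 2 = η / E) :
    (2 * (τ * R) + 1) ^ 2 * ((4 * b + 8 * (ε * p) ^ 2) / R ^ 2) ≤ 36 * τ ^ 2 * b + η / 2 := by
  have hE0 : 0 < E := by rw [hE]; positivity
  have d1 : (2 * (τ * R) + 1) ^ 2 ≤ 9 * τ ^ 2 * R ^ 2 := by
    have : (2 * (τ * R) + 1) ^ 2 ≤ (3 * (τ * R)) ^ 2 :=
      pow_le_pow_left₀ (by positivity) (by linarith) 2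
    calc _ ≤ _ := this
      _ = _ := by ring
  have hc0 : 0 ≤ (4 * b + 8 * (ε * p) ^ 2) / R ^ 2 := by positivity
  have d2 : 9 * τ ^ 2 * R ^ 2 * ((4 * b + 8 * (ε * p) ^ 2) / R ^ 2)
      = 36 * τ ^ 2 * b + 72 * τ ^ 2 * p ^ 2 * ε ^ 2 := by
    have : R ^ 2 ≠ 0 := by positivity
    field_simp
    ring
  have d3 : 72 * τ ^ 2 * p ^ 2 * (η / E) ≤ η / 2 := by
    rw [← mul_div_assoc, div_le_div_iff₀ hE0 two_pos, hE]
    nlinarith [mul_pos hη (by positivity : 0 < τ ^ 2), sq_nonneg (τ * p)]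
  calc _ ≤ 9 * τ ^ 2 * R ^ 2 * ((4 * b + 8 * (ε * p) ^ 2) / R ^ 2) :=
        mul_le_mul_of_nonneg_right d1 hc0
    _ = 36 * τ ^ 2 * b + 72 * τ ^ 2 * p ^ 2 * ε ^ 2 := d2
    _ ≤ 36 * τ ^ 2 * b + η / 2 := by rw [hε]; linarith

theorem arith2 {K K' P δ η x y z : ℝ} (hx : 0 ≤ x) (hy : 0 ≤ y) (hz : 0 ≤ z)
    (h0 : x ≤ y + z) (h1 : y ^ 2 ≤ K * δ) (h2 : z ^ 2 ≤ P * K' * δ) (hδ : 0 ≤ δ)
    (h3 : δ * (4 * (K + P * K' + 1)) ≤ η) : x ^ 2 ≤ η / 2 := by
  have b8 : x ^ 2 ≤ 2 * y ^ 2 + 2 * z ^ 2 := by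
    have : x ^ 2 ≤ (y + z) ^ 2 := pow_le_pow_left₀ hx h0 2
    nlinarith [sq_nonneg (y - z)]
  nlinarith

/-- **transfer** of the continuum estimate -/
theorem transfer {ι : Type} {U : Filter ι} {r : ι → ℝ} (hr : Tendsto r U atTop) {e : ι → Fld}
    {Ω1 Ω2 : Set ℂ} {F1 F2 : ℂ → ℂ} {τ K K' b P0 : ℝ} (hτ : 0 < τ) (hb : 0 ≤ b)
    (hΩ1 : ∀ z ∈ Om1, |z.re| ≤ τ → |z.im| ≤ τ → z ∈ Ω1)
    (hΩ2 : ∀ z ∈ Om2, |z.re| ≤ τ → |z.im| ≤ τ → z ∈ Ω2)
    (L1 : ∀ h, LocUnif U r Ω1 (fun n f => r n * e n f h) (fun z => lv (F1 z) h))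
    (L2 : ∀ h, LocUnif U r Ω2 (fun n f => r n * (t2 f * e n f h)) (fun z => lv (F2 z) h))
    (M : ModeLim K') (hK : 0 ≤ K) (hK' : 0 ≤ K')
    (NC : ∀ᶠ n in U, ∀ t, 1 ≤ t → 2 * t ≤ r n → NB 0 t (e n) ^ 2 ≤ K * (t / r n))
    (B1 : ∀ z ∈ Om1, |z.re| ≤ τ → |z.im| ≤ τ → ‖F1 z - P0 * m1 z‖ ^ 2 ≤ b)
    (B2 : ∀ z ∈ Om2, |z.re| ≤ τ → |z.im| ≤ τ → ‖F2 z - P0 * m2 z‖ ^ 2 ≤ b)
    {η : ℝ} (hη : 0 < η) :
    ∀ᶠ n in U, NB 0 (τ * r n) (e n - (P0 / Real.sqrt (r n)) • u0) ^ 2 ≤ 36 * τ ^ 2 * b + η := by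
  -- choice of `δ` and `ε`
  set D := 4 * (K + P0 ^ 2 * K' + 1) with hD
  have hD0 : 0 < D := by positivity
  set δ := min (1 / 2) (min τ (η / D)) with hδdef
  have hδ : 0 < δ := by
    apply lt_min (by norm_num) (lt_min hτ (by positivity))
  have hδ2 : δ ≤ 1 / 2 := min_le_left _ _
  have hδη : δ * D ≤ η := by
    have : δ ≤ η / D := (min_le_right _ _).trans (min_le_right _ _)
    rwa [le_div_iff₀ hD0] at this
  set E := 144 * τ ^ 2 * (1 + |P0|) ^ 2 + 1 with hE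
  have hE0 : 0 < E := by positivity
  set ε := Real.sqrt (η / E) with hε
  have hε0 : 0 < ε := Real.sqrt_pos.2 (by positivity)
  have hεsq : ε ^ 2 = η / E := Real.sq_sqrt (by positivity)
  have k1 := isCompact_KK1 δ τ
  have k2 := isCompact_KK2 δ τ
  have s1 := KK1_sub (τ := τ) hδ
  have s2 := KK2_sub (τ := τ) hδ
  have c1 : KK1 δ τ ⊆ Ω1 := fun z hz => hΩ1 z (s1 hz) hz.1 hz.2.1
  have c2 : KK2 δ τ ⊆ Ω2 := fun z hz => hΩ2 z (s2 hz) hz.1 hz.2.1
  have ev1 : ∀ᶠ n in U, ∀ h, ∀ f, pt (r n) f ∈ KK1 δ τ →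
      |r n * e n f h - lv (F1 (pt (r n) f)) h| ≤ ε :=
    eventually_all.2 fun h => L1 h _ k1 c1 ε hε0
  have ev2 : ∀ᶠ n in U, ∀ h, ∀ f, pt (r n) f ∈ KK2 δ τ →
      |r n * (t2 f * e n f h) - lv (F2 (pt (r n) f)) h| ≤ ε :=
    eventually_all.2 fun h => L2 h _ k2 c2 ε hε0
  have ev3 : ∀ᶠ n in U, ∀ h, ∀ f, pt (r n) f ∈ KK1 δ τ →
      |Real.sqrt (r n) * u0 f h - lv (m1 (pt (r n) f)) h| ≤ ε :=
    eventually_all.2 fun h => M.lim1 U r hr h _ k1 s1 ε hε0
  have ev4 : ∀ᶠ n in U, ∀ h, ∀ f, pt (r n) f ∈ KK2 δ τ →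
      |Real.sqrt (r n) * (t2 f * u0 f h) - lv (m2 (pt (r n) f)) h| ≤ ε :=
    eventually_all.2 fun h => M.lim2 U r hr h _ k2 s2 ε hε0
  filter_upwards [ev1, ev2, ev3, ev4, NC, hr.eventually_ge_atTop (1 / δ),
    hr.eventually_ge_atTop (1 / τ), hr.eventually_gt_atTop 0] with n h1 h2 h3 h4 hnc hr1 hr2 hr0
  set R := r n with hRdef
  have hδR : 1 ≤ δ * R := by rw [div_le_iff₀ hδ] at hr1; linarith
  have hτR : 1 ≤ τ * R := by rw [div_le_iff₀ hτ] at hr2; linarith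
  set c := (4 * b + 8 * (ε * (1 + |P0|)) ^ 2) / R ^ 2 with hc
  have hc0 : 0 ≤ c := by positivity
  set φ : Fld := e n - (P0 / Real.sqrt R) • u0 with hφ
  have hφf : ∀ f, φ f = fun h => e n f h - P0 / Real.sqrt R * u0 f h := fun f => rfl
  have hout : ∀ f ∈ bx 0 (τ * R), f ∉ bx 0 (δ * R) → nsq (φ f) ≤ c := by
    intro f hf hfδ
    rw [mem_bx_real] at hf hfδ
    simp only [Prod.fst_zero, Prod.snd_zero, Int.cast_zero, sub_zero] at hf hfδ
    have a1 : |(pt R f).re| ≤ τ := by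
      rw [Lim1x943.pt_re, abs_div, abs_of_pos hr0, div_le_iff₀ hr0]; exact hf.1
    have a2 : |(pt R f).im| ≤ τ := by
      rw [Lim1x943.pt_im, abs_div, abs_of_pos hr0, div_le_iff₀ hr0]; exact hf.2
    have a3 : δ ≤ max |(pt R f).re| |(pt R f).im| := by
      by_contra hcon
      push Not at hcon
      have b1 := (le_max_left _ _).trans_lt hcon
      have b2 := (le_max_right _ _).trans_lt hcon
      apply hfδ
      rw [Lim1x943.pt_re, abs_div, abs_of_pos hr0, div_lt_iff₀ hr0] at b1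
      rw [Lim1x943.pt_im, abs_div, abs_of_pos hr0, div_lt_iff₀ hr0] at b2
      exact ⟨b1.le, b2.le⟩
    rw [hφf]
    rcases le_total (pt R f).re 0 with hz | hz
    · have hz1 : pt R f ∈ KK1 δ τ := ⟨a1, a2, a3, hz⟩
      refine face_est (σ := 1) hr0 (by norm_num) (fun h => ?_) (fun h => ?_)
        (B1 _ (s1 hz1) a1 a2)
      · rw [one_mul]; exact h1 h f hz1
      · rw [one_mul]; exact h3 h f hz1
    · have hz1 : pt R f ∈ KK2 δ τ := ⟨a1, a2, a3, hz⟩
      exact face_est (σ := t2 f) hr0 (t2_sq f) (fun h => h2 h f hz1) (fun h => h4 h f hz1)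
        (B2 _ (s2 hz1) a1 a2)
  have hsplit := NB_split hc0 (by linarith : 0 ≤ τ * R) hout
  -- the inner ball
  have hin : NB 0 (δ * R) φ ^ 2 ≤ η / 2 := by
    have b0 : NB 0 (δ * R) φ ≤ NB 0 (δ * R) (e n) + NB 0 (δ * R) ((P0 / Real.sqrt R) • u0) :=
      map_sub_le_add _ _ _
    have b1 := hnc (δ * R) hδR (by nlinarith)
    have b2 := M.mass (δ * R) hδR
    have b3 : NB 0 (δ * R) ((P0 / Real.sqrt R) • u0) ^ 2 ≤ P0 ^ 2 * K' * δ := by
      rw [map_smul_eq_mul, mul_pow, Real.norm_eq_abs, sq_abs, div_pow, Real.sq_sqrt hr0.le]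
      calc P0 ^ 2 / R * NB 0 (δ * R) u0 ^ 2 ≤ P0 ^ 2 / R * (K' * (δ * R)) :=
            mul_le_mul_of_nonneg_left b2 (by positivity)
        _ = P0 ^ 2 * K' * δ := by field_simp
    have b4 : K * (δ * R / R) = K * δ := by rw [mul_div_assoc, div_self hr0.ne', mul_one]
    rw [b4] at b1
    exact arith2 (apply_nonneg _ _) (apply_nonneg _ _) (apply_nonneg _ _) b0 b1 b3 hδ.le hδη
  -- the annulus
  have hann : (2 * (τ * R) + 1) ^ 2 * c ≤ 36 * τ ^ 2 * b + η / 2 :=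
    arith1 hr0 hτ hτR hb hη hE hεsq
  linarith

/-- the second conjunct of `EXbrSeq` from `transfer`: `b = B τ`, `τ = q ^ (2 m)` -/
theorem one_mode {ι : Type} {U : Filter ι} {r : ι → ℝ} (hr : Tendsto r U atTop) {e : ι → Fld}
    {Ω1 Ω2 : Set ℂ} {F1 F2 : ℂ → ℂ} {K K' B P0 : ℝ} {m : ℕ} (hB : 0 ≤ B)
    (hΩ1 : ∀ z ∈ Om1, |z.re| ≤ Campx891.q ^ (2 * m) → |z.im| ≤ Campx891.q ^ (2 * m) → z ∈ Ω1)
    (hΩ2 : ∀ z ∈ Om2, |z.re| ≤ Campx891.q ^ (2 * m) → |z.im| ≤ Campx891.q ^ (2 * m) → z ∈ Ω2)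
    (L1 : ∀ h, LocUnif U r Ω1 (fun n f => r n * e n f h) (fun z => lv (F1 z) h))
    (L2 : ∀ h, LocUnif U r Ω2 (fun n f => r n * (t2 f * e n f h)) (fun z => lv (F2 z) h))
    (M : ModeLim K') (hK : 0 ≤ K) (hK' : 0 ≤ K')
    (NC : ∀ᶠ n in U, ∀ t, 1 ≤ t → 2 * t ≤ r n → NB 0 t (e n) ^ 2 ≤ K * (t / r n))
    (B1 : ∀ z ∈ Om1, |z.re| ≤ Campx891.q ^ (2 * m) → |z.im| ≤ Campx891.q ^ (2 * m) →
      ‖F1 z - P0 * m1 z‖ ^ 2 ≤ B * Campx891.q ^ (2 * m))
    (B2 : ∀ z ∈ Om2, |z.re| ≤ Campx891.q ^ (2 * m) → |z.im| ≤ Campx891.q ^ (2 * m) →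
      ‖F2 z - P0 * m2 z‖ ^ 2 ≤ B * Campx891.q ^ (2 * m))
    {η : ℝ} (hη : 0 < η) :
    ∀ᶠ n in U, ∃ κ : ℝ, NB 0 (r n * Campx891.q ^ (2 * m)) (e n - κ • u0) ≤
      6 * Real.sqrt B * Campx891.q ^ (3 * m) + η := by
  have hq := Campx891.q_pos
  have h1 := transfer hr (τ := Campx891.q ^ (2 * m)) (b := B * Campx891.q ^ (2 * m))
    (by positivity) (by positivity) hΩ1 hΩ2 L1 L2 M hK hK' NC B1 B2 (η := η ^ 2) (by positivity)
  filter_upwards [h1] with n hn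
  refine ⟨P0 / Real.sqrt (r n), ?_⟩
  rw [mul_comm (r n)]
  have e1 : 36 * (Campx891.q ^ (2 * m)) ^ 2 * (B * Campx891.q ^ (2 * m))
      = (6 * Real.sqrt B * Campx891.q ^ (3 * m)) ^ 2 := by
    have hs := Real.sq_sqrt hB
    have e2 : (Campx891.q ^ (2 * m)) ^ 2 * Campx891.q ^ (2 * m) = (Campx891.q ^ (3 * m)) ^ 2 := by
      rw [← pow_mul, ← pow_mul, ← pow_add]; congr 1; ring
    rw [mul_pow, mul_pow, hs, ← e2]; ring
  rw [e1] at hn
  refine le_of_sq_le_sq (hn.trans ?_) (by positivity)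
  have a1 : 0 ≤ 6 * Real.sqrt B * Campx891.q ^ (3 * m) := by positivity
  nlinarith

end Crest.Agent.R165.BxTx936
end
end

-- ▼ part R165/EXbr0_936

/-!
# EX at a branch vertex, part 0 (row 165, block R; helper936, with 797)

* translation and gauge covariance: `red` brings a `BranchOn` background to the standard one
  (`Br0`: vertex at the origin, no gauge, solution of norm one)
* `ex1_ball`: growth of exact solutions on balls for every plus background, from the square trick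
* `exbr_of_seq`: `EXbr C` follows from the square trick and a statement about normalised sequences
  along an ultrafilter (`SqBr`)
-/

set_option autoImplicit false
set_option linter.unusedSimpArgs false
set_option linter.unusedVariables false

noncomputable section

namespace Crest.Agent.R165.EXbr0x936

open Finset Filter Topology Crest.Agent.R165.Tr1x40 Crest.Agent.R165.Intx811
  Crest.Agent.R165.NcCutx811 Crest.Agent.R165.RIfx891 Crest.Agent.R165.Campx891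

open Crest.Agent.R165.PotAx894 (Q mem_Q)

/-! ### translation -/

/-- translation of a field -/
def tr (v : Face) : Fld →ₗ[ℝ] Fld where
  toFun φ f h := φ (f + v) h
  map_add' φ ψ := rfl
  map_smul' c φ := rfl

@[simp] theorem tr_apply (v : Face) (φ : Fld) (f : Face) : tr v φ f = φ (f + v) := rfl

theorem nb_add (f v : Face) (h : Fin 4) : nb (f + v) h = nb f h + v := by
  fin_cases h <;> simp [nb, Prod.ext_iff] <;> ring

theorem A_tr (v : Face) (w φ : Fld) (f : Face) : A (tr v w) (tr v φ) f = A w φ (f + v) := by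
  funext h
  simp only [A, Y, tr_apply, nb_add]

theorem sym_tr (v : Face) {w : Fld} (hw : Sym w) : Sym (tr v w) := by
  intro f h
  have := hw (f + v) h
  simp only [tr_apply]
  rwa [← nb_add]

theorem mem_bx_add {f v : Face} {r : ℝ} : f + v ∈ bx v r ↔ f ∈ bx 0 r := by
  rw [mem_bx, mem_bx]
  simp

theorem mem_bx_zero_sub {f v : Face} {r : ℝ} : f ∈ bx v r ↔ f - v ∈ bx 0 r := by
  rw [← mem_bx_add (v := v), sub_add_cancel]

theorem NB_tr (v : Face) (r : ℝ) (φ : Fld) : NB 0 r (tr v φ) = NB v r φ := by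
  have h : NB 0 r (tr v φ) ^ 2 = NB v r φ ^ 2 := by
    rw [NB_sq, NB_sq]
    refine sum_bij' (fun f _ => f + v) (fun f _ => f - v) (fun f hf => mem_bx_add.2 hf)
      (fun f hf => mem_bx_zero_sub.1 hf) (fun f _ => add_sub_cancel_right _ _)
      (fun f _ => sub_add_cancel _ _) (fun f _ => rfl)
  exact (pow_left_inj₀ (apply_nonneg _ _) (apply_nonneg _ _) two_ne_zero).1 h

theorem rayw_add (v f : Face) (h : Fin 4) : rayw v (f + v) h = rayw 0 f h := by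
  unfold rayw
  simp only [Prod.fst_add, Prod.snd_add, Prod.fst_zero, Prod.snd_zero]
  have e1 : (f.2 + v.2 = v.2) ↔ f.2 = 0 := by constructor <;> intro h <;> omega
  have e2 : (v.1 ≤ f.1 + v.1) ↔ 0 ≤ f.1 := by constructor <;> intro h <;> omega
  have e3 : (f.2 + v.2 + 1 = v.2) ↔ f.2 + 1 = 0 := by constructor <;> intro h <;> omega
  simp only [e1, e2, e3]

theorem zf_add (v f : Face) : zf v (f + v) = zf 0 f := by
  unfold zf
  apply Complex.ext <;> simp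

/-! ### the standard branch mode -/

/-- the branch mode at the origin, without gauge -/
def mode0 : Fld := modeBr (fun _ => 1) 0

theorem mode0_apply (f : Face) (h : Fin 4) :
    mode0 f h = lv ((-zf 0 f) ^ (-(1 / 2) : ℂ)) h := by
  unfold mode0 modeBr
  rw [one_mul]

/-! ### reduction to the standard situation -/

/-- the standard situation: branch vertex at the origin, no gauge, exact solution of norm one -/
structure Br0 (w φ : Fld) (r : ℝ) : Prop where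
  sym : Sym w
  eq : ∀ f ∈ bx 0 r, ∀ h, w f h = rayw 0 f h * xc
  exact : ∀ f ∈ bx 0 r, A w φ f = 0
  norm : NB 0 r φ = 1

theorem Br0.plus {w φ : Fld} {r : ℝ} (H : Br0 w φ r) : IsPlusOn w 0 r := fun f hf h =>
  Or.inl (by rw [H.eq f hf h, mul_pow, rayw_sq, one_mul])

theorem red {w : Fld} {s : Face → ℝ} {v : Face} {r : ℝ} (H : BranchOn w s v r) {e : Fld}
    (he : ∀ f ∈ bx v r, A w e f = 0) (hN : 0 < NB v r e) :
    ∃ w' φ : Fld, Br0 w' φ r ∧ ∀ t κ : ℝ,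
      NB v t (e - κ • modeBr s v) = NB v r e * NB 0 t (φ - (κ / NB v r e) • mode0) := by
  set S : Face → ℝ := fun f => s (f + v) with hS
  have hSg : Gauge S := fun f => H.gauge (f + v)
  set W : Fld := fun f h => S f * S (nb f h) * tr v w f h with hW
  set N := NB v r e with hNdef
  have hmode : gm S (tr v (modeBr s v)) = mode0 := by
    funext f h
    rw [gm_apply, tr_apply, mode0_apply]
    unfold modeBr
    rw [zf_add, ← mul_assoc]
    have := H.gauge (f + v)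
    simp only [hS]
    rw [← pow_two, this, one_mul]
  have hAgm : ∀ φ f, A W (gm S φ) f = fun h => S f * A (tr v w) φ f h := fun φ f =>
    A_gm hSg (fun h => rfl) φ
  refine ⟨W, N⁻¹ • gm S (tr v e), ⟨?_, ?_, ?_, ?_⟩, ?_⟩
  · -- symmetry
    intro f h
    have h1 := sym_tr v H.sym f h
    simp only [hW, nb_nb_op]
    rw [h1]; ring
  · intro f hf h
    have h1 := H.eq (f + v) (mem_bx_add.2 hf) h
    simp only [hW, tr_apply]
    rw [h1, nb_add, rayw_add]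
    have a1 := H.gauge (f + v)
    have a2 := H.gauge (nb f h + v)
    simp only [hS]
    calc s (f + v) * s (nb f h + v) * (s (f + v) * s (nb f h + v) * rayw 0 f h * xc)
        = s (f + v) ^ 2 * s (nb f h + v) ^ 2 * (rayw 0 f h * xc) := by ring
      _ = rayw 0 f h * xc := by rw [a1, a2]; ring
  · intro f hf
    have h1 : A W (N⁻¹ • gm S (tr v e)) f = N⁻¹ • A W (gm S (tr v e)) f :=
      congrFun ((AL W).map_smul N⁻¹ (gm S (tr v e))) f
    rw [h1, hAgm]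
    funext h
    simp only [Pi.smul_apply, smul_eq_mul, Pi.zero_apply]
    rw [A_tr, he (f + v) (mem_bx_add.2 hf)]
    simp
  · rw [map_smul_eq_mul, NB_gm hSg, NB_tr, Real.norm_eq_abs, abs_of_pos (inv_pos.2 hN),
      ← hNdef, inv_mul_cancel₀ hN.ne']
  · intro t κ
    have e1 : N⁻¹ • gm S (tr v e) - (κ / N) • mode0
        = N⁻¹ • gm S (tr v (e - κ • modeBr s v)) := by
      rw [map_sub, map_sub, map_smul, map_smul, hmode, smul_sub, smul_smul, div_eq_inv_mul]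
    rw [e1, map_smul_eq_mul, NB_gm hSg, NB_tr, Real.norm_eq_abs, abs_of_pos (inv_pos.2 hN),
      ← mul_assoc, mul_inv_cancel₀ hN.ne', one_mul]

/-! ### balls -/

theorem kap_ball (x : Face) {t : ℝ} (ht : 0 ≤ t) : kap (bx x t) (8 * (1 + t)) := by
  intro v
  refine SqKx470.kap_box (c := x) ht ?_ v
  intro f hf
  exact mem_bx_real.1 hf

theorem bx_eq_Q (x : Face) {r : ℝ} (hr : 0 ≤ r) : bx x r = Q x ⌊r⌋₊ := by
  ext f
  rw [mem_bx, mem_Q]
  have : ((⌊r⌋₊ : ℕ) : ℤ) = ⌊r⌋ := Int.natCast_floor_eq_floor hr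
  rw [this]

/-- growth of exact solutions on balls for every plus background: `|e|²_t ≤ C (t/r) |e|²_r` -/
theorem ball_sq {C : ℝ} (hC : 0 ≤ C) (hSQ : SQ C) {w e : Fld} (hw : Sym w) {x : Face} {r t : ℝ}
    (ht : 1 ≤ t) (htr : 2 * t ≤ r) (hr : 4 ≤ r) (hp : IsPlusOn w x r)
    (he : ∀ f ∈ bx x r, A w e f = 0) :
    NB x t e ^ 2 ≤ 136 * C * (t / r) * NB x r e ^ 2 := by
  have hr0 : 0 < r := by linarith
  have ht0 : 0 ≤ t := by linarith
  have hbR := bx_eq_Q x hr0.le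
  have hbt := bx_eq_Q x ht0
  set R := ⌊r⌋₊ with hR
  set n := ⌊t⌋₊ with hn
  have hR1 : r < R + 1 := Nat.lt_floor_add_one r
  have hn1 : (n : ℝ) ≤ t := Nat.floor_le ht0
  have hnR : (n : ℝ) + r / 4 ≤ R := by linarith
  have hnR' : n < R := by
    have : (n : ℝ) < R := by linarith
    exact_mod_cast this
  have hk : ((R - n : ℕ) : ℝ) = R - n := by
    rw [Nat.cast_sub hnR'.le]
  have key := nc_cut hC hSQ hw (c := x) (n := n) (k := R - n) (R := R) (by omega) (by omega)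
    (fun f hf h => hp f (hbR ▸ hf) h) (fun f hf h => by rw [he f (hbR ▸ hf)]; rfl)
    (E := bx x t) (by rw [hbt]) (kap_ball x ht0)
  rw [NB_sq]
  refine key.trans ?_
  have hm : mass e x R = NB x r e ^ 2 := by rw [NB_sq, hbR]; rfl
  rw [hm]
  have hm0 : 0 ≤ NB x r e ^ 2 := sq_nonneg _
  refine mul_le_mul_of_nonneg_right ?_ hm0
  have hk4 : r / 4 ≤ ((R - n : ℕ) : ℝ) := by rw [hk]; linarith
  have hk0 : 0 < r / 4 := by positivity
  calc 2 * C * (1 + 8 * (1 + t)) / ((R - n : ℕ) : ℝ) ≤ 2 * C * (17 * t) / (r / 4) := by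
        have : 0 ≤ 2 * C * (1 + 8 * (1 + t)) := by positivity
        have h2 : 2 * C * (1 + 8 * (1 + t)) ≤ 2 * C * (17 * t) := by
          apply mul_le_mul_of_nonneg_left _ (by positivity)
          linarith
        exact div_le_div₀ (by positivity) h2 hk0 hk4
    _ = 136 * C * (t / r) := by field_simp; ring

theorem q_sq : q ^ 2 = 1 / 2 := by
  unfold q
  exact Real.sq_sqrt (by norm_num)

/-- the constant of `ex1_ball` -/
def K1 (C : ℝ) : ℝ := max 1 (Real.sqrt (136 * C))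


/-! ### sequences -/

/-- normalised sequence of exact solutions around a branch vertex -/
structure SqBr (U : Ultrafilter ℕ) where
  r : ℕ → ℝ
  w : ℕ → Fld
  φ : ℕ → Fld
  hr : Tendsto r U atTop
  br : ∀ k, Br0 (w k) (φ k) (r k)

/-- what has to be proved for sequences: for every normalised sequence, eventually one multiple of
the mode is close on the small box -/
def SeqBr (C : ℝ) : Prop :=
  ∀ (U : Ultrafilter ℕ) (S : SqBr U) (m : ℕ) (η : ℝ), 0 < η →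
    ∃ᶠ k in (U : Filter ℕ), ∃ κ : ℝ,
      NB 0 (S.r k * q ^ (2 * m)) (S.φ k - κ • mode0) ≤ C * q ^ (3 * m) + η

/-- the one-mode statement for the branch class, from sequences -/
theorem ex2_of_seq {C : ℝ} (hC : 0 ≤ C) (h : SeqBr C) (m : ℕ) (η : ℝ) (hη : 0 < η) :
    ∃ r0 : ℝ, ∀ (w : Fld) (s : Face → ℝ) (v : Face) (r : ℝ), r0 ≤ r → BranchOn w s v r →
      Ex2On w v r (r * q ^ (2 * m)) (modeBr s v) (C * q ^ (3 * m) + η) := by
  by_contra hcon
  push Not at hcon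
  choose w s v r hr hB hEx using fun k : ℕ => hcon k
  have hEx' : ∀ k, ∃ e : Fld, (∀ f ∈ bx (v k) (r k), A (w k) e f = 0) ∧
      ∀ κ : ℝ, (C * q ^ (3 * m) + η) * NB (v k) (r k) e
        < NB (v k) (r k * q ^ (2 * m)) (e - κ • modeBr (s k) (v k)) := by
    intro k
    have := hEx k
    unfold Ex2On at this
    push Not at this
    obtain ⟨e, he, h2⟩ := this
    exact ⟨e, he, h2⟩
  choose e he hlt using hEx'
  have hq := q_pos
  have hc0 : 0 < C * q ^ (3 * m) + η := by positivity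
  have hN : ∀ k, 0 < NB (v k) (r k) (e k) := by
    intro k
    rcases eq_or_lt_of_le (apply_nonneg (NB (v k) (r k)) (e k)) with h0 | h0
    · exfalso
      have h1 := hlt k 0
      rw [zero_smul, sub_zero] at h1
      have hrk : 0 ≤ r k := (Nat.cast_nonneg k).trans (hr k)
      have h2 : NB (v k) (r k * q ^ (2 * m)) (e k) ≤ NB (v k) (r k) (e k) :=
        NB_mono (v k) (mul_le_of_le_one_right hrk (pow_le_one₀ hq.le q_le_one)) (e k)
      rw [← h0] at h1 h2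
      linarith
    · exact h0
  choose W Φ hbr hid using fun k => red (hB k) (he k) (hN k)
  have hcof : ((hyperfilter ℕ : Ultrafilter ℕ) : Filter ℕ) ≤ atTop := Nat.hyperfilter_le_atTop
  have hrt : Tendsto r (hyperfilter ℕ : Ultrafilter ℕ) atTop :=
    (tendsto_atTop_mono hr tendsto_natCast_atTop_atTop).mono_left hcof
  have := h (hyperfilter ℕ) ⟨r, W, Φ, hrt, hbr⟩ m η hη
  obtain ⟨k, κ, hk⟩ := this.exists
  have h1 := hlt k (κ * NB (v k) (r k) (e k))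
  rw [hid k, mul_div_assoc, div_self (hN k).ne', mul_one, mul_comm] at h1
  have h2 := lt_of_mul_lt_mul_left h1 (hN k).le
  exact absurd hk (not_le.2 h2)


/-! ### the sequence form of 797 -/

theorem A_congr_w {w w' φ : Fld} {f : Face} (h : ∀ a, w f a = w' f a) : A w φ f = A w' φ f := by
  funext a
  simp only [A, Y, h a]


theorem br0_exact {w φ : Fld} {r : ℝ} (H : Br0 w φ r) : ∀ f ∈ bx 0 r, A Bxx797.w0 φ f = 0 := by
  intro f hf
  rw [← H.exact f hf]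
  exact A_congr_w fun a => (H.eq f hf a).symm

/-- **reduction of `EXbr` to sequences** (target of helper797) -/
theorem EXbr_of_seq {C : ℝ} (hC : 0 ≤ C) (H : Bxx797.EXbrSeq C) : EXbr C := by
  have hq := q_pos
  have hcof : ((hyperfilter ℕ : Ultrafilter ℕ) : Filter ℕ) ≤ atTop := Nat.hyperfilter_le_atTop
  intro m η hη
  -- first conjunct
  have P1 : ∃ r0 : ℝ, ∀ (w : Fld) (s : Face → ℝ) (v : Face) (r : ℝ), r0 ≤ r → BranchOn w s v r →
      Ex1On w v r (r * q ^ (2 * m)) (C * q ^ m + η) := by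
    by_contra hcon
    push Not at hcon
    choose w s v r hr hB hEx using fun k : ℕ => hcon k
    have hEx' : ∀ k, ∃ e : Fld, (∀ f ∈ bx (v k) (r k), A (w k) e f = 0) ∧
        (C * q ^ m + η) * NB (v k) (r k) e < NB (v k) (r k * q ^ (2 * m)) e := by
      intro k
      have := hEx k
      unfold Ex1On at this
      push Not at this
      obtain ⟨e, he, h2⟩ := this
      exact ⟨e, he, h2⟩
    choose e he hlt using hEx'
    have hc0 : 0 < C * q ^ m + η := by positivity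
    have hN : ∀ k, 0 < NB (v k) (r k) (e k) := by
      intro k
      rcases eq_or_lt_of_le (apply_nonneg (NB (v k) (r k)) (e k)) with h0 | h0
      · exfalso
        have h1 := hlt k
        have hrk : 0 ≤ r k := (Nat.cast_nonneg k).trans (hr k)
        have h2 : NB (v k) (r k * q ^ (2 * m)) (e k) ≤ NB (v k) (r k) (e k) :=
          NB_mono (v k) (mul_le_of_le_one_right hrk (pow_le_one₀ hq.le q_le_one)) (e k)
        rw [← h0] at h1 h2
        linarith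
      · exact h0
    choose W Φ hbr hid using fun k => red (hB k) (he k) (hN k)
    have hrt : Tendsto r (hyperfilter ℕ : Ultrafilter ℕ) atTop :=
      (tendsto_atTop_mono hr tendsto_natCast_atTop_atTop).mono_left hcof
    have h3 := (H (hyperfilter ℕ) r hrt Φ (Eventually.of_forall fun k => br0_exact (hbr k))
      (Eventually.of_forall fun k => (hbr k).norm.le) m η hη).1
    obtain ⟨k, hk⟩ := h3.exists
    have h1 := hlt k
    have h4 := hid k (r k * q ^ (2 * m)) 0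
    rw [zero_smul, sub_zero, zero_div, zero_smul, sub_zero] at h4
    rw [h4, mul_comm] at h1
    exact absurd hk (not_le.2 (lt_of_mul_lt_mul_left h1 (hN k).le))
  -- second conjunct
  have hseq : SeqBr C := by
    intro U S m η hη
    exact (H U S.r S.hr S.φ (Eventually.of_forall fun k => br0_exact (S.br k))
      (Eventually.of_forall fun k => (S.br k).norm.le) m η hη).2.frequently
  obtain ⟨r1, h1⟩ := P1
  obtain ⟨r2, h2⟩ := ex2_of_seq hC hseq m η hη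
  exact ⟨max r1 r2, fun w s v r hr hB => ⟨h1 w s v r ((le_max_left _ _).trans hr) hB,
    h2 w s v r ((le_max_right _ _).trans hr) hB⟩⟩

end Crest.Agent.R165.EXbr0x936
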