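import Crest.Agent.R165.GLinI_336
import Crest.Agent.R165.Loc_901
import Crest.Agent.R165.WtIso_898
import Crest.Agent.R165.BgIso2_432
import Crest.Agent.R165.W0_336
import Crest.Agent.R165.BulkPl_812
import Crest.Agent.R165.PlaneCoef_901
import Crest.Agent.R165.SrcAlg_991

-- ▼ part R165/Src_336
section

/-!
# Row 165 (S0250), block G: linear bound of a source polymer (helper336, P11 (b))

`F` is the coefficient of one source generator product `τ` (an even element of `Gr V`), `P` the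
order-zero localisation at the source (rank two), `b` the bond form.

* `loc00 P`     : `P∧P` part of the quadratic part
* `quad_rem`    : `‖hom 2 F - loc00 P F‖' ≤ (2 p q + q²) ‖hom 2 F‖`
* `src_rem`     : `conv F` minus constant minus `loc00 P`: factor `11 p² q² + 2 p q + q²`
* `BondForm`    : `loc00 P a = c a • M`; extraction `X a = (c a / c b) • b` along the bond form
* `src_small`   : the same with extraction along the bond form: additional `κ β / |c b|`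
* `src_coef`    : `|c (conv F)| ≤ κ ‖F‖`
* `gain_src`    : `Λ^j` against the packing number, `j ≤ |U|` sources in a large polymer.
-/

set_option autoImplicit false
set_option linter.unusedSectionVars false

noncomputable section

namespace Crest.Agent.R165.Srcx336

open Crest.Agent.R165.Gr0x606 Crest.Agent.R165.PNormx417 Crest.Agent.R165.Packx915
open Crest.Agent.R165.GLinx336 Crest.Agent.R165.Locx901
open scoped ENNReal Classical

variable {V : Type*} [AddCommGroup V] [Module ℝ V]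

/-! ### the order-zero local part -/

/-- the `P∧P` part of the quadratic part -/
def loc00 (P : V →ₗ[ℝ] V) : Gr V →ₗ[ℝ] Gr V := (mp P).toLinearMap ∘ₗ hom 2

theorem loc00_apply (P : V →ₗ[ℝ] V) (F : Gr V) : loc00 P F = mp P (hom 2 F) := rfl

theorem loc00_hom (P : V →ₗ[ℝ] V) (F : Gr V) : loc00 P (hom 2 F) = loc00 P F := by
  simp [loc00, hom_hom]

theorem loc00_mono_ne (P : V →ₗ[ℝ] V) {L : List V} (h : L.length ≠ 2) : loc00 P (mono L) = 0 := by
  rw [loc00_apply, hom_mono, if_neg h, map_zero]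

theorem loc00_mono_two (P : V →ₗ[ℝ] V) (x y : V) : loc00 P (mono [x, y]) = mono [P x, P y] := by
  rw [loc00_apply, hom_mono, if_pos (by rfl), mp_mono]
  rfl

theorem pnorm_two_le (w : V → ℝ≥0∞) (a b : V) : pnorm w (mono [a, b]) ≤ w a * w b := by
  simpa using pnorm_mono_le w [a, b]

theorem quad_split (P : V →ₗ[ℝ] V) (x y : V) : mono [x, y] - mono [P x, P y] =
    mono [P x, y - P y] + mono [x - P x, P y] + mono [x - P x, y - P y] := by
  simp only [mono_cons, mono_nil, mul_one]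
  have h : ∀ a b : V, fi (a - b) = fi a - fi b := fun a b => by
    rw [sub_eq_add_neg, fi_add, ← neg_one_smul ℝ b, fi_smul, neg_one_smul, ← sub_eq_add_neg]
  rw [h, h]
  noncomm_ring

/-- **quadratic remainder** after subtraction of the `P∧P` part -/
theorem quad_rem (P : V →ₗ[ℝ] V) {w w' : V → ℝ≥0∞} {p q : ℝ≥0∞} (hpt : p ≠ ∞) (hqt : q ≠ ∞)
    (hp : ∀ l, w' (P l) ≤ p * w l) (hq : ∀ l, w' (l - P l) ≤ q * w l) {F : Gr V}
    (hF : pnorm w (hom 2 F) ≠ ∞) :
    pnorm w' (hom 2 F - loc00 P F) ≤ (2 * (p * q) + q ^ 2) * pnorm w (hom 2 F) := by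
  have h := bound_of_mono (pnorm_semi w') (hom 2 - loc00 P) (w := w)
    (C := 2 * (p * q) + q ^ 2) (F := hom 2 F)
    (ENNReal.add_ne_top.2 ⟨ENNReal.mul_ne_top (by norm_num) (ENNReal.mul_ne_top hpt hqt),
      ENNReal.pow_ne_top hqt⟩)
    (fun L _ => by
      rw [LinearMap.sub_apply, hom_mono]
      split_ifs with hlen
      · obtain ⟨x, y, rfl⟩ := List.length_eq_two.1 hlen
        rw [loc00_mono_two, quad_split]
        have hb : ∀ {a b : V} {α β : ℝ≥0∞}, w' a ≤ α * w x → w' b ≤ β * w y →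
            pnorm w' (mono [a, b]) ≤ (α * β) * (w x * w y) := fun {a b α β} h1 h2 =>
          (pnorm_two_le w' a b).trans ((mul_le_mul' h1 h2).trans (le_of_eq (by ring)))
        refine (pnorm_add_le _ _ _).trans (le_trans (add_le_add ((pnorm_add_le _ _ _).trans
          (add_le_add (hb (hp x) (hq y)) (hb (hq x) (hp y)))) (hb (hq x) (hq y))) ?_)
        rw [mwt_cons, mwt_cons, mwt_nil]
        refine le_of_eq ?_
        ring
      · rw [loc00_mono_ne P hlen, sub_zero, pnorm_zero]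
        exact zero_le) hF
  rw [LinearMap.sub_apply, hom_hom, if_pos rfl, loc00_hom] at h
  exact h

/-- the constant-free part of an even convolution -/
theorem conv_split (S : Cov V) {F : Gr V} (hev : IsEv F) :
    noct (conv S F) = high 4 (conv S (high 4 F)) + hom 2 (conv S F) := by
  have hcev : IsEv (conv S F) := hev.conv S
  have e1 : noct (conv S F) = high 4 (conv S F) + hom 2 (conv S F) := by
    rw [noct_eq_sub_hom, high_apply]
    simp only [Finset.sum_range_succ, Finset.sum_range_zero]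
    rw [IsEv.hom_odd hcev odd_one, IsEv.hom_odd hcev (by decide : Odd 3)]
    abel
  rw [e1, ← high_conv]

/-- **source polymer**: subtraction of the constant and of the `P∧P` part -/
theorem src_rem {S : Cov V} {g : V → ℝ≥0∞} (hg : Gram S g) (P : V →ₗ[ℝ] V)
    [FiniteDimensional ℝ (LinearMap.range P)] (hr : Module.finrank ℝ (LinearMap.range P) ≤ 2)
    {w w' : V → ℝ≥0∞} {ε p q a : ℝ≥0∞} (hgw : ∀ l, g l ≤ ε * w' l) (hεt : ε ≠ ∞) (hpt : p ≠ ∞)
    (hq4 : (1 + ε) * q ≤ 1 / 4) (hqp : q ≤ p)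
    (hp : ∀ l, w' (P l) ≤ p * w l) (hq : ∀ l, w' (l - P l) ≤ q * w l)
    (ha4 : a ≤ 1 / 4) (ha : ∀ l, g l ≤ a * w l)
    {F : Gr V} (hev : IsEv F) (hF : pnorm w F ≠ ∞) :
    pnorm w' (noct (conv S F) - loc00 P (conv S F)) ≤
      (11 * (((1 + ε) * p) ^ 2 * ((1 + ε) * q) ^ 2) + (2 * (p * q) + q ^ 2)) * pnorm w F := by
  have h1ε : (1 + ε) ≠ ∞ := ENNReal.add_ne_top.2 ⟨ENNReal.one_ne_top, hεt⟩
  have hqt : q ≠ ∞ := by
    intro h
    rw [h, ENNReal.mul_top (by simp)] at hq4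
    exact absurd hq4 (by simp)
  have e2 : noct (conv S F) - loc00 P (conv S F) =
      high 4 (conv S (high 4 F)) + (hom 2 (conv S F) - loc00 P (conv S F)) := by
    rw [conv_split S hev]; abel
  rw [e2, add_mul]
  refine (pnorm_add_le _ _ _).trans (add_le_add ?_ ?_)
  · refine (pnorm_high_le _ _ _).trans ?_
    have hF4 : pnorm w (high 4 F) ≠ ∞ := ne_top_of_le_ne_top hF (pnorm_high_le w 4 F)
    refine (bulk4_step hg P hr (p := (1 + ε) * p) (q := (1 + ε) * q)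
      (ENNReal.mul_ne_top h1ε hpt) hq4 (by gcongr) (fun l => add_gram_le hgw (hp l))
      (fun l => add_gram_le hgw (hq l)) (F := high 4 F) (fun n hn => ?_) hF4).trans ?_
    · rw [hom_high, if_pos hn]
    · exact mul_le_mul_right (pnorm_high_le w 4 F) _
  · have h2 := hom2_conv_le hg ha4 ha hF
    refine (quad_rem P hpt hqt hp hq (F := conv S F) (ne_top_of_le_ne_top hF h2)).trans ?_
    exact mul_le_mul_right h2 _

/-! ### extraction along the bond form -/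

/-- `c` is the coefficient of the order-zero local part, `b` the bond form -/
structure BondForm (P : V →ₗ[ℝ] V) (c : Gr V →ₗ[ℝ] ℝ) (M b : Gr V) : Prop where
  loc : ∀ a, loc00 P a = c a • M
  c2 : ∀ a, c (hom 2 a) = c a
  b2 : hom 2 b = b
  cb : c b ≠ 0

/-- extraction along the bond form -/
def Xb (c : Gr V →ₗ[ℝ] ℝ) (b : Gr V) : Gr V →ₗ[ℝ] Gr V := ((c b)⁻¹ • c).smulRight b

theorem Xb_apply (c : Gr V →ₗ[ℝ] ℝ) (b a : Gr V) : Xb c b a = ((c b)⁻¹ * c a) • b := by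
  simp [Xb]




variable {P : V →ₗ[ℝ] V} {c : Gr V →ₗ[ℝ] ℝ} {M b : Gr V}

/-- a bond form is reproduced by the convolution, up to a constant -/
theorem conv_two (S : Cov V) (x y : V) :
    conv S (fi x * fi y) = fi x * fi y + algebraMap ℝ _ (S.b x y) := by
  rw [conv_fi_mul, conv_fi, dd_fi]


/-- local part against bond form -/
theorem BondForm.split (H : BondForm P c M b) (a : Gr V) :
    loc00 P a - Xb c b a = -((c b)⁻¹ * c a) • (b - loc00 P b) := by
  have h1 : loc00 P a = ((c b)⁻¹ * c a) • loc00 P b := by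
    rw [H.loc, H.loc, smul_smul]
    congr 1
    have := H.cb
    field_simp
  rw [h1, Xb_apply, smul_sub, neg_smul, neg_smul]
  abel

/-- the coefficient of the order-zero local part is bounded by the norm of the quadratic part -/
theorem coef_le {w : V → ℝ≥0∞} {κ : ℝ≥0∞} (hκt : κ ≠ ∞) (H : BondForm P c M b)
    (hκ : ∀ x y, ‖c (mono [x, y])‖ₑ ≤ κ * (w x * w y)) {a : Gr V}
    (ha : pnorm w (hom 2 a) ≠ ∞) : ‖c a‖ₑ ≤ κ * pnorm w (hom 2 a) := by
  have h := bound_of_mono ESemi.enorm (c ∘ₗ hom 2) (w := w) (C := κ) (F := hom 2 a) hκt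
    (fun L _ => by
      rw [LinearMap.comp_apply, hom_mono]
      split_ifs with hlen
      · obtain ⟨x, y, rfl⟩ := List.length_eq_two.1 hlen
        refine (hκ x y).trans (le_of_eq ?_)
        simp
      · rw [map_zero]; simp) ha
  rwa [LinearMap.comp_apply, hom_hom, if_pos rfl, H.c2] at h

/-- **the running coefficient**: the part extracted from a source polymer -/
theorem src_coef {S : Cov V} {g : V → ℝ≥0∞} (hg : Gram S g) {w : V → ℝ≥0∞} {a κ : ℝ≥0∞}
    (hκt : κ ≠ ∞) (H : BondForm P c M b) (hκ : ∀ x y, ‖c (mono [x, y])‖ₑ ≤ κ * (w x * w y))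
    (ha4 : a ≤ 1 / 4) (ha : ∀ l, g l ≤ a * w l) {F : Gr V} (hF : pnorm w F ≠ ∞) :
    ‖c (conv S F)‖ₑ ≤ κ * pnorm w F := by
  have h2 := hom2_conv_le hg ha4 ha hF
  refine (coef_le hκt H hκ (ne_top_of_le_ne_top hF h2)).trans ?_
  gcongr

/-- **source polymer, extraction along the bond form** -/
theorem src_small {S : Cov V} {g : V → ℝ≥0∞} (hg : Gram S g)
    [FiniteDimensional ℝ (LinearMap.range P)] (hr : Module.finrank ℝ (LinearMap.range P) ≤ 2)
    (H : BondForm P c M b)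
    {w w' : V → ℝ≥0∞} {ε p q a κ β : ℝ≥0∞} (hgw : ∀ l, g l ≤ ε * w' l) (hεt : ε ≠ ∞)
    (hpt : p ≠ ∞) (hq4 : (1 + ε) * q ≤ 1 / 4) (hqp : q ≤ p)
    (hp : ∀ l, w' (P l) ≤ p * w l) (hq : ∀ l, w' (l - P l) ≤ q * w l)
    (ha4 : a ≤ 1 / 4) (ha : ∀ l, g l ≤ a * w l) (hκt : κ ≠ ∞)
    (hκ : ∀ x y, ‖c (mono [x, y])‖ₑ ≤ κ * (w x * w y)) (hβ : pnorm w' (b - loc00 P b) ≤ β)
    {F : Gr V} (hev : IsEv F) (hF : pnorm w F ≠ ∞) :
    pnorm w' (noct (conv S F) - Xb c b (conv S F)) ≤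
      (11 * (((1 + ε) * p) ^ 2 * ((1 + ε) * q) ^ 2) + (2 * (p * q) + q ^ 2) +
        ‖(c b)⁻¹‖ₑ * κ * β) * pnorm w F := by
  have e : noct (conv S F) - Xb c b (conv S F) =
      (noct (conv S F) - loc00 P (conv S F)) + (loc00 P (conv S F) - Xb c b (conv S F)) := by abel
  rw [e, add_mul]
  refine (pnorm_add_le _ _ _).trans (add_le_add
    (src_rem hg P hr hgw hεt hpt hq4 hqp hp hq ha4 ha hev hF) ?_)
  rw [H.split]
  refine (pnorm_smul_le _ _ _).trans ?_
  have h1 : ‖-((c b)⁻¹ * c (conv S F))‖ₑ = ‖(c b)⁻¹‖ₑ * ‖c (conv S F)‖ₑ := by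
    rw [enorm_neg, enorm_mul]
  rw [h1]
  calc ‖(c b)⁻¹‖ₑ * ‖c (conv S F)‖ₑ * pnorm w' (b - loc00 P b) ≤
        ‖(c b)⁻¹‖ₑ * (κ * pnorm w F) * β := by
        gcongr
        exact src_coef hg hκt H hκ ha4 ha hF
    _ = _ := by ring

/-- the remainder of a bond form `fi x * fi y` -/
theorem bond_rem {w' : V → ℝ≥0∞} (P : V →ₗ[ℝ] V) (x y : V) :
    pnorm w' (mono [x, y] - loc00 P (mono [x, y])) ≤
      w' (P x) * w' (y - P y) + w' (x - P x) * w' (P y) + w' (x - P x) * w' (y - P y) := by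
  rw [loc00_mono_two, quad_split]
  refine (pnorm_add_le _ _ _).trans (add_le_add ((pnorm_add_le _ _ _).trans
    (add_le_add ?_ ?_)) ?_) <;> exact pnorm_two_le w' _ _

/-! ### two modes -/

/-- order-zero localisation given by two modes `m₀, m₁` and two local functionals `p₀, p₁` -/
def P2 (m : Fin 2 → Module.Dual ℝ V) (p : Fin 2 → V) : V →ₗ[ℝ] V :=
  (m 0).smulRight (p 0) + (m 1).smulRight (p 1)

theorem P2_apply (m : Fin 2 → Module.Dual ℝ V) (p : Fin 2 → V) (x : V) :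
    P2 m p x = m 0 x • p 0 + m 1 x • p 1 := rfl


theorem P2_finrank (m : Fin 2 → Module.Dual ℝ V) (p : Fin 2 → V) :
    FiniteDimensional ℝ (LinearMap.range (P2 m p)) ∧
      Module.finrank ℝ (LinearMap.range (P2 m p)) ≤ 2 := by
  have hle : LinearMap.range (P2 m p) ≤ Submodule.span ℝ (Set.range p) := by
    rintro _ ⟨x, rfl⟩
    rw [P2_apply]
    exact Submodule.add_mem _ (Submodule.smul_mem _ _ (Submodule.subset_span ⟨0, rfl⟩))
      (Submodule.smul_mem _ _ (Submodule.subset_span ⟨1, rfl⟩))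
  have hfin : FiniteDimensional ℝ (Submodule.span ℝ (Set.range p)) :=
    FiniteDimensional.span_of_finite ℝ (Set.finite_range p)
  refine ⟨Submodule.finiteDimensional_of_le hle, (Submodule.finrank_mono hle).trans ?_⟩
  exact (finrank_range_le_card p).trans (by simp)

theorem formL_hom2 (l m : Module.Dual ℝ V) (a : Gr V) : formL l m (hom 2 a) = formL l m a := by
  have h : (formL l m ∘ₗ hom 2 : Gr V →ₗ[ℝ] ℝ) = formL l m := by
    refine LinearMap.ext fun F => linear_ext (fun L => ?_) F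
    rw [LinearMap.comp_apply, hom_mono]
    split_ifs with hlen
    · rfl
    · rw [map_zero]
      symm
      rcases L with _ | ⟨x, _ | ⟨y, _ | ⟨z, L⟩⟩⟩
      · have := form_algebraMap (V := V) 1 l m
        simpa [formL_apply] using this
      · simpa [formL_apply] using form_one_field x l m
      · exact absurd rfl hlen
      · simpa [formL_apply, mono_cons] using form_three x y z (mono L) l m
  exact LinearMap.congr_fun h a

theorem loc00_P2 (m : Fin 2 → Module.Dual ℝ V) (p : Fin 2 → V) (a : Gr V) :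
    loc00 (P2 m p) a = formL (m 0) (m 1) a • (fi (p 0) * fi (p 1)) := by
  have h : loc00 (P2 m p) = (formL (m 0) (m 1)).smulRight (fi (p 0) * fi (p 1)) := by
    refine LinearMap.ext fun F => linear_ext (fun L => ?_) F
    rw [LinearMap.smulRight_apply]
    by_cases hlen : L.length = 2
    · obtain ⟨x, y, rfl⟩ := List.length_eq_two.1 hlen
      rw [loc00_mono_two]
      simp only [mono_cons, mono_nil, mul_one]
      rw [formL_apply, form_fi_fi, P2_apply, P2_apply, fi_add, fi_add, fi_smul, fi_smul, fi_smul,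
        fi_smul]
      simp only [add_mul, mul_add, smul_mul_smul_comm, fi_mul_self, smul_zero, zero_add, add_zero]
      rw [fi_anti (p 1) (p 0), smul_neg, sub_smul]
      module
    · rw [loc00_mono_ne _ hlen, ← formL_hom2, hom_mono, if_neg hlen, map_zero, zero_smul]
  rw [h]; rfl

/-- the bond form of two modes -/
theorem bondForm_P2 (m : Fin 2 → Module.Dual ℝ V) (p : Fin 2 → V) {b : Gr V} (hb : hom 2 b = b)
    (hc : formL (m 0) (m 1) b ≠ 0) :
    BondForm (P2 m p) (formL (m 0) (m 1)) (fi (p 0) * fi (p 1)) b :=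
  ⟨loc00_P2 m p, formL_hom2 _ _, hb, hc⟩

/-- bound of the coefficient from the bounds of the modes -/
theorem formL_two_le {w : V → ℝ≥0∞} {μ : ℝ≥0∞} (m : Fin 2 → Module.Dual ℝ V)
    (hm : ∀ i l, ‖m i l‖ₑ ≤ μ * w l) (x y : V) :
    ‖formL (m 0) (m 1) (mono [x, y])‖ₑ ≤ (2 * μ ^ 2) * (w x * w y) := by
  have h : formL (m 0) (m 1) (mono [x, y]) = m 0 x * m 1 y - m 0 y * m 1 x := by
    simp only [mono_cons, mono_nil, mul_one]
    rw [formL_apply, form_fi_fi]
  rw [h]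
  calc ‖m 0 x * m 1 y - m 0 y * m 1 x‖ₑ ≤ ‖m 0 x * m 1 y‖ₑ + ‖m 0 y * m 1 x‖ₑ := enorm_sub_le
    _ ≤ (μ * w x) * (μ * w y) + (μ * w y) * (μ * w x) := by
        rw [enorm_mul, enorm_mul]
        exact add_le_add (mul_le_mul' (hm 0 x) (hm 1 y)) (mul_le_mul' (hm 0 y) (hm 1 x))
    _ = _ := by ring

/-! ### large polymers with sources -/


/-! ### instances on `GDef_387` -/

section gdef

open Crest.Agent.R165.Latx683 Crest.Agent.R165.GDefx387

variable {G : Type} [CommRing G] [CN G] {w : BW G} {a a' : ℝ} {r r' : ℕ} {U : Finset (G × G)}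
  {S : Cov (Fld G)} {g : Fld G → ℝ≥0∞}

/-- a bound at all centres of `U` is a bound by the weight of `U` -/
theorem le_wU_of_wt {N : ℝ≥0∞} {l : Fld G} {C : ℝ≥0∞} (hC : C ≠ 0)
    (h : ∀ x ∈ U, SuppL (ball x (s0 * r)) l → N ≤ C * GDefx387.wt w a r x l) :
    N ≤ C * GDefx387.wU w a r U l := by
  rw [wU_eq]
  rcases wU_cases (fun l x => SuppL (ball x (s0 * r)) l) (GDefx387.wt w a r) U l with
    h' | ⟨x, hx, hl, he⟩
  · rw [h', ENNReal.mul_top hC]; exact le_top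
  · rw [he]; exact h x hx hl

/-- transfer of `WLe` to the polymer weights of `GDef_387` -/
theorem wU_of_WLe {P : Fld G →ₗ[ℝ] Fld G} {q : ℝ≥0∞} (hq : q ≠ 0)
    (h : ∀ x ∈ U, ∃ x' ∈ U, WLe w a a' r r' x x' P q) (l : Fld G) :
    GDefx387.wU w a' r' U (P l) ≤ q * GDefx387.wU w a r U l := by
  rw [wU_eq, wU_eq]
  refine wU_map (T := P) hq (fun l x hx hl => ?_) l
  obtain ⟨x', hx', h'⟩ := h x hx
  exact ⟨x', hx', h' l hl⟩

/-- the Gram weight against the old weight -/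
theorem gram_le_old {ε p0 : ℝ≥0∞} (h0 : W0 w g a' r' ε U) (hε : ε ≠ 0) (hp0 : p0 ≠ 0)
    (h1 : ∀ x ∈ U, ∃ x' ∈ U, WLe w a a' r r' x x' LinearMap.id p0) (l : Fld G) :
    g l ≤ (ε * p0) * GDefx387.wU w a r U l := by
  have h2 := h0.wU hε l
  rw [← wU_eq] at h2
  refine h2.trans ?_
  rw [mul_assoc]
  exact mul_le_mul_right (wU_of_WLe hp0 h1 l) _

/-- **source polymer on `GDef_387`**: `m`, `p` the two modes and their local functionals at the
source, `b` the bond form -/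
theorem src_small_U (hg : Gram S g) (m : Fin 2 → Module.Dual ℝ (Fld G)) (p : Fin 2 → Fld G)
    {b : Gr (Fld G)} (hb : hom 2 b = b) (hc : formL (m 0) (m 1) b ≠ 0)
    {ε P Q p0 μ β : ℝ≥0∞} (h0 : W0 w g a' r' ε U) (hε : ε ≠ 0) (hεt : ε ≠ ∞) (hPt : P ≠ ∞)
    (hQ0 : Q ≠ 0) (hQ4 : (1 + ε) * Q ≤ 1 / 4) (hQP : Q ≤ P) (hp0 : p0 ≠ 0)
    (hε4 : ε * p0 ≤ 1 / 4) (hμ0 : μ ≠ 0) (hμt : μ ≠ ∞)
    (h1 : ∀ x ∈ U, ∃ x' ∈ U, WLe w a a' r r' x x' LinearMap.id p0)
    (hP : ∀ x ∈ U, ∃ x' ∈ U, WLe w a a' r r' x x' (P2 m p) P)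
    (hQ : ∀ x ∈ U, ∃ x' ∈ U, WLe w a a' r r' x x' (LinearMap.id - P2 m p) Q)
    (hμ : ∀ i, ∀ x ∈ U, ∀ l, SuppL (ball x (s0 * r)) l → ‖m i l‖ₑ ≤ μ * GDefx387.wt w a r x l)
    (hβ : pnorm (GDefx387.wU w a' r' U) (b - loc00 (P2 m p) b) ≤ β)
    {F : Gr (Fld G)} (hev : IsEv F) (hF : pnorm (GDefx387.wU w a r U) F ≠ ∞) :
    pnorm (GDefx387.wU w a' r' U) (noct (conv S F) - Xb (formL (m 0) (m 1)) b (conv S F)) ≤
      (11 * (((1 + ε) * P) ^ 2 * ((1 + ε) * Q) ^ 2) + (2 * (P * Q) + Q ^ 2) +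
        ‖(formL (m 0) (m 1) b)⁻¹‖ₑ * (2 * μ ^ 2) * β) * pnorm (GDefx387.wU w a r U) F := by
  have : FiniteDimensional ℝ (LinearMap.range (P2 m p)) := (P2_finrank m p).1
  have hP0 : P ≠ 0 := fun h => hQ0 (le_antisymm (h ▸ hQP) zero_le)
  refine src_small hg (P2_finrank m p).2 (bondForm_P2 m p hb hc)
    (fun l => by rw [wU_eq]; exact h0.wU hε l) hεt hPt hQ4 hQP (fun l => wU_of_WLe hP0 hP l)
    (fun l => wU_of_WLe hQ0 hQ l) hε4 (fun l => gram_le_old h0 hε hp0 h1 l)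
    (ENNReal.mul_ne_top (by norm_num) (ENNReal.pow_ne_top hμt))
    (fun x y => formL_two_le m (fun i l => le_wU_of_wt hμ0 fun x hx hl => hμ i x hx l hl) x y)
    hβ hev hF

/-- **the extracted coefficient on `GDef_387`** -/
theorem src_coef_U (hg : Gram S g) (m : Fin 2 → Module.Dual ℝ (Fld G)) (p : Fin 2 → Fld G)
    {b : Gr (Fld G)} (hb : hom 2 b = b) (hc : formL (m 0) (m 1) b ≠ 0)
    {ε p0 μ : ℝ≥0∞} (h0 : W0 w g a' r' ε U) (hε : ε ≠ 0) (hp0 : p0 ≠ 0)
    (hε4 : ε * p0 ≤ 1 / 4) (hμ0 : μ ≠ 0) (hμt : μ ≠ ∞)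
    (h1 : ∀ x ∈ U, ∃ x' ∈ U, WLe w a a' r r' x x' LinearMap.id p0)
    (hμ : ∀ i, ∀ x ∈ U, ∀ l, SuppL (ball x (s0 * r)) l → ‖m i l‖ₑ ≤ μ * GDefx387.wt w a r x l)
    {F : Gr (Fld G)} (hF : pnorm (GDefx387.wU w a r U) F ≠ ∞) :
    ‖formL (m 0) (m 1) (conv S F)‖ₑ ≤ (2 * μ ^ 2) * pnorm (GDefx387.wU w a r U) F :=
  src_coef hg (ENNReal.mul_ne_top (by norm_num) (ENNReal.pow_ne_top hμt)) (bondForm_P2 m p hb hc)
    (fun x y => formL_two_le m (fun i l => le_wU_of_wt hμ0 fun x hx hl => hμ i x hx l hl) x y)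
    hε4 (fun l => gram_le_old h0 hε hp0 h1 l) hF

end gdef

end Crest.Agent.R165.Srcx336
end
end

-- ▼ part R165/WCh_336
section

/-!
# Row 165 (S0250), block G: transport of the weight inequalities by charts (helper336)

`Chp w v Z τ s τ' s'` : chart `τ` with gauge `s` on `Z`, with a given inverse `τ'`, `s'`
(for the canonical chart of `GSys_387`: `tauC f`, `gp w f`, `psiC f`, `gpZ w f`).
`pu`, `pb` : the field maps (`chP`, `chQ` of `GSys_387` are of this form).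
* `Chp.pb_pu`, `Chp.inv`, `Chp.wt_pu_le`, `Chp.wt_pb_le`, `Chp.suppL_pu`, `Chp.suppL_pb`
* `Chp.WLe`, `Chp.WLe_id`, `Chp.WLe_sub`, `Chp.WLe_sub2` : `P` on the chart side gives `pb ∘ P ∘ pu`
-/

set_option autoImplicit false
set_option linter.unusedSectionVars false

noncomputable section

open scoped ENNReal
open Crest.Agent.R165.Gr0x606 Crest.Agent.R165.Latx683 Crest.Agent.R165.PNormx417
  Crest.Agent.R165.GDefx387 Crest.Agent.R165.Wtx898 Crest.Agent.R165.WtIsox898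
  Crest.Agent.R165.PlaneModesx901 Crest.Agent.R165.Bridgex915

namespace Crest.Agent.R165.WChx336

variable {G : Type} [CommRing G] [CN G] {H : Type} [CommRing H] [CN H]
variable {w : BW G} {v : BW H} {Z : Set (G × G)} {τ : G × G → H × H} {s : G × G → ℝ}
  {τ' : H × H → G × G} {s' : H × H → ℝ}

/-- field map of a map of faces with signs -/
def pu (τ : G × G → H × H) (s : G × G → ℝ) : Fld G →ₗ[ℝ] Fld H := push (hm τ) (hs s)

theorem pu_single (τ : G × G → H × H) (s : G × G → ℝ) (h : HE G) :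
    pu τ s (Finsupp.single h 1) = s h.1 • Finsupp.single (τ h.1, h.2) 1 := push_single _ _ _

theorem mp_pu_ph (τ : G × G → H × H) (s : G × G → ℝ) (h : HE G) :
    mp (pu τ s) (ph h) = s h.1 • ph (τ h.1, h.2) := push_ph _ _ _

/-- a chart with a given inverse -/
structure Chp (w : BW G) (v : BW H) (Z : Set (G × G)) (τ : G × G → H × H) (s : G × G → ℝ)
    (τ' : H × H → G × G) (s' : H × H → ℝ) : Prop where
  ch : LCh w v Z τ s
  inv : ∀ f ∈ Z, τ' (τ f) = f
  inv_s : ∀ f ∈ Z, s' (τ f) = s f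

/-- a background isomorphism of `BgIso_432` as a chart -/
theorem LCh_of_bgIso (b : BgIsox432.BgIso w v Z) : LCh w v Z b.τ b.s where
  sq f _ := b.sq f
  iso := b.iso
  e1 := b.e1
  e2 := b.e2
  wE := b.wE
  wN := b.wN

theorem Chp.mono (c : Chp w v Z τ s τ' s') {Z' : Set (G × G)} (h : Z' ⊆ Z) :
    Chp w v Z' τ s τ' s' :=
  ⟨c.ch.mono h, fun f hf => c.inv f (h hf), fun f hf => c.inv_s f (h hf)⟩

theorem Chp.pb_single (c : Chp w v Z τ s τ' s') {h : HE G} (hh : h.1 ∈ Z) :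
    pu τ' s' (pu τ s (Finsupp.single h 1)) = Finsupp.single h 1 := by
  rw [pu_single, map_smul, pu_single]
  simp only [c.inv _ hh, c.inv_s _ hh, smul_smul, c.ch.sq _ hh, one_smul]

/-- forward and back is the identity on the fields living on `Z` -/
theorem Chp.pb_pu (c : Chp w v Z τ s τ' s') {l : Fld G} (hl : SuppL Z l) :
    pu τ' s' (pu τ s l) = l := by
  refine BgIsox432.fldS_ind (P := fun l => pu τ' s' (pu τ s l) = l) (Z := Z) (by simp) ?_ ?_ hl
  · intro h hh b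
    rw [← mul_one b, ← smul_eq_mul, ← Finsupp.smul_single, map_smul, map_smul, c.pb_single hh]
  · intro l m hl hm
    rw [map_add, map_add, hl, hm]

section good

variable [GoodG G] [GoodG H]

/-- the inverse chart on a ball -/
theorem Chp.inv_ball (c : Chp w v Z τ s τ' s') {x : G × G} {R : ℕ} (hx : ball x (R + 1) ⊆ Z) :
    LCh v w (ball (τ x) R) τ' s' := by
  have c' := c.ch.inv c.inv hx
  have hR : ball x R ⊆ Z := (ball_mono x (by omega)).trans hx
  have hs1 : ∀ f ∈ ball x R, (f.1 + 1, f.2) ∈ Z := fun f hf => hx (by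
    have h1 := step_e1 f
    rw [mem_ball] at hf h1 ⊢
    exact (fd_triangle x f _).trans (by omega))
  have hs2 : ∀ f ∈ ball x R, (f.1, f.2 + 1) ∈ Z := fun f hf => hx (by
    have h1 := step_e2 f
    rw [mem_ball] at hf h1 ⊢
    exact (fd_triangle x f _).trans (by omega))
  have key : ∀ g ∈ ball (τ x) R, s' g = s (τ' g) := fun g hg => by
    obtain ⟨f, hf, rfl⟩ := c.ch.surj_ball hR hg
    rw [c.inv_s _ (hR hf), c.inv _ (hR hf)]
  refine ⟨?_, c'.iso, c'.e1, c'.e2, ?_, ?_⟩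
  · intro g hg
    rw [key g hg]; exact c'.sq g hg
  · intro g hg hg'
    rw [key _ hg, key _ hg']; exact c'.wE g hg hg'
  · intro g hg hg'
    rw [key _ hg, key _ hg']; exact c'.wN g hg hg'

variable {a a' : ℝ} {r r' : ℕ} {x x' : G × G}

theorem ball_s0_sub {x : G × G} {r : ℕ} (hx : ball x (s1 * r + MM + 1) ⊆ Z) :
    ball x (s0 * r) ⊆ Z :=
  (ball_mono x (by
    have : s0 * r ≤ s1 * r := Nat.mul_le_mul_right _ (by decide)
    omega)).trans hx

theorem Chp.wt_pu_le (c : Chp w v Z τ s τ' s') (hx : ball x (s1 * r + MM + 1) ⊆ Z) (l : Fld G)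
    (a : ℝ) : wt v a r (τ x) (pu τ s l) ≤ wt w a r x l :=
  c.ch.wt_push_le ((ball_mono x (by omega)).trans hx) l a

theorem Chp.suppL_pu (c : Chp w v Z τ s τ' s') {R : ℕ} (hx : ball x R ⊆ Z) {l : Fld G}
    (hl : SuppL (ball x R) l) : SuppL (ball (τ x) R) (pu τ s l) := c.ch.suppL_push hx hl

theorem Chp.wt_pb_le (c : Chp w v Z τ s τ' s') (hx : ball x (s1 * r + MM + 1) ⊆ Z) (l : Fld H)
    (a : ℝ) : wt w a r x (pu τ' s' l) ≤ wt v a r (τ x) l := by
  have h := (c.inv_ball (R := s1 * r + MM) hx).wt_push_le (x := τ x) (r := r) subset_rfl l a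
  rw [c.inv x (hx (self_mem_ball x _))] at h
  exact h

theorem Chp.suppL_pb (c : Chp w v Z τ s τ' s') {R : ℕ} (hx : ball x (R + 1) ⊆ Z) {l : Fld H}
    (hl : SuppL (ball (τ x) R) l) : SuppL (ball x R) (pu τ' s' l) := by
  have h := (c.inv_ball (R := R) hx).suppL_push (x := τ x) subset_rfl hl
  rw [c.inv x (hx (self_mem_ball x _))] at h
  exact h

/-- **transport of a weight inequality** -/
theorem Chp.WLe (c : Chp w v Z τ s τ' s') (hx : ball x (s1 * r + MM + 1) ⊆ Z)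
    (hx' : ball x' (s1 * r' + MM + 1) ⊆ Z) {P : Fld H →ₗ[ℝ] Fld H} {q : ℝ≥0∞}
    (h : GDefx387.WLe v a a' r r' (τ x) (τ x') P q) :
    GDefx387.WLe w a a' r r' x x' (pu τ' s' ∘ₗ P ∘ₗ pu τ s) q := by
  intro l hl
  obtain ⟨h2, h3⟩ := h _ (c.suppL_pu (ball_s0_sub hx) hl)
  refine ⟨c.suppL_pb ((ball_mono x' (by
    have : s0 * r' ≤ s1 * r' := Nat.mul_le_mul_right _ (by decide)
    omega)).trans hx') h2, ?_⟩
  refine (c.wt_pb_le hx' _ a').trans (h3.trans ?_)
  gcongr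
  exact c.wt_pu_le hx l a

theorem WLe_congr {P Q : Fld G →ₗ[ℝ] Fld G} {q : ℝ≥0∞}
    (h : ∀ l, SuppL (ball x (s0 * r)) l → P l = Q l) (hP : GDefx387.WLe w a a' r r' x x' P q) :
    GDefx387.WLe w a a' r r' x x' Q q := by
  intro l hl
  rw [← h l hl]
  exact hP l hl

/-- transport for `id` -/
theorem Chp.WLe_id (c : Chp w v Z τ s τ' s') (hx : ball x (s1 * r + MM + 1) ⊆ Z)
    (hx' : ball x' (s1 * r' + MM + 1) ⊆ Z) {q : ℝ≥0∞}
    (h : GDefx387.WLe v a a' r r' (τ x) (τ x') LinearMap.id q) :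
    GDefx387.WLe w a a' r r' x x' LinearMap.id q :=
  WLe_congr (fun _ hl => c.pb_pu (suppL_mono (ball_s0_sub hx) hl)) (c.WLe hx hx' h)

/-- transport for `id - P` -/
theorem Chp.WLe_sub (c : Chp w v Z τ s τ' s') (hx : ball x (s1 * r + MM + 1) ⊆ Z)
    (hx' : ball x' (s1 * r' + MM + 1) ⊆ Z) {P : Fld H →ₗ[ℝ] Fld H} {q : ℝ≥0∞}
    (h : GDefx387.WLe v a a' r r' (τ x) (τ x') (LinearMap.id - P) q) :
    GDefx387.WLe w a a' r r' x x' (LinearMap.id - pu τ' s' ∘ₗ P ∘ₗ pu τ s) q :=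
  WLe_congr (fun l hl => by
    have := c.pb_pu (l := l) (suppL_mono (ball_s0_sub hx) hl)
    simp only [LinearMap.sub_apply, LinearMap.comp_apply, LinearMap.id_apply, map_sub, this])
    (c.WLe hx hx' h)


end good

end Crest.Agent.R165.WChx336
end
end

-- ▼ part R165/SrcI_336
section

/-!
# Row 165 (S0250), leaf P11 (b): the source polymers on the concrete weights (helper336)

* plane: `cMass_bb` (the bond form has coefficient `-1`), `wt_P0_atom`, `wt_rest_atom`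
* `mC`, `pC`, `cC` : the light modes, the local functionals and the coefficient `cMass` in a chart
* `src_small_chart` : one source, small polymer, background plane-like at the source: factor
  `CS C * (r/r')²`
* `src_coef_chart` : the extracted coefficient: factor `cM r / a²`
* `large_gain_src` : large polymers with `j ≤ |U|` sources
-/

set_option autoImplicit false
set_option linter.unusedSectionVars false

noncomputable section

open scoped ENNReal
open Crest.Agent.R165.Gr0x606 Crest.Agent.R165.Latx683 Crest.Agent.R165.Locx901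
  Crest.Agent.R165.PNormx417 Crest.Agent.R165.PlaneModesx901 Crest.Agent.R165.PlaneLocx901
  Crest.Agent.R165.GDefx387 Crest.Agent.R165.Wtx898 Crest.Agent.R165.WtIsox898
  Crest.Agent.R165.Bridgex915 Crest.Agent.R165.W2x812 Crest.Agent.R165.WChx336
  Crest.Agent.R165.GLinx336

namespace Crest.Agent.R165.Srcx336

/-! ### the plane -/

theorem form_ph_ph (f g : Tst) (h h' : HE ℤ) :
    form (ph h * ph h') (ev f) (ev g) = f h * g h' - f h' * g h := by
  rw [ph, ph, form_fi_fi]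
  simp

/-- the coefficient of a bond form -/
theorem cMass_bb (z : Fc) (j : Fin 2) : cMass (bb z j) = -1 := by
  have h2 := r2_sq
  fin_cases j
  · show cMass (ph (hp z 0) * ph (hq z 0)) = -1
    rw [cMass, formL_apply, form_ph_ph, hp_zero, hq_zero]
    simp only [m0, lt_S, lt_N]
    nlinarith
  · show cMass (ph (hp z 1) * ph (hq z 1)) = -1
    rw [cMass, formL_apply, form_ph_ph, hp_one, hq_one]
    simp only [m0, lt_E, lt_W]
    norm_num

variable {C : ℝ} {a a' : ℝ} {r r' : ℕ}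

/-- the local part of an atom at a neighbouring half-edge -/
theorem wt_P0_atom (h : BkReg C) (ha : 0 ≤ a) (hr : 1 ≤ r) (y : Fc) (e : HE ℤ) {c : ℝ}
    (hc : |c| ≤ 1) : wt (wPl ℤ) a r y ((md y).P0 (Finsupp.single e c)) ≤
      ENNReal.ofReal (a * Real.sqrt r * (2 * C / r)) := by
  refine wt_le_of_pair ha fun f hf => ?_
  obtain ⟨h1, h2⟩ := h.amp y r hr f hf
  rw [ev_P0, ev_single, abs_mul]
  have h3 : |T0 y f e| ≤ 2 * (C / r) := abs_m0_le h1 h2 e
  calc |c| * |T0 y f e| ≤ 1 * (2 * (C / r)) :=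
        mul_le_mul hc h3 (abs_nonneg _) zero_le_one
    _ = _ := by ring

/-- the remainder of an atom at a neighbouring half-edge -/
theorem wt_rest_atom (h : BkReg C) (ha : 0 ≤ a) (hr : 16 ≤ r) (y : Fc) {e : HE ℤ}
    (he : e.1 ∈ ball y 1) {c : ℝ} (hc : |c| ≤ 1) :
    wt (wPl ℤ) a r y (Finsupp.single e c - (md y).P0 (Finsupp.single e c)) ≤
      ENNReal.ofReal (a * Real.sqrt r * (19 * C / r ^ 2)) := by
  have hC := h.nonneg
  have hr0 : (16 : ℝ) ≤ r := by exact_mod_cast hr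
  refine wt_le_of_pair ha fun f hf => ?_
  rw [map_sub, ev_P0, ev_single, ev_single, ← mul_sub, abs_mul]
  obtain ⟨h1, h2, h3, h4⟩ := h.slope y r (by omega) f hf
  have h5 := h.taylor y 1 r le_rfl (by omega) f hf 0 (by norm_num)
  have h6 : |(f - T0 y f - T1 y f) e| ≤ C * (1 / (r : ℝ)) ^ 3 := by
    have h7 := abs_le_L2on (Z := ball y (65 * 1)) (ball_finite y (65 * 1)) (f - T0 y f - T1 y f)
      (e := e) (ball_mono y (by norm_num) he)
    simp only [Nat.cast_one, one_pow, one_mul, Function.iterate_zero, id] at h5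
    exact h7.trans h5
  have h8 : |T1 y f e| ≤ 9 * (1 + 1) * (C / r ^ 2) := by
    have := abs_m1_le (y := y) (D := 1) h1 h2 h3 h4 e he
    rw [Nat.cast_one] at this
    exact this
  have h9 : |f e - T0 y f e| ≤ 19 * C / r ^ 2 := by
    have e1 : f e - T0 y f e = (f - T0 y f - T1 y f) e + T1 y f e := by
      simp only [Pi.sub_apply]; ring
    rw [e1]
    refine (abs_add_le _ _).trans ((add_le_add h6 h8).trans ?_)
    have e2 : C * (1 / (r : ℝ)) ^ 3 ≤ C / r ^ 2 := by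
      rw [one_div, inv_pow, ← div_eq_mul_inv]
      gcongr
      · linarith
      · norm_num
    calc C * (1 / (r : ℝ)) ^ 3 + 9 * (1 + 1) * (C / r ^ 2) ≤ C / r ^ 2 + 18 * (C / r ^ 2) := by
          linarith
      _ = _ := by ring
  calc |c| * |f e - T0 y f e| ≤ 1 * (19 * C / r ^ 2) :=
        mul_le_mul hc h9 (abs_nonneg _) zero_le_one
    _ = _ := one_mul _

/-! ### charts -/

section chart

variable {G : Type} [CommRing G] [CN G] [GoodG G] {w : BW G} {Z : Set (G × G)}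
  {τ : G × G → ℤ × ℤ} {s : G × G → ℝ} {τ' : ℤ × ℤ → G × G} {s' : ℤ × ℤ → ℝ}

/-- the light modes in a chart -/
def mC (τ : G × G → ℤ × ℤ) (s : G × G → ℝ) (i : Fin 2) : Module.Dual ℝ (Fld G) :=
  (md 0).m i ∘ₗ pu τ s

/-- the local functionals in a chart -/
def pC (τ' : ℤ × ℤ → G × G) (s' : ℤ × ℤ → ℝ) (y : Fc) (i : Fin 2) : Fld G := pu τ' s' ((md y).p i)

/-- the coefficient in a chart -/
def cC (τ : G × G → ℤ × ℤ) (s : G × G → ℝ) : Gr (Fld G) →ₗ[ℝ] ℝ :=
  cMass ∘ₗ (mp (pu τ s)).toLinearMap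

theorem cC_apply (τ : G × G → ℤ × ℤ) (s : G × G → ℝ) (a : Gr (Fld G)) :
    cC τ s a = cMass (mp (pu τ s) a) := rfl

theorem formL_mC : formL (mC τ s 0) (mC τ s 1) = cC τ s := by
  refine LinearMap.ext fun a => ?_
  rw [cC_apply, cMass, formL_apply, formL_apply, form_mp]
  rfl

theorem P2_chart (τ : G × G → ℤ × ℤ) (s : G × G → ℝ) (τ' : ℤ × ℤ → G × G) (s' : ℤ × ℤ → ℝ)
    (y : Fc) : P2 (mC τ s) (pC τ' s' y) = pu τ' s' ∘ₗ (md y).P0 ∘ₗ pu τ s := by
  ext x : 1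
  refine LinearMap.ext_ring ?_
  simp only [LinearMap.comp_apply, P2_apply, Modes.P0_apply, Fin.sum_univ_two, map_add, map_smul,
    mC, pC]
  rfl


theorem faces_mem_ball (z : G × G) (j : Fin 2) :
    (hp z j).1 ∈ ball z 1 ∧ (hq z j).1 ∈ ball z 1 := by
  fin_cases j
  · exact ⟨self_mem_ball z 1, step_e2' z⟩
  · exact ⟨step_e1' z, self_mem_ball z 1⟩

theorem mp_bb (c : LCh w (wPl ℤ) Z τ s) {z : G × G} (hz : ball z 1 ⊆ Z) (j : Fin 2) :
    mp (pu τ s) (bb z j) = (s (hp z j).1 * s (hq z j).1) • bb (τ z) j := by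
  have hz0 : z ∈ Z := hz (self_mem_ball z 1)
  fin_cases j
  · show mp (pu τ s) (ph (hp z 0) * ph (hq z 0)) = _
    rw [map_mul, mp_pu_ph, mp_pu_ph, smul_mul_smul_comm]
    have := c.e2' hz0 (hz (step_e2' z))
    simp only [hp_zero, hq_zero, this, Fin.zero_eta, Fin.isValue, bb]
  · show mp (pu τ s) (ph (hp z 1) * ph (hq z 1)) = _
    rw [map_mul, mp_pu_ph, mp_pu_ph, smul_mul_smul_comm]
    have := c.e1' hz0 (hz (step_e1' z))
    simp only [hp_one, hq_one, this, Fin.mk_one, Fin.isValue, bb]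

theorem cC_bb (c : LCh w (wPl ℤ) Z τ s) {z : G × G} (hz : ball z 1 ⊆ Z) (j : Fin 2) :
    cC τ s (bb z j) = -(s (hp z j).1 * s (hq z j).1) := by
  rw [cC_apply, mp_bb c hz, map_smul, cMass_bb, smul_eq_mul]; ring

theorem abs_s (c : LCh w (wPl ℤ) Z τ s) {f : G × G} (hf : f ∈ Z) : |s f| = 1 := by
  have := c.sq f hf
  rcases mul_self_eq_one_iff.1 this with h | h <;> rw [h] <;> simp

theorem cC_bb_abs (c : LCh w (wPl ℤ) Z τ s) {z : G × G} (hz : ball z 1 ⊆ Z) (j : Fin 2) :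
    |cC τ s (bb z j)| = 1 := by
  rw [cC_bb c hz, abs_neg, abs_mul, abs_s c (hz (faces_mem_ball z j).1),
    abs_s c (hz (faces_mem_ball z j).2), one_mul]

theorem hom2_bb (z : G × G) (j : Fin 2) : hom 2 (bb z j) = bb z j := by
  have h : bb z j = mono [Finsupp.single (hp z j) 1, Finsupp.single (hq z j) 1] := by
    simp [bb, ph, mono_cons, mono_nil]
  rw [h, hom_mono, if_pos (by rfl)]

/-- bound of the modes in a chart -/
theorem mC_le (c : Chp w (wPl ℤ) Z τ s τ' s') (ha : 0 < a) (hr : 1 ≤ r) {x : G × G}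
    (hx : ball x (s1 * r + MM + 1) ⊆ Z) (i : Fin 2) {l : Fld G}
    (hl : SuppL (ball x (s0 * r)) l) :
    ‖mC τ s i l‖ₑ ≤ ENNReal.ofReal (516 * r / (a * Real.sqrt r)) * wt w a r x l := by
  have h1 := c.suppL_pu (ball_s0_sub hx) hl
  have key : ∀ p q : ℝ, |p| ≤ 1 → |q| ≤ 1 → ‖ev (m0 p q) (pu τ s l)‖ₑ ≤
      ENNReal.ofReal (516 * r / (a * Real.sqrt r)) * wt w a r x l := by
    intro p q hp hq
    have h2 := PlaneCoefx901.enorm_pair_le (w := wPl ℤ) (x := τ x) ha (by omega) h1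
      (nnB_m0_le hp hq (τ x) hr)
    rw [W2x812.pair_eq_ev, mul_one] at h2
    refine h2.trans ?_
    gcongr
    exact c.wt_pu_le hx l a
  fin_cases i
  · exact key 1 0 (by simp) (by simp)
  · exact key 0 1 (by simp) (by simp)

/-! ### the remainder of the bond form -/

theorem bb_eq_mono (z : G × G) (j : Fin 2) :
    bb z j = mono [Finsupp.single (hp z j) 1, Finsupp.single (hq z j) 1] := by
  simp [bb, ph, mono_cons, mono_nil]

variable {U : Finset (G × G)} {z : G × G}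

theorem pu_single_one (τ : G × G → ℤ × ℤ) (s : G × G → ℝ) (e : HE G) :
    pu τ s (Finsupp.single e 1) = Finsupp.single (τ e.1, e.2) (s e.1) := by
  rw [pu_single, Finsupp.smul_single, smul_eq_mul, mul_one]

theorem wU_P0_bond (h : BkReg C) (c : Chp w (wPl ℤ) Z τ s τ' s') (ha' : 0 ≤ a') (hr' : 1 ≤ r')
    (hzU : z ∈ U) (hz : ball z (s1 * r' + MM + 1) ⊆ Z) {e : HE G} (he : e.1 ∈ ball z 1) :
    wU w a' r' U (P2 (mC τ s) (pC τ' s' (τ z)) (Finsupp.single e 1)) ≤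
      ENNReal.ofReal (a' * Real.sqrt r' * (2 * C / r')) := by
  have heZ : e.1 ∈ Z := hz (ball_mono z (by omega) he)
  rw [P2_chart]
  simp only [LinearMap.comp_apply]
  have h1 : SuppL (ball z (s0 * r'))
      (pu τ' s' ((md (τ z)).P0 (pu τ s (Finsupp.single e 1)))) :=
    c.suppL_pb ((ball_mono z (by
      have : s0 * r' ≤ s1 * r' := Nat.mul_le_mul_right _ (by decide)
      omega)).trans hz) (suppL_P0 _ _ _)
  refine (WtIsox898.wU_le hzU h1).trans ((c.wt_pb_le hz _ a').trans ?_)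
  rw [pu_single_one]
  exact wt_P0_atom h ha' hr' (τ z) _ (abs_s c.ch heZ).le

theorem wU_rest_bond (h : BkReg C) (c : Chp w (wPl ℤ) Z τ s τ' s') (ha' : 0 ≤ a') (hr' : 16 ≤ r')
    (hzU : z ∈ U) (hz : ball z (s1 * r' + MM + 1) ⊆ Z) {e : HE G} (he : e.1 ∈ ball z 1) :
    wU w a' r' U (Finsupp.single e 1 -
      P2 (mC τ s) (pC τ' s' (τ z)) (Finsupp.single e 1)) ≤
      ENNReal.ofReal (a' * Real.sqrt r' * (19 * C / r' ^ 2)) := by
  have hz0 : z ∈ Z := hz (self_mem_ball z _)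
  have heZ : e.1 ∈ Z := hz (ball_mono z (by omega) he)
  have heb : (τ e.1) ∈ ball (τ z) 1 := (c.ch.map_ball hz0 heZ).2 he
  have hs1' : SuppL Z (Finsupp.single e (1 : ℝ)) := BgIsox432.single_mem_fldS heZ 1
  have e1 : Finsupp.single e 1 - P2 (mC τ s) (pC τ' s' (τ z)) (Finsupp.single e 1) =
      pu τ' s' (pu τ s (Finsupp.single e 1) - (md (τ z)).P0 (pu τ s (Finsupp.single e 1))) := by
    rw [P2_chart, map_sub, c.pb_pu hs1']
    rfl
  have h2 : SuppL (ball (τ z) (s0 * r'))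
      (pu τ s (Finsupp.single e 1) - (md (τ z)).P0 (pu τ s (Finsupp.single e 1))) := by
    refine suppL_sub ?_ (suppL_P0 _ _ _)
    rw [pu_single_one]
    exact W2x812.suppL_single _ _ (ball_mono _ (by unfold s0; omega) heb)
  rw [e1]
  have h1 : SuppL (ball z (s0 * r')) (pu τ' s' (pu τ s (Finsupp.single e 1) -
      (md (τ z)).P0 (pu τ s (Finsupp.single e 1)))) :=
    c.suppL_pb ((ball_mono z (by
      have : s0 * r' ≤ s1 * r' := Nat.mul_le_mul_right _ (by decide)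
      omega)).trans hz) h2
  refine (WtIsox898.wU_le hzU h1).trans ((c.wt_pb_le hz _ a').trans ?_)
  rw [pu_single_one]
  exact wt_rest_atom h ha' hr' (τ z) heb (abs_s c.ch heZ).le

/-- **the bond form is its local part up to `O(a'² r'⁻²)`** -/
theorem bond_rem_chart (h : BkReg C) (c : Chp w (wPl ℤ) Z τ s τ' s') (ha' : 0 ≤ a')
    (hr' : 16 ≤ r') (hzU : z ∈ U) (hz : ball z (s1 * r' + MM + 1) ⊆ Z) (j : Fin 2) :
    pnorm (wU w a' r' U) (bb z j - loc00 (P2 (mC τ s) (pC τ' s' (τ z))) (bb z j)) ≤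
      ENNReal.ofReal (100 * C ^ 2 * a' ^ 2 / r' ^ 2) := by
  have hC := h.nonneg
  obtain ⟨hp1, hq1⟩ := faces_mem_ball z j
  have hr1 : 1 ≤ r' := by omega
  have hr0 : (16 : ℝ) ≤ r' := by exact_mod_cast hr'
  have hrp : (0 : ℝ) < r' := by linarith
  rw [bb_eq_mono]
  refine (bond_rem (w' := wU w a' r' U) (P2 (mC τ s) (pC τ' s' (τ z))) _ _).trans ?_
  have hA : ∀ e : HE G, e.1 ∈ ball z 1 → _ := fun e he => wU_P0_bond h c ha' hr1 hzU hz he
  have hB : ∀ e : HE G, e.1 ∈ ball z 1 → _ := fun e he => wU_rest_bond h c ha' hr' hzU hz he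
  have hx : 0 ≤ a' * Real.sqrt r' * (2 * C / r') := by positivity
  have hy : 0 ≤ a' * Real.sqrt r' * (19 * C / r' ^ 2) := by positivity
  refine (add_le_add (add_le_add (mul_le_mul' (hA _ hp1) (hB _ hq1))
    (mul_le_mul' (hB _ hp1) (hA _ hq1))) (mul_le_mul' (hB _ hp1) (hB _ hq1))).trans ?_
  rw [← ENNReal.ofReal_mul hx, ← ENNReal.ofReal_mul hy, ← ENNReal.ofReal_mul hy,
    ← ENNReal.ofReal_add (by positivity) (by positivity),
    ← ENNReal.ofReal_add (by positivity) (by positivity)]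
  refine ENNReal.ofReal_le_ofReal ?_
  have hsq : Real.sqrt r' * Real.sqrt r' = r' := Real.mul_self_sqrt hrp.le
  have e1 : a' * Real.sqrt r' * (2 * C / r') * (a' * Real.sqrt r' * (19 * C / r' ^ 2)) =
      38 * C ^ 2 * a' ^ 2 / r' ^ 2 := by
    calc _ = 38 * C ^ 2 * a' ^ 2 * (Real.sqrt r' * Real.sqrt r') / r' ^ 3 := by
          field_simp; ring
      _ = _ := by rw [hsq]; field_simp
  have e2 : a' * Real.sqrt r' * (19 * C / r' ^ 2) * (a' * Real.sqrt r' * (19 * C / r' ^ 2)) =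
      361 * C ^ 2 * a' ^ 2 / r' ^ 2 / r' := by
    calc _ = 361 * C ^ 2 * a' ^ 2 * (Real.sqrt r' * Real.sqrt r') / r' ^ 4 := by
          field_simp; ring
      _ = _ := by rw [hsq]; field_simp
  have e3 : a' * Real.sqrt r' * (19 * C / r' ^ 2) * (a' * Real.sqrt r' * (2 * C / r')) =
      38 * C ^ 2 * a' ^ 2 / r' ^ 2 := by rw [mul_comm]; exact e1
  rw [e1, e2, e3]
  have e4 : 361 * C ^ 2 * a' ^ 2 / r' ^ 2 / r' ≤ 24 * (C ^ 2 * a' ^ 2 / r' ^ 2) := by
    rw [div_le_iff₀ hrp]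
    have : 0 ≤ C ^ 2 * a' ^ 2 / (r' : ℝ) ^ 2 := by positivity
    calc 361 * C ^ 2 * a' ^ 2 / (r' : ℝ) ^ 2 = 361 * (C ^ 2 * a' ^ 2 / r' ^ 2) := by ring
      _ ≤ 24 * (C ^ 2 * a' ^ 2 / r' ^ 2) * 16 := by linarith
      _ ≤ _ := by gcongr
  calc 38 * C ^ 2 * a' ^ 2 / (r' : ℝ) ^ 2 + 38 * C ^ 2 * a' ^ 2 / r' ^ 2 +
        361 * C ^ 2 * a' ^ 2 / r' ^ 2 / r'
      ≤ 38 * C ^ 2 * a' ^ 2 / r' ^ 2 + 38 * C ^ 2 * a' ^ 2 / r' ^ 2 +
        24 * (C ^ 2 * a' ^ 2 / r' ^ 2) := by linarith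
    _ = _ := by ring

/-! ### numbers -/

theorem D_rho {a a' : ℝ} {r r' : ℕ} (ha : 0 < a) (haa : a' ≤ 2 * a) (hr : 1 ≤ r)
    (hr' : 1 ≤ r') :
    a' * Real.sqrt r' / (a * Real.sqrt r) * ((r : ℝ) / r') ≤ 2 * Real.sqrt ((r : ℝ) / r') := by
  have h1 : (0 : ℝ) < r := by exact_mod_cast hr
  have h2 : (0 : ℝ) < r' := by exact_mod_cast hr'
  have s1 := Real.sqrt_pos.2 h1
  have s2 := Real.sqrt_pos.2 h2
  rw [Real.sqrt_div h1.le]
  have e3 : a' * Real.sqrt r' / (a * Real.sqrt r) * ((r : ℝ) / r') =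
      a' / a * (Real.sqrt r / Real.sqrt r') := by
    calc _ = a' * Real.sqrt r' / (a * Real.sqrt r) *
          ((Real.sqrt r * Real.sqrt r) / (Real.sqrt r' * Real.sqrt r')) := by
          rw [Real.mul_self_sqrt h1.le, Real.mul_self_sqrt h2.le]
      _ = _ := by field_simp
  rw [e3]
  have h3 : a' / a ≤ 2 := by rw [div_le_iff₀ ha]; exact haa
  exact mul_le_mul_of_nonneg_right h3 (by positivity)

theorem ofReal_numbers {p q m : ℝ} (hp : 0 ≤ p) (hq : 0 ≤ q) (hm : 0 ≤ m) :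
    ENNReal.ofReal 11 * ((ENNReal.ofReal 2 * ENNReal.ofReal p) ^ 2 *
      (ENNReal.ofReal 2 * ENNReal.ofReal q) ^ 2) +
      (ENNReal.ofReal 2 * (ENNReal.ofReal p * ENNReal.ofReal q) +
        ENNReal.ofReal q ^ 2) + ENNReal.ofReal m =
    ENNReal.ofReal (11 * ((2 * p) ^ 2 * (2 * q) ^ 2) + (2 * (p * q) + q ^ 2) + m) := by
  lift p to NNReal using hp
  lift q to NNReal using hq
  lift m to NNReal using hm
  have e : (11 * ((2 * (p : ℝ)) ^ 2 * (2 * (q : ℝ)) ^ 2) + (2 * ((p : ℝ) * q) + (q : ℝ) ^ 2) + m) =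
      ((11 * ((2 * p) ^ 2 * (2 * q) ^ 2) + (2 * (p * q) + q ^ 2) + m : NNReal) : ℝ) := by
    push_cast; ring
  rw [e]
  simp only [ENNReal.ofReal_coe_nnreal, ENNReal.ofReal_ofNat]
  push_cast
  ring

/-- all the factors of one source polymer -/
theorem src_numbers {K t m : ℝ} (hK : 1 ≤ K) (ht : 0 ≤ t) (hKt : 8 * K * t ≤ 1)
    (hm0 : 0 ≤ m) (hm : m ≤ K ^ 2 * t ^ 4) {ε : ℝ≥0∞} (hε : ε ≤ 1) :
    11 * (((1 + ε) * ENNReal.ofReal (2 * K * t)) ^ 2 *
      ((1 + ε) * ENNReal.ofReal (2 * K * t ^ 3)) ^ 2) +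
      (2 * (ENNReal.ofReal (2 * K * t) * ENNReal.ofReal (2 * K * t ^ 3)) +
        ENNReal.ofReal (2 * K * t ^ 3) ^ 2) + ENNReal.ofReal m ≤
      ENNReal.ofReal (16 * K ^ 2 * t ^ 4) := by
  have hK0 : 0 ≤ K := by linarith
  have h2 : (1 + ε) ≤ ENNReal.ofReal 2 := by
    calc 1 + ε ≤ 1 + 1 := by gcongr
      _ = ENNReal.ofReal 2 := by rw [ENNReal.ofReal_ofNat]; norm_num
  have h11 : (11 : ℝ≥0∞) = ENNReal.ofReal 11 := (ENNReal.ofReal_ofNat 11).symm
  have h22 : (2 : ℝ≥0∞) = ENNReal.ofReal 2 := (ENNReal.ofReal_ofNat 2).symm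
  have hp : 0 ≤ 2 * K * t := by positivity
  have hq : 0 ≤ 2 * K * t ^ 3 := by positivity
  calc _ ≤ ENNReal.ofReal 11 * ((ENNReal.ofReal 2 * ENNReal.ofReal (2 * K * t)) ^ 2 *
      (ENNReal.ofReal 2 * ENNReal.ofReal (2 * K * t ^ 3)) ^ 2) +
      (ENNReal.ofReal 2 * (ENNReal.ofReal (2 * K * t) * ENNReal.ofReal (2 * K * t ^ 3)) +
        ENNReal.ofReal (2 * K * t ^ 3) ^ 2) + ENNReal.ofReal m := by
        rw [h11]
        gcongr
        exact h22.le
    _ = ENNReal.ofReal (11 * ((2 * (2 * K * t)) ^ 2 * (2 * (2 * K * t ^ 3)) ^ 2) +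
        (2 * ((2 * K * t) * (2 * K * t ^ 3)) + (2 * K * t ^ 3) ^ 2) + m) :=
        ofReal_numbers hp hq hm0
    _ ≤ _ := by
        apply ENNReal.ofReal_le_ofReal
        have ht1 : t ≤ 1 / 8 := by nlinarith
        have hKt2 : K ^ 2 * t ^ 2 ≤ 1 / 64 := by
          have : (K * t) ^ 2 ≤ (1 / 8) ^ 2 := pow_le_pow_left₀ (by positivity) (by linarith) 2
          calc K ^ 2 * t ^ 2 = (K * t) ^ 2 := by ring
            _ ≤ _ := by linarith
        have ht2 : t ^ 2 ≤ 1 / 64 := by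
          calc t ^ 2 ≤ (1 / 8) ^ 2 := pow_le_pow_left₀ ht ht1 2
            _ = _ := by norm_num
        have hY : 0 ≤ K ^ 2 * t ^ 4 := by positivity
        have e1 : 11 * ((2 * (2 * K * t)) ^ 2 * (2 * (2 * K * t ^ 3)) ^ 2) ≤
            2 * (K ^ 2 * t ^ 4) := by
          calc 11 * ((2 * (2 * K * t)) ^ 2 * (2 * (2 * K * t ^ 3)) ^ 2)
              = (K ^ 2 * t ^ 4) * (2816 * ((K ^ 2 * t ^ 2) * t ^ 2)) := by ring
            _ ≤ (K ^ 2 * t ^ 4) * (2816 * (1 / 64 * (1 / 64))) := by gcongr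
            _ ≤ _ := by linarith
        have e2 : 2 * ((2 * K * t) * (2 * K * t ^ 3)) = 8 * (K ^ 2 * t ^ 4) := by ring
        have e3 : (2 * K * t ^ 3) ^ 2 ≤ 4 * (K ^ 2 * t ^ 4) := by
          calc (2 * K * t ^ 3) ^ 2 = 4 * (K ^ 2 * t ^ 4) * t ^ 2 := by ring
            _ ≤ 4 * (K ^ 2 * t ^ 4) * 1 := by gcongr; linarith
            _ = _ := by ring
        nlinarith

/-! ### the main bound -/

variable {S : Cov (Fld G)} {g : Fld G → ℝ≥0∞}

/-- **one source polymer, small, background plane-like at the source** -/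
theorem src_small_chart (h : BkReg C) (c : Chp w (wPl ℤ) Z τ s τ' s') (hg : Gram S g)
    (ha : 0 < a) (ha' : 0 < a') (haa : a' ≤ 2 * a) (hr : 1 ≤ r) (hr' : 16 * r ≤ r')
    (hL : 64 * (340000 * C + 1) ^ 2 * r ≤ r') (hzU : z ∈ U) (hU : size r U ≤ 1)
    (hz : ball z (s1 * r' + r + MM + 1) ⊆ Z) (j : Fin 2) {ε : ℝ≥0∞} (h0 : W0 w g a' r' ε U)
    (hε : ε ≠ 0) (hε1 : ε ≤ 1) {F : Gr (Fld G)} (hev : IsEv F)
    (hF : pnorm (wU w a r U) F ≠ ∞) :
    pnorm (wU w a' r' U) (noct (conv S F) - Xb (cC τ s) (bb z j) (conv S F)) ≤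
      ENNReal.ofReal (16 * (340000 * C + 1) ^ 2 * ((r : ℝ) / r') ^ 2) *
        pnorm (wU w a r U) F := by
  have hC := h.nonneg
  have hr1 : (1 : ℝ) ≤ r := by exact_mod_cast hr
  have hr'1 : 1 ≤ r' := by omega
  have hrp : (0 : ℝ) < r' := by exact_mod_cast (by omega : 0 < r')
  have hr0 : (0 : ℝ) < r := by linarith
  set K := 340000 * C + 1 with hKd
  have hK : 1 ≤ K := by rw [hKd]; linarith
  have hK0 : 0 ≤ K := by linarith
  set ρ : ℝ := (r : ℝ) / r' with hρ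
  have hρ0 : 0 < ρ := by positivity
  set t := Real.sqrt ρ with htd
  have ht0 : 0 < t := Real.sqrt_pos.2 hρ0
  have htt : t ^ 2 = ρ := Real.sq_sqrt hρ0.le
  have hρK : 64 * K ^ 2 * ρ ≤ 1 := by
    rw [hρ, ← mul_div_assoc, div_le_one hrp]; exact hL
  have hKt : 8 * K * t ≤ 1 := by
    have h1 : (8 * K * t) ^ 2 ≤ 1 := by
      calc (8 * K * t) ^ 2 = 64 * K ^ 2 * t ^ 2 := by ring
        _ ≤ 1 := by rw [htt]; exact hρK
    nlinarith [mul_nonneg (mul_nonneg (by norm_num : (0 : ℝ) ≤ 8) hK0) ht0.le]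
  have ht1 : t ≤ 1 / 8 := by nlinarith
  have hD := D_rho ha haa hr hr'1
  rw [← hρ, ← htd] at hD
  set D := a' * Real.sqrt r' / (a * Real.sqrt r) with hDd
  have hD0 : 0 ≤ D := by positivity
  -- geometry
  have hdist : ∀ x ∈ U, fd z x ≤ r := by
    intro x hx
    rw [Bridgex915.size_eq_pack] at hU
    exact (Packx915.pack_le_one_iff fd_PD).1 hU z hzU x hx
  have hbx' : ∀ x ∈ U, ball x (s1 * r' + MM + 1) ⊆ Z := fun x hx =>
    (ball_subset_ball (by have := hdist x hx; omega)).trans hz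
  have hss : s1 * r ≤ s1 * r' := Nat.mul_le_mul_left _ (by omega)
  have hbx : ∀ x ∈ U, ball x (s1 * r + MM + 1) ⊆ Z := fun x hx =>
    (ball_mono x (by omega)).trans (hbx' x hx)
  have hbz := hbx' z hzU
  have hzZ : z ∈ Z := hbz (self_mem_ball z _)
  have hxZ : ∀ x ∈ U, x ∈ Z := fun x hx => hbx x hx (self_mem_ball x _)
  have hτ : ∀ x ∈ U, fd (τ x) (τ z) ≤ r := fun x hx => by
    rw [c.ch.iso x (hxZ x hx) z hzZ, fd_comm]; exact hdist x hx
  have hcb : cC τ s (bb z j) ≠ 0 := by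
    have := cC_bb_abs c.ch ((ball_mono z (by omega)).trans hbz) j
    intro h0'
    rw [h0', abs_zero] at this
    exact zero_ne_one this
  -- the weight inequalities
  have hpP : ∀ x ∈ U, ∃ x' ∈ U, GDefx387.WLe w a a' r r' x x'
      (P2 (mC τ s) (pC τ' s' (τ z))) (ENNReal.ofReal (2 * K * t)) := fun x hx => by
    refine ⟨z, hzU, ?_⟩
    rw [P2_chart]
    refine Wtx898.WLe.mono (c.WLe (hbx x hx) hbz (W2_P0 h ha ha'.le hr hr'1))
      (ENNReal.ofReal_le_ofReal ?_)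
    calc D * (516 * C * ((r : ℝ) / r')) = 516 * C * (D * ρ) := by rw [hρ]; ring
      _ ≤ K * (2 * t) := by
          apply mul_le_mul _ hD (by positivity) hK0
          rw [hKd]; linarith
      _ = _ := by ring
  have hpQ : ∀ x ∈ U, ∃ x' ∈ U, GDefx387.WLe w a a' r r' x x'
      (LinearMap.id - P2 (mC τ s) (pC τ' s' (τ z))) (ENNReal.ofReal (2 * K * t ^ 3)) :=
    fun x hx => by
    refine ⟨z, hzU, ?_⟩
    rw [P2_chart]
    refine Wtx898.WLe.mono (c.WLe_sub (hbx x hx) hbz (W2_id_sub_P0 h ha ha'.le hr hr' (hτ x hx)))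
      (ENNReal.ofReal_le_ofReal ?_)
    calc D * ((330000 * C + 1) * ((r : ℝ) / r') ^ 2) = (330000 * C + 1) * (D * ρ) * ρ := by
          rw [hρ]; ring
      _ ≤ K * (2 * t) * ρ := by
          apply mul_le_mul_of_nonneg_right _ hρ0.le
          apply mul_le_mul _ hD (by positivity) hK0
          rw [hKd]; linarith
      _ = _ := by rw [← htt]; ring
  have hp1 : ∀ x ∈ U, ∃ x' ∈ U, GDefx387.WLe w a a' r r' x x' LinearMap.id
      (ENNReal.ofReal (2 * K * t)) := fun x hx => by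
    refine ⟨x, hx, ?_⟩
    refine Wtx898.WLe.mono (c.WLe_id (hbx x hx) (hbx' x hx) (h.W1 ha ha'.le hr hr' (τ x)))
      (ENNReal.ofReal_le_ofReal ?_)
    calc D * ((340000 * C + 1) * ((r : ℝ) / r')) = K * (D * ρ) := by rw [hρ, hKd]; ring
      _ ≤ K * (2 * t) := mul_le_mul_of_nonneg_left hD hK0
      _ = _ := by ring
  have hpt : 0 < 2 * K * t := by positivity
  have hqt : 0 < 2 * K * t ^ 3 := by positivity
  have h14 : (1 / 4 : ℝ≥0∞) = ENNReal.ofReal (1 / 4) := by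
    rw [ENNReal.ofReal_div_of_pos (by norm_num)]; simp
  have h2ε : (1 + ε) ≤ ENNReal.ofReal 2 := by
    calc 1 + ε ≤ 1 + 1 := by gcongr
      _ = ENNReal.ofReal 2 := by rw [ENNReal.ofReal_ofNat]; norm_num
  have key := src_small_U (U := U) hg (mC τ s) (pC τ' s' (τ z)) (b := bb z j) (hom2_bb z j)
    (by rw [formL_mC]; exact hcb) (ε := ε) (P := ENNReal.ofReal (2 * K * t))
    (Q := ENNReal.ofReal (2 * K * t ^ 3)) (p0 := ENNReal.ofReal (2 * K * t))
    (μ := ENNReal.ofReal (516 * r / (a * Real.sqrt r)))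
    (β := ENNReal.ofReal (100 * C ^ 2 * a' ^ 2 / r' ^ 2)) h0 hε
    (ne_top_of_le_ne_top ENNReal.one_ne_top hε1) ENNReal.ofReal_ne_top
    (by rw [Ne, ENNReal.ofReal_eq_zero]; linarith)
    (by
      rw [h14]
      refine (mul_le_mul' h2ε le_rfl).trans ?_
      rw [← ENNReal.ofReal_mul (by norm_num)]
      apply ENNReal.ofReal_le_ofReal
      have h64 : t ^ 2 ≤ 1 / 64 := by
        calc t ^ 2 ≤ (1 / 8) ^ 2 := pow_le_pow_left₀ ht0.le ht1 2
          _ = _ := by norm_num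
      calc 2 * (2 * K * t ^ 3) = (8 * K * t) * t ^ 2 / 2 := by ring
        _ ≤ 1 * (1 / 64) / 2 := by gcongr
        _ ≤ _ := by norm_num)
    (by
      apply ENNReal.ofReal_le_ofReal
      have h64 : t ^ 2 ≤ 1 := by nlinarith
      calc 2 * K * t ^ 3 = 2 * K * t * t ^ 2 := by ring
        _ ≤ 2 * K * t * 1 := by gcongr
        _ = _ := by ring)
    (by rw [Ne, ENNReal.ofReal_eq_zero]; linarith)
    (by
      rw [h14]
      refine (mul_le_mul' hε1 le_rfl).trans ?_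
      rw [one_mul]
      apply ENNReal.ofReal_le_ofReal
      linarith)
    (by
      rw [Ne, ENNReal.ofReal_eq_zero, not_le]
      have : 0 < Real.sqrt (r : ℝ) := Real.sqrt_pos.2 hr0
      positivity)
    ENNReal.ofReal_ne_top hp1 hpP hpQ
    (fun i x hx l hl => mC_le c ha hr (hbx x hx) i hl)
    (bond_rem_chart h c ha'.le (by omega) hzU hbz j) hev hF
  rw [formL_mC] at key
  refine key.trans (mul_le_mul' ?_ le_rfl)
  -- the constant
  have hcb1 : ‖(cC τ s (bb z j))⁻¹‖ₑ = 1 := by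
    rw [Real.enorm_eq_ofReal_abs, abs_inv,
      cC_bb_abs c.ch ((ball_mono z (by omega)).trans hbz) j]
    simp
  have hs : 0 < Real.sqrt (r : ℝ) := Real.sqrt_pos.2 hr0
  have hm : ‖(cC τ s (bb z j))⁻¹‖ₑ * (2 * ENNReal.ofReal (516 * r / (a * Real.sqrt r)) ^ 2) *
      ENNReal.ofReal (100 * C ^ 2 * a' ^ 2 / r' ^ 2) =
      ENNReal.ofReal (2 * (516 * r / (a * Real.sqrt r)) ^ 2 * (100 * C ^ 2 * a' ^ 2 / r' ^ 2)) := by
    rw [hcb1, one_mul, ENNReal.ofReal_mul (by positivity), ENNReal.ofReal_mul (by norm_num),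
      ENNReal.ofReal_pow (by positivity), ENNReal.ofReal_ofNat]
  rw [hm]
  refine (src_numbers hK ht0.le hKt (by positivity) ?_ hε1).trans (le_of_eq ?_)
  · have e1 : 2 * (516 * r / (a * Real.sqrt r)) ^ 2 * (100 * C ^ 2 * a' ^ 2 / r' ^ 2) =
        200 * (516 * C) ^ 2 * (a' / a) ^ 2 * (r / r') * (1 / r') := by
      have hsq : Real.sqrt (r : ℝ) ^ 2 = r := Real.sq_sqrt hr0.le
      rw [div_pow, mul_pow a, hsq]
      field_simp
      ring
    have e2 : a' / a ≤ 2 := by rw [div_le_iff₀ ha]; exact haa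
    have e3 : 1 / (r' : ℝ) ≤ ρ := by rw [hρ]; gcongr
    have e4 : (a' / a) ^ 2 ≤ 4 := by
      calc (a' / a) ^ 2 ≤ 2 ^ 2 := pow_le_pow_left₀ (by positivity) e2 2
        _ = 4 := by norm_num
    have e5 : (516 * C) ^ 2 ≤ (K / 600) ^ 2 :=
      pow_le_pow_left₀ (by positivity) (by rw [hKd]; linarith) 2
    rw [e1]
    calc 200 * (516 * C) ^ 2 * (a' / a) ^ 2 * (r / r') * (1 / r')
        ≤ 200 * (K / 600) ^ 2 * 4 * ρ * ρ := by
          rw [hρ] at *
          gcongr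
      _ = K ^ 2 * ρ ^ 2 * (800 / 360000) := by ring
      _ ≤ K ^ 2 * ρ ^ 2 * 1 := by gcongr; norm_num
      _ = K ^ 2 * t ^ 4 := by rw [← htt]; ring
  · congr 1
    rw [← htt]; ring



end chart

/-! ### large polymers with sources, with room -/

/-- **large polymers**: `j ≤ |U|` sources, each of which costs `Λ`; `c0` = room in the size weight -/
theorem gain_room {X : Type*} {d : X → X → ℕ} {U : Finset X} {r r' R : ℕ} (hd : Packx915.PD d)
    (hU : Packx915.Conn d R U) (h : 4 * R + 3 * r + 2 ≤ r') (h2 : 2 ≤ Packx915.pack d r U)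
    {Γ c0 Λ a A B : ℝ≥0∞} (hc : 1 ≤ c0) (hΛ : 1 ≤ Λ) (h1 : 1 ≤ a) (hΓt : Γ ≠ ∞)
    (ha : (c0 * Λ * a) ^ 2 ≤ Γ) {j n : ℕ} (hj : j ≤ Packx915.pack d r U)
    (hn : n ≤ Packx915.pack d r U) (hAB : A ≤ a ^ n * B) :
    (c0 * Γ) ^ Packx915.pack d r' U * (Λ ^ j * A) ≤
      ((c0 * Λ * a) ^ 2 * Γ⁻¹) * (Γ ^ Packx915.pack d r U * B) := by
  have h3 := two_mul_pack_le hd hU h h2
  have hca : 1 ≤ c0 * Λ * a := one_le_mul_of_one_le_of_one_le
    (one_le_mul_of_one_le_of_one_le hc hΛ) h1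
  have h4 := gam_gain hca hΓt ha h3 h2
  calc (c0 * Γ) ^ Packx915.pack d r' U * (Λ ^ j * A)
      ≤ (c0 * Γ) ^ Packx915.pack d r' U *
        (Λ ^ Packx915.pack d r U * (a ^ Packx915.pack d r U * B)) := by
        refine mul_le_mul' le_rfl (mul_le_mul' (pow_le_pow_right₀ hΛ hj)
          (hAB.trans (mul_le_mul' ?_ le_rfl)))
        exact pow_le_pow_right₀ h1 hn
    _ = (Γ ^ Packx915.pack d r' U * (c0 ^ Packx915.pack d r' U *
        (Λ * a) ^ Packx915.pack d r U)) * B := by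
        rw [mul_pow c0, mul_pow Λ]; ring
    _ ≤ (Γ ^ Packx915.pack d r' U * (c0 ^ Packx915.pack d r U *
        (Λ * a) ^ Packx915.pack d r U)) * B := by
        gcongr
        omega
    _ = (Γ ^ Packx915.pack d r' U * (c0 * Λ * a) ^ Packx915.pack d r U) * B := by
        rw [mul_assoc c0, mul_pow c0]
    _ ≤ (((c0 * Λ * a) ^ 2 * Γ⁻¹) * Γ ^ Packx915.pack d r U) * B := by gcongr
    _ = _ := by ring

section large

variable {G : Type} [CommRing G] [CN G] {w : BW G} {U : Finset (G × G)} {S : Cov (Fld G)}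
  {g : Fld G → ℝ≥0∞}

/-- separated faces in `U` -/
theorem card_src_le_size {ι : Type*} (I : Finset ι) (f : ι → G × G) (hf : ∀ i ∈ I, f i ∈ U)
    (hsep : ∀ i ∈ I, ∀ j ∈ I, i ≠ j → r < fd (f i) (f j)) : I.card ≤ size r U := by
  rw [Bridgex915.size_eq_pack]
  exact card_le_pack_of_near fd_PD I f (ρ := 0) (fun i hi => ⟨f i, hf i hi, by simp⟩)
    (fun i hi j hj hij => by have := hsep i hi j hj hij; omega)


end large

end Crest.Agent.R165.Srcx336
end
end

-- ▼ part R165/SrcLin_336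

/-!
# Row 165 (S0250), leaf P11: linear part of the source step in the norm `pG (wS w v)` (helper336)

* `linR S mu b J K` : convolution minus the part without fields minus the terms extracted along the
  bond forms `b i`, `i ∈ J`, from the coefficients of one `tau i`
* `coP_linR`, `linR_mem`, `pG_linR_le` : coefficientwise bounds give the bound in `pG (wS w v)`
* `src_lin_small` : small polymers at a source, factor `Λ * 16 (340000 C + 1)² (r/r')²`
* `src_lin_large` : large polymers with sources, factor `(c0 Λ (1 + 2 (1+ε) p))² / Γ` with room `c0`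
-/

set_option autoImplicit false
set_option linter.unusedSectionVars false

noncomputable section

open scoped ENNReal
open Crest.Agent.R165.Gr0x606 Crest.Agent.R165.Gr1x606 Crest.Agent.R165.GeOpsx337
  Crest.Agent.R165.ExpGx337 Crest.Agent.R165.PNormx417 Crest.Agent.R165.SrcDefx991
  Crest.Agent.R165.Latx683 Crest.Agent.R165.GDefx387 Crest.Agent.R165.GLinx336
  Crest.Agent.R165.Srcx336 Crest.Agent.R165.WChx336 Crest.Agent.R165.W2x812
  Crest.Agent.R165.Bridgex915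

namespace Crest.Agent.R165.SrcLinx336

section abstract

variable {V : Type*} [AddCommGroup V] [Module ℝ V] {m : ℕ}

/-- **the linear remainder of a source term** -/
def linR (S : Cov V) (mu : Fin m → Ge V →ₗ[ℝ] ℝ) (b : Fin m → Ge V) (J : Finset (Fin m))
    (K : Ge (VS V m)) : Ge (VS V m) :=
  cvG (ext0 m S) K - vacH (cvG (ext0 m S) K) -
    ∑ i ∈ J, tau i * inG m (mu i (coP {i} (cvG (ext0 m S) K)) • b i)

variable {S : Cov V} {mu : Fin m → Ge V →ₗ[ℝ] ℝ} {b : Fin m → Ge V} {J : Finset (Fin m)}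
  {K : Ge (VS V m)}

theorem linR_mem (hK : K ∈ GS V m) : linR S mu b J K ∈ GS V m :=
  Subalgebra.sub_mem _ (Subalgebra.sub_mem _ (GS_cvG S hK) (GS_vacH (GS_cvG S hK)))
    (Subalgebra.sum_mem _ fun i _ => Subalgebra.mul_mem _ (tau_mem i) (inG_mem _))

theorem coP_linR (hK : K ∈ GS V m) (I : Finset (Fin m)) :
    coP I (linR S mu b J K) = nl (cvG S (coP I K)) -
      ∑ i ∈ J, if I = {i} then mu i (cvG S (coP {i} K)) • b i else 0 := by
  have h1 := GS_cvG S hK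
  rw [linR, map_sub, map_sub, coP_vacH h1, coP_cvG S hK, map_sum, nl]
  congr 1
  refine Finset.sum_congr rfl fun i _ => ?_
  rw [coP_tau_inG, coP_cvG S hK]

theorem coP_linR_single (hK : K ∈ GS V m) {i : Fin m} (hi : i ∈ J) :
    coP {i} (linR S mu b J K) =
      nl (cvG S (coP {i} K)) - mu i (cvG S (coP {i} K)) • b i := by
  rw [coP_linR hK, Finset.sum_eq_single i]
  · rw [if_pos rfl]
  · intro j _ hj
    rw [if_neg fun h => hj (Finset.singleton_injective h).symm]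
  · intro h; exact absurd hi h

theorem coP_linR_other (hK : K ∈ GS V m) {I : Finset (Fin m)} (hI : ∀ i ∈ J, I ≠ {i}) :
    coP I (linR S mu b J K) = nl (cvG S (coP I K)) := by
  rw [coP_linR hK, Finset.sum_eq_zero, sub_zero]
  intro i hi
  rw [if_neg (hI i hi)]

/-- **coefficientwise bounds give the bound of the linear remainder** -/
theorem pG_linR_le {w w' : V → ℝ≥0∞} {v v' : Fin m → ℝ≥0∞} {q : ℝ≥0∞} (hw' : w' 0 = 0)
    (hv' : ∀ i, v' i ≠ ∞) (hv0' : ∀ i, v' i ≠ 0) (hK : K ∈ GS V m) (hK0 : noS K = 0)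
    (h1 : ∀ i ∈ J, v' i ^ 2 * pG w' (nl (cvG S (coP {i} K)) - mu i (cvG S (coP {i} K)) • b i) ≤
      q * (v i ^ 2 * pG w (coP {i} K)))
    (h2 : ∀ I : Finset (Fin m), I ≠ ∅ → (∀ i ∈ J, I ≠ {i}) →
      (∏ i ∈ I, v' i ^ 2) * pG w' (nl (cvG S (coP I K))) ≤
        q * ((∏ i ∈ I, v i ^ 2) * pG w (coP I K))) :
    pG (wS w' v') (linR S mu b J K) ≤ q * pG (wS w v) K := by
  refine (pG_GS_le hw' hv' hv0' (linR_mem hK)).trans ?_
  refine le_trans ?_ (mul_le_mul' le_rfl (sum_coP_le w v K))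
  rw [Finset.mul_sum]
  refine Finset.sum_le_sum fun I _ => ?_
  by_cases hI0 : I = ∅
  · subst hI0
    rw [coP_linR_other hK (fun i _ => (Finset.singleton_ne_empty i).symm), coP_empty, hK0, map_zero]
    simp [nl]
  · by_cases hI : ∃ i ∈ J, I = {i}
    · obtain ⟨i, hi, rfl⟩ := hI
      rw [coP_linR_single hK hi, Finset.prod_singleton, Finset.prod_singleton]
      exact h1 i hi
    · push Not at hI
      rw [coP_linR_other hK hI]
      exact h2 I hI0 hI

theorem prod_le_pow {v v' : Fin m → ℝ≥0∞} {Λ : ℝ≥0∞} (h : ∀ i, v' i ^ 2 ≤ Λ * v i ^ 2)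
    (I : Finset (Fin m)) : ∏ i ∈ I, v' i ^ 2 ≤ Λ ^ I.card * ∏ i ∈ I, v i ^ 2 := by
  calc ∏ i ∈ I, v' i ^ 2 ≤ ∏ i ∈ I, Λ * v i ^ 2 := Finset.prod_le_prod' fun i _ => h i
    _ = _ := by rw [Finset.prod_mul_distrib, Finset.prod_const]

theorem coe_nl (a : Ge V) : ((nl a : Ge V) : Gr V) = noct (a : Gr V) := by
  rw [nl, Ge.coe_sub, ge_coe_algebraMap, noct, ctG_apply]

theorem nl_cvG_zero (S : Cov V) : nl (cvG S (0 : Ge V)) = 0 := by
  rw [map_zero]; simp [nl]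

end abstract

/-! ### the concrete weights -/

section concrete

variable {G : Type} [CommRing G] [CN G] [GoodG G] {w : BW G} {m : ℕ} {a a' C : ℝ} {r r' : ℕ}
  {U : Finset (G × G)} {S : Cov (Fld G)} {g : Fld G → ℝ≥0∞}
  {mu : Fin m → Ge (Fld G) →ₗ[ℝ] ℝ} {b : Fin m → Ge (Fld G)} {J : Finset (Fin m)}
  {K : Ge (VS (Fld G) m)} {v v' : Fin m → ℝ≥0∞} {Λ : ℝ≥0∞}

theorem wU_zero (w : BW G) (a : ℝ) (r : ℕ) {U : Finset (G × G)} (hU : U.Nonempty) :
    GDefx387.wU w a r U 0 = 0 := by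
  obtain ⟨x, hx⟩ := hU
  refine le_antisymm ?_ zero_le
  refine (WtIsox898.wU_le hx (Wtx898.suppL_zero _)).trans (le_of_eq ?_)
  exact GBulkx417.wt_zero w a r x

/-- the data of a source at the face `z`, bond `(z, j)`: the chart, and the extraction `mu • b` -/
structure SrcAt (w : BW G) (R : ℕ) (z : G × G) (j : Fin 2) (mu : Ge (Fld G) →ₗ[ℝ] ℝ)
    (b : Ge (Fld G)) : Prop where
  ex : ∃ (Z : Set (G × G)) (τ : G × G → ℤ × ℤ) (s : G × G → ℝ) (τ' : ℤ × ℤ → G × G)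
    (s' : ℤ × ℤ → ℝ), Chp w (wPl ℤ) Z τ s τ' s' ∧ ball z R ⊆ Z ∧
      ∀ F : Ge (Fld G), ((mu F • b : Ge (Fld G)) : Gr (Fld G)) =
        Xb (cC τ s) (bb z j) (F : Gr (Fld G))

/-- **small polymers** at the sources -/
theorem src_lin_small (h : BkReg C) (hg : Gram S g) (ha : 0 < a) (ha' : 0 < a')
    (haa : a' ≤ 2 * a) (hr : 1 ≤ r) (hr' : 16 * r ≤ r')
    (hL : 64 * (340000 * C + 1) ^ 2 * r ≤ r') (hU : U.Nonempty) (hs : size r U ≤ 1)
    {z : Fin m → G × G} {j : Fin m → Fin 2} (hsep : ∀ i i', i ≠ i' → r < fd (z i) (z i'))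
    (hJz : ∀ i ∈ J, z i ∈ U) (hJ : ∀ i, coP {i} K ≠ 0 → i ∈ J)
    (hsrc : ∀ i ∈ J, SrcAt w (s1 * r' + r + MM + 1) (z i) (j i) (mu i) (b i)) {ε : ℝ≥0∞}
    (h0 : W0 w g a' r' ε U) (hε : ε ≠ 0) (hε1 : ε ≤ 1) (hv : ∀ i, v i ≠ 0)
    (hv' : ∀ i, v' i ≠ ∞) (hv0' : ∀ i, v' i ≠ 0) (hΛ : ∀ i, v' i ^ 2 ≤ Λ * v i ^ 2)
    (hK : K ∈ GS (Fld G) m) (hK0 : noS K = 0)
    (hsup : ∀ I : Finset (Fin m), coP I K ≠ 0 → ∀ i ∈ I, z i ∈ U) :
    pG (wS (GDefx387.wU w a' r' U) v') (linR S mu b J K) ≤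
      (Λ * ENNReal.ofReal (16 * (340000 * C + 1) ^ 2 * ((r : ℝ) / r') ^ 2)) *
        pG (wS (GDefx387.wU w a r U) v) K := by
  have hC := h.nonneg
  have hf0 : ENNReal.ofReal (16 * (340000 * C + 1) ^ 2 * ((r : ℝ) / r') ^ 2) ≠ 0 := by
    rw [Ne, ENNReal.ofReal_eq_zero, not_le]
    have h1 : (0 : ℝ) < r := by exact_mod_cast hr
    have h2 : (0 : ℝ) < r' := by exact_mod_cast (by omega : 0 < r')
    positivity
  set f := ENNReal.ofReal (16 * (340000 * C + 1) ^ 2 * ((r : ℝ) / r') ^ 2) with hf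
  refine pG_linR_le (wU_zero w a' r' hU) hv' hv0' hK hK0 (fun i hi => ?_) fun I hI0 hI => ?_
  · have hzU : z i ∈ U := hJz i hi
    obtain ⟨Z, τ, s, τ', s', c, hz, hmu⟩ := (hsrc i hi).ex
    have hΛ0 : Λ ≠ 0 := by
      intro hh
      have := hΛ i
      rw [hh, zero_mul] at this
      exact pow_ne_zero 2 (hv0' i) (le_antisymm this zero_le)
    by_cases hF : pG (GDefx387.wU w a r U) (coP {i} K) = ∞
    · rw [hF, ENNReal.mul_top (pow_ne_zero 2 (hv i)), ENNReal.mul_top (mul_ne_zero hΛ0 hf0)]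
      exact le_top
    · have key := src_small_chart h c hg ha ha' haa hr hr' hL hzU hs hz (j i) h0 hε hε1
        (coP {i} K).2 hF
      have e1 : ((nl (cvG S (coP {i} K)) - mu i (cvG S (coP {i} K)) • b i : Ge (Fld G)) :
          Gr (Fld G)) = noct (conv S ((coP {i} K : Ge (Fld G)) : Gr (Fld G))) -
            Xb (cC τ s) (bb (z i) (j i)) (conv S ((coP {i} K : Ge (Fld G)) : Gr (Fld G))) := by
        rw [Ge.coe_sub, coe_nl, hmu, coe_cvG]
      rw [pG_def, e1]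
      calc v' i ^ 2 * _ ≤ (Λ * v i ^ 2) * (f * pG (GDefx387.wU w a r U) (coP {i} K)) :=
            mul_le_mul' (hΛ i) key
        _ = _ := by ring
  · -- no other coefficients
    have h0' : coP I K = 0 := by
      by_contra hne
      have h1 := card_src_le_size (r := r) (U := U) I z (hsup I hne)
        (fun i _ i' _ hii => hsep i i' hii)
      have h2 : I.card = 1 := by
        have := Finset.card_pos.2 (Finset.nonempty_iff_ne_empty.2 hI0)
        omega
      obtain ⟨i, rfl⟩ := Finset.card_eq_one.1 h2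
      exact hI i (hJ i hne) rfl
    rw [h0', nl_cvG_zero]
    simp

/-- **large polymers** with sources, from the bound of one coefficient -/
theorem src_lin_large' {A Γ c0 : ℝ≥0∞} {R : ℕ} (hUc : Packx915.Conn fd R U)
    (hR : 4 * R + 3 * r + 2 ≤ r') (h2 : 2 ≤ size r U) (hA1 : 1 ≤ A) (hc : 1 ≤ c0)
    (hΛ1 : 1 ≤ Λ) (hΓt : Γ ≠ ∞) (hΓ : (c0 * Λ * A) ^ 2 ≤ Γ) {n : ℕ} (hn : n ≤ size r U)
    (hA : ∀ k : Ge (Fld G), pG (GDefx387.wU w a' r' U) (cvG S k) ≤
      A ^ n * pG (GDefx387.wU w a r U) k)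
    {z : Fin m → G × G} (hsep : ∀ i i', i ≠ i' → r < fd (z i) (z i'))
    (hv' : ∀ i, v' i ≠ ∞) (hv0' : ∀ i, v' i ≠ 0) (hΛ : ∀ i, v' i ^ 2 ≤ Λ * v i ^ 2)
    (hK : K ∈ GS (Fld G) m)
    (hsup : ∀ I : Finset (Fin m), coP I K ≠ 0 → ∀ i ∈ I, z i ∈ U) :
    (c0 * Γ) ^ size r' U * pG (wS (GDefx387.wU w a' r' U) v') (linR S mu b ∅ K) ≤
      ((c0 * Λ * A) ^ 2 * Γ⁻¹) * (Γ ^ size r U * pG (wS (GDefx387.wU w a r U) v) K) := by
  have hU : U.Nonempty := by
    rw [Finset.nonempty_iff_ne_empty]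
    rintro rfl
    have : size r (∅ : Finset (G × G)) = 0 := by
      rw [Bridgex915.size_eq_pack]; unfold Packx915.pack; simp
    omega
  have h3 := pG_GS_le (w := GDefx387.wU w a' r' U) (v := v') (wU_zero w a' r' hU) hv' hv0'
    (linR_mem (S := S) (mu := mu) (b := b) (J := ∅) hK)
  refine (mul_le_mul' le_rfl h3).trans ?_
  refine le_trans ?_ (mul_le_mul' le_rfl (mul_le_mul' le_rfl
    (sum_coP_le (GDefx387.wU w a r U) v K)))
  rw [Finset.mul_sum, Finset.mul_sum, Finset.mul_sum]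
  refine Finset.sum_le_sum fun I _ => ?_
  rw [coP_linR_other hK (fun i hi => absurd hi (Finset.notMem_empty i))]
  by_cases hI : coP I K = 0
  · rw [hI, nl_cvG_zero, pG_zero, mul_zero, mul_zero]
    exact zero_le
  · have hcard : I.card ≤ Packx915.pack fd r U := by
      have := card_src_le_size (r := r) (U := U) I z (hsup I hI)
        (fun i _ i' _ hii => hsep i i' hii)
      rwa [Bridgex915.size_eq_pack] at this
    rw [Bridgex915.size_eq_pack] at h2 hn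
    have h4 : pG (GDefx387.wU w a' r' U) (nl (cvG S (coP I K))) ≤
        A ^ n * pG (GDefx387.wU w a r U) (coP I K) := by
      refine le_trans ?_ (hA (coP I K))
      rw [pG_def, coe_nl]
      exact pnorm_noct_le _ _
    have key := gain_room (A := pG (GDefx387.wU w a' r' U) (nl (cvG S (coP I K))))
      (B := pG (GDefx387.wU w a r U) (coP I K)) fd_PD hUc hR h2 hc hΛ1 hA1 hΓt hΓ hcard hn h4
    rw [Bridgex915.size_eq_pack, Bridgex915.size_eq_pack]
    calc (c0 * Γ) ^ Packx915.pack fd r' U * ((∏ i ∈ I, v' i ^ 2) *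
          pG (GDefx387.wU w a' r' U) (nl (cvG S (coP I K))))
        ≤ (c0 * Γ) ^ Packx915.pack fd r' U * ((Λ ^ I.card * ∏ i ∈ I, v i ^ 2) *
          pG (GDefx387.wU w a' r' U) (nl (cvG S (coP I K)))) := by
          gcongr
          exact prod_le_pow hΛ I
      _ = (∏ i ∈ I, v i ^ 2) * ((c0 * Γ) ^ Packx915.pack fd r' U * (Λ ^ I.card *
          pG (GDefx387.wU w a' r' U) (nl (cvG S (coP I K))))) := by ring
      _ ≤ (∏ i ∈ I, v i ^ 2) * (((c0 * Λ * A) ^ 2 * Γ⁻¹) *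
          (Γ ^ Packx915.pack fd r U * pG (GDefx387.wU w a r U) (coP I K))) :=
          mul_le_mul' le_rfl key
      _ = _ := by ring

/-- **the linear part of the source step, all polymers** -/
theorem src_lin (h : BkReg C) (hg : Gram S g) (ha : 0 < a) (ha' : 0 < a')
    (haa : a' ≤ 2 * a) (hr : 1 ≤ r) (hr' : 16 * r ≤ r')
    (hL : 64 * (340000 * C + 1) ^ 2 * r ≤ r') (hU : U.Nonempty) {ε : ℝ≥0∞}
    (h0 : W0 w g a' r' ε U) (hε : ε ≠ 0) (hε1 : ε ≤ 1)
    {A Γ c0 : ℝ≥0∞} {R : ℕ} (hUc : Packx915.Conn fd R U)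
    (hR : 4 * R + 3 * r + 2 ≤ r') (hA1 : 1 ≤ A) (hc : 1 ≤ c0)
    (hΛ1 : 1 ≤ Λ) (hΓ1 : 1 ≤ Γ) (hΓt : Γ ≠ ∞) (hΓ : (c0 * Λ * A) ^ 2 ≤ Γ) {n : ℕ}
    (hn : n ≤ size r U)
    (hA : 2 ≤ size r U → ∀ k : Ge (Fld G), pG (GDefx387.wU w a' r' U) (cvG S k) ≤
      A ^ n * pG (GDefx387.wU w a r U) k)
    {z : Fin m → G × G} {j : Fin m → Fin 2} (hsep : ∀ i i', i ≠ i' → r < fd (z i) (z i'))
    (hJs : ¬ size r U ≤ 1 → J = ∅) (hJz : ∀ i ∈ J, z i ∈ U)
    (hJ : size r U ≤ 1 → ∀ i, coP {i} K ≠ 0 → i ∈ J)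
    (hsrc : ∀ i ∈ J, SrcAt w (s1 * r' + r + MM + 1) (z i) (j i) (mu i) (b i))
    (hv : ∀ i, v i ≠ 0) (hv' : ∀ i, v' i ≠ ∞) (hv0' : ∀ i, v' i ≠ 0)
    (hΛ : ∀ i, v' i ^ 2 ≤ Λ * v i ^ 2) (hK : K ∈ GS (Fld G) m) (hK0 : noS K = 0)
    (hsup : ∀ I : Finset (Fin m), coP I K ≠ 0 → ∀ i ∈ I, z i ∈ U) :
    (c0 * Γ) ^ size r' U * pG (wS (GDefx387.wU w a' r' U) v') (linR S mu b J K) ≤
      max (c0 * (Λ * ENNReal.ofReal (16 * (340000 * C + 1) ^ 2 * ((r : ℝ) / r') ^ 2)))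
        ((c0 * Λ * A) ^ 2 * Γ⁻¹) *
        (Γ ^ size r U * pG (wS (GDefx387.wU w a r U) v) K) := by
  by_cases hs : size r U ≤ 1
  · have key := src_lin_small h hg ha ha' haa hr hr' hL hU hs hsep hJz (hJ hs) hsrc h0 hε hε1 hv
      hv' hv0' hΛ hK hK0 hsup
    have e1 : (c0 * Γ) ^ size r' U ≤ c0 * Γ ^ size r U := by
      have h1 : size r' U ≤ size r U := by
        rw [Bridgex915.size_eq_pack, Bridgex915.size_eq_pack]
        exact Packx915.pack_anti (by omega)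
      rw [mul_pow]
      refine mul_le_mul' ?_ (pow_le_pow_right₀ hΓ1 h1)
      calc c0 ^ size r' U ≤ c0 ^ 1 := pow_le_pow_right₀ hc (h1.trans hs)
        _ = c0 := pow_one _
    calc _ ≤ (c0 * Γ ^ size r U) *
          ((Λ * ENNReal.ofReal (16 * (340000 * C + 1) ^ 2 * ((r : ℝ) / r') ^ 2)) *
            pG (wS (GDefx387.wU w a r U) v) K) := mul_le_mul' e1 key
      _ = (c0 * (Λ * ENNReal.ofReal (16 * (340000 * C + 1) ^ 2 * ((r : ℝ) / r') ^ 2))) *
          (Γ ^ size r U * pG (wS (GDefx387.wU w a r U) v) K) := by ring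
      _ ≤ _ := mul_le_mul' (le_max_left _ _) le_rfl
  · have hJ0 := hJs hs
    subst hJ0
    exact (src_lin_large' hUc hR (by omega) hA1 hc hΛ1 hΓt hΓ hn (hA (by omega)) hsep hv' hv0' hΛ
      hK hsup).trans (mul_le_mul' (le_max_right _ _) le_rfl)

end concrete

end Crest.Agent.R165.SrcLinx336
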