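import Crest.Agent.R165.JRun_445
import Crest.Agent.R165.Bkg_683
import Crest.Agent.R165.JDomA_606
import Crest.Agent.R165.SrcER_441
import Crest.Agent.R165.GSysOK_439

-- ▼ part R165/JRunS_408
section

/-!
# Row 165 (S0250), block J: the energy ratios as runs with sources (helper408)

Backgrounds `Bg.dom T b X` of Bkg_683, sources `bondSrc`, generating element `srcZ` of JRun_445.

* `frG_inl`     : the frame of Bkg_683 with sources is the frame of J4Lnk3_653
* `VolS`        : admissible volumes; `exists_volS` : all volumes containing a fixed finite set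
* `domMom_srcZ` : `domMom / spm = ctG (coP univ Z) / ctG Z`
* `TH_obR`, `D0c_bnd` : `D0c / spm0 = EEG (Cof w) (∏ bnd (-2 w_e) (1 - e0) p q)`
* `q_run`, `q0_run` : the two identities of `ERPack` (SrcER_441) at step `n`
* `ev_src_C2`, `ev_src_disc`
-/

set_option autoImplicit false
set_option linter.unusedSectionVars false

noncomputable section

open Filter Topology Finset
open Crest.ProbabilityR.IsingModel

namespace Crest.Agent.R165.JRunSx408

open Crest.Agent.R165.Gr0x606 Crest.Agent.R165.Gr1x606 Crest.Agent.R165.J1ax606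
open Crest.Agent.R165.GeOpsx337 Crest.Agent.R165.ExpGx337 Crest.Agent.R165.KStepx892
  Crest.Agent.R165.KFlowx337 Crest.Agent.R165.SrcDefx991 Crest.Agent.R165.KInitx892
open Crest.Agent.R165.J4Defx653 Crest.Agent.R165.J4RRx653 Crest.Agent.R165.J4K0x126
  Crest.Agent.R165.J4Geox126
open Crest.Agent.R165.J4Lnkx653 (frS frV PL PL_dom obR gw EG' ez_eq_trEd)
open Crest.Agent.R165.JRunx445 Crest.Agent.R165.JDomAx606
open Crest.Agent.R165.Bkgx683 (frG MPar mpar bondSrc Bg cor)
open Crest.Agent.R165.Latx683 (BW wDom ray wX IsCov covS formS Fld)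
open Crest.Agent.R165.Centx541 Crest.Agent.R165.Redx541 Crest.Agent.R165.Symx541
  Crest.Agent.R165.Red2x541 Crest.Agent.R165.Topx683 Crest.Agent.R165.SRx541
open Crest.Agent.R165.UKerx420 (wD Cof Sof Sof_spec Sof_skew)
open Crest.Agent.R165.UFinx420 (isF)
open Crest.Agent.R165.Covx359 (un)
open Crest.Agent.R165.J2ax606 (bar)

/-! ### frames -/

section frame

variable {G : Type} [CommRing G] [DecidableEq G]

theorem frG_inl (m : ℕ) : frG (LinearMap.inl ℝ (Fld G) (Src m)) = frS G m := by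
  unfold frG frS
  congr 1
  · funext e
    change _ = inG m (bi _ _)
    rw [inG, mpG_bi]
  · funext f
    change _ = inG m (J4Lnkx653.I4 f)
    rw [J4Lnkx653.I4, map_sum]
    refine Finset.sum_congr rfl fun p _ => ?_
    rw [inG, mpG_bi]

end frame

/-! ### volumes -/

/-- admissible volumes -/
structure VolS (T : Finset (ℤ × ℤ)) (b : BoundaryCondition) (R : ℕ) {m : ℕ} (e : Fin m → EG ℤ)
    (Λ : Finset (ℤ × ℤ)) : Prop where
  shp : ∀ S ∈ BB T b R, Yf S ⊆ Λ
  cor : ∀ f, cor T f → f ∈ Λ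
  nbr : ∀ h : HE ℤ, Bkgx683.cor T h.1 → (bar h).1 ∈ Λ
  src : ∀ k, faE (e k) ⊆ Λ




theorem VolS.mono {T : Finset (ℤ × ℤ)} {b : BoundaryCondition} {R m : ℕ} {e : Fin m → EG ℤ}
    {Λ Λ' : Finset (ℤ × ℤ)} (h : VolS T b R e Λ) (hΛ : Λ ⊆ Λ') : VolS T b R e Λ' where
  shp S hS := (h.shp S hS).trans hΛ
  cor f hf := hΛ (h.cor f hf)
  nbr k hk := hΛ (h.nbr k hk)
  src k := (h.src k).trans hΛ

/-! ### the generating element of a domain -/

theorem dom_w {D : Set ℂ} {a : ℝ} (h : (domainSites D a).Finite) (b : BoundaryCondition) {n : ℕ}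
    (X : Fin n → ℤ × ℤ) : (Bg.dom h.toFinset b X).w = wD (isF b) D a X := by
  unfold Bg.dom wD
  rw [h.coe_toFinset]
  rfl

/-- the initial activities of the domain with bond sources -/
def K0S {D : Set ℂ} {a : ℝ} (h : (domainSites D a).Finite) (b : BoundaryCondition) (P : MPar)
    {n m : ℕ} (X : Fin n → ℤ × ℤ) (e : Fin m → EG ℤ) : Finset (ℤ × ℤ) → Ge (VS (Fld ℤ) m) :=
  (Bg.dom h.toFinset b X).K00 P (LinearMap.inl ℝ (Fld ℤ) (Src m)) (bondSrc (Fld ℤ) e)

/-- the generating element of the domain with bond sources, centring `c` -/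
def Zs {D : Set ℂ} {a : ℝ} (h : (domainSites D a).Finite) (b : BoundaryCondition) (P : MPar)
    {n m : ℕ} (X : Fin n → ℤ × ℤ) (e : Fin m → EG ℤ) (Λ : Finset (ℤ × ℤ)) (c : Fin m → ℝ) :
    Ge (VS (Fld ℤ) m) := srcZ (Cof (wD (isF b) D a X)) Λ (K0S h b P X e) c

theorem srcs_univ {T : Finset (ℤ × ℤ)} {b : BoundaryCondition} {P : MPar} {n m : ℕ}
    (X : Fin n → ℤ × ℤ) (e : Fin m → EG ℤ) {Λ : Finset (ℤ × ℤ)} (hv : ∀ k, faE (e k) ⊆ Λ) :
    ((Bg.dom T b X).bk P (bondSrc (Fld ℤ) e)).srcs Λ = univ := by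
  unfold Bk.srcs
  rw [Finset.filter_true_of_mem]
  intro k _
  exact ⟨faE_nonempty _, hv k⟩

open Classical in
theorem coe_links {D : Set ℂ} {a : ℝ} (h : (domainSites D a).Finite) (b : BoundaryCondition)
    {J lam : ℝ} {R : ℕ} {V : Finset (ℤ × ℤ) → ℝ} {β z : ℝ} (hV : TrInv V) (hr : Rng R V)
    (hev : ∀ A, V A ≠ 0 → Even A.card) {n m : ℕ} (X : Fin n → ℤ × ℤ) (hX : Lk D a b X)
    (e : Fin m → EG ℤ) (c : Fin m → ℝ) {Λ : Finset (ℤ × ℤ)}
    (hΛ : VolS h.toFinset b (max R 1) e Λ) (hz : 0 < 1 + z) :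
    ∃ κ : ℝ, 0 < κ ∧
      ctG (coP univ (Zs h b (mpar J lam R V β z) X e Λ c)) =
        κ * EXf D a b J lam R V β h X (obR e c) ∧
      ctG (Zs h b (mpar J lam R V β z) X e Λ c) = κ * EXf D a b J lam R V β h X 1 := by
  set B := (Bg.dom h.toFinset b X).bk (mpar J lam R V β z) (bondSrc (Fld ℤ) e) with hB
  set W : Finset (ℤ × ℤ) := Λ.filter fun f => Bkgx683.cor h.toFinset f with hW
  have hy : B.y = un (wD (isF b) D a X) := by
    have := dom_w h b X
    rw [← this]
    rfl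
  have hWΛ : W ⊆ Λ := Finset.filter_subset _ _
  have hn : ∀ k : HE ℤ, k.1 ∈ W → (bar k).1 ∈ Λ := fun k hk => hΛ.nbr k (Finset.mem_filter.1 hk).2
  have hs : ∀ f, f ∉ W → B.s f = 1 := by
    intro f hf
    have : ¬ Bkgx683.cor h.toFinset f := fun hc => hf (Finset.mem_filter.2 ⟨hΛ.cor f hc, hc⟩)
    exact if_neg this
  have hs0 : ∀ f ∈ W, B.s f = Real.sqrt (1 + z) := by
    intro f hf
    exact if_pos (Finset.mem_filter.1 hf).2
  have hsr : B.srcs Λ = univ := srcs_univ X e hΛ.src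
  have hPL : PL B Λ = GD D a b J lam R V β h := by
    refine PL_dom B h.toFinset b (fun _ _ => Iff.rfl) hV.tpot (J4Lnkx653.tpot_rng hr)
      (J4Lnkx653.tpot_even hev) Λ hΛ.shp
  have hK : K0S h b (mpar J lam R V β z) X e = B.K0 (frS ℤ m) := by
    unfold K0S Bg.K00
    rw [frG_inl]
  have hS : IsCov (wD (isF b) D a X) (Sof (wD (isF b) D a X)) := Sof_spec hX.ex
  refine ⟨∏ f ∈ W, B.s f ^ 4, Finset.prod_pos fun f hf => ?_, ?_, ?_⟩
  · rw [hs0 f hf]
    have := Real.sqrt_pos.2 hz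
    positivity
  · have h1 := coP_link hS B rfl hy Λ W hsr hWΛ hn hs c
    unfold Zs
    rw [hK]
    refine h1.trans ?_
    rw [hPL]
    unfold EXf
    have h2 : (∏ k, (algebraMap ℝ (RR (EG ℤ)) (1 - c k) + B.Fs k)) = obR e c := by
      unfold obR
      refine Finset.prod_congr rfl fun k _ => ?_
      change _ + (ep (Finsupp.single (e k) 1) - 1) = _
      rw [map_sub, map_one]
      ring
    rw [h2, mul_comm (GD D a b J lam R V β h)]
    rfl
  · have h1 := ctG_link hS B rfl hy Λ W hsr hWΛ hn hs c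
    unfold Zs
    rw [hK]
    refine h1.trans ?_
    rw [hPL]
    unfold EXf
    rw [one_mul]
    rfl

/-- **the conditional energy moments as a ratio of source coefficients** -/
theorem domMom_srcZ {D : Set ℂ} {a : ℝ} {b : BoundaryCondition} {J lam : ℝ} {R : ℕ}
    {V : Finset (ℤ × ℤ) → ℝ} {β z : ℝ} (hb : b ≠ BoundaryCondition.minus)
    (h : (domainSites D a).Finite) (hJ : J ≠ 0)
    (hV : TrInv V) (hr : Rng R V) (hev : ∀ A, V A ≠ 0 → Even A.card) {n m : ℕ} (x : Fin n → ℂ)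
    (y : Fin m → ℂ) (j : Fin m → Fin 2) (c : Fin m → ℝ)
    (hx : Lk D a b (fun i => meshIndex a (x i))) (h0 : Lk D a b (fun i : Fin 0 => i.elim0))
    (hy : b = BoundaryCondition.free → ∀ k, meshIndex a (y k) ∈ domainSites D a ∧
      meshIndex a (y k) + unitVec (j k) ∈ domainSites D a)
    (hp : spm0 D a b x ≠ 0) {Λ : Finset (ℤ × ℤ)}
    (hΛ : VolS h.toFinset b (max R 1) (fun k => (meshIndex a (y k), j k)) Λ) (hz : 0 < 1 + z) :
    domMom D a b J lam R V β x y j c / spm D a b J lam R V β x =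
      ctG (coP univ (Zs h b (mpar J lam R V β z) (fun i => meshIndex a (x i))
        (fun k => (meshIndex a (y k), j k)) Λ c)) /
      ctG (Zs h b (mpar J lam R V β z) (fun i => meshIndex a (x i))
        (fun k => (meshIndex a (y k), j k)) Λ c) := by
  obtain ⟨κ, hκ, e1, e2⟩ := coe_links (J := J) (lam := lam) (β := β) h b hV hr hev
    (fun i => meshIndex a (x i)) hx (fun k => (meshIndex a (y k), j k)) c hΛ hz
  rw [e1, e2, mul_div_mul_left _ _ hκ.ne']
  exact domMom_ratio hb h hJ hV hr hev x y j c hx h0 hy hp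

/-! ### the unperturbed moment -/

/-- the image of the bond observables at pairwise different bonds -/
theorem TH_obR {E A : Type*} [CommRing A] [Algebra ℝ A] (g : E → A) {m : ℕ} (v : Fin m → E)
    (hv : Function.Injective v) (c : Fin m → ℝ) :
    TH g (obR v c) = ∏ k, (g (v k) - algebraMap ℝ A (c k)) := by
  classical
  have key : ∀ s : Finset (Fin m),
      TH g (∏ k ∈ s, (ep (Finsupp.single (v k) 1) - algebraMap ℝ (RR E) (c k))) =
        ∏ k ∈ s, (g (v k) - algebraMap ℝ A (c k)) ∧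
      (∏ k ∈ s, (ep (Finsupp.single (v k) 1) - algebraMap ℝ (RR E) (c k))) ∈
        RIn {e | ∃ k ∈ s, v k = e} := by
    intro s
    induction s using Finset.induction_on with
    | empty =>
      rw [Finset.prod_empty, Finset.prod_empty, TH_one]
      exact ⟨rfl, one_mem _⟩
    | insert i s hi ih =>
      obtain ⟨ih1, ih2⟩ := ih
      have m1 : (ep (Finsupp.single (v i) 1) - algebraMap ℝ (RR E) (c i)) ∈ RIn {e | v i = e} := by
        refine Subalgebra.sub_mem _ (ep_mem_RIn ?_) (Subalgebra.algebraMap_mem _ _)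
        intro x hx
        rw [Finsupp.support_single _ one_ne_zero, Finset.mem_coe, Finset.mem_singleton] at hx
        exact hx.symm
      have hd : Disjoint {e | v i = e} {e | ∃ k ∈ s, v k = e} := by
        rw [Set.disjoint_left]
        rintro x hx ⟨k, hk, hkx⟩
        exact hi (hv (hx.trans hkx.symm) ▸ hk)
      have t1 : TH g (ep (Finsupp.single (v i) 1) - algebraMap ℝ (RR E) (c i)) =
          g (v i) - algebraMap ℝ A (c i) := by
        rw [map_sub, TH_ep, Finsupp.support_single _ one_ne_zero, Finset.prod_singleton,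
          Algebra.algebraMap_eq_smul_one, map_smul, TH_one, Algebra.algebraMap_eq_smul_one]
      constructor
      · rw [Finset.prod_insert hi, Finset.prod_insert hi, TH_mul g hd m1 ih2, t1, ih1]
      · rw [Finset.prod_insert hi]
        refine Subalgebra.mul_mem _ (RIn_mono ?_ m1) (RIn_mono ?_ ih2)
        · intro x hx
          exact ⟨i, Finset.mem_insert_self _ _, hx⟩
        · rintro x ⟨k, hk, hkx⟩
          exact ⟨k, Finset.mem_insert_of_mem hk, hkx⟩
  exact (key univ).1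

/-- one bond factor -/
theorem gw_sub (w : BW ℤ) (e : EG ℤ) (c : ℝ) :
    (gw w e - algebraMap ℝ (Ge (Fld ℤ)) c) =
      SrcERx441.bnd (-(2 * w e.1 e.2)) (1 - c) (Finsupp.single (pe e) 1)
        (Finsupp.single (qe e) 1) := by
  unfold gw SrcERx441.bnd
  rw [neg_smul, map_sub, map_one]
  change (1 - (2 * w e.1 e.2) • bi _ _) - _ = _
  abel

/-- **the unperturbed moments** -/
theorem D0c_bnd {D : Set ℂ} {a : ℝ} {b : BoundaryCondition} (hb : b ≠ BoundaryCondition.minus)
    (h : (domainSites D a).Finite) {n m : ℕ} (x : Fin n → ℂ) (y : Fin m → ℂ) (j : Fin m → Fin 2)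
    (hx : Lk D a b (fun i => meshIndex a (x i)))
    (hy : b = BoundaryCondition.free → ∀ k, meshIndex a (y k) ∈ domainSites D a ∧
      meshIndex a (y k) + unitVec (j k) ∈ domainSites D a)
    (hinj : Function.Injective fun k => meshIndex a (y k)) (hp : spm0 D a b x ≠ 0) :
    D0c D a b x y j / spm0 D a b x =
      EEG (Cof (wD (isF b) D a (fun i => meshIndex a (x i))))
        (∏ k, SrcERx441.bnd (-(2 * wD (isF b) D a (fun i => meshIndex a (x i))
            (meshIndex a (y k)) (j k))) (1 - e0)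
          (Finsupp.single (pe (meshIndex a (y k), j k)) 1)
          (Finsupp.single (qe (meshIndex a (y k), j k)) 1)) := by
  have h1 := J4Lnkx653.D0c_link D a b hb h x y j (Cof (wD (isF b) D a (fun i => meshIndex a (x i))))
    (hx.on h _ fun hbf => J4Lnkx653.obR_dep _ _ fun k =>
      ⟨h.mem_toFinset.2 (hy hbf k).1, h.mem_toFinset.2 (hy hbf k).2⟩)
  rw [spm0_eq] at h1
  rw [h1, mul_div_cancel_left₀ _ hp]
  have hv : Function.Injective fun k => ((meshIndex a (y k), j k) : EG ℤ) := by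
    intro k l hkl
    exact hinj (Prod.mk.inj hkl).1
  rw [TH_obR _ _ hv]
  simp only [gw_sub]
  rfl

end Crest.Agent.R165.JRunSx408
end
end

-- ▼ part R165/JRunS2_408

/-!
# Row 165 (S0250), block J: the energy ratios at step `N` of the flow with sources (helper408)

* `SrcOK D a b x y j` : everything which is needed of the domain, the spins and the bonds
  (`ev_C2`: small mesh, `C²` domains; `ev_disc`: large plus discs)
* `q_run`  : `domMom / spm = ctG (coP univ (gexp E * cvG (ext0 m Sf) (ZZ_N Λ (K N)))) / ctG (..)`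
  for the flow `flowS` of Bkg_683, `Sf` = the remaining covariance
* `q0_run` : `D0c / spm0 = EEG Sf (∏ (β i + c0 i))`
* `slC_sep`: the slices do not connect distant source bonds
* `q_start`: the same at the initial scale
-/

set_option autoImplicit false
set_option linter.unusedSectionVars false

noncomputable section

open Filter Topology Finset
open Crest.ProbabilityR.IsingModel

namespace Crest.Agent.R165.JRunSx408

open Crest.Agent.R165.Gr0x606 Crest.Agent.R165.Gr1x606 Crest.Agent.R165.J1ax606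
open Crest.Agent.R165.GeOpsx337 Crest.Agent.R165.ExpGx337 Crest.Agent.R165.KStepx892
  Crest.Agent.R165.KFlowx337 Crest.Agent.R165.SrcDefx991 Crest.Agent.R165.KInitx892
open Crest.Agent.R165.J4Defx653 Crest.Agent.R165.J4RRx653 Crest.Agent.R165.J4K0x126
  Crest.Agent.R165.J4Geox126
open Crest.Agent.R165.J4Lnkx653 (frS frV PL PL_dom obR gw EG' ez_eq_trEd)
open Crest.Agent.R165.JRunx445 Crest.Agent.R165.JDomAx606
open Crest.Agent.R165.Bkgx683 (frG MPar mpar bondSrc Bg cor)
open Crest.Agent.R165.Latx683 (BW wDom ray wX IsCov covS formS Fld)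
open Crest.Agent.R165.Centx541 Crest.Agent.R165.Redx541 Crest.Agent.R165.Symx541
  Crest.Agent.R165.Red2x541 Crest.Agent.R165.Topx683 Crest.Agent.R165.SRx541
open Crest.Agent.R165.UKerx420 (wD Cof Sof Sof_spec Sof_skew)
open Crest.Agent.R165.UFinx420 (isF)
open Crest.Agent.R165.Covx359 (un)
open Crest.Agent.R165.J2ax606 (bar)
open Crest.Agent.R165.GDefx387 Crest.Agent.R165.GSysx387 Crest.Agent.R165.FRDPolyx439
  Crest.Agent.R165.BgIsox432 Crest.Agent.R165.GSysOKx439

/-! ### the situation -/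

/-- the domain, the spins and the source bonds are in order -/
structure SrcOK (D : Set ℂ) (a : ℝ) (b : BoundaryCondition) {n m : ℕ} (x : Fin n → ℂ)
    (y : Fin m → ℂ) (j : Fin m → Fin 2) : Prop where
  bne : b ≠ BoundaryCondition.minus
  fin : (domainSites D a).Finite
  lk : Lk D a b (fun i => meshIndex a (x i))
  lk0 : Lk D a b (fun i : Fin 0 => i.elim0)
  pos : 0 < spm0 D a b x
  mem : b = BoundaryCondition.free → ∀ k, meshIndex a (y k) ∈ domainSites D a ∧
      meshIndex a (y k) + unitVec (j k) ∈ domainSites D a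
  inj : Function.Injective fun k => meshIndex a (y k)

/-- `C²` domains, small mesh -/
theorem srcOK_C2 {b : BoundaryCondition} {n m : ℕ} (hR : Rel b n) {D : Set ℂ}
    (hD : IsC2JordanDomain D) (x : Fin n → ℂ) (hx : ∀ i, x i ∈ D) (y : Fin m → ℂ)
    (j : Fin m → Fin 2) (hy : ∀ k, y k ∈ D) (hinj : Function.Injective y) :
    ∀ᶠ a in 𝓝[>] (0 : ℝ), SrcOK D a b x y j := by
  filter_upwards [ev_C2 b hR hD x hx y j hy, UJ2x420.eventually_distinct y hinj] with a h h2
  exact ⟨UFinx420.rel_ne_minus hR, h.1, h.2.1, h.2.2.1, h.2.2.2.1, fun _ => h.2.2.2.2, h2⟩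

/-- large plus discs -/
theorem srcOK_disc {n m : ℕ} (x : Fin n → ℂ) (y : Fin m → ℂ)
    (j : Fin m → Fin 2) (hinj : Function.Injective y) :
    ∀ᶠ a in 𝓝[>] (0 : ℝ), ∀ᶠ B : ℝ in atTop, SrcOK (Metric.ball (0 : ℂ) B) a .plus x y j := by
  filter_upwards [UJ2x420.eventually_distinct y hinj, self_mem_nhdsWithin] with a h2 ha
  filter_upwards [JDomAx606.ev_disc (a := a) ha] with B hB
  exact ⟨by simp, hB.1, (hB.2 n x).1, (hB.2 n x).2.1, (hB.2 n x).2.2,
    fun h => absurd h (by simp), h2⟩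

/-- the source bonds -/
def eb (a : ℝ) {m : ℕ} (y : Fin m → ℂ) (j : Fin m → Fin 2) (k : Fin m) : EG ℤ :=
  (meshIndex a (y k), j k)

/-- the spins -/
def xb (a : ℝ) {n : ℕ} (x : Fin n → ℂ) (i : Fin n) : ℤ × ℤ := meshIndex a (x i)

section

variable {D : Set ℂ} {a : ℝ} {b : BoundaryCondition} {n m : ℕ} {x : Fin n → ℂ} {y : Fin m → ℂ}
  {j : Fin m → Fin 2}

/-- **initial scale** -/
theorem q_start (H : SrcOK D a b x y j) {J lam : ℝ} {R : ℕ} {V : Finset (ℤ × ℤ) → ℝ} {β z : ℝ}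
    (hJ : J ≠ 0) (hV : TrInv V) (hr : Rng R V) (hev : ∀ A, V A ≠ 0 → Even A.card)
    (hz : 0 < 1 + z) (c : Fin m → ℝ) {Λ : Finset (ℤ × ℤ)}
    (hΛ : VolS H.fin.toFinset b (max R 1) (eb a y j) Λ) :
    domMom D a b J lam R V β x y j c / spm D a b J lam R V β x =
      ctG (coP univ (Zs H.fin b (mpar J lam R V β z) (xb a x) (eb a y j) Λ c)) /
      ctG (Zs H.fin b (mpar J lam R V β z) (xb a x) (eb a y j) Λ c) :=
  domMom_srcZ H.bne H.fin hJ hV hr hev x y j c H.lk H.lk0 H.mem H.pos.ne' hΛ hz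

theorem eq_remC {V : Type*} [AddCommGroup V] [Module ℝ V] {S Sf : Cov V} {T : ℕ → Cov V} {N : ℕ}
    (h : S = Sf + ∑ k ∈ range N, T k) : Sf = remC S T N := by
  apply Cov.ext
  apply LinearMap.ext₂
  intro u v
  rw [remC, h]
  simp only [Cov.add_b, Cov.neg_b, LinearMap.add_apply, LinearMap.neg_apply]
  ring

/-- **step `N` of the flow with sources** -/
theorem q_run (H : SrcOK D a b x y j) {J lam : ℝ} {R : ℕ} {V : Finset (ℤ × ℤ) → ℝ} {β z : ℝ}
    (hJ : J ≠ 0) (hV : TrInv V) (hr : Rng R V) (hev : ∀ A, V A ≠ 0 → Even A.card)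
    (hz : 0 < 1 + z) (c : Fin m → ℝ) {Λ : Finset (ℤ × ℤ)}
    (hΛ : VolS H.fin.toFinset b (max R 1) (eb a y j) Λ)
    {M K : ℕ} (Dd : FRD 16 M K) (mk : Finset (ℤ × ℤ)) (l k0 N : ℕ)
    (e2 : ℕ → Extr (ℤ × ℤ) (VS (Fld ℤ) m)) {src : Submodule ℝ (VS (Fld ℤ) m)}
    (hok : ((Bg.dom H.fin.toFinset b (xb a x)).flowS (mpar J lam R V β z) Dd mk (eb a y j) e2
      l k0).OK src)
    (Sf : Cov (Fld ℤ))
    (hSf : Cof (wD (isF b) D a (xb a x)) = Sf +
      ∑ k ∈ range N, slC Dd (wD (isF b) D a (xb a x)) l k0 k)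
    (hsrc : ∀ u ∈ src, ∀ v, (ext0 m Sf).b u v = 0)
    (hsupp : ∀ U, ¬ U ⊆ Λ → K0S H.fin b (mpar J lam R V β z) (xb a x) (eb a y j) U = 0) :
    domMom D a b J lam R V β x y j c / spm D a b J lam R V β x =
      ctG (coP univ (gexp (∑ i, (1 - c i) • tau i +
          ((Bg.dom H.fin.toFinset b (xb a x)).flowS (mpar J lam R V β z) Dd mk (eb a y j) e2
            l k0).E Λ N) *
        cvG (ext0 m Sf) (ZZ (near l k0 N) Λ
          (((Bg.dom H.fin.toFinset b (xb a x)).flowS (mpar J lam R V β z) Dd mk (eb a y j) e2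
            l k0).K N)))) /
      ctG (gexp (∑ i, (1 - c i) • tau i +
          ((Bg.dom H.fin.toFinset b (xb a x)).flowS (mpar J lam R V β z) Dd mk (eb a y j) e2
            l k0).E Λ N) *
        cvG (ext0 m Sf) (ZZ (near l k0 N) Λ
          (((Bg.dom H.fin.toFinset b (xb a x)).flowS (mpar J lam R V β z) Dd mk (eb a y j) e2
            l k0).K N))) := by
  rw [q_start H (β := β) (lam := lam) hJ hV hr hev hz c hΛ]
  have hw : wD (isF b) D a (xb a x) = (Bg.dom H.fin.toFinset b (xb a x)).w :=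
    (dom_w H.fin b (xb a x)).symm
  rw [hw] at hSf
  have hrem : Sf = remC (Cof (wD (isF b) D a (xb a x)))
      (slC Dd (Bg.dom H.fin.toFinset b (xb a x)).w l k0) N := by
    rw [hw]; exact eq_remC hSf
  have h1 := srcZ_total Dd (Bg.dom H.fin.toFinset b (xb a x)).w mk l k0 N
    (fun i => faE (eb a y j i)) e2 (K0S H.fin b (mpar J lam R V β z) (xb a x) (eb a y j)) Λ
    (Cof (wD (isF b) D a (xb a x))) c hok (by rw [← hrem]; exact hsrc) hsupp
  rw [← hrem] at h1
  unfold Zs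
  rw [h1]
  rfl

/-- **the unperturbed moment at step `N`** -/
theorem q0_run (H : SrcOK D a b x y j) {M K : ℕ} (Dd : FRD 16 M K) (l k0 N : ℕ) (Sf : Cov (Fld ℤ))
    (hSf : Cof (wD (isF b) D a (xb a x)) = Sf +
      ∑ k ∈ range N, slC Dd (wD (isF b) D a (xb a x)) l k0 k)
    (hsep : ∀ k < N, ∀ i i', i ≠ i' → ∀ u ∈ fldU {(eb a y j i).1}, ∀ v ∈ fldU {(eb a y j i').1},
      (slC Dd (wD (isF b) D a (xb a x)) l k0 k).b u v = 0) :
    D0c D a b x y j / spm0 D a b x =
      EEG Sf (∏ i, ((-(2 * wD (isF b) D a (xb a x) (eb a y j i).1 (eb a y j i).2)) •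
          bi (Finsupp.single (pe (eb a y j i)) 1) (Finsupp.single (qe (eb a y j i)) 1) +
        algebraMap ℝ _ (1 - e0 + (-(2 * wD (isF b) D a (xb a x) (eb a y j i).1 (eb a y j i).2)) *
          ∑ k ∈ range N, (slC Dd (wD (isF b) D a (xb a x)) l k0 k).b
            (Finsupp.single (pe (eb a y j i)) 1) (Finsupp.single (qe (eb a y j i)) 1)))) := by
  have hp : ∀ e : EG ℤ, (Finsupp.single (pe e) (1 : ℝ) : Fld ℤ) ∈ fldU {e.1} := by
    intro e
    have h1 : (pe e).1 ∈ nbhd 1 {e.1} := by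
      refine ⟨e.1, Finset.mem_singleton_self _, ?_⟩
      obtain ⟨⟨p, q⟩, i⟩ := e
      fin_cases i <;> simp [pe, fd, cn]
    exact single_mem_fldS h1 1
  have hq : ∀ e : EG ℤ, (Finsupp.single (qe e) (1 : ℝ) : Fld ℤ) ∈ fldU {e.1} := by
    intro e
    have h1 : (qe e).1 ∈ nbhd 1 {e.1} := by
      refine ⟨e.1, Finset.mem_singleton_self _, ?_⟩
      obtain ⟨⟨p, q⟩, i⟩ := e
      fin_cases i <;> simp [qe, fd, cn]
    exact single_mem_fldS h1 1
  rw [D0c_bnd H.bne H.fin x y j H.lk H.mem H.inj H.pos.ne']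
  have h1 := SrcERx441.unpert_slices Sf (slC Dd (wD (isF b) D a (xb a x)) l k0) N
    (fun i => -(2 * wD (isF b) D a (xb a x) (eb a y j i).1 (eb a y j i).2)) (fun _ => 1 - e0)
    (fun i => (Finsupp.single (pe (eb a y j i)) 1 : Fld ℤ))
    (fun i => (Finsupp.single (qe (eb a y j i)) 1 : Fld ℤ))
    (fun k hk i i' hii => ⟨hsep k hk i i' hii _ (hp _) _ (hp _), hsep k hk i i' hii _ (hp _) _ (hq _),
      hsep k hk i i' hii _ (hq _) _ (hp _), hsep k hk i i' hii _ (hq _) _ (hq _)⟩)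
  rw [← hSf] at h1
  exact h1

end

/-- **the slices do not connect distant source bonds** -/
theorem slC_sep {M K : ℕ} (Dd : FRD 16 M K) (hK : 16 ≤ K) (w : BW ℤ) {l k0 : ℕ}
    (h5 : 5 ≤ l * (k0 + 1)) {N : ℕ} {f g : ℤ × ℤ} (hfg : nearR l k0 (N - 1) < fd f g) :
    ∀ k < N, ∀ u ∈ fldU {f}, ∀ v ∈ fldU {g}, (slC Dd w l k0 k).b u v = 0 := by
  intro k hk u hu v hv
  refine slC_range Dd hK w h5 k ?_ hu hv
  rintro ⟨p, hp, q, hq, hpq⟩
  rw [Finset.mem_singleton] at hp hq
  subst hp hq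
  have h1 : fd p q ≤ nearR l k0 k := hpq
  have h2 : nearR l k0 k ≤ nearR l k0 (N - 1) := nearR_mono l k0 (by omega)
  omega

end Crest.Agent.R165.JRunSx408
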