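import Crest.Agent.R165.Tr2_40
import Crest.Agent.R165.TorBr_599
import Crest.Agent.R165.FRDRest_439

-- ▼ part R165/TorGapA_63
section

/-!
# Row 165 (S0250): torus gaps without spins, part A (helper63)

Quasi-periodic functions on `ℤ × ℤ` (`u (f + M e_i) = a_i u f`, `a_i² = 1`), sums over a period,
summation by parts, gradient bound and Poincaré inequalities.

* `grad_le`   : `S |∇φ|² ≤ C S |A φ|²` for quasi-periodic fields at criticality
* `poin_anti1`, `poin_anti2` : antiperiodic Poincaré inequality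
* `poin_mean` : periodic Poincaré inequality
-/

set_option autoImplicit false

noncomputable section

namespace Crest.Agent.R165.TorGapAx63

open Finset Crest.Agent.R165.Tr1x40 Crest.Agent.R165.Tr2x40

/-! ### quasi-periodic functions -/

/-- quasi-periodicity -/
def QP (M : ℕ) (a b : ℝ) (u : ℤ × ℤ → ℝ) : Prop :=
  (∀ f : ℤ × ℤ, u (f.1 + M, f.2) = a * u f) ∧ (∀ f : ℤ × ℤ, u (f.1, f.2 + M) = b * u f)

variable {M : ℕ} {a b a' b' : ℝ} {u v : ℤ × ℤ → ℝ}

theorem QP.add (hu : QP M a b u) (hv : QP M a b v) : QP M a b fun f => u f + v f :=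
  ⟨fun f => by beta_reduce; rw [hu.1, hv.1]; ring, fun f => by beta_reduce; rw [hu.2, hv.2]; ring⟩

theorem QP.sub (hu : QP M a b u) (hv : QP M a b v) : QP M a b fun f => u f - v f :=
  ⟨fun f => by beta_reduce; rw [hu.1, hv.1]; ring, fun f => by beta_reduce; rw [hu.2, hv.2]; ring⟩

theorem QP.smul (c : ℝ) (hu : QP M a b u) : QP M a b fun f => c * u f :=
  ⟨fun f => by beta_reduce; rw [hu.1]; ring, fun f => by beta_reduce; rw [hu.2]; ring⟩

theorem QP.mul (hu : QP M a b u) (hv : QP M a' b' v) : QP M (a * a') (b * b') fun f => u f * v f :=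
  ⟨fun f => by beta_reduce; rw [hu.1, hv.1]; ring, fun f => by beta_reduce; rw [hu.2, hv.2]; ring⟩

theorem QP.shift (hu : QP M a b u) (x y : ℤ) : QP M a b fun f => u (f.1 + x, f.2 + y) := by
  refine ⟨fun f => ?_, fun f => ?_⟩
  · have := hu.1 (f.1 + x, f.2 + y)
    simp only at this ⊢
    rw [← this]; congr 2; ring
  · have := hu.2 (f.1 + x, f.2 + y)
    simp only at this ⊢
    rw [← this]; congr 2; ring

/-- products of functions with the same signs are periodic -/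
theorem QP.mul_per (ha : a ^ 2 = 1) (hb : b ^ 2 = 1) (hu : QP M a b u) (hv : QP M a b v) :
    QP M 1 1 fun f => u f * v f := by
  have := hu.mul hv
  rwa [← pow_two, ← pow_two, ha, hb] at this

/-! ### sums over a period -/

/-- sum over the box `[0, M)²` -/
def S (M : ℕ) (u : ℤ × ℤ → ℝ) : ℝ := ∑ i ∈ range M, ∑ j ∈ range M, u ((i : ℤ), (j : ℤ))

theorem S_add : S M (fun f => u f + v f) = S M u + S M v := by
  simp only [S, sum_add_distrib]

theorem S_sub : S M (fun f => u f - v f) = S M u - S M v := by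
  simp only [S, sum_sub_distrib]

theorem S_mul (c : ℝ) : S M (fun f => c * u f) = c * S M u := by
  simp only [S, mul_sum]

theorem S_neg : S M (fun f => -u f) = -S M u := by
  simp only [S, sum_neg_distrib]

theorem S_congr (h : ∀ f, u f = v f) : S M u = S M v := by
  rw [show u = v from funext h]

theorem S_mono (h : ∀ f, u f ≤ v f) : S M u ≤ S M v :=
  sum_le_sum fun _ _ => sum_le_sum fun _ _ => h _

theorem S_nonneg (h : ∀ f, 0 ≤ u f) : 0 ≤ S M u :=
  sum_nonneg fun _ _ => sum_nonneg fun _ _ => h _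


/-- one-dimensional shift by one -/
theorem sum_shift_one (M : ℕ) (v : ℤ → ℝ) (hv : ∀ i, v (i + M) = v i) :
    ∑ i ∈ range M, v ((i : ℤ) + 1) = ∑ i ∈ range M, v i := by
  have h1 := Finset.sum_range_succ (fun i : ℕ => v (i : ℤ)) M
  have h2 := Finset.sum_range_succ' (fun i : ℕ => v (i : ℤ)) M
  have h3 := hv 0
  simp only [zero_add, Nat.cast_zero, Nat.cast_add, Nat.cast_one] at h1 h2 h3
  linarith

/-- one-dimensional shift -/
theorem sum_shift (M : ℕ) (v : ℤ → ℝ) (hv : ∀ i, v (i + M) = v i) (k : ℤ) :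
    ∑ i ∈ range M, v ((i : ℤ) + k) = ∑ i ∈ range M, v i := by
  induction k using Int.induction_on with
  | zero => simp
  | succ n ih =>
    rw [← ih, ← sum_shift_one M (fun i => v (i + n)) (fun i => by
      rw [show i + (M : ℤ) + n = i + n + M by ring, hv])]
    refine sum_congr rfl fun i _ => ?_
    congr 1; ring
  | pred n ih =>
    rw [← ih, ← sum_shift_one M (fun i => v (i + (-(n : ℤ) - 1))) (fun i => by
      rw [show i + (M : ℤ) + (-(n : ℤ) - 1) = i + (-(n : ℤ) - 1) + M by ring, hv])]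
    refine sum_congr rfl fun i _ => ?_
    congr 1; ring

/-- **shift invariance** -/
theorem S_shift (hu : QP M 1 1 u) (x y : ℤ) : S M (fun f => u (f.1 + x, f.2 + y)) = S M u := by
  unfold S
  have h1 : ∀ i : ℤ, ∑ j ∈ range M, u (i, (j : ℤ) + y) = ∑ j ∈ range M, u (i, (j : ℤ)) := by
    intro i
    exact sum_shift M (fun j => u (i, j)) (fun j => by
      have := hu.2 (i, j); simpa using this) y
  simp only [h1]
  exact sum_shift M (fun i => ∑ j ∈ range M, u (i, (j : ℤ))) (fun i => by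
    refine sum_congr rfl fun j _ => ?_
    have := hu.1 (i, (j : ℤ)); simpa using this) x

/-- summation by parts -/
theorem S_parts (ha : a ^ 2 = 1) (hb : b ^ 2 = 1) (hu : QP M a b u) (hv : QP M a b v) (x y : ℤ) :
    S M (fun f => u f * (v (f.1 + x, f.2 + y) - v f)) =
      S M (fun f => (u (f.1 - x, f.2 - y) - u f) * v f) := by
  have h1 : QP M 1 1 fun f => u (f.1 - x, f.2 - y) * v f := by
    have := (hu.shift (-x) (-y)).mul_per ha hb hv
    simpa only [← sub_eq_add_neg] using this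
  have h2 := S_shift h1 x y
  simp only [add_sub_cancel_right] at h2
  simp only [mul_sub, sub_mul]
  rw [S_sub, S_sub, h2]

theorem S_cs (u v : ℤ × ℤ → ℝ) :
    (S M fun f => u f * v f) ^ 2 ≤ (S M fun f => u f ^ 2) * S M fun f => v f ^ 2 := by
  unfold S
  have h := Finset.sum_mul_sq_le_sq_mul_sq (range M ×ˢ range M)
    (fun p : ℕ × ℕ => u ((p.1 : ℤ), (p.2 : ℤ))) (fun p => v ((p.1 : ℤ), (p.2 : ℤ)))
  simpa only [Finset.sum_product] using h

/-! ### Dirichlet form -/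

/-- the Dirichlet form of one component -/
def N (M : ℕ) (u : ℤ × ℤ → ℝ) : ℝ :=
  S M (fun f => (u (f.1 + 1, f.2) - u f) ^ 2) + S M (fun f => (u (f.1, f.2 + 1) - u f) ^ 2)

theorem N_nonneg (u : ℤ × ℤ → ℝ) : 0 ≤ N M u :=
  add_nonneg (S_nonneg fun _ => sq_nonneg _) (S_nonneg fun _ => sq_nonneg _)

/-- `S (u · Lap u) = N u` -/
theorem S_lap (ha : a ^ 2 = 1) (hb : b ^ 2 = 1) (hu : QP M a b u) :
    S M (fun f => u f * (4 * u f - (u (f.1 + 1, f.2) + u (f.1 - 1, f.2) + u (f.1, f.2 + 1)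
      + u (f.1, f.2 - 1)))) = N M u := by
  have h1 := S_shift (QP.mul_per ha hb hu hu) 1 0
  have h2 := S_shift (QP.mul_per ha hb hu hu) 0 1
  have h3 := S_shift (QP.mul_per ha hb hu (hu.shift (-1) 0)) 1 0
  have h4 := S_shift (QP.mul_per ha hb hu (hu.shift 0 (-1))) 0 1
  simp only [add_zero, ← sub_eq_add_neg, add_sub_cancel_right] at h1 h2 h3 h4
  unfold N
  have e1 : S M (fun f => (u (f.1 + 1, f.2) - u f) ^ 2) =
      S M (fun f => u (f.1 + 1, f.2) * u (f.1 + 1, f.2)) - 2 * S M (fun f => u (f.1 + 1, f.2) * u f)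
        + S M (fun f => u f * u f) := by
    rw [← S_mul, ← S_sub, ← S_add]; exact S_congr fun f => by ring
  have e2 : S M (fun f => (u (f.1, f.2 + 1) - u f) ^ 2) =
      S M (fun f => u (f.1, f.2 + 1) * u (f.1, f.2 + 1)) - 2 * S M (fun f => u (f.1, f.2 + 1) * u f)
        + S M (fun f => u f * u f) := by
    rw [← S_mul, ← S_sub, ← S_add]; exact S_congr fun f => by ring
  have e3 : S M (fun f => u f * (4 * u f - (u (f.1 + 1, f.2) + u (f.1 - 1, f.2) + u (f.1, f.2 + 1)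
      + u (f.1, f.2 - 1)))) = 4 * S M (fun f => u f * u f) - (S M (fun f => u (f.1 + 1, f.2) * u f)
        + S M (fun f => u f * u (f.1 - 1, f.2)) + S M (fun f => u (f.1, f.2 + 1) * u f)
        + S M (fun f => u f * u (f.1, f.2 - 1))) := by
    rw [← S_mul, ← S_add, ← S_add, ← S_add, ← S_sub]; exact S_congr fun f => by ring
  rw [e1, e2, e3]
  linarith

/-- differences at sup distance one -/
theorem S_diff_le (ha : a ^ 2 = 1) (hb : b ^ 2 = 1) (hu : QP M a b u) (x y : ℤ)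
    (hx : x = -1 ∨ x = 0 ∨ x = 1) (hy : y = -1 ∨ y = 0 ∨ y = 1) :
    S M (fun f => (u (f.1 + x, f.2 + y) - u f) ^ 2) ≤ 2 * N M u := by
  have hd1 : QP M 1 1 fun f => (u (f.1 + 1, f.2) - u f) * (u (f.1 + 1, f.2) - u f) := by
    have := (hu.shift 1 0).sub hu
    simp only [add_zero] at this
    exact this.mul_per ha hb this
  have hd2 : QP M 1 1 fun f => (u (f.1, f.2 + 1) - u f) * (u (f.1, f.2 + 1) - u f) := by
    have := (hu.shift 0 1).sub hu
    simp only [add_zero] at this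
    exact this.mul_per ha hb this
  -- one-step differences in each direction, with an arbitrary base shift
  have key1 : ∀ s t : ℤ, S M (fun f => (u (f.1 + s + 1, f.2 + t) - u (f.1 + s, f.2 + t)) ^ 2) =
      S M (fun f => (u (f.1 + 1, f.2) - u f) ^ 2) := by
    intro s t
    have := S_shift hd1 s t
    simp only [← pow_two] at this
    exact this
  have key2 : ∀ s t : ℤ, S M (fun f => (u (f.1 + s, f.2 + t + 1) - u (f.1 + s, f.2 + t)) ^ 2) =
      S M (fun f => (u (f.1, f.2 + 1) - u f) ^ 2) := by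
    intro s t
    have := S_shift hd2 s t
    simp only [← pow_two] at this
    exact this
  -- horizontal part at height y
  have hX : S M (fun f => (u (f.1 + x, f.2 + y) - u (f.1, f.2 + y)) ^ 2) ≤
      S M (fun f => (u (f.1 + 1, f.2) - u f) ^ 2) := by
    rcases hx with rfl | rfl | rfl
    · have := key1 (-1) y
      rw [← this]
      refine le_of_eq (S_congr fun f => ?_)
      rw [show f.1 + -1 + 1 = f.1 by ring]; ring
    · simp only [add_zero, sub_self]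
      have : S M (fun _ => (0 : ℝ) ^ 2) = 0 := by simp [S]
      rw [this]
      exact S_nonneg fun _ => sq_nonneg _
    · have := key1 0 y
      rw [← this]
      refine le_of_eq (S_congr fun f => ?_)
      simp only [add_zero]
  have hY : S M (fun f => (u (f.1, f.2 + y) - u f) ^ 2) ≤
      S M (fun f => (u (f.1, f.2 + 1) - u f) ^ 2) := by
    rcases hy with rfl | rfl | rfl
    · have := key2 0 (-1)
      rw [← this]
      refine le_of_eq (S_congr fun f => ?_)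
      simp only [add_zero]
      rw [show f.2 + -1 + 1 = f.2 by ring]; ring
    · simp only [add_zero, sub_self]
      have : S M (fun _ => (0 : ℝ) ^ 2) = 0 := by simp [S]
      rw [this]
      exact S_nonneg fun _ => sq_nonneg _
    · exact le_rfl
  have h3 : S M (fun f => (u (f.1 + x, f.2 + y) - u f) ^ 2) ≤
      2 * S M (fun f => (u (f.1 + x, f.2 + y) - u (f.1, f.2 + y)) ^ 2) +
        2 * S M (fun f => (u (f.1, f.2 + y) - u f) ^ 2) := by
    rw [← S_mul, ← S_mul, ← S_add]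
    refine S_mono fun f => ?_
    nlinarith [sq_nonneg ((u (f.1 + x, f.2 + y) - u (f.1, f.2 + y)) - (u (f.1, f.2 + y) - u f))]
  unfold N
  linarith

/-- the pairing of `u` with a difference of `v` -/
theorem S_pair_diff (ha : a ^ 2 = 1) (hb : b ^ 2 = 1) (hu : QP M a b u) (hv : QP M a b v)
    (x y : ℤ) (hx : x = -1 ∨ x = 0 ∨ x = 1) (hy : y = -1 ∨ y = 0 ∨ y = 1) :
    |S M (fun f => u f * (v (f.1 + x, f.2 + y) - v f))| ≤
      2 * Real.sqrt (N M u) * Real.sqrt (S M fun f => v f ^ 2) := by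
  rw [S_parts ha hb hu hv]
  have h1 := S_cs (M := M) (fun f => u (f.1 - x, f.2 - y) - u f) v
  have h2 := S_diff_le ha hb hu (-x) (-y) (by omega) (by omega)
  simp only [← sub_eq_add_neg] at h2
  have h3 : 0 ≤ S M (fun f => v f ^ 2) := S_nonneg fun _ => sq_nonneg _
  have h4 : (S M fun f => (u (f.1 - x, f.2 - y) - u f) * v f) ^ 2 ≤
      (2 * Real.sqrt (N M u) * Real.sqrt (S M fun f => v f ^ 2)) ^ 2 := by
    rw [mul_pow, mul_pow, Real.sq_sqrt (N_nonneg u), Real.sq_sqrt h3]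
    refine h1.trans ?_
    have := mul_le_mul_of_nonneg_right h2 h3
    nlinarith [mul_nonneg (N_nonneg (M := M) u) h3]
  exact abs_le_of_sq_le_sq h4 (by positivity)

/-! ### the adjugate in terms of differences -/

/-- difference of the component `k` -/
def d (ψ : Fld) (x y : ℤ) (k : Fin 4) (f : ℤ × ℤ) : ℝ := ψ (f.1 + x, f.2 + y) k - ψ f k

theorem B_row0 (ψ : Fld) (f : Face) : B xc ψ f 0 =
    xc * d ψ 1 0 0 f - xc * d ψ (-1) 0 0 f
      + (xc * d ψ (-1) 0 1 f + xc * d ψ 0 (-1) 1 f + xc ^ 2 * d ψ (-1) (-1) 1 f)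
      + (-(xc + xc ^ 3) * d ψ 0 (-1) 2 f - xc ^ 2 * d ψ (-1) (-1) 2 f - xc ^ 2 * d ψ 1 (-1) 2 f)
      + (xc * d ψ 1 0 3 f + xc * d ψ 0 (-1) 3 f + xc ^ 2 * d ψ 1 (-1) 3 f) := by
  have hx := xc_sq
  simp only [B, d, add_zero, ← sub_eq_add_neg]
  linear_combination (ψ f 1 + ψ f 3 - (1 + xc) * ψ f 2) * hx

theorem B_row1 (ψ : Fld) (f : Face) : B xc ψ f 1 =
    (-xc * d ψ 0 1 0 f - xc * d ψ 1 0 0 f - xc ^ 2 * d ψ 1 1 0 f)
      + (xc * d ψ 0 1 1 f - xc * d ψ 0 (-1) 1 f)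
      + (xc * d ψ 1 0 2 f + xc * d ψ 0 (-1) 2 f + xc ^ 2 * d ψ 1 (-1) 2 f)
      + (-(xc + xc ^ 3) * d ψ 1 0 3 f - xc ^ 2 * d ψ 1 1 3 f - xc ^ 2 * d ψ 1 (-1) 3 f) := by
  have hx := xc_sq
  simp only [B, d, add_zero, ← sub_eq_add_neg]
  linear_combination (-ψ f 0 + ψ f 2 - (1 + xc) * ψ f 3) * hx

theorem B_row2 (ψ : Fld) (f : Face) : B xc ψ f 2 =
    ((xc + xc ^ 3) * d ψ 0 1 0 f + xc ^ 2 * d ψ (-1) 1 0 f + xc ^ 2 * d ψ 1 1 0 f)
      + (-xc * d ψ (-1) 0 1 f - xc * d ψ 0 1 1 f - xc ^ 2 * d ψ (-1) 1 1 f)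
      + (xc * d ψ (-1) 0 2 f - xc * d ψ 1 0 2 f)
      + (xc * d ψ 0 1 3 f + xc * d ψ 1 0 3 f + xc ^ 2 * d ψ 1 1 3 f) := by
  have hx := xc_sq
  simp only [B, d, add_zero, ← sub_eq_add_neg]
  linear_combination (-ψ f 1 + ψ f 3 + (1 + xc) * ψ f 0) * hx

theorem B_row3 (ψ : Fld) (f : Face) : B xc ψ f 3 =
    (-xc * d ψ (-1) 0 0 f - xc * d ψ 0 1 0 f - xc ^ 2 * d ψ (-1) 1 0 f)
      + ((xc + xc ^ 3) * d ψ (-1) 0 1 f + xc ^ 2 * d ψ (-1) 1 1 f + xc ^ 2 * d ψ (-1) (-1) 1 f)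
      + (-xc * d ψ (-1) 0 2 f - xc * d ψ 0 (-1) 2 f - xc ^ 2 * d ψ (-1) (-1) 2 f)
      + (xc * d ψ 0 (-1) 3 f - xc * d ψ 0 1 3 f) := by
  have hx := xc_sq
  simp only [B, d, add_zero, ← sub_eq_add_neg]
  linear_combination (-ψ f 0 - ψ f 2 + (1 + xc) * ψ f 1) * hx

/-- quasi-periodic fields -/
def QF (M : ℕ) (a b : ℝ) (φ : Fld) : Prop := ∀ k, QP M a b fun f => φ f k

/-- total mass of a field over a period -/
def SS (M : ℕ) (φ : Fld) : ℝ := ∑ k, S M fun f => φ f k ^ 2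

/-- total Dirichlet form of a field over a period -/
def NN (M : ℕ) (φ : Fld) : ℝ := ∑ k, N M fun f => φ f k

theorem SS_nonneg (φ : Fld) : 0 ≤ SS M φ := sum_nonneg fun _ _ => S_nonneg fun _ => sq_nonneg _
theorem NN_nonneg (φ : Fld) : 0 ≤ NN M φ := sum_nonneg fun _ _ => N_nonneg _

theorem S_le_SS (φ : Fld) (k : Fin 4) : S M (fun f => φ f k ^ 2) ≤ SS M φ :=
  single_le_sum (f := fun k => S M fun f => φ f k ^ 2)
    (fun _ _ => S_nonneg fun _ => sq_nonneg _) (mem_univ k)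

theorem N_le_NN (φ : Fld) (k : Fin 4) : N M (fun f => φ f k) ≤ NN M φ :=
  single_le_sum (f := fun k => N M fun f => φ f k) (fun _ _ => N_nonneg _) (mem_univ k)

/-- one term of the pairing -/
theorem term_le (ha : a ^ 2 = 1) (hb : b ^ 2 = 1) {φ ψ : Fld} (hφ : QF M a b φ)
    (hψ : QF M a b ψ) (h k : Fin 4) (x y : ℤ) (hx : x = -1 ∨ x = 0 ∨ x = 1)
    (hy : y = -1 ∨ y = 0 ∨ y = 1) :
    |S M fun f => φ f h * d ψ x y k f| ≤ 2 * Real.sqrt (NN M φ) * Real.sqrt (SS M ψ) := by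
  refine (S_pair_diff ha hb (hφ h) (hψ k) x y hx hy).trans ?_
  have h1 := Real.sqrt_le_sqrt (N_le_NN (M := M) φ h)
  have h2 := Real.sqrt_le_sqrt (S_le_SS (M := M) ψ k)
  have h3 := Real.sqrt_nonneg (N M fun f => φ f h)
  have h4 := Real.sqrt_nonneg (S M fun f => ψ f k ^ 2)
  have h5 := Real.sqrt_nonneg (SS M ψ)
  nlinarith [mul_le_mul h1 h2 h4 (Real.sqrt_nonneg (NN M φ))]

theorem xc_bounds : 0 < xc ∧ xc < 1 / 2 := ⟨xc_pos, xc_lt_half⟩

theorem xc3 : xc ^ 3 = 5 * xc - 2 := by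
  have h := xc_sq
  have : xc ^ 3 = xc * xc ^ 2 := by ring
  rw [this, h]
  nlinarith [h]

/-- pairing with one row of the adjugate -/
theorem row_le (ha : a ^ 2 = 1) (hb : b ^ 2 = 1) {φ ψ : Fld} (hφ : QF M a b φ)
    (hψ : QF M a b ψ) (h : Fin 4) :
    S M (fun f => φ f h * B xc ψ f h) ≤ 8 * (Real.sqrt (NN M φ) * Real.sqrt (SS M ψ)) := by
  obtain ⟨x0, x1⟩ := xc_bounds
  have hx2 := xc_sq
  have hx3 := xc3
  set T := Real.sqrt (NN M φ) * Real.sqrt (SS M ψ) with hT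
  have T0 : 0 ≤ T := mul_nonneg (Real.sqrt_nonneg _) (Real.sqrt_nonneg _)
  have t : ∀ (k : Fin 4) (x y : ℤ), (x = -1 ∨ x = 0 ∨ x = 1) → (y = -1 ∨ y = 0 ∨ y = 1) →
      |S M fun f => φ f h * d ψ x y k f| ≤ 2 * T := by
    intro k x y hx hy
    have := term_le ha hb hφ hψ h k x y hx hy
    rw [hT]; linarith
  have t' : ∀ (c : ℝ) (k : Fin 4) (x y : ℤ), (x = -1 ∨ x = 0 ∨ x = 1) → (y = -1 ∨ y = 0 ∨ y = 1) →
      c * (S M fun f => φ f h * d ψ x y k f) ≤ |c| * (2 * T) := by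
    intro c k x y hx hy
    calc c * (S M fun f => φ f h * d ψ x y k f) ≤ |c * (S M fun f => φ f h * d ψ x y k f)| :=
          le_abs_self _
      _ = |c| * |S M fun f => φ f h * d ψ x y k f| := abs_mul _ _
      _ ≤ _ := mul_le_mul_of_nonneg_left (t k x y hx hy) (abs_nonneg c)
  have ax : |xc| = xc := abs_of_pos x0
  have anx : |-xc| = xc := by rw [abs_neg, ax]
  have ax2 : |xc ^ 2| = xc ^ 2 := abs_of_nonneg (sq_nonneg _)
  have anx2 : |-xc ^ 2| = xc ^ 2 := by rw [abs_neg, ax2]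
  have h13 : 0 < xc + xc ^ 3 := by positivity
  have ax3 : |xc + xc ^ 3| = xc + xc ^ 3 := abs_of_pos h13
  have anx3 : |-(xc + xc ^ 3)| = xc + xc ^ 3 := by rw [abs_neg, ax3]
  have m1 : (-1 : ℤ) = -1 ∨ (-1 : ℤ) = 0 ∨ (-1 : ℤ) = 1 := by omega
  have z0 : (0 : ℤ) = -1 ∨ (0 : ℤ) = 0 ∨ (0 : ℤ) = 1 := by omega
  have p1 : (1 : ℤ) = -1 ∨ (1 : ℤ) = 0 ∨ (1 : ℤ) = 1 := by omega
  fin_cases h
  · have e : S M (fun f => φ f 0 * B xc ψ f 0) =
        xc * S M (fun f => φ f 0 * d ψ 1 0 0 f) + (-xc) * S M (fun f => φ f 0 * d ψ (-1) 0 0 f)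
        + (xc * S M (fun f => φ f 0 * d ψ (-1) 0 1 f) + xc * S M (fun f => φ f 0 * d ψ 0 (-1) 1 f)
          + xc ^ 2 * S M (fun f => φ f 0 * d ψ (-1) (-1) 1 f))
        + (-(xc + xc ^ 3) * S M (fun f => φ f 0 * d ψ 0 (-1) 2 f)
          + (-xc ^ 2) * S M (fun f => φ f 0 * d ψ (-1) (-1) 2 f)
          + (-xc ^ 2) * S M (fun f => φ f 0 * d ψ 1 (-1) 2 f))
        + (xc * S M (fun f => φ f 0 * d ψ 1 0 3 f) + xc * S M (fun f => φ f 0 * d ψ 0 (-1) 3 f)
          + xc ^ 2 * S M (fun f => φ f 0 * d ψ 1 (-1) 3 f)) := by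
      simp only [← S_mul, ← S_add]
      exact S_congr fun f => by rw [B_row0]; ring
    have r1 := t' xc 0 1 0 p1 z0
    have r2 := t' (-xc) 0 (-1) 0 m1 z0
    have r3 := t' xc 1 (-1) 0 m1 z0
    have r4 := t' xc 1 0 (-1) z0 m1
    have r5 := t' (xc ^ 2) 1 (-1) (-1) m1 m1
    have r6 := t' (-(xc + xc ^ 3)) 2 0 (-1) z0 m1
    have r7 := t' (-xc ^ 2) 2 (-1) (-1) m1 m1
    have r8 := t' (-xc ^ 2) 2 1 (-1) p1 m1
    have r9 := t' xc 3 1 0 p1 z0
    have r10 := t' xc 3 0 (-1) z0 m1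
    have r11 := t' (xc ^ 2) 3 1 (-1) p1 m1
    rw [ax] at r1 r3 r4 r9 r10
    rw [anx] at r2
    rw [ax2] at r5 r11
    rw [anx2] at r7 r8
    rw [anx3] at r6
    simp only [Fin.zero_eta, Fin.isValue] at r1 r2 r3 r4 r5 r6 r7 r8 r9 r10 r11 ⊢
    rw [e]
    nlinarith
  · have e : S M (fun f => φ f 1 * B xc ψ f 1) =
        ((-xc) * S M (fun f => φ f 1 * d ψ 0 1 0 f) + (-xc) * S M (fun f => φ f 1 * d ψ 1 0 0 f)
          + (-xc ^ 2) * S M (fun f => φ f 1 * d ψ 1 1 0 f))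
        + (xc * S M (fun f => φ f 1 * d ψ 0 1 1 f) + (-xc) * S M (fun f => φ f 1 * d ψ 0 (-1) 1 f))
        + (xc * S M (fun f => φ f 1 * d ψ 1 0 2 f) + xc * S M (fun f => φ f 1 * d ψ 0 (-1) 2 f)
          + xc ^ 2 * S M (fun f => φ f 1 * d ψ 1 (-1) 2 f))
        + (-(xc + xc ^ 3) * S M (fun f => φ f 1 * d ψ 1 0 3 f)
          + (-xc ^ 2) * S M (fun f => φ f 1 * d ψ 1 1 3 f)
          + (-xc ^ 2) * S M (fun f => φ f 1 * d ψ 1 (-1) 3 f)) := by
      simp only [← S_mul, ← S_add]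
      exact S_congr fun f => by rw [B_row1]; ring
    have r1 := t' (-xc) 0 0 1 z0 p1
    have r2 := t' (-xc) 0 1 0 p1 z0
    have r3 := t' (-xc ^ 2) 0 1 1 p1 p1
    have r4 := t' xc 1 0 1 z0 p1
    have r5 := t' (-xc) 1 0 (-1) z0 m1
    have r6 := t' xc 2 1 0 p1 z0
    have r7 := t' xc 2 0 (-1) z0 m1
    have r8 := t' (xc ^ 2) 2 1 (-1) p1 m1
    have r9 := t' (-(xc + xc ^ 3)) 3 1 0 p1 z0
    have r10 := t' (-xc ^ 2) 3 1 1 p1 p1
    have r11 := t' (-xc ^ 2) 3 1 (-1) p1 m1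
    rw [ax] at r4 r6 r7
    rw [anx] at r1 r2 r5
    rw [ax2] at r8
    rw [anx2] at r3 r10 r11
    rw [anx3] at r9
    simp only [Fin.mk_one, Fin.isValue] at r1 r2 r3 r4 r5 r6 r7 r8 r9 r10 r11 ⊢
    rw [e]
    nlinarith
  · have e : S M (fun f => φ f 2 * B xc ψ f 2) =
        ((xc + xc ^ 3) * S M (fun f => φ f 2 * d ψ 0 1 0 f)
          + xc ^ 2 * S M (fun f => φ f 2 * d ψ (-1) 1 0 f)
          + xc ^ 2 * S M (fun f => φ f 2 * d ψ 1 1 0 f))
        + ((-xc) * S M (fun f => φ f 2 * d ψ (-1) 0 1 f) + (-xc) * S M (fun f => φ f 2 * d ψ 0 1 1 f)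
          + (-xc ^ 2) * S M (fun f => φ f 2 * d ψ (-1) 1 1 f))
        + (xc * S M (fun f => φ f 2 * d ψ (-1) 0 2 f) + (-xc) * S M (fun f => φ f 2 * d ψ 1 0 2 f))
        + (xc * S M (fun f => φ f 2 * d ψ 0 1 3 f) + xc * S M (fun f => φ f 2 * d ψ 1 0 3 f)
          + xc ^ 2 * S M (fun f => φ f 2 * d ψ 1 1 3 f)) := by
      simp only [← S_mul, ← S_add]
      exact S_congr fun f => by rw [B_row2]; ring
    have r1 := t' (xc + xc ^ 3) 0 0 1 z0 p1
    have r2 := t' (xc ^ 2) 0 (-1) 1 m1 p1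
    have r3 := t' (xc ^ 2) 0 1 1 p1 p1
    have r4 := t' (-xc) 1 (-1) 0 m1 z0
    have r5 := t' (-xc) 1 0 1 z0 p1
    have r6 := t' (-xc ^ 2) 1 (-1) 1 m1 p1
    have r7 := t' xc 2 (-1) 0 m1 z0
    have r8 := t' (-xc) 2 1 0 p1 z0
    have r9 := t' xc 3 0 1 z0 p1
    have r10 := t' xc 3 1 0 p1 z0
    have r11 := t' (xc ^ 2) 3 1 1 p1 p1
    rw [ax] at r7 r9 r10
    rw [anx] at r4 r5 r8
    rw [ax2] at r2 r3 r11
    rw [anx2] at r6
    rw [ax3] at r1
    simp only [Fin.reduceFinMk, Fin.isValue] at r1 r2 r3 r4 r5 r6 r7 r8 r9 r10 r11 ⊢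
    rw [e]
    nlinarith
  · have e : S M (fun f => φ f 3 * B xc ψ f 3) =
        ((-xc) * S M (fun f => φ f 3 * d ψ (-1) 0 0 f) + (-xc) * S M (fun f => φ f 3 * d ψ 0 1 0 f)
          + (-xc ^ 2) * S M (fun f => φ f 3 * d ψ (-1) 1 0 f))
        + ((xc + xc ^ 3) * S M (fun f => φ f 3 * d ψ (-1) 0 1 f)
          + xc ^ 2 * S M (fun f => φ f 3 * d ψ (-1) 1 1 f)
          + xc ^ 2 * S M (fun f => φ f 3 * d ψ (-1) (-1) 1 f))
        + ((-xc) * S M (fun f => φ f 3 * d ψ (-1) 0 2 f)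
          + (-xc) * S M (fun f => φ f 3 * d ψ 0 (-1) 2 f)
          + (-xc ^ 2) * S M (fun f => φ f 3 * d ψ (-1) (-1) 2 f))
        + (xc * S M (fun f => φ f 3 * d ψ 0 (-1) 3 f)
          + (-xc) * S M (fun f => φ f 3 * d ψ 0 1 3 f)) := by
      simp only [← S_mul, ← S_add]
      exact S_congr fun f => by rw [B_row3]; ring
    have r1 := t' (-xc) 0 (-1) 0 m1 z0
    have r2 := t' (-xc) 0 0 1 z0 p1
    have r3 := t' (-xc ^ 2) 0 (-1) 1 m1 p1
    have r4 := t' (xc + xc ^ 3) 1 (-1) 0 m1 z0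
    have r5 := t' (xc ^ 2) 1 (-1) 1 m1 p1
    have r6 := t' (xc ^ 2) 1 (-1) (-1) m1 m1
    have r7 := t' (-xc) 2 (-1) 0 m1 z0
    have r8 := t' (-xc) 2 0 (-1) z0 m1
    have r9 := t' (-xc ^ 2) 2 (-1) (-1) m1 m1
    have r10 := t' xc 3 0 (-1) z0 m1
    have r11 := t' (-xc) 3 0 1 z0 p1
    rw [ax] at r10
    rw [anx] at r1 r2 r7 r8 r11
    rw [ax2] at r5 r6
    rw [anx2] at r3 r9
    rw [ax3] at r4
    simp only [Fin.reduceFinMk, Fin.isValue] at r1 r2 r3 r4 r5 r6 r7 r8 r9 r10 r11 ⊢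
    rw [e]
    nlinarith

/-- quasi-periodicity of `A φ` -/
theorem QF_A (ha : a ^ 2 = 1) (hb : b ^ 2 = 1) {φ : Fld} (hφ : QF M a b φ) :
    QF M a b (A (cst xc) φ) := by
  have h0 := hφ 0
  have h1 := hφ 1
  have h2 := hφ 2
  have h3 := hφ 3
  have h2' := (hφ 2).shift 0 (-1)
  have h3' := (hφ 3).shift 1 0
  have h0' := (hφ 0).shift 0 1
  have h1' := (hφ 1).shift (-1) 0
  intro k
  fin_cases k
  · refine ⟨fun f => ?_, fun f => ?_⟩
    · have e0 := h0.1 f; have e1 := h1.1 f; have e2 := h2.1 f; have e3 := h3.1 f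
      have e4 := h2'.1 f
      simp only [add_zero, ← sub_eq_add_neg] at e4
      simp only [A_S, cst, Fin.zero_eta, e1, e2, e3, e4]
      ring
    · have e0 := h0.2 f; have e1 := h1.2 f; have e2 := h2.2 f; have e3 := h3.2 f
      have e4 := h2'.2 f
      simp only [add_zero, ← sub_eq_add_neg] at e4
      simp only [A_S, cst, Fin.zero_eta, e1, e2, e3, e4]
      ring
  · refine ⟨fun f => ?_, fun f => ?_⟩
    · have e0 := h0.1 f; have e1 := h1.1 f; have e2 := h2.1 f; have e3 := h3.1 f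
      have e4 := h3'.1 f
      simp only [add_zero] at e4
      simp only [A_E, cst, Fin.mk_one, e0, e2, e3, e4]
      ring
    · have e0 := h0.2 f; have e1 := h1.2 f; have e2 := h2.2 f; have e3 := h3.2 f
      have e4 := h3'.2 f
      simp only [add_zero] at e4
      simp only [A_E, cst, Fin.mk_one, e0, e2, e3, e4]
      ring
  · refine ⟨fun f => ?_, fun f => ?_⟩
    · have e0 := h0.1 f; have e1 := h1.1 f; have e2 := h2.1 f; have e3 := h3.1 f
      have e4 := h0'.1 f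
      simp only [add_zero] at e4
      simp only [A_N, cst, Fin.reduceFinMk, e0, e1, e3, e4]
      ring
    · have e0 := h0.2 f; have e1 := h1.2 f; have e2 := h2.2 f; have e3 := h3.2 f
      have e4 := h0'.2 f
      simp only [add_zero] at e4
      simp only [A_N, cst, Fin.reduceFinMk, e0, e1, e3, e4]
      ring
  · refine ⟨fun f => ?_, fun f => ?_⟩
    · have e0 := h0.1 f; have e1 := h1.1 f; have e2 := h2.1 f; have e3 := h3.1 f
      have e4 := h1'.1 f
      simp only [add_zero, ← sub_eq_add_neg] at e4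
      simp only [A_W, cst, Fin.reduceFinMk, e0, e1, e2, e4]
      ring
    · have e0 := h0.2 f; have e1 := h1.2 f; have e2 := h2.2 f; have e3 := h3.2 f
      have e4 := h1'.2 f
      simp only [add_zero, ← sub_eq_add_neg] at e4
      simp only [A_W, cst, Fin.reduceFinMk, e0, e1, e2, e4]
      ring

/-- **gradient bound** for quasi-periodic fields at criticality -/
theorem grad_le (ha : a ^ 2 = 1) (hb : b ^ 2 = 1) {φ : Fld} (hφ : QF M a b φ) :
    NN M φ ≤ (32 / c0) ^ 2 * SS M (A (cst xc) φ) := by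
  have hA := QF_A ha hb hφ
  have e1 : c0 * NN M φ = ∑ h, S M (fun f => φ f h * B xc (A (cst xc) φ) f h) := by
    unfold NN
    rw [mul_sum]
    refine sum_congr rfl fun h _ => ?_
    rw [← S_lap ha hb (hφ h), ← S_mul]
    refine S_congr fun f => ?_
    rw [B_A_xc, Lap]; ring
  have e2 : c0 * NN M φ ≤ 32 * (Real.sqrt (NN M φ) * Real.sqrt (SS M (A (cst xc) φ))) := by
    rw [e1, Fin.sum_univ_four]
    have r0 := row_le ha hb hφ hA 0
    have r1 := row_le ha hb hφ hA 1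
    have r2 := row_le ha hb hφ hA 2
    have r3 := row_le ha hb hφ hA 3
    linarith
  have hc := c0_pos
  have h1 := Real.sqrt_nonneg (NN M φ)
  have h2 := Real.sqrt_nonneg (SS M (A (cst xc) φ))
  have h3 := Real.mul_self_sqrt (NN_nonneg (M := M) φ)
  have h4 := Real.mul_self_sqrt (SS_nonneg (M := M) (A (cst xc) φ))
  set p := Real.sqrt (NN M φ)
  set q := Real.sqrt (SS M (A (cst xc) φ))
  rw [← h3, ← h4]
  rcases eq_or_lt_of_le h1 with h0 | h0
  · rw [← h0, mul_zero]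
    exact mul_nonneg (sq_nonneg _) (mul_self_nonneg _)
  · have e3 : c0 * p ≤ 32 * q := by
      rw [← h3] at e2
      have : p * (c0 * p) ≤ p * (32 * q) := by nlinarith
      exact le_of_mul_le_mul_left this h0
    have e4 : p ≤ 32 / c0 * q := by
      rw [div_mul_eq_mul_div, le_div_iff₀ hc]; linarith
    calc p * p ≤ (32 / c0 * q) * (32 / c0 * q) := mul_self_le_mul_self h1 e4
      _ = (32 / c0) ^ 2 * (q * q) := by ring

/-! ### Poincaré inequalities -/

theorem sq_sum_le (s : Finset ℕ) (v : ℕ → ℝ) : (∑ i ∈ s, |v i|) ^ 2 ≤ s.card * ∑ i ∈ s, v i ^ 2 := by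
  have h := sq_sum_le_card_mul_sum_sq (s := s) (f := fun i => |v i|)
  simpa only [sq_abs] using h

/-- telescoping on a segment -/
theorem abs_sub_le_sum (v : ℤ → ℝ) (i : ℤ) (n : ℕ) :
    |v (i + n) - v i| ≤ ∑ k ∈ range n, |v (i + k + 1) - v (i + k)| := by
  induction n with
  | zero => simp
  | succ n ih =>
    rw [sum_range_succ]
    have e : v (i + ((n + 1 : ℕ) : ℤ)) - v i = (v (i + n + 1) - v (i + n)) + (v (i + n) - v i) := by
      rw [show i + ((n + 1 : ℕ) : ℤ) = i + n + 1 by push_cast; ring]; ring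
    rw [e]
    refine (abs_add_le _ _).trans ?_
    linarith

/-- antiperiodic functions of one variable -/
theorem anti_one (M : ℕ) (v : ℤ → ℝ) (hv : ∀ i, v (i + M) = -v i) :
    4 * ∑ i ∈ range M, v i ^ 2 ≤ (M : ℝ) ^ 2 * ∑ i ∈ range M, (v (i + 1) - v i) ^ 2 := by
  have per : ∀ i : ℤ, |v (i + M + 1) - v (i + M)| = |v (i + 1) - v i| := by
    intro i
    rw [hv i, show i + (M : ℤ) + 1 = i + 1 + M by ring, hv (i + 1), ← abs_neg]
    congr 1; ring
  have key : ∀ i : ℤ, 4 * v i ^ 2 ≤ (M : ℝ) * ∑ k ∈ range M, (v (k + 1) - v k) ^ 2 := by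
    intro i
    have h1 := abs_sub_le_sum v i M
    rw [hv i] at h1
    have h2 : ∑ k ∈ range M, |v (i + k + 1) - v (i + k)| = ∑ k ∈ range M, |v ((k : ℤ) + 1) - v k| := by
      have := sum_shift M (fun k => |v (k + 1) - v k|) per i
      rw [← this]
      refine sum_congr rfl fun k _ => ?_
      rw [add_comm (k : ℤ) i]
    have h3 : |(-v i) - v i| = 2 * |v i| := by
      rw [show -v i - v i = -(2 * v i) by ring, abs_neg, abs_mul, abs_two]
    rw [h2, h3] at h1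
    have h4 := sq_sum_le (range M) (fun k => v ((k : ℤ) + 1) - v k)
    rw [card_range] at h4
    have h5 : (2 * |v i|) ^ 2 ≤ (∑ k ∈ range M, |v ((k : ℤ) + 1) - v k|) ^ 2 :=
      pow_le_pow_left₀ (by positivity) h1 2
    have h6 : (2 * |v i|) ^ 2 = 4 * v i ^ 2 := by rw [mul_pow, sq_abs]; norm_num
    rw [h6] at h5
    exact h5.trans h4
  calc 4 * ∑ i ∈ range M, v i ^ 2 = ∑ i ∈ range M, 4 * v i ^ 2 := by rw [mul_sum]
    _ ≤ ∑ _i ∈ range M, (M : ℝ) * ∑ k ∈ range M, (v (k + 1) - v k) ^ 2 :=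
        sum_le_sum fun i _ => key i
    _ = _ := by rw [sum_const, card_range, nsmul_eq_mul]; ring

/-- antiperiodic in the first direction -/
theorem poin_anti1 (hu : QP M (-1) b u) : 4 * S M (fun f => u f ^ 2) ≤ (M : ℝ) ^ 2 * N M u := by
  have h1 : ∀ j : ℤ, 4 * ∑ i ∈ range M, u ((i : ℤ), j) ^ 2 ≤
      (M : ℝ) ^ 2 * ∑ i ∈ range M, (u ((i : ℤ) + 1, j) - u ((i : ℤ), j)) ^ 2 := fun j =>
    anti_one M (fun i => u (i, j)) fun i => by
      have := hu.1 (i, j); simpa using this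
  unfold N
  have h2 : 0 ≤ (M : ℝ) ^ 2 * S M (fun f => (u (f.1, f.2 + 1) - u f) ^ 2) :=
    mul_nonneg (sq_nonneg _) (S_nonneg fun _ => sq_nonneg _)
  have h3 : 4 * S M (fun f => u f ^ 2) ≤
      (M : ℝ) ^ 2 * S M (fun f => (u (f.1 + 1, f.2) - u f) ^ 2) := by
    unfold S
    rw [sum_comm, sum_comm (s := range M) (t := range M) (f := fun i j =>
      (u ((i : ℤ) + 1, (j : ℤ)) - u ((i : ℤ), (j : ℤ))) ^ 2), mul_sum, mul_sum]
    exact sum_le_sum fun j _ => h1 j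
  rw [mul_add]; linarith

/-- antiperiodic in the second direction -/
theorem poin_anti2 (hu : QP M a (-1) u) : 4 * S M (fun f => u f ^ 2) ≤ (M : ℝ) ^ 2 * N M u := by
  have h1 : ∀ i : ℤ, 4 * ∑ j ∈ range M, u (i, (j : ℤ)) ^ 2 ≤
      (M : ℝ) ^ 2 * ∑ j ∈ range M, (u (i, (j : ℤ) + 1) - u (i, (j : ℤ))) ^ 2 := fun i =>
    anti_one M (fun j => u (i, j)) fun j => by
      have := hu.2 (i, j); simpa using this
  unfold N
  have h2 : 0 ≤ (M : ℝ) ^ 2 * S M (fun f => (u (f.1 + 1, f.2) - u f) ^ 2) :=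
    mul_nonneg (sq_nonneg _) (S_nonneg fun _ => sq_nonneg _)
  have h3 : 4 * S M (fun f => u f ^ 2) ≤
      (M : ℝ) ^ 2 * S M (fun f => (u (f.1, f.2 + 1) - u f) ^ 2) := by
    unfold S
    rw [mul_sum, mul_sum]
    exact sum_le_sum fun i _ => h1 i
  rw [mul_add]; linarith

/-- periodic functions of one variable: differences -/
theorem per_one (M : ℕ) (v : ℤ → ℝ) (i j : ℕ) (hi : i < M) (hj : j < M) :
    (v i - v j) ^ 2 ≤ (M : ℝ) * ∑ k ∈ range M, (v (k + 1) - v k) ^ 2 := by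
  wlog hij : j ≤ i generalizing i j with H
  · have := H j i hj hi (by omega)
    rw [show (v i - v j) ^ 2 = (v j - v i) ^ 2 by ring]; exact this
  obtain ⟨n, rfl⟩ := Nat.exists_eq_add_of_le hij
  have h1 := abs_sub_le_sum v j n
  have h2 : ∑ k ∈ range n, |v ((j : ℤ) + k + 1) - v ((j : ℤ) + k)| ≤
      ∑ k ∈ range M, |v ((k : ℤ) + 1) - v k| := by
    have e : ∑ k ∈ range n, |v ((j : ℤ) + k + 1) - v ((j : ℤ) + k)| =
        ∑ k ∈ Finset.Ico j (j + n), |v ((k : ℤ) + 1) - v k| := by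
      rw [Finset.sum_Ico_eq_sum_range, Nat.add_sub_cancel_left]
      refine sum_congr rfl fun k _ => ?_
      push_cast; rfl
    rw [e]
    refine sum_le_sum_of_subset_of_nonneg (fun k hk => ?_) fun _ _ _ => abs_nonneg _
    rw [Finset.mem_Ico] at hk
    rw [Finset.mem_range]; omega
  have h4 := sq_sum_le (range M) (fun k => v ((k : ℤ) + 1) - v k)
  rw [card_range] at h4
  have h5 : |v ((j : ℤ) + n) - v j| ^ 2 ≤ (∑ k ∈ range M, |v ((k : ℤ) + 1) - v k|) ^ 2 :=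
    pow_le_pow_left₀ (abs_nonneg _) (h1.trans h2) 2
  rw [sq_abs] at h5
  push_cast
  exact h5.trans h4

/-- difference of two values on the box -/
theorem diff_two (u : ℤ × ℤ → ℝ) (i j i' j' : ℕ) (hi : i < M) (hj : j < M) (hi' : i' < M)
    (hj' : j' < M) :
    (u ((i : ℤ), (j : ℤ)) - u ((i' : ℤ), (j' : ℤ))) ^ 2 ≤
      2 * ((M : ℝ) * ∑ k ∈ range M, (u ((k : ℤ) + 1, (j : ℤ)) - u ((k : ℤ), (j : ℤ))) ^ 2) +
      2 * ((M : ℝ) * ∑ k ∈ range M, (u ((i' : ℤ), (k : ℤ) + 1) - u ((i' : ℤ), (k : ℤ))) ^ 2) := by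
  have h1 := per_one M (fun i => u (i, (j : ℤ))) i i' hi hi'
  have h2 := per_one M (fun j => u ((i' : ℤ), j)) j j' hj hj'
  nlinarith [sq_nonneg ((u ((i : ℤ), (j : ℤ)) - u ((i' : ℤ), (j : ℤ))) -
    (u ((i' : ℤ), (j : ℤ)) - u ((i' : ℤ), (j' : ℤ))))]

/-- **Poincaré inequality with the mean** (periodicity is not even needed) -/
theorem poin_mean (hM : 0 < M) (u : ℤ × ℤ → ℝ) :
    S M (fun f => u f ^ 2) ≤ (M : ℝ) ^ 2 * N M u + (S M u) ^ 2 / (M : ℝ) ^ 2 := by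
  have hM' : (0 : ℝ) < M := by exact_mod_cast hM
  -- the double sum of squared differences
  have e1 : S M (fun f => S M fun g => (u f - u g) ^ 2) =
      2 * (M : ℝ) ^ 2 * S M (fun f => u f ^ 2) - 2 * (S M u) ^ 2 := by
    have c : ∀ c : ℝ, S M (fun _ => c) = (M : ℝ) ^ 2 * c := by
      intro c; simp only [S, sum_const, card_range, nsmul_eq_mul]; ring
    have : ∀ f, S M (fun g => (u f - u g) ^ 2) =
        (M : ℝ) ^ 2 * u f ^ 2 - 2 * (u f * S M u) + S M (fun g => u g ^ 2) := by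
      intro f
      rw [← c, ← S_mul, ← S_mul, ← S_sub, ← S_add]
      exact S_congr fun g => by ring
    rw [S_congr this, S_add, S_sub, S_mul, S_mul, c]
    have h3 : S M (fun f => u f * S M u) = S M u * S M u := by
      rw [← S_mul]; exact S_congr fun f => by ring
    rw [h3]; ring
  have e2 : S M (fun f => S M fun g => (u f - u g) ^ 2) ≤ 2 * (M : ℝ) ^ 4 * N M u := by
    have h1 : S M (fun f => S M fun g => (u f - u g) ^ 2) ≤
        ∑ i ∈ range M, ∑ j ∈ range M, ∑ i' ∈ range M, ∑ j' ∈ range M,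
          (2 * ((M : ℝ) * ∑ k ∈ range M, (u ((k : ℤ) + 1, (j : ℤ)) - u ((k : ℤ), (j : ℤ))) ^ 2) +
          2 * ((M : ℝ) * ∑ k ∈ range M,
            (u ((i' : ℤ), (k : ℤ) + 1) - u ((i' : ℤ), (k : ℤ))) ^ 2)) := by
      unfold S
      refine sum_le_sum fun i hi => sum_le_sum fun j hj => sum_le_sum fun i' hi' =>
        sum_le_sum fun j' hj' => ?_
      exact diff_two u i j i' j' (mem_range.1 hi) (mem_range.1 hj) (mem_range.1 hi')
        (mem_range.1 hj')
    refine h1.trans (le_of_eq ?_)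
    simp only [sum_add_distrib, sum_const, card_range, nsmul_eq_mul, ← mul_sum]
    unfold N S
    rw [sum_comm (s := range M) (t := range M) (f := fun i j =>
      (u ((i : ℤ) + 1, (j : ℤ)) - u ((i : ℤ), (j : ℤ))) ^ 2)]
    ring
  have h4 : 2 * (M : ℝ) ^ 2 * S M (fun f => u f ^ 2) ≤
      2 * (M : ℝ) ^ 4 * N M u + 2 * (S M u) ^ 2 := by linarith
  have h5 : (0 : ℝ) < 2 * (M : ℝ) ^ 2 := by positivity
  have h6 : 2 * (M : ℝ) ^ 2 * S M (fun f => u f ^ 2) ≤
      2 * (M : ℝ) ^ 2 * ((M : ℝ) ^ 2 * N M u + (S M u) ^ 2 / (M : ℝ) ^ 2) := by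
    refine h4.trans (le_of_eq ?_)
    field_simp
  exact le_of_mul_le_mul_left h6 h5

end Crest.Agent.R165.TorGapAx63
end
end

-- ▼ part R165/TorGapB_63

/-!
# Row 165 (S0250): torus gaps without spins, part B (helper63)

Lift of the torus `ZMod M` to quasi-periodic fields on `ℤ × ℤ` and the gap of the four sectors:
`∑ φ² ≤ (K M)² ∑ (A φ)²` (sector `(0,0)`: for `φ` orthogonal to the two zero modes).
-/

set_option autoImplicit false
set_option linter.unusedSectionVars false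

noncomputable section

namespace Crest.Agent.R165.TorGapBx63

open Finset Crest.Agent.R165.Tr1x40 Crest.Agent.R165.Tr2x40 Crest.Agent.R165.TorGapAx63
open Crest.Agent.R165.Latx683 (HE BW Aop yE yN)

variable {M : ℕ} [NeZero M]

/-! ### signs -/

/-- `ε ^ ⌊i / M⌋` -/
def sgl (M : ℕ) (ε : ℝ) (i : ℤ) : ℝ := ε ^ (i / (M : ℤ))

theorem ne_of_sq {ε : ℝ} (h : ε ^ 2 = 1) : ε ≠ 0 := by
  rintro rfl; norm_num at h

theorem sgl_sq {ε : ℝ} (h : ε ^ 2 = 1) (i : ℤ) : sgl M ε i ^ 2 = 1 := by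
  unfold sgl
  rw [← zpow_natCast, ← zpow_mul, mul_comm, zpow_mul, zpow_natCast, h, one_zpow]

theorem sgl_add {ε : ℝ} (h : ε ^ 2 = 1) (i : ℤ) : sgl M ε (i + M) = ε * sgl M ε i := by
  have hM : (M : ℤ) ≠ 0 := by exact_mod_cast NeZero.ne M
  unfold sgl
  rw [show i + (M : ℤ) = i + 1 * M by ring, Int.add_mul_ediv_right _ _ hM,
    zpow_add₀ (ne_of_sq h), zpow_one]
  ring

theorem sgl_succ {ε : ℝ} (h : ε ^ 2 = 1) (i : ℤ) :
    sgl M ε (i + 1) = sgl M ε i * (if ((i + 1 : ℤ) : ZMod M) = 0 then ε else 1) := by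
  have hM : (0 : ℤ) < M := by exact_mod_cast Nat.pos_of_ne_zero (NeZero.ne M)
  unfold sgl
  have h1 := Int.emod_add_mul_ediv i M
  have h2 := Int.emod_nonneg i hM.ne'
  have h3 := Int.emod_lt_of_pos i hM
  by_cases hr : i % M + 1 = M
  · have e1 : i + 1 = (i / M + 1) * M := by linarith [mul_comm (M : ℤ) (i / M)]
    have e2 : (i + 1) / (M : ℤ) = i / M + 1 := by
      rw [e1, Int.mul_ediv_cancel _ hM.ne']
    have e3 : ((i + 1 : ℤ) : ZMod M) = 0 := by
      rw [ZMod.intCast_zmod_eq_zero_iff_dvd]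
      exact ⟨i / M + 1, by rw [e1]; ring⟩
    rw [if_pos e3, e2, zpow_add₀ (ne_of_sq h), zpow_one]
  · have e2 : (i + 1) / (M : ℤ) = i / M := by
      have : i + 1 = (i % M + 1) + (i / M) * M := by linarith [mul_comm (M : ℤ) (i / M)]
      rw [this, Int.add_mul_ediv_right _ _ hM.ne',
        Int.ediv_eq_zero_of_lt (by omega) (by omega), zero_add]
    have e3 : ((i + 1 : ℤ) : ZMod M) ≠ 0 := by
      rw [Ne, ZMod.intCast_zmod_eq_zero_iff_dvd]
      rintro ⟨c, hc⟩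
      have e4 : (i + 1) % (M : ℤ) = 0 := by rw [hc]; exact Int.mul_emod_right _ _
      have e5 : (i + 1) % (M : ℤ) = i % M + 1 := by
        have : i + 1 = (i % M + 1) + M * (i / M) := by linarith
        rw [this, Int.add_mul_emod_self_left]
        exact Int.emod_eq_of_lt (by omega) (by omega)
      omega
    rw [if_neg e3, e2, mul_one]

/-! ### the lift -/

/-- the lift of a torus field -/
def lift (a b : ℝ) (φ : HE (ZMod M) → ℝ) : Fld := fun f k =>
  sgl M a f.1 * sgl M b f.2 * φ (((f.1 : ZMod M), (f.2 : ZMod M)), k)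

theorem QF_lift {a b : ℝ} (ha : a ^ 2 = 1) (hb : b ^ 2 = 1) (φ : HE (ZMod M) → ℝ) :
    QF M a b (lift a b φ) := by
  intro k
  refine ⟨fun f => ?_, fun f => ?_⟩
  · simp only [lift]
    rw [sgl_add ha]
    push_cast
    rw [ZMod.natCast_self, add_zero]
    ring
  · simp only [lift]
    rw [sgl_add hb]
    push_cast
    rw [ZMod.natCast_self, add_zero]
    ring

/-- sector weights on `Lat_683` types -/
def wT (M : ℕ) [NeZero M] (a b : ℝ) : BW (ZMod M) := TorDetx599.wS M xc a b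

theorem A_lift {a b : ℝ} (ha : a ^ 2 = 1) (hb : b ^ 2 = 1) (φ : HE (ZMod M) → ℝ) (f : Face)
    (k : Fin 4) : A (cst xc) (lift a b φ) f k = lift a b (Aop (wT M a b) φ) f k := by
  obtain ⟨i, j⟩ := f
  have hi := sgl_succ (M := M) ha i
  have hj := sgl_succ (M := M) hb j
  have hi' := sgl_succ (M := M) ha (i - 1)
  have hj' := sgl_succ (M := M) hb (j - 1)
  rw [sub_add_cancel] at hi' hj'
  have a2 : ∀ p : Prop, [Decidable p] → (if p then a else 1) * (if p then a else 1) = 1 := by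
    intro p _; split_ifs
    · rw [← pow_two, ha]
    · norm_num
  have b2 : ∀ p : Prop, [Decidable p] → (if p then b else 1) * (if p then b else 1) = 1 := by
    intro p _; split_ifs
    · rw [← pow_two, hb]
    · norm_num
  have hi'' : sgl M a (i - 1) = sgl M a i * (if ((i : ℤ) : ZMod M) = 0 then a else 1) := by
    rw [hi', mul_assoc, a2, mul_one]
  have hj'' : sgl M b (j - 1) = sgl M b j * (if ((j : ℤ) : ZMod M) = 0 then b else 1) := by
    rw [hj', mul_assoc, b2, mul_one]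
  fin_cases k
  · simp only [A_S, cst, lift, Fin.zero_eta, Latx683.Aop_S, wT, yN, TorDetx599.wS]
    rw [hj'']
    push_cast
    simp only [sub_add_cancel]
    ring
  · simp only [A_E, cst, lift, Fin.mk_one, Latx683.Aop_E, wT, yE, TorDetx599.wS]
    rw [hi]
    push_cast
    ring
  · simp only [A_N, cst, lift, Fin.reduceFinMk, Latx683.Aop_N, wT, yN, TorDetx599.wS]
    rw [hj]
    push_cast
    ring
  · simp only [A_W, cst, lift, Fin.reduceFinMk, Latx683.Aop_W, wT, yE, TorDetx599.wS]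
    rw [hi'']
    push_cast
    simp only [sub_add_cancel]
    ring

/-- sum over one period -/
theorem sum_cast (g : ZMod M → ℝ) : ∑ i ∈ range M, g ((i : ℕ) : ZMod M) = ∑ x : ZMod M, g x := by
  refine Finset.sum_nbij (fun i : ℕ => (i : ZMod M)) (fun _ _ => mem_univ _) ?_ ?_ fun _ _ => rfl
  · intro i hi j hj hij
    have hi' := mem_range.1 hi
    have hj' := mem_range.1 hj
    have := (ZMod.natCast_eq_natCast_iff' i j M).1 hij
    rwa [Nat.mod_eq_of_lt hi', Nat.mod_eq_of_lt hj'] at this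
  · intro x _
    exact ⟨x.val, by simpa using ZMod.val_lt x, by simp⟩

theorem S_lift (g : ZMod M × ZMod M → ℝ) :
    S M (fun f => g ((f.1 : ZMod M), (f.2 : ZMod M))) = ∑ z, g z := by
  unfold S
  rw [Fintype.sum_prod_type]
  have h1 : ∀ i : ℕ, ∑ j ∈ range M, g ((((i : ℤ)) : ZMod M), (((j : ℕ) : ℤ) : ZMod M)) =
      ∑ y : ZMod M, g ((((i : ℤ)) : ZMod M), y) := by
    intro i
    have := sum_cast (fun y => g ((((i : ℤ)) : ZMod M), y))
    simpa using this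
  simp only [h1]
  have := sum_cast (fun x => ∑ y : ZMod M, g (x, y))
  simpa using this

/-- squared Euclidean norm -/
def n2 (φ : HE (ZMod M) → ℝ) : ℝ := ∑ h, φ h ^ 2

theorem SS_lift {a b : ℝ} (ha : a ^ 2 = 1) (hb : b ^ 2 = 1) (φ : HE (ZMod M) → ℝ) :
    SS M (lift a b φ) = n2 φ := by
  unfold SS n2
  rw [Fintype.sum_prod_type, sum_comm]
  refine sum_congr rfl fun k _ => ?_
  rw [← S_lift (fun z => φ (z, k) ^ 2)]
  refine S_congr fun f => ?_
  simp only [lift]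
  have h1 := sgl_sq (M := M) ha f.1
  have h2 := sgl_sq (M := M) hb f.2
  rw [mul_pow, mul_pow, h1, h2]; ring

theorem SS_A_lift {a b : ℝ} (ha : a ^ 2 = 1) (hb : b ^ 2 = 1) (φ : HE (ZMod M) → ℝ) :
    SS M (A (cst xc) (lift a b φ)) = n2 (Aop (wT M a b) φ) := by
  have : A (cst xc) (lift a b φ) = lift a b (Aop (wT M a b) φ) :=
    funext fun f => funext fun k => A_lift ha hb φ f k
  rw [this, SS_lift ha hb]

/-! ### gaps -/

/-- the absolute constant of the gap -/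
def Kg : ℝ := 33 / c0

theorem Kg_pos : 0 < Kg := by unfold Kg; have := c0_pos; positivity

theorem c0_lt : c0 < 1 := by
  rw [c0_eq]; have := xc_pos; have := xc_lt_half; nlinarith

/-- gap, one antiperiodic direction -/
theorem gap_anti {a b : ℝ} (ha : a ^ 2 = 1) (hb : b ^ 2 = 1) (hab : a = -1 ∨ b = -1)
    (φ : HE (ZMod M) → ℝ) : n2 φ ≤ (Kg * M) ^ 2 * n2 (Aop (wT M a b) φ) := by
  have hq := QF_lift ha hb φ
  have h1 := grad_le ha hb hq
  rw [SS_A_lift ha hb] at h1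
  have h2 : 4 * SS M (lift a b φ) ≤ (M : ℝ) ^ 2 * NN M (lift a b φ) := by
    unfold SS NN
    rw [mul_sum, mul_sum]
    refine sum_le_sum fun k _ => ?_
    rcases hab with rfl | rfl
    · exact poin_anti1 (hq k)
    · exact poin_anti2 (hq k)
  rw [SS_lift ha hb] at h2
  have hM : (0 : ℝ) ≤ (M : ℝ) ^ 2 := sq_nonneg _
  have hA : 0 ≤ n2 (Aop (wT M a b) φ) := sum_nonneg fun _ _ => sq_nonneg _
  have hc := c0_pos
  have h3 : 4 * n2 φ ≤ (M : ℝ) ^ 2 * ((32 / c0) ^ 2 * n2 (Aop (wT M a b) φ)) :=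
    h2.trans (mul_le_mul_of_nonneg_left h1 hM)
  have h4 : (32 / c0) ^ 2 ≤ Kg ^ 2 := by
    unfold Kg
    apply pow_le_pow_left₀ (by positivity)
    exact div_le_div_of_nonneg_right (by norm_num) hc.le
  have h5 : (M : ℝ) ^ 2 * ((32 / c0) ^ 2 * n2 (Aop (wT M a b) φ)) ≤
      (M : ℝ) ^ 2 * (Kg ^ 2 * n2 (Aop (wT M a b) φ)) := by gcongr
  have h6 : 0 ≤ (M : ℝ) ^ 2 * (Kg ^ 2 * n2 (Aop (wT M a b) φ)) := by positivity
  rw [mul_pow]
  nlinarith

/-- heavy constants: the symbol of `A` at zero momentum is `√8` times an isometry off the light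
constants -/
theorem symbol_zero (s : Fin 4 → ℝ) :
    (s 1 + s 2 + s 3 + xc * s 2) ^ 2 + (-s 0 + s 2 + s 3 + xc * s 3) ^ 2
      + (-s 0 - s 1 + s 3 - xc * s 0) ^ 2 + (-s 0 - s 1 - s 2 - xc * s 1) ^ 2
    = 8 * (s 0 ^ 2 + s 1 ^ 2 + s 2 ^ 2 + s 3 ^ 2)
      - 4 * ((-(Real.sqrt 2 / 2) * s 0 + s 1 + -(Real.sqrt 2 / 2) * s 2) ^ 2
        + (-(Real.sqrt 2 / 2) * s 0 + Real.sqrt 2 / 2 * s 2 - s 3) ^ 2) := by
  have h2 : Real.sqrt 2 ^ 2 = 2 := Real.sq_sqrt (by norm_num)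
  unfold xc
  ring_nf
  rw [h2]
  ring

/-- **gap off the zero modes, periodic sector** -/
theorem gap_per (φ : HE (ZMod M) → ℝ)
    (h1 : ∑ h, TorSecx599.u1 M h * φ h = 0) (h2 : ∑ h, TorSecx599.u2 M h * φ h = 0) :
    n2 φ ≤ (Kg * M) ^ 2 * n2 (Aop (wT M 1 1) φ) := by
  have o : (1 : ℝ) ^ 2 = 1 := one_pow 2
  have hM : 0 < M := Nat.pos_of_ne_zero (NeZero.ne M)
  have hM' : (1 : ℝ) ≤ M := by exact_mod_cast hM
  have hM0 : (0 : ℝ) < M := by linarith
  have hq := QF_lift (M := M) o o φ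
  have g1 := grad_le o o hq
  rw [SS_A_lift o o] at g1
  -- means
  set s : Fin 4 → ℝ := fun k => S M fun f => lift 1 1 φ f k with hs
  have g2 : SS M (lift 1 1 φ) ≤ (M : ℝ) ^ 2 * NN M (lift 1 1 φ) + (∑ k, s k ^ 2) / (M : ℝ) ^ 2 := by
    unfold SS NN
    rw [mul_sum, sum_div, ← sum_add_distrib]
    exact sum_le_sum fun k _ => poin_mean hM _
  rw [SS_lift o o] at g2
  -- the means are the sums of the components
  have hsk : ∀ k, s k = ∑ z, φ (z, k) := by
    intro k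
    rw [hs, ← S_lift (fun z => φ (z, k))]
    refine S_congr fun f => ?_
    simp [lift, sgl]
  -- orthogonality
  have hsq : Real.sqrt 2 ≠ 0 := by positivity
  have k1 : -(Real.sqrt 2 / 2) * s 0 + s 1 + -(Real.sqrt 2 / 2) * s 2 = 0 := by
    have : ∑ h, TorSecx599.u1 M h * φ h =
        (-(Real.sqrt 2 / 2) * s 0 + s 1 + -(Real.sqrt 2 / 2) * s 2) / (Real.sqrt 2 * M) := by
      rw [Fintype.sum_prod_type, hsk, hsk, hsk]
      simp only [TorSecx599.u1, TorSecx599.m1, Fin.sum_univ_four, sum_add_distrib]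
      simp only [Matrix.cons_val_zero, Matrix.cons_val_one, Matrix.cons_val]
      simp only [← mul_sum]
      field_simp
      ring
    rw [this] at h1
    have hne : Real.sqrt 2 * (M : ℝ) ≠ 0 := mul_ne_zero hsq hM0.ne'
    rcases div_eq_zero_iff.1 h1 with h | h
    · exact h
    · exact absurd h hne
  have k2 : -(Real.sqrt 2 / 2) * s 0 + Real.sqrt 2 / 2 * s 2 - s 3 = 0 := by
    have : ∑ h, TorSecx599.u2 M h * φ h =
        (-(Real.sqrt 2 / 2) * s 0 + Real.sqrt 2 / 2 * s 2 - s 3) / (Real.sqrt 2 * M) := by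
      rw [Fintype.sum_prod_type, hsk, hsk, hsk]
      simp only [TorSecx599.u2, TorSecx599.m2, Fin.sum_univ_four, sum_add_distrib]
      simp only [Matrix.cons_val_zero, Matrix.cons_val_one, Matrix.cons_val]
      simp only [← mul_sum]
      field_simp
      ring
    rw [this] at h2
    have hne : Real.sqrt 2 * (M : ℝ) ≠ 0 := mul_ne_zero hsq hM0.ne'
    rcases div_eq_zero_iff.1 h2 with h | h
    · exact h
    · exact absurd h hne
  -- the mean of `A φ`
  have hsum : ∀ k (x y : ℤ), S M (fun f => lift 1 1 φ (f.1 + x, f.2 + y) k) = s k := by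
    intro k x y
    exact S_shift (hq k) x y
  set t : Fin 4 → ℝ := fun k => S M fun f => A (cst xc) (lift 1 1 φ) f k with ht
  have t0 : t 0 = s 1 + s 2 + s 3 + xc * s 2 := by
    rw [ht]
    simp only [A_S, cst]
    have e := hsum 2 0 (-1)
    simp only [add_zero, ← sub_eq_add_neg] at e
    rw [S_add, S_add, S_add, S_mul, e]
  have t1 : t 1 = -s 0 + s 2 + s 3 + xc * s 3 := by
    rw [ht]
    simp only [A_E, cst]
    have e := hsum 3 1 0
    simp only [add_zero] at e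
    rw [S_add, S_add, S_add, S_mul, S_neg, e]
  have t2 : t 2 = -s 0 - s 1 + s 3 - xc * s 0 := by
    rw [ht]
    simp only [A_N, cst]
    have e := hsum 0 0 1
    simp only [add_zero] at e
    rw [S_sub, S_add, S_sub, S_mul, S_neg, e]
  have t3 : t 3 = -s 0 - s 1 - s 2 - xc * s 1 := by
    rw [ht]
    simp only [A_W, cst]
    have e := hsum 1 (-1) 0
    simp only [add_zero, ← sub_eq_add_neg] at e
    rw [S_sub, S_sub, S_sub, S_mul, S_neg, e]
  have h8 := symbol_zero s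
  rw [k1, k2, ← t0, ← t1, ← t2, ← t3] at h8
  have hcs : ∀ k, t k ^ 2 ≤ (M : ℝ) ^ 2 * S M (fun f => A (cst xc) (lift 1 1 φ) f k ^ 2) := by
    intro k
    have := S_cs (M := M) (fun _ => (1 : ℝ)) (fun f => A (cst xc) (lift 1 1 φ) f k)
    simp only [one_mul, one_pow] at this
    have c : S M (fun _ => (1 : ℝ)) = (M : ℝ) ^ 2 := by
      simp only [S, sum_const, card_range, nsmul_eq_mul]; ring
    rw [c] at this
    exact this
  have h9 : 8 * ∑ k, s k ^ 2 ≤ (M : ℝ) ^ 2 * n2 (Aop (wT M 1 1) φ) := by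
    rw [← SS_A_lift o o, SS, mul_sum, Fin.sum_univ_four, Fin.sum_univ_four]
    have := hcs 0; have := hcs 1; have := hcs 2; have := hcs 3
    nlinarith
  set X := n2 (Aop (wT M 1 1) φ) with hX
  have hX0 : 0 ≤ X := sum_nonneg fun _ _ => sq_nonneg _
  have hM2 : (0 : ℝ) < (M : ℝ) ^ 2 := by positivity
  have h10 : (∑ k, s k ^ 2) / (M : ℝ) ^ 2 ≤ X / 8 := by
    rw [div_le_iff₀ hM2]
    nlinarith
  have hc := c0_pos
  have hc1 := c0_lt
  have h11 : (M : ℝ) ^ 2 * NN M (lift 1 1 φ) ≤ (M : ℝ) ^ 2 * ((32 / c0) ^ 2 * X) :=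
    mul_le_mul_of_nonneg_left g1 hM2.le
  have h12 : (32 / c0) ^ 2 + 1 / 8 ≤ Kg ^ 2 := by
    unfold Kg
    rw [div_pow, div_pow]
    have : (1 : ℝ) ≤ 1 / c0 ^ 2 := by
      rw [le_div_iff₀ (by positivity)]
      nlinarith
    have e1 : (32 : ℝ) ^ 2 / c0 ^ 2 = 1024 * (1 / c0 ^ 2) := by ring
    have e2 : (33 : ℝ) ^ 2 / c0 ^ 2 = 1089 * (1 / c0 ^ 2) := by ring
    rw [e1, e2]; linarith
  have hM1 : (1 : ℝ) ≤ (M : ℝ) ^ 2 := one_le_pow₀ hM'
  have h13 : X / 8 ≤ (M : ℝ) ^ 2 * (1 / 8 * X) := by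
    have : 0 ≤ 1 / 8 * X := by positivity
    calc X / 8 = 1 * (1 / 8 * X) := by ring
      _ ≤ _ := mul_le_mul_of_nonneg_right hM1 this
  calc n2 φ ≤ (M : ℝ) ^ 2 * ((32 / c0) ^ 2 * X) + (M : ℝ) ^ 2 * (1 / 8 * X) :=
        g2.trans (add_le_add h11 (h10.trans h13))
    _ = (M : ℝ) ^ 2 * (((32 / c0) ^ 2 + 1 / 8) * X) := by ring
    _ ≤ (M : ℝ) ^ 2 * (Kg ^ 2 * X) := by gcongr
    _ = (Kg * M) ^ 2 * X := by ring

end Crest.Agent.R165.TorGapBx63
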