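import Crest.Agent.R165.Fin2_315
import Crest.Agent.R165.FrDom_887
import Crest.Agent.R165.JDomA_606
import Crest.Agent.R165.CovT_359
import Crest.Agent.R165.Cov2_359
import Crest.Agent.R165.TorGapB_63
import Crest.Agent.R165.TorChart_723
import Crest.Agent.R165.JRunS2_408
import Crest.Agent.R165.SrcTailFin_441
import Crest.Agent.R165.SrcIns_991

-- ▼ part R165/CovPkg_359
section

/-!
# Row 165 (S0250): covariance packages of the concrete backgrounds (helper359)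

`Pkg w m` = everything that `GSysOK_439.total_sys`, `FRDRest_439.restC_gram`, `gr_step_le_wU`,
`Fin2_315` (`runOf`, `fin_bound_sys`) use of a finite-volume background `w` with gap `m`:
existence and uniqueness of the covariance, finite columns, `|w| ≤ 1`, gap.

* `pkg_plus`, `pkg_plus_dom`, `pkg_plus_bdd` : plus boundary condition, any insertions: gap
  `c a / B` for the sites of `D ⊆ ball 0 B` at mesh `a ≤ B`, `c` absolute (domains and discs)
* `pkg_free0_dom` : free, no insertion; `pkg_free_dom` : free with `n` (even) insertions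
* `pkg_tor` : torus sectors `wTor M ε₁ ε₂`, `(ε₁, ε₂) ≠ (1, 1)`
-/

set_option autoImplicit false
set_option linter.unusedSectionVars false

noncomputable section

open Filter Topology Finset
open Crest.ProbabilityR.IsingModel

namespace Crest.Agent.R165.CovPkgx359

open Crest.Agent.R165.Gr0x606 Crest.Agent.R165.PNormx417 Crest.Agent.R165.Covx359
  Crest.Agent.R165.FRDAbsx439
  Crest.Agent.R165.FRDPolyx439 Crest.Agent.R165.FRDInfx439 Crest.Agent.R165.FRDLatx439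
  Crest.Agent.R165.FRDRestx439 Crest.Agent.R165.Fin1x315 Crest.Agent.R165.Fin2x315
open Crest.Agent.R165.Latx683 (BW HE Aop IsCov Fld covS wX wDom)
open Crest.Agent.R165.GDefx387 (l2)
open Crest.Agent.R165.J2bx606 (FInv)
open Crest.Agent.R165.U5Px422 (TT mem_TT LApp Conf SpinOut)
open Crest.Agent.R165.FrFinx887 (CG CF FSH)
open Crest.Agent.R165.UKerx420 (wD Sof Sof_spec Sof_skew)

section gen

variable {G : Type} [CommRing G] [GDefx387.CN G] [DecidableEq G]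

/-- covariance package of a finite-volume background -/
structure Pkg (w : BW G) (m : ℝ) : Prop where
  ex : ∃ S, IsCov w S
  finv : ∀ S, IsCov w S → FInv (un w) S
  bdd : ∀ z j, |w z j| ≤ 1
  mpos : 0 < m
  l2le : ∀ f : Fld G, l2 (f : HE G → ℝ) ≤ m⁻¹ * l2 (Aop w (f : HE G → ℝ))

theorem Pkg.of_finv {w : BW G} {m : ℝ} {S : HE G → HE G → ℝ} (hS : FInv (un w) S)
    (hb : ∀ z j, |w z j| ≤ 1) (hm : 0 < m)
    (hg : ∀ f : Fld G, l2 (f : HE G → ℝ) ≤ m⁻¹ * l2 (Aop w (f : HE G → ℝ))) : Pkg w m :=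
  ⟨⟨S, isCov_of_finv hS⟩, fun _ h => finv_of_isCov hS h, hb, hm, hg⟩

variable {w : BW G} {m : ℝ} (P : Pkg w m)

include P

theorem Pkg.mono {m' : ℝ} (hm : 0 < m') (h : m' ≤ m) : Pkg w m' :=
  ⟨P.ex, P.finv, P.bdd, hm, fun f => (P.l2le f).trans
    (mul_le_mul_of_nonneg_right (inv_anti₀ hm h) (Real.sqrt_nonneg _))⟩


/-- finite columns -/
theorem Pkg.fin {S : HE G → HE G → ℝ} (h : IsCov w S) (k : HE G) : {i | S i k ≠ 0}.Finite :=
  (P.finv S h).fin k

/-- the data of `Fin2_315` (`runOf`, `fin_bound_sys`, ..) -/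
theorem Pkg.inv [BgIsox432.CNZ G] {S : HE G → HE G → ℝ} (h : IsCov w S) : Inv w S :=
  Inv.of_isCov h (P.fin h)

/-- the gap in the form of `restC_gram`, `gr_step_le_wU` -/
theorem Pkg.gap : ABtw (preF (HE G)) (AopF w) (m ^ 2) 16 := by
  have h := abtw_of_gap P.bdd (inv_pos.2 P.mpos) P.l2le
  rwa [inv_inv] at h

theorem Pkg.gap0 : ABtw (preF (HE G)) (AopF w) 0 16 := AopF_bdd w P.bdd


/-- Gram bound of the last covariance -/
theorem Pkg.rest_gram {S : HE G → HE G → ℝ} (h : IsCov w S) {M K : ℕ} (D : FRD 16 M K) (J : ℕ) :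
    Gram (restC D h.skew h.inv (P.fin h) J) (gr D w m J) :=
  restC_gram D h.skew h.inv (P.fin h) P.mpos P.gap J

end gen

/-- the canonical covariance of `UKer_420` -/
theorem Pkg.sof {w : BW ℤ} {m : ℝ} (P : Pkg w m) : Inv w (Sof w) := P.inv (Sof_spec P.ex)



/-! ### plus boundary condition -/

theorem fsh (f : Fld ℤ) : FSH (f : HE ℤ → ℝ) := f.hasFiniteSupport

theorem CG_pos {r : ℝ} (hr : 0 ≤ r) : 0 < CG r := by
  have : (0 : ℝ) ≤ PlGapx887.CQ := by unfold PlGapx887.CQ; norm_num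
  unfold CG; positivity

theorem exists_finv_plus' {n : ℕ} (T : Finset (ℤ × ℤ)) (X : Fin n → ℤ × ℤ) :
    ∃ S, FInv (un (wX (wDom (T : Set (ℤ × ℤ)) false) X)) S := by
  obtain ⟨S, -, h, -⟩ := exists_isCov_plus T X
  exact ⟨S, h⟩

theorem bdd_plus {n : ℕ} (T : Finset (ℤ × ℤ)) (X : Fin n → ℤ × ℤ) (z : ℤ × ℤ) (j : Fin 2) :
    |wX (wDom (T : Set (ℤ × ℤ)) false) X z j| ≤ 1 := (abs_wX_plus_lt T X (z, j)).le

/-- **plus**, sites in a box of radius `r`, any insertions -/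
theorem pkg_plus {n : ℕ} (T : Finset (ℤ × ℤ)) (X : Fin n → ℤ × ℤ) {c : ℤ × ℤ} {r : ℝ} (hr : 0 ≤ r)
    (hE : ∀ f ∈ T, |((f.1 : ℝ) - (c.1 : ℝ))| ≤ r ∧ |((f.2 : ℝ) - (c.2 : ℝ))| ≤ r) :
    Pkg (wX (wDom (T : Set (ℤ × ℤ)) false) X) (CG (r + 1))⁻¹ := by
  obtain ⟨S, hS⟩ := exists_finv_plus' T X
  refine Pkg.of_finv hS (bdd_plus T X) (inv_pos.2 (CG_pos (by linarith))) fun f => ?_
  rw [inv_inv]
  exact FrFinx887.plus_gap_box X hr hE (fsh f)

/-- absolute constant of the plus gap -/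
def cPl : ℝ := (PlGapx887.CQ * 25 + 3)⁻¹

theorem cPl_pos : 0 < cPl := by
  have : (0 : ℝ) ≤ PlGapx887.CQ := by unfold PlGapx887.CQ; norm_num
  unfold cPl; positivity

theorem CG_le {r : ℝ} (hr : 1 ≤ r) : CG (r + 1) ≤ r / cPl := by
  have : (0 : ℝ) ≤ PlGapx887.CQ := by unfold PlGapx887.CQ; norm_num
  unfold CG cPl
  rw [div_inv_eq_mul]
  nlinarith [mul_nonneg this (show (0 : ℝ) ≤ r - 1 by linarith)]

/-- **plus**, the sites of `D` at mesh `a`: `D ⊆ closedBall 0 B`, `a ≤ B`, any insertions; absolute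
constant (domains and discs) -/
theorem pkg_plus_D {D : Set ℂ} {B a : ℝ} (hD : ∀ z ∈ D, ‖z‖ ≤ B) (ha : 0 < a) (haB : a ≤ B)
    {n : ℕ} (X : Fin n → ℤ × ℤ) : Pkg (wD false D a X) (cPl * a / B) := by
  have hfin : (domainSites D a).Finite := by
    refine Redx541.domainSites_finite ?_ ha
    exact (Metric.isBounded_closedBall (x := (0 : ℂ)) (r := B)).subset fun z hz => by
      rw [mem_closedBall_zero_iff]; exact hD z hz
  have hB : 0 < B := ha.trans_le haB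
  have h1 : (1 : ℝ) ≤ B / a := by rw [le_div_iff₀ ha]; linarith
  have hE : ∀ f ∈ hfin.toFinset, |((f.1 : ℝ) - (((0, 0) : ℤ × ℤ).1 : ℝ))| ≤ B / a ∧
      |((f.2 : ℝ) - (((0, 0) : ℤ × ℤ).2 : ℝ))| ≤ B / a := fun f hf =>
    GapFinx40.sites_le hD ha f (hfin.mem_toFinset.1 hf)
  have h2 := pkg_plus hfin.toFinset X (by positivity) hE
  rw [hfin.coe_toFinset] at h2
  refine h2.mono (by have := cPl_pos; positivity) ?_
  have h3 := CG_le h1
  have h4 := CG_pos (r := B / a + 1) (by positivity)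
  rw [le_inv_comm₀ (by have := cPl_pos; positivity) h4, inv_div]
  calc CG (B / a + 1) ≤ B / a / cPl := h3
    _ = B / (cPl * a) := by rw [div_div, mul_comm]


/-- **plus discs** -/
theorem pkg_disc {B a : ℝ} (ha : 0 < a) (haB : a ≤ B) {n : ℕ} (X : Fin n → ℤ × ℤ) :
    Pkg (wD false (Metric.ball (0 : ℂ) B) a X) (cPl * a / B) :=
  pkg_plus_D (fun z hz => by rw [mem_ball_zero_iff] at hz; exact hz.le) ha haB X

/-! ### free boundary condition -/







/-! ### torus sectors -/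

section torus

variable (M : ℕ) [NeZero M]







end torus

end Crest.Agent.R165.CovPkgx359
end
end

-- ▼ part R165/EnW_359

/-!
# Row 165 (S0250), leaf P11: from `FinE` to `RunPack` (helper359)

* `leadB` : the leading activities `Ze τ_i β_i` of the bond sources, `flL` : the lead run started at
  the step `K₁`
* `c0B` : the constants `1 - e0 + u_i Σ_{k<K₁} S_k(p_i, q_i)`
* `runPack_of` : `FinE` (actual run against lead run) gives `RunPack` for
  `domMom / spm` and `Ze ^ m * (D0c / spm0)`; any site set, any number of spins, both boundary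
  conditions: domains (`N = 0`) and discs
* `sfL` : the last covariance from the covariance package, `sfL_eq`, `sfL_gram`
-/

set_option autoImplicit false
set_option linter.unusedSectionVars false

noncomputable section

open Filter Topology Finset
open Crest.ProbabilityR.IsingModel

namespace Crest.Agent.R165.EnWx359

open scoped ENNReal
open Crest.Agent.R165.Gr0x606 Crest.Agent.R165.Gr1x606 Crest.Agent.R165.J1ax606
open Crest.Agent.R165.GeOpsx337 Crest.Agent.R165.ExpGx337 Crest.Agent.R165.KStepx892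
  Crest.Agent.R165.KFlowx337 Crest.Agent.R165.KInitx892
open Crest.Agent.R165.SrcDefx991 (VS Src th th' tau tauP ext0 inG noS vacH vacS coP wS vS GS ext0_b)
open Crest.Agent.R165.J4Defx653 Crest.Agent.R165.J4Geox126
open Crest.Agent.R165.JRunSx408 Crest.Agent.R165.JDomAx606
open Crest.Agent.R165.Bkgx683 (MPar mpar bondSrc Bg)
open Crest.Agent.R165.Latx683 (BW wDom ray wX IsCov covS formS Fld)
open Crest.Agent.R165.Centx541 Crest.Agent.R165.Redx541 Crest.Agent.R165.Symx541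
  Crest.Agent.R165.Red2x541 Crest.Agent.R165.Topx683 Crest.Agent.R165.SRx541
open Crest.Agent.R165.UKerx420 (wD Cof Sof Sof_spec Sof_skew)
open Crest.Agent.R165.UFinx420 (isF)
open Crest.Agent.R165.GDefx387 Crest.Agent.R165.GSysx387 Crest.Agent.R165.FRDPolyx439
  Crest.Agent.R165.BgIsox432
open Crest.Agent.R165.SrcFinx441 (lead)
open Crest.Agent.R165.SrcCmpx441 (FinE RunPack ratio ratio_lead_Ze)
open Crest.Agent.R165.SrcTailx441 (shift shift_OK ratio_run)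
open Crest.Agent.R165.SrcInsx991 (uB bE beB beB_mem)

/-! ### the lead run -/

/-- the leading activities of the bond sources -/
def leadB {m : ℕ} (w : BW ℤ) (e : Fin m → EG ℤ) (Ze : ℝ) :
    Finset (ℤ × ℤ) → Ge (VS (Fld ℤ) m) :=
  lead (fun i => faE (e i)) fun i => Ze • (tau i * inG m (beB w (e i)))

theorem leadB_mem {m : ℕ} (w : BW ℤ) (e : Fin m → EG ℤ) (Ze : ℝ) (U : Finset (ℤ × ℤ)) :
    leadB w e Ze U ∈ grG (fldUS (fun i => faE (e i)) U) := by
  unfold leadB lead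
  refine Subalgebra.sum_mem _ fun i _ => ?_
  split_ifs with h
  · subst h
    refine Subalgebra.smul_mem _ (Subalgebra.mul_mem _ ?_ ?_) _
    · obtain ⟨f, hf⟩ := faE_nonempty (e i)
      exact SrcSysx991.tau_mem_fldUS (fun i => faE (e i)) ⟨f, hf, hf⟩
    · exact SrcSysx991.inG_mem_fldUS (fun i => faE (e i)) (beB_mem w (e i))
  · exact Subalgebra.zero_mem _

theorem leadB_zero {m : ℕ} (w : BW ℤ) (e : Fin m → EG ℤ) (Ze : ℝ) {Λ : Finset (ℤ × ℤ)}
    (hΛ : ∀ i, faE (e i) ⊆ Λ) (U : Finset (ℤ × ℤ)) (hU : ¬ U ⊆ Λ) : leadB w e Ze U = 0 := by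
  unfold leadB lead
  refine Finset.sum_eq_zero fun i _ => if_neg fun h => hU ?_
  rw [h]; exact hΛ i

/-- the lead run: the flow `F` restarted at the step `K₁` from the leading activities -/
def flL {m : ℕ} (F : Sys (ℤ × ℤ) (VS (Fld ℤ) m)) (K₁ : ℕ) (w : BW ℤ) (e : Fin m → EG ℤ) (Ze : ℝ) :
    Sys (ℤ × ℤ) (VS (Fld ℤ) m) := shift F K₁ (leadB w e Ze)

/-- the constants `1 - e0 + u Σ_{k<K₁} S_k(p, q)` -/
def c0B {M K : ℕ} (Dd : FRD 16 M K) (w : BW ℤ) (l k0 K₁ : ℕ) (e : EG ℤ) : ℝ :=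
  1 - e0 + uB w e * ∑ k ∈ range K₁, (slC Dd w l k0 k).b
    (Finsupp.single (pe e) 1) (Finsupp.single (qe e) 1)

section run

variable {D : Set ℂ} {a : ℝ} {b : BoundaryCondition} {n m : ℕ} {x : Fin n → ℂ} {y : Fin m → ℂ}
  {j : Fin m → Fin 2}

/-- the flow with bond sources of the domain -/
abbrev flD (H : SrcOK D a b x y j) (P : MPar) {M K : ℕ} (Dd : FRD 16 M K) (mk : Finset (ℤ × ℤ))
    (e2 : ℕ → Extr (ℤ × ℤ) (VS (Fld ℤ) m)) (l k0 : ℕ) : Sys (ℤ × ℤ) (VS (Fld ℤ) m) :=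
  (Bg.dom H.fin.toFinset b (xb a x)).flowS P Dd mk (eb a y j) e2 l k0

/-- **the unperturbed side**: the lead run -/
theorem lead_run (H : SrcOK D a b x y j) (P : MPar) {Λ : Finset (ℤ × ℤ)}
    (hsub : ∀ i, faE (eb a y j i) ⊆ Λ)
    {M K : ℕ} (Dd : FRD 16 M K) (hK : 16 ≤ K) (mk : Finset (ℤ × ℤ)) {l k0 : ℕ}
    (h5 : 5 ≤ l * (k0 + 1)) (K₁ N : ℕ) (e2 : ℕ → Extr (ℤ × ℤ) (VS (Fld ℤ) m))
    {src : Submodule ℝ (VS (Fld ℤ) m)} (hok : (flD H P Dd mk e2 l k0).OK src)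
    (Sf : Cov (Fld ℤ))
    (hSf : Cof (wD (isF b) D a (xb a x)) = Sf +
      ∑ k ∈ range (K₁ + N), slC Dd (wD (isF b) D a (xb a x)) l k0 k)
    (hsrc : ∀ u ∈ src, ∀ v, (ext0 m Sf).b u v = 0)
    (hsep : ∀ i i', i ≠ i' → nearR l k0 (K₁ - 1) < fd (eb a y j i).1 (eb a y j i').1)
    (hnt : ∀ i i', i ≠ i' → ¬ touch (near l k0 K₁) (faE (eb a y j i)) (faE (eb a y j i')))
    (Ze : ℝ) :
    Ze ^ m * (D0c D a b x y j / spm0 D a b x) =
      ratio Sf (∑ i, (Ze * c0B Dd (wD (isF b) D a (xb a x)) l k0 K₁ (eb a y j i)) • tau i +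
          (flL (flD H P Dd mk e2 l k0) K₁ (wD (isF b) D a (xb a x)) (eb a y j) Ze).E Λ N)
        (ZZ (near l k0 (K₁ + N)) Λ
          ((flL (flD H P Dd mk e2 l k0) K₁ (wD (isF b) D a (xb a x)) (eb a y j) Ze).K N)) := by
  set w := wD (isF b) D a (xb a x) with hw
  have hBw : (Bg.dom H.fin.toFinset b (xb a x)).w = w := dom_w H.fin b (xb a x)
  set S1 : Cov (Fld ℤ) := Sf + ∑ k ∈ range N, slC Dd w l k0 (K₁ + k) with hS1
  have h1 : Cof w = S1 + ∑ k ∈ range K₁, slC Dd w l k0 k := by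
    rw [hSf, hS1, Finset.sum_range_add, add_assoc,
      add_comm (∑ k ∈ range N, slC Dd w l k0 (K₁ + k))]
  have h2 := q0_run H Dd l k0 K₁ S1 h1 (fun k hk i i' hii u hu v hv =>
    slC_sep Dd hK w h5 (hsep i i' hii) k hk u hu v hv)
  have hrefl : ∀ f : ℤ × ℤ, near l k0 K₁ f f := fun f => by
    show fd f f ≤ _
    rw [show fd f f = 0 by simp [fd, cn]]
    exact Nat.zero_le _
  have hinj : Function.Injective fun i => faE (eb a y j i) := by
    intro i i' h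
    by_contra hne
    refine hnt i i' hne ?_
    obtain ⟨f, hf⟩ := faE_nonempty (eb a y j i)
    have h' : faE (eb a y j i) = faE (eb a y j i') := h
    exact ⟨f, hf, f, h' ▸ hf, hrefl f⟩
  have h3 := ratio_lead_Ze (near l k0 K₁) hinj (fun i => faE_nonempty _) hsub hnt Ze
    (fun i => c0B Dd w l k0 K₁ (eb a y j i)) (fun i => beB w (eb a y j i)) S1
  have hokL : (flL (flD H P Dd mk e2 l k0) K₁ w (eb a y j) Ze).OK src :=
    shift_OK hok K₁ fun U => leadB_mem w (eb a y j) Ze U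
  have h4 := ratio_run (m := m) hokL (Λ := Λ) (fun U hU => leadB_zero w (eb a y j) Ze hsub U hU)
    (Sc := fun k => slC Dd w l k0 (K₁ + k)) N (fun k _ => by rw [← hBw]; rfl) S1 Sf hS1 hsrc
    (∑ i, (Ze * c0B Dd w l k0 K₁ (eb a y j i)) • tau i)
  rw [h2]
  exact h3.symm.trans h4

/-- **from `FinE` to `RunPack`** -/
theorem runPack_of' (H : SrcOK D a b x y j) {J lam : ℝ} {R : ℕ} {V : Finset (ℤ × ℤ) → ℝ} {β z : ℝ}
    (hJ : J ≠ 0) (hV : TrInv V) (hr : Rng R V) (hev : ∀ A, V A ≠ 0 → Even A.card)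
    (hz : 0 < 1 + z) {Λ : Finset (ℤ × ℤ)}
    (hΛ : VolS H.fin.toFinset b (max R 1) (eb a y j) Λ)
    {M K : ℕ} (Dd : FRD 16 M K) (hK : 16 ≤ K) (mk : Finset (ℤ × ℤ)) {l k0 : ℕ}
    (h5 : 5 ≤ l * (k0 + 1)) (K₁ N : ℕ) (e2 : ℕ → Extr (ℤ × ℤ) (VS (Fld ℤ) m))
    {src : Submodule ℝ (VS (Fld ℤ) m)}
    (hok : (flD H (mpar J lam R V β z) Dd mk e2 l k0).OK src)
    (Sf : Cov (Fld ℤ))
    (hSf : Cof (wD (isF b) D a (xb a x)) = Sf +
      ∑ k ∈ range (K₁ + N), slC Dd (wD (isF b) D a (xb a x)) l k0 k)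
    (hsrc : ∀ u ∈ src, ∀ v, (ext0 m Sf).b u v = 0)
    (hsupp : ∀ U, ¬ U ⊆ Λ → K0S H.fin b (mpar J lam R V β z) (xb a x) (eb a y j) U = 0)
    (hsep : ∀ i i', i ≠ i' → nearR l k0 (K₁ - 1) < fd (eb a y j i).1 (eb a y j i').1)
    (hnt : ∀ i i', i ≠ i' → ¬ touch (near l k0 K₁) (faE (eb a y j i)) (faE (eb a y j i')))
    (Ze : ℝ) (ebv : Fin m → ℝ) {g : Fld ℤ → ℝ≥0∞} {v : Fin m → ℝ} {e M' A κ : ℝ}
    (hF : FinE (near l k0 (K₁ + N)) Λ
      ((flD H (mpar J lam R V β z) Dd mk e2 l k0).K (K₁ + N))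
      ((flL (flD H (mpar J lam R V β z) Dd mk e2 l k0) K₁ (wD (isF b) D a (xb a x))
        (eb a y j) Ze).K N)
      (∑ i, (1 - ebv i) • tau i + (flD H (mpar J lam R V β z) Dd mk e2 l k0).E Λ (K₁ + N))
      (∑ i, (Ze * c0B Dd (wD (isF b) D a (xb a x)) l k0 K₁ (eb a y j i)) • tau i +
        (flL (flD H (mpar J lam R V β z) Dd mk e2 l k0) K₁ (wD (isF b) D a (xb a x))
          (eb a y j) Ze).E Λ N) Sf g v e M')
    (hk : ∀ i, κ ≤ a * (A ^ 2 * v i ^ 2)) :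
    RunPack m (domMom D a b J lam R V β x y j ebv / spm D a b J lam R V β x)
      (Ze ^ m * (D0c D a b x y j / spm0 D a b x)) a A e M' κ :=
  ⟨ℤ × ℤ, inferInstance, Fld ℤ, inferInstance, inferInstance, _, _, _, _, _, _, Sf, g, v, hF, hk,
    q_run H hJ hV hr hev hz ebv hΛ Dd mk l k0 (K₁ + N) e2 hok Sf hSf hsrc hsupp,
    lead_run H (mpar J lam R V β z) hΛ.src Dd hK mk h5 K₁ N e2 hok Sf hSf hsrc hsep hnt Ze⟩


/-- the same with the source fields `srcW` of `GSys_387` (the form of `flowP_OK`) -/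
theorem runPack_ofW (H : SrcOK D a b x y j) {J lam : ℝ} {R : ℕ} {V : Finset (ℤ × ℤ) → ℝ} {β z : ℝ}
    (hJ : J ≠ 0) (hV : TrInv V) (hr : Rng R V) (hev : ∀ A, V A ≠ 0 → Even A.card)
    (hz : 0 < 1 + z) {Λ : Finset (ℤ × ℤ)}
    (hΛ : VolS H.fin.toFinset b (max R 1) (eb a y j) Λ)
    {M K : ℕ} (Dd : FRD 16 M K) (hK : 16 ≤ K) (mk : Finset (ℤ × ℤ)) {l k0 : ℕ}
    (h5 : 5 ≤ l * (k0 + 1)) (K₁ N : ℕ) (e2 : ℕ → Extr (ℤ × ℤ) (VS (Fld ℤ) m))
    (hok : (flD H (mpar J lam R V β z) Dd mk e2 l k0).OK (GSysx387.srcW (Fld ℤ) m))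
    (Sf : Cov (Fld ℤ))
    (hSf : Cof (wD (isF b) D a (xb a x)) = Sf +
      ∑ k ∈ range (K₁ + N), slC Dd (wD (isF b) D a (xb a x)) l k0 k)
    (hsupp : ∀ U, ¬ U ⊆ Λ → K0S H.fin b (mpar J lam R V β z) (xb a x) (eb a y j) U = 0)
    (hsep : ∀ i i', i ≠ i' → nearR l k0 (K₁ - 1) < fd (eb a y j i).1 (eb a y j i').1)
    (hnt : ∀ i i', i ≠ i' → ¬ touch (near l k0 K₁) (faE (eb a y j i)) (faE (eb a y j i')))
    (Ze : ℝ) (ebv : Fin m → ℝ) {g : Fld ℤ → ℝ≥0∞} {v : Fin m → ℝ} {e M' A κ : ℝ}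
    (hF : FinE (near l k0 (K₁ + N)) Λ
      ((flD H (mpar J lam R V β z) Dd mk e2 l k0).K (K₁ + N))
      ((flL (flD H (mpar J lam R V β z) Dd mk e2 l k0) K₁ (wD (isF b) D a (xb a x))
        (eb a y j) Ze).K N)
      (∑ i, (1 - ebv i) • tau i + (flD H (mpar J lam R V β z) Dd mk e2 l k0).E Λ (K₁ + N))
      (∑ i, (Ze * c0B Dd (wD (isF b) D a (xb a x)) l k0 K₁ (eb a y j i)) • tau i +
        (flL (flD H (mpar J lam R V β z) Dd mk e2 l k0) K₁ (wD (isF b) D a (xb a x))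
          (eb a y j) Ze).E Λ N) Sf g v e M')
    (hk : ∀ i, κ ≤ a * (A ^ 2 * v i ^ 2)) :
    RunPack m (domMom D a b J lam R V β x y j ebv / spm D a b J lam R V β x)
      (Ze ^ m * (D0c D a b x y j / spm0 D a b x)) a A e M' κ :=
  runPack_of' H hJ hV hr hev hz hΛ Dd hK mk h5 K₁ N e2 hok Sf hSf (SrcFinBx441.ext0_src Sf) hsupp
    hsep hnt Ze ebv hF hk

end run

/-! ### the last covariance from the covariance package -/

open Crest.Agent.R165.CovPkgx359 Crest.Agent.R165.PNormx417 in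
/-- **the last covariance** `Sf` after `n` steps -/
def sfL {w : BW ℤ} {m₀ : ℝ} (P : Pkg w m₀) {M K : ℕ} (Dd : FRD 16 M K) (l k0 n : ℕ) :
    Cov (Fld ℤ) := P.sof.last Dd l k0 n

open Crest.Agent.R165.CovPkgx359 in
/-- the hypothesis `hSf` -/
theorem sfL_eq {w : BW ℤ} {m₀ : ℝ} (P : Pkg w m₀) {M K : ℕ} (Dd : FRD 16 M K) (l k0 n : ℕ) :
    Cof w = sfL P Dd l k0 n + ∑ k ∈ range n, slC Dd w l k0 k :=
  P.sof.full_eq Dd l k0 n

open Crest.Agent.R165.CovPkgx359 Crest.Agent.R165.PNormx417 in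
/-- its Gram bound -/
theorem sfL_gram {w : BW ℤ} {m₀ : ℝ} (P : Pkg w m₀) {M K : ℕ} (Dd : FRD 16 M K) (l k0 n : ℕ) :
    Gram (sfL P Dd l k0 n) (FRDRestx439.gr Dd w m₀ (lo l k0 n)) :=
  P.rest_gram (Sof_spec P.ex) Dd (lo l k0 n)

/-! ### separation of the sources -/

/-- the two separation hypotheses from one distance -/
theorem sep_of {m : ℕ} {l k0 K₁ : ℕ} {e : Fin m → EG ℤ}
    (h : ∀ i i', i ≠ i' → nearR l k0 K₁ + 2 < fd (e i).1 (e i').1) :
    (∀ i i', i ≠ i' → nearR l k0 (K₁ - 1) < fd (e i).1 (e i').1) ∧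
      ∀ i i', i ≠ i' → ¬ touch (near l k0 K₁) (faE (e i)) (faE (e i')) := by
  have hd : ∀ (e : EG ℤ) (f : ℤ × ℤ), f ∈ faE e → fd e.1 f ≤ 1 := by
    rintro ⟨⟨p, q⟩, i⟩ f hf
    fin_cases i
    · simp only [faE, pe, qe, Finset.mem_insert, Finset.mem_singleton] at hf
      rcases hf with rfl | rfl <;> simp [fd, cn]
    · simp only [faE, pe, qe, Finset.mem_insert, Finset.mem_singleton] at hf
      rcases hf with rfl | rfl <;> simp [fd, cn]
  refine ⟨fun i i' hii => ?_, fun i i' hii => ?_⟩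
  · have h1 := h i i' hii
    have h2 : nearR l k0 (K₁ - 1) ≤ nearR l k0 K₁ := nearR_mono l k0 (by omega)
    omega
  · rintro ⟨f, hf, f', hf', hn⟩
    have h1 := h i i' hii
    have h2 := hd _ _ hf
    have h3 := hd _ _ hf'
    have h4 : fd f f' ≤ nearR l k0 K₁ := hn
    have h5 := fd_triangle (e i).1 f (e i').1
    have h6 := fd_triangle f f' (e i').1
    have h7 : fd f' (e i').1 = fd (e i').1 f' := fd_comm _ _
    omega

end Crest.Agent.R165.EnWx359
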