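import Crest.Agent.R165.GrLoc_337
import Crest.Agent.R165.PNorm2_417
import Crest.Agent.R165.Gr1_606
import Crest.Agent.R165.ExpG_337
import Crest.Agent.R165.KStep_892

-- ▼ part R165/GExp_900
section

/-!
# Row 165 (S0250), block G: the exponential of even Grassmann elements

`gexp a = e^{ct a} * sum_n (a - ct a)^n / n!` (finite sum: an even element without constant part is
nilpotent, for every `V`).  Purely algebraic.

* `gexp_add`, `gexpE_sum`, `prod_one_add_gexp`: `sum_U A U = c` implies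
  `prod_U (1 + (gexp (A U) - 1)) = e^c`
* `mp_gexp`, `gexp_mem`, `ct_gexp`, `inv'_gexp`
* `pnorm_gexp_sub_one_le`, `pnorm_gexp_sub_le`, `pnorm_gexp_sub_gexp_le` : bounds in the projective
  norm of `PNorm_417`.
-/

set_option autoImplicit false

noncomputable section

namespace Crest.Agent.R165.GExpx900

open Crest.Agent.R165.Gr0x606 Crest.Agent.R165.Evx653 Crest.Agent.R165.GrLocx337
open Crest.Agent.R165.PNormx417 Crest.Agent.R165.Gr1x606
open Finset (range)
open scoped ENNReal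

/-! ### nilpotent exponential over the reals -/

section nil

variable {A B : Type*} [Ring A] [Algebra ℝ A] [Ring B] [Algebra ℝ B]

/-- the exponential of a nilpotent element -/
def nexp (a : A) : A := ∑ i ∈ range (nilpotencyClass a), ((i.factorial : ℝ)⁻¹) • a ^ i

/-- rational structure -/
@[instance_reducible] def ratMod (A : Type*) [Ring A] [Algebra ℝ A] : Module ℚ A :=
  Module.compHom A (algebraMap ℚ ℝ)

theorem nexp_eq (a : A) : nexp a = @IsNilpotent.exp A _ (ratMod A) a := by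
  let _ := ratMod A
  unfold nexp IsNilpotent.exp
  refine Finset.sum_congr rfl fun i _ => ?_
  have : ((i.factorial : ℚ)⁻¹ • (a ^ i) : A) = (algebraMap ℚ ℝ ((i.factorial : ℚ)⁻¹)) • (a ^ i) := rfl
  rw [this]
  simp

theorem nexp_eq_sum {a : A} {k : ℕ} (h : a ^ k = 0) :
    nexp a = ∑ i ∈ range k, ((i.factorial : ℝ)⁻¹) • a ^ i := by
  let _ := ratMod A
  rw [nexp_eq, IsNilpotent.exp_eq_sum h]
  refine Finset.sum_congr rfl fun i _ => ?_
  have : ((i.factorial : ℚ)⁻¹ • (a ^ i) : A) = (algebraMap ℚ ℝ ((i.factorial : ℚ)⁻¹)) • (a ^ i) := rfl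
  rw [this]
  simp

theorem nexp_add {a b : A} (h₁ : Commute a b) (h₂ : IsNilpotent a) (h₃ : IsNilpotent b) :
    nexp (a + b) = nexp a * nexp b := by
  let _ := ratMod A
  rw [nexp_eq, nexp_eq, nexp_eq]
  exact IsNilpotent.exp_add_of_commute h₁ h₂ h₃

@[simp] theorem nexp_zero : nexp (0 : A) = 1 := by
  rw [nexp_eq_sum (k := 1) (by simp)]; simp


theorem nexp_mem (S : Subalgebra ℝ A) {a : A} (h : a ∈ S) : nexp a ∈ S :=
  Subalgebra.sum_mem _ fun _ _ => Subalgebra.smul_mem _ (Subalgebra.pow_mem _ h _) _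

end nil

variable {V : Type*} [AddCommGroup V] [Module ℝ V] {W : Type*} [AddCommGroup W] [Module ℝ W]

/-- the even part without constant term is nilpotent -/
theorem isNilpotent_evenPart (a : Gr V) :
    IsNilpotent ((1 / 2 : ℝ) • (a + inv' a) - algebraMap ℝ (Gr V) (ct a)) := by
  induction a using Gr.induction with
  | h0 r =>
    have : (1 / 2 : ℝ) • (algebraMap ℝ (Gr V) r + inv' (algebraMap ℝ (Gr V) r)) -
        algebraMap ℝ (Gr V) (ct (algebraMap ℝ (Gr V) r)) = 0 := by
      rw [AlgHom.commutes, ct_algebraMap, ← two_smul ℝ, smul_smul]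
      norm_num
    rw [this]
    exact IsNilpotent.zero
  | h1 x a _ =>
    have h1 : (1 / 2 : ℝ) • (fi x * a + inv' (fi x * a)) - algebraMap ℝ (Gr V) (ct (fi x * a)) =
        fi x * ((1 / 2 : ℝ) • (a - inv' a)) := by
      rw [map_mul, inv'_fi, map_mul, ct_fi, zero_mul, map_zero, sub_zero, neg_mul, ← sub_eq_add_neg,
        ← mul_sub, mul_smul_comm]
    rw [h1]
    refine ⟨2, ?_⟩
    set b := (1 / 2 : ℝ) • (a - inv' a)
    have h2 : b * fi x = fi x * inv' b := by
      have := fi_mul_comm x (inv' b)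
      rw [inv'_inv'] at this
      exact this.symm
    rw [pow_two, mul_assoc, ← mul_assoc b, h2, mul_assoc, ← mul_assoc, fi_mul_self, zero_mul]
  | h2 a b iha ihb =>
    have h1 : (1 / 2 : ℝ) • (a + b + inv' (a + b)) - algebraMap ℝ (Gr V) (ct (a + b)) =
        ((1 / 2 : ℝ) • (a + inv' a) - algebraMap ℝ (Gr V) (ct a)) +
        ((1 / 2 : ℝ) • (b + inv' b) - algebraMap ℝ (Gr V) (ct b)) := by
      rw [map_add, map_add, map_add]
      module
    rw [h1]
    refine Commute.isNilpotent_add ?_ iha ihb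
    have hev : IsEv ((1 / 2 : ℝ) • (a + inv' a) - algebraMap ℝ (Gr V) (ct a)) := by
      refine IsEv.sub (IsEv.smul ?_ _) (isEv_algebraMap _)
      rw [IsEv, map_add, inv'_inv', add_comm]
    exact hev.comm _

theorem isNilpotent_sub_ct {a : Gr V} (ha : IsEv a) :
    IsNilpotent (a - algebraMap ℝ (Gr V) (ct a)) := by
  have h := isNilpotent_evenPart a
  rw [ha, ← two_smul ℝ, smul_smul] at h
  norm_num at h
  exact h

theorem isEv_sub_ct {a : Gr V} (ha : IsEv a) : IsEv (a - algebraMap ℝ (Gr V) (ct a)) :=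
  ha.sub (isEv_algebraMap _)

/-- the exponential (meaningful on even elements) -/
def gexp (a : Gr V) : Gr V := Real.exp (ct a) • nexp (a - algebraMap ℝ (Gr V) (ct a))

theorem gexp_mem (S : Subalgebra ℝ (Gr V)) {a : Gr V} (h : a ∈ S) : gexp a ∈ S :=
  Subalgebra.smul_mem _ (nexp_mem S (Subalgebra.sub_mem _ h (Subalgebra.algebraMap_mem _ _))) _

theorem isEv_gexp {a : Gr V} (ha : IsEv a) : IsEv (gexp a) := gexp_mem (evSub V) ha

theorem gexp_add {a b : Gr V} (ha : IsEv a) (hb : IsEv b) : gexp (a + b) = gexp a * gexp b := by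
  unfold gexp
  rw [smul_mul_smul_comm, ← nexp_add ((isEv_sub_ct ha).comm _) (isNilpotent_sub_ct ha)
    (isNilpotent_sub_ct hb), map_add, Real.exp_add, map_add]
  congr 2
  abel

@[simp] theorem gexp_algebraMap (r : ℝ) :
    gexp (algebraMap ℝ (Gr V) r) = algebraMap ℝ (Gr V) (Real.exp r) := by
  unfold gexp
  rw [ct_algebraMap, sub_self, nexp_zero, ← Algebra.algebraMap_eq_smul_one]

@[simp] theorem gexp_zero : gexp (0 : Gr V) = 1 := by
  have := gexp_algebraMap (V := V) 0
  rwa [map_zero, Real.exp_zero, map_one] at this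




/-- exponential on the commutative ring of even elements -/
def gexpE (a : Ev V) : Ev V := ⟨gexp (a : Gr V), isEv_gexp a.2⟩

@[simp] theorem coe_gexpE (a : Ev V) : ((gexpE a : Ev V) : Gr V) = gexp (a : Gr V) := rfl


@[simp] theorem gexpE_zero : gexpE (0 : Ev V) = 1 := ev_ext gexp_zero

@[simp] theorem gexpE_algebraMap (r : ℝ) :
    gexpE (algebraMap ℝ (Ev V) r) = algebraMap ℝ (Ev V) (Real.exp r) := ev_ext (gexp_algebraMap r)









/-! ### on the even ring `Ge V` -/

/-- exponential on `Ge V` -/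
def gexpG (a : Ge V) : Ge V := ⟨gexp (a : Gr V), isEv_gexp a.2⟩

@[simp] theorem coe_gexpG (a : Ge V) : ((gexpG a : Ge V) : Gr V) = gexp (a : Gr V) := rfl


@[simp] theorem gexpG_zero : gexpG (0 : Ge V) = 1 := Subtype.ext gexp_zero

@[simp] theorem gexpG_algebraMap (r : ℝ) :
    gexpG (algebraMap ℝ (Ge V) r) = algebraMap ℝ (Ge V) (Real.exp r) :=
  Subtype.ext (gexp_algebraMap r)





/-! ### bounds in the projective norm -/

theorem real_exp_sub_one_le (x : ℝ) : |Real.exp x - 1| ≤ Real.exp |x| - 1 := by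
  rcases le_total 0 x with h | h
  · rw [abs_of_nonneg h, abs_of_nonneg]
    linarith [Real.add_one_le_exp x]
  · rw [abs_of_nonpos h, abs_of_nonpos (by linarith [Real.exp_le_one_iff.2 h])]
    have h1 := Real.add_one_le_exp x
    have h2 := Real.add_one_le_exp (-x)
    linarith
















theorem real_exp_sub_one_le_two {t : ℝ} (h0 : 0 ≤ t) (h1 : t ≤ 1) : Real.exp t - 1 ≤ 2 * t := by
  have h := Real.abs_exp_sub_one_sub_id_le (x := t) (by rwa [abs_of_nonneg h0])
  have h2 := (le_abs_self _).trans h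
  nlinarith





end Crest.Agent.R165.GExpx900
end
end

-- ▼ part R165/FinB_900

/-!
# Row 165 (S0250), block G: final-scale bound of a polymer gas

`|ZZ near Λ K - 1| ≤ exp (∑_U |K U|) - 1` for any submultiplicative extended norm, and the
expectation form `|E_S ZZ - 1| ≤ exp (∑_U |K U|_g) - 1` for a covariance with Gram bound `g`.
-/

set_option autoImplicit false

noncomputable section

namespace Crest.Agent.R165.FinBx900

open Crest.Agent.R165.KStepx892 Crest.Agent.R165.Gr0x606 Crest.Agent.R165.Gr1x606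
open Crest.Agent.R165.PNormx417 Crest.Agent.R165.GExpx900
open scoped ENNReal

/-- a submultiplicative extended norm on a ring -/
structure RN {R : Type*} [CommRing R] (N : R → ℝ≥0∞) : Prop where
  zero : N 0 = 0
  one : N 1 ≤ 1
  add : ∀ x y, N (x + y) ≤ N x + N y
  mul : ∀ x y, N x ≠ ∞ → N y ≠ ∞ → N (x * y) ≤ N x * N y

namespace RN

variable {R : Type*} [CommRing R] {N : R → ℝ≥0∞} (hN : RN N)

include hN

theorem sum_le {ι : Type*} (s : Finset ι) (f : ι → R) : N (∑ i ∈ s, f i) ≤ ∑ i ∈ s, N (f i) := by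
  classical
  induction s using Finset.induction_on with
  | empty => simp [hN.zero]
  | insert i s hi ih =>
    rw [Finset.sum_insert hi, Finset.sum_insert hi]
    exact (hN.add _ _).trans (add_le_add le_rfl ih)

theorem prod_le {ι : Type*} (s : Finset ι) (f : ι → R) (hf : ∀ i ∈ s, N (f i) ≠ ∞) :
    N (∏ i ∈ s, f i) ≤ ∏ i ∈ s, N (f i) := by
  classical
  induction s using Finset.induction_on with
  | empty => simpa using hN.one
  | insert i s hi ih =>
    rw [Finset.prod_insert hi, Finset.prod_insert hi]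
    have h1 := ih fun j hj => hf j (Finset.mem_insert_of_mem hj)
    have h2 : ∏ j ∈ s, N (f j) ≠ ∞ :=
      ENNReal.prod_ne_top fun j hj => hf j (Finset.mem_insert_of_mem hj)
    exact (hN.mul _ _ (hf i (Finset.mem_insert_self _ _)) (ne_top_of_le_ne_top h2 h1)).trans
      (mul_le_mul' le_rfl h1)

end RN

variable {F : Type*} [DecidableEq F] {R : Type*} [CommRing R] {N : R → ℝ≥0∞}

/-- `|ZZ - 1| + 1 ≤ ∏ (1 + |K U|)` -/
theorem zz_sub_one_le_prod (hN : RN N) (near : F → F → Prop) (Λ : Finset F) (K : Finset F → R)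
    (hK : ∀ U ∈ nes Λ, N (K U) ≠ ∞) :
    N (ZZ near Λ K - 1) + 1 ≤ ∏ U ∈ nes Λ, (1 + N (K U)) := by
  classical
  have h1 : ZZ near Λ K = ∑ X ∈ (nes Λ).powerset,
      if KStepx892.Sep near X then ∏ U ∈ X, K U else 0 := by
    unfold ZZ
    rw [← Finset.sum_filter]
    refine Finset.sum_congr ?_ fun _ _ => rfl
    ext X
    simp only [Finset.mem_filter, Finset.mem_powerset]
    constructor
    · rintro ⟨h, hs⟩
      exact ⟨fun U hU => mem_nes.2 ⟨Finset.mem_powerset.1 (h hU), hs.ne U hU⟩, hs⟩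
    · rintro ⟨h, hs⟩
      exact ⟨fun U hU => Finset.mem_powerset.2 (mem_nes.1 (h hU)).1, hs⟩
  have hs0 : KStepx892.Sep near (∅ : Finset (Finset F)) :=
    ⟨fun _ h => absurd h (Finset.notMem_empty _), fun _ h => absurd h (Finset.notMem_empty _)⟩
  have h2 : ZZ near Λ K - 1 = ∑ X ∈ (nes Λ).powerset.erase ∅,
      if KStepx892.Sep near X then ∏ U ∈ X, K U else 0 := by
    rw [h1, ← Finset.add_sum_erase _ _ (Finset.empty_mem_powerset _), if_pos hs0, Finset.prod_empty,
      add_sub_cancel_left]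
  have h3 : ∏ U ∈ nes Λ, (1 + N (K U)) = ∑ X ∈ (nes Λ).powerset, ∏ U ∈ X, N (K U) := by
    rw [Finset.prod_one_add]
  rw [h2, h3, ← Finset.add_sum_erase _ _ (Finset.empty_mem_powerset _), Finset.prod_empty, add_comm]
  gcongr
  refine (hN.sum_le _ _).trans (Finset.sum_le_sum fun X hX => ?_)
  split_ifs with h
  · refine hN.prod_le _ _ fun U hU => hK U ?_
    exact Finset.mem_powerset.1 (Finset.mem_of_mem_erase hX) hU
  · rw [hN.zero]; exact zero_le

/-- `|ZZ - 1| ≤ exp (∑ |K U|) - 1` -/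
theorem zz_sub_one_le (hN : RN N) (near : F → F → Prop) (Λ : Finset F) (K : Finset F → R) {δ : ℝ}
    (hδ : 0 ≤ δ) (h : ∑ U ∈ nes Λ, N (K U) ≤ ENNReal.ofReal δ) :
    N (ZZ near Λ K - 1) ≤ ENNReal.ofReal (Real.exp δ - 1) := by
  have hK : ∀ U ∈ nes Λ, N (K U) ≠ ∞ := fun U hU =>
    ne_top_of_le_ne_top ENNReal.ofReal_ne_top
      ((Finset.single_le_sum (f := fun U => N (K U)) (fun _ _ => zero_le) hU).trans h)
  have h1 := zz_sub_one_le_prod hN near Λ K hK
  have h2 : ∏ U ∈ nes Λ, (1 + N (K U)) ≤ ENNReal.ofReal (Real.exp δ) := by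
    have h3 : ∀ U ∈ nes Λ, 1 + N (K U) = ENNReal.ofReal (1 + (N (K U)).toReal) := by
      intro U hU
      rw [ENNReal.ofReal_add zero_le_one ENNReal.toReal_nonneg, ENNReal.ofReal_one,
        ENNReal.ofReal_toReal (hK U hU)]
    rw [Finset.prod_congr rfl h3, ← ENNReal.ofReal_prod_of_nonneg (fun U _ => by positivity)]
    refine ENNReal.ofReal_le_ofReal ?_
    have h4 : ∏ U ∈ nes Λ, (1 + (N (K U)).toReal) ≤ ∏ U ∈ nes Λ, Real.exp (N (K U)).toReal :=
      Finset.prod_le_prod (fun _ _ => by positivity) fun U _ => by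
        rw [add_comm]; exact Real.add_one_le_exp _
    refine h4.trans ?_
    rw [← Real.exp_sum]
    refine Real.exp_le_exp.2 ?_
    rw [← ENNReal.toReal_sum hK]
    exact ENNReal.toReal_le_of_le_ofReal hδ h
  have h5 : ENNReal.ofReal (Real.exp δ - 1) + 1 = ENNReal.ofReal (Real.exp δ) := by
    rw [← ENNReal.ofReal_one, ← ENNReal.ofReal_add (by linarith [Real.add_one_le_exp δ]) zero_le_one,
      sub_add_cancel]
  have h6 := h1.trans h2
  rw [← h5] at h6
  exact (ENNReal.add_le_add_iff_right ENNReal.one_ne_top).1 h6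

/-! ### the projective norm on the even ring -/

variable {V : Type*} [AddCommGroup V] [Module ℝ V]

theorem rn_pnorm (w : V → ℝ≥0∞) : RN (fun a : Ge V => pnorm w (a : Gr V)) where
  zero := pnorm_zero w
  one := pnorm_one_le w
  add _ _ := pnorm_add_le w _ _
  mul _ _ hx hy := pnorm_mul_le hx hy

/-- FINAL SCALE BOUND: `|E_S ZZ - 1| ≤ exp (∑_U |K U|_g) - 1` -/
theorem EE_zz_sub_one {S : Cov V} {g : V → ℝ≥0∞} (hg : Gram S g) (near : F → F → Prop)
    (Λ : Finset F) (K : Finset F → Ge V) {δ : ℝ} (hδ : 0 ≤ δ)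
    (h : ∑ U ∈ nes Λ, pnorm g (K U : Gr V) ≤ ENNReal.ofReal δ) :
    |EE S ((ZZ near Λ K : Ge V) : Gr V) - 1| ≤ Real.exp δ - 1 := by
  have h1 := zz_sub_one_le (rn_pnorm g) near Λ K hδ h
  have h2 := (EE_le_pnorm hg ((ZZ near Λ K - 1 : Ge V) : Gr V)).trans h1
  have h3 : EE S ((ZZ near Λ K - 1 : Ge V) : Gr V) = EE S ((ZZ near Λ K : Ge V) : Gr V) - 1 := by
    have : ((ZZ near Λ K - 1 : Ge V) : Gr V) = ((ZZ near Λ K : Ge V) : Gr V) - 1 := rfl
    rw [this, map_sub, EE_one]
  rw [h3, ← ofReal_norm, ENNReal.ofReal_le_ofReal_iff (by linarith [Real.add_one_le_exp δ]),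
    Real.norm_eq_abs] at h2
  exact h2

/-- linear form of the final scale bound -/
theorem EE_zz_sub_one_le {S : Cov V} {g : V → ℝ≥0∞} (hg : Gram S g) (near : F → F → Prop)
    (Λ : Finset F) (K : Finset F → Ge V) {δ : ℝ} (hδ : 0 ≤ δ) (hδ1 : δ ≤ 1)
    (h : ∑ U ∈ nes Λ, pnorm g (K U : Gr V) ≤ ENNReal.ofReal δ) :
    |EE S ((ZZ near Λ K : Ge V) : Gr V) - 1| ≤ 2 * δ :=
  (EE_zz_sub_one hg near Λ K hδ h).trans (real_exp_sub_one_le_two hδ hδ1)

end Crest.Agent.R165.FinBx900
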