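import Crest.Agent.R165.J2b_606
import Crest.Agent.R165.J4K0_126

-- ▼ part R165/Resc_950
section

/-!
# Row 165 (S0250), block J: position dependent rescaling of the fields (helper950)

* `RS t`   : the algebra map `φ_i ↦ t_i φ_i` on `Gr (VI ι)`, `RSe t` on the even ring
* `EX p q c t K = ∏_{k ∈ K} (1 + c_k (t_{p k} t_{q k} - 1) φ_{p k} φ_{q k})`
* `rescale`: if the linear functional `f` satisfies the Schwinger-Dyson equations of the quadratic
  form `Σ_k c_k φ_{p k} φ_{q k}` at the `i ∈ D` and `t = 1` off `D`, then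
  `f (EX t K * RS t a) = (∏_{i ∈ D} t_i) * f a`.
* `SDu u w f` : Schwinger-Dyson equations of the half-edge lattice with weights `w`, on the
  generators `u h` (`u = id`: 606's `SD`; `u = Sum.inl`: fields plus source generators)
* `resc` : **the rescaling identity**
  `f (∏_{𝓕} (1 + c_f I4_f + c_f²/2 I4_f²) * ∏_{𝓔} (1 + (w_e (s_p s_q - 1)) b_e) * RS a) =
   (∏_{𝓕} s_f ^ 4) * f a`,  `c_f = s_f² - 1`.
-/

set_option autoImplicit false

noncomputable section

namespace Crest.Agent.R165.Rescx950

open Crest.Agent.R165.Gr0x606 Crest.Agent.R165.Gr1x606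

/-! ### bilinears -/

section bi
variable {V : Type*} [AddCommGroup V] [Module ℝ V]







end bi

/-! ### rescaling of the generators -/

section rs
variable {ι : Type*}

/-- diagonal rescaling of the fields -/
def rsV (t : ι → ℝ) : VI ι →ₗ[ℝ] VI ι := Finsupp.linearCombination ℝ fun i => Finsupp.single i (t i)

theorem rsV_single (t : ι → ℝ) (i : ι) :
    rsV t (Finsupp.single i 1) = t i • Finsupp.single i (1 : ℝ) := by
  rw [rsV, Finsupp.linearCombination_single, one_smul, Finsupp.smul_single, smul_eq_mul, mul_one]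

/-- **the rescaling** `φ_i ↦ t_i φ_i` -/
def RS (t : ι → ℝ) : Gr (VI ι) →ₐ[ℝ] Gr (VI ι) := mp (rsV t)

@[simp] theorem RS_ph (t : ι → ℝ) (i : ι) : RS t (ph i) = t i • ph i := by
  rw [RS, ph, mp_fi, rsV_single, fi_smul]



theorem rsV_one : rsV (1 : ι → ℝ) = LinearMap.id := by
  apply Finsupp.lhom_ext'
  intro i
  apply LinearMap.ext_ring
  rw [LinearMap.comp_apply, LinearMap.comp_apply, Finsupp.lsingle_apply, rsV_single, Pi.one_apply,
    one_smul, LinearMap.id_apply]

@[simp] theorem RS_one (a : Gr (VI ι)) : RS (1 : ι → ℝ) a = a := by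
  induction a using Gr.induction with
  | h0 r => simp
  | h1 x a ih => rw [map_mul, ih, RS, mp_fi, rsV_one, LinearMap.id_apply]
  | h2 a b iha ihb => simp only [map_add, iha, ihb]

/-- the rescaling of the even ring -/
def RSe (t : ι → ℝ) : Ge (VI ι) →ₐ[ℝ] Ge (VI ι) :=
  ((RS t).comp (Ge (VI ι)).val).codRestrict (Ge (VI ι)) fun a => by
    rw [mem_Ge, IsEv]
    change inv' (mp (rsV t) (a : Gr (VI ι))) = mp (rsV t) (a : Gr (VI ι))
    rw [← mp_inv', Ge.isEv a]

@[simp] theorem coe_RSe (t : ι → ℝ) (a : Ge (VI ι)) :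
    ((RSe t a : Ge (VI ι)) : Gr (VI ι)) = RS t (a : Gr (VI ι)) := rfl

/-- bilinear of two generators -/
def bp (i j : ι) : Ge (VI ι) := bi (Finsupp.single i 1) (Finsupp.single j 1)

@[simp] theorem coe_bp (i j : ι) : ((bp i j : Ge (VI ι)) : Gr (VI ι)) = ph i * ph j := rfl



variable [DecidableEq ι]

/-- the scale at one generator -/
def one1 (i : ι) (s : ℝ) : ι → ℝ := fun j => if j = i then s else 1

theorem RS_one1 (i : ι) (s : ℝ) (a : Gr (VI ι)) :
    RS (one1 i s) a = a + (s - 1) • (ph i * de i a) := by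
  have hx : ∀ x : VI ι, rsV (one1 i s) x = x + ((s - 1) * x i) • Finsupp.single i (1 : ℝ) := by
    intro x
    induction x using Finsupp.induction_linear with
    | zero => simp
    | add x y hx hy =>
      rw [map_add, hx, hy, Finsupp.add_apply, mul_add, add_smul]
      abel
    | single j c =>
      have e1 : Finsupp.single j c = c • Finsupp.single j (1 : ℝ) := by
        rw [Finsupp.smul_single, smul_eq_mul, mul_one]
      rw [e1, map_smul, rsV_single, Finsupp.smul_apply, one1]
      by_cases h : j = i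
      · subst h
        rw [if_pos rfl, Finsupp.single_eq_same, smul_eq_mul, mul_one, smul_smul, ← add_smul]
        congr 1
        ring
      · rw [if_neg h, one_smul, Finsupp.single_apply, if_neg h, smul_zero, mul_zero, zero_smul,
          add_zero]
  induction a using Gr.induction with
  | h0 r => rw [AlgHom.commutes, de, dd_algebraMap, mul_zero, smul_zero, add_zero]
  | h1 x a ih =>
    have e1 : RS (one1 i s) (fi x) = fi x + ((s - 1) * x i) • ph i := by
      rw [RS, mp_fi, hx, fi_add, fi_smul]; rfl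
    have e2 : de i (fi x * a) = x i • a - fi x * de i a := dd_fi_mul _ _ _
    have e3 : fi x * (ph i * de i a) = -(ph i * (fi x * de i a)) := by
      rw [← mul_assoc, ph, fi_anti, neg_mul, mul_assoc]
    rw [map_mul, e1, ih, e2, add_mul, mul_add, mul_add, mul_smul_comm, e3, mul_sub, mul_smul_comm,
      smul_mul_assoc, smul_mul_assoc, mul_smul_comm, ph_ph_mul_self, smul_zero, smul_zero,
      add_zero, smul_neg, smul_sub, smul_smul]
    abel
  | h2 a b iha ihb =>
    rw [map_add, iha, ihb, map_add, mul_add, smul_add]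
    abel

omit [DecidableEq ι] in
/-- **one generator**: rescaling under a functional with the Schwinger-Dyson equation at `i` -/
theorem step [DecidableEq ι] (f : Gr (VI ι) →ₗ[ℝ] ℝ) (i : ι) (Ψ : VI ι)
    (h : ∀ X, f (fi Ψ * X) = -f (de i X)) (s : ℝ) (a : Gr (VI ι)) :
    f (((1 + (s - 1) • bi (Finsupp.single i 1) Ψ : Ge (VI ι)) : Gr (VI ι)) * RS (one1 i s) a) =
      s * f a := by
  have e0 : ((1 + (s - 1) • bi (Finsupp.single i 1) Ψ : Ge (VI ι)) : Gr (VI ι)) =
      1 + (s - 1) • (ph i * fi Ψ) := rfl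
  have e1 : f (ph i * fi Ψ * a) = f a - f (ph i * de i a) := by
    have h1 := h (ph i * a)
    rw [de_ph_mul_self, map_sub, ← mul_assoc, ph, fi_anti, neg_mul, map_neg] at h1
    rw [ph]
    linarith
  have e2 : ph i * fi Ψ * (ph i * de i a) = 0 := by
    rw [ph, mul_assoc, ← mul_assoc (fi Ψ), fi_anti Ψ, neg_mul, mul_neg, mul_assoc, ← mul_assoc,
      fi_mul_self, zero_mul, neg_zero]
  rw [e0, RS_one1, add_mul, one_mul, mul_add, smul_mul_assoc, smul_mul_assoc, mul_smul_comm, e2,
    smul_zero, smul_zero, add_zero, map_add, map_add, map_smul, map_smul, e1, smul_eq_mul,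
    smul_eq_mul]
  ring

/-! ### exponentials of bilinear forms as products -/

variable {κ : Type*} (p q : κ → ι) (c : κ → ℝ)







end rs

/-! ### the half-edge lattice -/

section alg
variable {R : Type*} [CommRing R]



end alg

section lattice

open Crest.Agent.R165.J1ax606 Crest.Agent.R165.J2ax606 Crest.Agent.R165.J2bx606

variable {G : Type*} [CommRing G] {ι : Type*}

/-- first ends of the six intra-face pairs -/
def P6 : Fin 6 → Fin 4 := ![0, 0, 0, 1, 1, 2]
/-- second ends of the six intra-face pairs -/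
def Q6 : Fin 6 → Fin 4 := ![1, 2, 3, 2, 3, 3]

/-- intra-face form `Σ_{a < b} φ_{f,a} φ_{f,b}` -/
def I4 (u : HE G → ι) (g : G × G) : Ge (VI ι) := ∑ m : Fin 6, bp (u (g, P6 m)) (u (g, Q6 m))

/-- bilinear of the edge `e` -/
def bu (u : HE G → ι) (e : EG G) : Ge (VI ι) := bp (u (pe e)) (u (qe e))




/-- labels of the bonds of the action: intra-face pairs and edges -/
abbrev LK (G : Type*) : Type _ := ((G × G) × Fin 6) ⊕ EG G

/-- first ends -/
def lp (u : HE G → ι) : LK G → ι
  | .inl k => u (k.1, P6 k.2)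
  | .inr e => u (pe e)

/-- second ends -/
def lq (u : HE G → ι) : LK G → ι
  | .inl k => u (k.1, Q6 k.2)
  | .inr e => u (qe e)





/-- **Schwinger-Dyson equations** with weights `w` on the generators `u h` -/
def SDu (u : HE G → ι) (w : EG G → ℝ) (f : Gr (VI ι) →ₗ[ℝ] ℝ) : Prop :=
  ∀ h X, Aop w (fun j => f (ph (u j) * X)) h = -f (de (u h) X)


variable [DecidableEq G] [DecidableEq ι]









end lattice

end Crest.Agent.R165.Rescx950
end
private theorem rz_1e786b1570 : type_of% @_root_.Crest.Agent.R165.Rescx950.lp.eq_1 := @_root_.Crest.Agent.R165.Rescx950.lp.eq_1 -- L386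
private theorem rz_344597b84f : type_of% @_root_.Crest.Agent.R165.Rescx950.lq.eq_1 := @_root_.Crest.Agent.R165.Rescx950.lq.eq_1 -- L391
end

-- ▼ part R165/Resc2_950

/-!
# Row 165 (S0250), block J: rescaling, consumer forms (helper950)

* `SDu_cov`   : the state of any covariance with `A_w S = -1` (kernel `S` on the lattice generators,
  `0` between lattice generators and the others) satisfies `SDu`; `SDu_covOf`, `SDu_E0`, `SDu_PP`
* `SDu.de_de`, `SDu.mulLeft`, `SDu.add`, `SDu.smul` : closure properties (source coefficients)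
* `RSe_THA`, `RSe_TH` : rescaling of `THA g F`
* `resc_ZZ`   : the rescaling identity for 126's polymer gas:
  `f (ZZ (=) Λ K0) = (∏_Λ s ^ 4) * f (THA (1 - 2 w b) (shapes * sources))`
* `resc_TH`   : `f (∏ faces * ∏ edges * TH g F) = (∏ s ^ 4) * f (TH (1 - 2 w b) F)`
-/

set_option autoImplicit false
set_option linter.unusedSectionVars false

noncomputable section

namespace Crest.Agent.R165.Rescx950

open Crest.Agent.R165.Gr0x606 Crest.Agent.R165.Gr1x606
open Crest.Agent.R165.J1ax606 Crest.Agent.R165.J2ax606 Crest.Agent.R165.J2bx606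
open Crest.Agent.R165.KCompx892 Crest.Agent.R165.KStepx892 Crest.Agent.R165.J4Actx126
open Crest.Agent.R165.J4Datx126 Crest.Agent.R165.J4Geox126
open Crest.Agent.R165.J4Defx653 Crest.Agent.R165.J4Pathx653
open Crest.Agent.R165.J4RRx653 Crest.Agent.R165.J4RRAx653
open Crest.Agent.R165.J4K0x126

variable {G : Type*} [CommRing G] [DecidableEq G] {ι : Type*} [DecidableEq ι]

/-! ### functionals with the Schwinger-Dyson equations -/






theorem Aop_add (w : EG G → ℝ) (φ ψ : HE G → ℝ) (h : HE G) :
    Aop w (fun j => φ j + ψ j) h = Aop w φ h + Aop w ψ h := by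
  unfold Aop
  simp only [mul_add, Finset.sum_add_distrib]
  ring

theorem Aop_smul (w : EG G → ℝ) (c : ℝ) (φ : HE G → ℝ) (h : HE G) :
    Aop w (fun j => c * φ j) h = c * Aop w φ h := by
  unfold Aop
  rw [mul_add, Finset.mul_sum]
  congr 1
  · exact Finset.sum_congr rfl fun b _ => by ring
  · ring

theorem SDu.add {u : HE G → ι} {w : EG G → ℝ} {f g : Gr (VI ι) →ₗ[ℝ] ℝ} (hf : SDu u w f)
    (hg : SDu u w g) : SDu u w (f + g) := by
  intro h X
  simp only [LinearMap.add_apply]
  rw [Aop_add, hf, hg]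
  ring

theorem SDu.smul {u : HE G → ι} {w : EG G → ℝ} {f : Gr (VI ι) →ₗ[ℝ] ℝ} (hf : SDu u w f)
    (c : ℝ) : SDu u w (c • f) := by
  intro h X
  simp only [LinearMap.smul_apply, smul_eq_mul]
  rw [Aop_smul, hf]
  ring



/-! ### rescaling of bond polynomials -/








/-! ### consumer forms -/





end Crest.Agent.R165.Rescx950
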