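import Mathlib
import Crest.Agent.R165.PStep2_417
import Crest.Agent.R165.PStepId_901

-- ▼ part R165/Sht_541
section

/-!
# Row 165 (S0250): abstract two-parameter shooting lemma (helper541)

One expanding direction `ν` (factor `L`), one neutral direction `z`, a contracting remainder `R`
living in arbitrary spaces `E k` with size functions `Nm k` and "distances" `Ds k` (no completeness,
no linear structure is needed: `R` is eliminated forwards, `ν` and `z` are found by a contraction on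
weighted real sequences). The constants `ε₀, K` depend only on `L κ r η M ρ`.

The initial map is step `0`: take `E 0 = Unit` with `Nm 0 = C |lam|`, `Ds 0 = 0`.
-/

set_option autoImplicit false

open Filter Topology Set

namespace Crest.Agent.R165.Shtx541

universe u

/-- the hypotheses on one step of the flow -/
structure FlowHyp (E : ℕ → Type u) (Nm : ∀ k, E k → ℝ) (Ds : ∀ k, E k → E k → ℝ)
    (Φ : ∀ k, ℝ → ℝ → E k → E (k + 1)) (f g : ∀ k, ℝ → ℝ → E k → ℝ)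
    (κ η M ρ : ℝ) : Prop where
  nm_nonneg : ∀ k R, 0 ≤ Nm k R
  ds_nonneg : ∀ k R R', 0 ≤ Ds k R R'
  nm : ∀ k ν z R s, |ν| ≤ s → |z| ≤ s → Nm k R ≤ s → s ≤ ρ →
    Nm (k + 1) (Φ k ν z R) ≤ κ * Nm k R + M * s ^ 2
  ds : ∀ k ν z R ν' z' R' s, |ν| ≤ s → |z| ≤ s → Nm k R ≤ s → |ν'| ≤ s → |z'| ≤ s →
    Nm k R' ≤ s → s ≤ ρ →
    Ds (k + 1) (Φ k ν z R) (Φ k ν' z' R') ≤
      κ * Ds k R R' + M * s * (|ν - ν'| + |z - z'| + Ds k R R')
  f_nm : ∀ k ν z R s, |ν| ≤ s → |z| ≤ s → Nm k R ≤ s → s ≤ ρ →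
    |f k ν z R| ≤ M * Nm k R + (η + M * s) * (|ν| + |z|) + M * s ^ 2
  f_ds : ∀ k ν z R ν' z' R' s, |ν| ≤ s → |z| ≤ s → Nm k R ≤ s → |ν'| ≤ s → |z'| ≤ s →
    Nm k R' ≤ s → s ≤ ρ →
    |f k ν z R - f k ν' z' R'| ≤ M * Ds k R R' + (η + M * s) * (|ν - ν'| + |z - z'|)
  g_nm : ∀ k ν z R s, |ν| ≤ s → |z| ≤ s → Nm k R ≤ s → s ≤ ρ →
    |g k ν z R| ≤ M * Nm k R + (η + M * s) * (|ν| + |z|) + M * s ^ 2
  g_ds : ∀ k ν z R ν' z' R' s, |ν| ≤ s → |z| ≤ s → Nm k R ≤ s → |ν'| ≤ s → |z'| ≤ s →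
    Nm k R' ≤ s → s ≤ ρ →
    |g k ν z R - g k ν' z' R'| ≤ M * Ds k R R' + (η + M * s) * (|ν - ν'| + |z - z'|)

/-- the forward trajectory of the remainder driven by given sequences -/
def traj {E : ℕ → Type u} (Φ : ∀ k, ℝ → ℝ → E k → E (k + 1)) (R0 : E 0) (ν z : ℕ → ℝ) :
    ∀ k, E k
  | 0 => R0
  | k + 1 => Φ k (ν k) (z k) (traj Φ R0 ν z k)

section Core

variable {E : ℕ → Type u} {Nm : ∀ k, E k → ℝ} {Ds : ∀ k, E k → E k → ℝ}
  {Φ : ∀ k, ℝ → ℝ → E k → E (k + 1)} {f g : ∀ k, ℝ → ℝ → E k → ℝ} {κ η M ρ : ℝ}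

/-- size of the trajectory -/
theorem traj_nm (H : FlowHyp E Nm Ds Φ f g κ η M ρ) {r K ε : ℝ} (hκ : 0 ≤ κ) (hr0 : 0 < r)
    (hr1 : r < 1) (hM : 0 ≤ M) (hK : 1 ≤ K) (hε : 0 < ε) (hρ : K * ε ≤ ρ)
    (hsmall : M * K ^ 2 * ε ≤ r - κ) {R0 : E 0} (hR0 : Nm 0 R0 ≤ ε) {ν z : ℕ → ℝ}
    (hν : ∀ k, |ν k| ≤ K * ε * r ^ k) (hz : ∀ k, |z k| ≤ K * ε * r ^ k) (k : ℕ) :
    Nm k (traj Φ R0 ν z k) ≤ ε * r ^ k := by
  induction k with
  | zero => simpa [traj] using hR0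
  | succ k ih =>
    have hrk : 0 < r ^ k := pow_pos hr0 k
    have hrk1 : r ^ k ≤ 1 := pow_le_one₀ hr0.le hr1.le
    have h1 : ε * r ^ k ≤ K * ε * r ^ k := by nlinarith [mul_pos hε hrk]
    have h2 : K * ε * r ^ k ≤ ρ := by
      have : K * ε * r ^ k ≤ K * ε * 1 := by
        apply mul_le_mul_of_nonneg_left hrk1; positivity
      linarith
    have h3 := H.nm k (ν k) (z k) (traj Φ R0 ν z k) (K * ε * r ^ k) (hν k) (hz k) (ih.trans h1) h2
    show Nm (k + 1) (Φ k (ν k) (z k) (traj Φ R0 ν z k)) ≤ _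
    refine h3.trans ?_
    have h4 : κ * Nm k (traj Φ R0 ν z k) ≤ κ * (ε * r ^ k) := mul_le_mul_of_nonneg_left ih hκ
    have h5 : M * (K * ε * r ^ k) ^ 2 ≤ (M * K ^ 2 * ε) * (ε * r ^ k) := by
      have : M * (K * ε * r ^ k) ^ 2 = (M * K ^ 2 * ε) * (ε * r ^ k) * r ^ k := by ring
      rw [this]
      have h6 : 0 ≤ (M * K ^ 2 * ε) * (ε * r ^ k) := by positivity
      nlinarith
    have h7 : (M * K ^ 2 * ε) * (ε * r ^ k) ≤ (r - κ) * (ε * r ^ k) :=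
      mul_le_mul_of_nonneg_right hsmall (by positivity)
    calc κ * Nm k (traj Φ R0 ν z k) + M * (K * ε * r ^ k) ^ 2
        ≤ κ * (ε * r ^ k) + (r - κ) * (ε * r ^ k) := by linarith
      _ = ε * r ^ (k + 1) := by ring

/-- Lipschitz dependence of the trajectory -/
theorem traj_ds (H : FlowHyp E Nm Ds Φ f g κ η M ρ) {r K ε q : ℝ} (hκ : 0 ≤ κ) (hr0 : 0 < r)
    (hr1 : r < 1) (hM : 0 ≤ M) (hK : 1 ≤ K) (hε : 0 < ε) (hρ : K * ε ≤ ρ)
    (hsmall : M * K ^ 2 * ε ≤ r - κ) (hq : 0 < q)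
    (hsmall2 : M * (K * ε) * (2 + q) ≤ q * (r - κ)) {R0 : E 0} (hR0 : Nm 0 R0 ≤ ε)
    (hD0 : Ds 0 R0 R0 ≤ 0) {ν z ν' z' : ℕ → ℝ} {δ : ℝ} (hδ : 0 ≤ δ)
    (hν : ∀ k, |ν k| ≤ K * ε * r ^ k) (hz : ∀ k, |z k| ≤ K * ε * r ^ k)
    (hν' : ∀ k, |ν' k| ≤ K * ε * r ^ k) (hz' : ∀ k, |z' k| ≤ K * ε * r ^ k)
    (hdν : ∀ k, |ν k - ν' k| ≤ K * ε * r ^ k * δ) (hdz : ∀ k, |z k - z' k| ≤ K * ε * r ^ k * δ)
    (k : ℕ) :
    Ds k (traj Φ R0 ν z k) (traj Φ R0 ν' z' k) ≤ q * (K * ε * r ^ k * δ) := by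
  induction k with
  | zero =>
    refine hD0.trans ?_
    positivity
  | succ k ih =>
    have hrk : 0 < r ^ k := pow_pos hr0 k
    have hrk1 : r ^ k ≤ 1 := pow_le_one₀ hr0.le hr1.le
    have h1 : ε * r ^ k ≤ K * ε * r ^ k := by nlinarith [mul_pos hε hrk]
    have h2 : K * ε * r ^ k ≤ ρ := by
      have : K * ε * r ^ k ≤ K * ε * 1 := by
        apply mul_le_mul_of_nonneg_left hrk1; positivity
      linarith
    have h3 := H.ds k (ν k) (z k) (traj Φ R0 ν z k) (ν' k) (z' k) (traj Φ R0 ν' z' k)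
      (K * ε * r ^ k) (hν k) (hz k)
      ((traj_nm H hκ hr0 hr1 hM hK hε hρ hsmall hR0 hν hz k).trans h1) (hν' k) (hz' k)
      ((traj_nm H hκ hr0 hr1 hM hK hε hρ hsmall hR0 hν' hz' k).trans h1) h2
    show Ds (k + 1) (Φ k (ν k) (z k) (traj Φ R0 ν z k)) (Φ k (ν' k) (z' k) (traj Φ R0 ν' z' k)) ≤ _
    refine h3.trans ?_
    set X := K * ε * r ^ k * δ with hX
    have hX0 : 0 ≤ X := by positivity
    have h4 : κ * Ds k (traj Φ R0 ν z k) (traj Φ R0 ν' z' k) ≤ κ * (q * X) :=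
      mul_le_mul_of_nonneg_left ih hκ
    have h5 : M * (K * ε * r ^ k) * (|ν k - ν' k| + |z k - z' k| +
        Ds k (traj Φ R0 ν z k) (traj Φ R0 ν' z' k)) ≤ M * (K * ε) * ((2 + q) * X) := by
      have ha : |ν k - ν' k| + |z k - z' k| + Ds k (traj Φ R0 ν z k) (traj Φ R0 ν' z' k) ≤
          (2 + q) * X := by
        have := hdν k
        have := hdz k
        linarith
      have hb : M * (K * ε * r ^ k) ≤ M * (K * ε) := by
        apply mul_le_mul_of_nonneg_left _ hM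
        have : K * ε * r ^ k ≤ K * ε * 1 := by
          apply mul_le_mul_of_nonneg_left hrk1; positivity
        linarith
      have hc : 0 ≤ |ν k - ν' k| + |z k - z' k| + Ds k (traj Φ R0 ν z k) (traj Φ R0 ν' z' k) := by
        have := H.ds_nonneg k (traj Φ R0 ν z k) (traj Φ R0 ν' z' k)
        positivity
      calc _ ≤ M * (K * ε) * (|ν k - ν' k| + |z k - z' k| +
          Ds k (traj Φ R0 ν z k) (traj Φ R0 ν' z' k)) := mul_le_mul_of_nonneg_right hb hc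
        _ ≤ _ := mul_le_mul_of_nonneg_left ha (by positivity)
    have h6 : M * (K * ε) * ((2 + q) * X) ≤ q * (r - κ) * X := by
      have := mul_le_mul_of_nonneg_right hsmall2 hX0
      linarith
    calc _ ≤ κ * (q * X) + q * (r - κ) * X := by linarith
      _ = q * (K * ε * r ^ (k + 1) * δ) := by rw [hX]; ring

end Core

/-! ### The fixed point problem on sequences -/

/-- the space of normalised sequences -/
abbrev Sq := {a : BoundedContinuousFunction ℕ (ℝ × ℝ) // ‖a‖ ≤ 1}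

instance : CompleteSpace Sq := by
  have : IsClosed {a : BoundedContinuousFunction ℕ (ℝ × ℝ) | ‖a‖ ≤ 1} :=
    isClosed_le continuous_norm continuous_const
  exact this.completeSpace_coe

instance : Nonempty Sq := ⟨⟨0, by simp⟩⟩

theorem sq_fst (a : Sq) (k : ℕ) : |(a.1 k).1| ≤ 1 :=
  (norm_fst_le (a.1 k)).trans ((a.1.norm_coe_le_norm k).trans a.2)

theorem sq_snd (a : Sq) (k : ℕ) : |(a.1 k).2| ≤ 1 :=
  (norm_snd_le (a.1 k)).trans ((a.1.norm_coe_le_norm k).trans a.2)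

/-- the sequence `ν` of a normalised sequence -/
def nuS (w r : ℝ) (a : Sq) (k : ℕ) : ℝ := w * r ^ k * (a.1 k).1

/-- the sequence `z` of a normalised sequence -/
def zS (w r : ℝ) (a : Sq) (k : ℕ) : ℝ := w * r ^ k * (a.1 k).2

theorem nuS_le {w r : ℝ} (hw : 0 ≤ w) (hr : 0 ≤ r) (a : Sq) (k : ℕ) :
    |nuS w r a k| ≤ w * r ^ k := by
  unfold nuS
  rw [abs_mul, abs_of_nonneg (by positivity : 0 ≤ w * r ^ k)]
  have := mul_le_mul_of_nonneg_left (sq_fst a k) (by positivity : 0 ≤ w * r ^ k)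
  linarith

theorem zS_le {w r : ℝ} (hw : 0 ≤ w) (hr : 0 ≤ r) (a : Sq) (k : ℕ) :
    |zS w r a k| ≤ w * r ^ k := by
  unfold zS
  rw [abs_mul, abs_of_nonneg (by positivity : 0 ≤ w * r ^ k)]
  have := mul_le_mul_of_nonneg_left (sq_snd a k) (by positivity : 0 ≤ w * r ^ k)
  linarith

theorem nuS_sub {w r : ℝ} (hw : 0 ≤ w) (hr : 0 ≤ r) (a b : Sq) (k : ℕ) :
    |nuS w r a k - nuS w r b k| ≤ w * r ^ k * dist a b := by
  unfold nuS
  rw [← mul_sub, abs_mul, abs_of_nonneg (by positivity : 0 ≤ w * r ^ k)]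
  refine mul_le_mul_of_nonneg_left ?_ (by positivity)
  have h1 : ‖(a.1 k - b.1 k).1‖ ≤ ‖a.1 k - b.1 k‖ := norm_fst_le _
  have h2 : ‖a.1 k - b.1 k‖ ≤ dist a.1 b.1 := by
    rw [← dist_eq_norm]
    exact BoundedContinuousFunction.dist_coe_le_dist k
  exact h1.trans h2

theorem zS_sub {w r : ℝ} (hw : 0 ≤ w) (hr : 0 ≤ r) (a b : Sq) (k : ℕ) :
    |zS w r a k - zS w r b k| ≤ w * r ^ k * dist a b := by
  unfold zS
  rw [← mul_sub, abs_mul, abs_of_nonneg (by positivity : 0 ≤ w * r ^ k)]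
  refine mul_le_mul_of_nonneg_left ?_ (by positivity)
  have h1 : ‖(a.1 k - b.1 k).2‖ ≤ ‖a.1 k - b.1 k‖ := norm_snd_le _
  have h2 : ‖a.1 k - b.1 k‖ ≤ dist a.1 b.1 := by
    rw [← dist_eq_norm]
    exact BoundedContinuousFunction.dist_coe_le_dist k
  exact h1.trans h2

/-- a tail sum bounded by a geometric one -/
theorem tail_bound {F : ℕ → ℝ} {r A c : ℝ} (hr0 : 0 < r) (hr1 : r < 1) (_hA : 0 ≤ A)
    (hc0 : 0 ≤ c) (hc1 : c ≤ 1) (hF : ∀ i, |F i| ≤ A * r ^ i) (k : ℕ) :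
    Summable (fun i => c ^ (i + 1) * F (k + i)) ∧
    |∑' i, c ^ (i + 1) * F (k + i)| ≤ A * r ^ k / (1 - r) := by
  have hg : HasSum (fun i : ℕ => A * r ^ k * r ^ i) (A * r ^ k * (1 - r)⁻¹) :=
    (hasSum_geometric_of_lt_one hr0.le hr1).mul_left _
  have hle : ∀ i, ‖c ^ (i + 1) * F (k + i)‖ ≤ A * r ^ k * r ^ i := by
    intro i
    rw [norm_mul, Real.norm_eq_abs, Real.norm_eq_abs, abs_of_nonneg (by positivity)]
    have h1 : c ^ (i + 1) ≤ 1 := pow_le_one₀ hc0 hc1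
    have h2 := hF (k + i)
    have h3 : A * r ^ (k + i) = A * r ^ k * r ^ i := by rw [pow_add]; ring
    rw [h3] at h2
    have h4 : 0 ≤ |F (k + i)| := abs_nonneg _
    calc c ^ (i + 1) * |F (k + i)| ≤ 1 * |F (k + i)| := mul_le_mul_of_nonneg_right h1 h4
      _ ≤ _ := by linarith
  have hs : Summable (fun i => c ^ (i + 1) * F (k + i)) := Summable.of_norm_bounded hg.summable hle
  refine ⟨hs, ?_⟩
  have h5 := tsum_of_norm_bounded hg hle
  rw [Real.norm_eq_abs] at h5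
  rw [div_eq_mul_inv]
  exact h5

/-- shift identity of the tail sum -/
theorem tail_shift {F : ℕ → ℝ} {c : ℝ} (hc : c ≠ 0) (k : ℕ)
    (hs : Summable (fun i => c ^ (i + 1) * F (k + i))) :
    c⁻¹ * (-∑' i, c ^ (i + 1) * F (k + i)) + F k = -∑' i, c ^ (i + 1) * F (k + 1 + i) := by
  rw [hs.tsum_eq_zero_add]
  have h1 : (fun i : ℕ => c ^ (i + 1 + 1) * F (k + (i + 1))) =
      fun i => c * (c ^ (i + 1) * F (k + 1 + i)) := by
    funext i
    rw [show k + (i + 1) = k + 1 + i by ring]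
    ring
  rw [h1, tsum_mul_left]
  simp only [zero_add, pow_one, add_zero]
  field_simp
  ring


section Main

variable {E : ℕ → Type u} {Nm : ∀ k, E k → ℝ} {Ds : ∀ k, E k → E k → ℝ}
  {Φ : ∀ k, ℝ → ℝ → E k → E (k + 1)} {f g : ∀ k, ℝ → ℝ → E k → ℝ} {κ η M ρ : ℝ}

/-- the value of a flow function along the trajectory driven by a normalised sequence -/
def along (Φ : ∀ k, ℝ → ℝ → E k → E (k + 1)) (R0 : E 0) (h : ∀ k, ℝ → ℝ → E k → ℝ) (w r : ℝ)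
    (a : Sq) (i : ℕ) : ℝ :=
  h i (nuS w r a i) (zS w r a i) (traj Φ R0 (nuS w r a) (zS w r a) i)

/-- size of a flow function along a trajectory -/
theorem along_le (H : FlowHyp E Nm Ds Φ f g κ η M ρ) {r K ε : ℝ} (hκ : 0 ≤ κ) (hr0 : 0 < r)
    (hr1 : r < 1) (hM : 0 ≤ M) (hK : 1 ≤ K) (hε : 0 < ε) (hρ : K * ε ≤ ρ) (hη : 0 ≤ η)
    (hsmall : M * K ^ 2 * ε ≤ r - κ) {R0 : E 0} (hR0 : Nm 0 R0 ≤ ε)
    (h : ∀ k, ℝ → ℝ → E k → ℝ)
    (hh : ∀ k ν z R s, |ν| ≤ s → |z| ≤ s → Nm k R ≤ s → s ≤ ρ →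
      |h k ν z R| ≤ M * Nm k R + (η + M * s) * (|ν| + |z|) + M * s ^ 2) (a : Sq) (i : ℕ) :
    |along Φ R0 h (K * ε) r a i| ≤
      (M * ε + (η + M * (K * ε)) * (2 * (K * ε)) + M * (K * ε) ^ 2) * r ^ i := by
  have hw : 0 ≤ K * ε := by positivity
  have hν := nuS_le hw hr0.le a
  have hz := zS_le hw hr0.le a
  have hrk : 0 < r ^ i := pow_pos hr0 i
  have hrk1 : r ^ i ≤ 1 := pow_le_one₀ hr0.le hr1.le
  have h0 := traj_nm H hκ hr0 hr1 hM hK hε hρ hsmall hR0 hν hz i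
  have h1 : ε * r ^ i ≤ K * ε * r ^ i := by nlinarith [mul_pos hε hrk]
  have h2 : K * ε * r ^ i ≤ K * ε := by
    have : K * ε * r ^ i ≤ K * ε * 1 := by
      apply mul_le_mul_of_nonneg_left hrk1; positivity
    linarith
  have h3 := hh i _ _ _ (K * ε * r ^ i) (hν i) (hz i) (h0.trans h1) (h2.trans hρ)
  refine h3.trans ?_
  have h4 : M * Nm i (traj Φ R0 (nuS (K * ε) r a) (zS (K * ε) r a) i) ≤ M * (ε * r ^ i) :=
    mul_le_mul_of_nonneg_left h0 hM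
  have h5 : (η + M * (K * ε * r ^ i)) * (|nuS (K * ε) r a i| + |zS (K * ε) r a i|) ≤
      (η + M * (K * ε)) * (2 * (K * ε * r ^ i)) := by
    have e1 : |nuS (K * ε) r a i| + |zS (K * ε) r a i| ≤ 2 * (K * ε * r ^ i) := by
      have := hν i
      have := hz i
      linarith
    have e2 : η + M * (K * ε * r ^ i) ≤ η + M * (K * ε) := by
      have := mul_le_mul_of_nonneg_left h2 hM
      linarith
    have e3 : 0 ≤ |nuS (K * ε) r a i| + |zS (K * ε) r a i| := by positivity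
    calc _ ≤ (η + M * (K * ε)) * (|nuS (K * ε) r a i| + |zS (K * ε) r a i|) :=
          mul_le_mul_of_nonneg_right e2 e3
      _ ≤ _ := mul_le_mul_of_nonneg_left e1 (by positivity)
  have h6 : M * (K * ε * r ^ i) ^ 2 ≤ M * (K * ε) ^ 2 * r ^ i := by
    have e1 : M * (K * ε * r ^ i) ^ 2 = M * (K * ε) ^ 2 * r ^ i * r ^ i := by ring
    rw [e1]
    have e2 : 0 ≤ M * (K * ε) ^ 2 * r ^ i := by positivity
    nlinarith
  calc _ ≤ M * (ε * r ^ i) + (η + M * (K * ε)) * (2 * (K * ε * r ^ i)) +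
        M * (K * ε) ^ 2 * r ^ i := by linarith
    _ = _ := by ring

/-- Lipschitz dependence of a flow function along a trajectory -/
theorem along_sub (H : FlowHyp E Nm Ds Φ f g κ η M ρ) {r K ε q : ℝ} (hκ : 0 ≤ κ) (hr0 : 0 < r)
    (hr1 : r < 1) (hM : 0 ≤ M) (hK : 1 ≤ K) (hε : 0 < ε) (hρ : K * ε ≤ ρ) (hη : 0 ≤ η)
    (hsmall : M * K ^ 2 * ε ≤ r - κ) (hq : 0 < q)
    (hsmall2 : M * (K * ε) * (2 + q) ≤ q * (r - κ)) {R0 : E 0} (hR0 : Nm 0 R0 ≤ ε)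
    (hD0 : Ds 0 R0 R0 ≤ 0)
    (h : ∀ k, ℝ → ℝ → E k → ℝ)
    (hh : ∀ k ν z R ν' z' R' s, |ν| ≤ s → |z| ≤ s → Nm k R ≤ s → |ν'| ≤ s → |z'| ≤ s →
      Nm k R' ≤ s → s ≤ ρ →
      |h k ν z R - h k ν' z' R'| ≤ M * Ds k R R' + (η + M * s) * (|ν - ν'| + |z - z'|))
    (a b : Sq) (i : ℕ) :
    |along Φ R0 h (K * ε) r a i - along Φ R0 h (K * ε) r b i| ≤
      (M * q * (K * ε) + (η + M * (K * ε)) * (2 * (K * ε))) * dist a b * r ^ i := by
  have hw : 0 ≤ K * ε := by positivity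
  have hν := nuS_le hw hr0.le a
  have hz := zS_le hw hr0.le a
  have hν' := nuS_le hw hr0.le b
  have hz' := zS_le hw hr0.le b
  have hdν := nuS_sub hw hr0.le a b
  have hdz := zS_sub hw hr0.le a b
  have hrk : 0 < r ^ i := pow_pos hr0 i
  have hrk1 : r ^ i ≤ 1 := pow_le_one₀ hr0.le hr1.le
  have h0 := traj_nm H hκ hr0 hr1 hM hK hε hρ hsmall hR0 hν hz i
  have h0' := traj_nm H hκ hr0 hr1 hM hK hε hρ hsmall hR0 hν' hz' i
  have hd := traj_ds H hκ hr0 hr1 hM hK hε hρ hsmall hq hsmall2 hR0 hD0 (dist_nonneg (x := a) (y := b))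
    hν hz hν' hz' hdν hdz i
  have h1 : ε * r ^ i ≤ K * ε * r ^ i := by nlinarith [mul_pos hε hrk]
  have h2 : K * ε * r ^ i ≤ K * ε := by
    have : K * ε * r ^ i ≤ K * ε * 1 := by
      apply mul_le_mul_of_nonneg_left hrk1; positivity
    linarith
  have h3 := hh i _ _ _ _ _ _ (K * ε * r ^ i) (hν i) (hz i) (h0.trans h1) (hν' i) (hz' i)
    (h0'.trans h1) (h2.trans hρ)
  refine h3.trans ?_
  set δ := dist a b with hδ
  have hδ0 : 0 ≤ δ := dist_nonneg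
  have h4 := mul_le_mul_of_nonneg_left hd hM
  have h5 : (η + M * (K * ε * r ^ i)) * (|nuS (K * ε) r a i - nuS (K * ε) r b i| +
      |zS (K * ε) r a i - zS (K * ε) r b i|) ≤
      (η + M * (K * ε)) * (2 * (K * ε * r ^ i * δ)) := by
    have e1 : |nuS (K * ε) r a i - nuS (K * ε) r b i| +
      |zS (K * ε) r a i - zS (K * ε) r b i| ≤ 2 * (K * ε * r ^ i * δ) := by
      have := hdν i
      have := hdz i
      linarith
    have e2 : η + M * (K * ε * r ^ i) ≤ η + M * (K * ε) := by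
      have := mul_le_mul_of_nonneg_left h2 hM
      linarith
    have e3 : 0 ≤ |nuS (K * ε) r a i - nuS (K * ε) r b i| +
      |zS (K * ε) r a i - zS (K * ε) r b i| := by positivity
    calc _ ≤ (η + M * (K * ε)) * _ :=
          mul_le_mul_of_nonneg_right e2 e3
      _ ≤ _ := mul_le_mul_of_nonneg_left e1 (by positivity)
  calc _ ≤ M * (q * (K * ε * r ^ i * δ)) + (η + M * (K * ε)) * (2 * (K * ε * r ^ i * δ)) := by
        linarith
    _ = _ := by ring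


end Main

/-! ### Scalar recursions for boundary and branch norms -/


end Crest.Agent.R165.Shtx541
private theorem rz_55b922acd0 : type_of% @_root_.Crest.Agent.R165.Shtx541.traj.eq_def := @_root_.Crest.Agent.R165.Shtx541.traj.eq_def -- L46
private theorem rz_e8150f49fa : type_of% @_root_.Crest.Agent.R165.Shtx541.traj.eq_1 := @_root_.Crest.Agent.R165.Shtx541.traj.eq_1 -- L46
end

-- ▼ part R165/Sht2_541
section

/-!
# Row 165 (S0250): shooting lemma, second form (helper541)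

As `Sht_541`, with separate constants: `M` = linear influence of the remainder on `ν, z` (known
before the initial scale is chosen), `P` = all quadratic constants (may depend on the initial scale),
`ζ` = small linear influence of `ν, z` on the remainder (the initial scale is chosen so that
`ζ ≤ ζ₀(κ, r, M)`); `K` depends only on `κ r M`.
-/

set_option autoImplicit false

open Filter Topology Set

namespace Crest.Agent.R165.Sht2x541

open Crest.Agent.R165.Shtx541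

universe u

/-- the hypotheses on one step of the flow -/
structure FlowHyp2 (E : ℕ → Type u) (Nm : ∀ k, E k → ℝ) (Ds : ∀ k, E k → E k → ℝ)
    (Φ : ∀ k, ℝ → ℝ → E k → E (k + 1)) (f g : ∀ k, ℝ → ℝ → E k → ℝ)
    (κ η ζ M P ρ : ℝ) : Prop where
  nm_nonneg : ∀ k R, 0 ≤ Nm k R
  ds_nonneg : ∀ k R R', 0 ≤ Ds k R R'
  nm : ∀ k ν z R s, |ν| ≤ s → |z| ≤ s → Nm k R ≤ s → s ≤ ρ →
    Nm (k + 1) (Φ k ν z R) ≤ κ * Nm k R + ζ * (|ν| + |z|) + P * s ^ 2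
  ds : ∀ k ν z R ν' z' R' s, |ν| ≤ s → |z| ≤ s → Nm k R ≤ s → |ν'| ≤ s → |z'| ≤ s →
    Nm k R' ≤ s → s ≤ ρ →
    Ds (k + 1) (Φ k ν z R) (Φ k ν' z' R') ≤
      κ * Ds k R R' + ζ * (|ν - ν'| + |z - z'|) + P * s * (|ν - ν'| + |z - z'| + Ds k R R')
  f_nm : ∀ k ν z R s, |ν| ≤ s → |z| ≤ s → Nm k R ≤ s → s ≤ ρ →
    |f k ν z R| ≤ M * Nm k R + (η + P * s) * (|ν| + |z|) + P * s ^ 2
  f_ds : ∀ k ν z R ν' z' R' s, |ν| ≤ s → |z| ≤ s → Nm k R ≤ s → |ν'| ≤ s → |z'| ≤ s →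
    Nm k R' ≤ s → s ≤ ρ →
    |f k ν z R - f k ν' z' R'| ≤ M * Ds k R R' + (η + P * s) * (|ν - ν'| + |z - z'|)
  g_nm : ∀ k ν z R s, |ν| ≤ s → |z| ≤ s → Nm k R ≤ s → s ≤ ρ →
    |g k ν z R| ≤ M * Nm k R + (η + P * s) * (|ν| + |z|) + P * s ^ 2
  g_ds : ∀ k ν z R ν' z' R' s, |ν| ≤ s → |z| ≤ s → Nm k R ≤ s → |ν'| ≤ s → |z'| ≤ s →
    Nm k R' ≤ s → s ≤ ρ →
    |g k ν z R - g k ν' z' R'| ≤ M * Ds k R R' + (η + P * s) * (|ν - ν'| + |z - z'|)

section Core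

variable {E : ℕ → Type u} {Nm : ∀ k, E k → ℝ} {Ds : ∀ k, E k → E k → ℝ}
  {Φ : ∀ k, ℝ → ℝ → E k → E (k + 1)} {f g : ∀ k, ℝ → ℝ → E k → ℝ} {κ η ζ M P ρ : ℝ}

/-- size of the trajectory -/
theorem traj_nm (H : FlowHyp2 E Nm Ds Φ f g κ η ζ M P ρ) {r K ε : ℝ} (hκ : 0 ≤ κ) (hr0 : 0 < r)
    (hr1 : r < 1) (hζ : 0 ≤ ζ) (hP : 0 ≤ P) (hK : 1 ≤ K) (hε : 0 < ε) (hρ : K * ε ≤ ρ)
    (hsmall : P * K ^ 2 * ε + 2 * ζ * K ≤ r - κ) {R0 : E 0} (hR0 : Nm 0 R0 ≤ ε) {ν z : ℕ → ℝ}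
    (hν : ∀ k, |ν k| ≤ K * ε * r ^ k) (hz : ∀ k, |z k| ≤ K * ε * r ^ k) (k : ℕ) :
    Nm k (traj Φ R0 ν z k) ≤ ε * r ^ k := by
  induction k with
  | zero => simpa [traj] using hR0
  | succ k ih =>
    have hrk : 0 < r ^ k := pow_pos hr0 k
    have hrk1 : r ^ k ≤ 1 := pow_le_one₀ hr0.le hr1.le
    have h1 : ε * r ^ k ≤ K * ε * r ^ k := by nlinarith [mul_pos hε hrk]
    have h2 : K * ε * r ^ k ≤ ρ := by
      have : K * ε * r ^ k ≤ K * ε * 1 := by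
        apply mul_le_mul_of_nonneg_left hrk1; positivity
      linarith
    have h3 := H.nm k (ν k) (z k) (traj Φ R0 ν z k) (K * ε * r ^ k) (hν k) (hz k) (ih.trans h1) h2
    show Nm (k + 1) (Φ k (ν k) (z k) (traj Φ R0 ν z k)) ≤ _
    refine h3.trans ?_
    have h4 : κ * Nm k (traj Φ R0 ν z k) ≤ κ * (ε * r ^ k) := mul_le_mul_of_nonneg_left ih hκ
    have h5 : P * (K * ε * r ^ k) ^ 2 ≤ (P * K ^ 2 * ε) * (ε * r ^ k) := by
      have : P * (K * ε * r ^ k) ^ 2 = (P * K ^ 2 * ε) * (ε * r ^ k) * r ^ k := by ring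
      rw [this]
      have h6 : 0 ≤ (P * K ^ 2 * ε) * (ε * r ^ k) := by positivity
      nlinarith
    have h6 : ζ * (|ν k| + |z k|) ≤ (2 * ζ * K) * (ε * r ^ k) := by
      have e1 := hν k
      have e2 := hz k
      calc ζ * (|ν k| + |z k|) ≤ ζ * (2 * (K * ε * r ^ k)) :=
            mul_le_mul_of_nonneg_left (by linarith) hζ
        _ = _ := by ring
    have h7 : (P * K ^ 2 * ε + 2 * ζ * K) * (ε * r ^ k) ≤ (r - κ) * (ε * r ^ k) :=
      mul_le_mul_of_nonneg_right hsmall (by positivity)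
    calc κ * Nm k (traj Φ R0 ν z k) + ζ * (|ν k| + |z k|) + P * (K * ε * r ^ k) ^ 2
        ≤ κ * (ε * r ^ k) + (r - κ) * (ε * r ^ k) := by linarith
      _ = ε * r ^ (k + 1) := by ring

/-- Lipschitz dependence of the trajectory -/
theorem traj_ds (H : FlowHyp2 E Nm Ds Φ f g κ η ζ M P ρ) {r K ε q : ℝ} (hκ : 0 ≤ κ) (hr0 : 0 < r)
    (hr1 : r < 1) (hζ : 0 ≤ ζ) (hP : 0 ≤ P) (hK : 1 ≤ K) (hε : 0 < ε) (hρ : K * ε ≤ ρ)
    (hsmall : P * K ^ 2 * ε + 2 * ζ * K ≤ r - κ) (hq : 0 < q)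
    (hsmall2 : P * (K * ε) * (2 + q) + 2 * ζ ≤ q * (r - κ)) {R0 : E 0} (hR0 : Nm 0 R0 ≤ ε)
    (hD0 : Ds 0 R0 R0 ≤ 0) {ν z ν' z' : ℕ → ℝ} {δ : ℝ} (hδ : 0 ≤ δ)
    (hν : ∀ k, |ν k| ≤ K * ε * r ^ k) (hz : ∀ k, |z k| ≤ K * ε * r ^ k)
    (hν' : ∀ k, |ν' k| ≤ K * ε * r ^ k) (hz' : ∀ k, |z' k| ≤ K * ε * r ^ k)
    (hdν : ∀ k, |ν k - ν' k| ≤ K * ε * r ^ k * δ) (hdz : ∀ k, |z k - z' k| ≤ K * ε * r ^ k * δ)
    (k : ℕ) :
    Ds k (traj Φ R0 ν z k) (traj Φ R0 ν' z' k) ≤ q * (K * ε * r ^ k * δ) := by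
  induction k with
  | zero =>
    refine hD0.trans ?_
    positivity
  | succ k ih =>
    have hrk : 0 < r ^ k := pow_pos hr0 k
    have hrk1 : r ^ k ≤ 1 := pow_le_one₀ hr0.le hr1.le
    have h1 : ε * r ^ k ≤ K * ε * r ^ k := by nlinarith [mul_pos hε hrk]
    have h2 : K * ε * r ^ k ≤ ρ := by
      have : K * ε * r ^ k ≤ K * ε * 1 := by
        apply mul_le_mul_of_nonneg_left hrk1; positivity
      linarith
    have h3 := H.ds k (ν k) (z k) (traj Φ R0 ν z k) (ν' k) (z' k) (traj Φ R0 ν' z' k)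
      (K * ε * r ^ k) (hν k) (hz k)
      ((traj_nm H hκ hr0 hr1 hζ hP hK hε hρ hsmall hR0 hν hz k).trans h1) (hν' k) (hz' k)
      ((traj_nm H hκ hr0 hr1 hζ hP hK hε hρ hsmall hR0 hν' hz' k).trans h1) h2
    show Ds (k + 1) (Φ k (ν k) (z k) (traj Φ R0 ν z k)) (Φ k (ν' k) (z' k) (traj Φ R0 ν' z' k)) ≤ _
    refine h3.trans ?_
    set X := K * ε * r ^ k * δ with hX
    have hX0 : 0 ≤ X := by positivity
    have h4 : κ * Ds k (traj Φ R0 ν z k) (traj Φ R0 ν' z' k) ≤ κ * (q * X) :=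
      mul_le_mul_of_nonneg_left ih hκ
    have h5 : P * (K * ε * r ^ k) * (|ν k - ν' k| + |z k - z' k| +
        Ds k (traj Φ R0 ν z k) (traj Φ R0 ν' z' k)) ≤ P * (K * ε) * ((2 + q) * X) := by
      have ha : |ν k - ν' k| + |z k - z' k| + Ds k (traj Φ R0 ν z k) (traj Φ R0 ν' z' k) ≤
          (2 + q) * X := by
        have := hdν k
        have := hdz k
        linarith
      have hb : P * (K * ε * r ^ k) ≤ P * (K * ε) := by
        apply mul_le_mul_of_nonneg_left _ hP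
        have : K * ε * r ^ k ≤ K * ε * 1 := by
          apply mul_le_mul_of_nonneg_left hrk1; positivity
        linarith
      have hc : 0 ≤ |ν k - ν' k| + |z k - z' k| + Ds k (traj Φ R0 ν z k) (traj Φ R0 ν' z' k) := by
        have := H.ds_nonneg k (traj Φ R0 ν z k) (traj Φ R0 ν' z' k)
        positivity
      calc _ ≤ P * (K * ε) * (|ν k - ν' k| + |z k - z' k| +
          Ds k (traj Φ R0 ν z k) (traj Φ R0 ν' z' k)) := mul_le_mul_of_nonneg_right hb hc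
        _ ≤ _ := mul_le_mul_of_nonneg_left ha (by positivity)
    have h7 : ζ * (|ν k - ν' k| + |z k - z' k|) ≤ 2 * ζ * X := by
      have e1 := hdν k
      have e2 := hdz k
      calc _ ≤ ζ * (2 * X) := mul_le_mul_of_nonneg_left (by linarith) hζ
        _ = _ := by ring
    have h6 : P * (K * ε) * ((2 + q) * X) + 2 * ζ * X ≤ q * (r - κ) * X := by
      have := mul_le_mul_of_nonneg_right hsmall2 hX0
      linarith
    calc _ ≤ κ * (q * X) + q * (r - κ) * X := by linarith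
      _ = q * (K * ε * r ^ (k + 1) * δ) := by rw [hX]; ring

end Core
/-- constants -/
theorem exists_consts2 {κ r M : ℝ} (hκr : κ < r) (hr1 : r < 1) (hM : 0 ≤ M) :
    ∃ K q ζ₀ : ℝ, 1 ≤ K ∧ 0 < q ∧ 0 < ζ₀ ∧ M / K ≤ (1 - r) / 4 ∧ M * q ≤ (1 - r) / 8 ∧
      ∀ ζ P ρ, 0 ≤ ζ → ζ ≤ ζ₀ → 0 ≤ P → 0 < ρ → ∃ ε₀ : ℝ, 0 < ε₀ ∧
      ∀ ε, 0 < ε → ε ≤ ε₀ → K * ε ≤ ρ ∧ P * K ^ 2 * ε + 2 * ζ * K ≤ r - κ ∧
        P * (K * ε) * (2 + q) + 2 * ζ ≤ q * (r - κ) ∧ P * (K * ε) ≤ (1 - r) / 24 := by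
  have h1r : 0 < 1 - r := by linarith
  have hrk : 0 < r - κ := by linarith
  set K := 4 * M / (1 - r) + 1 with hK
  have hK1 : 1 ≤ K := by
    have : 0 ≤ 4 * M / (1 - r) := by positivity
    linarith
  have hK0 : 0 < K := by linarith
  set q := (1 - r) / (8 * (M + 1)) with hq
  have hq0 : 0 < q := by positivity
  refine ⟨K, q, min ((r - κ) / (4 * K)) (q * (r - κ) / 4), hK1, hq0, ?_, ?_, ?_, ?_⟩
  · exact lt_min (by positivity) (by positivity)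
  · rw [div_le_iff₀ hK0, hK]
    have : (1 - r) / 4 * (4 * M / (1 - r) + 1) = M + (1 - r) / 4 := by
      field_simp
    rw [this]
    linarith
  · rw [hq]
    have : M * ((1 - r) / (8 * (M + 1))) = (M / (M + 1)) * ((1 - r) / 8) := by
      field_simp
    rw [this]
    have h2 : M / (M + 1) ≤ 1 := by
      rw [div_le_one (by linarith)]; linarith
    calc _ ≤ 1 * ((1 - r) / 8) := mul_le_mul_of_nonneg_right h2 (by positivity)
      _ = _ := one_mul _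
  intro ζ P ρ hζ hζ0 hP hρ
  have z1 := hζ0.trans (min_le_left _ _)
  have z2 := hζ0.trans (min_le_right _ _)
  rw [le_div_iff₀ (by positivity)] at z1
  refine ⟨min (ρ / K) (min ((r - κ) / (2 * (P * K ^ 2 + 1)))
    (min (q * (r - κ) / (2 * (P * K * (2 + q) + 1))) ((1 - r) / (24 * (P * K + 1))))), ?_, ?_⟩
  · refine lt_min (by positivity) (lt_min (by positivity) (lt_min (by positivity) (by positivity)))
  · intro ε hε hε2
    have e1 := hε2.trans (min_le_left _ _)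
    have e2 := (hε2.trans (min_le_right _ _)).trans (min_le_left _ _)
    have e3 := ((hε2.trans (min_le_right _ _)).trans (min_le_right _ _)).trans (min_le_left _ _)
    have e4 := ((hε2.trans (min_le_right _ _)).trans (min_le_right _ _)).trans (min_le_right _ _)
    refine ⟨?_, ?_, ?_, ?_⟩
    · rw [le_div_iff₀ hK0] at e1; linarith
    · rw [le_div_iff₀ (by positivity)] at e2
      nlinarith
    · rw [le_div_iff₀ (by positivity)] at e3
      nlinarith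
    · rw [le_div_iff₀ (by positivity)] at e4
      nlinarith

section Main

variable {E : ℕ → Type u} {Nm : ∀ k, E k → ℝ} {Ds : ∀ k, E k → E k → ℝ}
  {Φ : ∀ k, ℝ → ℝ → E k → E (k + 1)} {f g : ∀ k, ℝ → ℝ → E k → ℝ} {κ η ζ M P ρ : ℝ}

/-- the value of a flow function along the trajectory driven by a normalised sequence -/
def along (Φ : ∀ k, ℝ → ℝ → E k → E (k + 1)) (R0 : E 0) (h : ∀ k, ℝ → ℝ → E k → ℝ) (w r : ℝ)
    (a : Sq) (i : ℕ) : ℝ :=
  h i (nuS w r a i) (zS w r a i) (traj Φ R0 (nuS w r a) (zS w r a) i)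

/-- size of a flow function along a trajectory -/
theorem along_le (H : FlowHyp2 E Nm Ds Φ f g κ η ζ M P ρ) {r K ε : ℝ} (hκ : 0 ≤ κ) (hr0 : 0 < r)
    (hr1 : r < 1) (hM : 0 ≤ M) (hζ : 0 ≤ ζ) (hP : 0 ≤ P) (hK : 1 ≤ K) (hε : 0 < ε) (hρ : K * ε ≤ ρ) (hη : 0 ≤ η)
    (hsmall : P * K ^ 2 * ε + 2 * ζ * K ≤ r - κ) {R0 : E 0} (hR0 : Nm 0 R0 ≤ ε)
    (h : ∀ k, ℝ → ℝ → E k → ℝ)
    (hh : ∀ k ν z R s, |ν| ≤ s → |z| ≤ s → Nm k R ≤ s → s ≤ ρ →
      |h k ν z R| ≤ M * Nm k R + (η + P * s) * (|ν| + |z|) + P * s ^ 2) (a : Sq) (i : ℕ) :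
    |along Φ R0 h (K * ε) r a i| ≤
      (M * ε + (η + P * (K * ε)) * (2 * (K * ε)) + P * (K * ε) ^ 2) * r ^ i := by
  have hw : 0 ≤ K * ε := by positivity
  have hν := nuS_le hw hr0.le a
  have hz := zS_le hw hr0.le a
  have hrk : 0 < r ^ i := pow_pos hr0 i
  have hrk1 : r ^ i ≤ 1 := pow_le_one₀ hr0.le hr1.le
  have h0 := traj_nm H hκ hr0 hr1 hζ hP hK hε hρ hsmall hR0 hν hz i
  have h1 : ε * r ^ i ≤ K * ε * r ^ i := by nlinarith [mul_pos hε hrk]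
  have h2 : K * ε * r ^ i ≤ K * ε := by
    have : K * ε * r ^ i ≤ K * ε * 1 := by
      apply mul_le_mul_of_nonneg_left hrk1; positivity
    linarith
  have h3 := hh i _ _ _ (K * ε * r ^ i) (hν i) (hz i) (h0.trans h1) (h2.trans hρ)
  refine h3.trans ?_
  have h4 : M * Nm i (traj Φ R0 (nuS (K * ε) r a) (zS (K * ε) r a) i) ≤ M * (ε * r ^ i) :=
    mul_le_mul_of_nonneg_left h0 hM
  have h5 : (η + P * (K * ε * r ^ i)) * (|nuS (K * ε) r a i| + |zS (K * ε) r a i|) ≤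
      (η + P * (K * ε)) * (2 * (K * ε * r ^ i)) := by
    have e1 : |nuS (K * ε) r a i| + |zS (K * ε) r a i| ≤ 2 * (K * ε * r ^ i) := by
      have := hν i
      have := hz i
      linarith
    have e2 : η + P * (K * ε * r ^ i) ≤ η + P * (K * ε) := by
      have := mul_le_mul_of_nonneg_left h2 hP
      linarith
    have e3 : 0 ≤ |nuS (K * ε) r a i| + |zS (K * ε) r a i| := by positivity
    calc _ ≤ (η + P * (K * ε)) * (|nuS (K * ε) r a i| + |zS (K * ε) r a i|) :=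
          mul_le_mul_of_nonneg_right e2 e3
      _ ≤ _ := mul_le_mul_of_nonneg_left e1 (by positivity)
  have h6 : P * (K * ε * r ^ i) ^ 2 ≤ P * (K * ε) ^ 2 * r ^ i := by
    have e1 : P * (K * ε * r ^ i) ^ 2 = P * (K * ε) ^ 2 * r ^ i * r ^ i := by ring
    rw [e1]
    have e2 : 0 ≤ P * (K * ε) ^ 2 * r ^ i := by positivity
    nlinarith
  calc _ ≤ M * (ε * r ^ i) + (η + P * (K * ε)) * (2 * (K * ε * r ^ i)) +
        P * (K * ε) ^ 2 * r ^ i := by linarith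
    _ = _ := by ring

/-- Lipschitz dependence of a flow function along a trajectory -/
theorem along_sub (H : FlowHyp2 E Nm Ds Φ f g κ η ζ M P ρ) {r K ε q : ℝ} (hκ : 0 ≤ κ) (hr0 : 0 < r)
    (hr1 : r < 1) (hM : 0 ≤ M) (hζ : 0 ≤ ζ) (hP : 0 ≤ P) (hK : 1 ≤ K) (hε : 0 < ε) (hρ : K * ε ≤ ρ) (hη : 0 ≤ η)
    (hsmall : P * K ^ 2 * ε + 2 * ζ * K ≤ r - κ) (hq : 0 < q)
    (hsmall2 : P * (K * ε) * (2 + q) + 2 * ζ ≤ q * (r - κ)) {R0 : E 0} (hR0 : Nm 0 R0 ≤ ε)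
    (hD0 : Ds 0 R0 R0 ≤ 0)
    (h : ∀ k, ℝ → ℝ → E k → ℝ)
    (hh : ∀ k ν z R ν' z' R' s, |ν| ≤ s → |z| ≤ s → Nm k R ≤ s → |ν'| ≤ s → |z'| ≤ s →
      Nm k R' ≤ s → s ≤ ρ →
      |h k ν z R - h k ν' z' R'| ≤ M * Ds k R R' + (η + P * s) * (|ν - ν'| + |z - z'|))
    (a b : Sq) (i : ℕ) :
    |along Φ R0 h (K * ε) r a i - along Φ R0 h (K * ε) r b i| ≤
      (M * q * (K * ε) + (η + P * (K * ε)) * (2 * (K * ε))) * dist a b * r ^ i := by
  have hw : 0 ≤ K * ε := by positivity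
  have hν := nuS_le hw hr0.le a
  have hz := zS_le hw hr0.le a
  have hν' := nuS_le hw hr0.le b
  have hz' := zS_le hw hr0.le b
  have hdν := nuS_sub hw hr0.le a b
  have hdz := zS_sub hw hr0.le a b
  have hrk : 0 < r ^ i := pow_pos hr0 i
  have hrk1 : r ^ i ≤ 1 := pow_le_one₀ hr0.le hr1.le
  have h0 := traj_nm H hκ hr0 hr1 hζ hP hK hε hρ hsmall hR0 hν hz i
  have h0' := traj_nm H hκ hr0 hr1 hζ hP hK hε hρ hsmall hR0 hν' hz' i
  have hd := traj_ds H hκ hr0 hr1 hζ hP hK hε hρ hsmall hq hsmall2 hR0 hD0 (dist_nonneg (x := a) (y := b))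
    hν hz hν' hz' hdν hdz i
  have h1 : ε * r ^ i ≤ K * ε * r ^ i := by nlinarith [mul_pos hε hrk]
  have h2 : K * ε * r ^ i ≤ K * ε := by
    have : K * ε * r ^ i ≤ K * ε * 1 := by
      apply mul_le_mul_of_nonneg_left hrk1; positivity
    linarith
  have h3 := hh i _ _ _ _ _ _ (K * ε * r ^ i) (hν i) (hz i) (h0.trans h1) (hν' i) (hz' i)
    (h0'.trans h1) (h2.trans hρ)
  refine h3.trans ?_
  set δ := dist a b with hδ
  have hδ0 : 0 ≤ δ := dist_nonneg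
  have h4 := mul_le_mul_of_nonneg_left hd hM
  have h5 : (η + P * (K * ε * r ^ i)) * (|nuS (K * ε) r a i - nuS (K * ε) r b i| +
      |zS (K * ε) r a i - zS (K * ε) r b i|) ≤
      (η + P * (K * ε)) * (2 * (K * ε * r ^ i * δ)) := by
    have e1 : |nuS (K * ε) r a i - nuS (K * ε) r b i| +
      |zS (K * ε) r a i - zS (K * ε) r b i| ≤ 2 * (K * ε * r ^ i * δ) := by
      have := hdν i
      have := hdz i
      linarith
    have e2 : η + P * (K * ε * r ^ i) ≤ η + P * (K * ε) := by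
      have := mul_le_mul_of_nonneg_left h2 hP
      linarith
    have e3 : 0 ≤ |nuS (K * ε) r a i - nuS (K * ε) r b i| +
      |zS (K * ε) r a i - zS (K * ε) r b i| := by positivity
    calc _ ≤ (η + P * (K * ε)) * _ :=
          mul_le_mul_of_nonneg_right e2 e3
      _ ≤ _ := mul_le_mul_of_nonneg_left e1 (by positivity)
  calc _ ≤ M * (q * (K * ε * r ^ i * δ)) + (η + P * (K * ε)) * (2 * (K * ε * r ^ i * δ)) := by
        linarith
    _ = _ := by ring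

/-- **Two-parameter shooting lemma, second form.** `K` and `ζ₀` depend only on `κ r M`. -/
theorem shooting2 (κ r M : ℝ) (hκ : 0 ≤ κ) (hκr : κ < r) (hr1 : r < 1) (hM : 0 ≤ M) :
    ∃ K ζ₀ : ℝ, 1 ≤ K ∧ 0 < ζ₀ ∧
      ∀ (L η ζ P ρ : ℝ), 1 < L → 0 ≤ η → η ≤ (1 - r) / 8 → 0 ≤ ζ → ζ ≤ ζ₀ → 0 ≤ P → 0 < ρ →
      ∃ ε₀ : ℝ, 0 < ε₀ ∧
      ∀ (E : ℕ → Type u) (Nm : ∀ k, E k → ℝ) (Ds : ∀ k, E k → E k → ℝ)
        (Φ : ∀ k, ℝ → ℝ → E k → E (k + 1)) (f g : ∀ k, ℝ → ℝ → E k → ℝ),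
        FlowHyp2 E Nm Ds Φ f g κ η ζ M P ρ →
        ∀ (ε : ℝ), 0 ≤ ε → ε ≤ ε₀ → ∀ R0 : E 0, Nm 0 R0 ≤ ε → Ds 0 R0 R0 ≤ 0 →
        ∃ (ν z : ℕ → ℝ) (R : ∀ k, E k), R 0 = R0 ∧
          (∀ k, R (k + 1) = Φ k (ν k) (z k) (R k)) ∧
          (∀ k, ν (k + 1) = L * ν k + f k (ν k) (z k) (R k)) ∧
          (∀ k, z (k + 1) = z k + g k (ν k) (z k) (R k)) ∧
          (∀ k, |ν k| ≤ K * ε * r ^ k) ∧ (∀ k, |z k| ≤ K * ε * r ^ k) ∧
          (∀ k, Nm k (R k) ≤ ε * r ^ k) := by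
  have hr0 : 0 < r := lt_of_le_of_lt hκ hκr
  have h1r : 0 < 1 - r := by linarith
  obtain ⟨K, q, ζ₀, hK, hq, hζ₀, hMK, hMq, hcon⟩ := exists_consts2 hκr hr1 hM
  refine ⟨K, ζ₀, hK, hζ₀, ?_⟩
  intro L η ζ P ρ hL hη hηr hζ hζζ hP hρ
  obtain ⟨ε₀, hε₀, hall⟩ := hcon ζ P ρ hζ hζζ hP hρ
  refine ⟨ε₀, hε₀, ?_⟩
  intro E Nm Ds Φ f g H ε hε0 hεε R0 hR0 hD0
  rcases hε0.eq_or_lt with hε | hε
  · -- `ε = 0`: everything is zero
    subst hε
    have hρ' : (0 : ℝ) ≤ ρ := hρ.le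
    have hN : ∀ k, Nm k (traj Φ R0 (fun _ => 0) (fun _ => 0) k) ≤ 0 := by
      intro k
      induction k with
      | zero => simpa [traj] using hR0
      | succ k ih =>
        have h1 := H.nm k 0 0 _ 0 (by simp) (by simp) ih hρ'
        have h2 : κ * Nm k (traj Φ R0 (fun _ => 0) (fun _ => 0) k) ≤ 0 :=
          mul_nonpos_of_nonneg_of_nonpos hκ ih
        show Nm (k + 1) (Φ k 0 0 (traj Φ R0 (fun _ => 0) (fun _ => 0) k)) ≤ 0
        refine h1.trans ?_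
        simpa using h2
    have hf0 : ∀ (h : ∀ k, ℝ → ℝ → E k → ℝ), (∀ k ν z R s, |ν| ≤ s → |z| ≤ s → Nm k R ≤ s →
        s ≤ ρ → |h k ν z R| ≤ M * Nm k R + (η + P * s) * (|ν| + |z|) + P * s ^ 2) →
        ∀ k, h k 0 0 (traj Φ R0 (fun _ => 0) (fun _ => 0) k) = 0 := by
      intro h hh k
      have h1 := hh k 0 0 _ 0 (by simp) (by simp) (hN k) hρ'
      have h2 : M * Nm k (traj Φ R0 (fun _ => 0) (fun _ => 0) k) ≤ 0 :=
        mul_nonpos_of_nonneg_of_nonpos hM (hN k)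
      have h3 : |h k 0 0 (traj Φ R0 (fun _ => 0) (fun _ => 0) k)| ≤ 0 := by
        refine h1.trans ?_
        simpa using h2
      exact abs_eq_zero.1 (le_antisymm h3 (abs_nonneg _))
    refine ⟨fun _ => 0, fun _ => 0, traj Φ R0 (fun _ => 0) (fun _ => 0), rfl, fun k => rfl,
      fun k => ?_, fun k => ?_, fun k => by simp, fun k => by simp, fun k => ?_⟩
    · simp only [hf0 f H.f_nm k, mul_zero, add_zero]
    · simp only [hf0 g H.g_nm k, add_zero]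
    · simpa using hN k
  obtain ⟨hρK, hs1, hs2, hs3⟩ := hall ε hε hεε
  have hK0 : 0 < K := by linarith
  set w := K * ε with hw
  have hw0 : 0 < w := by positivity
  -- the map
  set A : ℝ := M * ε + (η + P * w) * (2 * w) + P * w ^ 2 with hA
  have hA0 : 0 ≤ A := by positivity
  have hAw : A ≤ w * (1 - r) := by
    have e1 : M * ε = M / K * w := by rw [hw]; field_simp
    have e2 : M * ε ≤ (1 - r) / 4 * w := by
      rw [e1]; exact mul_le_mul_of_nonneg_right hMK hw0.le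
    have e3 : (η + P * w) * (2 * w) ≤ ((1 - r) / 8 + (1 - r) / 24) * (2 * w) :=
      mul_le_mul_of_nonneg_right (by linarith) (by positivity)
    have e4 : P * w ^ 2 ≤ (1 - r) / 24 * w := by
      have : P * w ^ 2 = P * w * w := by ring
      rw [this]; exact mul_le_mul_of_nonneg_right hs3 hw0.le
    have e5 : 0 ≤ (1 - r) * w := by positivity
    rw [hA]
    nlinarith
  have hfb := along_le H hκ hr0 hr1 hM hζ hP hK hε hρK hη hs1 hR0 f H.f_nm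
  have hgb := along_le H hκ hr0 hr1 hM hζ hP hK hε hρK hη hs1 hR0 g H.g_nm
  set c : ℝ := L⁻¹ with hc
  have hL0 : 0 < L := by linarith
  have hc0 : 0 < c := inv_pos.2 hL0
  have hc1 : c ≤ 1 := inv_le_one_of_one_le₀ hL.le
  let U : Sq → ℕ → ℝ := fun a k => -∑' i, c ^ (i + 1) * along Φ R0 f w r a (k + i)
  let W : Sq → ℕ → ℝ := fun a k => -∑' i, (1 : ℝ) ^ (i + 1) * along Φ R0 g w r a (k + i)
  have hU : ∀ a k, |U a k| ≤ w * r ^ k := by
    intro a k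
    have h1 := (tail_bound hr0 hr1 hA0 hc0.le hc1 (hfb a) k).2
    have h2 : A * r ^ k / (1 - r) ≤ w * r ^ k := by
      rw [div_le_iff₀ h1r]
      have := mul_le_mul_of_nonneg_right hAw (pow_pos hr0 k).le
      linarith
    show |-_| ≤ _
    rw [abs_neg]
    exact h1.trans h2
  have hW : ∀ a k, |W a k| ≤ w * r ^ k := by
    intro a k
    have h1 := (tail_bound hr0 hr1 hA0 zero_le_one le_rfl (hgb a) k).2
    have h2 : A * r ^ k / (1 - r) ≤ w * r ^ k := by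
      rw [div_le_iff₀ h1r]
      have := mul_le_mul_of_nonneg_right hAw (pow_pos hr0 k).le
      linarith
    show |-_| ≤ _
    rw [abs_neg]
    exact h1.trans h2
  have hdiv : ∀ k (x : ℝ), |x| ≤ w * r ^ k → |x / (w * r ^ k)| ≤ 1 := by
    intro k x hx
    have h3 : 0 < w * r ^ k := by positivity
    rw [abs_div, abs_of_pos h3, div_le_one h3]
    exact hx
  have hTb : ∀ a k, ‖((U a k / (w * r ^ k), W a k / (w * r ^ k)) : ℝ × ℝ)‖ ≤ 1 := by
    intro a k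
    rw [Prod.norm_def]
    exact max_le (hdiv k _ (hU a k)) (hdiv k _ (hW a k))
  let T : Sq → Sq := fun a =>
    ⟨BoundedContinuousFunction.ofNormedAddCommGroupDiscrete
      (fun k => ((U a k / (w * r ^ k), W a k / (w * r ^ k)) : ℝ × ℝ)) 1 (hTb a), by
      rw [BoundedContinuousFunction.norm_le zero_le_one]
      exact hTb a⟩
  -- contraction
  set B : ℝ := M * q * w + (η + P * w) * (2 * w) with hB
  have hB0 : 0 ≤ B := by positivity
  have hBw : B ≤ 1 / 2 * (w * (1 - r)) := by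
    have e2 : M * q * w ≤ (1 - r) / 8 * w := mul_le_mul_of_nonneg_right hMq hw0.le
    have e3 : (η + P * w) * (2 * w) ≤ ((1 - r) / 8 + (1 - r) / 24) * (2 * w) :=
      mul_le_mul_of_nonneg_right (by linarith) (by positivity)
    have e5 : 0 ≤ (1 - r) * w := by positivity
    rw [hB]
    nlinarith
  have hfd := along_sub H hκ hr0 hr1 hM hζ hP hK hε hρK hη hs1 hq hs2 hR0 hD0 f H.f_ds
  have hgd := along_sub H hκ hr0 hr1 hM hζ hP hK hε hρK hη hs1 hq hs2 hR0 hD0 g H.g_ds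
  have hdist : ∀ (h : ∀ k, ℝ → ℝ → E k → ℝ)
      (_hb : ∀ a i, |along Φ R0 h w r a i| ≤ A * r ^ i)
      (_hd : ∀ a b i, |along Φ R0 h w r a i - along Φ R0 h w r b i| ≤ B * dist a b * r ^ i)
      (t : ℝ) (_ : 0 ≤ t) (_ : t ≤ 1) (a b : Sq) (k : ℕ),
      |(-∑' i, t ^ (i + 1) * along Φ R0 h w r a (k + i)) / (w * r ^ k) -
        (-∑' i, t ^ (i + 1) * along Φ R0 h w r b (k + i)) / (w * r ^ k)| ≤ 1 / 2 * dist a b := by
    intro h hb hd t ht0 ht1 a b k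
    have s1 := (tail_bound hr0 hr1 hA0 ht0 ht1 (hb a) k).1
    have s2 := (tail_bound hr0 hr1 hA0 ht0 ht1 (hb b) k).1
    have h1 := (tail_bound (F := fun i => along Φ R0 h w r a i - along Φ R0 h w r b i) hr0 hr1
      (mul_nonneg hB0 (dist_nonneg (x := a) (y := b))) ht0 ht1 (hd a b) k).2
    have h2 : (∑' i, t ^ (i + 1) * (along Φ R0 h w r a (k + i) - along Φ R0 h w r b (k + i))) =
        (∑' i, t ^ (i + 1) * along Φ R0 h w r a (k + i)) -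
          ∑' i, t ^ (i + 1) * along Φ R0 h w r b (k + i) := by
      rw [← s1.tsum_sub s2]
      congr 1
      funext i
      ring
    rw [h2] at h1
    have h3 : 0 < w * r ^ k := by positivity
    rw [← sub_div, abs_div, abs_of_pos h3, div_le_iff₀ h3]
    have h4 : |(-∑' i, t ^ (i + 1) * along Φ R0 h w r a (k + i)) -
        (-∑' i, t ^ (i + 1) * along Φ R0 h w r b (k + i))| =
        |(∑' i, t ^ (i + 1) * along Φ R0 h w r a (k + i)) -
          ∑' i, t ^ (i + 1) * along Φ R0 h w r b (k + i)| := by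
      rw [← abs_neg]; congr 1; ring
    rw [h4]
    refine h1.trans ?_
    rw [div_le_iff₀ h1r]
    have h5 := mul_le_mul_of_nonneg_right hBw
      (mul_nonneg (dist_nonneg (x := a) (y := b)) (pow_pos hr0 k).le)
    calc B * dist a b * r ^ k = B * (dist a b * r ^ k) := by ring
      _ ≤ _ := h5
      _ = _ := by ring
  have hT : ContractingWith (1 / 2 : NNReal) T := by
    refine ⟨by rw [← NNReal.coe_lt_coe]; norm_num, LipschitzWith.of_dist_le_mul fun a b => ?_⟩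
    have hcoe : ((1 / 2 : NNReal) : ℝ) = 1 / 2 := by norm_num
    rw [hcoe]
    have h0 : (0 : ℝ) ≤ 1 / 2 * dist a b := by positivity
    show dist (T a).1 (T b).1 ≤ _
    rw [BoundedContinuousFunction.dist_le h0]
    intro k
    show dist ((U a k / (w * r ^ k), W a k / (w * r ^ k)) : ℝ × ℝ)
      (U b k / (w * r ^ k), W b k / (w * r ^ k)) ≤ _
    rw [Prod.dist_eq]
    refine max_le ?_ ?_
    · rw [Real.dist_eq]
      exact hdist f hfb hfd c hc0.le hc1 a b k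
    · rw [Real.dist_eq]
      exact hdist g hgb hgd 1 zero_le_one le_rfl a b k
  -- the fixed point
  obtain ⟨a, ha⟩ : ∃ a : Sq, T a = a := ⟨ContractingWith.fixedPoint T hT, hT.fixedPoint_isFixedPt⟩
  have hfix : ∀ k, nuS w r a k = U a k ∧ zS w r a k = W a k := by
    intro k
    have h3 : 0 < w * r ^ k := by positivity
    have h1 : (T a).1 k = a.1 k := by rw [ha]
    have h2 : (T a).1 k = ((U a k / (w * r ^ k), W a k / (w * r ^ k)) : ℝ × ℝ) := rfl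
    rw [h2] at h1
    unfold nuS zS
    rw [← h1]
    constructor
    · show w * r ^ k * (U a k / (w * r ^ k)) = U a k
      field_simp
    · show w * r ^ k * (W a k / (w * r ^ k)) = W a k
      field_simp
  refine ⟨nuS w r a, zS w r a, traj Φ R0 (nuS w r a) (zS w r a), rfl, fun k => rfl, fun k => ?_,
    fun k => ?_, nuS_le hw0.le hr0.le a, zS_le hw0.le hr0.le a, ?_⟩
  · have hs := (tail_bound hr0 hr1 hA0 hc0.le hc1 (hfb a) k).1
    have := tail_shift (F := along Φ R0 f w r a) hc0.ne' k hs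
    rw [(hfix (k + 1)).1, (hfix k).1]
    show -∑' i, c ^ (i + 1) * along Φ R0 f w r a (k + 1 + i) =
      L * (-∑' i, c ^ (i + 1) * along Φ R0 f w r a (k + i)) + _
    rw [← this, hc, inv_inv, ← hc, ← (hfix k).1]
    rfl
  · have hs := (tail_bound hr0 hr1 hA0 zero_le_one le_rfl (hgb a) k).1
    have := tail_shift (F := along Φ R0 g w r a) one_ne_zero k hs
    rw [(hfix (k + 1)).2, (hfix k).2]
    show -∑' i, (1 : ℝ) ^ (i + 1) * along Φ R0 g w r a (k + 1 + i) =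
      (-∑' i, (1 : ℝ) ^ (i + 1) * along Φ R0 g w r a (k + i)) + _
    rw [← this, inv_one, one_mul, ← (hfix k).2]
    rfl
  · exact traj_nm H hκ hr0 hr1 hζ hP hK hε hρK hs1 hR0 (nuS_le hw0.le hr0.le a)
      (zS_le hw0.le hr0.le a)

end Main

end Crest.Agent.R165.Sht2x541
end

-- ▼ part R165/PStep3_417
section

/-!
# Row 165 (S0250), block G4: the plane flow as a flow of the shooting lemma

* `ident` : the identity of 901 as an `Ident`
* `St a r R Γ` : symmetric, connected families of finite norm; `Nmx`, `Dsx` : norms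
* `PSeq a L r R Γ S Cb κ` : the hypotheses on all steps (uniform `κ`)
* `Phi`, `ff`, `gg` : the maps of the flow;  `flowHyp2`, `flowHyp` : the hypotheses of `Sht2_541`,
  `Sht_541`
* `flow_eq` : the activities of a system along a trajectory
-/

set_option autoImplicit false
set_option linter.unusedSectionVars false

noncomputable section

open scoped ENNReal
open Crest.Agent.R165.Gr0x606 Crest.Agent.R165.Gr1x606 Crest.Agent.R165.Latx683
open Crest.Agent.R165.PNormx417 Crest.Agent.R165.GDefx387 Crest.Agent.R165.GeOpsx337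
open Crest.Agent.R165.KFlowx337 Crest.Agent.R165.Packx915 Crest.Agent.R165.Bridgex915
open Crest.Agent.R165.NSumx915 Crest.Agent.R165.KStepx892 Crest.Agent.R165.ExpGx337
open Crest.Agent.R165.PlaneModesx901 Crest.Agent.R165.PlaneLocx901 Crest.Agent.R165.PlaneCovx901
open Crest.Agent.R165.PlaneSumx901 Crest.Agent.R165.PlaneCoefx901 Crest.Agent.R165.W2x812
open Crest.Agent.R165.Locx901 Crest.Agent.R165.GBulkx417
open Crest.Agent.R165.Shtx541 Crest.Agent.R165.Sht2x541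

namespace Crest.Agent.R165.PStepx417

open Crest.Agent.R165.PStepIdx901 (LocG baseG QlG PlS alQ beQ stK stH stA stN stQ lcG)

/-! ### linearity -/

theorem baseG_add (ν z ν' z' : ℝ) (U : Finset Fc) :
    baseG (ν + ν') (z + z') U = baseG ν z U + baseG ν' z' U := by
  by_cases h : ∃ f, U = {f}
  · obtain ⟨f, rfl⟩ := h
    rw [PStepIdx901.baseG_single, PStepIdx901.baseG_single, PStepIdx901.baseG_single, add_smul,
      add_smul]
    abel
  · push Not at h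
    rw [PStepIdx901.baseG_of_ne _ _ h, PStepIdx901.baseG_of_ne _ _ h,
      PStepIdx901.baseG_of_ne _ _ h, add_zero]

theorem baseG_sub (ν z ν' z' : ℝ) (U : Finset Fc) :
    baseG ν z U - baseG ν' z' U = baseG (ν - ν') (z - z') U := by
  have h := baseG_add (ν - ν') (z - z') ν' z' U
  rw [sub_add_cancel, sub_add_cancel] at h
  rw [h, add_sub_cancel_right]


theorem avgAt_sub (r : ℕ) (K K' : Finset Fc → Gr (Fld ℤ)) (f : Fc) :
    avgAt r (fun U => K U - K' U) f = avgAt r K f - avgAt r K' f := by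
  simp only [avgAt, smul_sub, Finset.sum_sub_distrib]

theorem alQ_sub (S : Cov (Fld ℤ)) (r : ℕ) (Q Q' : Fam) :
    alQ S r (fun U => Q U - Q' U) = alQ S r Q - alQ S r Q' := by
  have e : (fun U => conv S ((Q U - Q' U : Ge (Fld ℤ)) : Gr (Fld ℤ))) =
      fun U => conv S (Q U : Gr (Fld ℤ)) - conv S (Q' U : Gr (Fld ℤ)) := by
    funext U; rw [Ge.coe_sub, map_sub]
  simp only [alQ, alK]
  rw [e, avgAt_sub, map_sub]

theorem beQ_sub (S : Cov (Fld ℤ)) (r : ℕ) (Q Q' : Fam) :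
    beQ S r (fun U => Q U - Q' U) = beQ S r Q - beQ S r Q' := by
  have e : (fun U => conv S ((Q U - Q' U : Ge (Fld ℤ)) : Gr (Fld ℤ))) =
      fun U => conv S (Q U : Gr (Fld ℤ)) - conv S (Q' U : Gr (Fld ℤ)) := by
    funext U; rw [Ge.coe_sub, map_sub]
  simp only [beQ, beK]
  rw [e, avgAt_sub, map_sub]

theorem lcG_sub (r : ℕ) (K K' : Fam) (U : Finset Fc) :
    lcG r (fun U => K U - K' U) U = lcG r K U - lcG r K' U := by
  unfold lcG
  split_ifs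
  · simp only [map_sub, Finset.sum_sub_distrib, smul_sub]
  · rw [sub_zero]

theorem QlG_sub (S : Cov (Fld ℤ)) (r : ℕ) (Q Q' : Fam) (U : Finset Fc) :
    QlG S r (fun U => Q U - Q' U) U = QlG S r Q U - QlG S r Q' U := by
  have e : (fun U => cvG S (Q U - Q' U)) = fun U => cvG S (Q U) - cvG S (Q' U) := by
    funext U; rw [map_sub]
  unfold QlG
  rw [e, lcG_sub, map_sub, map_sub]
  abel

/-! ### the identity -/

/-- **the identity of 901** -/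
theorem ident {S : Cov (Fld ℤ)} (hS : SymS S) (r : ℕ) : Ident LocG baseG (QlG S r) r S where
  coe_bG _ _ _ := rfl
  coe_Ql Q U := by
    rw [PStepIdx901.coe_QlG, QlS]
    simp only [loc2_md]
    rfl
  id1 ν z Q hsym U := PStepIdx901.HA_eq hS r ν z (Q := Q) hsym U


/-- **the new remainder** -/
theorem stQ_eq_Rm {S : Cov (Fld ℤ)} (hS : SymS S) (r R R' : ℕ) (ν z : ℝ) {Q : Fam} (hQ : PlS Q)
    (U : Finset Fc) :
    stQ (fun a b => fd a b ≤ R) (fun a b => fd a b ≤ R') S r ν z Q U =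
      QlG S r Q U + Rm LocG r R R' (Hf S (Kf baseG ν z Q)) U :=
  PStepIdx901.stQ_eq _ _ hS r ν z hQ U

theorem plS_sub {Q Q' : Fam} (h : PlS Q) (h' : PlS Q') : PlS fun U => Q U - Q' U :=
  h.map2 h' fun _ _ _ _ k k' => k.sub k'

theorem plS_zero : PlS (fun _ => 0 : Fam) where
  tau t U := by show (0 : Gr (Fld ℤ)) = mp _ 0; rw [map_zero]
  rho U := by show (0 : Gr (Fld ℤ)) = mp _ 0; rw [map_zero]
  sig U := by show (0 : Gr (Fld ℤ)) = rev' (mp _ 0); rw [map_zero, map_zero]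

/-! ### the state space -/

/-- symmetric connected families of finite norm -/
structure St (a : ℝ) (r R : ℕ) (Γ : ℝ≥0∞) where
  /-- the family -/
  Q : Fam
  sym : PlS Q
  conn : ∀ U, Q U ≠ 0 → Packx915.Conn fd R U
  emp : Q ∅ = 0
  fin : nk a r Γ Q ≠ ∞

section state

variable {a : ℝ} {r R : ℕ} {Γ : ℝ≥0∞}

/-- the zero state -/
def St.zero : St a r R Γ where
  Q _ := 0
  sym := plS_zero
  conn U h := absurd rfl h
  emp := rfl
  fin := by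
    have := mx_zero (a := a) (r := r) (r' := r) (Γ := Γ)
    rw [nk]
    rw [this]
    exact ENNReal.zero_ne_top

/-- the norm -/
def Nmx (x : St a r R Γ) : ℝ := (nk a r Γ x.Q).toReal

/-- the distance -/
def Dsx (x y : St a r R Γ) : ℝ := (nk a r Γ fun U => x.Q U - y.Q U).toReal

theorem Nmx_nonneg (x : St a r R Γ) : 0 ≤ Nmx x := ENNReal.toReal_nonneg

theorem Dsx_nonneg (x y : St a r R Γ) : 0 ≤ Dsx x y := ENNReal.toReal_nonneg

theorem ds_fin (x y : St a r R Γ) : nk a r Γ (fun U => x.Q U - y.Q U) ≠ ∞ :=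
  ne_top_of_le_ne_top (ENNReal.add_ne_top.2 ⟨x.fin, y.fin⟩) (nk_sub_le x.Q y.Q)

theorem nk_eq (x : St a r R Γ) : nk a r Γ x.Q = ENNReal.ofReal (Nmx x) :=
  (ENNReal.ofReal_toReal x.fin).symm

theorem nk_le (x : St a r R Γ) {s : ℝ} (h : Nmx x ≤ s) : nk a r Γ x.Q ≤ ENNReal.ofReal s := by
  rw [nk_eq]; exact ENNReal.ofReal_le_ofReal h

theorem nkd_eq (x y : St a r R Γ) :
    nk a r Γ (fun U => x.Q U - y.Q U) = ENNReal.ofReal (Dsx x y) :=
  (ENNReal.ofReal_toReal (ds_fin x y)).symm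



end state

/-! ### one step in the state space -/

section step

variable {a : ℝ} {L r r' R R' : ℕ} {Γ : ℝ≥0∞} {S : Cov (Fld ℤ)} {g : Fld ℤ → ℝ≥0∞}
  {p0 p1 q2 q0 C : ℝ≥0∞} {Cb : ℝ}

/-- the new remainder -/
def nQ (r R R' : ℕ) (S : Cov (Fld ℤ)) (n z : ℝ) (Q : Fam) : Fam :=
  stQ (fun a b => fd a b ≤ R) (fun a b => fd a b ≤ R') S r (n / r) z Q

theorem nk_nQ_le (h : PStep a L r r' R R' Γ S g p0 p1 q2 q0 C Cb) (hS : SymS S) (x : St a r R Γ)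
    {n z s : ℝ} (hs : 0 ≤ s) (hn : |n| ≤ s) (hz : |z| ≤ s) (hQ : Nmx x ≤ s)
    (hsm : cS a Cb L Γ * ENNReal.ofReal s ≤ 1) :
    nk a r' Γ (nQ r R R' S n z x.Q) ≤
      κe r r' Γ p0 p1 q2 q0 C * ENNReal.ofReal (Nmx x) + cQ a Cb L Γ * ENNReal.ofReal s ^ 2 := by
  have e : nQ r R R' S n z x.Q = fun U => QlG S r x.Q U +
      Rm LocG r R R' (Hf S (Kf baseG (n / r) z x.Q)) U := by
    funext U
    exact stQ_eq_Rm hS r R R' (n / r) z x.sym U
  rw [e]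
  refine (nk_add_le _ _).trans (add_le_add ?_ ?_)
  · rw [← nk_eq]
    exact nk_Ql h.toPHyp x.Q (QlG S r x.Q) (fun U => (ident hS r).coe_Ql x.Q U) x.emp x.conn
  · exact nk_Rm_le h (ident hS r) x.sym x.conn hs hn hz (nk_le x hQ) hsm

theorem nk_nQ_lip (h : PStep a L r r' R R' Γ S g p0 p1 q2 q0 C Cb) (hS : SymS S)
    (x y : St a r R Γ) {n z n' z' s d : ℝ} (hs : 0 ≤ s) (hn : |n| ≤ s) (hz : |z| ≤ s)
    (hQ : Nmx x ≤ s) (hn' : |n'| ≤ s) (hz' : |z'| ≤ s) (hQ' : Nmx y ≤ s) (hd : 0 ≤ d)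
    (hdn : |n - n'| ≤ d) (hdz : |z - z'| ≤ d) (hdQ : Dsx x y ≤ d)
    (hsm : cS a Cb L Γ * ENNReal.ofReal s ≤ 1) :
    nk a r' Γ (fun U => nQ r R R' S n z x.Q U - nQ r R R' S n' z' y.Q U) ≤
      κe r r' Γ p0 p1 q2 q0 C * ENNReal.ofReal (Dsx x y) +
        cL a Cb L Γ * ENNReal.ofReal s * ENNReal.ofReal d := by
  have e : (fun U => nQ r R R' S n z x.Q U - nQ r R R' S n' z' y.Q U) =
      fun U => QlG S r (fun U => x.Q U - y.Q U) U +
        (Rm LocG r R R' (Hf S (Kf baseG (n / r) z x.Q)) U -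
          Rm LocG r R R' (Hf S (Kf baseG (n' / r) z' y.Q)) U) := by
    funext U
    rw [nQ, nQ, stQ_eq_Rm hS r R R' (n / r) z x.sym U, stQ_eq_Rm hS r R R' (n' / r) z' y.sym U,
      QlG_sub]
    abel
  rw [e]
  refine (nk_add_le _ _).trans (add_le_add ?_ ?_)
  · rw [← nkd_eq]
    refine nk_Ql h.toPHyp _ (QlG S r fun U => x.Q U - y.Q U)
      (fun U => (ident hS r).coe_Ql _ U) (by rw [x.emp, y.emp, sub_zero]) fun U hU => ?_
    by_cases h0 : x.Q U = 0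
    · refine y.conn U fun h1 => hU ?_
      rw [h0, h1, sub_zero]
    · exact x.conn U h0
  · exact nk_Rm_lip h (ident hS r) baseG_sub x.sym y.sym x.conn y.conn hs hn hz (nk_le x hQ) hn' hz'
      (nk_le y hQ') (plS_sub x.sym y.sym) hd hdn hdz
      (by rw [nkd_eq]; exact ENNReal.ofReal_le_ofReal hdQ) hsm

theorem nQ_conn {hS : SymS S} (hRR : R ≤ R') {n z : ℝ} (x : St a r R Γ) (U : Finset Fc)
    (hU : nQ r R R' S n z x.Q U ≠ 0) : Packx915.Conn fd R' U := by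
  by_cases hb : baseG (n / r + alQ S r x.Q) (z + beQ S r x.Q) U = 0
  · have hN : stN (fun a b => fd a b ≤ R) (fun a b => fd a b ≤ R') S r (n / r) z x.Q U ≠ 0 := by
      intro h0
      apply hU
      show stN _ _ S r (n / r) z x.Q U - baseG _ _ U = 0
      rw [h0, hb, sub_zero]
    refine Quad2x897.KK_conn pd_fd hRR (K := stH S (n / r) z x.Q)
      (B := PStepIdx901.stB S r (n / r) z x.Q) ?_ ?_ _ hN
    · exact H_conn (ident hS r) x.conn
    · intro W hW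
      refine A_conn (ident hS r) (ν := n / r) (z := z) x.sym x.conn W fun h0 => hW ?_
      have h1 : stA S r (n / r) z x.Q W = 0 := h0
      rw [PStepIdx901.stB_eq, h1, gexp_zero, sub_self]
  · exact bG_conn (ident hS r) R' _ _ hb

open Classical in
/-- the step in the state space -/
def nSt (r R R' : ℕ) {r' : ℕ} {S : Cov (Fld ℤ)} (hS : SymS S) (hRR : R ≤ R') (n z : ℝ)
    (x : St a r R Γ) : St a r' R' Γ :=
  if h : nk a r' Γ (nQ r R R' S n z x.Q) ≠ ∞ then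
    { Q := nQ r R R' S n z x.Q
      sym := PStepIdx901.plS_stQ (PStepIdx901.nInv_fd R) (PStepIdx901.nInv_fd R') hS r _ z x.sym
      conn := nQ_conn (hS := hS) hRR x
      emp := PStepIdx901.stQ_empty _ _ S r _ z x.Q
      fin := h }
  else St.zero

theorem nSt_Q {hS : SymS S} {hRR : R ≤ R'} {n z : ℝ} {x : St a r R Γ}
    (h : nk a r' Γ (nQ r R R' S n z x.Q) ≠ ∞) :
    (nSt r R R' (r' := r') hS hRR n z x).Q = nQ r R R' S n z x.Q := by
  rw [nSt, dif_pos h]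

end step

/-! ### the flow -/

/-- the hypotheses on all steps; `κ` bounds the contraction factors -/
structure PSeq (a : ℝ) (L : ℕ) (r R : ℕ → ℕ) (Γ : ℝ≥0∞) (S : ℕ → Cov (Fld ℤ)) (Cb : ℝ)
    (κ : ℝ) : Prop where
  step : ∀ k, ∃ g p0 p1 q2 q0 C, PStep a L (r k) (r (k + 1)) (R k) (R (k + 1)) Γ (S k) g p0 p1 q2 q0
    C Cb ∧ κe (r k) (r (k + 1)) Γ p0 p1 q2 q0 C ≤ ENNReal.ofReal κ
  sym : ∀ k, SymS (S k)
  κ_nonneg : 0 ≤ κ

section flow

variable {a : ℝ} {L : ℕ} {r R : ℕ → ℕ} {Γ : ℝ≥0∞} {S : ℕ → Cov (Fld ℤ)} {Cb κ : ℝ}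

theorem PSeq.hRR (h : PSeq a L r R Γ S Cb κ) (k : ℕ) : R k ≤ R (k + 1) := by
  obtain ⟨g, p0, p1, q2, q0, C, hk, -⟩ := h.step k
  exact hk.hRR

theorem PSeq.a_pos (h : PSeq a L r R Γ S Cb κ) : 0 < a := by
  obtain ⟨g, p0, p1, q2, q0, C, hk, -⟩ := h.step 0
  exact hk.a_pos

theorem PSeq.Γ_top (h : PSeq a L r R Γ S Cb κ) : Γ ≠ ∞ := by
  obtain ⟨g, p0, p1, q2, q0, C, hk, -⟩ := h.step 0
  exact hk.Γ_top

theorem PSeq.r_pos (h : PSeq a L r R Γ S Cb κ) (k : ℕ) : 1 ≤ r k := by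
  obtain ⟨g, p0, p1, q2, q0, C, hk, -⟩ := h.step k
  exact hk.r_pos

theorem PSeq.ratio (h : PSeq a L r R Γ S Cb κ) (k : ℕ) : r (k + 1) = L * r k := by
  obtain ⟨g, p0, p1, q2, q0, C, hk, -⟩ := h.step k
  exact hk.ratio

/-- the map of the flow -/
def Phi (h : PSeq a L r R Γ S Cb κ) (k : ℕ) (n z : ℝ) (x : St a (r k) (R k) Γ) :
    St a (r (k + 1)) (R (k + 1)) Γ := nSt (r k) (R k) (R (k + 1)) (h.sym k) (h.hRR k) n z x

/-- the influence of the remainder on the mass -/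
def ff (a : ℝ) (r R : ℕ → ℕ) (Γ : ℝ≥0∞) (S : ℕ → Cov (Fld ℤ)) (k : ℕ) (_ _ : ℝ)
    (x : St a (r k) (R k) Γ) : ℝ := r (k + 1) * alQ (S k) (r k) x.Q

/-- the influence of the remainder on the field strength -/
def gg (a : ℝ) (r R : ℕ → ℕ) (Γ : ℝ≥0∞) (S : ℕ → Cov (Fld ℤ)) (k : ℕ) (_ _ : ℝ)
    (x : St a (r k) (R k) Γ) : ℝ := beQ (S k) (r k) x.Q

/-- linear constant -/
def cM2 (a : ℝ) (L : ℕ) : ℝ := L * (PlaneCoefx901.cM / a ^ 2) + PlaneCoefx901.cK / a ^ 2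

/-- quadratic constant -/
def cP2 (a Cb : ℝ) (L : ℕ) (Γ : ℝ≥0∞) : ℝ := (cQ a Cb L Γ).toReal + (cL a Cb L Γ).toReal

/-- radius -/
def cρ (a Cb : ℝ) (L : ℕ) (Γ : ℝ≥0∞) : ℝ := ((cS a Cb L Γ).toReal + 1)⁻¹


theorem cP2_nonneg (a Cb : ℝ) (L : ℕ) (Γ : ℝ≥0∞) : 0 ≤ cP2 a Cb L Γ :=
  add_nonneg ENNReal.toReal_nonneg ENNReal.toReal_nonneg

theorem cρ_pos (a Cb : ℝ) (L : ℕ) (Γ : ℝ≥0∞) : 0 < cρ a Cb L Γ := by
  have : 0 ≤ (cS a Cb L Γ).toReal := ENNReal.toReal_nonneg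
  unfold cρ; positivity

theorem small_of {a Cb : ℝ} {L : ℕ} {Γ : ℝ≥0∞} (hΓ : Γ ≠ ∞) {s : ℝ} (h : s ≤ cρ a Cb L Γ) :
    cS a Cb L Γ * ENNReal.ofReal s ≤ 1 := by
  have h0 : 0 ≤ (cS a Cb L Γ).toReal := ENNReal.toReal_nonneg
  rw [← ENNReal.ofReal_toReal (cS_top (a := a) (Cb := Cb) (L := L) hΓ), ← ENNReal.ofReal_mul h0,
    ← ENNReal.ofReal_one]
  refine ENNReal.ofReal_le_ofReal ?_
  have h1 := mul_le_mul_of_nonneg_left h h0
  refine h1.trans ?_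
  unfold cρ
  rw [← div_eq_mul_inv, div_le_one (by linarith)]
  linarith


theorem Phi_nm (h : PSeq a L r R Γ S Cb κ) (k : ℕ) {n z s : ℝ} (x : St a (r k) (R k) Γ)
    (hn : |n| ≤ s) (hz : |z| ≤ s) (hx : Nmx x ≤ s) (hs : s ≤ cρ a Cb L Γ) :
    (Phi h k n z x).Q = nQ (r k) (R k) (R (k + 1)) (S k) n z x.Q ∧
      Nmx (Phi h k n z x) ≤ κ * Nmx x + (cQ a Cb L Γ).toReal * s ^ 2 := by
  obtain ⟨g, p0, p1, q2, q0, C, hk, hκ⟩ := h.step k
  have hs0 : 0 ≤ s := (abs_nonneg _).trans hn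
  have h1 := nk_nQ_le hk (h.sym k) x hs0 hn hz hx (small_of h.Γ_top hs)
  have hQ : cQ a Cb L Γ = ENNReal.ofReal (cQ a Cb L Γ).toReal :=
    (ENNReal.ofReal_toReal (cQ_top h.Γ_top)).symm
  have h2 : nk a (r (k + 1)) Γ (nQ (r k) (R k) (R (k + 1)) (S k) n z x.Q) ≤
      ENNReal.ofReal (κ * Nmx x + (cQ a Cb L Γ).toReal * s ^ 2) := by
    refine h1.trans ?_
    rw [ENNReal.ofReal_add (mul_nonneg h.κ_nonneg (Nmx_nonneg x))
      (mul_nonneg ENNReal.toReal_nonneg (sq_nonneg s)), ENNReal.ofReal_mul h.κ_nonneg,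
      ENNReal.ofReal_mul ENNReal.toReal_nonneg, ← hQ, ENNReal.ofReal_pow hs0]
    gcongr
  have h3 : nk a (r (k + 1)) Γ (nQ (r k) (R k) (R (k + 1)) (S k) n z x.Q) ≠ ∞ :=
    ne_top_of_le_ne_top ENNReal.ofReal_ne_top h2
  have h4 : (Phi h k n z x).Q = nQ (r k) (R k) (R (k + 1)) (S k) n z x.Q := nSt_Q h3
  refine ⟨h4, ?_⟩
  unfold Nmx
  rw [h4]
  refine ENNReal.toReal_le_of_le_ofReal ?_ h2
  exact add_nonneg (mul_nonneg h.κ_nonneg (Nmx_nonneg x))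
    (mul_nonneg ENNReal.toReal_nonneg (sq_nonneg s))




/-- **one step of a system along the flow** -/
theorem sys_Phi (h : PSeq a L r R Γ S Cb κ) (D : Sys Fc (Fld ℤ)) (k : ℕ)
    (hv : D.vac = vac0 (Fld ℤ)) (he : D.e k = PStepIdx901.eP (r k))
    (hn1 : D.near k = fun a b => fd a b ≤ R k) (hn2 : D.near (k + 1) = fun a b => fd a b ≤ R (k + 1))
    (hSk : D.S k = S k) {n z s : ℝ} {x : St a (r k) (R k) Γ}
    (hK : D.K k = stK (n / r k) z x.Q) (hn : |n| ≤ s) (hz : |z| ≤ s) (hx : Nmx x ≤ s)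
    (hs : s ≤ cρ a Cb L Γ) :
    D.K (k + 1) = stK ((L * n + ff a r R Γ S k n z x) / r (k + 1)) (z + gg a r R Γ S k n z x)
      (Phi h k n z x).Q := by
  rw [PStepIdx901.sys_step D k hv he (n / r k) z x.Q hK, (Phi_nm h k x hn hz hx hs).1, hn1, hn2,
    hSk]
  have hr : (r k : ℝ) ≠ 0 := by
    have := h.r_pos k
    exact_mod_cast (by omega : r k ≠ 0)
  have hr' : (r (k + 1) : ℝ) ≠ 0 := by
    have := h.r_pos (k + 1)
    exact_mod_cast (by omega : r (k + 1) ≠ 0)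
  have e : (L * n + ff a r R Γ S k n z x) / r (k + 1) = n / r k + alQ (S k) (r k) x.Q := by
    have hrat : (r (k + 1) : ℝ) = L * r k := by exact_mod_cast h.ratio k
    unfold ff
    rw [add_div, mul_div_cancel_left₀ _ hr', hrat]
    congr 1
    rw [hrat] at hr'
    have hL : (L : ℝ) ≠ 0 := left_ne_zero_of_mul hr'
    field_simp
  rw [e]
  rfl


end flow

end Crest.Agent.R165.PStepx417
end
end

-- ▼ part R165/Sht3_541
section

/-!
# Row 165 (S0250): one step of the flow (helper541)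

* `OneStep` : the inequalities of `FlowHyp2` for a single step `E → E'`
* `OneStep.mono`, `OneStep.scale` : monotone in the constants, change of the unit of the norm
* `FlowHyp2.of_steps`, `FlowHyp2.of_first` : a flow from its steps
-/

set_option autoImplicit false
set_option linter.unusedVariables false

namespace Crest.Agent.R165.Sht3x541

open Crest.Agent.R165.Sht2x541

universe u

/-- the inequalities of one step -/
structure OneStep {E E' : Type u} (Nm : E → ℝ) (Nm' : E' → ℝ) (Ds : E → E → ℝ) (Ds' : E' → E' → ℝ)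
    (Φ : ℝ → ℝ → E → E') (f g : ℝ → ℝ → E → ℝ) (κ η ζ M P ρ : ℝ) : Prop where
  nm : ∀ ν z R s, |ν| ≤ s → |z| ≤ s → Nm R ≤ s → s ≤ ρ →
    Nm' (Φ ν z R) ≤ κ * Nm R + ζ * (|ν| + |z|) + P * s ^ 2
  ds : ∀ ν z R ν' z' R' s, |ν| ≤ s → |z| ≤ s → Nm R ≤ s → |ν'| ≤ s → |z'| ≤ s →
    Nm R' ≤ s → s ≤ ρ →
    Ds' (Φ ν z R) (Φ ν' z' R') ≤
      κ * Ds R R' + ζ * (|ν - ν'| + |z - z'|) + P * s * (|ν - ν'| + |z - z'| + Ds R R')
  f_nm : ∀ ν z R s, |ν| ≤ s → |z| ≤ s → Nm R ≤ s → s ≤ ρ →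
    |f ν z R| ≤ M * Nm R + (η + P * s) * (|ν| + |z|) + P * s ^ 2
  f_ds : ∀ ν z R ν' z' R' s, |ν| ≤ s → |z| ≤ s → Nm R ≤ s → |ν'| ≤ s → |z'| ≤ s →
    Nm R' ≤ s → s ≤ ρ →
    |f ν z R - f ν' z' R'| ≤ M * Ds R R' + (η + P * s) * (|ν - ν'| + |z - z'|)
  g_nm : ∀ ν z R s, |ν| ≤ s → |z| ≤ s → Nm R ≤ s → s ≤ ρ →
    |g ν z R| ≤ M * Nm R + (η + P * s) * (|ν| + |z|) + P * s ^ 2
  g_ds : ∀ ν z R ν' z' R' s, |ν| ≤ s → |z| ≤ s → Nm R ≤ s → |ν'| ≤ s → |z'| ≤ s →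
    Nm R' ≤ s → s ≤ ρ →
    |g ν z R - g ν' z' R'| ≤ M * Ds R R' + (η + P * s) * (|ν - ν'| + |z - z'|)

section

variable {E E' : Type u} {Nm : E → ℝ} {Nm' : E' → ℝ} {Ds : E → E → ℝ} {Ds' : E' → E' → ℝ}
  {Φ : ℝ → ℝ → E → E'} {f g : ℝ → ℝ → E → ℝ} {κ η ζ M P ρ : ℝ}

/-- monotone in the constants -/
theorem OneStep.mono (h : OneStep Nm Nm' Ds Ds' Φ f g κ η ζ M P ρ)
    (hN : ∀ R, 0 ≤ Nm R) (hD : ∀ R R', 0 ≤ Ds R R') {κ₁ η₁ ζ₁ M₁ P₁ ρ₁ : ℝ}
    (hκ : κ ≤ κ₁) (hη : η ≤ η₁) (hζ : ζ ≤ ζ₁) (hM : M ≤ M₁) (hP : P ≤ P₁) (hρ : ρ₁ ≤ ρ) :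
    OneStep Nm Nm' Ds Ds' Φ f g κ₁ η₁ ζ₁ M₁ P₁ ρ₁ where
  nm ν z R s h1 h2 h3 h4 := by
    refine (h.nm ν z R s h1 h2 h3 (h4.trans hρ)).trans ?_
    have := hN R
    gcongr
  ds ν z R ν' z' R' s h1 h2 h3 h1' h2' h3' h4 := by
    refine (h.ds ν z R ν' z' R' s h1 h2 h3 h1' h2' h3' (h4.trans hρ)).trans ?_
    have := hD R R'
    have hs : 0 ≤ s := (abs_nonneg _).trans h1
    gcongr
  f_nm ν z R s h1 h2 h3 h4 := by
    refine (h.f_nm ν z R s h1 h2 h3 (h4.trans hρ)).trans ?_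
    have := hN R
    have hs : 0 ≤ s := (abs_nonneg _).trans h1
    gcongr
  f_ds ν z R ν' z' R' s h1 h2 h3 h1' h2' h3' h4 := by
    refine (h.f_ds ν z R ν' z' R' s h1 h2 h3 h1' h2' h3' (h4.trans hρ)).trans ?_
    have := hD R R'
    have hs : 0 ≤ s := (abs_nonneg _).trans h1
    gcongr
  g_nm ν z R s h1 h2 h3 h4 := by
    refine (h.g_nm ν z R s h1 h2 h3 (h4.trans hρ)).trans ?_
    have := hN R
    have hs : 0 ≤ s := (abs_nonneg _).trans h1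
    gcongr
  g_ds ν z R ν' z' R' s h1 h2 h3 h1' h2' h3' h4 := by
    refine (h.g_ds ν z R ν' z' R' s h1 h2 h3 h1' h2' h3' (h4.trans hρ)).trans ?_
    have := hD R R'
    have hs : 0 ≤ s := (abs_nonneg _).trans h1
    gcongr

/-- change of the unit of the norm: `Nm / c`, `c ≥ 1` -/
theorem OneStep.scale (h : OneStep Nm Nm' Ds Ds' Φ f g κ η ζ M P ρ)
    (_hN : ∀ R, 0 ≤ Nm R) (hD : ∀ R R', 0 ≤ Ds R R') (hη : 0 ≤ η) (hζ : 0 ≤ ζ) (hP : 0 ≤ P)
    {c : ℝ} (hc : 1 ≤ c) :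
    OneStep (fun R => Nm R / c) (fun R => Nm' R / c) (fun R R' => Ds R R' / c)
      (fun R R' => Ds' R R' / c) Φ f g κ η (ζ / c) (M * c) (P * c ^ 2) (ρ / c) := by
  have hc0 : 0 < c := by linarith
  have key : ∀ {x s : ℝ}, x / c ≤ s → x ≤ c * s := fun {x s} hx => by
    rw [div_le_iff₀ hc0] at hx; linarith
  have hs1 : ∀ {x s : ℝ}, 0 ≤ s → |x| ≤ s → |x| ≤ c * s := fun {x s} h0 hx =>
    hx.trans (by nlinarith)
  have hρ' : ∀ {s : ℝ}, s ≤ ρ / c → c * s ≤ ρ := fun {s} hs => by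
    rw [le_div_iff₀ hc0] at hs; linarith
  refine ⟨?_, ?_, ?_, ?_, ?_, ?_⟩
  · intro ν z R s h1 h2 h3 h4
    have hs : 0 ≤ s := (abs_nonneg _).trans h1
    have := h.nm ν z R (c * s) (hs1 hs h1) (hs1 hs h2) (key h3) (hρ' h4)
    rw [div_le_iff₀ hc0]
    refine this.trans (le_of_sub_nonneg ?_)
    have e : (κ * (Nm R / c) + ζ / c * (|ν| + |z|) + P * c ^ 2 * s ^ 2) * c -
        (κ * Nm R + ζ * (|ν| + |z|) + P * (c * s) ^ 2) = P * s ^ 2 * c ^ 2 * (c - 1) := by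
      field_simp; ring
    rw [e]
    have : 0 ≤ c - 1 := by linarith
    positivity
  · intro ν z R ν' z' R' s h1 h2 h3 h1' h2' h3' h4
    have hs : 0 ≤ s := (abs_nonneg _).trans h1
    have := h.ds ν z R ν' z' R' (c * s) (hs1 hs h1) (hs1 hs h2) (key h3) (hs1 hs h1') (hs1 hs h2')
      (key h3') (hρ' h4)
    rw [div_le_iff₀ hc0]
    refine this.trans (le_of_sub_nonneg ?_)
    have e : (κ * (Ds R R' / c) + ζ / c * (|ν - ν'| + |z - z'|) +
        P * c ^ 2 * s * (|ν - ν'| + |z - z'| + Ds R R' / c)) * c -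
        (κ * Ds R R' + ζ * (|ν - ν'| + |z - z'|) + P * (c * s) * (|ν - ν'| + |z - z'| + Ds R R')) =
        P * s * c * ((c ^ 2 - 1) * (|ν - ν'| + |z - z'|) + (c - 1) * Ds R R') := by
      field_simp; ring
    rw [e]
    have h0 : 0 ≤ c - 1 := by linarith
    have h0' : 0 ≤ c ^ 2 - 1 := by nlinarith
    have := hD R R'
    positivity
  · intro ν z R s h1 h2 h3 h4
    have hs : 0 ≤ s := (abs_nonneg _).trans h1
    have := h.f_nm ν z R (c * s) (hs1 hs h1) (hs1 hs h2) (key h3) (hρ' h4)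
    refine this.trans (le_of_sub_nonneg ?_)
    have e : (M * c * (Nm R / c) + (η + P * c ^ 2 * s) * (|ν| + |z|) + P * c ^ 2 * s ^ 2) -
        (M * Nm R + (η + P * (c * s)) * (|ν| + |z|) + P * (c * s) ^ 2) =
        P * s * c * (c - 1) * (|ν| + |z|) := by
      field_simp; ring
    rw [e]
    have h0 : 0 ≤ c - 1 := by linarith
    positivity
  · intro ν z R ν' z' R' s h1 h2 h3 h1' h2' h3' h4
    have hs : 0 ≤ s := (abs_nonneg _).trans h1
    have := h.f_ds ν z R ν' z' R' (c * s) (hs1 hs h1) (hs1 hs h2) (key h3) (hs1 hs h1')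
      (hs1 hs h2') (key h3') (hρ' h4)
    refine this.trans (le_of_sub_nonneg ?_)
    have e : (M * c * (Ds R R' / c) + (η + P * c ^ 2 * s) * (|ν - ν'| + |z - z'|)) -
        (M * Ds R R' + (η + P * (c * s)) * (|ν - ν'| + |z - z'|)) =
        P * s * c * (c - 1) * (|ν - ν'| + |z - z'|) := by
      field_simp; ring
    rw [e]
    have h0 : 0 ≤ c - 1 := by linarith
    positivity
  · intro ν z R s h1 h2 h3 h4
    have hs : 0 ≤ s := (abs_nonneg _).trans h1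
    have := h.g_nm ν z R (c * s) (hs1 hs h1) (hs1 hs h2) (key h3) (hρ' h4)
    refine this.trans (le_of_sub_nonneg ?_)
    have e : (M * c * (Nm R / c) + (η + P * c ^ 2 * s) * (|ν| + |z|) + P * c ^ 2 * s ^ 2) -
        (M * Nm R + (η + P * (c * s)) * (|ν| + |z|) + P * (c * s) ^ 2) =
        P * s * c * (c - 1) * (|ν| + |z|) := by
      field_simp; ring
    rw [e]
    have h0 : 0 ≤ c - 1 := by linarith
    positivity
  · intro ν z R ν' z' R' s h1 h2 h3 h1' h2' h3' h4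
    have hs : 0 ≤ s := (abs_nonneg _).trans h1
    have := h.g_ds ν z R ν' z' R' (c * s) (hs1 hs h1) (hs1 hs h2) (key h3) (hs1 hs h1')
      (hs1 hs h2') (key h3') (hρ' h4)
    refine this.trans (le_of_sub_nonneg ?_)
    have e : (M * c * (Ds R R' / c) + (η + P * c ^ 2 * s) * (|ν - ν'| + |z - z'|)) -
        (M * Ds R R' + (η + P * (c * s)) * (|ν - ν'| + |z - z'|)) =
        P * s * c * (c - 1) * (|ν - ν'| + |z - z'|) := by
      field_simp; ring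
    rw [e]
    have h0 : 0 ≤ c - 1 := by linarith
    positivity

end

/-- a flow from its steps -/
theorem of_steps {E : ℕ → Type u} {Nm : ∀ k, E k → ℝ} {Ds : ∀ k, E k → E k → ℝ}
    {Φ : ∀ k, ℝ → ℝ → E k → E (k + 1)} {f g : ∀ k, ℝ → ℝ → E k → ℝ} {κ η ζ M P ρ : ℝ}
    (hN : ∀ k R, 0 ≤ Nm k R) (hD : ∀ k R R', 0 ≤ Ds k R R')
    (h : ∀ k, OneStep (Nm k) (Nm (k + 1)) (Ds k) (Ds (k + 1)) (Φ k) (f k) (g k) κ η ζ M P ρ) :
    FlowHyp2 E Nm Ds Φ f g κ η ζ M P ρ where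
  nm_nonneg := hN
  ds_nonneg := hD
  nm k := (h k).nm
  ds k := (h k).ds
  f_nm k := (h k).f_nm
  f_ds k := (h k).f_ds
  g_nm k := (h k).g_nm
  g_ds k := (h k).g_ds

/-! ### a flow with a special first step -/

/-- the state spaces: a point, then `E 1, E 2, ...` -/
def E1 (E : ℕ → Type u) : ℕ → Type u
  | 0 => PUnit
  | k + 1 => E (k + 1)

section first

variable {E : ℕ → Type u}

/-- size -/
def nm1 (c : ℝ) (Nm : ∀ k, E k → ℝ) : ∀ k, E1 E k → ℝ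
  | 0 => fun _ => c
  | k + 1 => Nm (k + 1)

/-- distance -/
def ds1 (Ds : ∀ k, E k → E k → ℝ) : ∀ k, E1 E k → E1 E k → ℝ
  | 0 => fun _ _ => 0
  | k + 1 => Ds (k + 1)

/-- the maps -/
def phi1 (Φ₀ : ℝ → ℝ → E 1) (Φ : ∀ k, ℝ → ℝ → E k → E (k + 1)) :
    ∀ k, ℝ → ℝ → E1 E k → E1 E (k + 1)
  | 0 => fun ν z _ => Φ₀ ν z
  | k + 1 => Φ (k + 1)

/-- the flow functions -/
def f1 (f₀ : ℝ → ℝ → ℝ) (f : ∀ k, ℝ → ℝ → E k → ℝ) : ∀ k, ℝ → ℝ → E1 E k → ℝ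
  | 0 => fun ν z _ => f₀ ν z
  | k + 1 => f (k + 1)

/-- **a flow with a special first step** -/
theorem of_first {Nm : ∀ k, E k → ℝ} {Ds : ∀ k, E k → E k → ℝ}
    {Φ : ∀ k, ℝ → ℝ → E k → E (k + 1)} {f g : ∀ k, ℝ → ℝ → E k → ℝ} {κ η ζ M P ρ : ℝ}
    {c : ℝ} (hc : 0 ≤ c) {Φ₀ : ℝ → ℝ → E 1} {f₀ g₀ : ℝ → ℝ → ℝ}
    (hN : ∀ k R, 0 ≤ Nm k R) (hD : ∀ k R R', 0 ≤ Ds k R R')
    (h0 : OneStep (fun _ : PUnit.{u + 1} => c) (Nm 1) (fun _ _ => 0) (Ds 1) (fun ν z _ => Φ₀ ν z)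
      (fun ν z _ => f₀ ν z) (fun ν z _ => g₀ ν z) κ η ζ M P ρ)
    (h : ∀ k, 1 ≤ k →
      OneStep (Nm k) (Nm (k + 1)) (Ds k) (Ds (k + 1)) (Φ k) (f k) (g k) κ η ζ M P ρ) :
    FlowHyp2 (E1 E) (nm1 c Nm) (ds1 Ds) (phi1 Φ₀ Φ) (f1 f₀ f) (f1 g₀ g) κ η ζ M P ρ := by
  refine of_steps ?_ ?_ ?_
  · intro k
    cases k with
    | zero => exact fun _ => hc
    | succ k => exact hN (k + 1)
  · intro k
    cases k with
    | zero => exact fun _ _ => le_rfl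
    | succ k => exact hD (k + 1)
  · intro k
    cases k with
    | zero => exact h0
    | succ k => exact h (k + 1) (by omega)

/-- **the orbit**: shooting for a flow with a special first step -/
theorem orbit {κ r M : ℝ} (hκ : 0 ≤ κ) (hκr : κ < r) (hr1 : r < 1) (hM : 0 ≤ M) :
    ∃ K ζ₀ : ℝ, 1 ≤ K ∧ 0 < ζ₀ ∧
      ∀ (L η ζ P ρ : ℝ), 1 < L → 0 ≤ η → η ≤ (1 - r) / 8 → 0 ≤ ζ → ζ ≤ ζ₀ → 0 ≤ P → 0 < ρ →
      ∃ ε₀ : ℝ, 0 < ε₀ ∧
      ∀ (E : ℕ → Type u) (Nm : ∀ k, E k → ℝ) (Ds : ∀ k, E k → E k → ℝ)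
        (Φ : ∀ k, ℝ → ℝ → E k → E (k + 1)) (f g : ∀ k, ℝ → ℝ → E k → ℝ)
        (ε : ℝ) (Φ₀ : ℝ → ℝ → E 1) (f₀ g₀ : ℝ → ℝ → ℝ),
        0 ≤ ε → ε ≤ ε₀ → (∀ k R, 0 ≤ Nm k R) → (∀ k R R', 0 ≤ Ds k R R') →
        OneStep (fun _ : PUnit.{u + 1} => ε) (Nm 1) (fun _ _ => 0) (Ds 1) (fun ν z _ => Φ₀ ν z)
          (fun ν z _ => f₀ ν z) (fun ν z _ => g₀ ν z) κ η ζ M P ρ →
        (∀ k, 1 ≤ k →
          OneStep (Nm k) (Nm (k + 1)) (Ds k) (Ds (k + 1)) (Φ k) (f k) (g k) κ η ζ M P ρ) →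
        ∃ (ν z : ℕ → ℝ) (R : ∀ k, E (k + 1)), R 0 = Φ₀ (ν 0) (z 0) ∧
          ν 1 = L * ν 0 + f₀ (ν 0) (z 0) ∧ z 1 = z 0 + g₀ (ν 0) (z 0) ∧
          (∀ k, R (k + 1) = Φ (k + 1) (ν (k + 1)) (z (k + 1)) (R k)) ∧
          (∀ k, ν (k + 2) = L * ν (k + 1) + f (k + 1) (ν (k + 1)) (z (k + 1)) (R k)) ∧
          (∀ k, z (k + 2) = z (k + 1) + g (k + 1) (ν (k + 1)) (z (k + 1)) (R k)) ∧
          (∀ k, |ν k| ≤ K * ε * r ^ k) ∧ (∀ k, |z k| ≤ K * ε * r ^ k) ∧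
          (∀ k, Nm (k + 1) (R k) ≤ ε * r ^ (k + 1)) := by
  obtain ⟨K, ζ₀, hK, hζ₀, H⟩ := shooting2.{u} κ r M hκ hκr hr1 hM
  refine ⟨K, ζ₀, hK, hζ₀, fun L η ζ P ρ hL hη hη' hζ hζ' hP hρ => ?_⟩
  obtain ⟨ε₀, hε₀, H⟩ := H L η ζ P ρ hL hη hη' hζ hζ' hP hρ
  refine ⟨ε₀, hε₀, ?_⟩
  intro E Nm Ds Φ f g ε Φ₀ f₀ g₀ hε hεε hN hD h0 h
  obtain ⟨ν, z, R, hR0, hR, hν, hz, bν, bz, bR⟩ := H (E1 E) (nm1 ε Nm) (ds1 Ds) (phi1 Φ₀ Φ)
    (f1 f₀ f) (f1 g₀ g) (of_first hε hN hD h0 h) ε hε hεε PUnit.unit le_rfl le_rfl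
  exact ⟨ν, z, fun k => R (k + 1), hR 0, hν 0, hz 0, fun k => hR (k + 1), fun k => hν (k + 1),
    fun k => hz (k + 1), bν, bz, fun k => bR (k + 1)⟩

end first

end Crest.Agent.R165.Sht3x541
end

-- ▼ part R165/PStep4_417

/-!
# Row 165 (S0250), block G4: one step of the plane flow as a `OneStep` of 541

* `nSt_nm`, `nSt_ds`, `coef_le` : the bounds of one step, in the state space
* `oneStep` : `OneStep` with `Nm = nk.toReal`;  `oneStep_a` : with `Nm = nk.toReal / a²`,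
  `M = L cM + cK`
* `sys_nSt` : one step of a system;  `orbit_eq` : a system along an orbit which starts at `n0`
-/

set_option autoImplicit false
set_option linter.unusedSectionVars false

noncomputable section

open scoped ENNReal
open Crest.Agent.R165.Gr0x606 Crest.Agent.R165.Gr1x606 Crest.Agent.R165.Latx683
open Crest.Agent.R165.PNormx417 Crest.Agent.R165.GDefx387 Crest.Agent.R165.GeOpsx337
open Crest.Agent.R165.KFlowx337 Crest.Agent.R165.Packx915 Crest.Agent.R165.Bridgex915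
open Crest.Agent.R165.NSumx915 Crest.Agent.R165.KStepx892 Crest.Agent.R165.ExpGx337
open Crest.Agent.R165.PlaneModesx901 Crest.Agent.R165.PlaneLocx901 Crest.Agent.R165.PlaneCovx901
open Crest.Agent.R165.PlaneSumx901 Crest.Agent.R165.PlaneCoefx901 Crest.Agent.R165.W2x812
open Crest.Agent.R165.Locx901 Crest.Agent.R165.GBulkx417
open Crest.Agent.R165.Sht3x541

namespace Crest.Agent.R165.PStepx417

open Crest.Agent.R165.PStepIdx901 (LocG baseG QlG PlS alQ beQ stK stH stA stN stQ lcG)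

section step

variable {a : ℝ} {L r r' R R' : ℕ} {Γ : ℝ≥0∞} {S : Cov (Fld ℤ)} {g : Fld ℤ → ℝ≥0∞}
  {p0 p1 q2 q0 C : ℝ≥0∞} {Cb κ : ℝ}

/-- size of the new state -/
theorem nSt_nm (h : PStep a L r r' R R' Γ S g p0 p1 q2 q0 C Cb) (hS : SymS S) (hκ0 : 0 ≤ κ)
    (hκ : κe r r' Γ p0 p1 q2 q0 C ≤ ENNReal.ofReal κ) {n z s : ℝ} (x : St a r R Γ)
    (hn : |n| ≤ s) (hz : |z| ≤ s) (hx : Nmx x ≤ s) (hs : s ≤ cρ a Cb L Γ) :
    (nSt (r' := r') r R R' hS h.hRR n z x).Q = nQ r R R' S n z x.Q ∧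
      Nmx (nSt (r' := r') r R R' hS h.hRR n z x) ≤ κ * Nmx x + (cQ a Cb L Γ).toReal * s ^ 2 := by
  have hs0 : 0 ≤ s := (abs_nonneg _).trans hn
  have h1 := nk_nQ_le h hS x hs0 hn hz hx (small_of h.Γ_top hs)
  have hQ : cQ a Cb L Γ = ENNReal.ofReal (cQ a Cb L Γ).toReal :=
    (ENNReal.ofReal_toReal (cQ_top h.Γ_top)).symm
  have h2 : nk a r' Γ (nQ r R R' S n z x.Q) ≤
      ENNReal.ofReal (κ * Nmx x + (cQ a Cb L Γ).toReal * s ^ 2) := by
    refine h1.trans ?_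
    rw [ENNReal.ofReal_add (mul_nonneg hκ0 (Nmx_nonneg x))
      (mul_nonneg ENNReal.toReal_nonneg (sq_nonneg s)), ENNReal.ofReal_mul hκ0,
      ENNReal.ofReal_mul ENNReal.toReal_nonneg, ← hQ, ENNReal.ofReal_pow hs0]
    gcongr
  have h3 : nk a r' Γ (nQ r R R' S n z x.Q) ≠ ∞ := ne_top_of_le_ne_top ENNReal.ofReal_ne_top h2
  have h4 : (nSt (r' := r') r R R' hS h.hRR n z x).Q = nQ r R R' S n z x.Q := nSt_Q h3
  refine ⟨h4, ?_⟩
  unfold Nmx
  rw [h4]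
  refine ENNReal.toReal_le_of_le_ofReal ?_ h2
  exact add_nonneg (mul_nonneg hκ0 (Nmx_nonneg x))
    (mul_nonneg ENNReal.toReal_nonneg (sq_nonneg s))

/-- distance of the new states -/
theorem nSt_ds (h : PStep a L r r' R R' Γ S g p0 p1 q2 q0 C Cb) (hS : SymS S) (hκ0 : 0 ≤ κ)
    (hκ : κe r r' Γ p0 p1 q2 q0 C ≤ ENNReal.ofReal κ) {n z n' z' s : ℝ} (x y : St a r R Γ)
    (hn : |n| ≤ s) (hz : |z| ≤ s) (hx : Nmx x ≤ s) (hn' : |n'| ≤ s) (hz' : |z'| ≤ s)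
    (hy : Nmx y ≤ s) (hs : s ≤ cρ a Cb L Γ) :
    Dsx (nSt (r' := r') r R R' hS h.hRR n z x) (nSt (r' := r') r R R' hS h.hRR n' z' y) ≤
      κ * Dsx x y + (cL a Cb L Γ).toReal * s * (|n - n'| + |z - z'| + Dsx x y) := by
  have hs0 : 0 ≤ s := (abs_nonneg _).trans hn
  have hD := Dsx_nonneg x y
  set d := |n - n'| + |z - z'| + Dsx x y with hd
  have hd1 : |n - n'| ≤ d := by rw [hd]; have := abs_nonneg (z - z'); linarith
  have hd2 : |z - z'| ≤ d := by rw [hd]; have := abs_nonneg (n - n'); linarith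
  have hd3 : Dsx x y ≤ d := by
    rw [hd]; have := abs_nonneg (n - n'); have := abs_nonneg (z - z'); linarith
  have hd0 : 0 ≤ d := hD.trans hd3
  have h1 := nk_nQ_lip h hS x y hs0 hn hz hx hn' hz' hy hd0 hd1 hd2 hd3
    (small_of h.Γ_top hs)
  have hQ : cL a Cb L Γ = ENNReal.ofReal (cL a Cb L Γ).toReal :=
    (ENNReal.ofReal_toReal (cL_top h.Γ_top)).symm
  unfold Dsx
  rw [(nSt_nm h hS hκ0 hκ x hn hz hx hs).1, (nSt_nm h hS hκ0 hκ y hn' hz' hy hs).1]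
  refine ENNReal.toReal_le_of_le_ofReal ?_ (h1.trans ?_)
  · exact add_nonneg (mul_nonneg hκ0 hD)
      (mul_nonneg (mul_nonneg ENNReal.toReal_nonneg hs0) hd0)
  · show _ ≤ ENNReal.ofReal (κ * Dsx x y + (cL a Cb L Γ).toReal * s * d)
    rw [ENNReal.ofReal_add (mul_nonneg hκ0 hD)
      (mul_nonneg (mul_nonneg ENNReal.toReal_nonneg hs0) hd0), ENNReal.ofReal_mul hκ0,
      ENNReal.ofReal_mul (mul_nonneg ENNReal.toReal_nonneg hs0),
      ENNReal.ofReal_mul ENNReal.toReal_nonneg, ← hQ]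
    gcongr

/-- the coefficients of one step, with the constants of 901 -/
theorem coef_le2 (h : PStep a L r r' R R' Γ S g p0 p1 q2 q0 C Cb) {Q : Fam} (hs : PlS Q)
    (hf : nk a r Γ Q ≠ ∞) :
    |(r' : ℝ) * alQ S r Q| ≤ L * (PlaneCoefx901.cM / a ^ 2) * (nk a r Γ Q).toReal ∧
      |beQ S r Q| ≤ PlaneCoefx901.cK / a ^ 2 * (nk a r Γ Q).toReal := by
  have hN : 0 ≤ (nk a r Γ Q).toReal := ENNReal.toReal_nonneg
  obtain ⟨h1, h2⟩ := coef_real h.toPHyp hs hN (ENNReal.ofReal_toReal hf).ge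
  have e1 : alQ S r Q = alK r fun U => conv S (cof Q U) := rfl
  have e2 : beQ S r Q = beK r fun U => conv S (cof Q U) := rfl
  rw [e1, e2]
  refine ⟨?_, h2⟩
  rw [abs_mul, Nat.abs_cast, h.ratio]
  push_cast
  have h3 := mul_le_mul_of_nonneg_left h1 (Nat.cast_nonneg (α := ℝ) L)
  linarith

/-- the coefficients of one step -/
theorem coef_le (h : PStep a L r r' R R' Γ S g p0 p1 q2 q0 C Cb) {Q : Fam} (hs : PlS Q)
    (hf : nk a r Γ Q ≠ ∞) :
    |(r' : ℝ) * alQ S r Q| ≤ cM2 a L * (nk a r Γ Q).toReal ∧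
      |beQ S r Q| ≤ cM2 a L * (nk a r Γ Q).toReal := by
  have hM := cM_nonneg
  have hK := cK_nonneg
  have hN : 0 ≤ (nk a r Γ Q).toReal := ENNReal.toReal_nonneg
  obtain ⟨h1, h2⟩ := coef_le2 h hs hf
  unfold cM2
  constructor
  · have h4 : 0 ≤ PlaneCoefx901.cK / a ^ 2 * (nk a r Γ Q).toReal := by positivity
    nlinarith
  · have h4 : 0 ≤ L * (PlaneCoefx901.cM / a ^ 2) * (nk a r Γ Q).toReal := by positivity
    nlinarith

/-- **one step of the plane flow** -/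
theorem oneStep (h : PStep a L r r' R R' Γ S g p0 p1 q2 q0 C Cb) (hS : SymS S) (hκ0 : 0 ≤ κ)
    (hκ : κe r r' Γ p0 p1 q2 q0 C ≤ ENNReal.ofReal κ) :
    OneStep (E := St a r R Γ) (E' := St a r' R' Γ) Nmx Nmx Dsx Dsx (nSt r R R' hS h.hRR)
      (fun _ _ x => (r' : ℝ) * alQ S r x.Q) (fun _ _ x => beQ S r x.Q) κ 0 0 (cM2 a L)
      (cP2 a Cb L Γ) (cρ a Cb L Γ) where
  nm ν z x s hν hz hx hs := by
    have h1 := (nSt_nm h hS hκ0 hκ x hν hz hx hs).2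
    have h2 : (cQ a Cb L Γ).toReal * s ^ 2 ≤ cP2 a Cb L Γ * s ^ 2 :=
      mul_le_mul_of_nonneg_right (le_add_of_nonneg_right ENNReal.toReal_nonneg) (sq_nonneg s)
    rw [zero_mul, add_zero]
    exact h1.trans (by linarith)
  ds ν z x ν' z' y s hν hz hx hν' hz' hy hs := by
    have h1 := nSt_ds h hS hκ0 hκ x y hν hz hx hν' hz' hy hs
    have hs0 : 0 ≤ s := (abs_nonneg _).trans hν
    have hD := Dsx_nonneg x y
    have h2 : (cL a Cb L Γ).toReal * s * (|ν - ν'| + |z - z'| + Dsx x y) ≤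
        cP2 a Cb L Γ * s * (|ν - ν'| + |z - z'| + Dsx x y) := by
      refine mul_le_mul_of_nonneg_right (mul_le_mul_of_nonneg_right
        (le_add_of_nonneg_left ENNReal.toReal_nonneg) hs0) (by positivity)
    rw [zero_mul, add_zero]
    exact h1.trans (by linarith)
  f_nm ν z x s hν hz hx hs := by
    have h1 := (coef_le h x.sym x.fin).1
    have h2 : 0 ≤ cP2 a Cb L Γ * s * (|ν| + |z|) + cP2 a Cb L Γ * s ^ 2 := by
      have := cP2_nonneg a Cb L Γ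
      have hs0 : 0 ≤ s := (abs_nonneg _).trans hν
      positivity
    rw [zero_add]
    refine h1.trans ?_
    show cM2 a L * Nmx x ≤ _
    linarith
  f_ds ν z x ν' z' y s hν hz hx hν' hz' hy hs := by
    have h1 := (coef_le h (plS_sub x.sym y.sym) (ds_fin x y)).1
    have h2 : 0 ≤ cP2 a Cb L Γ * s * (|ν - ν'| + |z - z'|) := by
      have := cP2_nonneg a Cb L Γ
      have hs0 : 0 ≤ s := (abs_nonneg _).trans hν
      positivity
    rw [← mul_sub, ← alQ_sub, zero_add]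
    refine h1.trans ?_
    show cM2 a L * Dsx x y ≤ _
    linarith
  g_nm ν z x s hν hz hx hs := by
    have h1 := (coef_le h x.sym x.fin).2
    have h2 : 0 ≤ cP2 a Cb L Γ * s * (|ν| + |z|) + cP2 a Cb L Γ * s ^ 2 := by
      have := cP2_nonneg a Cb L Γ
      have hs0 : 0 ≤ s := (abs_nonneg _).trans hν
      positivity
    rw [zero_add]
    refine h1.trans ?_
    show cM2 a L * Nmx x ≤ _
    linarith
  g_ds ν z x ν' z' y s hν hz hx hν' hz' hy hs := by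
    have h1 := (coef_le h (plS_sub x.sym y.sym) (ds_fin x y)).2
    have h2 : 0 ≤ cP2 a Cb L Γ * s * (|ν - ν'| + |z - z'|) := by
      have := cP2_nonneg a Cb L Γ
      have hs0 : 0 ≤ s := (abs_nonneg _).trans hν
      positivity
    rw [← beQ_sub, zero_add]
    refine h1.trans ?_
    show cM2 a L * Dsx x y ≤ _
    linarith

/-- linear constant in norm units -/
def cM3 (L : ℕ) : ℝ := L * PlaneCoefx901.cM + PlaneCoefx901.cK

theorem cM3_nonneg (L : ℕ) : 0 ≤ cM3 L := by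
  have := cM_nonneg; have := cK_nonneg; unfold cM3; positivity

theorem cM2_mul {a : ℝ} (ha : 0 < a) (L : ℕ) : cM2 a L * a ^ 2 = cM3 L := by
  unfold cM2 cM3
  field_simp

/-- **one step of the plane flow, norms divided by `a²`** -/
theorem oneStep_a (h : PStep a L r r' R R' Γ S g p0 p1 q2 q0 C Cb) (hS : SymS S) (hκ0 : 0 ≤ κ)
    (hκ : κe r r' Γ p0 p1 q2 q0 C ≤ ENNReal.ofReal κ) (ha : 1 ≤ a) :
    OneStep (E := St a r R Γ) (E' := St a r' R' Γ) (fun x => Nmx x / a ^ 2)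
      (fun x => Nmx x / a ^ 2) (fun x y => Dsx x y / a ^ 2) (fun x y => Dsx x y / a ^ 2)
      (nSt r R R' hS h.hRR) (fun _ _ x => (r' : ℝ) * alQ S r x.Q) (fun _ _ x => beQ S r x.Q) κ 0 0
      (cM3 L) (cP2 a Cb L Γ * (a ^ 2) ^ 2) (cρ a Cb L Γ / a ^ 2) := by
  have h1 := (oneStep h hS hκ0 hκ).scale (fun x => Nmx_nonneg x) (fun x y => Dsx_nonneg x y)
    le_rfl le_rfl (cP2_nonneg a Cb L Γ) (c := a ^ 2) (one_le_pow₀ ha)
  rw [cM2_mul h.a_pos, zero_div] at h1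
  exact h1


end step

/-! ### orbits which start at the index `1` -/

section orbit

variable {a : ℝ} {L : ℕ} {r R : ℕ → ℕ} {Γ : ℝ≥0∞} {S : ℕ → Cov (Fld ℤ)} {Cb κ : ℝ}

/-- **a system along an orbit in norm units, from the index `1` on** -/
theorem orbit_eq (h : PSeq a L r R Γ S Cb κ) (D : Sys Fc (Fld ℤ))
    (hv : D.vac = vac0 (Fld ℤ)) (he : ∀ k, D.e k = PStepIdx901.eP (r k))
    (hnear : ∀ k, D.near k = fun a b => fd a b ≤ R k) (hSk : ∀ k, D.S k = S k)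
    {ν z : ℕ → ℝ} {x : ∀ k, St a (r (k + 1)) (R (k + 1)) Γ}
    (hK : D.K 1 = stK (ν 1 / r 1) (z 1) (x 0).Q)
    (hx : ∀ k, x (k + 1) = Phi h (k + 1) (ν (k + 1)) (z (k + 1)) (x k))
    (hν : ∀ k, ν (k + 2) = L * ν (k + 1) + ff a r R Γ S (k + 1) (ν (k + 1)) (z (k + 1)) (x k))
    (hz : ∀ k, z (k + 2) = z (k + 1) + gg a r R Γ S (k + 1) (ν (k + 1)) (z (k + 1)) (x k))
    (hs : ∀ k, |ν (k + 1)| ≤ cρ a Cb L Γ ∧ |z (k + 1)| ≤ cρ a Cb L Γ ∧
      Nmx (x k) ≤ cρ a Cb L Γ) (k : ℕ) :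
    D.K (k + 1) = stK (ν (k + 1) / r (k + 1)) (z (k + 1)) (x k).Q := by
  induction k with
  | zero => exact hK
  | succ k ih =>
    rw [hx, hν, hz]
    exact sys_Phi h D (k + 1) hv (he _) (hnear _) (hnear _) (hSk _) ih (hs k).1 (hs k).2.1
      (hs k).2.2 le_rfl

end orbit

end Crest.Agent.R165.PStepx417
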