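import Crest.Agent.R165.Out_683
import Crest.Agent.R165.J4K0B_126
import Crest.Agent.R165.PStep4_417

-- ▼ part R165/InitDef_541
section

/-!
# Row 165 (S0250), P7: the explicit first order part of the initial activities (helper541)

* `trF Y a U`   : the family of the translates of the anchored support `Y`, value `a u` at the anchor
* `Kp` : the response to the bond coupling (shapes of the nearest neighbour pairs),
  `Kz` : the response to the field strength;  `Kex p z = p • Kp + z • Kz`
* `beI`, `zzI` : the physical parameters as linear functions of the flow variables `(ν, z)` of step 0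
-/

set_option autoImplicit false

noncomputable section

open scoped ENNReal
open Crest.ProbabilityR.IsingModel
open Crest.Agent.R165.Gr0x606 Crest.Agent.R165.Gr1x606 Crest.Agent.R165.Latx683
open Crest.Agent.R165.GDefx387 Crest.Agent.R165.GSysx387
open Crest.Agent.R165.PlaneModesx901 Crest.Agent.R165.Bkgx683 Crest.Agent.R165.PEndx683
open Crest.Agent.R165.J4Geox126 Crest.Agent.R165.J4Defx653

namespace Crest.Agent.R165.Initx541

/-- the family of the translates of an anchored support -/
def trF {A : Type*} [AddCommMonoid A] (Y : Finset Fc) (a : Fc → A) (U : Finset Fc) : A :=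
  ∑ u ∈ U, if Y.image (fz u) = U then a u else 0

/-- the algebraic frame of the plane -/
abbrev frP : J4K0x126.Fr ℤ (Ge (Fld ℤ)) := frG LinearMap.id

/-- the bilinear of the bond `(u, j)` -/
def bu (j : Fin 2) (u : Fc) : Ge (Fld ℤ) := frP.b (u, j)

/-- response to the bond coupling: `THETA` of the two nearest neighbour shapes, without constants -/
def Kp (U : Finset Fc) : Ge (Fld ℤ) :=
  (-(2 * xc)) • ∑ j : Fin 2, trF (Yf (pr (0, j))) (bu j) U

/-- response to the field strength -/
def Kz (U : Finset Fc) : Ge (Fld ℤ) :=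
  trF {0} frP.I4 U + xc • ∑ j : Fin 2, trF (faE ((0 : ℤ × ℤ), j)) (bu j) U

/-- **the explicit first order part** -/
def Kex (p z : ℝ) (U : Finset Fc) : Ge (Fld ℤ) := p • Kp U + z • Kz U

/-! ### the physical parameters in terms of the flow variables of step `0` -/

/-- the coupling `p = (β - β_c) J` in terms of `ν = r₀ ν̂` -/
def pI (r : ℕ) (ν : ℝ) : ℝ := ν / (4 * xc * r)

/-- the field strength -/
def zzI (r : ℕ) (ν z : ℝ) : ℝ := 2 * pI r ν - z / xc

/-- the inverse temperature -/
def beI (J : ℝ) (r : ℕ) (ν : ℝ) : ℝ := criticalBeta J + pI r ν / J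

end Crest.Agent.R165.Initx541
end
end

-- ▼ part R165/InitDat_541

/-!
# Row 165 (S0250), P7: the data of the initial activities of the plane (helper541)

* `Kpl J lam R V l k0 p z` : the initial activities of the plane at `β = β_c + p / J`
* `InitData a r R Γ C ρ K Kc` : everything that the first step of the flow needs about the family
  `K lam p z` (to be proved for `Kpl` by 871/682/126/950)
-/

set_option autoImplicit false

noncomputable section

open scoped ENNReal
open Crest.ProbabilityR.IsingModel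
open Crest.Agent.R165.Gr0x606 Crest.Agent.R165.Gr1x606 Crest.Agent.R165.Latx683
open Crest.Agent.R165.GDefx387 Crest.Agent.R165.GSysx387
open Crest.Agent.R165.PlaneModesx901 Crest.Agent.R165.Bkgx683 Crest.Agent.R165.PEndx683
open Crest.Agent.R165.J4Geox126 Crest.Agent.R165.J4Defx653
open Crest.Agent.R165.PStepx417 Crest.Agent.R165.PStepIdx901

namespace Crest.Agent.R165.Initx541

/-- the initial activities of the plane at `β = β_c + p / J` (= `(plF c (mpar ..)).K 0`) -/
def Kpl (J : ℝ) (R : ℕ) (V : Finset (ℤ × ℤ) → ℝ) (l k0 : ℕ) (lam p z : ℝ) : Fam :=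
  Bg.pl.K0 (mpar J lam R V (criticalBeta J + p / J) z) LinearMap.id (noSrc ℤ (Ge (Fld ℤ))) l k0

/-- **the data of the initial activities**: `K lam p z = Kex p z + Kc p + rest`, `Kc` constants,
`rest = O(|lam| + s²)` with its Lipschitz bound -/
structure InitData (a : ℝ) (r R : ℕ) (Γ : ℝ≥0∞) (C ρ : ℝ) (K : ℝ → ℝ → ℝ → Fam)
    (Kc : ℝ → Fam) : Prop where
  C_nonneg : 0 ≤ C
  ρ_pos : 0 < ρ
  sym : ∀ lam p z, PlS (K lam p z)
  conn : ∀ lam p z U, K lam p z U ≠ 0 → Packx915.Conn fd R U
  emp : ∀ lam p z, K lam p z ∅ = 0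
  cst : ∀ p U, ∃ c : ℝ, Kc p U = c • (1 : Ge (Fld ℤ))
  cconn : ∀ p U, Kc p U ≠ 0 → Packx915.Conn fd R U
  cemp : ∀ p, Kc p ∅ = 0
  size : ∀ lam p z s, |lam| ≤ s → |p| ≤ s → |z| ≤ s → s ≤ ρ →
    nk a r Γ (K lam p z) ≤ ENNReal.ofReal (C * (|lam| + |p| + |z|))
  lip : ∀ lam p z p' z' s, |lam| ≤ s → |p| ≤ s → |z| ≤ s → |p'| ≤ s → |z'| ≤ s → s ≤ ρ →
    nk a r Γ (fun U => K lam p z U - K lam p' z' U) ≤
      ENNReal.ofReal (C * (|p - p'| + |z - z'|))
  rest : ∀ lam p z s, |lam| ≤ s → |p| ≤ s → |z| ≤ s → s ≤ ρ →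
    nk a r Γ (fun U => K lam p z U - Kex p z U - Kc p U) ≤ ENNReal.ofReal (C * (|lam| + s ^ 2))
  rlip : ∀ lam p z p' z' s, |lam| ≤ s → |p| ≤ s → |z| ≤ s → |p'| ≤ s → |z'| ≤ s → s ≤ ρ →
    nk a r Γ (fun U => (K lam p z U - Kex p z U - Kc p U) -
        (K lam p' z' U - Kex p' z' U - Kc p' U)) ≤
      ENNReal.ofReal (C * (|lam| + s) * (|p - p'| + |z - z'|))

end Crest.Agent.R165.Initx541
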