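import Crest.Agent.R165.P7_337
import Crest.Agent.R165.Const_891
import Crest.Agent.R165.Init_541
import Crest.Agent.R165.PStep2_417
import Crest.Agent.R165.ConstA_729
import Crest.Agent.R165.ANorm_915
import Crest.Agent.R165.Out_683
import Crest.Agent.R165.Init0_541
import Crest.Agent.R165.InitN_682
import Crest.Agent.R165.Bkg_683
import Crest.Agent.R165.J4K0B_126
import Crest.Agent.R165.InitDat_541
import Crest.Agent.R165.DomAc_117
import Crest.Agent.R165.J4K0Sym_126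
import Crest.Agent.R165.Red_541

-- ▼ part R165/Init1_337
section

/-!
# Row 165 (S0250), block G, (P7): the choice of the constants for the step `0` (helper337)

* `p7L_of` : **(P7)** from the inequalities of the step `0` with a linear influence
  `ζ ≥ Cz Γ / r₁` (then `k0` is chosen after `p`, `Γ` so that `Cz Γ / r₁ ≤ ζ₀(p)`)
-/

set_option autoImplicit false

noncomputable section

open scoped ENNReal
open Filter Topology
open Crest.Agent.R165.GSysx387 Crest.Agent.R165.PEndx683 Crest.Agent.R165.Constx891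
open Crest.Agent.R165.W2x812 (BkReg)

namespace Crest.Agent.R165.P7x337

/-- **(P7)** from the step `0` -/
theorem p7L_of {J : ℝ} {R : ℕ} {V : Finset (ℤ × ℤ) → ℝ}
    (h : ∀ Cb : ℝ, BkReg Cb → ∃ (Cz : ℝ) (N₁ : ℕ), ∀ c : Cst, 4 ≤ c.p → 3 ≤ c.Γ → 1 ≤ c.A0 →
      Pl c Cb → (∀ n, N₁ ≤ rr c.p c.k0 n) →
      ∀ ζ : ℝ, 0 < ζ → Cz * c.Γ / (rr c.p c.k0 1 : ℕ) ≤ ζ → Init J R V c ζ (Mc c.p)) :
    PTopx386.P7L J R V := by
  obtain ⟨Cb, -, hreg, hpl⟩ := exists_pl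
  obtain ⟨Cz, N₁, h⟩ := h Cb hreg
  have hsh := fun p : ℕ => Sht3x541.orbit.{0} (κ := 1 / 8) (r := 1 / 4) (M := Mc p) (by norm_num)
    (by norm_num) (by norm_num) (PStepx417.cM3_nonneg _)
  choose K ζ₀ hK hζ₀ hsh using hsh
  have h1 : EvC fun c => ∀ n, max N₁ ⌈|Cz * c.Γ| / ζ₀ c.p⌉₊ ≤ rr c.p c.k0 n :=
    ev_rr_ge fun p Γ => max N₁ ⌈|Cz * Γ| / ζ₀ p⌉₊
  refine (hpl.and h1).mono fun c hc => ?_
  obtain ⟨⟨h2, h3, h4, -, -, h5⟩, h6⟩ := hc
  have hz := hζ₀ c.p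
  have h7 : Cz * c.Γ / (rr c.p c.k0 1 : ℕ) ≤ ζ₀ c.p := by
    have hr : (0 : ℝ) < (rr c.p c.k0 1 : ℕ) := Nat.cast_pos.2 (rr_pos _ _ _)
    rw [div_le_iff₀ hr]
    have h8 : |Cz * c.Γ| / ζ₀ c.p ≤ (rr c.p c.k0 1 : ℕ) :=
      (Nat.le_ceil _).trans (Nat.cast_le.2 ((le_max_right _ _).trans (h6 1)))
    rw [div_le_iff₀ hz] at h8
    calc Cz * c.Γ ≤ |Cz * c.Γ| := le_abs_self _
      _ ≤ ζ₀ c.p * (rr c.p c.k0 1 : ℕ) := by rw [mul_comm (ζ₀ c.p)]; exact h8
  exact glue hreg (by omega) h4 h5 (hK c.p) hz rfl (hsh c.p)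
    (h c h2 h3 h4 h5 (fun n => (le_max_left _ _).trans (h6 n)) _ hz h7)

end Crest.Agent.R165.P7x337
end
end

-- ▼ part R165/P7L_337
section

/-!
# Row 165 (S0250), block G, (P7): the shooting leaf `P7L` (helper337)

* `init_of` : `Init` (step 0) for fixed constants from 541's `oneStep0`
* `p7L_of_data` : `P7L` from the data of the initial activities and the bound of the explicit part
-/

set_option autoImplicit false

noncomputable section

open scoped ENNReal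
open Filter Topology
open Crest.ProbabilityR.IsingModel
open Crest.Agent.R165.Gr0x606 Crest.Agent.R165.Gr1x606 Crest.Agent.R165.GeOpsx337
open Crest.Agent.R165.Latx683 Crest.Agent.R165.GDefx387 Crest.Agent.R165.GSysx387
open Crest.Agent.R165.KFlowx337 Crest.Agent.R165.Bkgx683 Crest.Agent.R165.PEndx683
open Crest.Agent.R165.Outx683 Crest.Agent.R165.W2x812 Crest.Agent.R165.PStepx417
open Crest.Agent.R165.Initx541

namespace Crest.Agent.R165.P7x337

theorem one_le_Mc (p : ℕ) : 1 ≤ Mc p := by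
  unfold Mc cM3 PlaneCoefx901.cM PlaneCoefx901.cK
  have : (1 : ℝ) ≤ 2 ^ p := one_le_pow₀ (by norm_num)
  push_cast
  nlinarith

/-- `Init` for fixed constants -/
theorem init_of {J : ℝ} (hJ : 0 < J) {R : ℕ} {V : Finset (ℤ × ℤ) → ℝ} {c : Cst} {Cb : ℝ}
    (hp : 4 ≤ c.p) (hΓ : 3 ≤ c.Γ) (hA : 1 ≤ c.A0) (hS : Pl c Cb) (hr : 16 ≤ rr c.p c.k0 0)
    {CK ρ : ℝ} {Kc : ℝ → Fam}
    (D : InitData c.A0 (rr c.p c.k0 0) (nearR c.p c.k0 0) (ENNReal.ofReal c.Γ) CK ρ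
      (Kpl J R V c.p c.k0) Kc) {Ce : ℝ} (hCe : 0 ≤ Ce)
    (hE : ExB c.A0 (rr c.p c.k0 0) (rr c.p c.k0 1) (ENNReal.ofReal c.Γ) (SC c 0) Ce) {ζ : ℝ}
    (hζ : 3 * Ce * c.Γ / (rr c.p c.k0 1 : ℕ) ≤ ζ) : Init J R V c ζ (Mc c.p) := by
  obtain ⟨g, p0, p1, q2, q0, C, hk, hκ⟩ := hS.step 0
  have hR2 : 2 ≤ nearR c.p c.k0 0 := by
    unfold nearR
    have h1 : 16 ≤ rr c.p c.k0 (0 + 1) := hr.trans (rr_mono _ _ (by omega))
    omega
  have hζ' : 3 * (ENNReal.ofReal c.Γ).toReal * Ce / (rr c.p c.k0 1 : ℕ) ≤ ζ := by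
    rw [ENNReal.toReal_ofReal (by linarith)]
    refine le_trans (le_of_eq ?_) hζ
    ring
  obtain ⟨N, P, ρ', hN, hP, hρ', hall⟩ := oneStep0 hk (hS.sym 0) (by norm_num) hκ hA
    (by omega) hR2 D hCe hE (one_le_Mc c.p) hζ'
  refine ⟨N, P, ρ', ρ', 1 / J + 5 / 2 + 3 * CK, by linarith, hP, hρ', hρ', ?_,
    fun ν z => beI J (rr c.p c.k0 0) ν, fun ν z => zzI (rr c.p c.k0 0) ν z, ?_, ?_⟩
  · have := D.C_nonneg
    positivity
  · intro ν z
    have h1 := pI_abs (r := rr c.p c.k0 0) (by omega) ν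
    have h2 := zzI_abs (r := rr c.p c.k0 0) (by omega) ν z
    have h3 : |beI J (rr c.p c.k0 0) ν - criticalBeta J| ≤ 1 / J * |ν| := by
      rw [beI, add_sub_cancel_left, abs_div, abs_of_pos hJ, div_mul_eq_mul_div, one_mul]
      gcongr
    have h4 := D.C_nonneg
    have h5 : 0 ≤ 1 / J := by positivity
    have h6 := abs_nonneg ν
    have h7 := abs_nonneg z
    nlinarith [mul_nonneg h4 h6, mul_nonneg h4 h7, mul_nonneg h5 h7]
  · intro lam hlam
    obtain ⟨h1, h2⟩ := hall lam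
    refine ⟨_, _, _, h1, fun ν z hν hz => ?_⟩
    obtain ⟨h3, h4⟩ := h2 hlam.le ν z hν hz
    constructor
    · have h5 := h4 (plF c (mpar J lam R V (beI J (rr c.p c.k0 0) ν) (zzI (rr c.p c.k0 0) ν z)))
        rfl rfl (bulk_eP c.p c.k0 0) rfl rfl rfl
      rw [h5]
      push_cast
      rfl
    · have h5 : nk c.A0 (rr c.p c.k0 0) (ENNReal.ofReal c.Γ)
          (Kpl J R V c.p c.k0 lam (pI (rr c.p c.k0 0) ν) (zzI (rr c.p c.k0 0) ν z)) ≤
          ENNReal.ofReal ((1 / J + 5 / 2 + 3 * CK) * (|lam| + |ν| + |z|)) := by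
        refine h3.trans (ENNReal.ofReal_le_ofReal ?_)
        have h6 : 0 ≤ 1 / J := by positivity
        refine mul_le_mul_of_nonneg_right (by linarith) (by positivity)
      exact h5

/-- **`P7L`** from the data of the initial activities and the bound of the explicit part -/
theorem p7L_of_data {J : ℝ} (hJ : 0 < J) {R : ℕ} {V : Finset (ℤ × ℤ) → ℝ}
    (hD : ∀ (l k0 : ℕ) (a : ℝ) (Γ : ℝ≥0∞), 1 ≤ a → 3 ≤ Γ → Γ ≠ ∞ → 6 ≤ rr l k0 0 →
      1 ≤ nearR l k0 0 → ∃ (CK ρ : ℝ) (Kc : ℝ → Fam),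
        InitData a (rr l k0 0) (nearR l k0 0) Γ CK ρ (Kpl J R V l k0) Kc)
    (hE : ∀ C : ℝ, BkReg C → ∃ (C' : ℝ) (R₁ : ℕ), 0 ≤ C' ∧ ∀ (a : ℝ) (r r' : ℕ) (Γ : ℝ≥0∞)
      (S : Cov (Fld ℤ)) (p z : ℝ), 1 ≤ a → 8 ≤ r → R₁ ≤ r' → 1 ≤ Γ → Γ ≠ ∞ →
      nk a r' Γ (PStepIdx901.QlG S r (Kex p z)) ≤
        Γ * ENNReal.ofReal (C' * a ^ 2 * (|p| + |z|) / r')) :
    PTopx386.P7L J R V := by
  refine p7L_of fun Cb hreg => ?_
  obtain ⟨Ce, R₁, hCe, hE⟩ := hE Cb hreg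
  refine ⟨3 * Ce, max 16 R₁, fun c hp hΓ hA hS hrr ζ hζ0 hζ => ?_⟩
  have h16 : 16 ≤ rr c.p c.k0 0 := (le_max_left _ _).trans (hrr 0)
  have hG : 3 ≤ ENNReal.ofReal c.Γ := by
    rw [show (3 : ℝ≥0∞) = ENNReal.ofReal 3 by simp]
    exact ENNReal.ofReal_le_ofReal hΓ
  have hn : 1 ≤ nearR c.p c.k0 0 := by
    unfold nearR
    have h1 : 16 ≤ rr c.p c.k0 (0 + 1) := h16.trans (rr_mono _ _ (by omega))
    omega
  obtain ⟨CK, ρ, Kc, D⟩ := hD c.p c.k0 c.A0 (ENNReal.ofReal c.Γ) hA hG ENNReal.ofReal_ne_top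
    (by omega) hn
  exact init_of hJ hp hΓ hA hS h16 D hCe
    (fun p z => hE c.A0 _ _ _ _ p z hA (by omega) ((le_max_right _ _).trans (hrr 1))
      (le_trans (by norm_num) hG) ENNReal.ofReal_ne_top) hζ

end Crest.Agent.R165.P7x337
end
end

-- ▼ part R165/InitQl_417
section

/-!
# Row 165 (S0250), P7: the linear part of step 0 on families with small supports

* `nk_Ql4` : the family `(1 - Loc) K`, supports of diameter `≤ 4`, has norm `≤ C / r'` at scale `r'`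
-/

set_option autoImplicit false
set_option linter.unusedSectionVars false

noncomputable section

open scoped ENNReal NNReal
open Crest.Agent.R165.Gr0x606 Crest.Agent.R165.Gr1x606 Crest.Agent.R165.Latx683
open Crest.Agent.R165.PNormx417 Crest.Agent.R165.GDefx387 Crest.Agent.R165.GeOpsx337
open Crest.Agent.R165.KFlowx337 Crest.Agent.R165.Packx915 Crest.Agent.R165.Bridgex915
open Crest.Agent.R165.NSumx915 Crest.Agent.R165.FRDPolyx439 Crest.Agent.R165.FRDLatx439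
open Crest.Agent.R165.PlaneModesx901 Crest.Agent.R165.PlaneLocx901 Crest.Agent.R165.PlaneCovx901
open Crest.Agent.R165.PlaneSumx901 Crest.Agent.R165.PlaneCoefx901 Crest.Agent.R165.W2x812
open Crest.Agent.R165.Locx901 Crest.Agent.R165.GBulkx417 Crest.Agent.R165.PStepx417
open Crest.Agent.R165.GSysx387 Crest.Agent.R165.GSysOKx439 Crest.Agent.R165.PEndx683
open Crest.Agent.R165.ConstAx729

namespace Crest.Agent.R165.InitQlx417

/-- the zero covariance is Gram with zero weights -/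
theorem gram_zero {V : Type*} [AddCommGroup V] [Module ℝ V] :
    Gram (0 : Cov V) (fun _ => 0) := by
  intro L
  cases L with
  | nil => rw [mono_nil, mwt_nil, EE_apply, conv_zero]; simp
  | cons l L => rw [mono_cons, EE_apply, conv_zero]; simp

/-- real numbers: the constants of the step `4 → r'` -/
theorem sq_four (r' : ℕ) (hr : 64 ≤ r') :
    Real.sqrt r' / Real.sqrt (4 : ℕ) * (((4 : ℕ) : ℝ) / r') = Real.sqrt (4 / r') := by
  have hr0 : (0 : ℝ) < r' := by exact_mod_cast (by omega : 0 < r')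
  have h4 : Real.sqrt ((4 : ℕ) : ℝ) = 2 := by
    rw [show ((4 : ℕ) : ℝ) = 2 ^ 2 by norm_num]
    exact Real.sqrt_sq (by norm_num)
  have h5 : Real.sqrt (4 / (r' : ℝ)) = 2 / Real.sqrt r' := by
    rw [Real.sqrt_div (by norm_num), show (4 : ℝ) = 2 ^ 2 by norm_num, Real.sqrt_sq (by norm_num)]
  have h6 : 0 < Real.sqrt r' := Real.sqrt_pos.2 hr0
  have h7 : Real.sqrt r' * Real.sqrt r' = r' := Real.mul_self_sqrt hr0.le
  rw [h4, h5]
  field_simp
  push_cast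
  nlinarith

/-- **the linear part of step 0** -/
theorem nk_Ql4 {C : ℝ} (h : BkReg C) : ∃ (C' : ℝ) (R1 : ℕ), 0 ≤ C' ∧
    ∀ (a : ℝ) (r' : ℕ) (Γ : ℝ≥0∞) (K Ql : Fam), 1 ≤ a → R1 ≤ r' → 1 ≤ Γ → Γ ≠ ∞ →
      (∀ U, K U ≠ 0 → U.Nonempty ∧ size 4 U ≤ 1) →
      (∀ U, (Ql U : Gr (Fld ℤ)) =
        Qlin 0 (fun f => loc2 (md f).P0 (md f).P1) 4 (cof K) U) →
      nk a r' Γ Ql ≤ ENNReal.ofReal (C' / r') * nk a 4 Γ K := by
  have hC := h.nonneg
  set M : ℝ := 340000 * C + 2 with hMd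
  have hM : 1 ≤ M := by linarith
  have hM0 : 0 ≤ M := by linarith
  refine ⟨25728 * M ^ 4, ⌈4 * (20100 * M ^ 4) ^ 2⌉₊ + 64, by positivity, ?_⟩
  intro a r' Γ K Ql ha hr' hΓ hΓt hK hQl
  have ha0 : 0 < a := by linarith
  have hr64 : 64 ≤ r' := by omega
  have hr0 : (0 : ℝ) < r' := by exact_mod_cast (by omega : 0 < r')
  set t : ℝ := Real.sqrt (4 / r') with htd
  have ht : 0 < t := Real.sqrt_pos.2 (by positivity)
  have ht2 : t ^ 2 = 4 / r' := Real.sq_sqrt (by positivity)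
  have hsm : 20100 * M ^ 4 * t ≤ 1 := by
    have h1 : 4 * (20100 * M ^ 4) ^ 2 ≤ r' := by
      refine (Nat.le_ceil _).trans ?_
      exact_mod_cast (by omega : ⌈4 * (20100 * M ^ 4) ^ 2⌉₊ ≤ r')
    have h2 : (20100 * M ^ 4 * t) ^ 2 ≤ 1 := by
      rw [mul_pow, ht2, mul_div_assoc', div_le_one hr0]
      linarith
    have h3 : 0 ≤ 20100 * M ^ 4 * t := by positivity
    nlinarith
  have hM41 : 1 ≤ M ^ 4 := one_le_pow₀ hM
  have ht1 : t ≤ 1 := by nlinarith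
  set c : ℝ := 516 * C + 1 with hcd
  have hc : 0 ≤ c := by positivity
  set x0 : ℝ := (340000 * C + 1) * t with hx0
  set x1 : ℝ := (160000 * C + 1) * t ^ 3 with hx1
  set x2 : ℝ := (170000 * C + 1) * t ^ 5 with hx2
  set x3 : ℝ := t ^ 5 / (1 + c) with hx3
  have p0 : 0 < x0 := by positivity
  have p1 : 0 < x1 := by positivity
  have p2 : 0 < x2 := by positivity
  have p3 : 0 < x3 := by positivity
  have b0 : x0 ≤ M * t := by
    rw [hx0]; gcongr; linarith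
  have b1 : x1 ≤ M * t ^ 3 := by
    rw [hx1]; gcongr; linarith
  have b2 : x2 ≤ M * t ^ 5 := by
    rw [hx2]; gcongr; linarith
  have b3 : x3 * (1 + c) = t ^ 5 := by
    rw [hx3, div_mul_cancel₀ _ (by positivity)]
  have hκ := kapR_le hM ht.le ht1 p0.le p1.le p2.le p3.le hc b0 b1 b2 b3.le
  have hM4 : M ≤ M ^ 4 := le_self_pow₀ hM (by norm_num)
  have hMt : 20100 * (M * t) ≤ 1 := by
    refine le_trans ?_ hsm
    calc 20100 * (M * t) = 20100 * M * t := by ring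
      _ ≤ 20100 * M ^ 4 * t := by gcongr
  have t31 : t ^ 3 ≤ t := pow_le_of_le_one ht.le ht1 (by norm_num)
  have t51 : t ^ 5 ≤ t := pow_le_of_le_one ht.le ht1 (by norm_num)
  have mt : t ≤ M * t := le_mul_of_one_le_left ht.le hM
  have x3c : x3 + x3 * c = t ^ 5 := by linarith [b3, mul_add x3 1 c, mul_one x3]
  have x3le : x3 ≤ t ^ 5 := by nlinarith [mul_nonneg p3.le hc]
  have Mt3 : M * t ^ 3 ≤ M * t := by gcongr
  have Mt5 : M * t ^ 5 ≤ M * t := by gcongr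
  have quarter : (1 / 4 : ℝ≥0∞) = ENNReal.ofReal (1 / 4) := by
    rw [ENNReal.ofReal_div_of_pos (by norm_num)]; simp
  have one : (1 : ℝ≥0∞) = ENNReal.ofReal 1 := ENNReal.ofReal_one.symm
  have s1 : ENNReal.ofReal x1 + ENNReal.ofReal x2 + ENNReal.ofReal x3 +
      ENNReal.ofReal x3 * ENNReal.ofReal c = ENNReal.ofReal (x1 + x2 + x3 + x3 * c) := by
    rw [← ENNReal.ofReal_mul p3.le, ← ENNReal.ofReal_add p1.le p2.le,
      ← ENNReal.ofReal_add (by positivity) p3.le, ← ENNReal.ofReal_add (by positivity)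
        (by positivity)]
  have s2 : ENNReal.ofReal x0 + ENNReal.ofReal x3 * ENNReal.ofReal c =
      ENNReal.ofReal (x0 + x3 * c) := by
    rw [← ENNReal.ofReal_mul p3.le, ← ENNReal.ofReal_add p0.le (by positivity)]
  have hx123 : x1 + x2 + x3 + x3 * c ≤ x0 + x3 * c := by
    have e3 : M * t ^ 3 ≤ t / 10 := by
      have : M * t ^ 3 = (M * t) * t ^ 2 := by ring
      have h2 : t ^ 2 ≤ t := pow_le_of_le_one ht.le ht1 (by norm_num)
      rw [this]
      calc (M * t) * t ^ 2 ≤ (1 / 10) * t := by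
            refine mul_le_mul (by linarith) h2 (by positivity) (by norm_num)
        _ = t / 10 := by ring
    have e5 : M * t ^ 5 ≤ t / 10 := by
      refine le_trans ?_ e3
      gcongr M * ?_
      exact pow_le_pow_of_le_one ht.le ht1 (by norm_num)
    have e6 : t ^ 5 ≤ M * t ^ 5 := le_mul_of_one_le_left (by positivity) hM
    have e7 : t ≤ x0 := by
      rw [hx0]
      exact le_mul_of_one_le_left ht.le (by linarith)
    linarith
  have N : BulkNum (ENNReal.ofReal x0) (ENNReal.ofReal x1) (ENNReal.ofReal x2)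
      (ENNReal.ofReal x3) (ENNReal.ofReal c) := by
    refine ⟨?_, ?_, ?_, ?_, ENNReal.ofReal_ne_top, ENNReal.ofReal_ne_top, ?_, ?_, ?_, ?_⟩
    · exact (ENNReal.ofReal_pos.2 p0).ne'
    · exact (ENNReal.ofReal_pos.2 p1).ne'
    · exact (ENNReal.ofReal_pos.2 p2).ne'
    · exact (ENNReal.ofReal_pos.2 p3).ne'
    · rw [quarter]; exact ENNReal.ofReal_le_ofReal (by linarith)
    · rw [s1, quarter]; exact ENNReal.ofReal_le_ofReal (by linarith)
    · rw [s1, s2]; exact ENNReal.ofReal_le_ofReal hx123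
    · rw [← ENNReal.ofReal_add p0.le p3.le, one]; exact ENNReal.ofReal_le_ofReal (by linarith)
  have hr16 : 16 * 4 ≤ r' := hr64
  have H0 := h.bulkHyp (a := a) (a' := a) (r := 4) (r' := r') Outx683.DD (by decide) ha0 ha0
    (by norm_num) hr16 (j₁ := 2) (j₂ := 0) (N := 1) (by norm_num) (by norm_num)
  have e0 : a * Real.sqrt r' / (a * Real.sqrt ((4 : ℕ) : ℝ)) *
      ((340000 * C + 1) * ((((4 : ℕ) : ℝ)) / r')) = x0 := by
    rw [mul_div_mul_left _ _ ha0.ne', hx0, htd, ← sq_four r' hr64]; ring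
  have e1 : a * Real.sqrt r' / (a * Real.sqrt ((4 : ℕ) : ℝ)) *
      ((160000 * C + 1) * ((((4 : ℕ) : ℝ)) / r') ^ 2) = x1 := by
    rw [mul_div_mul_left _ _ ha0.ne', hx1, show t ^ 3 = t * t ^ 2 by ring, ht2]
    rw [show (4 : ℝ) / r' = ((4 : ℕ) : ℝ) / r' by norm_num, htd, ← sq_four r' hr64]; ring
  have e2 : a * Real.sqrt r' / (a * Real.sqrt ((4 : ℕ) : ℝ)) *
      ((170000 * C + 1) * ((((4 : ℕ) : ℝ)) / r') ^ 3) = x2 := by
    rw [mul_div_mul_left _ _ ha0.ne', hx2, show t ^ 5 = t * t ^ 2 * t ^ 2 by ring, ht2]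
    rw [show (4 : ℝ) / r' = ((4 : ℕ) : ℝ) / r' by norm_num, htd, ← sq_four r' hr64]; ring
  rw [e0, e1, e2] at H0
  have H : BulkHyp w₀ a a 4 r' (fun _ => 0) (fun f => (md f).P0) (fun f => (md f).P1)
      (ENNReal.ofReal x0) (ENNReal.ofReal x1) (ENNReal.ofReal x2) (ENNReal.ofReal x3)
      (ENNReal.ofReal c) :=
    { g_semi := ⟨rfl, fun _ _ => zero_le, fun _ _ => zero_le⟩
      W0 := fun _ _ _ => zero_le
      W1 := H0.W1
      W2a := H0.W2a
      W2b := H0.W2b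
      W2c := H0.W2c
      W2d := H0.W2d }
  have key : nk a r' Γ Ql ≤ kap (ENNReal.ofReal x0) (ENNReal.ofReal x1) (ENNReal.ofReal x2)
      (ENNReal.ofReal x3) (ENNReal.ofReal c) * (((2 * (r' / 4) + 3) ^ 2 : ℕ) * nk a 4 Γ K) := by
    refine DefRecx915.NN_step2 (fun U hU => ?_) (cov_fd (by norm_num) r')
    have hKU : K U ≠ 0 := by
      intro h0
      apply hU
      rw [pG_def, hQl, Qlin_zero _ _ _ (show cof K U = 0 by rw [cof, h0]; rfl), pnorm_zero]
    obtain ⟨hne, hs⟩ := hK U hKU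
    have h1 : pG (wU w₀ a r' U) (Ql U) ≤ kap (ENNReal.ofReal x0) (ENNReal.ofReal x1)
        (ENNReal.ofReal x2) (ENNReal.ofReal x3) (ENNReal.ofReal c) * pG (wU w₀ a 4 U) (K U) := by
      rw [pG_def, hQl, pG_def]
      exact pnorm_Qlin_small H N gram_zero fin_P0 rank_P0 (isEv_cof K) hne hs
    have h2 : Γ ^ pack fd r' U ≤ Γ ^ pack fd 4 U :=
      pow_le_pow_right₀ hΓ (pack_anti (by omega))
    calc Γ ^ pack fd r' U * pG (wU w₀ a r' U) (Ql U) ≤ Γ ^ pack fd 4 U * (kap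
          (ENNReal.ofReal x0) (ENNReal.ofReal x1) (ENNReal.ofReal x2) (ENNReal.ofReal x3)
          (ENNReal.ofReal c) * pG (wU w₀ a 4 U) (K U)) := mul_le_mul' h2 h1
      _ = _ := by ring
  refine key.trans ?_
  rw [← mul_assoc]
  refine mul_le_mul_left ?_ _
  rw [kap_ofReal p0.le p1.le p2.le p3.le hc]
  have hn : ((((2 * (r' / 4) + 3) ^ 2 : ℕ)) : ℝ) ≤ (r' : ℝ) ^ 2 := by
    have h1 : 2 * (r' / 4) + 3 ≤ r' := by omega
    exact_mod_cast Nat.pow_le_pow_left h1 2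
  rw [← ENNReal.ofReal_natCast, ← ENNReal.ofReal_mul (kapR_nonneg p0.le p1.le p2.le p3.le hc)]
  refine ENNReal.ofReal_le_ofReal ?_
  have ht6 : t ^ 6 = 64 / (r' : ℝ) ^ 3 := by
    rw [show t ^ 6 = (t ^ 2) ^ 3 by ring, ht2, div_pow]; norm_num
  calc kapR x0 x1 x2 x3 c * ((((2 * (r' / 4) + 3) ^ 2 : ℕ)) : ℝ)
      ≤ (402 * M ^ 4 * t ^ 6) * (r' : ℝ) ^ 2 := by
        refine mul_le_mul hκ hn (by positivity) (by positivity)
    _ = 25728 * M ^ 4 / r' := by
        rw [ht6]; field_simp; ring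

end Crest.Agent.R165.InitQlx417
end
end

-- ▼ part R165/InitEx_877
section

/-!
# Row 165 (S0250), P7: the explicit first order part through the linear step (helper877)

* `Kex_shape`   : the supports of `Kex` have diameter `≤ 2`
* `QlG_Kex_eq`  : `QlG S r (Kex p z) = Qlin 0 .. 4 (Kex p z)` for every `S` and `r ≥ 2`
* `nk_Kex_le`   : `nk a 4 Γ (Kex p z) ≤ Γ * 12675 a² (|p| + |z|)`
* `nk_QlG_Kex`  : `nk a r' Γ (QlG S r (Kex p z)) ≤ Γ * C' a² (|p| + |z|) / r'`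
-/

set_option autoImplicit false

noncomputable section

open scoped ENNReal
open Crest.ProbabilityR.IsingModel
open Crest.Agent.R165.Gr0x606 Crest.Agent.R165.Gr1x606 Crest.Agent.R165.Latx683
open Crest.Agent.R165.PNormx417 Crest.Agent.R165.GDefx387
open Crest.Agent.R165.GeOpsx337 Crest.Agent.R165.Bridgex915
open Crest.Agent.R165.NSumx915
open Crest.Agent.R165.PlaneModesx901 Crest.Agent.R165.PlaneLocx901 Crest.Agent.R165.PlaneCoefx901
open Crest.Agent.R165.PEndx683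
open Crest.Agent.R165.J4Geox126 Crest.Agent.R165.J4Defx653 Crest.Agent.R165.J4Pathx653
open Crest.Agent.R165.PStepx417 Crest.Agent.R165.PStepIdx901 Crest.Agent.R165.GBulkx417
open Crest.Agent.R165.Initx541

namespace Crest.Agent.R165.InitExx877

/-- diameter at most two -/
def D2 (Y : Finset Fc) : Prop :=
  ∀ a ∈ Y, ∀ b ∈ Y, (a.1 - b.1).natAbs ≤ 2 ∧ (a.2 - b.2).natAbs ≤ 2

theorem d2_Yf (j : Fin 2) : D2 (Yf (pr ((0 : ℤ × ℤ), j))) := by
  unfold D2
  fin_cases j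
  · have e : Yf (pr ((0 : ℤ × ℤ), (0 : Fin 2))) = _ := PlaneNumx901.Yf0
    simp only [Fin.zero_eta]
    rw [e]
    decide
  · have e : Yf (pr ((0 : ℤ × ℤ), (1 : Fin 2))) = _ := PlaneNumx901.Yf1
    simp only [Fin.mk_one]
    rw [e]
    decide

theorem d2_faE (j : Fin 2) : D2 (faE ((0 : ℤ × ℤ), j)) := by
  unfold D2
  fin_cases j
  · have e : faE (((0 : ℤ × ℤ), (0 : Fin 2)) : Bkgx683.EG ℤ) = _ := PlaneNumx901.faE0
    simp only [Fin.zero_eta]
    rw [e]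
    decide
  · have e : faE (((0 : ℤ × ℤ), (1 : Fin 2)) : Bkgx683.EG ℤ) = _ := PlaneNumx901.faE1
    simp only [Fin.mk_one]
    rw [e]
    decide

theorem d2_zero : D2 {(0 : Fc)} := by
  intro a ha b hb
  rw [Finset.mem_singleton] at ha hb
  subst ha hb
  simp

theorem D2.fd_le {Y : Finset Fc} (hY : D2 Y) {U : Finset Fc} {u : Fc}
    (hU : Y.image (fz u) = U) : ∀ x ∈ U, ∀ y ∈ U, fd x y ≤ 2 := by
  subst hU
  intro x hx y hy
  obtain ⟨a, ha, rfl⟩ := Finset.mem_image.1 hx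
  obtain ⟨b, hb, rfl⟩ := Finset.mem_image.1 hy
  exact fd_fz_le (hY a ha b hb).1 (hY a ha b hb).2 u

/-- the supports of the explicit family -/
theorem Kex_shape {p z : ℝ} {U : Finset Fc} (h : Kex p z U ≠ 0) :
    U.Nonempty ∧ ∀ x ∈ U, ∀ y ∈ U, fd x y ≤ 2 := by
  have key : ∀ Y : Finset Fc, D2 Y → ∀ a : Fc → Ge (Fld ℤ), trF Y a U ≠ 0 →
      U.Nonempty ∧ ∀ x ∈ U, ∀ y ∈ U, fd x y ≤ 2 := by
    intro Y hY a ha
    obtain ⟨u, hu, hU⟩ := trF_ne ha
    exact ⟨⟨u, hu⟩, hY.fd_le hU⟩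
  by_contra hc
  apply h
  have z1 : ∀ j : Fin 2, trF (Yf (pr ((0 : ℤ × ℤ), j))) (bu j) U = 0 := fun j => by
    by_contra h0
    exact hc (key _ (d2_Yf j) _ h0)
  have z2 : ∀ j : Fin 2, trF (faE ((0 : ℤ × ℤ), j)) (bu j) U = 0 := fun j => by
    by_contra h0
    exact hc (key _ (d2_faE j) _ h0)
  have z3 : trF {0} frP.I4 U = 0 := by
    by_contra h0
    exact hc (key _ d2_zero _ h0)
  unfold Kex Kp Kz
  simp only [z1, z2, z3, Finset.sum_const_zero, smul_zero, add_zero]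

theorem Kex_size {p z : ℝ} {U : Finset Fc} {s : ℕ} (hs : 2 ≤ s) (h : Kex p z U ≠ 0) :
    size s U ≤ 1 :=
  size_le_one_iff.2 fun x hx y hy => ((Kex_shape h).2 x hx y hy).trans hs

/-! ### the linear step does not see the covariance -/

theorem QlG_Kex_eq (S : Cov (Fld ℤ)) {r : ℕ} (hr : 2 ≤ r) (p z : ℝ) (U : Finset Fc) :
    ((QlG S r (Kex p z) U : Ge (Fld ℤ)) : Gr (Fld ℤ)) =
      Qlin 0 (fun f => loc2 (md f).P0 (md f).P1) 4 (cof (Kex p z)) U := by
  have e : (fun f : Fc => loc2 (md f).P0 (md f).P1) = LocAt := funext loc2_md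
  rw [coe_QlG, e]
  by_cases h0 : Kex p z U = 0
  · rw [Qlin_zero, Qlin_zero]
    · rw [cof, h0]; rfl
    · rw [h0]; rfl
  · obtain ⟨c, hc⟩ := PlaneNumx901.quad_Kx p z U S
    obtain ⟨c0, hc0⟩ := PlaneNumx901.quad_Kx p z U 0
    rw [← coe_Kex] at hc hc0
    rw [Qlin, Qlin, if_pos (Kex_size hr h0), if_pos (Kex_size (by norm_num) h0)]
    rw [cof, hc, hc0]
    have h00 : ∀ t : ℝ, hom 0 (algebraMap ℝ (Gr (Fld ℤ)) t) = algebraMap ℝ (Gr (Fld ℤ)) t := by
      intro t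
      rw [hom_zero_eq, AlgHom.commutes, Algebra.algebraMap_self_apply]
    simp only [map_add, LocAt_const, add_zero, h00]
    abel

/-! ### the size of the explicit family at scale four -/

theorem nk_trF_le {a : ℝ} {Γ : ℝ≥0∞} (hΓ : 1 ≤ Γ) {Y : Finset Fc} (hY : D2 Y)
    {b : Fc → Ge (Fld ℤ)} {B : ℝ≥0∞}
    (hB : ∀ u, pG (wU w₀ a 4 (Y.image (fz u))) (b u) ≤ B) :
    nk a 4 Γ (trF Y b) ≤ 169 * (Γ * B) := by
  refine iSup_le fun f => ?_
  have h1 : bs fd 4 Γ (fun U => pG (wU w₀ a 4 U) (trF Y b U)) f ≤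
      ∑' U, ∑ u ∈ MetGx723.boxG f 6, (if Y.image (fz u) = U then Γ * B else 0) := by
    refine ENNReal.tsum_le_tsum fun U => ?_
    by_cases hn : near fd 4 f U
    · rw [Set.indicator_of_mem (by exact hn)]
      by_cases hex : trF Y b U = 0
      · show Γ ^ Packx915.pack fd 4 U * pG (wU w₀ a 4 U) (trF Y b U) ≤ _
        rw [hex, pG_zero, mul_zero]
        exact zero_le
      obtain ⟨u0, hu0, hU0⟩ := trF_ne hex
      have hd := hY.fd_le hU0
      have hp : Packx915.pack fd 4 U ≤ 1 :=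
        (Packx915.pack_le_one_iff pd_fd).2 fun x hx y hy => (hd x hx y hy).trans (by norm_num)
      have hp' : Γ ^ Packx915.pack fd 4 U ≤ Γ := (pow_le_pow_right₀ hΓ hp).trans (pow_one _).le
      have h2 : pG (wU w₀ a 4 U) (trF Y b U) ≤
          ∑ u ∈ U, if Y.image (fz u) = U then B else 0 := by
        refine (pG_sum_le _ _ _).trans (Finset.sum_le_sum fun u _ => ?_)
        split_ifs with h
        · have h3 := hB u
          rwa [h] at h3
        · rw [pG_zero]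
      refine (mul_le_mul' hp' h2).trans ?_
      rw [← Finset.sum_filter, ← Finset.sum_filter, Finset.mul_sum]
      refine Finset.sum_le_sum_of_subset fun u hu => ?_
      rw [Finset.mem_filter] at hu ⊢
      refine ⟨?_, hu.2⟩
      rw [MetGx723.mem_boxG, ← fd_eq_dG, fd_comm]
      obtain ⟨v, hv, hfv⟩ := hn
      exact (fd_triangle f v u).trans (by have := hd v hv u hu.1; omega)
    · rw [Set.indicator_of_notMem (by exact hn)]
      exact zero_le
  refine h1.trans ?_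
  rw [Summable.tsum_finsetSum fun _ _ => ENNReal.summable]
  have h3 : ∀ u ∈ MetGx723.boxG f 6, (∑' U : Finset Fc, if Y.image (fz u) = U then Γ * B else 0) ≤
      Γ * B := by
    intro u _
    rw [tsum_eq_single (Y.image (fz u)) fun U hU => if_neg fun h => hU h.symm, if_pos rfl]
  refine (Finset.sum_le_sum h3).trans ?_
  rw [Finset.sum_const, nsmul_eq_mul]
  refine mul_le_mul_left ?_ _
  have h4 := MetGx723.card_boxG_le f 6
  have h5 : ((MetGx723.boxG f 6).card : ℝ≥0∞) ≤ ((169 : ℕ) : ℝ≥0∞) :=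
    Nat.cast_le.2 (h4.trans (by norm_num))
  exact h5

theorem faE_pair (u : ℤ × ℤ) (j : Fin 2) :
    (faE ((0 : ℤ × ℤ), j)).image (fz u) = faE (u, j) := by
  rw [← faE_ez]
  unfold ez
  simp

theorem faE_sub_Yf (u : ℤ × ℤ) (j : Fin 2) :
    faE (u, j) ⊆ (Yf (pr ((0 : ℤ × ℤ), j))).image (fz u) := by
  rw [← faE_pair]
  refine Finset.image_subset_image (faE_subset ?_)
  have h1 : (0 : ℤ × ℤ) ∈ pr ((0 : ℤ × ℤ), j) := by simp [pr]
  have h2 : (0 : ℤ × ℤ) + unitVec j ∈ pr ((0 : ℤ × ℤ), j) := by simp [pr]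
  exact ⟨subset_hull _ (Finset.mem_coe.2 h1), subset_hull _ (Finset.mem_coe.2 h2)⟩

theorem nk_Kex_le {a : ℝ} (ha : 1 ≤ a) {Γ : ℝ≥0∞} (hΓ : 1 ≤ Γ) (p z : ℝ) :
    nk a 4 Γ (Kex p z) ≤ Γ * ENNReal.ofReal (12675 * a ^ 2 * (|p| + |z|)) := by
  have hN := InitNx682.nhyp_id w₀ (by linarith : 0 ≤ a) 4
  set c : ℝ := InitNx682.cB a 4 with hc
  have hc' : c ≤ 25 * a ^ 2 := by
    rw [hc, InitNx682.cB]
    push_cast
    nlinarith
  have hc0 : 0 ≤ c := zero_le_one.trans hN.c1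
  set A : ℝ≥0∞ := 169 * (Γ * ENNReal.ofReal c) with hA
  have t1 : ∀ j : Fin 2, nk a 4 Γ (trF (Yf (pr ((0 : ℤ × ℤ), j))) (bu j)) ≤ A := fun j =>
    nk_trF_le hΓ (d2_Yf j) fun u => hN.b _ (u, j) (faE_sub_Yf u j)
  have t2 : ∀ j : Fin 2, nk a 4 Γ (trF (faE ((0 : ℤ × ℤ), j)) (bu j)) ≤ A := fun j =>
    nk_trF_le hΓ (d2_faE j) fun u => hN.b _ (u, j) (faE_pair u j).symm.subset
  have t3 : nk a 4 Γ (trF {0} frP.I4) ≤ A :=
    nk_trF_le hΓ d2_zero fun u => hN.I4 _ u (by simp)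
  have h2 : Real.sqrt 2 * Real.sqrt 2 = 2 := Real.mul_self_sqrt (by norm_num)
  have h3 : 0 ≤ Real.sqrt 2 := Real.sqrt_nonneg 2
  have hx0 : 0 ≤ xc := by unfold xc; nlinarith
  have hx1 : 2 * xc ≤ 1 := by unfold xc; nlinarith
  have e1 : ‖-(2 * xc)‖ₑ ≤ 1 := by
    rw [Real.enorm_eq_ofReal_abs, abs_neg, abs_of_nonneg (by linarith)]
    exact ENNReal.ofReal_le_one.2 hx1
  have e2 : ‖xc‖ₑ ≤ 1 := by
    rw [Real.enorm_eq_ofReal_abs, abs_of_nonneg hx0]
    exact ENNReal.ofReal_le_one.2 (by linarith)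
  have hpt : ∀ U : Finset Fc, pG (wU w₀ a 4 U) (Kex p z U) ≤
      ‖p‖ₑ * (pG (wU w₀ a 4 U) (trF (Yf (pr ((0 : ℤ × ℤ), 0))) (bu 0) U) +
        pG (wU w₀ a 4 U) (trF (Yf (pr ((0 : ℤ × ℤ), 1))) (bu 1) U)) +
      ‖z‖ₑ * (pG (wU w₀ a 4 U) (trF {0} frP.I4 U) +
        (pG (wU w₀ a 4 U) (trF (faE ((0 : ℤ × ℤ), 0)) (bu 0) U) +
          pG (wU w₀ a 4 U) (trF (faE ((0 : ℤ × ℤ), 1)) (bu 1) U))) := by
    intro U
    unfold Kex Kp Kz
    rw [Fin.sum_univ_two, Fin.sum_univ_two]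
    refine (pG_add_le _ _ _).trans (add_le_add ?_ ?_)
    · refine (pG_smul_le _ _ _).trans (mul_le_mul_right ?_ _)
      refine (pG_smul_le _ _ _).trans ((mul_le_of_le_one_left zero_le e1).trans ?_)
      exact pG_add_le _ _ _
    · refine (pG_smul_le _ _ _).trans (mul_le_mul_right ?_ _)
      refine (pG_add_le _ _ _).trans (add_le_add le_rfl ?_)
      refine (pG_smul_le _ _ _).trans ((mul_le_of_le_one_left zero_le e2).trans ?_)
      exact pG_add_le _ _ _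
  have hmain : nk a 4 Γ (Kex p z) ≤ ‖p‖ₑ * (A + A) + ‖z‖ₑ * (A + (A + A)) := by
    refine (NN_mono hpt).trans ((NN_add_le _ _).trans (add_le_add ?_ ?_))
    · refine (NN_smul_le _ _).trans (mul_le_mul_right ?_ _)
      exact (NN_add_le _ _).trans (add_le_add (t1 0) (t1 1))
    · refine (NN_smul_le _ _).trans (mul_le_mul_right ?_ _)
      refine (NN_add_le _ _).trans (add_le_add t3 ?_)
      exact (NN_add_le _ _).trans (add_le_add (t2 0) (t2 1))
  refine hmain.trans ?_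
  have h4 : ‖p‖ₑ * (A + A) + ‖z‖ₑ * (A + (A + A)) ≤ (‖p‖ₑ + ‖z‖ₑ) * (3 * A) := by
    have h5 : A + A ≤ 3 * A := by
      calc A + A ≤ A + A + A := le_self_add
        _ = 3 * A := by ring
    have h6 : A + (A + A) = 3 * A := by ring
    rw [h6, add_mul]
    exact add_le_add (mul_le_mul_right h5 _) le_rfl
  refine h4.trans (le_of_eq_of_le (b := Γ * ENNReal.ofReal (507 * c * (|p| + |z|))) ?_ ?_)
  · rw [hA, Real.enorm_eq_ofReal_abs, Real.enorm_eq_ofReal_abs,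
      ← ENNReal.ofReal_add (abs_nonneg _) (abs_nonneg _), ENNReal.ofReal_mul (by positivity),
      ENNReal.ofReal_mul (by norm_num)]
    rw [show ENNReal.ofReal 507 = 3 * 169 by norm_num]
    ring
  · refine mul_le_mul_right (ENNReal.ofReal_le_ofReal ?_) _
    refine mul_le_mul_of_nonneg_right ?_ (by positivity)
    linarith

/-! ### assembly -/

/-- the linear step from scale four -/
def Lin4 : Prop := ∃ (C' : ℝ) (R1 : ℕ), 0 ≤ C' ∧ ∀ (a : ℝ) (r' : ℕ) (Γ : ℝ≥0∞) (K Ql : Fam),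
  1 ≤ a → R1 ≤ r' → 1 ≤ Γ → Γ ≠ ⊤ → (∀ U, K U ≠ 0 → U.Nonempty ∧ size 4 U ≤ 1) →
  (∀ U, (Ql U : Gr (Fld ℤ)) = Qlin 0 (fun f => loc2 (md f).P0 (md f).P1) 4 (cof K) U) →
  nk a r' Γ Ql ≤ ENNReal.ofReal (C' / r') * nk a 4 Γ K

theorem nk_QlG_Kex_of (h : Lin4) : ∃ (C' : ℝ) (R1 : ℕ), 0 ≤ C' ∧
    ∀ (a : ℝ) (r r' : ℕ) (Γ : ℝ≥0∞) (S : Cov (Fld ℤ)) (p z : ℝ), 1 ≤ a → 8 ≤ r → R1 ≤ r' →
      1 ≤ Γ → Γ ≠ ⊤ →
      nk a r' Γ (QlG S r (Kex p z)) ≤ Γ * ENNReal.ofReal (C' * a ^ 2 * (|p| + |z|) / r') := by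
  obtain ⟨C', R1, hC, h⟩ := h
  refine ⟨C' * 12675, R1, by positivity, fun a r r' Γ S p z ha hr hr' hΓ hΓt => ?_⟩
  refine (h a r' Γ (Kex p z) (QlG S r (Kex p z)) ha hr' hΓ hΓt
    (fun U hU => ⟨(Kex_shape hU).1, Kex_size (by norm_num) hU⟩)
    (fun U => QlG_Kex_eq S (by omega) p z U)).trans ?_
  refine (mul_le_mul_right (nk_Kex_le ha hΓ p z) _).trans (le_of_eq ?_)
  rw [mul_left_comm, ← ENNReal.ofReal_mul (by positivity)]
  congr 2
  ring

/-- **the explicit first order part through the first linear step** -/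
theorem nk_QlG_Kex {C : ℝ} (h : W2x812.BkReg C) : ∃ (C' : ℝ) (R1 : ℕ), 0 ≤ C' ∧
    ∀ (a : ℝ) (r r' : ℕ) (Γ : ℝ≥0∞) (S : Cov (Fld ℤ)) (p z : ℝ), 1 ≤ a → 8 ≤ r → R1 ≤ r' →
      1 ≤ Γ → Γ ≠ ⊤ →
      nk a r' Γ (QlG S r (Kex p z)) ≤ Γ * ENNReal.ofReal (C' * a ^ 2 * (|p| + |z|) / r') :=
  nk_QlG_Kex_of (InitQlx417.nk_Ql4 h)

end Crest.Agent.R165.InitExx877
end
end

-- ▼ part R165/P7M_337
section

/-!
# Row 165 (S0250), block G, (P7): `P7L` from the data of the initial activities (helper337)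
-/

set_option autoImplicit false

noncomputable section

open scoped ENNReal
open Crest.Agent.R165.GSysx387 Crest.Agent.R165.PStepx417 Crest.Agent.R165.Initx541

namespace Crest.Agent.R165.P7x337

/-- **`P7L`** from the data of the initial activities of the plane -/
theorem p7L_of_initData {J : ℝ} (hJ : 0 < J) {R : ℕ} {V : Finset (ℤ × ℤ) → ℝ}
    (hD : ∀ (l k0 : ℕ) (a : ℝ) (Γ : ℝ≥0∞), 1 ≤ a → 3 ≤ Γ → Γ ≠ ∞ → 6 ≤ rr l k0 0 →
      1 ≤ nearR l k0 0 → ∃ (CK ρ : ℝ) (Kc : ℝ → Fam),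
        InitData a (rr l k0 0) (nearR l k0 0) Γ CK ρ (Kpl J R V l k0) Kc) :
    PTopx386.P7L J R V :=
  p7L_of_data hJ hD fun _ h => InitExx877.nk_QlG_Kex h

end Crest.Agent.R165.P7x337
end
end

-- ▼ part R165/InitB_682
section

/-!
# Row 165 (S0250), leaf INIT-R: the initial activities of the backgrounds of `Bkg_683` (helper682)

`PHyp P θ` : the parameters are bounded by `θ ≤ 1/2`.

* `bhyp`, `shyp_no`   : the hypotheses of `J4K0B_126` for `B.bk P src`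
* `bg_NN`, `bg_NN_sub`, `bg_NN_lip`, `bg_NN_lip2` : norms `pG (wU B.w a r₀ U)`, `r₀ = rr l k0 0`
* `bg_NK`, `bg_NK_sub`, `bg_NK_lip`, `bg_NK_lip2` : the same with `NK`
* `bg_src`            : any local sources
* `exists_init`       : all the bounds with one constant `C = C(R, l, k0, Γ, a)`, uniformly in the
  background
-/

set_option autoImplicit false
set_option linter.unusedSectionVars false

noncomputable section

open Finset
open scoped ENNReal

namespace Crest.Agent.R165.InitBx682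

open Crest.Agent.R165.J4Datx126 Crest.Agent.R165.J4Geox126 Crest.Agent.R165.J4K0x126
open Crest.Agent.R165.J4K0Bx126 Crest.Agent.R165.J4K0Lx126
open Crest.Agent.R165.J4Defx653 Crest.Agent.R165.J4Pathx653
open Crest.Agent.R165.J4RRx653 Crest.Agent.R165.J4RRAx653
open Crest.Agent.R165.Gr0x606 Crest.Agent.R165.Gr1x606
open Crest.Agent.R165.GeOpsx337 Crest.Agent.R165.PNormx417 Crest.Agent.R165.GDefx387
open Crest.Agent.R165.Latx683 (HE Fld BW xc wPl wDom wX)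
open Crest.Agent.R165.Quadx897 Crest.Agent.R165.Quad2x897
open Crest.Agent.R165.NSumx915 Crest.Agent.R165.Bridgex915 Crest.Agent.R165.KInitx892
open Crest.Agent.R165.SrcDefx991 Crest.Agent.R165.Bkgx683 Crest.Agent.R165.GSysx387
open Crest.Agent.R165.InitNx682 Crest.Agent.R165.BgIsox432

/-! ### square roots -/

theorem abs_sqrt_sub_le {z z' : ℝ} (hz : |z| ≤ 1 / 2) (hz' : |z'| ≤ 1 / 2) :
    |Real.sqrt (1 + z) - Real.sqrt (1 + z')| ≤ |z - z'| := by
  have h1 : (0 : ℝ) ≤ 1 + z := by have := (abs_le.1 hz).1; linarith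
  have h2 : (0 : ℝ) ≤ 1 + z' := by have := (abs_le.1 hz').1; linarith
  have h3 : (1 : ℝ) / 2 ≤ Real.sqrt (1 + z) := by
    refine Real.le_sqrt_of_sq_le ?_
    have := (abs_le.1 hz).1; norm_num; linarith
  have h4 : (1 : ℝ) / 2 ≤ Real.sqrt (1 + z') := by
    refine Real.le_sqrt_of_sq_le ?_
    have := (abs_le.1 hz').1; norm_num; linarith
  have e : z - z' = (Real.sqrt (1 + z) - Real.sqrt (1 + z')) *
      (Real.sqrt (1 + z) + Real.sqrt (1 + z')) := by
    have a1 := Real.sq_sqrt h1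
    have a2 := Real.sq_sqrt h2
    nlinarith
  rw [e, abs_mul, abs_of_nonneg (by linarith : (0 : ℝ) ≤ Real.sqrt (1 + z) + Real.sqrt (1 + z'))]
  exact le_mul_of_one_le_right (abs_nonneg _) (by linarith)

theorem abs_sqrt_sub_one_le {z : ℝ} (hz : |z| ≤ 1 / 2) : |Real.sqrt (1 + z) - 1| ≤ |z| := by
  have := abs_sqrt_sub_le hz (z' := 0) (by simp)
  simpa using this

/-! ### the hypotheses of `J4K0B_126` -/

/-- bounds of the parameters -/
structure PHyp (P : MPar) (θ : ℝ) : Prop where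
  θ0 : 0 ≤ θ
  θ1 : θ ≤ 1 / 2
  z : |P.z| ≤ θ
  t : ∀ S ∈ Can P.R, Even S.card → |P.t S| ≤ θ

/-- the difference of the parameters is bounded by `δ` -/
structure DHyp (P P' : MPar) (δ : ℝ) : Prop where
  R : P'.R = P.R
  z : |P.z - P'.z| ≤ δ
  t : ∀ S ∈ Can P.R, Even S.card → |P.t S - P'.t S| ≤ δ

section bk

variable {G : Type} [CommRing G] [DecidableEq G] {B : Bg G} {P P' : MPar} {θ δ : ℝ}
variable {κ : Type} {A : Type*} [CommRing A] [Algebra ℝ A]

theorem bhyp (hw : ∀ z j, |B.w z j| ≤ 1) (hP : PHyp P θ) (src : Srcs κ G A) :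
    BHyp (B.bk P src) θ where
  θ0 := hP.θ0
  θ1 := hP.θ1.trans (by norm_num)
  y e := hw e.1 e.2
  s f := by
    change |B.sc P f - 1| ≤ θ
    unfold Bg.sc
    split_ifs
    · exact (abs_sqrt_sub_one_le (hP.z.trans hP.θ1)).trans hP.z
    · rw [sub_self, abs_zero]; exact hP.θ0
  t := hP.t

theorem same_bk (hD : DHyp P P' δ) (src : Srcs κ G A) : Same (B.bk P src) (B.bk P' src) where
  R := hD.R
  Ys := rfl
  y := rfl
  as := rfl
  Fs := rfl
  ok := by
    change B.ok P'.R = B.ok P.R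
    rw [hD.R]

theorem s_bk (hP : PHyp P θ) (hP' : PHyp P' θ) (hD : DHyp P P' δ) (src : Srcs κ G A)
    (f : G × G) : |(B.bk P src).s f - (B.bk P' src).s f| ≤ δ := by
  change |B.sc P f - B.sc P' f| ≤ δ
  have hδ : 0 ≤ δ := (abs_nonneg _).trans hD.z
  unfold Bg.sc
  split_ifs
  · exact (abs_sqrt_sub_le (hP.z.trans hP.θ1) (hP'.z.trans hP'.θ1)).trans hD.z
  · rw [sub_self, abs_zero]; exact hδ

theorem shyp_no (B : Bg G) (P : MPar) (nm : Finset (G × G) → A → ℝ≥0∞) (c Γ : ℝ) :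
    SHyp (B.bk P (noSrc G A)) nm c Γ 0 (fun _ => 0) (fun _ => 0) where
  αt k := k.elim0
  φt k := k.elim0
  a k := k.elim0
  F k := k.elim0
  card k := k.elim0
  tot f := by simp

end bk

/-! ### the bounds -/

section main

variable {G : Type} [CommRing G] [CN G] [GoodG G] [DecidableEq G]
variable {B : Bg G} {P P' : MPar} {θ δ a Γ : ℝ} {l k0 : ℕ}

/-- the initial activities without sources -/
abbrev A0 (B : Bg G) (P : MPar) (l k0 : ℕ) : Finset (G × G) → Ge (Fld G) :=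
  B.K0 P LinearMap.id (noSrc G (Ge (Fld G))) l k0

/-- their explicit first order part -/
abbrev A01 (B : Bg G) (P : MPar) : Finset (G × G) → Ge (Fld G) :=
  K01 (frG (LinearMap.id : Fld G →ₗ[ℝ] Fld G)) (B.bk P (noSrc G (Ge (Fld G))))

/-- the size of the initial activities -/
def S0 (R l k0 : ℕ) (Γ a θ : ℝ) : ℝ := Kc R Γ (cB a (rr l k0 0)) * θ

/-- the hypotheses on the numbers -/
structure NumB (R l k0 : ℕ) (Γ a θ : ℝ) : Prop where
  a0 : 0 ≤ a
  Γ3 : 3 ≤ Γ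
  r6 : 6 ≤ rr l k0 0
  sm : 4 * S0 R l k0 Γ a θ * m0 R ≤ 1
  sm' : (mI (rr l k0 0) (nearR l k0 0) : ℝ) * (24 * nI (rr l k0 0) * S0 R l k0 Γ a θ) ≤ 1

theorem SS_eq (R l k0 : ℕ) (Γ a θ : ℝ) :
    SS R Γ (cB a (rr l k0 0)) θ 0 = S0 R l k0 Γ a θ := by
  unfold SS S0; rw [add_zero]

theorem NumB.num {R : ℕ} (h : NumB R l k0 Γ a θ) :
    Num R (rr l k0 0) 1 (nearR l k0 0) Γ (cB a (rr l k0 0)) θ 0 where
  Γ3 := h.Γ3
  R1 := le_rfl
  Rr := by have := h.r6; omega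
  εs0 := le_rfl
  sm := by rw [SS_eq]; exact h.sm
  sm' := by rw [SS_eq]; exact h.sm'

theorem bg_NN (hw : ∀ z j, |B.w z j| ≤ 1) (hP : PHyp P θ) (h : NumB P.R l k0 Γ a θ) :
    NN fd (rr l k0 0) (ENNReal.ofReal Γ)
      (fun U => pG (wU B.w a (rr l k0 0) U) (A0 B P l k0 U)) ≤
      ENNReal.ofReal (8 * nI (rr l k0 0) * S0 P.R l k0 Γ a θ) := by
  have := init_NN (nhyp_id B.w h.a0 (rr l k0 0)) (normFam_pG B.w a (rr l k0 0))
    (bhyp hw hP (noSrc G (Ge (Fld G)))) (shyp_no B P _ _ Γ) (fun k => k.elim0) h.num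
  rw [← SS_eq]
  exact this

theorem bg_NN_sub (hw : ∀ z j, |B.w z j| ≤ 1) (hP : PHyp P θ) (h : NumB P.R l k0 Γ a θ) :
    NN fd (rr l k0 0) (ENNReal.ofReal Γ)
      (fun U => pG (wU B.w a (rr l k0 0) U) (A0 B P l k0 U - A01 B P U)) ≤
      ENNReal.ofReal ((36 * mI (rr l k0 0) (nearR l k0 0) * (nI (rr l k0 0)) ^ 2 +
        4 * nI (rr l k0 0) * m0 P.R) * S0 P.R l k0 Γ a θ ^ 2) := by
  have := init_NN_sub (nhyp_id B.w h.a0 (rr l k0 0)) (normFam_pG B.w a (rr l k0 0))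
    (bhyp hw hP (noSrc G (Ge (Fld G)))) (shyp_no B P _ _ Γ) (fun k => k.elim0) h.num
  rw [← SS_eq]
  exact this

theorem bg_NN_lip (hw : ∀ z j, |B.w z j| ≤ 1) (hP : PHyp P θ) (hP' : PHyp P' θ)
    (hD : DHyp P P' δ) (hθ : 0 < θ) (h : NumB P.R l k0 Γ a θ) :
    NN fd (rr l k0 0) (ENNReal.ofReal Γ)
      (fun U => pG (wU B.w a (rr l k0 0) U) (A0 B P l k0 U - A0 B P' l k0 U)) ≤
      ENNReal.ofReal (42 * nI (rr l k0 0) * S0 P.R l k0 Γ a δ) := by
  have hδ : 0 ≤ δ := (abs_nonneg _).trans hD.z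
  have e : δ / θ * S0 P.R l k0 Γ a θ = S0 P.R l k0 Γ a δ := by
    unfold S0; field_simp
  have := init_NN_lip (nhyp_id B.w h.a0 (rr l k0 0)) (normFam_pG B.w a (rr l k0 0))
    (bhyp hw hP (noSrc G (Ge (Fld G)))) (bhyp hw hP' (noSrc G (Ge (Fld G))))
    (shyp_no B P _ _ Γ) (fun k => k.elim0) h.num (same_bk hD _) (s_bk hP hP' hD _) hD.t
    (η := δ / θ) (by rw [div_mul_cancel₀ _ hθ.ne']) (by positivity)
  refine this.trans (ENNReal.ofReal_le_ofReal (le_of_eq ?_))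
  change 42 * (nI (rr l k0 0) : ℝ) * (δ / θ) * SS P.R Γ (cB a (rr l k0 0)) θ 0 = _
  rw [SS_eq, mul_assoc, e]

theorem bg_NN_lip2 (hw : ∀ z j, |B.w z j| ≤ 1) (hP : PHyp P θ) (hP' : PHyp P' θ)
    (hD : DHyp P P' δ) (hθ : 0 < θ) (h : NumB P.R l k0 Γ a θ) :
    NN fd (rr l k0 0) (ENNReal.ofReal Γ)
      (fun U => pG (wU B.w a (rr l k0 0) U)
        ((A0 B P l k0 U - A01 B P U) - (A0 B P' l k0 U - A01 B P' U))) ≤
      ENNReal.ofReal ((864 * mI (rr l k0 0) (nearR l k0 0) * (nI (rr l k0 0)) ^ 2 +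
        12 * nI (rr l k0 0) * m0 P.R) * (S0 P.R l k0 Γ a δ * S0 P.R l k0 Γ a θ)) := by
  have hδ : 0 ≤ δ := (abs_nonneg _).trans hD.z
  have e : δ / θ * S0 P.R l k0 Γ a θ = S0 P.R l k0 Γ a δ := by
    unfold S0; field_simp
  have := init_NN_lip2 (nhyp_id B.w h.a0 (rr l k0 0)) (normFam_pG B.w a (rr l k0 0))
    (bhyp hw hP (noSrc G (Ge (Fld G)))) (bhyp hw hP' (noSrc G (Ge (Fld G))))
    (shyp_no B P _ _ Γ) (fun k => k.elim0) h.num (same_bk hD _) (s_bk hP hP' hD _) hD.t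
    (η := δ / θ) (by rw [div_mul_cancel₀ _ hθ.ne']) (by positivity)
  refine this.trans (ENNReal.ofReal_le_ofReal (le_of_eq ?_))
  change (864 * (mI (rr l k0 0) (nearR l k0 0) : ℝ) * (nI (rr l k0 0)) ^ 2 +
        12 * nI (rr l k0 0) * m0 P.R) * (δ / θ) * SS P.R Γ (cB a (rr l k0 0)) θ 0 ^ 2 = _
  rw [SS_eq, ← e]
  ring

/-! ### the norms `NK` -/

variable (p : Finset (G × G) → Prop)





end main

/-! ### one constant for all backgrounds -/

section exist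


/-- the constant -/
def CI (R l k0 : ℕ) (Γ a : ℝ) : ℝ :=
  8 * nI (rr l k0 0) * Kc R Γ (cB a (rr l k0 0)) + 42 * nI (rr l k0 0) * Kc R Γ (cB a (rr l k0 0)) +
    (864 * mI (rr l k0 0) (nearR l k0 0) * (nI (rr l k0 0)) ^ 2 + 12 * nI (rr l k0 0) * m0 R) *
      Kc R Γ (cB a (rr l k0 0)) ^ 2 +
    (24 * mI (rr l k0 0) (nearR l k0 0) * nI (rr l k0 0) + 4 * m0 R) *
      Kc R Γ (cB a (rr l k0 0)) + 1

theorem CI_parts (R l k0 : ℕ) {Γ : ℝ} (a : ℝ) (hΓ : 3 ≤ Γ) :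
    1 ≤ CI R l k0 Γ a ∧
    8 * nI (rr l k0 0) * Kc R Γ (cB a (rr l k0 0)) ≤ CI R l k0 Γ a ∧
    42 * nI (rr l k0 0) * Kc R Γ (cB a (rr l k0 0)) ≤ CI R l k0 Γ a ∧
    (864 * mI (rr l k0 0) (nearR l k0 0) * (nI (rr l k0 0)) ^ 2 + 12 * nI (rr l k0 0) * m0 R) *
      Kc R Γ (cB a (rr l k0 0)) ^ 2 ≤ CI R l k0 Γ a ∧
    24 * mI (rr l k0 0) (nearR l k0 0) * nI (rr l k0 0) * Kc R Γ (cB a (rr l k0 0)) ≤
      CI R l k0 Γ a ∧
    4 * m0 R * Kc R Γ (cB a (rr l k0 0)) ≤ CI R l k0 Γ a := by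
  have hK := Kc_nonneg R (by linarith : (1 : ℝ) ≤ Γ) (one_le_cB a (rr l k0 0))
  have h1 : (0 : ℝ) ≤ 8 * nI (rr l k0 0) * Kc R Γ (cB a (rr l k0 0)) := by positivity
  have h2 : (0 : ℝ) ≤ 42 * nI (rr l k0 0) * Kc R Γ (cB a (rr l k0 0)) := by positivity
  have h3 : (0 : ℝ) ≤ (864 * mI (rr l k0 0) (nearR l k0 0) * (nI (rr l k0 0)) ^ 2 +
    12 * nI (rr l k0 0) * m0 R) * Kc R Γ (cB a (rr l k0 0)) ^ 2 := by positivity
  have h4 : (0 : ℝ) ≤ 24 * mI (rr l k0 0) (nearR l k0 0) * nI (rr l k0 0) *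
    Kc R Γ (cB a (rr l k0 0)) := by positivity
  have h5 : (0 : ℝ) ≤ 4 * m0 R * Kc R Γ (cB a (rr l k0 0)) := by positivity
  unfold CI
  refine ⟨?_, ?_, ?_, ?_, ?_, ?_⟩ <;> nlinarith

theorem numB_of {R l k0 : ℕ} {Γ a θ : ℝ} (ha : 0 ≤ a) (hΓ : 3 ≤ Γ) (hr : 6 ≤ rr l k0 0)
    (hθ : 0 ≤ θ) (hs : CI R l k0 Γ a * θ ≤ 1) : NumB R l k0 Γ a θ := by
  obtain ⟨h1, -, -, -, h5, h6⟩ := CI_parts R l k0 a hΓ
  refine ⟨ha, hΓ, hr, ?_, ?_⟩
  · refine le_trans ?_ hs
    calc 4 * S0 R l k0 Γ a θ * m0 R = 4 * m0 R * Kc R Γ (cB a (rr l k0 0)) * θ := by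
          unfold S0; ring
      _ ≤ _ := mul_le_mul_of_nonneg_right h6 hθ
  · refine le_trans ?_ hs
    calc (mI (rr l k0 0) (nearR l k0 0) : ℝ) * (24 * nI (rr l k0 0) * S0 R l k0 Γ a θ) =
          24 * mI (rr l k0 0) (nearR l k0 0) * nI (rr l k0 0) * Kc R Γ (cB a (rr l k0 0)) * θ := by
            unfold S0; ring
      _ ≤ _ := mul_le_mul_of_nonneg_right h5 hθ

variable {G : Type} [CommRing G] [CN G] [GoodG G] [DecidableEq G]
variable {B : Bg G} {P P' : MPar} {θ δ a Γ : ℝ} {l k0 : ℕ}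

/-- **all the bounds**, with one constant which does not see the background -/
theorem init_all (ha : 0 ≤ a) (hΓ : 3 ≤ Γ) (hr : 6 ≤ rr l k0 0)
    (hw : ∀ z j, |B.w z j| ≤ 1) (hP : PHyp P θ) (hs : CI P.R l k0 Γ a * θ ≤ 1) :
    NN fd (rr l k0 0) (ENNReal.ofReal Γ)
      (fun U => pG (wU B.w a (rr l k0 0) U) (A0 B P l k0 U)) ≤
      ENNReal.ofReal (CI P.R l k0 Γ a * θ) ∧
    NN fd (rr l k0 0) (ENNReal.ofReal Γ)
      (fun U => pG (wU B.w a (rr l k0 0) U) (A0 B P l k0 U - A01 B P U)) ≤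
      ENNReal.ofReal (CI P.R l k0 Γ a * θ ^ 2) := by
  have hn := numB_of (R := P.R) ha hΓ hr hP.θ0 hs
  obtain ⟨h1, h2, h3, h4, h5, h6⟩ := CI_parts P.R l k0 a hΓ
  have hK := Kc_nonneg P.R (by linarith : (1 : ℝ) ≤ Γ) (one_le_cB a (rr l k0 0))
  refine ⟨(bg_NN hw hP hn).trans (ENNReal.ofReal_le_ofReal ?_),
    (bg_NN_sub hw hP hn).trans (ENNReal.ofReal_le_ofReal ?_)⟩
  · calc 8 * nI (rr l k0 0) * S0 P.R l k0 Γ a θ =
          8 * nI (rr l k0 0) * Kc P.R Γ (cB a (rr l k0 0)) * θ := by unfold S0; ring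
      _ ≤ _ := mul_le_mul_of_nonneg_right h2 hP.θ0
  · have h7 : (36 * mI (rr l k0 0) (nearR l k0 0) * (nI (rr l k0 0)) ^ 2 +
        4 * nI (rr l k0 0) * m0 P.R) * Kc P.R Γ (cB a (rr l k0 0)) ^ 2 ≤ CI P.R l k0 Γ a := by
      refine le_trans (mul_le_mul_of_nonneg_right ?_ (sq_nonneg _)) h4
      have a1 : (0 : ℝ) ≤ mI (rr l k0 0) (nearR l k0 0) * (nI (rr l k0 0)) ^ 2 := by positivity
      have a2 : (0 : ℝ) ≤ nI (rr l k0 0) * m0 P.R := by positivity
      nlinarith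
    calc (36 * mI (rr l k0 0) (nearR l k0 0) * (nI (rr l k0 0)) ^ 2 +
        4 * nI (rr l k0 0) * m0 P.R) * S0 P.R l k0 Γ a θ ^ 2 =
          (36 * mI (rr l k0 0) (nearR l k0 0) * (nI (rr l k0 0)) ^ 2 +
        4 * nI (rr l k0 0) * m0 P.R) * Kc P.R Γ (cB a (rr l k0 0)) ^ 2 * θ ^ 2 := by
            unfold S0; ring
      _ ≤ _ := mul_le_mul_of_nonneg_right h7 (sq_nonneg _)

/-- **all the Lipschitz bounds** -/
theorem init_all_lip (ha : 0 ≤ a) (hΓ : 3 ≤ Γ) (hr : 6 ≤ rr l k0 0)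
    (hw : ∀ z j, |B.w z j| ≤ 1) (hP : PHyp P θ) (hP' : PHyp P' θ) (hD : DHyp P P' δ)
    (hθ : 0 < θ) (hs : CI P.R l k0 Γ a * θ ≤ 1) :
    NN fd (rr l k0 0) (ENNReal.ofReal Γ)
      (fun U => pG (wU B.w a (rr l k0 0) U) (A0 B P l k0 U - A0 B P' l k0 U)) ≤
      ENNReal.ofReal (CI P.R l k0 Γ a * δ) ∧
    NN fd (rr l k0 0) (ENNReal.ofReal Γ)
      (fun U => pG (wU B.w a (rr l k0 0) U)
        ((A0 B P l k0 U - A01 B P U) - (A0 B P' l k0 U - A01 B P' U))) ≤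
      ENNReal.ofReal (CI P.R l k0 Γ a * (δ * θ)) := by
  have hn := numB_of (R := P.R) ha hΓ hr hP.θ0 hs
  have hδ : 0 ≤ δ := (abs_nonneg _).trans hD.z
  obtain ⟨h1, h2, h3, h4, h5, h6⟩ := CI_parts P.R l k0 a hΓ
  refine ⟨(bg_NN_lip hw hP hP' hD hθ hn).trans (ENNReal.ofReal_le_ofReal ?_),
    (bg_NN_lip2 hw hP hP' hD hθ hn).trans (ENNReal.ofReal_le_ofReal ?_)⟩
  · calc 42 * nI (rr l k0 0) * S0 P.R l k0 Γ a δ =
          42 * nI (rr l k0 0) * Kc P.R Γ (cB a (rr l k0 0)) * δ := by unfold S0; ring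
      _ ≤ _ := mul_le_mul_of_nonneg_right h3 hδ
  · calc (864 * mI (rr l k0 0) (nearR l k0 0) * (nI (rr l k0 0)) ^ 2 +
        12 * nI (rr l k0 0) * m0 P.R) * (S0 P.R l k0 Γ a δ * S0 P.R l k0 Γ a θ) =
          (864 * mI (rr l k0 0) (nearR l k0 0) * (nI (rr l k0 0)) ^ 2 +
        12 * nI (rr l k0 0) * m0 P.R) * Kc P.R Γ (cB a (rr l k0 0)) ^ 2 * (δ * θ) := by
            unfold S0; ring
      _ ≤ _ := mul_le_mul_of_nonneg_right h4 (mul_nonneg hδ hP.θ0)

end exist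

/-! ### with local sources -/

section src

variable {G : Type} [CommRing G] [CN G] [GoodG G] [DecidableEq G]
variable {B : Bg G} {P : MPar} {θ a Γ : ℝ} {l k0 : ℕ}
variable {V : Type*} [AddCommGroup V] [Module ℝ V] {κ : Type} [DecidableEq κ] [Fintype κ]


end src

end Crest.Agent.R165.InitBx682
end
end

-- ▼ part R165/J4K0P_871
section

/-!
# Row 165 (S0250), block INIT: explicit first order part of the initial activities of the plane
(helper871)

* `PB_pr`   : `PB (pr (0,j)) = ep (single (0,j) 1)`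
* `anc Y₀ a`: anchored family `U ↦ ∑_{u ∈ U, Y₀ + u = U} a u`
* `K01_pl`  : exact formula of 126's `K01` in the plane
* `Kex`, `Kct`, `par`
* `NI_anc_le`
-/

set_option autoImplicit false
set_option linter.unusedSectionVars false

noncomputable section

open Finset
open scoped ENNReal
open Crest.ProbabilityR.IsingModel

namespace Crest.Agent.R165.J4K0Px871

open Crest.Agent.R165.J4Actx126
open Crest.Agent.R165.J4Datx126 Crest.Agent.R165.J4Geox126 Crest.Agent.R165.J4K0x126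
open Crest.Agent.R165.J4K0Bx126
open Crest.Agent.R165.J4Defx653 Crest.Agent.R165.J4Pathx653
open Crest.Agent.R165.J4RRx653 Crest.Agent.R165.J4RRAx653
open Crest.Agent.R165.J1ax606 (HE EG pe qe pe_zero pe_one qe_zero qe_one)
open Crest.Agent.R165.Bkgx683 (MPar mpar Srcs noSrc Bg)
open Crest.Agent.R165.Latx683 (xc wPl)
open Crest.Agent.R165.KInitx892

/-! ### the representation of a nearest neighbour pair -/

theorem hull_pr (j : Fin 2) {e : Ed} (he : e ∈ edIn (hull (pr ((0 : ℤ × ℤ), j)))) :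
    e = ((0 : ℤ × ℤ), j) := by
  obtain ⟨⟨z1, z2⟩, k⟩ := e
  obtain ⟨h1, h2⟩ := he
  have hu0 : unitVec 0 = (1, 0) := rfl
  have hu1 : unitVec 1 = (0, 1) := rfl
  simp only [hull, pr, Set.mem_ofPred_eq, mem_insert, mem_singleton, exists_eq_or_imp,
    exists_eq_left, zero_add] at h1 h2
  have hj : j = 0 ∨ j = 1 := by
    fin_cases j
    · exact Or.inl rfl
    · exact Or.inr rfl
  have hk : k = 0 ∨ k = 1 := by
    fin_cases k
    · exact Or.inl rfl
    · exact Or.inr rfl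
  rcases hj with rfl | rfl <;> rcases hk with rfl | rfl <;>
    simp only [hu0, hu1, Prod.fst_zero, Prod.snd_zero, Prod.fst_add, Prod.snd_add] at h1 h2
  · have e1 : z1 = 0 := by omega
    have e2 : z2 = 0 := by omega
    subst e1; subst e2; rfl
  · exfalso; omega
  · exfalso; omega
  · have e1 : z1 = 0 := by omega
    have e2 : z2 = 0 := by omega
    subst e1; subst e2; rfl

theorem mem_RIn_single {E : Type*} {e : E} {F : RR E} (hF : F ∈ RIn ({e} : Set E)) :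
    ∃ α β : ℝ, F = α • (1 : RR E) + β • ep (Finsupp.single e 1) := by
  refine RIn_ind (P := fun F => ∃ α β : ℝ, F = α • (1 : RR E) + β • ep (Finsupp.single e 1))
    ⟨0, 0, by simp⟩ ?_ ?_ hF
  · rintro F G ⟨a, b, rfl⟩ ⟨c, d, rfl⟩
    exact ⟨a + c, b + d, by rw [add_smul, add_smul]; abel⟩
  · intro c S hS
    by_cases h0 : S e = 0
    · refine ⟨c, 0, ?_⟩
      have : S = 0 := by
        ext x
        by_cases hx : x = e
        · rw [hx, h0]; rfl
        · by_contra hne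
          exact hx (hS (Finset.mem_coe.2 (Finsupp.mem_support_iff.2 hne)))
      rw [this, ep_zero, zero_smul, add_zero]
    · refine ⟨0, c, ?_⟩
      have h1 : S e = 1 := by
        revert h0
        generalize S e = k
        revert k
        decide
      have : S = Finsupp.single e 1 := by
        ext x
        by_cases hx : x = e
        · rw [hx, h1, Finsupp.single_eq_same]
        · rw [Finsupp.single_eq_of_ne hx]
          by_contra hne
          exact hx (hS (Finset.mem_coe.2 (Finsupp.mem_support_iff.2 hne)))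
      rw [this, zero_smul, zero_add]

theorem even_card_pr (e : Ed) : Even (pr e).card := by
  have hne : e.1 ≠ e.1 + unitVec e.2 := by
    intro h
    have h0 : unitVec e.2 = 0 := by simpa using h.symm
    have hj : e.2 = 0 ∨ e.2 = 1 := by
      generalize e.2 = j
      fin_cases j
      · exact Or.inl rfl
      · exact Or.inr rfl
    rcases hj with hj | hj <;> rw [hj] at h0
    · have : ((1 : ℤ), (0 : ℤ)) = 0 := h0
      simp at this
    · have : ((0 : ℤ), (1 : ℤ)) = 0 := h0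
      simp at this
  rw [pr, Finset.card_pair hne]
  exact even_two

/-- **the representation of a nearest neighbour pair is the bond variable** -/
theorem PB_pr (j : Fin 2) : PB (pr ((0 : ℤ × ℤ), j)) =
    ep (Finsupp.single ((0 : ℤ × ℤ), j) 1) := by
  have h1 := PB_mem (pr ((0 : ℤ × ℤ), j)) (even_card_pr _)
  have h2 : PB (pr ((0 : ℤ × ℤ), j)) ∈ RIn ({((0 : ℤ × ℤ), j)} : Set Ed) :=
    RIn_mono (fun e he => hull_pr j he) h1
  obtain ⟨α, β, hF⟩ := mem_RIn_single h2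
  have h3 : ∀ s : ℤ × ℤ → Bool, α + β * epsE s (0, j) = epsE s (0, j) := by
    intro s
    have h4 := PB_eval (pr ((0 : ℤ × ℤ), j)) (even_card_pr _) s
    rw [hF, map_add, map_smul, map_smul, TH_one, TH_ep,
      Finsupp.support_single _ one_ne_zero, Finset.prod_singleton, sB_pr, smul_eq_mul,
      smul_eq_mul, mul_one] at h4
    exact h4
  have h5 := h3 fun _ => true
  have h6 := h3 fun x => decide (x = 0)
  have hne : (0 : ℤ × ℤ) + unitVec j ≠ 0 := by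
    intro h
    rw [zero_add] at h
    have hj : j = 0 ∨ j = 1 := by
      fin_cases j
      · exact Or.inl rfl
      · exact Or.inr rfl
    rcases hj with hj | hj <;> rw [hj] at h
    · have : ((1 : ℤ), (0 : ℤ)) = 0 := h
      simp at this
    · have : ((0 : ℤ), (1 : ℤ)) = 0 := h
      simp at this
  have e5 : epsE (fun _ => true) ((0 : ℤ × ℤ), j) = 1 := by
    rw [epsE]; exact spinSign_sq true
  have e6 : epsE (fun x => decide (x = 0)) ((0 : ℤ × ℤ), j) = -1 := by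
    rw [epsE]
    simp only [decide_true]
    rw [decide_eq_false hne]
    simp [spinSign]
  rw [e5] at h5
  rw [e6] at h6
  have hα : α = 0 := by linarith
  have hβ : β = 1 := by linarith
  rw [hF, hα, hβ, zero_smul, zero_add, one_smul]

/-! ### anchored families -/

section anc
variable {A : Type*} [CommRing A] [Algebra ℝ A]

/-- anchored family: the support is a translate of `Y₀` -/
def anc (Y₀ : Finset (ℤ × ℤ)) (a : ℤ × ℤ → A) (U : Finset (ℤ × ℤ)) : A :=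
  ∑ u ∈ U, if Y₀.image (fz u) = U then a u else 0

theorem fz_int (u y : ℤ × ℤ) : fz u y = y + u := by
  unfold fz cz
  ext <;> simp [add_comm]

theorem image_fz (Y₀ : Finset (ℤ × ℤ)) (u : ℤ × ℤ) : Y₀.image (fz u) = Y₀.image (· + u) := by
  congr 1
  funext y
  exact fz_int u y

theorem card_image_fz (Y₀ : Finset (ℤ × ℤ)) (u : ℤ × ℤ) : (Y₀.image (fz u)).card = Y₀.card := by
  rw [image_fz]
  exact Finset.card_image_of_injective _ (add_left_injective u)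

theorem anc_add (Y₀ : Finset (ℤ × ℤ)) (a b : ℤ × ℤ → A) (U : Finset (ℤ × ℤ)) :
    anc Y₀ (fun u => a u + b u) U = anc Y₀ a U + anc Y₀ b U := by
  unfold anc
  rw [← Finset.sum_add_distrib]
  refine Finset.sum_congr rfl fun u _ => ?_
  split_ifs
  · rfl
  · rw [add_zero]

theorem anc_sub (Y₀ : Finset (ℤ × ℤ)) (a b : ℤ × ℤ → A) (U : Finset (ℤ × ℤ)) :
    anc Y₀ (fun u => a u - b u) U = anc Y₀ a U - anc Y₀ b U := by
  unfold anc
  rw [← Finset.sum_sub_distrib]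
  refine Finset.sum_congr rfl fun u _ => ?_
  split_ifs
  · rfl
  · rw [sub_zero]

theorem anc_smul (Y₀ : Finset (ℤ × ℤ)) (r : ℝ) (a : ℤ × ℤ → A) (U : Finset (ℤ × ℤ)) :
    anc Y₀ (fun u => r • a u) U = r • anc Y₀ a U := by
  unfold anc
  rw [Finset.smul_sum]
  refine Finset.sum_congr rfl fun u _ => ?_
  split_ifs
  · rfl
  · rw [smul_zero]

theorem anc_congr {Y₀ : Finset (ℤ × ℤ)} {a b : ℤ × ℤ → A} {U : Finset (ℤ × ℤ)}
    (h : ∀ u ∈ U, a u = b u) : anc Y₀ a U = anc Y₀ b U := by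
  unfold anc
  exact Finset.sum_congr rfl fun u hu => by rw [h u hu]

theorem anc_empty (Y₀ : Finset (ℤ × ℤ)) (a : ℤ × ℤ → A) : anc Y₀ a ∅ = 0 := by
  unfold anc; rw [Finset.sum_empty]

/-- a nonzero value of an anchored family has a translate of `Y₀` as support -/
theorem anc_ne {Y₀ : Finset (ℤ × ℤ)} {a : ℤ × ℤ → A} {U : Finset (ℤ × ℤ)} (h : anc Y₀ a U ≠ 0) :
    ∃ u ∈ U, Y₀.image (fz u) = U := by
  by_contra hcon
  push Not at hcon
  refine h (Finset.sum_eq_zero fun u hu => if_neg (hcon u hu))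

end anc

/-! ### the formula -/

section formula
variable {A : Type*} [CommRing A] [Algebra ℝ A] (fr : Fr ℤ A)

/-- the plane as a background of 126 -/
abbrev plB (A : Type*) [CommRing A] [Algebra ℝ A] (P : MPar) : Bk ℤ (Fin 0) A :=
  Bg.pl.bk P (noSrc ℤ A)

theorem plB_y (P : MPar) (e : EG ℤ) : (plB A P).y e = xc := rfl

theorem plB_s {P : MPar} (f : ℤ × ℤ) : (plB A P).s f = Real.sqrt (1 + P.z) := by
  change Bg.sc Bg.pl P f = _
  unfold Bg.sc
  exact if_pos trivial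

theorem plB_ss {P : MPar} (hz : 0 ≤ 1 + P.z) (f f' : ℤ × ℤ) :
    (plB A P).s f * (plB A P).s f' = 1 + P.z := by
  rw [plB_s, plB_s, Real.mul_self_sqrt hz]

/-- image of the bond variable -/
def gP (P : MPar) (e : EG ℤ) : A := 1 - (2 * (xc * (1 + P.z))) • fr.b e

theorem plB_g {P : MPar} (hz : 0 ≤ 1 + P.z) : (plB A P).g fr = gP fr P := by
  funext e
  unfold Bk.g gP
  rw [plB_ss hz, plB_y]

/-- value of a shape -/
def vS (P : MPar) (S : Finset (ℤ × ℤ)) (u : ℤ × ℤ) : A :=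
  TH (gP fr P) (em (ez u) (kB (P.t S) S))

/-- **exact formula of the first order part** -/
theorem K01_pl {P : MPar} (hz : 0 ≤ 1 + P.z) (U : Finset (ℤ × ℤ)) :
    K01 fr (plB A P) U = (∑ S ∈ (Can P.R).filter (fun S => Even S.card), anc (Yf S) (vS fr P S) U) +
      anc {0} (fun f => P.z • fr.I4 f + (P.z ^ 2 / 2) • (fr.I4 f * fr.I4 f)) U +
      ∑ j : Fin 2, anc (faE ((0 : ℤ × ℤ), j)) (fun u => (xc * P.z) • fr.b (u, j)) U := by
  classical
  unfold K01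
  rw [Finset.sum_filter]
  unfold Bk.ixs
  rw [Finset.sum_disjSum, Finset.sum_disjSum, Finset.sum_disjSum]
  have hk : ∑ k ∈ (plB A P).srcs U, (if (plB A P).YI (Sum.inr (Sum.inr (Sum.inr k))) = U then
      val fr (plB A P) (Sum.inr (Sum.inr (Sum.inr k))) else 0) = 0 :=
    Finset.sum_eq_zero fun k _ => k.elim0
  rw [hk, add_zero]
  rw [add_assoc]
  congr 1
  · -- shapes
    unfold Bk.shp
    rw [Finset.sum_filter, Finset.sum_product_right, Finset.sum_filter]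
    refine Finset.sum_congr rfl fun S _ => ?_
    by_cases hev : Even S.card
    · rw [if_pos hev]
      unfold anc
      refine Finset.sum_congr rfl fun u _ => ?_
      by_cases hU : (Yf S).image (fz u) = U
      · have h1 : (Even ((u, S) : (ℤ × ℤ) × Finset (ℤ × ℤ)).2.card ∧
            (plB A P).ok ((u, S) : (ℤ × ℤ) × Finset (ℤ × ℤ)).1
              ((u, S) : (ℤ × ℤ) × Finset (ℤ × ℤ)).2) ∧
            (Yf ((u, S) : (ℤ × ℤ) × Finset (ℤ × ℤ)).2).image
              (fz ((u, S) : (ℤ × ℤ) × Finset (ℤ × ℤ)).1) ⊆ U := ⟨⟨hev, trivial⟩, hU.le⟩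
        have h2 : (plB A P).YI (Sum.inl (u, S)) = U := hU
        rw [if_pos h1, if_pos h2, if_pos hU]
        change 1 * TH ((plB A P).g fr) (em (ez u) (kB (P.t S) S)) = _
        rw [one_mul, plB_g fr hz]
        rfl
      · have h2 : ¬ (plB A P).YI (Sum.inl (u, S)) = U := hU
        rw [if_neg h2, if_neg hU, ite_self]
    · rw [if_neg hev]
      refine Finset.sum_eq_zero fun u _ => ?_
      exact if_neg fun h => hev h.1.1
  · congr 1
    · -- faces
      unfold anc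
      refine Finset.sum_congr rfl fun f _ => ?_
      have hI : ({0} : Finset (ℤ × ℤ)).image (fz f) = {f} := by
        rw [Finset.image_singleton, fz_zero]
      rw [hI]
      change (if ({f} : Finset (ℤ × ℤ)) = U then
        (((plB A P).cI f • fr.I4 f + ((plB A P).cI f ^ 2 / 2) • (fr.I4 f * fr.I4 f)) *
          TH ((plB A P).g fr) (1 : RR (EG ℤ))) else 0) = _
      have hc : (plB A P).cI f = P.z := by
        unfold Bk.cI
        rw [plB_ss hz]; ring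
      rw [hc, TH_one, mul_one]
    · -- bonds
      unfold Bk.edg
      rw [Finset.sum_filter, Finset.sum_product_right]
      refine Finset.sum_congr rfl fun j _ => ?_
      unfold anc
      refine Finset.sum_congr rfl fun u _ => ?_
      have hI : (faE ((0 : ℤ × ℤ), j)).image (fz u) = faE (u, j) := by
        rw [← faE_ez]
        unfold ez
        simp
      rw [hI]
      change (if faE (u, j) ⊆ U then (if faE (u, j) = U then
        (((plB A P).y (u, j) * ((plB A P).s (pe (u, j)).1 * (plB A P).s (qe (u, j)).1 - 1)) •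
          fr.b (u, j)) * TH ((plB A P).g fr) (1 : RR (EG ℤ)) else 0) else 0) = _
      rw [TH_one, mul_one, plB_ss hz, plB_y]
      by_cases hU : faE (u, j) = U
      · rw [if_pos hU.le, if_pos hU, if_pos hU]
        congr 2
        ring
      · rw [if_neg hU, if_neg hU, ite_self]

/-! ### the explicit part -/

/-- explicit linear part: `p` = shift of the coupling, `z` = rescaling -/
def Kex (p z : ℝ) (U : Finset (ℤ × ℤ)) : A :=
  ∑ j : Fin 2, anc (Yf (pr ((0 : ℤ × ℤ), j))) (fun u => (-(2 * xc * p)) • fr.b (u, j)) U +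
    z • (anc {0} fr.I4 U +
      ∑ j : Fin 2, anc (faE ((0 : ℤ × ℤ), j)) (fun u => xc • fr.b (u, j)) U)

/-- explicit constants -/
def Kct (A : Type*) [CommRing A] [Algebra ℝ A] (p : ℝ) (U : Finset (ℤ × ℤ)) : A :=
  ∑ j : Fin 2, anc (Yf (pr ((0 : ℤ × ℤ), j))) (fun _ => p • (1 : A)) U

theorem TH_g_single (g : EG ℤ → A) (u : ℤ × ℤ) (j : Fin 2) :
    TH g (em (ez u) (ep (Finsupp.single ((0 : ℤ × ℤ), j) 1))) = g (u, j) := by
  rw [em_ep, Finsupp.mapDomain_single, TH_ep, Finsupp.support_single _ one_ne_zero,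
    Finset.prod_singleton]
  unfold ez
  rw [fz_zero]

/-- value of a nearest neighbour shape -/
theorem vS_pr (P : MPar) (j : Fin 2) (u : ℤ × ℤ) : vS fr P (pr ((0 : ℤ × ℤ), j)) u =
    (Real.cosh (P.t (pr (0, j))) - 1) • (1 : A) + Real.sinh (P.t (pr (0, j))) • gP fr P (u, j) := by
  unfold vS kB
  rw [PB_pr, map_add, map_smul, map_smul, map_one, map_add, map_smul, map_smul, TH_one,
    TH_g_single]

/-- remainder of a nearest neighbour shape -/
def rN (P : MPar) (p : ℝ) (j : Fin 2) (u : ℤ × ℤ) : A :=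
  vS fr P (pr ((0 : ℤ × ℤ), j)) u - (-(2 * xc * p)) • fr.b (u, j) - p • (1 : A)

theorem rN_eq (P : MPar) (p : ℝ) (j : Fin 2) (u : ℤ × ℤ) : rN fr P p j u =
    (Real.exp (P.t (pr (0, j))) - 1 - p) • (1 : A) +
      (-(2 * xc * (Real.sinh (P.t (pr (0, j))) * (1 + P.z) - p))) • fr.b (u, j) := by
  unfold rN
  rw [vS_pr]
  unfold gP
  have h1 : Real.exp (P.t (pr (0, j))) = Real.cosh (P.t (pr (0, j))) + Real.sinh (P.t (pr (0, j))) :=
    (Real.cosh_add_sinh _).symm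
  rw [h1, smul_sub, smul_smul]
  module

open Classical in
/-- sum over the even shapes -/
theorem sum_Can_even {R : ℕ} (hR : 1 ≤ R) {M : Type*} [AddCommMonoid M]
    (F : Finset (ℤ × ℤ) → M) :
    ∑ S ∈ (Can R).filter (fun S => Even S.card), F S =
      ∑ S ∈ ((Can R).filter (fun S => Even S.card)).filter (fun S => ¬ IsNN S), F S +
        ∑ j : Fin 2, F (pr ((0 : ℤ × ℤ), j)) := by
  rw [← Finset.sum_filter_add_sum_filter_not ((Can R).filter (fun S => Even S.card))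
    (fun S => IsNN S), add_comm]
  congr 1
  have : ((Can R).filter (fun S => Even S.card)).filter (fun S => IsNN S) =
      (univ : Finset (Fin 2)).image fun j => pr (0, j) := by
    ext S
    rw [Finset.mem_filter, Finset.mem_filter, Finset.mem_image]
    constructor
    · rintro ⟨⟨h1, _⟩, h2⟩
      obtain ⟨j, rfl⟩ := isNN_Can h1 h2
      exact ⟨j, mem_univ _, rfl⟩
    · rintro ⟨j, _, rfl⟩
      exact ⟨⟨pr_zero_mem_Can hR j, even_card_pr _⟩, _, rfl⟩
  rw [this, Finset.sum_image]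
  intro i _ j _ h
  have := pr_injective h
  simpa using this

open Classical in
/-- even shapes which are not nearest neighbour pairs -/
def evN (R : ℕ) : Finset (Finset (ℤ × ℤ)) :=
  ((Can R).filter (fun S => Even S.card)).filter (fun S => ¬ IsNN S)

theorem mem_evN {R : ℕ} {S : Finset (ℤ × ℤ)} : S ∈ evN R ↔ S ∈ Can R ∧ Even S.card ∧ ¬ IsNN S := by
  classical
  unfold evN
  rw [Finset.mem_filter, Finset.mem_filter, and_assoc]

/-- **the remainder of the first order part** -/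
def R1 (P : MPar) (p : ℝ) (U : Finset (ℤ × ℤ)) : A :=
  K01 fr (plB A P) U - Kex fr p P.z U - Kct A p U

theorem R1_eq {P : MPar} (hz : 0 ≤ 1 + P.z) (hR : 1 ≤ P.R) (p : ℝ) (U : Finset (ℤ × ℤ)) :
    R1 fr P p U = ∑ S ∈ evN P.R, anc (Yf S) (vS fr P S) U +
      ∑ j : Fin 2, anc (Yf (pr ((0 : ℤ × ℤ), j))) (rN fr P p j) U +
      anc {0} (fun f => (P.z ^ 2 / 2) • (fr.I4 f * fr.I4 f)) U := by
  unfold R1
  rw [K01_pl fr hz, sum_Can_even hR]
  unfold Kex Kct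
  have e1 : ∀ j : Fin 2, anc (Yf (pr ((0 : ℤ × ℤ), j))) (rN fr P p j) U =
      anc (Yf (pr ((0 : ℤ × ℤ), j))) (vS fr P (pr (0, j))) U -
        anc (Yf (pr ((0 : ℤ × ℤ), j))) (fun u => (-(2 * xc * p)) • fr.b (u, j)) U -
        anc (Yf (pr ((0 : ℤ × ℤ), j))) (fun _ => p • (1 : A)) U := by
    intro j
    rw [← anc_sub, ← anc_sub]
    rfl
  have e2 : anc {0} (fun f => P.z • fr.I4 f + (P.z ^ 2 / 2) • (fr.I4 f * fr.I4 f)) U =
      P.z • anc {0} fr.I4 U + anc {0} (fun f => (P.z ^ 2 / 2) • (fr.I4 f * fr.I4 f)) U := by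
    rw [anc_add, anc_smul]
  have e3 : ∑ j : Fin 2, anc (faE ((0 : ℤ × ℤ), j)) (fun u => (xc * P.z) • fr.b (u, j)) U =
      P.z • ∑ j : Fin 2, anc (faE ((0 : ℤ × ℤ), j)) (fun u => xc • fr.b (u, j)) U := by
    rw [Finset.smul_sum]
    refine Finset.sum_congr rfl fun j _ => ?_
    rw [← anc_smul]
    refine anc_congr fun u _ => ?_
    rw [smul_smul, mul_comm]
  rw [e2, e3]
  simp only [e1, Finset.sum_sub_distrib]
  unfold evN
  rw [smul_add]
  abel

end formula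

end Crest.Agent.R165.J4K0Px871
end
end

-- ▼ part R165/J4K0Q_871
section

/-!
# Row 165 (S0250), block INIT: bounds of the explicit first order part (helper871)
-/

set_option autoImplicit false
set_option linter.unusedSectionVars false

noncomputable section

open Finset
open scoped ENNReal
open Crest.ProbabilityR.IsingModel

namespace Crest.Agent.R165.J4K0Qx871

open Crest.Agent.R165.J4Actx126
open Crest.Agent.R165.J4Datx126 Crest.Agent.R165.J4Geox126 Crest.Agent.R165.J4K0x126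
open Crest.Agent.R165.J4K0Bx126 Crest.Agent.R165.J4K0Px871
open Crest.Agent.R165.J4Defx653 Crest.Agent.R165.J4Pathx653
open Crest.Agent.R165.J4RRx653 Crest.Agent.R165.J4RRAx653
open Crest.Agent.R165.J1ax606 (HE EG pe qe pe_zero pe_one qe_zero qe_one)
open Crest.Agent.R165.Bkgx683 (MPar mpar Srcs noSrc Bg)
open Crest.Agent.R165.Latx683 (xc wPl)
open Crest.Agent.R165.KInitx892 Crest.Agent.R165.NSumx915

/-! ### norms of anchored families -/

section NI
variable {A : Type*} [CommRing A] [Algebra ℝ A] {N : Finset (ℤ × ℤ) → A → ℝ≥0∞} {Γ : ℝ≥0∞}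

theorem NI_anc_le (hN : ∀ U, FSemi (N U)) (Y₀ : Finset (ℤ × ℤ)) (a : ℤ × ℤ → A) {κ : ℝ≥0∞}
    (h : ∀ u, N (Y₀.image (fz u)) (a u) ≤ κ) (Γ : ℝ≥0∞) :
    NI (G := ℤ) Γ (fun U => N U (anc Y₀ a U)) ≤ Γ ^ Y₀.card * (Y₀.card * κ) := by
  classical
  unfold NI
  refine iSup_le fun f => ?_
  set S : Finset (ℤ × ℤ) := Y₀.image (fun y => f - y) with hS
  have hpt : ∀ U : Finset (ℤ × ℤ), Set.indicator {U : Finset (ℤ × ℤ) | f ∈ U}
      (fun U => Γ ^ U.card * N U (anc Y₀ a U)) U ≤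
      ∑ u ∈ S, (if U = Y₀.image (fz u) then Γ ^ Y₀.card * κ else 0) := by
    intro U
    by_cases hf : f ∈ U
    · rw [Set.indicator_of_mem (show U ∈ {U : Finset (ℤ × ℤ) | f ∈ U} from hf)]
      have h1 : N U (anc Y₀ a U) ≤ ∑ u ∈ U, (if Y₀.image (fz u) = U then κ else 0) := by
        unfold anc
        refine ((hN U).sum _ _).trans (Finset.sum_le_sum fun u _ => ?_)
        by_cases hu : Y₀.image (fz u) = U
        · rw [if_pos hu, if_pos hu]
          have := h u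
          rwa [hu] at this
        · rw [if_neg hu, if_neg hu, (hN U).zero]
      have h2 : ∑ u ∈ U, (if Y₀.image (fz u) = U then κ else 0) ≤
          ∑ u ∈ S, (if U = Y₀.image (fz u) then κ else 0) := by
        rw [← Finset.sum_filter, ← Finset.sum_filter]
        refine Finset.sum_le_sum_of_subset fun u hu => ?_
        rw [Finset.mem_filter] at hu ⊢
        refine ⟨?_, hu.2.symm⟩
        rw [← hu.2, Finset.mem_image] at hf
        obtain ⟨y, hy, hyf⟩ := hf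
        rw [hS, Finset.mem_image]
        refine ⟨y, hy, ?_⟩
        rw [← hyf, fz_int]
        abel
      calc Γ ^ U.card * N U (anc Y₀ a U)
          ≤ Γ ^ U.card * ∑ u ∈ S, (if U = Y₀.image (fz u) then κ else 0) := by
            gcongr; exact h1.trans h2
        _ = ∑ u ∈ S, (if U = Y₀.image (fz u) then Γ ^ Y₀.card * κ else 0) := by
            rw [Finset.mul_sum]
            refine Finset.sum_congr rfl fun u _ => ?_
            split_ifs with hu
            · rw [hu, card_image_fz]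
            · rw [mul_zero]
    · rw [Set.indicator_of_notMem (show U ∉ {U : Finset (ℤ × ℤ) | f ∈ U} from hf)]
      exact zero_le
  refine (ENNReal.tsum_le_tsum hpt).trans ?_
  rw [Summable.tsum_finsetSum fun _ _ => ENNReal.summable]
  have h3 : ∀ u ∈ S, ∑' U : Finset (ℤ × ℤ), (if U = Y₀.image (fz u) then Γ ^ Y₀.card * κ else 0) =
      Γ ^ Y₀.card * κ := fun u _ => tsum_ite_eq _ _
  rw [Finset.sum_congr rfl h3, Finset.sum_const, nsmul_eq_mul]
  have h4 : S.card ≤ Y₀.card := Finset.card_image_le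
  calc (S.card : ℝ≥0∞) * (Γ ^ Y₀.card * κ) ≤ (Y₀.card : ℝ≥0∞) * (Γ ^ Y₀.card * κ) := by gcongr
    _ = _ := by ring

theorem NI_mono {x y : Finset (ℤ × ℤ) → ℝ≥0∞} (h : ∀ U, x U ≤ y U) (Γ : ℝ≥0∞) :
    NI (G := ℤ) Γ x ≤ NI (G := ℤ) Γ y := by
  rw [← NN_eq_NI, ← NN_eq_NI]
  exact NN_mono h

theorem NI_add_le (hN : ∀ U, FSemi (N U)) (F F' : Finset (ℤ × ℤ) → A) :
    NI (G := ℤ) Γ (fun U => N U (F U + F' U)) ≤
      NI (G := ℤ) Γ (fun U => N U (F U)) + NI (G := ℤ) Γ (fun U => N U (F' U)) := by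
  refine (NI_mono (fun U => (hN U).add _ _) Γ).trans ?_
  rw [← NN_eq_NI, ← NN_eq_NI, ← NN_eq_NI]
  exact NN_add_le _ _

theorem NI_sum_le (hN : ∀ U, FSemi (N U)) {ι : Type*} (s : Finset ι)
    (F : ι → Finset (ℤ × ℤ) → A) :
    NI (G := ℤ) Γ (fun U => N U (∑ i ∈ s, F i U)) ≤
      ∑ i ∈ s, NI (G := ℤ) Γ (fun U => N U (F i U)) := by
  classical
  induction s using Finset.induction_on with
  | empty =>
    simp only [Finset.sum_empty]
    have : (fun U : Finset (ℤ × ℤ) => N U (0 : A)) = fun _ => 0 := by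
      funext U; exact (hN U).zero
    rw [this, ← NN_eq_NI, NN_zero]
  | insert i s hi ih =>
    simp only [Finset.sum_insert hi]
    exact (NI_add_le hN _ _).trans (add_le_add le_rfl ih)


end NI

/-! ### elementary inequalities -/

theorem abs_exp_sub_one_le {x : ℝ} (hx : |x| ≤ 1) : |Real.exp x - 1| ≤ 3 * |x| := by
  have := abs_exp_sub_le (x := x) (y := 0) hx (by simp)
  simpa using this

theorem mem_Icc_of {x s : ℝ} (h : |x| ≤ s) : x ∈ Set.Icc (-s) s := ⟨(abs_le.1 h).1, (abs_le.1 h).2⟩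

theorem abs_phi_sub_le {t t' s : ℝ} (hs : s ≤ 1) (ht : |t| ≤ s) (ht' : |t'| ≤ s) :
    |(Real.exp t - 1 - t) - (Real.exp t' - 1 - t')| ≤ 3 * s * |t - t'| := by
  have h := Convex.norm_image_sub_le_of_norm_hasDerivWithin_le (𝕜 := ℝ)
    (f := fun t : ℝ => Real.exp t - 1 - t) (f' := fun t => Real.exp t - 1) (C := 3 * s)
    (s := Set.Icc (-s) s) (x := t') (y := t)
    (fun x _ => (((Real.hasDerivAt_exp x).sub_const 1).sub (hasDerivAt_id x)).hasDerivWithinAt)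
    (fun x hx => ?_) (convex_Icc _ _) (mem_Icc_of ht') (mem_Icc_of ht)
  · simpa [Real.norm_eq_abs] using h
  · have hx' : |x| ≤ s := abs_le.2 ⟨hx.1, hx.2⟩
    rw [Real.norm_eq_abs]
    exact (abs_exp_sub_one_le (hx'.trans hs)).trans (by linarith)

theorem abs_psi_sub_le {t t' s : ℝ} (hs : s ≤ 1) (ht : |t| ≤ s) (ht' : |t'| ≤ s) :
    |(Real.sinh t - t) - (Real.sinh t' - t')| ≤ 3 * s * |t - t'| := by
  have h := Convex.norm_image_sub_le_of_norm_hasDerivWithin_le (𝕜 := ℝ)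
    (f := fun t : ℝ => Real.sinh t - t) (f' := fun t => Real.cosh t - 1) (C := 3 * s)
    (s := Set.Icc (-s) s) (x := t') (y := t)
    (fun x _ => ((Real.hasDerivAt_sinh x).sub (hasDerivAt_id x)).hasDerivWithinAt)
    (fun x hx => ?_) (convex_Icc _ _) (mem_Icc_of ht') (mem_Icc_of ht)
  · simpa [Real.norm_eq_abs] using h
  · have hx' : |x| ≤ s := abs_le.2 ⟨hx.1, hx.2⟩
    rw [Real.norm_eq_abs]
    have := abs_cosh_sub_le (x := x) (y := 0) (hx'.trans hs) (by simp)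
    rw [Real.cosh_zero, sub_zero] at this
    linarith

theorem abs_sinh_le {t : ℝ} (ht : |t| ≤ 1) : |Real.sinh t| ≤ 3 * |t| := by
  have := abs_sinh_sub_le (x := t) (y := 0) ht (by simp)
  simpa using this

/-- first coefficient: size -/
theorem A1_le {t p s Λ : ℝ} (hs : |p| ≤ s) (hΛ : |t - p| ≤ Λ) (h1 : s + Λ ≤ 1) :
    |Real.exp t - 1 - p| ≤ 3 * (s + Λ) ^ 2 + Λ := by
  have h0 : 0 ≤ s := (abs_nonneg _).trans hs
  have h0' : 0 ≤ Λ := (abs_nonneg _).trans hΛ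
  have ht : |t| ≤ s + Λ := by
    have e : t = p + (t - p) := by ring
    rw [e]; exact (abs_add_le _ _).trans (by linarith)
  have h := abs_phi_sub_le (t := t) (t' := 0) h1 ht (by rw [abs_zero]; linarith)
  rw [Real.exp_zero, sub_self, sub_zero, sub_zero, sub_zero] at h
  have e : Real.exp t - 1 - p = (Real.exp t - 1 - t) + (t - p) := by ring
  rw [e]
  refine (abs_add_le _ _).trans (add_le_add (h.trans ?_) hΛ)
  nlinarith [abs_nonneg t]

/-- second coefficient: size -/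
theorem A2_le {t p z s Λ : ℝ} (hs : |p| ≤ s) (hz : |z| ≤ s) (hΛ : |t - p| ≤ Λ)
    (h1 : s + Λ ≤ 1) : |Real.sinh t * (1 + z) - p| ≤ 6 * (s + Λ) ^ 2 + Λ := by
  have h0 : 0 ≤ s := (abs_nonneg _).trans hs
  have h0' : 0 ≤ Λ := (abs_nonneg _).trans hΛ
  have ht : |t| ≤ s + Λ := by
    have e : t = p + (t - p) := by ring
    rw [e]; exact (abs_add_le _ _).trans (by linarith)
  have h := abs_psi_sub_le (t := t) (t' := 0) h1 ht (by rw [abs_zero]; linarith)
  rw [Real.sinh_zero, sub_self, sub_zero, sub_zero] at h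
  have h3 := abs_sinh_le (ht.trans h1)
  have e : Real.sinh t * (1 + z) - p = (Real.sinh t - t) + (t - p) + z * Real.sinh t := by ring
  rw [e]
  refine (abs_add_le _ _).trans ?_
  have h4 := abs_add_le (Real.sinh t - t) (t - p)
  rw [abs_mul]
  have h5 : |z| * |Real.sinh t| ≤ s * (3 * (s + Λ)) :=
    mul_le_mul hz (h3.trans (by linarith)) (abs_nonneg _) h0
  have h6 : 3 * (s + Λ) * |t| ≤ 3 * (s + Λ) * (s + Λ) :=
    mul_le_mul_of_nonneg_left ht (by positivity)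
  nlinarith

/-- first coefficient: differences -/
theorem A1_sub_le {t t' p p' s Λ δ : ℝ} (hs : |p| ≤ s) (hs' : |p'| ≤ s)
    (hΛ : |t - p| ≤ Λ) (hΛ' : |t' - p'| ≤ Λ) (h1 : s + Λ ≤ 1) (hp : |p - p'| ≤ δ)
    (hq : |(t - p) - (t' - p')| ≤ Λ * δ) :
    |(Real.exp t - 1 - p) - (Real.exp t' - 1 - p')| ≤ 7 * (s + Λ) * δ := by
  have h0 : 0 ≤ s := (abs_nonneg _).trans hs
  have h0' : 0 ≤ Λ := (abs_nonneg _).trans hΛ
  have h0'' : 0 ≤ δ := (abs_nonneg _).trans hp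
  have ht : |t| ≤ s + Λ := by
    have e : t = p + (t - p) := by ring
    rw [e]; exact (abs_add_le _ _).trans (by linarith)
  have ht' : |t'| ≤ s + Λ := by
    have e : t' = p' + (t' - p') := by ring
    rw [e]; exact (abs_add_le _ _).trans (by linarith)
  have htt : |t - t'| ≤ 2 * δ := by
    have e : t - t' = (p - p') + ((t - p) - (t' - p')) := by ring
    rw [e]
    refine (abs_add_le _ _).trans ?_
    nlinarith
  have h := abs_phi_sub_le h1 ht ht'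
  have e : (Real.exp t - 1 - p) - (Real.exp t' - 1 - p') =
      ((Real.exp t - 1 - t) - (Real.exp t' - 1 - t')) + ((t - p) - (t' - p')) := by ring
  rw [e]
  refine (abs_add_le _ _).trans ?_
  have h2 : 3 * (s + Λ) * |t - t'| ≤ 3 * (s + Λ) * (2 * δ) :=
    mul_le_mul_of_nonneg_left htt (by positivity)
  nlinarith [mul_nonneg h0 h0'']

/-- second coefficient: differences -/
theorem A2_sub_le {t t' p p' z z' s Λ δ : ℝ} (hs : |p| ≤ s) (hs' : |p'| ≤ s)
    (hz' : |z'| ≤ s)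
    (hΛ : |t - p| ≤ Λ) (hΛ' : |t' - p'| ≤ Λ) (h1 : s + Λ ≤ 1) (hp : |p - p'| ≤ δ)
    (hzz : |z - z'| ≤ δ) (hq : |(t - p) - (t' - p')| ≤ Λ * δ) :
    |(Real.sinh t * (1 + z) - p) - (Real.sinh t' * (1 + z') - p')| ≤ 16 * (s + Λ) * δ := by
  have h0 : 0 ≤ s := (abs_nonneg _).trans hs
  have h0' : 0 ≤ Λ := (abs_nonneg _).trans hΛ
  have h0'' : 0 ≤ δ := (abs_nonneg _).trans hp
  have ht : |t| ≤ s + Λ := by
    have e : t = p + (t - p) := by ring
    rw [e]; exact (abs_add_le _ _).trans (by linarith)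
  have ht' : |t'| ≤ s + Λ := by
    have e : t' = p' + (t' - p') := by ring
    rw [e]; exact (abs_add_le _ _).trans (by linarith)
  have htt : |t - t'| ≤ 2 * δ := by
    have e : t - t' = (p - p') + ((t - p) - (t' - p')) := by ring
    rw [e]
    refine (abs_add_le _ _).trans ?_
    nlinarith
  have h := abs_psi_sub_le h1 ht ht'
  have h3 := abs_sinh_le (ht.trans h1)
  have h4 := abs_sinh_sub_le (ht.trans h1) (ht'.trans h1)
  have e : (Real.sinh t * (1 + z) - p) - (Real.sinh t' * (1 + z') - p') =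
      ((Real.sinh t - t) - (Real.sinh t' - t')) + ((t - p) - (t' - p')) +
        ((z - z') * Real.sinh t + z' * (Real.sinh t - Real.sinh t')) := by ring
  rw [e]
  refine (abs_add_le _ _).trans ?_
  have g1 := abs_add_le ((Real.sinh t - t) - (Real.sinh t' - t')) ((t - p) - (t' - p'))
  have g2 := abs_add_le ((z - z') * Real.sinh t) (z' * (Real.sinh t - Real.sinh t'))
  rw [abs_mul, abs_mul] at g2
  have g3 : |z - z'| * |Real.sinh t| ≤ δ * (3 * (s + Λ)) :=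
    mul_le_mul hzz (h3.trans (by linarith)) (abs_nonneg _) h0''
  have g4 : |z'| * |Real.sinh t - Real.sinh t'| ≤ s * (3 * (2 * δ)) :=
    mul_le_mul hz' (h4.trans (by linarith)) (abs_nonneg _) h0
  have h2 : 3 * (s + Λ) * |t - t'| ≤ 3 * (s + Λ) * (2 * δ) :=
    mul_le_mul_of_nonneg_left htt (by positivity)
  nlinarith [mul_nonneg h0 h0'', mul_nonneg h0' h0'']

/-! ### item bounds -/

theorem xc_mem : 0 < xc ∧ xc ≤ 1 := by
  have h2 : Real.sqrt 2 * Real.sqrt 2 = 2 := Real.mul_self_sqrt (by norm_num)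
  have h0 := Real.sqrt_nonneg 2
  unfold xc
  constructor <;> nlinarith

/-- parameters close to the explicit ones -/
structure Cl (P : MPar) (p s Λ : ℝ) : Prop where
  hR : 1 ≤ P.R
  hp : |p| ≤ s
  hz : |P.z| ≤ s
  hs : s ≤ 1 / 2
  one : s + Λ ≤ 1
  nn : ∀ j : Fin 2, |P.t (pr (0, j)) - p| ≤ Λ
  ev : ∀ S ∈ evN P.R, |P.t S| ≤ Λ

/-- two sets of parameters -/
structure Cl2 (P P' : MPar) (p p' Λ δ : ℝ) : Prop where
  hR : P'.R = P.R
  hp : |p - p'| ≤ δ
  hz : |P.z - P'.z| ≤ δ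
  nn : ∀ j : Fin 2, |(P.t (pr (0, j)) - p) - (P'.t (pr (0, j)) - p')| ≤ Λ * δ
  ev : ∀ S ∈ evN P.R, |P.t S - P'.t S| ≤ Λ * δ

section items
variable {A : Type*} [CommRing A] [Algebra ℝ A] {fr : Fr ℤ A}
  {N : Finset (ℤ × ℤ) → A → ℝ≥0∞} {c s Λ δ p p' : ℝ} {P P' : MPar}

theorem Cl.s0 (h : Cl P p s Λ) : 0 ≤ s := (abs_nonneg _).trans h.hp
theorem Cl.Λ0 (h : Cl P p s Λ) : 0 ≤ Λ := (abs_nonneg _).trans (h.nn 0)
theorem Cl.z1 (h : Cl P p s Λ) : 0 ≤ 1 + P.z := by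
  have h1 := h.hz
  have h2 := h.hs
  rw [abs_le] at h1
  linarith [h1.1]
theorem Cl2.δ0 (h : Cl2 P P' p p' Λ δ) : 0 ≤ δ := (abs_nonneg _).trans h.hp

theorem faE_pair (u : ℤ × ℤ) (j : Fin 2) :
    (faE ((0 : ℤ × ℤ), j)).image (fz u) = faE (u, j) := by
  rw [← faE_ez]
  unfold ez
  simp

theorem faE_sub_Yf (u : ℤ × ℤ) (j : Fin 2) :
    faE (u, j) ⊆ (Yf (pr ((0 : ℤ × ℤ), j))).image (fz u) := by
  rw [← faE_pair]
  refine Finset.image_subset_image (faE_subset ?_)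
  have h1 : (0 : ℤ × ℤ) ∈ pr ((0 : ℤ × ℤ), j) := by simp [pr]
  have h2 : (0 : ℤ × ℤ) + unitVec j ∈ pr ((0 : ℤ × ℤ), j) := by simp [pr]
  exact ⟨subset_hull _ (Finset.mem_coe.2 h1), subset_hull _ (Finset.mem_coe.2 h2)⟩

theorem gP_le (hN : NHyp fr N c) (h : Cl P p s Λ) (U : Finset (ℤ × ℤ)) (e : EG ℤ)
    (he : faE e ⊆ U) : N U (gP fr P e) ≤ ENNReal.ofReal (1 + 8 * c) := by
  unfold gP
  have hx := xc_mem
  have hz := h.hz
  have hs := h.hs
  have h1 : |2 * (xc * (1 + P.z))| ≤ 8 := by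
    rw [abs_mul, abs_mul, abs_of_pos (by norm_num : (0 : ℝ) < 2), abs_of_pos hx.1,
      abs_of_nonneg h.z1]
    rw [abs_le] at hz
    nlinarith [hz.2]
  have hc := hN.c1
  refine ((hN.semi U).sub _ _).trans ?_
  rw [ENNReal.ofReal_add (by norm_num) (by linarith), ENNReal.ofReal_one]
  exact add_le_add (hN.semi U).one (smul_le_real (hN.semi U) h1 (hN.b U e he))

theorem gP_sub_le (hN : NHyp fr N c) (h : Cl2 P P' p p' Λ δ) (U : Finset (ℤ × ℤ)) (e : EG ℤ)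
    (he : faE e ⊆ U) : N U (gP fr P e - gP fr P' e) ≤ ENNReal.ofReal (2 * δ * c) := by
  unfold gP
  have hx := xc_mem
  have e1 : (1 : A) - (2 * (xc * (1 + P.z))) • fr.b e - (1 - (2 * (xc * (1 + P'.z))) • fr.b e) =
      (-(2 * (xc * (P.z - P'.z)))) • fr.b e := by
    rw [sub_sub_sub_cancel_left, ← sub_smul]
    congr 1
    ring
  rw [e1]
  refine smul_le_real (hN.semi U) ?_ (hN.b U e he)
  rw [abs_neg, abs_mul, abs_mul, abs_of_pos (by norm_num : (0 : ℝ) < 2), abs_of_pos hx.1]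
  have := h.hz
  have := h.δ0
  nlinarith [abs_nonneg (P.z - P'.z)]

theorem vS_le (hN : NHyp fr N c) (h : Cl P p s Λ) {S : Finset (ℤ × ℤ)} (hS : S ∈ evN P.R)
    (u : ℤ × ℤ) : N ((Yf S).image (fz u)) (vS fr P S u) ≤ ENNReal.ofReal (6 * Λ * Mc P.R c) := by
  have hc := hN.c1
  have hm := mem_evN.1 hS
  have h1 : N ((Yf S).image (fz u)) (vS fr P S u) ≤
      nmE (fun _ => ENNReal.ofReal (wc c)) (em (ez u) (kB (P.t S) S)) := by
    unfold vS
    refine TH_le (hN.semi _) (gP fr P) (U := {e : EG ℤ | faE e ⊆ (Yf S).image (fz u)})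
      (c := fun _ => ENNReal.ofReal (wc c)) (fun _ => ENNReal.ofReal_ne_top) (fun e he => ?_)
      (Bk.em_kB_mem u (P.t S) S hm.2.1)
    refine (gP_le hN h _ e he).trans (ENNReal.ofReal_le_ofReal ?_)
    unfold wc; linarith
  refine h1.trans ((nmE_em_const (by
    rw [← ENNReal.ofReal_one]; exact ENNReal.ofReal_le_ofReal (wc_one hc)) _ _).trans ?_)
  exact nmE_kB_le (wc_one hc) (h.ev S hS) (by linarith [h.one, h.s0]) hm.1 hm.2.1

theorem vS_sub_le (hN : NHyp fr N c) (h : Cl P p s Λ) (h' : Cl P' p' s Λ)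
    (h2 : Cl2 P P' p p' Λ δ) {S : Finset (ℤ × ℤ)} (hS : S ∈ evN P.R) (u : ℤ × ℤ) :
    N ((Yf S).image (fz u)) (vS fr P S u - vS fr P' S u) ≤
      ENNReal.ofReal (18 * Λ * δ * Mc P.R c) := by
  have hc := hN.c1
  have hm := mem_evN.1 hS
  have hS' : S ∈ evN P'.R := by rw [h2.hR]; exact hS
  have hΛ := h.Λ0
  have hδ := h2.δ0
  set U := (Yf S).image (fz u) with hU
  have hΛ1 : Λ ≤ 1 := by linarith [h.one, h.s0]
  have hM := Mc_pos P.R hc
  have e1 : vS fr P S u - vS fr P' S u =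
      TH (gP fr P) (em (ez u) (kB (P.t S) S - kB (P'.t S) S)) +
      (TH (gP fr P) (em (ez u) (kB (P'.t S) S)) - TH (gP fr P') (em (ez u) (kB (P'.t S) S))) := by
    unfold vS
    rw [map_sub, map_sub]
    abel
  have hw : (1 : ℝ≥0∞) ≤ ENNReal.ofReal (wc c) := by
    rw [← ENNReal.ofReal_one]; exact ENNReal.ofReal_le_ofReal (wc_one hc)
  have g1 : N U (TH (gP fr P) (em (ez u) (kB (P.t S) S - kB (P'.t S) S))) ≤
      ENNReal.ofReal (6 * (Λ * δ) * Mc P.R c) := by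
    have g2 : N U (TH (gP fr P) (em (ez u) (kB (P.t S) S - kB (P'.t S) S))) ≤
        nmE (fun _ => ENNReal.ofReal (wc c)) (em (ez u) (kB (P.t S) S - kB (P'.t S) S)) := by
      refine TH_le (hN.semi _) (gP fr P) (U := {e : EG ℤ | faE e ⊆ U})
        (c := fun _ => ENNReal.ofReal (wc c)) (fun _ => ENNReal.ofReal_ne_top) (fun e he => ?_)
        ?_
      · refine (gP_le hN h _ e he).trans (ENNReal.ofReal_le_ofReal ?_)
        unfold wc; linarith
      · rw [map_sub]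
        exact Subalgebra.sub_mem _ (Bk.em_kB_mem u (P.t S) S hm.2.1) (Bk.em_kB_mem u (P'.t S) S hm.2.1)
    refine g2.trans ((nmE_em_const hw _ _).trans ?_)
    exact nmE_kB_sub_le (wc_one hc) ((h.ev S hS).trans hΛ1) ((h'.ev S hS').trans hΛ1)
      (h2.ev S hS) hm.1 hm.2.1
  have g3 : N U (TH (gP fr P) (em (ez u) (kB (P'.t S) S)) -
      TH (gP fr P') (em (ez u) (kB (P'.t S) S))) ≤
      ENNReal.ofReal (2 * δ) * ENNReal.ofReal (6 * Λ * Mc P.R c) := by
    have hsum : ENNReal.ofReal (1 + 8 * c) + ENNReal.ofReal (1 + 8 * c) =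
        ENNReal.ofReal (wc c) := by
      rw [← ENNReal.ofReal_add (by linarith) (by linarith)]
      unfold wc; congr 1; ring
    have g4 := TH_sub_le (hN.semi U) (gP fr P) (gP fr P') (U := {e : EG ℤ | faE e ⊆ U})
      (c := fun _ => ENNReal.ofReal (1 + 8 * c)) (d := fun _ => ENNReal.ofReal (1 + 8 * c))
      (η := ENNReal.ofReal (2 * δ)) ENNReal.ofReal_ne_top (fun _ => ENNReal.ofReal_ne_top)
      (fun _ => ENNReal.ofReal_ne_top) (fun e he => gP_le hN h U e he)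
      (fun e he => gP_le hN h' U e he) (fun e he => ?_) (Bk.em_kB_mem u (P'.t S) S hm.2.1)
    · refine g4.trans (mul_le_mul_right ?_ _)
      simp only [hsum]
      refine (nmE_em_const hw _ _).trans ?_
      exact nmE_kB_le (wc_one hc) (h'.ev S hS') hΛ1 hm.1 hm.2.1
    · refine (gP_sub_le hN h2 U e he).trans ?_
      rw [← ENNReal.ofReal_mul (by positivity)]
      refine ENNReal.ofReal_le_ofReal ?_
      nlinarith
  rw [e1]
  refine ((hN.semi U).add _ _).trans ((add_le_add g1 g3).trans ?_)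
  rw [← ENNReal.ofReal_mul (by positivity), ← ENNReal.ofReal_add (by positivity) (by positivity)]
  refine ENNReal.ofReal_le_ofReal (le_of_eq ?_)
  ring

theorem rN_le (hN : NHyp fr N c) (h : Cl P p s Λ) (j : Fin 2) (u : ℤ × ℤ) :
    N ((Yf (pr ((0 : ℤ × ℤ), j))).image (fz u)) (rN fr P p j u) ≤
      ENNReal.ofReal ((15 * (s + Λ) ^ 2 + 3 * Λ) * c) := by
  have hc := hN.c1
  have hx := xc_mem
  have h0 := h.Λ0
  have h0' := h.s0
  set U := (Yf (pr ((0 : ℤ × ℤ), j))).image (fz u) with hU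
  rw [rN_eq]
  have g1 := A1_le h.hp (h.nn j) h.one
  have g2 := A2_le h.hp h.hz (h.nn j) h.one
  refine ((hN.semi U).add _ _).trans ?_
  have k1 : N U ((Real.exp (P.t (pr (0, j))) - 1 - p) • (1 : A)) ≤
      ENNReal.ofReal ((3 * (s + Λ) ^ 2 + Λ) * 1) :=
    smul_le_real (hN.semi U) g1 (by rw [ENNReal.ofReal_one]; exact (hN.semi U).one)
  have k2 : N U ((-(2 * xc * (Real.sinh (P.t (pr (0, j))) * (1 + P.z) - p))) • fr.b (u, j)) ≤
      ENNReal.ofReal (2 * (6 * (s + Λ) ^ 2 + Λ) * c) := by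
    refine smul_le_real (hN.semi U) ?_ (hN.b U (u, j) (faE_sub_Yf u j))
    rw [abs_neg, abs_mul, abs_mul, abs_of_pos (by norm_num : (0 : ℝ) < 2), abs_of_pos hx.1]
    have := abs_nonneg (Real.sinh (P.t (pr (0, j))) * (1 + P.z) - p)
    nlinarith
  refine (add_le_add k1 k2).trans ?_
  rw [← ENNReal.ofReal_add (by positivity) (by positivity)]
  refine ENNReal.ofReal_le_ofReal ?_
  nlinarith [mul_nonneg (by positivity : (0 : ℝ) ≤ 3 * (s + Λ) ^ 2 + Λ) (sub_nonneg.2 hc)]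

theorem rN_sub_le (hN : NHyp fr N c) (h : Cl P p s Λ) (h' : Cl P' p' s Λ)
    (h2 : Cl2 P P' p p' Λ δ) (j : Fin 2) (u : ℤ × ℤ) :
    N ((Yf (pr ((0 : ℤ × ℤ), j))).image (fz u)) (rN fr P p j u - rN fr P' p' j u) ≤
      ENNReal.ofReal (39 * (s + Λ) * δ * c) := by
  have hc := hN.c1
  have hx := xc_mem
  have h0 := h.Λ0
  have h0' := h.s0
  have h0'' := h2.δ0
  set U := (Yf (pr ((0 : ℤ × ℤ), j))).image (fz u) with hU
  have g1 := A1_sub_le h.hp h'.hp (h.nn j) (h'.nn j) h.one h2.hp (h2.nn j)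
  have g2 := A2_sub_le (z := P.z) (z' := P'.z) h.hp h'.hp h'.hz (h.nn j) (h'.nn j) h.one h2.hp h2.hz
    (h2.nn j)
  have e1 : rN fr P p j u - rN fr P' p' j u =
      ((Real.exp (P.t (pr (0, j))) - 1 - p) - (Real.exp (P'.t (pr (0, j))) - 1 - p')) • (1 : A) +
      (-(2 * xc * ((Real.sinh (P.t (pr (0, j))) * (1 + P.z) - p) -
        (Real.sinh (P'.t (pr (0, j))) * (1 + P'.z) - p')))) • fr.b (u, j) := by
    rw [rN_eq, rN_eq]
    module
  rw [e1]
  refine ((hN.semi U).add _ _).trans ?_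
  have k1 : N U (((Real.exp (P.t (pr (0, j))) - 1 - p) -
      (Real.exp (P'.t (pr (0, j))) - 1 - p')) • (1 : A)) ≤
      ENNReal.ofReal (7 * (s + Λ) * δ * 1) :=
    smul_le_real (hN.semi U) g1 (by rw [ENNReal.ofReal_one]; exact (hN.semi U).one)
  have k2 : N U ((-(2 * xc * ((Real.sinh (P.t (pr (0, j))) * (1 + P.z) - p) -
        (Real.sinh (P'.t (pr (0, j))) * (1 + P'.z) - p')))) • fr.b (u, j)) ≤
      ENNReal.ofReal (2 * (16 * (s + Λ) * δ) * c) := by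
    refine smul_le_real (hN.semi U) ?_ (hN.b U (u, j) (faE_sub_Yf u j))
    rw [abs_neg, abs_mul, abs_mul, abs_of_pos (by norm_num : (0 : ℝ) < 2), abs_of_pos hx.1]
    have := abs_nonneg ((Real.sinh (P.t (pr (0, j))) * (1 + P.z) - p) -
        (Real.sinh (P'.t (pr (0, j))) * (1 + P'.z) - p'))
    nlinarith
  refine (add_le_add k1 k2).trans ?_
  rw [← ENNReal.ofReal_add (by positivity) (by positivity)]
  refine ENNReal.ofReal_le_ofReal ?_
  nlinarith [mul_nonneg (by positivity : (0 : ℝ) ≤ (s + Λ) * δ) (sub_nonneg.2 hc)]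

theorem zI_le (hN : NHyp fr N c) (f : ℤ × ℤ) {r y : ℝ} (hr : |r| ≤ y) :
    N (({0} : Finset (ℤ × ℤ)).image (fz f)) ((r / 2) • (fr.I4 f * fr.I4 f)) ≤
      ENNReal.ofReal (y * c ^ 2) := by
  have hc := hN.c1
  have hy : 0 ≤ y := (abs_nonneg _).trans hr
  have hI : ({0} : Finset (ℤ × ℤ)).image (fz f) = {f} := by
    rw [Finset.image_singleton, fz_zero]
  rw [hI]
  have h1 := hN.I4 {f} f (Finset.mem_singleton_self f)
  have h3 : N {f} (fr.I4 f * fr.I4 f) ≤ ENNReal.ofReal (c * c) := by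
    rw [ENNReal.ofReal_mul (by linarith)]
    exact (hN.semi _).mul _ _ _ _ h1 h1 ENNReal.ofReal_ne_top ENNReal.ofReal_ne_top
  have h4 : |r / 2| ≤ y := by
    rw [abs_div, abs_of_pos (by norm_num : (0 : ℝ) < 2)]
    linarith [abs_nonneg r]
  refine (smul_le_real (hN.semi _) h4 h3).trans (ENNReal.ofReal_le_ofReal (le_of_eq ?_))
  ring

end items

/-! ### norms of the first order remainder -/

section main
variable {A : Type*} [CommRing A] [Algebra ℝ A] {fr : Fr ℤ A}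
  {N : Finset (ℤ × ℤ) → A → ℝ≥0∞} {c s Λ δ p p' Γ : ℝ} {P P' : MPar}

/-- number of faces of a shape of range `R` -/
theorem card_Yf {R : ℕ} {S : Finset (ℤ × ℤ)} (hS : S ∈ Can R) : (Yf S).card ≤ m0 R :=
  card_Yf_le (mem_Can.1 hS).1

/-- anchored family with support of at most `m` faces -/
theorem NI_anc_real (hN : ∀ U, FSemi (N U)) (hΓ : 1 ≤ Γ) {Y₀ : Finset (ℤ × ℤ)} {m : ℕ}
    (hY : Y₀.card ≤ m) (a : ℤ × ℤ → A) {κ : ℝ} (_hκ : 0 ≤ κ)
    (h : ∀ u, N (Y₀.image (fz u)) (a u) ≤ ENNReal.ofReal κ) :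
    NI (G := ℤ) (ENNReal.ofReal Γ) (fun U => N U (anc Y₀ a U)) ≤
      ENNReal.ofReal (Γ ^ m * m * κ) := by
  refine (NI_anc_le hN Y₀ a h _).trans ?_
  have h1 : ENNReal.ofReal Γ ^ Y₀.card ≤ ENNReal.ofReal (Γ ^ m) := by
    rw [← ENNReal.ofReal_pow (by linarith)]
    exact ENNReal.ofReal_le_ofReal (pow_le_pow_right₀ hΓ hY)
  have h2 : ((Y₀.card : ℕ) : ℝ≥0∞) ≤ ENNReal.ofReal (m : ℝ) := by
    rw [ENNReal.ofReal_natCast]; exact_mod_cast hY
  calc ENNReal.ofReal Γ ^ Y₀.card * (Y₀.card * ENNReal.ofReal κ)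
      ≤ ENNReal.ofReal (Γ ^ m) * (ENNReal.ofReal (m : ℝ) * ENNReal.ofReal κ) := by gcongr
    _ = _ := by
        rw [← ENNReal.ofReal_mul (by positivity), ← ENNReal.ofReal_mul (by positivity)]
        congr 1; ring

theorem NI_sum_real (hN : ∀ U, FSemi (N U)) {ι : Type*} (t : Finset ι)
    (F : ι → Finset (ℤ × ℤ) → A) {κ : ℝ} (_hκ : 0 ≤ κ)
    (h : ∀ i ∈ t, NI (G := ℤ) (ENNReal.ofReal Γ) (fun U => N U (F i U)) ≤ ENNReal.ofReal κ) :
    NI (G := ℤ) (ENNReal.ofReal Γ) (fun U => N U (∑ i ∈ t, F i U)) ≤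
      ENNReal.ofReal (t.card * κ) := by
  refine (NI_sum_le hN t F).trans ((Finset.sum_le_sum h).trans ?_)
  rw [Finset.sum_const, nsmul_eq_mul, ENNReal.ofReal_mul (by positivity), ENNReal.ofReal_natCast]

/-- the constant -/
def C1 (R : ℕ) (Γ c : ℝ) : ℝ :=
  Γ ^ m0 R * m0 R * (18 * (Can R).card * Mc R c + 200 * c ^ 2)

theorem card_evN_le (R : ℕ) : (evN R).card ≤ (Can R).card := by
  refine Finset.card_le_card fun S hS => (mem_evN.1 hS).1

theorem pr_mem_Can {P : MPar} (hR : 1 ≤ P.R) (j : Fin 2) : pr ((0 : ℤ × ℤ), j) ∈ Can P.R :=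
  pr_zero_mem_Can hR j

/-- **size of the remainder** -/
theorem NI_R1_le (hN : NHyp fr N c) (hΓ : 1 ≤ Γ) (h : Cl P p s Λ) :
    NI (G := ℤ) (ENNReal.ofReal Γ) (fun U => N U (R1 fr P p U)) ≤
      ENNReal.ofReal (C1 P.R Γ c * (Λ + s ^ 2)) := by
  have hc := hN.c1
  have h0 := h.Λ0
  have h0' := h.s0
  have hM := Mc_pos P.R hc
  have hm0 : (0 : ℝ) ≤ m0 P.R := Nat.cast_nonneg _
  have hG : 0 ≤ Γ ^ m0 P.R := by positivity
  have hCan : (0 : ℝ) ≤ (Can P.R).card := Nat.cast_nonneg _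
  simp only [R1_eq fr h.z1 h.hR]
  refine (NI_add_le hN.semi _ _).trans ((add_le_add (NI_add_le hN.semi _ _) le_rfl).trans ?_)
  have k1 := NI_sum_real (Γ := Γ) hN.semi (evN P.R) (fun S => anc (Yf S) (vS fr P S))
    (κ := Γ ^ m0 P.R * m0 P.R * (6 * Λ * Mc P.R c)) (by positivity)
    (fun S hS => NI_anc_real hN.semi hΓ (card_Yf (mem_evN.1 hS).1) _ (by positivity)
      (fun u => vS_le hN h hS u))
  have k2 := NI_sum_real (Γ := Γ) hN.semi (univ : Finset (Fin 2))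
    (fun j => anc (Yf (pr ((0 : ℤ × ℤ), j))) (rN fr P p j))
    (κ := Γ ^ m0 P.R * m0 P.R * ((15 * (s + Λ) ^ 2 + 3 * Λ) * c)) (by positivity)
    (fun j _ => NI_anc_real hN.semi hΓ (card_Yf (pr_mem_Can h.hR j)) _ (by positivity)
      (fun u => rN_le hN h j u))
  have k3 := NI_anc_real (m := m0 P.R) hN.semi hΓ (Y₀ := {0}) (by
      rw [Finset.card_singleton]; have := two_le_m0 P.R; omega)
    (fun f => (P.z ^ 2 / 2) • (fr.I4 f * fr.I4 f)) (κ := s ^ 2 * c ^ 2) (by positivity)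
    (fun u => zI_le hN u (by
      rw [abs_pow]; exact pow_le_pow_left₀ (abs_nonneg _) h.hz 2))
  refine (add_le_add (add_le_add k1 k2) k3).trans ?_
  rw [← ENNReal.ofReal_add (by positivity) (by positivity),
    ← ENNReal.ofReal_add (by positivity) (by positivity)]
  refine ENNReal.ofReal_le_ofReal ?_
  have h1 : ((evN P.R).card : ℝ) ≤ (Can P.R).card := by exact_mod_cast card_evN_le P.R
  have hcard : ((univ : Finset (Fin 2)).card : ℝ) = 2 := by simp
  rw [hcard]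
  unfold C1
  have g1 : ((evN P.R).card : ℝ) * (Γ ^ m0 P.R * m0 P.R * (6 * Λ * Mc P.R c)) ≤
      Γ ^ m0 P.R * m0 P.R * (18 * (Can P.R).card * Mc P.R c * (Λ + s ^ 2)) := by
    calc ((evN P.R).card : ℝ) * (Γ ^ m0 P.R * m0 P.R * (6 * Λ * Mc P.R c))
        ≤ (Can P.R).card * (Γ ^ m0 P.R * m0 P.R * (6 * Λ * Mc P.R c)) := by gcongr
      _ = Γ ^ m0 P.R * m0 P.R * (6 * (Can P.R).card * Mc P.R c * Λ) := by ring
      _ ≤ _ := by
          gcongr
          · norm_num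
          · nlinarith [sq_nonneg s]
  have hsL : (s + Λ) ^ 2 ≤ s ^ 2 + 2 * Λ := by
    have := h.one
    nlinarith [mul_nonneg h0 h0', mul_nonneg h0 (sub_nonneg.2 h.one)]
  have g2 : 2 * (Γ ^ m0 P.R * m0 P.R * ((15 * (s + Λ) ^ 2 + 3 * Λ) * c)) +
      Γ ^ m0 P.R * m0 P.R * (s ^ 2 * c ^ 2) ≤
      Γ ^ m0 P.R * m0 P.R * (200 * c ^ 2 * (Λ + s ^ 2)) := by
    have e : 2 * (Γ ^ m0 P.R * m0 P.R * ((15 * (s + Λ) ^ 2 + 3 * Λ) * c)) +
      Γ ^ m0 P.R * m0 P.R * (s ^ 2 * c ^ 2) =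
      Γ ^ m0 P.R * m0 P.R * (2 * (15 * (s + Λ) ^ 2 + 3 * Λ) * c + s ^ 2 * c ^ 2) := by ring
    rw [e]
    refine mul_le_mul_of_nonneg_left ?_ (by positivity)
    have hcc : c ≤ c ^ 2 := by nlinarith
    have g3 : 2 * (15 * (s + Λ) ^ 2 + 3 * Λ) * c ≤ (30 * s ^ 2 + 66 * Λ) * c ^ 2 := by
      calc 2 * (15 * (s + Λ) ^ 2 + 3 * Λ) * c ≤ (30 * s ^ 2 + 66 * Λ) * c := by
            refine mul_le_mul_of_nonneg_right ?_ (by linarith)
            linarith
        _ ≤ _ := mul_le_mul_of_nonneg_left hcc (by positivity)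
    nlinarith [mul_nonneg (sq_nonneg s) (sq_nonneg c), mul_nonneg h0 (sq_nonneg c)]
  calc _ ≤ Γ ^ m0 P.R * m0 P.R * (18 * (Can P.R).card * Mc P.R c * (Λ + s ^ 2)) +
      Γ ^ m0 P.R * m0 P.R * (200 * c ^ 2 * (Λ + s ^ 2)) := by linarith
    _ = _ := by ring

/-- **differences of the remainders** -/
theorem NI_R1_sub_le (hN : NHyp fr N c) (hΓ : 1 ≤ Γ) (h : Cl P p s Λ) (h' : Cl P' p' s Λ)
    (h2 : Cl2 P P' p p' Λ δ) :
    NI (G := ℤ) (ENNReal.ofReal Γ) (fun U => N U (R1 fr P p U - R1 fr P' p' U)) ≤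
      ENNReal.ofReal (C1 P.R Γ c * ((s + Λ) * δ)) := by
  have hc := hN.c1
  have h0 := h.Λ0
  have h0' := h.s0
  have h0'' := h2.δ0
  have hM := Mc_pos P.R hc
  have hm0 : (0 : ℝ) ≤ m0 P.R := Nat.cast_nonneg _
  have hG : 0 ≤ Γ ^ m0 P.R := by positivity
  have hCan : (0 : ℝ) ≤ (Can P.R).card := Nat.cast_nonneg _
  have e0 : ∀ U, R1 fr P p U - R1 fr P' p' U =
      ∑ S ∈ evN P.R, anc (Yf S) (fun u => vS fr P S u - vS fr P' S u) U +
      ∑ j : Fin 2, anc (Yf (pr ((0 : ℤ × ℤ), j))) (fun u => rN fr P p j u - rN fr P' p' j u) U +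
      anc {0} (fun f => ((P.z ^ 2 - P'.z ^ 2) / 2) • (fr.I4 f * fr.I4 f)) U := by
    intro U
    rw [R1_eq fr h.z1 h.hR, R1_eq fr h'.z1 h'.hR, h2.hR]
    have e1 : ∀ S ∈ evN P.R, anc (Yf S) (fun u => vS fr P S u - vS fr P' S u) U =
        anc (Yf S) (vS fr P S) U - anc (Yf S) (vS fr P' S) U := fun S _ => anc_sub _ _ _ _
    have e2 : ∀ j : Fin 2, anc (Yf (pr ((0 : ℤ × ℤ), j)))
        (fun u => rN fr P p j u - rN fr P' p' j u) U =
        anc (Yf (pr ((0 : ℤ × ℤ), j))) (rN fr P p j) U -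
        anc (Yf (pr ((0 : ℤ × ℤ), j))) (rN fr P' p' j) U := fun j => anc_sub _ _ _ _
    have e3 : anc {0} (fun f => ((P.z ^ 2 - P'.z ^ 2) / 2) • (fr.I4 f * fr.I4 f)) U =
        anc {0} (fun f => (P.z ^ 2 / 2) • (fr.I4 f * fr.I4 f)) U -
        anc {0} (fun f => (P'.z ^ 2 / 2) • (fr.I4 f * fr.I4 f)) U := by
      rw [← anc_sub]
      refine anc_congr fun f _ => ?_
      rw [← sub_smul]
      congr 1; ring
    rw [Finset.sum_congr rfl e1, Finset.sum_sub_distrib, Finset.sum_congr rfl (fun j _ => e2 j),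
      Finset.sum_sub_distrib, e3]
    abel
  simp only [e0]
  refine (NI_add_le hN.semi _ _).trans ((add_le_add (NI_add_le hN.semi _ _) le_rfl).trans ?_)
  have k1 := NI_sum_real (Γ := Γ) hN.semi (evN P.R)
    (fun S => anc (Yf S) (fun u => vS fr P S u - vS fr P' S u))
    (κ := Γ ^ m0 P.R * m0 P.R * (18 * Λ * δ * Mc P.R c)) (by positivity)
    (fun S hS => NI_anc_real hN.semi hΓ (card_Yf (mem_evN.1 hS).1) _ (by positivity)
      (fun u => vS_sub_le hN h h' h2 hS u))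
  have k2 := NI_sum_real (Γ := Γ) hN.semi (univ : Finset (Fin 2))
    (fun j => anc (Yf (pr ((0 : ℤ × ℤ), j))) (fun u => rN fr P p j u - rN fr P' p' j u))
    (κ := Γ ^ m0 P.R * m0 P.R * (39 * (s + Λ) * δ * c)) (by positivity)
    (fun j _ => NI_anc_real hN.semi hΓ (card_Yf (pr_mem_Can h.hR j)) _ (by positivity)
      (fun u => rN_sub_le hN h h' h2 j u))
  have hzz : |P.z ^ 2 - P'.z ^ 2| ≤ 2 * s * δ := by
    have e : P.z ^ 2 - P'.z ^ 2 = (P.z - P'.z) * (P.z + P'.z) := by ring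
    rw [e, abs_mul]
    have g := abs_add_le P.z P'.z
    have := h.hz
    have := h'.hz
    calc |P.z - P'.z| * |P.z + P'.z| ≤ δ * (2 * s) :=
          mul_le_mul h2.hz (by linarith) (abs_nonneg _) h0''
      _ = _ := by ring
  have k3 := NI_anc_real (m := m0 P.R) hN.semi hΓ (Y₀ := {0}) (by
      rw [Finset.card_singleton]; have := two_le_m0 P.R; omega)
    (fun f => ((P.z ^ 2 - P'.z ^ 2) / 2) • (fr.I4 f * fr.I4 f)) (κ := 2 * s * δ * c ^ 2)
    (by positivity) (fun u => zI_le hN u hzz)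
  refine (add_le_add (add_le_add k1 k2) k3).trans ?_
  rw [← ENNReal.ofReal_add (by positivity) (by positivity),
    ← ENNReal.ofReal_add (by positivity) (by positivity)]
  refine ENNReal.ofReal_le_ofReal ?_
  have h1 : ((evN P.R).card : ℝ) ≤ (Can P.R).card := by exact_mod_cast card_evN_le P.R
  have hcard : ((univ : Finset (Fin 2)).card : ℝ) = 2 := by simp
  rw [hcard]
  unfold C1
  have g1 : ((evN P.R).card : ℝ) * (Γ ^ m0 P.R * m0 P.R * (18 * Λ * δ * Mc P.R c)) ≤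
      Γ ^ m0 P.R * m0 P.R * (18 * (Can P.R).card * Mc P.R c * ((s + Λ) * δ)) := by
    calc ((evN P.R).card : ℝ) * (Γ ^ m0 P.R * m0 P.R * (18 * Λ * δ * Mc P.R c))
        ≤ (Can P.R).card * (Γ ^ m0 P.R * m0 P.R * (18 * Λ * δ * Mc P.R c)) := by gcongr
      _ = Γ ^ m0 P.R * m0 P.R * (18 * (Can P.R).card * Mc P.R c * (Λ * δ)) := by ring
      _ ≤ _ := by
          gcongr
          linarith
  have g2 : 2 * (Γ ^ m0 P.R * m0 P.R * (39 * (s + Λ) * δ * c)) +
      Γ ^ m0 P.R * m0 P.R * (2 * s * δ * c ^ 2) ≤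
      Γ ^ m0 P.R * m0 P.R * (200 * c ^ 2 * ((s + Λ) * δ)) := by
    have e : 2 * (Γ ^ m0 P.R * m0 P.R * (39 * (s + Λ) * δ * c)) +
      Γ ^ m0 P.R * m0 P.R * (2 * s * δ * c ^ 2) =
      Γ ^ m0 P.R * m0 P.R * (78 * (s + Λ) * δ * c + 2 * s * δ * c ^ 2) := by ring
    rw [e]
    refine mul_le_mul_of_nonneg_left ?_ (by positivity)
    have hcc : c ≤ c ^ 2 := by nlinarith
    have g3 : 78 * (s + Λ) * δ * c ≤ 78 * (s + Λ) * δ * c ^ 2 :=
      mul_le_mul_of_nonneg_left hcc (by positivity)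
    have g4 : 2 * s * δ * c ^ 2 ≤ 2 * (s + Λ) * δ * c ^ 2 := by
      gcongr
      linarith
    nlinarith [mul_nonneg (mul_nonneg (add_nonneg h0' h0) h0'') (sq_nonneg c)]
  calc _ ≤ Γ ^ m0 P.R * m0 P.R * (18 * (Can P.R).card * Mc P.R c * ((s + Λ) * δ)) +
      Γ ^ m0 P.R * m0 P.R * (200 * c ^ 2 * ((s + Λ) * δ)) := by linarith
    _ = _ := by ring

/-! ### the explicit part -/





end main

/-! ### the background hypotheses of 126 -/

section bh
variable {A : Type*} [CommRing A] [Algebra ℝ A] {s Λ δ p p' : ℝ} {P P' : MPar}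

theorem Cl.t_le (h : Cl P p s Λ) {S : Finset (ℤ × ℤ)} (hS : S ∈ Can P.R) (hev : Even S.card) :
    |P.t S| ≤ s + Λ := by
  by_cases hn : IsNN S
  · obtain ⟨j, rfl⟩ := isNN_Can hS hn
    have e : P.t (pr (0, j)) = p + (P.t (pr (0, j)) - p) := by ring
    rw [e]
    exact (abs_add_le _ _).trans (add_le_add h.hp (h.nn j))
  · have := h.ev S (mem_evN.2 ⟨hS, hev, hn⟩)
    linarith [h.s0]





theorem Cl2.t_sub (h : Cl P p s Λ) (h2 : Cl2 P P' p p' Λ δ) {S : Finset (ℤ × ℤ)}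
    (hS : S ∈ Can P.R) (hev : Even S.card) : |P.t S - P'.t S| ≤ 2 * δ := by
  have hΛ : Λ * δ ≤ δ := by nlinarith [h.one, h.s0, h.Λ0, h2.δ0]
  by_cases hn : IsNN S
  · obtain ⟨j, rfl⟩ := isNN_Can hS hn
    have e : P.t (pr (0, j)) - P'.t (pr (0, j)) =
      (p - p') + ((P.t (pr (0, j)) - p) - (P'.t (pr (0, j)) - p')) := by ring
    rw [e]
    exact (abs_add_le _ _).trans (by linarith [h2.hp, h2.nn j])
  · have := h2.ev S (mem_evN.2 ⟨hS, hev, hn⟩)
    linarith [h2.δ0]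

end bh

/-! ### the parameters of the perturbed Ising model -/

/-- the parameters with `(β - βc) J = p` -/
def par (J lam : ℝ) (R : ℕ) (V : Finset (ℤ × ℤ) → ℝ) (p z : ℝ) : MPar :=
  mpar J lam R V (criticalBeta J + p / J) z

theorem par_R (J lam : ℝ) (R : ℕ) (V : Finset (ℤ × ℤ) → ℝ) (p z : ℝ) :
    (par J lam R V p z).R = max R 1 := rfl


theorem par_t_nn {J : ℝ} (hJ : 0 < J) (lam : ℝ) (R : ℕ) (V : Finset (ℤ × ℤ) → ℝ) (p z : ℝ)
    (j : Fin 2) : (par J lam R V p z).t (pr (0, j)) - p =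
      (criticalBeta J + p / J) * lam * V (pr (0, j)) := by
  change tpot J lam (criticalBeta J + p / J) V (pr (0, j)) - p = _
  unfold tpot
  rw [if_pos ⟨_, rfl⟩]
  field_simp
  ring

theorem par_t_ev (J lam : ℝ) (R : ℕ) (V : Finset (ℤ × ℤ) → ℝ) (p z : ℝ)
    {S : Finset (ℤ × ℤ)} (hS : ¬ IsNN S) : (par J lam R V p z).t S =
      (criticalBeta J + p / J) * lam * V S := by
  change tpot J lam (criticalBeta J + p / J) V S = _
  unfold tpot
  rw [if_neg hS, mul_zero, add_zero]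

/-- a bound for the potential -/
theorem exists_bd (R : ℕ) (V : Finset (ℤ × ℤ) → ℝ) :
    ∃ v : ℝ, 0 ≤ v ∧ ∀ S ∈ Can (max R 1), |V S| ≤ v :=
  ⟨∑ S ∈ Can (max R 1), |V S|, Finset.sum_nonneg fun _ _ => abs_nonneg _,
    fun S hS => Finset.single_le_sum (f := fun S => |V S|) (fun _ _ => abs_nonneg _) hS⟩

/-- **the parameters are close to the explicit ones** -/
theorem exists_cl {J : ℝ} (hJ : 0 < J) (R : ℕ) (V : Finset (ℤ × ℤ) → ℝ) :
    ∃ K : ℝ, 0 ≤ K ∧ ∀ lam s p z : ℝ, |p| ≤ s → |z| ≤ s → s ≤ 1 / 2 → K * |lam| ≤ 1 / 2 →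
      Cl (par J lam R V p z) p s (K * |lam|) ∧
      ∀ p' z' δ : ℝ, |p'| ≤ s → |z'| ≤ s → |p - p'| ≤ δ → |z - z'| ≤ δ →
        Cl2 (par J lam R V p z) (par J lam R V p' z') p p' (K * |lam|) δ := by
  obtain ⟨v, hv0, hv⟩ := exists_bd R V
  refine ⟨(|criticalBeta J| + 1 / J) * v, by positivity, ?_⟩
  intro lam s p z hp hz hs hK
  have hs0 : 0 ≤ s := (abs_nonneg _).trans hp
  have hb : ∀ x : ℝ, |x| ≤ 1 → |criticalBeta J + x / J| ≤ |criticalBeta J| + 1 / J := by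
    intro x hx
    refine (abs_add_le _ _).trans (add_le_add le_rfl ?_)
    rw [abs_div, abs_of_pos hJ]
    gcongr
  have hmul : ∀ S ∈ Can (max R 1), ∀ β : ℝ, |β| ≤ |criticalBeta J| + 1 / J →
      |β * lam * V S| ≤ (|criticalBeta J| + 1 / J) * v * |lam| := by
    intro S hS β hβ
    rw [abs_mul, abs_mul]
    calc |β| * |lam| * |V S| ≤ (|criticalBeta J| + 1 / J) * |lam| * v := by
          gcongr
          exact hv S hS
      _ = _ := by ring
  refine ⟨⟨le_max_right _ _, hp, hz, hs, by linarith, fun j => ?_, fun S hS => ?_⟩, ?_⟩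
  · rw [par_t_nn hJ]
    exact hmul _ (pr_zero_mem_Can (le_max_right _ _) j) _ (hb p (by linarith))
  · have hS' := mem_evN.1 hS
    rw [par_t_ev _ _ _ _ _ _ hS'.2.2]
    exact hmul _ hS'.1 _ (hb p (by linarith))
  · intro p' z' δ hp' hz' hpp hzz
    have hdiff : ∀ S ∈ Can (max R 1), |(criticalBeta J + p / J) * lam * V S -
        (criticalBeta J + p' / J) * lam * V S| ≤
        (|criticalBeta J| + 1 / J) * v * |lam| * δ := by
      intro S hS
      have e : (criticalBeta J + p / J) * lam * V S - (criticalBeta J + p' / J) * lam * V S =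
          (p - p') / J * lam * V S := by ring
      rw [e, abs_mul, abs_mul, abs_div, abs_of_pos hJ]
      have h0 : 0 ≤ δ := (abs_nonneg _).trans hpp
      calc |p - p'| / J * |lam| * |V S| ≤ δ / J * |lam| * v := by
            gcongr
            exact hv S hS
        _ = (1 / J) * v * |lam| * δ := by ring
        _ ≤ _ := by
            gcongr
            linarith [abs_nonneg (criticalBeta J)]
    refine ⟨rfl, hpp, hzz, fun j => ?_, fun S hS => ?_⟩
    · rw [par_t_nn hJ, par_t_nn hJ]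
      exact hdiff _ (pr_zero_mem_Can (le_max_right _ _) j)
    · have hS' := mem_evN.1 hS
      rw [par_t_ev _ _ _ _ _ _ hS'.2.2, par_t_ev _ _ _ _ _ _ hS'.2.2]
      exact hdiff _ hS'.1

end Crest.Agent.R165.J4K0Qx871
end
end

-- ▼ part R165/InitPl_871
section

/-!
# Row 165 (S0250), block INIT: the data of the initial activities of the plane (helper871)

* `Kex_eq`   : `Kex` of 541 = `Kex (frG id)` of `J4K0P_871`
* `nk_le_NI` : `nk a r Γ Q ≤ (2 r + 1)² NI Γ (..)`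
* `size_pl`, `lip_pl`, `rest_pl`, `rlip_pl`
* `initData_of` : `InitData` for `Kpl`, from the symmetry and the connectedness
-/

set_option autoImplicit false
set_option linter.unusedSectionVars false

noncomputable section

open Finset
open scoped ENNReal
open Crest.ProbabilityR.IsingModel

namespace Crest.Agent.R165.InitPlx871

open Crest.Agent.R165.Gr0x606 Crest.Agent.R165.Gr1x606
open Crest.Agent.R165.GDefx387 Crest.Agent.R165.GSysx387
open Crest.Agent.R165.PlaneModesx901 Crest.Agent.R165.Bkgx683 Crest.Agent.R165.PEndx683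
open Crest.Agent.R165.J4Geox126 Crest.Agent.R165.J4Defx653 Crest.Agent.R165.J4K0Bx126
open Crest.Agent.R165.PStepx417 Crest.Agent.R165.PStepIdx901 Crest.Agent.R165.PlaneCoefx901
open Crest.Agent.R165.Latx683 (xc wPl Fld BW)
open Crest.Agent.R165.NSumx915 Crest.Agent.R165.Quad2x897 Crest.Agent.R165.KInitx892
open Crest.Agent.R165.Bridgex915 Crest.Agent.R165.GeOpsx337
open Crest.Agent.R165.Initx541 Crest.Agent.R165.InitBx682 Crest.Agent.R165.InitNx682
open Crest.Agent.R165.J4K0Px871 (anc anc_smul anc_congr Kct R1 plB evN)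
open Crest.Agent.R165.J4K0Qx871

/-- the two forms of the explicit part agree -/
theorem Kex_eq (p z : ℝ) (U : Finset Fc) : Kex p z U = J4K0Px871.Kex frP p z U := by
  unfold Kex J4K0Px871.Kex Kp Kz
  have e1 : ∀ j : Fin 2, anc (Yf (pr ((0 : ℤ × ℤ), j))) (fun u => (-(2 * xc * p)) • frP.b (u, j)) U =
      p • ((-(2 * xc)) • trF (Yf (pr (0, j))) (bu j) U) := by
    intro j
    rw [smul_smul]
    have : (fun u => (-(2 * xc * p)) • frP.b (u, j)) = fun u => (p * -(2 * xc)) • bu j u := by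
      funext u
      unfold bu
      congr 1; ring
    rw [this, anc_smul]
    rfl
  have e2 : ∀ j : Fin 2, anc (faE ((0 : ℤ × ℤ), j)) (fun u => xc • frP.b (u, j)) U =
      xc • trF (faE ((0 : ℤ × ℤ), j)) (bu j) U := by
    intro j
    rw [anc_smul]
    rfl
  simp only [e1, e2, ← Finset.smul_sum]
  rfl

theorem nk_le_NI {a : ℝ} {r : ℕ} {Γ : ℝ≥0∞} (hΓ : 1 ≤ Γ) (Q : Fam) :
    nk a r Γ Q ≤ (nI r : ℝ≥0∞) * NI (G := ℤ) Γ (fun U => pG (wU w₀ a r U) (Q U)) := by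
  rw [← NN_eq_NI]
  exact NN_scale hΓ (Nat.zero_le _) (cov_card r) _

section
variable {a Γ s Λ δ p p' : ℝ} {P P' : MPar} {l k0 : ℕ}

theorem xc_abs (z : ℤ × ℤ) (j : Fin 2) : |Bg.pl.w z j| ≤ 1 := by
  change |xc| ≤ 1
  rw [abs_of_pos xc_mem.1]; exact xc_mem.2

theorem phyp_of (h : Cl P p s Λ) {θ : ℝ} (h1 : s + Λ ≤ θ) (h2 : θ ≤ 1 / 2) :
    InitBx682.PHyp P θ where
  θ0 := by linarith [h.s0, h.Λ0]
  θ1 := h2
  z := h.hz.trans (by linarith [h.Λ0])
  t _ hS hev := (h.t_le hS hev).trans h1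

theorem dhyp_of (h : Cl P p s Λ) (h2 : Cl2 P P' p p' Λ δ) : DHyp P P' (2 * δ) where
  R := h2.hR
  z := h2.hz.trans (by linarith [h2.δ0])
  t _ hS hev := h2.t_sub h hS hev

/-- remainder = reclustering + several items + first order remainder -/
theorem rem_eq (P : MPar) (p : ℝ) (U : Finset Fc) :
    A0 Bg.pl P l k0 U - Kex p P.z U - Kct (Ge (Fld ℤ)) p U =
      (A0 Bg.pl P l k0 U - A01 Bg.pl P U) + R1 frP P p U := by
  rw [Kex_eq]
  unfold R1
  change _ = (A0 Bg.pl P l k0 U - K01 frP (plB (Ge (Fld ℤ)) P) U) + _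
  abel

end


/-! ### the bounds for one or two sets of parameters -/

/-- the constants of the step `0` -/
structure Dc (R l k0 : ℕ) (a Γ K ρ : ℝ) : Prop where
  a0 : 0 ≤ a
  Γ3 : 3 ≤ Γ
  r6 : 6 ≤ rr l k0 0
  K0 : 0 ≤ K
  ρ0 : 0 < ρ
  half : 3 * (1 + K) * ρ ≤ 1 / 2
  one : CI R l k0 Γ a * (3 * (1 + K) * ρ) ≤ 1

/-- the constant of the first order remainder -/
def CR (R l k0 : ℕ) (Γ a : ℝ) : ℝ :=
  nI (rr l k0 0) * J4K0Qx871.C1 R Γ (cB a (rr l k0 0))

/-- the constant of all the bounds -/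
def CC (R l k0 : ℕ) (Γ a K : ℝ) : ℝ :=
  2 * CI R l k0 Γ a * (1 + K) ^ 2 + CR R l k0 Γ a * (1 + K)

section fin
variable {a Γ K ρ : ℝ} {R l k0 : ℕ}

theorem C1_nonneg (R : ℕ) {Γ c : ℝ} (hΓ : 0 ≤ Γ) (hc : 1 ≤ c) : 0 ≤ J4K0Qx871.C1 R Γ c := by
  have := Mc_pos R hc
  unfold J4K0Qx871.C1
  positivity

theorem CR_nonneg (R l k0 : ℕ) {Γ : ℝ} (a : ℝ) (hΓ : 3 ≤ Γ) : 0 ≤ CR R l k0 Γ a :=
  mul_nonneg (Nat.cast_nonneg _) (C1_nonneg R (by linarith) (one_le_cB a _))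

theorem Dc.CI1 (h : Dc R l k0 a Γ K ρ) : 1 ≤ CI R l k0 Γ a := (CI_parts R l k0 a h.Γ3).1

theorem Dc.CR0 (h : Dc R l k0 a Γ K ρ) : 0 ≤ CR R l k0 Γ a := CR_nonneg R l k0 a h.Γ3

theorem Dc.CC0 (h : Dc R l k0 a Γ K ρ) : 0 ≤ CC R l k0 Γ a K := by
  have h1 := h.CI1
  have h2 := h.CR0
  have h3 := h.K0
  unfold CC
  positivity

theorem nk_A0_le (h : Dc R l k0 a Γ K ρ) {P : MPar} (hR : P.R = R) {θ : ℝ}
    (hP : InitBx682.PHyp P θ) (hθ : θ ≤ 3 * (1 + K) * ρ) :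
    nk a (rr l k0 0) (ENNReal.ofReal Γ) (A0 Bg.pl P l k0) ≤
      ENNReal.ofReal (CI R l k0 Γ a * θ) ∧
    nk a (rr l k0 0) (ENNReal.ofReal Γ) (fun U => A0 Bg.pl P l k0 U - A01 Bg.pl P U) ≤
      ENNReal.ofReal (CI R l k0 Γ a * θ ^ 2) := by
  subst hR
  have hI := h.CI1
  exact init_all (B := Bg.pl) (l := l) (k0 := k0) h.a0 h.Γ3 h.r6 xc_abs hP
    ((mul_le_mul_of_nonneg_left hθ (by linarith)).trans h.one)

theorem nk_A0_lip (h : Dc R l k0 a Γ K ρ) {P P' : MPar} (hR : P.R = R) {θ δ : ℝ}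
    (hP : InitBx682.PHyp P θ) (hP' : InitBx682.PHyp P' θ) (hD : DHyp P P' δ) (hθ0 : 0 < θ)
    (hθ : θ ≤ 3 * (1 + K) * ρ) :
    nk a (rr l k0 0) (ENNReal.ofReal Γ) (fun U => A0 Bg.pl P l k0 U - A0 Bg.pl P' l k0 U) ≤
      ENNReal.ofReal (CI R l k0 Γ a * δ) ∧
    nk a (rr l k0 0) (ENNReal.ofReal Γ) (fun U => (A0 Bg.pl P l k0 U - A01 Bg.pl P U) -
      (A0 Bg.pl P' l k0 U - A01 Bg.pl P' U)) ≤
      ENNReal.ofReal (CI R l k0 Γ a * (δ * θ)) := by
  subst hR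
  have hI := h.CI1
  exact init_all_lip (B := Bg.pl) (l := l) (k0 := k0) h.a0 h.Γ3 h.r6 xc_abs hP hP' hD hθ0
    ((mul_le_mul_of_nonneg_left hθ (by linarith)).trans h.one)

theorem nk_R1_le (h : Dc R l k0 a Γ K ρ) {P : MPar} {p s Λ : ℝ} (hc : Cl P p s Λ)
    (hR : P.R = R) :
    nk a (rr l k0 0) (ENNReal.ofReal Γ) (R1 frP P p) ≤
      ENNReal.ofReal (CR R l k0 Γ a * (Λ + s ^ 2)) := by
  subst hR
  have hΓ1 : (1 : ℝ) ≤ Γ := by linarith [h.Γ3]
  refine (nk_le_NI (by simpa using hΓ1) _).trans ?_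
  refine (mul_le_mul_right (NI_R1_le (fr := frP) (nhyp_id w₀ h.a0 (rr l k0 0)) hΓ1 hc) _).trans ?_
  rw [← ENNReal.ofReal_natCast, ← ENNReal.ofReal_mul (Nat.cast_nonneg _), CR, mul_assoc]

theorem nk_R1_sub_le (h : Dc R l k0 a Γ K ρ) {P P' : MPar} {p p' s Λ δ : ℝ}
    (hc : Cl P p s Λ) (hc' : Cl P' p' s Λ) (h2 : Cl2 P P' p p' Λ δ) (hR : P.R = R) :
    nk a (rr l k0 0) (ENNReal.ofReal Γ) (fun U => R1 frP P p U - R1 frP P' p' U) ≤
      ENNReal.ofReal (CR R l k0 Γ a * ((s + Λ) * δ)) := by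
  subst hR
  have hΓ1 : (1 : ℝ) ≤ Γ := by linarith [h.Γ3]
  refine (nk_le_NI (by simpa using hΓ1) _).trans ?_
  refine (mul_le_mul_right (NI_R1_sub_le (fr := frP) (nhyp_id w₀ h.a0 (rr l k0 0)) hΓ1 hc hc' h2)
    _).trans ?_
  rw [← ENNReal.ofReal_natCast, ← ENNReal.ofReal_mul (Nat.cast_nonneg _), CR, mul_assoc]

variable {P P' : MPar} {p p' s Λ δ L : ℝ}

theorem CC_ge (h : Dc R l k0 a Γ K ρ) : CI R l k0 Γ a * (1 + K) ≤ CC R l k0 Γ a K ∧
    CI R l k0 Γ a * 2 ≤ CC R l k0 Γ a K := by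
  have hI := h.CI1
  have hK := h.K0
  have hC := h.CR0
  have h7 : 0 ≤ CR R l k0 Γ a * (1 + K) := by positivity
  have h5 : (1 + K) ≤ 2 * (1 + K) ^ 2 := by nlinarith
  have h6 := mul_le_mul_of_nonneg_left h5 (by linarith : 0 ≤ CI R l k0 Γ a)
  have h8 : (1 : ℝ) ≤ (1 + K) ^ 2 := by nlinarith
  have h9 := mul_le_mul_of_nonneg_left h8 (by linarith : 0 ≤ CI R l k0 Γ a)
  unfold CC
  constructor <;> linarith

/-- the size -/
theorem size_gen (h : Dc R l k0 a Γ K ρ) (hR : P.R = R) (hc : Cl P p s (K * L)) (hs : s ≤ 2 * ρ)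
    (hL0 : 0 ≤ L) (hL : L ≤ ρ) : nk a (rr l k0 0) (ENNReal.ofReal Γ) (A0 Bg.pl P l k0) ≤
      ENNReal.ofReal (CC R l k0 Γ a K * (L + s)) := by
  have hK := h.K0
  have hs0 := hc.s0
  have hθ : (1 + K) * (L + s) ≤ 3 * (1 + K) * ρ := by
    have : (1 + K) * (L + s) ≤ (1 + K) * (3 * ρ) :=
      mul_le_mul_of_nonneg_left (by linarith) (by linarith)
    linarith
  have h0 : s + K * L ≤ (1 + K) * (L + s) := by nlinarith [mul_nonneg hK hs0]
  refine (nk_A0_le h hR (phyp_of hc h0 (hθ.trans h.half)) hθ).1.trans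
    (ENNReal.ofReal_le_ofReal ?_)
  calc _ = CI R l k0 Γ a * (1 + K) * (L + s) := by ring
    _ ≤ _ := mul_le_mul_of_nonneg_right (CC_ge h).1 (by positivity)

theorem lip_gen (h : Dc R l k0 a Γ K ρ) (hR : P.R = R) (hc : Cl P p s (K * L))
    (hc' : Cl P' p' s (K * L)) (h2 : Cl2 P P' p p' (K * L) δ) (hs : s ≤ ρ) (hL : L ≤ ρ) :
    nk a (rr l k0 0) (ENNReal.ofReal Γ) (fun U => A0 Bg.pl P l k0 U - A0 Bg.pl P' l k0 U) ≤
      ENNReal.ofReal (CC R l k0 Γ a K * δ) := by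
  have hK := h.K0
  have hρ := h.ρ0
  have hKL : K * L ≤ K * ρ := mul_le_mul_of_nonneg_left hL hK
  have hKρ : 0 ≤ K * ρ := by positivity
  have hθ : s + K * L ≤ 3 * (1 + K) * ρ := by nlinarith
  refine (nk_A0_lip h hR (phyp_of hc hθ h.half) (phyp_of hc' hθ h.half) (dhyp_of hc h2)
    (by positivity) le_rfl).1.trans (ENNReal.ofReal_le_ofReal ?_)
  calc _ = CI R l k0 Γ a * 2 * δ := by ring
    _ ≤ _ := mul_le_mul_of_nonneg_right (CC_ge h).2 h2.δ0

theorem rest_gen (h : Dc R l k0 a Γ K ρ) (hR : P.R = R) (hc : Cl P p s (K * L))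
    (hL0 : 0 ≤ L) (hL : L ≤ s) (hs : s ≤ ρ) :
    nk a (rr l k0 0) (ENNReal.ofReal Γ)
      (fun U => A0 Bg.pl P l k0 U - Kex p P.z U - Kct (Ge (Fld ℤ)) p U) ≤
      ENNReal.ofReal (CC R l k0 Γ a K * (L + s ^ 2)) := by
  have hK := h.K0
  have hρ := h.ρ0
  have hs0 := hc.s0
  have hI := h.CI1
  have hC := h.CR0
  have hKL : K * L ≤ K * s := mul_le_mul_of_nonneg_left hL hK
  have hθ : (1 + K) * s ≤ 3 * (1 + K) * ρ := by
    have := mul_le_mul_of_nonneg_left hs (by linarith : 0 ≤ 1 + K)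
    nlinarith
  have i1 := (nk_A0_le h hR (phyp_of hc (θ := (1 + K) * s) (by linarith) (hθ.trans h.half))
    hθ).2
  have i2 := nk_R1_le h hc hR
  simp only [rem_eq]
  refine (nk_add_le _ _).trans ((add_le_add i1 i2).trans ?_)
  rw [← ENNReal.ofReal_add (by positivity) (by positivity)]
  refine ENNReal.ofReal_le_ofReal ?_
  unfold CC
  have q1 : CI R l k0 Γ a * ((1 + K) * s) ^ 2 ≤
      2 * CI R l k0 Γ a * (1 + K) ^ 2 * (L + s ^ 2) := by
    have e : 0 ≤ CI R l k0 Γ a * (1 + K) ^ 2 := by positivity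
    have e1 := mul_nonneg e hL0
    have e2 := mul_nonneg e (sq_nonneg s)
    calc _ = CI R l k0 Γ a * (1 + K) ^ 2 * s ^ 2 := by ring
      _ ≤ 2 * (CI R l k0 Γ a * (1 + K) ^ 2 * L) + 2 * (CI R l k0 Γ a * (1 + K) ^ 2 * s ^ 2) := by
        linarith
      _ = _ := by ring
  have q2 : K * L + s ^ 2 ≤ (1 + K) * (L + s ^ 2) := by
    have e1 := mul_nonneg hK (sq_nonneg s)
    calc _ ≤ K * L + s ^ 2 + (L + K * s ^ 2) := by linarith
      _ = _ := by ring
  calc _ ≤ 2 * CI R l k0 Γ a * (1 + K) ^ 2 * (L + s ^ 2) +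
        CR R l k0 Γ a * ((1 + K) * (L + s ^ 2)) :=
        add_le_add q1 (mul_le_mul_of_nonneg_left q2 hC)
    _ = _ := by ring

theorem rlip_gen (h : Dc R l k0 a Γ K ρ) (hR : P.R = R) (hc : Cl P p s (K * L))
    (hc' : Cl P' p' s (K * L)) (h2 : Cl2 P P' p p' (K * L) δ) (hL0 : 0 ≤ L) (hL : L ≤ s)
    (hs1 : 0 < s) (hs : s ≤ ρ) :
    nk a (rr l k0 0) (ENNReal.ofReal Γ)
      (fun U => (A0 Bg.pl P l k0 U - Kex p P.z U - Kct (Ge (Fld ℤ)) p U) -
        (A0 Bg.pl P' l k0 U - Kex p' P'.z U - Kct (Ge (Fld ℤ)) p' U)) ≤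
      ENNReal.ofReal (CC R l k0 Γ a K * (L + s) * δ) := by
  have hK := h.K0
  have hρ := h.ρ0
  have hs0 := hc.s0
  have hI := h.CI1
  have hC := h.CR0
  have hδ0 := h2.δ0
  have hKL : K * L ≤ K * s := mul_le_mul_of_nonneg_left hL hK
  have hKL0 : 0 ≤ K * L := mul_nonneg hK hL0
  have hθ : s + K * L ≤ 3 * (1 + K) * ρ := by
    have := mul_le_mul_of_nonneg_left hs (by linarith : 0 ≤ 1 + K)
    nlinarith
  have i1 := (nk_A0_lip h hR (phyp_of hc le_rfl (hθ.trans h.half))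
    (phyp_of hc' le_rfl (hθ.trans h.half)) (dhyp_of hc h2) (by linarith) hθ).2
  have i2 := nk_R1_sub_le h hc hc' h2 hR
  have e0 : (fun U => (A0 Bg.pl P l k0 U - Kex p P.z U - Kct (Ge (Fld ℤ)) p U) -
        (A0 Bg.pl P' l k0 U - Kex p' P'.z U - Kct (Ge (Fld ℤ)) p' U)) =
      fun U => ((A0 Bg.pl P l k0 U - A01 Bg.pl P U) - (A0 Bg.pl P' l k0 U - A01 Bg.pl P' U)) +
        (R1 frP P p U - R1 frP P' p' U) := by
    funext U
    rw [rem_eq, rem_eq]
    abel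
  rw [e0]
  refine (nk_add_le _ _).trans ((add_le_add i1 i2).trans ?_)
  rw [← ENNReal.ofReal_add (by positivity) (by positivity)]
  refine ENNReal.ofReal_le_ofReal ?_
  unfold CC
  have q0 : s + K * L ≤ (1 + K) * (L + s) := by nlinarith [mul_nonneg hK hs0]
  have q3 : s + K * L ≤ (1 + K) ^ 2 * (L + s) := by
    refine q0.trans (mul_le_mul_of_nonneg_right ?_ (by positivity))
    nlinarith
  have q1 : CI R l k0 Γ a * (2 * δ * (s + K * L)) ≤
      2 * CI R l k0 Γ a * (1 + K) ^ 2 * (L + s) * δ := by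
    have e : 0 ≤ 2 * CI R l k0 Γ a * δ := by positivity
    calc _ = 2 * CI R l k0 Γ a * δ * (s + K * L) := by ring
      _ ≤ 2 * CI R l k0 Γ a * δ * ((1 + K) ^ 2 * (L + s)) := mul_le_mul_of_nonneg_left q3 e
      _ = _ := by ring
  have q2 : (s + K * L) * δ ≤ (1 + K) * (L + s) * δ := mul_le_mul_of_nonneg_right q0 hδ0
  calc _ ≤ 2 * CI R l k0 Γ a * (1 + K) ^ 2 * (L + s) * δ +
        CR R l k0 Γ a * ((1 + K) * (L + s) * δ) :=
        add_le_add q1 (mul_le_mul_of_nonneg_left q2 hC)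
    _ = _ := by ring

end fin

end Crest.Agent.R165.InitPlx871
end
end

-- ▼ part R165/InitConn_901
section

/-!
# Row 165 (S0250), P7, step 0: supports of the initial data (helper901)

* `trF_eq_anc`, `kex_eq` : the notations of 541 and of 871 agree
* `anc_conn`, `anc_one` : translates of an anchored support
* `kct_cst`, `kct_conn`, `kct_empty` : fields `cst`, `cconn`, `cemp` of `InitData` for the constants
  `Kct` of 871
* `kpl_empty`, `kpl_conn` : fields `emp`, `conn` of `InitData` for `Kpl`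
-/

set_option autoImplicit false

noncomputable section

open scoped ENNReal
open Crest.ProbabilityR.IsingModel
open Crest.Agent.R165.Gr0x606 Crest.Agent.R165.Gr1x606 Crest.Agent.R165.Latx683
open Crest.Agent.R165.GDefx387 Crest.Agent.R165.GSysx387 Crest.Agent.R165.GeOpsx337
open Crest.Agent.R165.PlaneModesx901 Crest.Agent.R165.Bkgx683 Crest.Agent.R165.PEndx683
open Crest.Agent.R165.J4Geox126 Crest.Agent.R165.J4Defx653
open Crest.Agent.R165.PStepx417 Crest.Agent.R165.PStepIdx901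
open Crest.Agent.R165.Initx541
open Crest.Agent.R165.J4K0Px871 (anc anc_ne anc_empty anc_smul)

namespace Crest.Agent.R165.InitConnx901

/-! ### translates of an anchored support -/


theorem anc_conn {A : Type*} [CommRing A] [Algebra ℝ A] {R : ℕ} {Y : Finset Fc}
    (hY : ∀ u : Fc, Packx915.Conn fd R (Y.image (fz u)))
    {a : Fc → A} {U : Finset Fc} (h : anc Y a U ≠ 0) : Packx915.Conn fd R U := by
  obtain ⟨u, -, rfl⟩ := anc_ne h
  exact hY u

theorem anc_one {A : Type*} [CommRing A] [Algebra ℝ A] (Y : Finset Fc) (c : Fc → ℝ)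
    (U : Finset Fc) : ∃ r : ℝ, anc Y (fun u => c u • (1 : A)) U = r • (1 : A) := by
  refine ⟨∑ u ∈ U, if Y.image (fz u) = U then c u else 0, ?_⟩
  unfold anc
  rw [Finset.sum_smul]
  refine Finset.sum_congr rfl fun u _ => ?_
  split_ifs
  · rfl
  · rw [zero_smul]

/-- supports of the nearest neighbour shapes -/
theorem conn_nn (j : Fin 2) {R : ℕ} (hR : 1 ≤ R) (u : Fc) :
    Packx915.Conn fd R ((Yf (pr (0, j))).image (fz u)) :=
  (J4K0Lx126.conn_Yf (Finset.mem_insert_self _ _) u).mono hR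



/-! ### the constants of the nearest neighbour shapes -/

/-- the constants of 871 -/
abbrev Kc (p : ℝ) : Finset Fc → Ge (Fld ℤ) := J4K0Px871.Kct (Ge (Fld ℤ)) p

theorem kct_cst (p : ℝ) (U : Finset Fc) : ∃ c : ℝ, Kc p U = c • (1 : Ge (Fld ℤ)) := by
  choose r hr using fun j : Fin 2 =>
    anc_one (A := Ge (Fld ℤ)) (Yf (pr (0, j))) (fun _ => p) U
  refine ⟨∑ j : Fin 2, r j, ?_⟩
  change ∑ j : Fin 2, anc (Yf (pr (0, j))) (fun _ => p • (1 : Ge (Fld ℤ))) U = _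
  rw [Finset.sum_smul]
  exact Finset.sum_congr rfl fun j _ => hr j

theorem kct_conn {R : ℕ} (hR : 1 ≤ R) (p : ℝ) (U : Finset Fc) (h : Kc p U ≠ 0) :
    Packx915.Conn fd R U := by
  change ∑ j : Fin 2, anc (Yf (pr (0, j))) (fun _ => p • (1 : Ge (Fld ℤ))) U ≠ 0 at h
  obtain ⟨j, -, hj⟩ := Finset.exists_ne_zero_of_sum_ne_zero h
  exact anc_conn (conn_nn j hR) hj

theorem kct_empty (p : ℝ) : Kc p ∅ = 0 := by
  change ∑ j : Fin 2, anc (Yf (pr (0, j))) (fun _ => p • (1 : Ge (Fld ℤ))) ∅ = 0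
  exact Finset.sum_eq_zero fun j _ => anc_empty _ _

/-! ### the initial activities of the plane -/


section pl
variable (J : ℝ) (Rg : ℕ) (V : Finset (ℤ × ℤ) → ℝ) (l k0 : ℕ)

theorem kpl_empty (lam p z : ℝ) : Kpl J Rg V l k0 lam p z ∅ = 0 :=
  JVolx950.K0_empty _ _ _ _ _ _

variable {J Rg V l k0}

/-- **connectedness** of the initial activities, range `nearR l k0 0` -/
theorem kpl_conn (hR : 1 ≤ nearR l k0 0) (lam p z : ℝ) (U : Finset Fc)
    (h : Kpl J Rg V l k0 lam p z U ≠ 0) : Packx915.Conn fd (nearR l k0 0) U :=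
  DomAcx117.K0_conn Bg.pl _ LinearMap.id _ hR (fun k => k.elim0) h


end pl

end Crest.Agent.R165.InitConnx901
end
end

-- ▼ part R165/InitPl2_871
section

/-!
# Row 165 (S0250), block INIT: the data of the initial activities of the plane (helper871)

* `InitPlx871.initData_pl` : `InitData` of `InitDat_541` for the initial activities of the plane
-/

set_option autoImplicit false
set_option linter.unusedSectionVars false

noncomputable section

open Finset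
open scoped ENNReal
open Crest.ProbabilityR.IsingModel

namespace Crest.Agent.R165.InitPlx871

open Crest.Agent.R165.Gr0x606 Crest.Agent.R165.Gr1x606
open Crest.Agent.R165.GDefx387 Crest.Agent.R165.GSysx387
open Crest.Agent.R165.PlaneModesx901 Crest.Agent.R165.Bkgx683 Crest.Agent.R165.PEndx683
open Crest.Agent.R165.J4Geox126 Crest.Agent.R165.J4Defx653 Crest.Agent.R165.J4K0Bx126
open Crest.Agent.R165.PStepx417 Crest.Agent.R165.PStepIdx901 Crest.Agent.R165.PlaneCoefx901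
open Crest.Agent.R165.Latx683 (xc wPl Fld BW)
open Crest.Agent.R165.NSumx915 Crest.Agent.R165.Quad2x897 Crest.Agent.R165.KInitx892
open Crest.Agent.R165.Bridgex915 Crest.Agent.R165.GeOpsx337
open Crest.Agent.R165.Initx541 Crest.Agent.R165.InitBx682 Crest.Agent.R165.InitNx682
open Crest.Agent.R165.J4K0Px871 (anc anc_smul anc_congr Kct R1 plB evN)
open Crest.Agent.R165.J4K0Qx871

/-- the radius exists -/
theorem exists_dc (R l k0 : ℕ) {a Γ K : ℝ} (ha : 0 ≤ a) (hΓ : 3 ≤ Γ) (hr : 6 ≤ rr l k0 0)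
    (hK : 0 ≤ K) : ∃ ρ : ℝ, 0 < ρ ∧ ∀ ρ' : ℝ, 0 < ρ' → ρ' ≤ ρ → Dc R l k0 a Γ K ρ' := by
  have hI : 1 ≤ CI R l k0 Γ a := (CI_parts R l k0 a hΓ).1
  refine ⟨1 / (6 * (1 + K) * CI R l k0 Γ a), by positivity, fun ρ' h0 h1 => ?_⟩
  have h2 : 6 * (1 + K) * CI R l k0 Γ a * ρ' ≤ 1 := by
    have := (le_div_iff₀' (by positivity : 0 < 6 * (1 + K) * CI R l k0 Γ a)).1 h1
    exact this
  have h3 : 0 ≤ (1 + K) * ρ' := by positivity
  refine ⟨ha, hΓ, hr, hK, h0, ?_, ?_⟩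
  · nlinarith [mul_le_mul_of_nonneg_right hI h3]
  · nlinarith [mul_le_mul_of_nonneg_right hI h3]

variable {J : ℝ} {R : ℕ} {V : Finset (ℤ × ℤ) → ℝ}

/-- **the data of the initial activities of the plane** -/
theorem initData_of (hJ : 0 < J) (hV : Topx683.VHyp R V) : ∃ K : ℝ, 0 ≤ K ∧
    ∀ (l k0 : ℕ) (a Γ ρ : ℝ), Dc (max R 1) l k0 a Γ K ρ → 1 ≤ nearR l k0 0 →
      InitData a (rr l k0 0) (nearR l k0 0) (ENNReal.ofReal Γ) (CC (max R 1) l k0 Γ a K) ρ
        (Kpl J R V l k0) (fun p => Kct (Ge (Fld ℤ)) p) := by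
  obtain ⟨K, hK, hcl⟩ := exists_cl hJ R V
  refine ⟨K, hK, fun l k0 a Γ ρ h hn => ?_⟩
  have hρ := h.ρ0
  have hh := h.half
  have cl' : ∀ lam p z s t : ℝ, |lam| ≤ s → |p| ≤ t → |z| ≤ t → s ≤ ρ → t ≤ 2 * ρ →
      Cl (par J lam R V p z) p t (K * |lam|) ∧
      ∀ p' z' δ : ℝ, |p'| ≤ t → |z'| ≤ t → |p - p'| ≤ δ → |z - z'| ≤ δ →
        Cl2 (par J lam R V p z) (par J lam R V p' z') p p' (K * |lam|) δ := by
    intro lam p z s t h1 h2 h3 hs ht
    have h4 : K * |lam| ≤ K * ρ := mul_le_mul_of_nonneg_left (h1.trans hs) hK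
    have h5 : 0 ≤ K * ρ := by positivity
    exact hcl lam t p z h2 h3 (by linarith) (by linarith)
  refine ⟨h.CC0, hρ, fun lam p z => ?_, fun lam p z U hU => InitConnx901.kpl_conn hn lam p z U hU,
    fun lam p z => InitConnx901.kpl_empty _ _ _ _ _ lam p z, InitConnx901.kct_cst,
    InitConnx901.kct_conn hn, InitConnx901.kct_empty, ?_, ?_, ?_, ?_⟩
  · exact J4K0Symx126.K0_plSym hV.trans hV.range hV.rot hV.refl l k0
  · intro lam p z s h1 h2 h3 hs
    have n1 := abs_nonneg p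
    have n2 := abs_nonneg z
    have hc := (cl' lam p z s (|p| + |z|) h1 (by linarith) (by linarith) hs (by linarith)).1
    have := size_gen h (par_R J lam R V p z) hc (by linarith) (abs_nonneg lam) (h1.trans hs)
    rw [← add_assoc] at this
    exact this
  · intro lam p z p' z' s h1 h2 h3 h2' h3' hs
    have n1 := abs_nonneg (p - p')
    have n2 := abs_nonneg (z - z')
    have hc := cl' lam p z s s h1 h2 h3 hs (by linarith)
    have hc' := cl' lam p' z' s s h1 h2' h3' hs (by linarith)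
    exact lip_gen h (par_R J lam R V p z) hc.1 hc'.1
      (hc.2 p' z' _ h2' h3' (by linarith) (by linarith)) hs (h1.trans hs)
  · intro lam p z s h1 h2 h3 hs
    have hc := (cl' lam p z s s h1 h2 h3 hs (by linarith)).1
    exact rest_gen h (par_R J lam R V p z) hc (abs_nonneg lam) h1 hs
  · intro lam p z p' z' s h1 h2 h3 h2' h3' hs
    have n1 := abs_nonneg (p - p')
    have n2 := abs_nonneg (z - z')
    have hs0 : 0 ≤ s := (abs_nonneg _).trans h2
    rcases hs0.eq_or_lt with rfl | hs1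
    · have e1 : p = p' := by rw [abs_nonpos_iff.1 h2, abs_nonpos_iff.1 h2']
      have e2 : z = z' := by rw [abs_nonpos_iff.1 h3, abs_nonpos_iff.1 h3']
      subst e1 e2
      simp only [sub_self]
      exact mx_zero.trans_le zero_le
    have hc := cl' lam p z s s h1 h2 h3 hs (by linarith)
    have hc' := cl' lam p' z' s s h1 h2' h3' hs (by linarith)
    exact rlip_gen h (par_R J lam R V p z) hc.1 hc'.1
      (hc.2 p' z' _ h2' h3' (by linarith) (by linarith)) (abs_nonneg lam) h1 hs1 hs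

/-- **the data of the initial activities of the plane**, final form: one constant and one radius;
the radius can be decreased -/
theorem initData_pl (hJ : 0 < J) (hV : Topx683.VHyp R V) {l k0 : ℕ} {a Γ : ℝ} (ha : 0 ≤ a) (hΓ : 3 ≤ Γ)
    (hr : 6 ≤ rr l k0 0) (hn : 1 ≤ nearR l k0 0) : ∃ C ρ : ℝ, 0 ≤ C ∧ 0 < ρ ∧
      ∀ ρ' : ℝ, 0 < ρ' → ρ' ≤ ρ → InitData a (rr l k0 0) (nearR l k0 0) (ENNReal.ofReal Γ) C ρ'
        (Kpl J R V l k0) (fun p => Kct (Ge (Fld ℤ)) p) := by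
  obtain ⟨K, hK, h⟩ := initData_of hJ hV
  obtain ⟨ρ, hρ, hD⟩ := exists_dc (max R 1) l k0 ha hΓ hr hK
  exact ⟨_, ρ, (hD ρ hρ le_rfl).CC0, hρ, fun ρ' h1 h2 => h l k0 a Γ ρ' (hD ρ' h1 h2) hn⟩

end Crest.Agent.R165.InitPlx871
end
end

-- ▼ part R165/P7N_337

/-!
# Row 165 (S0250), block G, (P7): the leaf `P7L` (helper337)

`p7 (hJ : 0 < J) (hV : VHyp R V) : P7L J R V`, literally the field `p7` of
`PTopx386.Leaves3` / `POpenx641.POpen`.
-/

set_option autoImplicit false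

noncomputable section

open scoped ENNReal
open Crest.Agent.R165.GSysx387 Crest.Agent.R165.PStepx417 Crest.Agent.R165.Initx541

namespace Crest.Agent.R165.P7x337

/-- **the leaf `P7L`** : the shooting statement of the plane flow -/
theorem p7 (J : ℝ) (hJ : 0 < J) (R : ℕ) (V : Finset (ℤ × ℤ) → ℝ) (hV : Topx683.VHyp R V) :
    PTopx386.P7L J R V := by
  refine p7L_of_initData hJ fun l k0 a Γ ha hΓ hΓt hr hn => ?_
  obtain ⟨g, rfl⟩ : ∃ g : ℝ, Γ = ENNReal.ofReal g := ⟨Γ.toReal, (ENNReal.ofReal_toReal hΓt).symm⟩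
  have hg : (3 : ℝ) ≤ g := by
    have h3 : ENNReal.ofReal 3 ≤ ENNReal.ofReal g := by simpa using hΓ
    rcases le_or_gt 0 g with h0 | h0
    · exact (ENNReal.ofReal_le_ofReal_iff h0).1 h3
    · exfalso
      rw [ENNReal.ofReal_of_nonpos h0.le] at h3
      simp at h3
  obtain ⟨C, ρ, -, h1, h2⟩ := InitPlx871.initData_pl (a := a) hJ hV (by linarith) hg hr hn
  exact ⟨C, ρ, _, h2 ρ h1 le_rfl⟩

end Crest.Agent.R165.P7x337
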