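import Crest.Agent.R165.PTop_386
import Crest.Agent.R165.PEnd_683
import Crest.Agent.R165.EbTor_723
import Crest.Agent.R165.Bkg3_683

-- ▼ part R165/PTop2_386
section

/-!
# Row 165 (S0250): the universality half from its literal leaves, torus half as a limit (helper386)

`TorL2` : the torus bond expectations converge to `(exp (expoT c P S t) - 1) / t`, for all small
`t > 0` (output of `TorFin_599.torBonds_of_flow` or of `TorFin_63.torBonds_of`).
`pflow_of_leaves2 : Leaves2 → PFlow`.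
-/

set_option autoImplicit false
set_option linter.unusedSectionVars false

noncomputable section

open Filter Topology
open scoped ENNReal
open Crest.ProbabilityR.IsingModel
open Crest.Agent.R165.Bkgx683 Crest.Agent.R165.PEndx683 Crest.Agent.R165.Outx683
open Crest.Agent.R165.SrcERx441 Crest.Agent.R165.PinSysx723
open Crest.Agent.R165.Symx541 Crest.Agent.R165.Redx541 Crest.Agent.R165.Red2x541
open Crest.Agent.R165.Centx541 Crest.Agent.R165.Mastx541 Crest.Agent.R165.SRx541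
open Crest.Agent.R165.Topx683

namespace Crest.Agent.R165.PTopx386

variable (J : ℝ) (R : ℕ) (V : Finset (ℤ × ℤ) → ℝ)

/-- **torus half** of the limit of the bond expectations, as a limit -/
def TorL2 : Prop :=
  ForP J (PF J R V) fun c lam β z => ∀ S : Finset ((ℤ × ℤ) × Fin 2), ∃ t0 > 0, ∀ t : ℝ, 0 < t →
    t < t0 → Tendsto (fun L : ℕ => torBonds L J lam R V β S) atTop
      (𝓝 ((Real.exp (expoT c (mpar J lam R V β z) S t) - 1) / t))

/-- energy with functions on the frozen names -/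
structure EnL2 (Ze : Cst → ℝ → ℝ → ℝ → ℝ) (eb : Cst → ℝ → ℝ → ℝ → Fin 2 → ℝ) : Prop where
  one : OneP J (PF J R V) Ze
  dom : EnD J R V Ze eb
  disc : EnP J R V Ze eb

/-- **all leaves**, torus half as a limit -/
structure Leaves2 : Prop where
  p7 : ∀ J : ℝ, 0 < J → ∀ (R : ℕ) (V : Finset (ℤ × ℤ) → ℝ), VHyp R V → P7L J R V
  zeta : ∀ J : ℝ, 0 < J → ∀ (R : ℕ) (V : Finset (ℤ × ℤ) → ℝ), VHyp R V → ZetaL J R V
  spd : ∀ J : ℝ, 0 < J → ∀ (R : ℕ) (V : Finset (ℤ × ℤ) → ℝ), VHyp R V → SpDL J R V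
  spp : ∀ J : ℝ, 0 < J → ∀ (R : ℕ) (V : Finset (ℤ × ℤ) → ℝ), VHyp R V → SpPL J R V
  en : ∀ J : ℝ, 0 < J → ∀ (R : ℕ) (V : Finset (ℤ × ℤ) → ℝ), VHyp R V → EnL J R V
  tor : ∀ J : ℝ, 0 < J → ∀ (R : ℕ) (V : Finset (ℤ × ℤ) → ℝ), VHyp R V → TorL2 J R V
  dis : ∀ J : ℝ, 0 < J → ∀ (R : ℕ) (V : Finset (ℤ × ℤ) → ℝ), VHyp R V → DisL J R V

variable {J R V}






end Crest.Agent.R165.PTopx386
end
end

-- ▼ part R165/PEnd2_683
section

/-!
# Row 165 (S0250), block F: end of the universality half, second form (helper683)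

`FlowOut2` = `FlowOut` without the field `bm` (bond mean of the torus), which follows from `erp`, `dl`
and the unperturbed torus limit `UTb` (helper723's `bm_of`).

`pflow_of2 : UTb → (∀ J R V, VHyp R V → Nonempty (FlowOut2 J R V)) → PFlow`
-/

set_option autoImplicit false

noncomputable section

open Filter Topology
open Crest.ProbabilityR.IsingModel

namespace Crest.Agent.R165.PEndx683

open Crest.Agent.R165.Topx683 Crest.Agent.R165.Centx541 Crest.Agent.R165.Redx541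
  Crest.Agent.R165.Symx541 Crest.Agent.R165.Red2x541 Crest.Agent.R165.Mastx541
  Crest.Agent.R165.SRx541

/-- monotonicity of `ForP` in the conclusion -/
theorem ForP.mono {J : ℝ} {PF : ℝ → Cst → ℝ → ℝ → ℝ → Prop} {Q Q' : Cst → ℝ → ℝ → ℝ → Prop}
    (h : ForP J PF Q) (hQ : ∀ c lam β z, Q c lam β z → Q' c lam β z) : ForP J PF Q' := by
  refine EvC.mono h fun c hc C => ?_
  obtain ⟨ε, hε, h1⟩ := hc C
  exact ⟨ε, hε, fun lam β z hl hn hp => hQ c lam β z (h1 lam β z hl hn hp)⟩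

/-- everything the flow has to deliver, without the bond mean -/
structure FlowOut2 (J : ℝ) (R : ℕ) (V : Finset (ℤ × ℤ) → ℝ) where
  /-- plane flow controlled with constant `C` -/
  PF : ℝ → Cst → ℝ → ℝ → ℝ → Prop
  /-- spin renormalisation -/
  Zs : Cst → ℝ → ℝ → ℝ → ℝ
  /-- energy renormalisation -/
  Ze : Cst → ℝ → ℝ → ℝ → ℝ
  /-- bond mean -/
  eb : Cst → ℝ → ℝ → ℝ → Fin 2 → ℝ
  /-- (P7) shooting -/
  p7 : EvC fun c => ∃ C : ℝ, ∃ ε > 0, ∃ β z : ℝ → ℝ, ∀ lam : ℝ, |lam| < ε →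
    NearP J C lam (β lam) (z lam) ∧ PF C c lam (β lam) (z lam)
  zs : OneP J PF Zs
  ze : OneP J PF Ze
  /-- (P8)-(P10), domains -/
  srd : ForP J PF fun c lam β z => SRD J lam R V β (Zs c lam β z)
  /-- (P11), domains -/
  erd : ForP J PF fun c lam β z => ERD J lam R V β (Ze c lam β z) (eb c lam β z)
  /-- (P14), discs -/
  srp : ForP J PF fun c lam β z => SRP J lam R V β (Zs c lam β z)
  /-- (P14), discs -/
  erp : ForP J PF fun c lam β z => ERP J lam R V β (Ze c lam β z) (eb c lam β z)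
  /-- (P13) torus and discs have the same limit -/
  dl : ForP J PF fun _ lam β _ => DiscLim J lam R V β

/-- the unperturbed instance -/
theorem FlowOut2.discLim_zero {J : ℝ} {R : ℕ} {V : Finset (ℤ × ℤ) → ℝ} (f : FlowOut2 J R V) :
    DiscLim J 0 R V (criticalBeta J) := by
  obtain ⟨c, ⟨C, ε₁, hε₁, β, z, hβ⟩, hd⟩ := (f.p7.and f.dl).exists
  obtain ⟨ε₂, hε₂, h2⟩ := hd C
  have l1 : |(0 : ℝ)| < ε₁ := by simpa using hε₁
  have l2 : |(0 : ℝ)| < ε₂ := by simpa using hε₂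
  have h3 := h2 0 (β 0) (z 0) l2 (hβ 0 l1).1 (hβ 0 l1).2
  have h4 : β 0 = criticalBeta J := by
    have h5 := (hβ 0 l1).1
    unfold NearP at h5
    rw [abs_zero, mul_zero] at h5
    have h6 : |β 0 - criticalBeta J| ≤ 0 := by linarith [abs_nonneg (z 0)]
    exact sub_eq_zero.1 (abs_eq_zero.1 (le_antisymm h6 (abs_nonneg _)))
  rw [← h4]
  exact h3

/-- the bond mean is a consequence -/
def FlowOut2.toFlowOut {J : ℝ} {R : ℕ} {V : Finset (ℤ × ℤ) → ℝ} (f : FlowOut2 J R V)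
    (hU : UTb) (h0 : DiscLim 1 0 0 (fun _ => 0) (criticalBeta 1)) : FlowOut J R V where
  PF := f.PF
  Zs := f.Zs
  Ze := f.Ze
  eb := f.eb
  p7 := f.p7
  zs := f.zs
  ze := f.ze
  srd := f.srd
  erd := f.erd
  srp := f.srp
  erp := f.erp
  dl := f.dl
  bm := (f.erp.and f.dl).mono fun _ _ _ _ h => EbTorx723.bm_of hU h0 h.1 h.2

theorem vhyp_zero : VHyp 0 (fun _ => 0) where
  even _ h := absurd rfl h
  range _ h := absurd rfl h
  trans _ _ := rfl
  rot _ := rfl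
  refl _ := rfl

/-- **`PFlow` from the flow outputs and the unperturbed torus limit** -/
theorem pflow_of2 (hU : UTb) (h : ∀ J : ℝ, 0 < J → ∀ (R : ℕ) (V : Finset (ℤ × ℤ) → ℝ), VHyp R V →
    Nonempty (FlowOut2 J R V)) : PFlow := by
  have h0 : DiscLim 1 0 0 (fun _ => 0) (criticalBeta 1) := by
    obtain ⟨f⟩ := h 1 one_pos 0 (fun _ => 0) vhyp_zero
    exact f.discLim_zero
  refine pflow_of fun J hJ R V hV => ?_
  obtain ⟨f⟩ := h J hJ R V hV
  exact ⟨f.toFlowOut hU h0⟩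

end Crest.Agent.R165.PEndx683
end
end

-- ▼ part R165/PTop3_386
section

/-!
# Row 165 (S0250): the universality half from its leaves, final list (helper386)

* energy leaves as `ERD`, `ERP` (441's `ERD_of_run`, `ERP_of_run` produce them): `EnLR`
* `pflow_of_leaves3 : Leaves3 → PFlow`
* `s0250_P` : `ULimB → Leaves3 → ULim ∧ PRatio` is `SPosx894.all_of'` applied to it
-/

set_option autoImplicit false
set_option linter.unusedSectionVars false

noncomputable section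

open Filter Topology
open scoped ENNReal
open Crest.ProbabilityR.IsingModel
open Crest.Agent.R165.Bkgx683 Crest.Agent.R165.PEndx683 Crest.Agent.R165.Outx683
open Crest.Agent.R165.PinSysx723
open Crest.Agent.R165.Symx541 Crest.Agent.R165.Redx541 Crest.Agent.R165.Red2x541
open Crest.Agent.R165.Centx541 Crest.Agent.R165.Mastx541 Crest.Agent.R165.SRx541
open Crest.Agent.R165.Topx683

namespace Crest.Agent.R165.PTopx386

/-- **energy** on given names `Ze`, `eb`: renormalisation, domains, large plus discs -/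
structure EnR (J : ℝ) (R : ℕ) (V : Finset (ℤ × ℤ) → ℝ) (Ze : Cst → ℝ → ℝ → ℝ → ℝ)
    (eb : Cst → ℝ → ℝ → ℝ → Fin 2 → ℝ) : Prop where
  one : OneP J (PF J R V) Ze
  dom : ForP J (PF J R V) fun c lam β z => ERD J lam R V β (Ze c lam β z) (eb c lam β z)
  disc : ForP J (PF J R V) fun c lam β z => ERP J lam R V β (Ze c lam β z) (eb c lam β z)

/-- **all leaves** -/
structure Leaves3 : Prop where
  p7 : ∀ J : ℝ, 0 < J → ∀ (R : ℕ) (V : Finset (ℤ × ℤ) → ℝ), VHyp R V → P7L J R V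
  zeta : ∀ J : ℝ, 0 < J → ∀ (R : ℕ) (V : Finset (ℤ × ℤ) → ℝ), VHyp R V → ZetaL J R V
  spd : ∀ J : ℝ, 0 < J → ∀ (R : ℕ) (V : Finset (ℤ × ℤ) → ℝ), VHyp R V → SpDL J R V
  spp : ∀ J : ℝ, 0 < J → ∀ (R : ℕ) (V : Finset (ℤ × ℤ) → ℝ), VHyp R V → SpPL J R V
  en : ∀ J : ℝ, 0 < J → ∀ (R : ℕ) (V : Finset (ℤ × ℤ) → ℝ), VHyp R V →
    ∃ (Ze : Cst → ℝ → ℝ → ℝ → ℝ) (eb : Cst → ℝ → ℝ → ℝ → Fin 2 → ℝ), EnR J R V Ze eb
  tor : ∀ J : ℝ, 0 < J → ∀ (R : ℕ) (V : Finset (ℤ × ℤ) → ℝ), VHyp R V → TorL2 J R V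
  dis : ∀ J : ℝ, 0 < J → ∀ (R : ℕ) (V : Finset (ℤ × ℤ) → ℝ), VHyp R V → DisL J R V

variable {J : ℝ} {R : ℕ} {V : Finset (ℤ × ℤ) → ℝ}



end Crest.Agent.R165.PTopx386
end
end

-- ▼ part R165/PTop4_683

/-!
# Row 165 (S0250), block F: the universality half from its leaves, connected real sources (helper683)

The limits of the bond expectations are taken with the real source `1 + t ∏_{e ∈ S} eps_e` of support
`boxS S` (connected box around the mark `0`).

* `expoS c P S t` : the limit exponent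
* `TorL3`, `DisL3` : torus / disc half;  `Leaves4`, `pflow_of_leaves4 : Leaves4 → PFlow`
-/

set_option autoImplicit false
set_option linter.unusedSectionVars false

noncomputable section

open Filter Topology
open scoped ENNReal
open Crest.ProbabilityR.IsingModel
open Crest.Agent.R165.Bkgx683 Crest.Agent.R165.Bkg3x683 Crest.Agent.R165.PEndx683
open Crest.Agent.R165.Outx683 Crest.Agent.R165.PinSysx723 Crest.Agent.R165.PTopx386
open Crest.Agent.R165.Symx541 Crest.Agent.R165.Redx541 Crest.Agent.R165.Red2x541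
open Crest.Agent.R165.Centx541 Crest.Agent.R165.Mastx541 Crest.Agent.R165.SRx541
open Crest.Agent.R165.Topx683

namespace Crest.Agent.R165.PTop4x683

/-- the limit exponent of the real source `1 + t ∏_{e ∈ S} eps_e` in the plane -/
def expoS (c : Cst) (P : MPar) (S : Finset ((ℤ × ℤ) × Fin 2)) (t : ℝ) : ℝ :=
  expo (fltY c P Bg.pl 0 (boxS S) S t) (fltY c P Bg.pl 0 (boxS S) S 0)

variable (J : ℝ) (R : ℕ) (V : Finset (ℤ × ℤ) → ℝ)

/-- **torus half** of the limit of the bond expectations -/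
def TorL3 : Prop :=
  ForP J (PF J R V) fun c lam β z => ∀ S : Finset ((ℤ × ℤ) × Fin 2), ∃ t0 > 0, ∀ t : ℝ, 0 < t →
    t < t0 → Tendsto (fun L : ℕ => torBonds L J lam R V β S) atTop
      (𝓝 ((Real.exp (expoS c (mpar J lam R V β z) S t) - 1) / t))

/-- **disc half** of the limit of the bond expectations -/
def DisL3 : Prop :=
  ForP J (PF J R V) fun c lam β z => ∀ S : Finset ((ℤ × ℤ) × Fin 2), ∃ t0 > 0, ∀ t : ℝ, 0 < t →
    t < t0 → Tendsto (fun B : ℝ => 1 + t * discBonds B J lam R V β S) atTop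
      (𝓝 (Real.exp (expoS c (mpar J lam R V β z) S t)))

/-- **all leaves** -/
structure Leaves4 : Prop where
  p7 : ∀ J : ℝ, 0 < J → ∀ (R : ℕ) (V : Finset (ℤ × ℤ) → ℝ), VHyp R V → P7L J R V
  zeta : ∀ J : ℝ, 0 < J → ∀ (R : ℕ) (V : Finset (ℤ × ℤ) → ℝ), VHyp R V → ZetaL J R V
  spd : ∀ J : ℝ, 0 < J → ∀ (R : ℕ) (V : Finset (ℤ × ℤ) → ℝ), VHyp R V → SpDL J R V
  spp : ∀ J : ℝ, 0 < J → ∀ (R : ℕ) (V : Finset (ℤ × ℤ) → ℝ), VHyp R V → SpPL J R V
  en : ∀ J : ℝ, 0 < J → ∀ (R : ℕ) (V : Finset (ℤ × ℤ) → ℝ), VHyp R V →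
    ∃ (Ze : Cst → ℝ → ℝ → ℝ → ℝ) (eb : Cst → ℝ → ℝ → ℝ → Fin 2 → ℝ), EnR J R V Ze eb
  tor : ∀ J : ℝ, 0 < J → ∀ (R : ℕ) (V : Finset (ℤ × ℤ) → ℝ), VHyp R V → TorL3 J R V
  dis : ∀ J : ℝ, 0 < J → ∀ (R : ℕ) (V : Finset (ℤ × ℤ) → ℝ), VHyp R V → DisL3 J R V

variable {J R V}

/-- the field `dl` -/
theorem dl3 (hT : TorL3 J R V) (hD : DisL3 J R V) :
    ForP J (PF J R V) fun _ lam β _ => DiscLim J lam R V β := by
  refine PTopx386.ForP.imp (PEndx683.ForP.and hT hD) fun c lam β z h S => ?_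
  obtain ⟨t0, ht0, h1⟩ := h.1 S
  obtain ⟨t1, ht1, h2⟩ := h.2 S
  have hm : 0 < min t0 t1 / 2 := by have := lt_min ht0 ht1; linarith
  set t := min t0 t1 / 2 with ht
  have htlt : t < min t0 t1 := by rw [ht]; linarith
  refine ⟨_, h1 t hm (htlt.trans_le (min_le_left _ _)), ?_⟩
  exact lin_of_ratio hm.ne' (h2 t hm (htlt.trans_le (min_le_right _ _)))
    (Eventually.of_forall fun _ => rfl)

/-- **the instance of `FlowOut2`** -/
theorem flowOut2_of4 (h7 : P7L J R V) (hz : ZetaL J R V) (hsd : SpDL J R V) (hsp : SpPL J R V)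
    {Ze : Cst → ℝ → ℝ → ℝ → ℝ} {eb : Cst → ℝ → ℝ → ℝ → Fin 2 → ℝ} (he : EnR J R V Ze eb)
    (hT : TorL3 J R V) (hD : DisL3 J R V) : Nonempty (FlowOut2 J R V) :=
  ⟨⟨PF J R V, Zs J R V, Ze, eb, h7, hz.zs, he.one, srd hz hsd, he.dom, srp hz hsp, he.disc,
    dl3 hT hD⟩⟩

/-- **`PFlow` from the leaves** -/
theorem pflow_of_leaves4 (h : Leaves4) : PFlow := by
  refine pflow_of2 TorusUTx922.UTb_proof fun J hJ R V hV => ?_
  obtain ⟨Ze, eb, he⟩ := h.en J hJ R V hV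
  exact flowOut2_of4 (h.p7 J hJ R V hV) (h.zeta J hJ R V hV) (h.spd J hJ R V hV)
    (h.spp J hJ R V hV) he (h.tor J hJ R V hV) (h.dis J hJ R V hV)

end Crest.Agent.R165.PTop4x683
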