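import Crest.Agent.R165.MacI_622
import Crest.Agent.R165.Br3_644
import Crest.Agent.R165.Mac3_622
import Crest.Agent.R165.Br7_644
import Crest.Agent.R165.BrA3_375

-- ▼ part R165/Eta1_576
section

/-!
# Row 165 (S0250), block U4 (helper576): source at a branch vertex, exact part

Conventions of `Tr1_40` (fields `Face → Fin 4 → ℝ`).
* `psS V` : the explicit field `PsiS` of helper644 (source at the branch), tip at the vertex `V`
* `lvec w V` : the south-west corner functional `S_V - w N_{V-e₂}` of the face `V` as a vector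
* `A_psS` : `A (rayw V * xc) (psS V) = - lvec`
* `cm w χ φ` : commutator of `A` with a cut-off; `A_cut`
* `tip_gauge` : near the tip `x j` the ray signs are `gz f * gz (nb f h) * rayw (V j) f h`
* `cut_tip` : `A w (χ gz psS) = - gz(V) lvec + gz * commutator`
-/

set_option autoImplicit false
set_option linter.unusedVariables false
set_option linter.unusedSimpArgs false

noncomputable section

open MeasureTheory Filter Topology Set Metric
open Crest.ProbabilityR.IsingModel
open Crest.Agent.R165.Tr1x40 Crest.Agent.R165.RIfx891 Crest.Agent.R165.Embx622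
open Crest.Agent.R165.Mac0x622

namespace Crest.Agent.R165.Eta1x576

/-! ### the explicit field -/

/-- the source field of the branched plane, tip at the vertex `V` -/
def psS (V : Face) : Fld := fun f h => Br1x644.PsiS ((f.1 - V.1, f.2 - V.2), h)

/-- the weights of the branched plane, tip at the vertex `V` -/
def wT (V : Face) : Fld := fun f h => rayw V f h * xc

/-- south-west corner vector at the vertex `V` -/
def lvec (w : Fld) (V : Face) : Fld := fun f h =>
  if f = V ∧ h = 0 then 1 else if f = (V.1, V.2 - 1) ∧ h = 2 then -w V 0 else 0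

theorem wT_self (V : Face) : wT V V 0 = -xc := by
  unfold wT rayw
  simp

theorem A_psS (V : Face) (f : Face) (h : Fin 4) : A (wT V) (psS V) f h = -lvec (wT V) V f h := by
  have key : A (wT V) (psS V) f h =
      Latx683.Aop Br1x644.wB Br1x644.PsiS ((f.1 - V.1, f.2 - V.2), h) := by
    fin_cases h
    · simp only [Fin.zero_eta, Fin.isValue, A_S, psS, Latx683.Aop_S]
      have e1 : wT V f 0 = Latx683.yN Br1x644.wB (f.1 - V.1, f.2 - V.2 - 1) := by
        rw [Br1x644.yN_wB]
        unfold wT rayw Br1x644.sg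
        have : (Latx683.xc : ℝ) = xc := rfl
        rw [this]
        congr 1
        by_cases hc : f.2 = V.2 ∧ V.1 ≤ f.1
        · rw [if_pos (by simp [hc]), if_pos (by omega)]
        · rw [if_neg (by simpa using hc), if_neg (by omega)]
      rw [e1, show f.2 - 1 - V.2 = f.2 - V.2 - 1 by ring]
    · simp only [Fin.mk_one, Fin.isValue, A_E, psS, Latx683.Aop_E]
      have e1 : wT V f 1 = Latx683.yE Br1x644.wB (f.1 - V.1, f.2 - V.2) := by
        rw [Br1x644.yE_wB]
        unfold wT rayw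
        have : (Latx683.xc : ℝ) = xc := rfl
        rw [this]
        simp
      rw [e1, show f.1 + 1 - V.1 = f.1 - V.1 + 1 by ring]
    · simp only [Fin.reduceFinMk, A_N, psS, Latx683.Aop_N]
      have e1 : wT V f 2 = Latx683.yN Br1x644.wB (f.1 - V.1, f.2 - V.2) := by
        rw [Br1x644.yN_wB]
        unfold wT rayw Br1x644.sg
        have : (Latx683.xc : ℝ) = xc := rfl
        rw [this]
        congr 1
        by_cases hc : f.2 + 1 = V.2 ∧ V.1 ≤ f.1
        · rw [if_pos (by simp [hc]), if_pos (by omega)]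
        · rw [if_neg (by simpa using hc), if_neg (by omega)]
      rw [e1, show f.2 + 1 - V.2 = f.2 - V.2 + 1 by ring]
    · simp only [Fin.reduceFinMk, A_W, psS, Latx683.Aop_W]
      have e1 : wT V f 3 = Latx683.yE Br1x644.wB (f.1 - V.1 - 1, f.2 - V.2) := by
        rw [Br1x644.yE_wB]
        unfold wT rayw
        have : (Latx683.xc : ℝ) = xc := rfl
        rw [this]
        simp
      rw [e1, show f.1 - 1 - V.1 = f.1 - V.1 - 1 by ring]
  rw [key, Br1x644.Aop_PsiS]
  unfold lvec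
  rw [wT_self, neg_neg]
  have hx : (Latx683.xc : ℝ) = xc := rfl
  rw [hx]
  have i1 : (((f.1 - V.1, f.2 - V.2), h) : Latx683.HE ℤ) = ((0, -1), 2) ↔
      (f = (V.1, V.2 - 1) ∧ h = 2) := by
    obtain ⟨f1, f2⟩ := f
    obtain ⟨v1, v2⟩ := V
    simp only [Prod.mk.injEq]
    constructor
    · rintro ⟨⟨h1, h2⟩, h3⟩; exact ⟨⟨by omega, by omega⟩, h3⟩
    · rintro ⟨⟨h1, h2⟩, h3⟩; exact ⟨⟨by omega, by omega⟩, h3⟩
  have i2 : (((f.1 - V.1, f.2 - V.2), h) : Latx683.HE ℤ) = ((0, 0), 0) ↔ (f = V ∧ h = 0) := by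
    obtain ⟨f1, f2⟩ := f
    obtain ⟨v1, v2⟩ := V
    simp only [Prod.mk.injEq]
    constructor
    · rintro ⟨⟨h1, h2⟩, h3⟩; exact ⟨⟨by omega, by omega⟩, h3⟩
    · rintro ⟨⟨h1, h2⟩, h3⟩; exact ⟨⟨by omega, by omega⟩, h3⟩
  by_cases c1 : f = V ∧ h = 0
  · have c2 : ¬ (f = (V.1, V.2 - 1) ∧ h = 2) := by
      rintro ⟨-, h2⟩
      rw [c1.2] at h2
      exact absurd h2 (by decide)
    rw [if_neg (fun hh => c2 (i1.1 hh)), if_pos (i2.2 c1), if_pos c1]
  · by_cases c2 : f = (V.1, V.2 - 1) ∧ h = 2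
    · rw [if_pos (i1.2 c2), if_neg c1, if_pos c2]
    · rw [if_neg (fun hh => c2 (i1.1 hh)), if_neg (fun hh => c1 (i2.1 hh)), if_neg c1, if_neg c2,
        neg_zero]

/-! ### commutator with a cut-off -/

/-- commutator -/
def cm (w : Fld) (χ : Face → ℝ) (φ : Fld) : Fld := fun f h =>
  (χ (nb f h) - χ f) * Y w φ f h

theorem A0_mul (c : ℝ) (p : Fin 4 → ℝ) (h : Fin 4) : A0 (fun i => c * p i) h = c * A0 p h := by
  fin_cases h <;> simp [A0] <;> ring

theorem A_cut (w φ : Fld) (χ : Face → ℝ) (f : Face) (h : Fin 4) :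
    A w (fun f h => χ f * φ f h) f h = χ f * A w φ f h + cm w χ φ f h := by
  unfold A cm Y
  have : A0 ((fun f h => χ f * φ f h) f) h = χ f * A0 (φ f) h := A0_mul (χ f) (φ f) h
  rw [this]
  ring

/-- gauge transformation at one row -/
theorem A_gauge_row {w w' φ : Fld} {s : Face → ℝ} {f : Face} {h : Fin 4} (hs : ∀ f, s f ^ 2 = 1)
    (hw : w f h = s f * s (nb f h) * w' f h) :
    A w (fun f h => s f * φ f h) f h = s f * A w' φ f h ∧
      Y w (fun f h => s f * φ f h) f h = s f * Y w' φ f h := by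
  have h2 : Y w (fun f h => s f * φ f h) f h = s f * Y w' φ f h := by
    unfold Y
    rw [hw]
    linear_combination (sg h * s f * w' f h * φ (nb f h) (op h)) * hs (nb f h)
  refine ⟨?_, h2⟩
  unfold A
  have : A0 ((fun f h => s f * φ f h) f) h = s f * A0 (φ f) h := A0_mul (s f) (φ f) h
  rw [this, h2]
  ring

/-! ### the gauge near a tip -/

variable {n : ℕ}

theorem rays_update (V : Fin n → Face) (j : Fin n) (q : Face) (f : Face) (h : Fin 4)
    (hq : rayw q f h = 1) : rays V f h = rays (Function.update V j q) f h * rayw (V j) f h := by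
  classical
  unfold rays
  rw [← Finset.mul_prod_erase Finset.univ (fun i => rayw (V i) f h) (Finset.mem_univ j),
    ← Finset.mul_prod_erase Finset.univ (fun i => rayw (Function.update V j q i) f h)
      (Finset.mem_univ j), Function.update_self, hq, one_mul, mul_comm]
  congr 1
  refine Finset.prod_congr rfl fun i hi => ?_
  rw [Function.update_of_ne (Finset.ne_of_mem_erase hi)]

theorem not_rel_self (z : ℂ) : ¬ rel z z := fun h => lt_irrefl _ h.2

theorem gz_update (x : Fin n → ℂ) (j : Fin n) (p : ℂ) (hp : ¬ rel p (x j)) (V : Fin n → Face)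
    (q : Face) (f : Face) :
    gz (Function.update x j p) (x j) (Function.update V j q) f = gz x (x j) V f := by
  classical
  unfold gz
  refine Finset.prod_congr rfl fun i _ => ?_
  by_cases hi : i = j
  · subst hi
    rw [Function.update_self, if_neg (fun h => hp h.1), if_neg (fun h => not_rel_self _ h.1)]
  · rw [Function.update_of_ne hi, Function.update_of_ne hi]

/-- **gauge near the tip `x j`** -/
theorem tip_gauge {x : Fin n → ℂ} (hx : Function.Injective x) {a : ℕ → ℝ} (hpos : ∀ k, 0 < a k)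
    (hlim : Tendsto a atTop (𝓝 0)) {V : ℕ → Fin n → Face}
    (tip : ∀ i, Tendsto (fun k => meshPoint (a k) (V k i)) atTop (𝓝 (x i))) (j : Fin n) :
    ∃ ρ > 0, ∀ᶠ k in atTop, ∀ f : Face, ‖meshPoint (a k) f - x j‖ < ρ → ∀ h,
      rays (V k) f h = gz x (x j) (V k) f * gz x (x j) (V k) (nb f h) * rayw (V k j) f h := by
  classical
  -- replace the tip `j` by the point `p = x j + i`
  set p : ℂ := x j + Complex.I with hp
  have hpim : p.im = (x j).im + 1 := by simp [hp]
  have hrel : ¬ rel p (x j) := fun h => by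
    have := h.1
    rw [hpim] at this
    linarith
  set x' := Function.update x j p with hx'
  set q : ℕ → Face := fun k => meshIndex (a k) p with hq
  have tq : Tendsto (fun k => meshPoint (a k) (q k)) atTop (𝓝 p) := by
    rw [tendsto_iff_norm_sub_tendsto_zero]
    refine squeeze_zero (fun _ => norm_nonneg _) (fun k => Upx622.norm_mesh_sub (hpos k) p) ?_
    simpa using hlim.const_mul 2
  have tip' : ∀ i, Tendsto (fun k => meshPoint (a k) (Function.update (V k) j (q k) i)) atTop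
      (𝓝 (x' i)) := by
    intro i
    by_cases hi : i = j
    · subst hi
      simpa [hx'] using tq
    · simpa [hx', Function.update_of_ne hi] using tip i
  have hne : ∀ i, x' i ≠ x j := by
    intro i
    by_cases hi : i = j
    · subst hi
      rw [hx', Function.update_self]
      intro h
      have := congrArg Complex.im h
      rw [hpim] at this
      linarith
    · rw [hx', Function.update_of_ne hi]
      exact fun h => hi (hx h)
  obtain ⟨ρ, hρ, hk⟩ := local_gauge hpos hlim tip' hne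
  refine ⟨min ρ (1 / 4), by positivity, ?_⟩
  have e1 : ∀ᶠ k in atTop, a k < 1 / 8 := hlim.eventually (eventually_lt_nhds (by norm_num))
  have e2 : ∀ᶠ k in atTop, ‖meshPoint (a k) (q k) - p‖ < 1 / 8 := by
    have := (Metric.tendsto_nhds.1 tq) (1 / 8) (by norm_num)
    simpa [dist_eq_norm] using this
  filter_upwards [hk, e1, e2] with k h1 h2 h3 f hf h
  have h4 := h1 f (hf.trans_le (min_le_left _ _)) h
  rw [gz_update x j p hrel, gz_update x j p hrel] at h4
  -- the ray of `q` is far away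
  have hfim : |a k * (f.2 : ℝ) - (x j).im| < 1 / 4 := by
    have := (Complex.abs_im_le_norm (meshPoint (a k) f - x j)).trans_lt
      (hf.trans_le (min_le_right _ _))
    rwa [Complex.sub_im, meshPoint_im] at this
  have hqim : |a k * ((q k).2 : ℝ) - ((x j).im + 1)| < 1 / 8 := by
    have := (Complex.abs_im_le_norm (meshPoint (a k) (q k) - p)).trans_lt h3
    rwa [Complex.sub_im, meshPoint_im, hpim] at this
  rw [abs_lt] at hfim hqim
  have hak := hpos k
  have h5 : f.2 + 1 < (q k).2 := by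
    have h6 : a k * ((f.2 : ℝ) + 1) < a k * ((q k).2 : ℝ) := by linarith
    have h7 := lt_of_mul_lt_mul_left h6 hak.le
    exact_mod_cast h7
  have hr : rayw (q k) f h = 1 := by
    unfold rayw
    rw [if_neg]
    rintro (⟨-, h8, -⟩ | ⟨-, h8, -⟩) <;> omega
  rw [rays_update (V k) j (q k) f h hr, h4]

/-! ### the cut-off source field -/


/-- **cut-off source field**: `u = χ s psS`, where near the support of `χ` the weights are
`s f * s (nb f h) * rayw V f h * xc` and `χ = 1` at the two faces of the source -/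
theorem cut_tip {w : Fld} {s : Face → ℝ} {V : Face} (hs : ∀ f, s f ^ 2 = 1) {χ : Face → ℝ}
    (hw : ∀ f h, (χ f ≠ 0 ∨ χ (nb f h) ≠ 0) → w f h = s f * s (nb f h) * (rayw V f h * xc))
    (h1 : χ V = 1) (h2 : χ (V.1, V.2 - 1) = 1) (f : Face) (h : Fin 4) :
    A w (fun f h => χ f * (s f * psS V f h)) f h = -(s V * lvec w V f h) +
      (χ (nb f h) - χ f) * (s f * Y (wT V) (psS V) f h) := by
  rw [A_cut]
  have hcm : cm w χ (fun f h => s f * psS V f h) f h =
      (χ (nb f h) - χ f) * (s f * Y (wT V) (psS V) f h) := by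
    unfold cm
    by_cases hc : χ f ≠ 0 ∨ χ (nb f h) ≠ 0
    · have := hw f h hc
      rw [(A_gauge_row (φ := psS V) (w' := wT V) hs (by rw [this]; rfl)).2]
    · rw [not_or, not_not, not_not] at hc
      rw [hc.1, hc.2]; ring
  rw [hcm]
  congr 1
  -- the source
  by_cases hc : χ f = 0
  · rw [hc, zero_mul]
    have n1 : f ≠ V := fun e => by rw [e, h1] at hc; norm_num at hc
    have n2 : f ≠ (V.1, V.2 - 1) := fun e => by rw [e, h2] at hc; norm_num at hc
    unfold lvec
    rw [if_neg (fun hh => n1 hh.1), if_neg (fun hh => n2 hh.1)]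
    ring
  · have hrow := hw f h (Or.inl hc)
    rw [(A_gauge_row (φ := psS V) (w' := wT V) hs (by rw [hrow]; rfl)).1, A_psS]
    unfold lvec
    have hwV : w V 0 = s V * s (V.1, V.2 - 1) * (-xc) := by
      have := hw V 0 (Or.inl (by rw [h1]; norm_num))
      rw [this]
      have e : rayw V V 0 * xc = -xc := wT_self V
      rw [e]
      rfl
    by_cases c1 : f = V ∧ h = 0
    · rw [if_pos c1, if_pos c1, c1.1, h1]; ring
    · by_cases c2 : f = (V.1, V.2 - 1) ∧ h = 2
      · rw [if_neg c1, if_pos c2, if_neg c1, if_pos c2, c2.1, h2, wT_self, hwV]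
        have := hs V
        linear_combination ((s (V.1, V.2 - 1) * xc)) * this
      · rw [if_neg c1, if_neg c2, if_neg c1, if_neg c2]; ring

end Crest.Agent.R165.Eta1x576
end
end

-- ▼ part R165/Eta2_576
section

/-!
# Row 165 (S0250), block U4 (helper576): source at a branch vertex, scaling limits

* `bc z = -kp ζ(z)` : amplitude of the branch field; `psS_tendsto`, `psS_bound`
* `gt`, `Gt` : the source created by the cut-off and its limit, `gt_L2`
* `ut`, `ut_L2` : the cut-off field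
* `psi`, `A_psi` : regular column
* `tip_gauge_unif`, `tip_weights` : gauge near a tip, uniform radius
-/

set_option autoImplicit false
set_option linter.unusedVariables false
set_option linter.unusedSimpArgs false

noncomputable section

open MeasureTheory Filter Topology Set Metric
open Crest.ProbabilityR.IsingModel
open Crest.Agent.R165.Tr1x40 Crest.Agent.R165.RIfx891 Crest.Agent.R165.Embx622
open Crest.Agent.R165.Upx622
open Crest.Agent.R165.Mac0x622 Crest.Agent.R165.Mac1x622 Crest.Agent.R165.Mac3x622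
open Crest.Agent.R165.Eta1x576

namespace Crest.Agent.R165.Eta2x576

/-! ### the explicit field in the scaling limit -/

/-- amplitude of the branch field -/
def bc (z : ℂ) : ℂ := -(Br5x644.kp : ℂ) * Br5x644.zt z

/-- generic points: off the diagonal and off the ray -/
def GenC (z : ℂ) : Prop := z.re ≠ z.im ∧ z.im ≠ 0

theorem GenC.gen {z : ℂ} (h : GenC z) : Br5x644.Gen z.re z.im := by
  rcases lt_or_gt_of_ne h.1 with h1 | h1
  · exact Or.inl h1
  · rcases lt_or_gt_of_ne h.2 with h2 | h2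
    · exact Or.inr (Or.inl ⟨h1, h2⟩)
    · exact Or.inr (Or.inr ⟨h1, h2⟩)

theorem ae_gen (y : ℂ) : ∀ᵐ u : ℂ, GenC (u - y) := by
  have key : ∀ L : ℂ →L[ℝ] ℝ, L ≠ 0 → ∀ᵐ u : ℂ, L (u - y) ≠ 0 := by
    intro L hL
    have h1 : volume (LinearMap.ker (L : ℂ →ₗ[ℝ] ℝ) : Set ℂ) = 0 := by
      refine Measure.addHaar_submodule _ _ ?_
      intro h
      apply hL
      ext v
      have : v ∈ LinearMap.ker (L : ℂ →ₗ[ℝ] ℝ) := by rw [h]; trivial
      simpa using this
    rw [ae_iff]
    have e : {u : ℂ | ¬ L (u - y) ≠ 0} =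
        (fun u => u - y) ⁻¹' (LinearMap.ker (L : ℂ →ₗ[ℝ] ℝ) : Set ℂ) := by
      ext u; simp
    rw [e]
    simp only [sub_eq_add_neg]
    rw [measure_preimage_add_right]
    exact h1
  have k1 := key (Complex.reCLM - Complex.imCLM) (fun h => by
    have := congrArg (fun L : ℂ →L[ℝ] ℝ => L 1) h
    simp at this)
  have k2 := key Complex.imCLM (fun h => by
    have := congrArg (fun L : ℂ →L[ℝ] ℝ => L Complex.I) h
    simp at this)
  filter_upwards [k1, k2] with u h1 h2
  refine ⟨fun h => h1 ?_, fun h => h2 ?_⟩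
  · simp only [sub_apply, Complex.reCLM_apply, Complex.imCLM_apply]
    rw [h]; ring
  · simpa using h

theorem mesh_diff_cv {a : ℕ → ℝ} (hpos : ∀ k, 0 < a k) (hlim : Tendsto a atTop (𝓝 0))
    {f V : ℕ → Face} {z y : ℂ} (hf : Tendsto (fun k => meshPoint (a k) (f k)) atTop (𝓝 z))
    (hV : Tendsto (fun k => meshPoint (a k) (V k)) atTop (𝓝 y)) :
    Br5x644.Cv atTop a (fun k => (f k).1 - (V k).1) (fun k => (f k).2 - (V k).2) (z - y).re
      (z - y).im := by
  have h := hf.sub hV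
  refine ⟨tendsto_nhdsWithin_iff.2 ⟨hlim, Eventually.of_forall hpos⟩, ?_, ?_⟩
  · refine ((Complex.continuous_re.tendsto _).comp h).congr fun k => ?_
    simp only [Function.comp, Complex.sub_re, meshPoint_re]
    push_cast; ring
  · refine ((Complex.continuous_im.tendsto _).comp h).congr fun k => ?_
    simp only [Function.comp, Complex.sub_im, meshPoint_im]
    push_cast; ring

theorem psS_tendsto {a : ℕ → ℝ} (hpos : ∀ k, 0 < a k) (hlim : Tendsto a atTop (𝓝 0))
    {f V : ℕ → Face} {z y : ℂ} (hf : Tendsto (fun k => meshPoint (a k) (f k)) atTop (𝓝 z))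
    (hV : Tendsto (fun k => meshPoint (a k) (V k)) atTop (𝓝 y)) (hg : GenC (z - y)) (h : Fin 4) :
    Tendsto (fun k => a k ^ (-(1/2) : ℝ) * psS (V k) (f k) h) atTop (𝓝 (lv (bc (z - y)) h)) :=
  Br5x644.lim_PsiS BrAx375.brA (mesh_diff_cv hpos hlim hf hV) hg.gen h

theorem psS_bound : ∃ C : ℝ, 0 ≤ C ∧ ∀ a : ℝ, 0 < a → ∀ (V f : Face) (h : Fin 4) (d : ℝ), 0 < d →
    d ≤ ‖meshPoint a f - meshPoint a V‖ → |a ^ (-(1/2) : ℝ) * psS V f h| ≤ C / d ^ (1/2 : ℝ) := by
  obtain ⟨C, hC, hb⟩ := Br5x644.PsiS_bound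
  refine ⟨C, hC, fun a ha V f h d hd hf => ?_⟩
  have h1 := hb (f.1 - V.1) (f.2 - V.2) h
  have h2 := meshPoint_sub a f V
  rw [abs_of_pos ha] at h2
  have h3 : d / a ≤ Br5x644.sz (f.1 - V.1) (f.2 - V.2) := by
    unfold Br5x644.sz
    rw [div_le_iff₀ ha]
    have := hf.trans h2
    nlinarith
  have h4 : (d / a) ^ (1/2 : ℝ) ≤ Br5x644.sz (f.1 - V.1) (f.2 - V.2) ^ (1/2 : ℝ) :=
    Real.rpow_le_rpow (by positivity) h3 (by norm_num)
  have h5 : 0 < (d / a) ^ (1/2 : ℝ) := by positivity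
  have hap : 0 < a ^ (-(1/2) : ℝ) := Real.rpow_pos_of_pos ha _
  rw [abs_mul, abs_of_pos hap]
  calc a ^ (-(1/2) : ℝ) * |psS V f h|
      ≤ a ^ (-(1/2) : ℝ) * (C / (d / a) ^ (1/2 : ℝ)) := by
        refine mul_le_mul_of_nonneg_left (h1.trans ?_) hap.le
        exact div_le_div_of_nonneg_left hC h5 h4
    _ = C / d ^ (1/2 : ℝ) := by
        rw [Real.div_rpow hd.le ha.le, Real.rpow_neg ha.le]
        have h6 : a ^ (1/2 : ℝ) ≠ 0 := (Real.rpow_pos_of_pos ha _).ne'
        have h7 : d ^ (1/2 : ℝ) ≠ 0 := (Real.rpow_pos_of_pos hd _).ne'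
        field_simp

theorem rayw_abs (V f : Face) (h : Fin 4) : |rayw V f h| = 1 := by
  unfold rayw; split_ifs <;> norm_num

theorem sg_abs (h : Fin 4) : |sg h| = 1 := by fin_cases h <;> simp [sg]

/-- off the row of the ray the sign is `1` eventually -/
theorem rayw_tendsto {a : ℕ → ℝ} (hpos : ∀ k, 0 < a k) (hlim : Tendsto a atTop (𝓝 0))
    {f V : ℕ → Face} {z y : ℂ} (hf : Tendsto (fun k => meshPoint (a k) (f k)) atTop (𝓝 z))
    (hV : Tendsto (fun k => meshPoint (a k) (V k)) atTop (𝓝 y)) (hg : (z - y).im ≠ 0) (h : Fin 4) :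
    ∀ᶠ k in atTop, rayw (V k) (f k) h = 1 := by
  have cv := mesh_diff_cv hpos hlim hf hV
  rcases lt_or_gt_of_ne hg with h1 | h1
  · filter_upwards [cv.yneg h1, (cv.shift 0 1).yneg h1] with k hk hk2
    unfold rayw
    rw [if_neg]
    rintro (⟨-, h8, -⟩ | ⟨-, h8, -⟩) <;> omega
  · filter_upwards [cv.ypos h1, (cv.shift 0 1).ypos h1] with k hk hk2
    unfold rayw
    rw [if_neg]
    rintro (⟨-, h8, -⟩ | ⟨-, h8, -⟩) <;> omega

/-! ### the source of the cut-off -/

/-- the source -/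
def gt (a : ℝ) (c γ : Face → ℝ) (V : Face) : Fld := fun f h =>
  -((a⁻¹ * (c (nb f h) - c f)) * (γ f * (a ^ (-(1/2) : ℝ) * Y (wT V) (psS V) f h)))

variable {n : ℕ}

/-- the limit source -/
def Gt (x : Fin n → ℂ) (j : Fin n) (χ : ℂ → ℝ) (z : ℂ) (h : Fin 4) : ℝ :=
  -(fderiv ℝ χ z (dv h) * (gc x (x j) z * (sg h * xc * lv (bc (z - x j)) (op h))))

theorem gt_supp {y : ℂ} {r : ℝ} {χ : ℂ → ℝ} (hχ : Cut y r χ) {t : ℝ} (ht : 0 < t)
    (htr : t ≤ r / 16) (γ : Face → ℝ) (V : Face) (f : Face) (h : Fin 4)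
    (hne : gt t (fun f => χ (meshPoint t f)) γ V f h ≠ 0) :
    r / 4 < ‖meshPoint t f - y‖ ∧ ‖meshPoint t f - y‖ < r := by
  have h0 := abs_le.1 (nb_norm t ht f h y)
  have h1 : χ (meshPoint t (nb f h)) ≠ χ (meshPoint t f) := by
    intro hc
    apply hne
    simp only [gt, hc, sub_self, mul_zero, zero_mul, neg_zero]
  constructor
  · by_contra hc
    push Not at hc
    apply h1
    rw [hχ.one _ (by linarith), hχ.one _ (by linarith)]
  · by_contra hc
    push Not at hc
    apply h1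
    rw [hχ.zero _ (by linarith), hχ.zero _ (by linarith)]

theorem gt_bound {C₀ : ℝ} (hC0 : 0 ≤ C₀) (hb : ∀ a : ℝ, 0 < a → ∀ (V f : Face) (h : Fin 4) (d : ℝ),
      0 < d → d ≤ ‖meshPoint a f - meshPoint a V‖ →
      |a ^ (-(1/2) : ℝ) * psS V f h| ≤ C₀ / d ^ (1/2 : ℝ))
    {y : ℂ} {r : ℝ} (hr : 0 < r) {χ : ℂ → ℝ} (hχ : Cut y r χ) {L : NNReal}
    (hL : LipschitzWith L χ) {t : ℝ} (ht : 0 < t)
    (htr : t ≤ r / 16) {γ : Face → ℝ} (hγ : ∀ f, γ f ^ 2 = 1) (V : Face)
    (hV : ‖meshPoint t V - y‖ ≤ r / 16) (f : Face) (h : Fin 4) :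
    |gt t (fun f => χ (meshPoint t f)) γ V f h| ≤ L * (C₀ / (r / 8) ^ (1/2 : ℝ)) := by
  by_cases hne : gt t (fun f => χ (meshPoint t f)) γ V f h = 0
  · rw [hne, abs_zero]; positivity
  have h0 := abs_le.1 (nb_norm t ht f h y)
  obtain ⟨h1, h2⟩ := gt_supp hχ ht htr γ V f h hne
  have h3 : r / 8 ≤ ‖meshPoint t (nb f h) - meshPoint t V‖ := by
    have h4 : ‖meshPoint t (nb f h) - y‖ ≤ ‖meshPoint t (nb f h) - meshPoint t V‖ +
      ‖meshPoint t V - y‖ := norm_sub_le_norm_sub_add_norm_sub _ _ _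
    linarith
  have h4 := hb t ht V (nb f h) (op h) (r / 8) (by linarith) h3
  have h5 : |t⁻¹ * (χ (meshPoint t (nb f h)) - χ (meshPoint t f))| ≤ L := by
    have h6 := hL.dist_le_mul (meshPoint t (nb f h)) (meshPoint t f)
    rw [Real.dist_eq, dist_eq_norm, mesh_nb, add_sub_cancel_left, norm_mul, norm_dv, mul_one,
      Complex.norm_real, Real.norm_eq_abs, abs_of_pos ht] at h6
    rw [abs_mul, abs_inv, abs_of_pos ht, mesh_nb]
    rw [inv_mul_le_iff₀ ht]
    linarith
  have h6 : |γ f| = 1 := by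
    have := hγ f
    rw [← sq_abs] at this
    nlinarith [abs_nonneg (γ f)]
  have h7 : |t ^ (-(1/2) : ℝ) * Y (wT V) (psS V) f h| ≤ C₀ / (r / 8) ^ (1/2 : ℝ) := by
    have e : t ^ (-(1/2) : ℝ) * Y (wT V) (psS V) f h =
        sg h * (rayw V f h * xc) * (t ^ (-(1/2) : ℝ) * psS V (nb f h) (op h)) := by
      unfold Y wT; ring
    rw [e, abs_mul, abs_mul, abs_mul, sg_abs, rayw_abs, one_mul, one_mul, abs_of_pos xc_pos]
    have h8 : 0 ≤ |t ^ (-(1/2) : ℝ) * psS V (nb f h) (op h)| := abs_nonneg _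
    have hx := xc_lt_one
    have hx0 := xc_pos
    nlinarith
  unfold gt
  rw [abs_neg, abs_mul, abs_mul (γ f), h6, one_mul]
  exact mul_le_mul h5 h7 (abs_nonneg _) L.2

/-- pointwise convergence of the source -/
theorem gt_tendsto {x : Fin n → ℂ} {j : Fin n} {r : ℝ} {χ : ℂ → ℝ} (hχ : Cut (x j) r χ)
    {a : ℕ → ℝ} (hpos : ∀ k, 0 < a k) (hlim : Tendsto a atTop (𝓝 0)) {V : ℕ → Fin n → Face}
    (tip : ∀ i, Tendsto (fun k => meshPoint (a k) (V k i)) atTop (𝓝 (x i)))
    {u : ℂ} (hu : ∀ i, (x i).im ≠ u.im) (hg : GenC (u - x j)) (h : Fin 4) :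
    Tendsto (fun k => emb (a k) (fun f => gt (a k) (fun f => χ (meshPoint (a k) f))
      (gz x (x j) (V k)) (V k j) f h) u) atTop (𝓝 (Gt x j χ u h)) := by
  have hP : Tendsto (fun k => meshPoint (a k) (meshIndex (a k) u)) atTop (𝓝 u) := by
    rw [tendsto_iff_norm_sub_tendsto_zero]
    refine squeeze_zero (fun _ => norm_nonneg _) (fun k => norm_mesh_sub (hpos k) u) ?_
    simpa using hlim.const_mul 2
  have h1 := quot_tendsto hχ.smooth hpos hlim hP (dv h)
  have h2 : Tendsto (fun k => gz x (x j) (V k) (meshIndex (a k) u)) atTop (𝓝 (gc x (x j) u)) :=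
    tendsto_const_nhds.congr' ((gz_tendsto hpos hlim tip (x j) hu).mono fun k hk => hk.symm)
  have hP' : Tendsto (fun k => meshPoint (a k) (nb (meshIndex (a k) u) h)) atTop (𝓝 u) := by
    have h3 : Tendsto (fun k => meshPoint (a k) (meshIndex (a k) u) + a k * dv h) atTop
        (𝓝 (u + (0 : ℝ) * dv h)) :=
      hP.add (((Complex.continuous_ofReal.tendsto 0).comp hlim).mul_const _)
    simp only [Complex.ofReal_zero, zero_mul, add_zero] at h3
    exact h3.congr fun k => (mesh_nb _ _ _).symm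
  have h3 := psS_tendsto hpos hlim hP' (tip j) hg (op h)
  have h4 := rayw_tendsto hpos hlim hP (tip j) hg.2 h
  have h5 : Tendsto (fun k => (a k) ^ (-(1/2) : ℝ) * Y (wT (V k j)) (psS (V k j))
      (meshIndex (a k) u) h) atTop (𝓝 (sg h * xc * lv (bc (u - x j)) (op h))) := by
    refine (h3.const_mul (sg h * xc)).congr' ?_
    filter_upwards [h4] with k hk
    unfold Y wT
    rw [hk]
    ring
  have h6 := ((h1.mul (h2.mul h5))).neg
  unfold Gt
  refine h6.congr fun k => ?_
  simp only [emb, gt, mesh_nb]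

theorem zt_norm (z : ℂ) : ‖Br5x644.zt z‖ = ‖z‖ ^ (-(1/2) : ℝ) := by
  unfold Br5x644.zt
  have e : (-(1/2) : ℂ) = ((-(1/2) : ℝ) : ℂ) := by push_cast; ring
  rw [norm_mul, norm_neg, Complex.norm_I, one_mul, e, Complex.norm_cpow_real, norm_neg]

theorem bc_norm_le {z : ℂ} {d : ℝ} (hd : 0 < d) (hz : d ≤ ‖z‖) :
    ‖bc z‖ ≤ |Br5x644.kp| / d ^ (1/2 : ℝ) := by
  unfold bc
  rw [norm_mul, norm_neg, Complex.norm_real, Real.norm_eq_abs, zt_norm, div_eq_mul_inv]
  refine mul_le_mul_of_nonneg_left ?_ (abs_nonneg _)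
  rw [← Real.rpow_neg hd.le]
  exact Real.rpow_le_rpow_of_nonpos hd hz (by norm_num)

theorem bc_measurable : Measurable bc := by
  unfold bc Br5x644.zt
  exact measurable_const.mul (measurable_const.mul (measurable_neg.pow_const _))

theorem fderiv_zero {y : ℂ} {r : ℝ} {χ : ℂ → ℝ} (hχ : Cut y r χ) {z : ℂ}
    (hz : ‖z - y‖ < r / 2 ∨ 3 * r / 4 < ‖z - y‖) : fderiv ℝ χ z = 0 := by
  rcases hz with hz | hz
  · have h2 : χ =ᶠ[𝓝 z] fun _ => 1 := by
      have : ∀ᶠ u in 𝓝 z, ‖u - y‖ < r / 2 :=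
        ((continuous_id.sub continuous_const).norm.tendsto z).eventually (eventually_lt_nhds hz)
      filter_upwards [this] with u hu
      exact hχ.one u hu.le
    rw [h2.fderiv_eq]
    exact fderiv_const_apply _
  · have h2 : χ =ᶠ[𝓝 z] fun _ => 0 := by
      have : ∀ᶠ u in 𝓝 z, 3 * r / 4 < ‖u - y‖ :=
        ((continuous_id.sub continuous_const).norm.tendsto z).eventually (eventually_gt_nhds hz)
      filter_upwards [this] with u hu
      exact hχ.zero u hu.le
    rw [h2.fderiv_eq]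
    exact fderiv_const_apply _

theorem Gt_zero (x : Fin n → ℂ) (j : Fin n) {r : ℝ} {χ : ℂ → ℝ} (hχ : Cut (x j) r χ) (z : ℂ)
    (h : Fin 4) (hz : ‖z - x j‖ < r / 2 ∨ 3 * r / 4 < ‖z - x j‖) : Gt x j χ z h = 0 := by
  unfold Gt
  rw [fderiv_zero hχ hz]
  simp

theorem Gt_bound (x : Fin n → ℂ) (j : Fin n) {r : ℝ} (hr : 0 < r) {χ : ℂ → ℝ}
    (hχ : Cut (x j) r χ) {L : NNReal} (hL : LipschitzWith L χ) (z : ℂ) (h : Fin 4) :
    |Gt x j χ z h| ≤ L * (|Br5x644.kp| / (r / 2) ^ (1/2 : ℝ)) := by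
  by_cases hz : ‖z - x j‖ < r / 2
  · rw [Gt_zero x j hχ z h (Or.inl hz), abs_zero]
    positivity
  · push Not at hz
    unfold Gt
    rw [abs_neg, abs_mul, abs_mul (gc x (x j) z), gc_abs, one_mul, abs_mul, abs_mul, sg_abs,
      one_mul, abs_of_pos xc_pos]
    have h1 : |fderiv ℝ χ z (dv h)| ≤ L := by
      have h2 := (fderiv ℝ χ z).le_opNorm (dv h)
      rw [norm_dv, mul_one, Real.norm_eq_abs] at h2
      exact h2.trans (norm_fderiv_le_of_lipschitz ℝ hL)
    have h2 : |lv (bc (z - x j)) (op h)| ≤ |Br5x644.kp| / (r / 2) ^ (1/2 : ℝ) :=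
      (abs_lv_le _ _).trans (bc_norm_le (by positivity) hz)
    have hx := xc_lt_one
    have hx0 := xc_pos
    have h8 : 0 ≤ |lv (bc (z - x j)) (op h)| := abs_nonneg _
    have h9 : xc * |lv (bc (z - x j)) (op h)| ≤ |Br5x644.kp| / (r / 2) ^ (1/2 : ℝ) := by nlinarith
    exact mul_le_mul h1 h9 (by positivity) L.2

theorem Gt_measurable (x : Fin n → ℂ) (j : Fin n) {r : ℝ} {χ : ℂ → ℝ}
    (hχ : Cut (x j) r χ) (h : Fin 4) : Measurable fun z => Gt x j χ z h := by
  unfold Gt
  have h1 : Measurable fun z => fderiv ℝ χ z (dv h) :=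
    ((hχ.smooth.continuous_fderiv (by simp)).clm_apply continuous_const).measurable
  have h2 : Measurable fun z : ℂ => lv (bc (z - x j)) (op h) :=
    (lv_continuous _).measurable.comp (bc_measurable.comp (measurable_id.sub_const _))
  exact (h1.mul ((gc_measurable x (x j)).mul (h2.const_mul _))).neg

/-- **`L²` convergence of the source** -/
theorem gt_L2 {x : Fin n → ℂ} {j : Fin n} {r : ℝ} (hr : 0 < r) {χ : ℂ → ℝ}
    (hχ : Cut (x j) r χ) {a : ℕ → ℝ} (hpos : ∀ k, 0 < a k) (hlim : Tendsto a atTop (𝓝 0))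
    {V : ℕ → Fin n → Face}
    (tip : ∀ i, Tendsto (fun k => meshPoint (a k) (V k i)) atTop (𝓝 (x i))) (h : Fin 4) :
    Tendsto (fun k => ∫⁻ z, ENNReal.ofReal ((emb (a k) (fun f => gt (a k)
      (fun f => χ (meshPoint (a k) f)) (gz x (x j) (V k)) (V k j) f h) z
        - Gt x j χ z h) ^ 2)) atTop (𝓝 0) := by
  obtain ⟨L, hL⟩ := hχ.lip
  obtain ⟨C₀, hC0, hb0⟩ := psS_bound
  have ea : ∀ᶠ k in atTop, a k < r / 16 := hlim.eventually (eventually_lt_nhds (by positivity))
  have ef : ∀ᶠ k in atTop, ‖meshPoint (a k) (V k j) - x j‖ < r / 16 := by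
    have := tendsto_iff_norm_sub_tendsto_zero.1 (tip j)
    exact this.eventually (eventually_lt_nhds (by positivity))
  set C : ℝ := L * (C₀ / (r / 8) ^ (1/2 : ℝ)) + L * (|Br5x644.kp| / (r / 2) ^ (1/2 : ℝ)) with hC
  refine l2_of_dom (B := closedBall (x j) (2 * r)) (C := C) isClosed_closedBall.measurableSet
    measure_closedBall_lt_top.ne ?_ ?_ ?_ ?_ (Gt_measurable x j hχ h) ?_
  · filter_upwards [ea] with k hk u hu
    rw [mem_closedBall, dist_eq_norm, not_le] at hu
    unfold emb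
    by_contra hne
    have h1 := gt_supp hχ (hpos k) hk.le (gz x (x j) (V k)) (V k j) (meshIndex (a k) u) h hne
    have h2 := norm_mesh_sub (hpos k) u
    have h3 : ‖u - x j‖ ≤ ‖u - meshPoint (a k) (meshIndex (a k) u)‖ +
      ‖meshPoint (a k) (meshIndex (a k) u) - x j‖ := norm_sub_le_norm_sub_add_norm_sub _ _ _
    rw [norm_sub_rev u (meshPoint _ _)] at h3
    linarith [h1.2]
  · intro u hu
    rw [mem_closedBall, dist_eq_norm, not_le] at hu
    exact Gt_zero x j hχ _ _ (Or.inr (by linarith))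
  · filter_upwards [ea, ef] with k h1 h2 f
    refine (gt_bound hC0 hb0 hr hχ hL (hpos k) h1.le (gz_sq x (x j) (V k)) (V k j) h2.le f h).trans ?_
    rw [hC]
    have : 0 ≤ (L : ℝ) * (|Br5x644.kp| / (r / 2) ^ (1/2 : ℝ)) := by positivity
    linarith
  · intro u
    refine (Gt_bound x j hr hχ hL _ _).trans ?_
    rw [hC]
    have : 0 ≤ (L : ℝ) * (C₀ / (r / 8) ^ (1/2 : ℝ)) := by positivity
    linarith
  · have h2 := ae_im_ne x (univ : Set ℂ)
    rw [Measure.restrict_univ] at h2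
    filter_upwards [ae_gen (x j), h2] with u hu1 hu2
    exact gt_tendsto hχ hpos hlim tip hu2 hu1 h

theorem Gt_memLp (x : Fin n → ℂ) (j : Fin n) {r : ℝ} (hr : 0 < r) {χ : ℂ → ℝ}
    (hχ : Cut (x j) r χ) (h : Fin 4) : MemLp (fun z => Gt x j χ z h) 2 volume := by
  obtain ⟨L, hL⟩ := hχ.lip
  have h1 : MemLp ((closedBall (x j) (2 * r)).indicator fun _ : ℂ =>
      (L * (|Br5x644.kp| / (r / 2) ^ (1/2 : ℝ)) : ℝ)) 2 (volume : Measure ℂ) :=
    memLp_indicator_const 2 isClosed_closedBall.measurableSet _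
      (Or.inr measure_closedBall_lt_top.ne)
  refine h1.mono (Gt_measurable x j hχ h).aestronglyMeasurable (Eventually.of_forall fun u => ?_)
  by_cases hu : u ∈ closedBall (x j) (2 * r)
  · rw [indicator_of_mem hu, Real.norm_eq_abs, Real.norm_eq_abs]
    refine (Gt_bound x j hr hχ hL _ _).trans (le_abs_self _)
  · rw [indicator_of_notMem hu]
    rw [mem_closedBall, dist_eq_norm, not_le] at hu
    rw [Gt_zero x j hχ _ _ (Or.inr (by linarith))]

/-! ### the cut-off field -/

/-- cut-off field -/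
def ut (a : ℝ) (c γ : Face → ℝ) (V : Face) : Fld := fun f h =>
  c f * (γ f * (a ^ (-(1/2) : ℝ) * psS V f h))

/-- `L²` convergence on bounded sets -/
theorem l2_of_dom_on {a : ℕ → ℝ} {v : ℕ → Face → ℝ} {G : ℂ → ℝ} {B : Set ℂ}
    (hB : MeasurableSet B) (hBf : volume B ≠ ⊤) {C : ℝ}
    (hb : ∀ᶠ k in atTop, ∀ u ∈ B, |emb (a k) (v k) u| ≤ C) (hGb : ∀ u ∈ B, |G u| ≤ C)
    (hGm : Measurable G)
    (hp : ∀ᵐ u, Tendsto (fun k => emb (a k) (v k) u) atTop (𝓝 (G u))) :
    Tendsto (fun k => ∫⁻ z in B, ENNReal.ofReal ((emb (a k) (v k) z - G z) ^ 2)) atTop (𝓝 0) := by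
  have h0 : (0 : ENNReal) = ∫⁻ z in B, (0 : ENNReal) := by simp
  rw [h0]
  refine tendsto_lintegral_filter_of_dominated_convergence
    (fun _ => ENNReal.ofReal ((2 * C) ^ 2)) (Eventually.of_forall fun k => ?_) ?_ ?_ ?_
  · exact (((emb_measurable _ _).sub hGm).pow_const 2).ennreal_ofReal
  · filter_upwards [hb] with k h2
    rw [ae_restrict_iff' hB]
    refine Eventually.of_forall fun u hu => ?_
    apply ENNReal.ofReal_le_ofReal
    have h3 : |emb (a k) (v k) u - G u| ≤ 2 * C := by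
      have h4 := h2 u hu
      have h5 := hGb u hu
      refine (abs_sub _ _).trans ?_
      linarith
    rw [← sq_abs]
    gcongr
  · rw [setLIntegral_const]
    exact ENNReal.mul_ne_top ENNReal.ofReal_ne_top hBf
  · filter_upwards [ae_restrict_of_ae hp] with u hu
    have h1 : Tendsto (fun k => (emb (a k) (v k) u - G u) ^ 2) atTop (𝓝 0) := by
      have := (hu.sub_const (G u)).pow 2
      simpa using this
    have h2 := (ENNReal.continuous_ofReal.tendsto 0).comp h1
    rw [ENNReal.ofReal_zero] at h2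
    exact h2

/-- **local `L²` convergence of the cut-off field** -/
theorem ut_L2 {x : Fin n → ℂ} {j : Fin n} {r : ℝ} (hr : 0 < r) {χ : ℂ → ℝ}
    (hχ : Cut (x j) r χ) {a : ℕ → ℝ} (hpos : ∀ k, 0 < a k) (hlim : Tendsto a atTop (𝓝 0))
    {V : ℕ → Fin n → Face}
    (tip : ∀ i, Tendsto (fun k => meshPoint (a k) (V k i)) atTop (𝓝 (x i))) {z₀ : ℂ} {ρ : ℝ}
    (hρ : ρ < ‖z₀ - x j‖) (h : Fin 4) :
    Tendsto (fun k => ∫⁻ z in ball z₀ ρ, ENNReal.ofReal ((emb (a k) (fun f => ut (a k)
      (fun f => χ (meshPoint (a k) f)) (gz x (x j) (V k)) (V k j) f h) z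
        - χ z * (gc x (x j) z * lv (bc (z - x j)) h)) ^ 2)) atTop (𝓝 0) := by
  obtain ⟨C₀, hC0, hb0⟩ := psS_bound
  set d : ℝ := (‖z₀ - x j‖ - ρ) / 2 with hd
  have hd0 : 0 < d := by rw [hd]; linarith
  have ea : ∀ᶠ k in atTop, a k < d / 8 := hlim.eventually (eventually_lt_nhds (by positivity))
  have ef : ∀ᶠ k in atTop, ‖meshPoint (a k) (V k j) - x j‖ < d / 2 := by
    have := tendsto_iff_norm_sub_tendsto_zero.1 (tip j)
    exact this.eventually (eventually_lt_nhds (by positivity))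
  have hfar : ∀ u ∈ ball z₀ ρ, 2 * d ≤ ‖u - x j‖ := by
    intro u hu
    rw [mem_ball, dist_eq_norm] at hu
    have h1 : ‖z₀ - x j‖ ≤ ‖z₀ - u‖ + ‖u - x j‖ := norm_sub_le_norm_sub_add_norm_sub _ _ _
    rw [norm_sub_rev z₀ u] at h1
    rw [hd]
    linarith
  refine l2_of_dom_on (C := C₀ / d ^ (1/2 : ℝ) + |Br5x644.kp| / (2 * d) ^ (1/2 : ℝ))
    measurableSet_ball measure_ball_lt_top.ne ?_ ?_ ?_ ?_
  · filter_upwards [ea, ef] with k h1 h2 u hu
    have h3 := hfar u hu
    have h4 := norm_mesh_sub (hpos k) u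
    have h5 : ‖u - x j‖ ≤ ‖u - meshPoint (a k) (meshIndex (a k) u)‖ +
      ‖meshPoint (a k) (meshIndex (a k) u) - x j‖ := norm_sub_le_norm_sub_add_norm_sub _ _ _
    rw [norm_sub_rev u (meshPoint _ _)] at h5
    have h6 : ‖meshPoint (a k) (meshIndex (a k) u) - x j‖ ≤
      ‖meshPoint (a k) (meshIndex (a k) u) - meshPoint (a k) (V k j)‖ +
        ‖meshPoint (a k) (V k j) - x j‖ := norm_sub_le_norm_sub_add_norm_sub _ _ _
    have h7 := hb0 (a k) (hpos k) (V k j) (meshIndex (a k) u) h d hd0 (by linarith)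
    have h8 : |χ (meshPoint (a k) (meshIndex (a k) u))| ≤ 1 := by
      rw [abs_of_nonneg (hχ.nonneg _)]; exact hχ.le_one _
    have h9 : 0 ≤ |Br5x644.kp| / (2 * d) ^ (1/2 : ℝ) := by positivity
    unfold emb ut
    rw [abs_mul, abs_mul (gz _ _ _ _), gz_abs, one_mul]
    have h10 : 0 ≤ |a k ^ (-(1/2) : ℝ) * psS (V k j) (meshIndex (a k) u) h| := abs_nonneg _
    have h11 : 0 ≤ |χ (meshPoint (a k) (meshIndex (a k) u))| := abs_nonneg _
    nlinarith
  · intro u hu
    have h3 := hfar u hu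
    have h8 : |χ u| ≤ 1 := by
      rw [abs_of_nonneg (hχ.nonneg _)]; exact hχ.le_one _
    have h2 : |lv (bc (u - x j)) h| ≤ |Br5x644.kp| / (2 * d) ^ (1/2 : ℝ) :=
      (abs_lv_le _ _).trans (bc_norm_le (by positivity) h3)
    have h9 : 0 ≤ C₀ / d ^ (1/2 : ℝ) := by positivity
    rw [abs_mul, abs_mul (gc _ _ _), gc_abs, one_mul]
    have h10 : 0 ≤ |lv (bc (u - x j)) h| := abs_nonneg _
    have h11 : 0 ≤ |χ u| := abs_nonneg _
    nlinarith
  · exact hχ.smooth.continuous.measurable.mul ((gc_measurable x (x j)).mul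
      ((lv_continuous _).measurable.comp (bc_measurable.comp (measurable_id.sub_const _))))
  · have h2 := ae_im_ne x (univ : Set ℂ)
    rw [Measure.restrict_univ] at h2
    filter_upwards [ae_gen (x j), h2] with u hu1 hu2
    have hP : Tendsto (fun k => meshPoint (a k) (meshIndex (a k) u)) atTop (𝓝 u) := by
      rw [tendsto_iff_norm_sub_tendsto_zero]
      refine squeeze_zero (fun _ => norm_nonneg _) (fun k => norm_mesh_sub (hpos k) u) ?_
      simpa using hlim.const_mul 2
    have h1 := (hχ.smooth.continuous.tendsto u).comp hP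
    have h3 : Tendsto (fun k => gz x (x j) (V k) (meshIndex (a k) u)) atTop
        (𝓝 (gc x (x j) u)) :=
      tendsto_const_nhds.congr' ((gz_tendsto hpos hlim tip (x j) hu2).mono fun k hk => hk.symm)
    exact h1.mul (h3.mul (psS_tendsto hpos hlim hP (tip j) hu1 h))

/-! ### the regular column -/

/-- column of the corner functional at `V` -/
def col (w : Fld) (S : Face × Fin 4 → Face × Fin 4 → ℝ) (V : Face) : Fld := fun f h =>
  S (f, h) (V, 0) - w V 0 * S (f, h) ((V.1, V.2 - 1), 2)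

theorem A_col {w : Fld} {S : Face × Fin 4 → Face × Fin 4 → ℝ} (hS : MacIx622.Cov40 w S) (V : Face)
    (f : Face) (h : Fin 4) : A w (col w S V) f h = -lvec w V f h := by
  have h1 : A w (col w S V) f h = A w (fun f h => S (f, h) (V, 0)) f h +
      (-w V 0) * A w (fun f h => S (f, h) ((V.1, V.2 - 1), 2)) f h := by
    rw [← Tr2x40.A_smul, ← Tr2x40.A_add]
    congr 1
    funext f h
    unfold col
    ring
  rw [h1, hS.inv, hS.inv]
  unfold lvec
  by_cases c1 : f = V ∧ h = 0
  · rw [if_pos c1, if_pos (by rw [c1.1, c1.2]), if_neg]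
    · ring
    · rw [c1.1, c1.2]
      intro hc
      have h02 : (0 : Fin 4) = 2 := (Prod.mk.inj hc).2
      exact absurd h02 (by decide)
  · have n1 : ¬ ((f, h) = (V, (0 : Fin 4))) := fun hc => c1 (Prod.mk.inj hc)
    rw [if_neg c1, if_neg n1]
    by_cases c2 : f = (V.1, V.2 - 1) ∧ h = 2
    · rw [if_pos c2, if_pos (by rw [c2.1, c2.2])]
      ring
    · have n2 : ¬ ((f, h) = ((V.1, V.2 - 1), (2 : Fin 4))) := fun hc => c2 (Prod.mk.inj hc)
      rw [if_neg c2, if_neg n2]
      ring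

/-- regular column -/
def psi (a : ℝ) (c γ : Face → ℝ) (φ : Fld) (V : Face) : Fld := fun f h =>
  γ V * (a ^ (-(1/2) : ℝ) * φ f h) - ut a c γ V f h

theorem A_psi {w φ : Fld} {a : ℝ} (ha : 0 < a) {c γ : Face → ℝ} (hγ : ∀ f, γ f ^ 2 = 1) {V : Face}
    (hw : ∀ f h, (c f ≠ 0 ∨ c (nb f h) ≠ 0) → w f h = γ f * γ (nb f h) * (rayw V f h * xc))
    (h1 : c V = 1) (h2 : c (V.1, V.2 - 1) = 1) (hφ : ∀ f h, A w φ f h = -lvec w V f h)
    (f : Face) (h : Fin 4) : A w (psi a c γ φ V) f h = a * gt a c γ V f h := by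
  have e : A w (psi a c γ φ V) f h = γ V * a ^ (-(1/2) : ℝ) * A w φ f h +
      (-a ^ (-(1/2) : ℝ)) * A w (fun f h => c f * (γ f * psS V f h)) f h := by
    rw [← Tr2x40.A_smul, ← Tr2x40.A_smul, ← Tr2x40.A_add]
    congr 1
    funext f h
    unfold psi ut
    ring
  rw [e, hφ, cut_tip hγ hw h1 h2]
  unfold gt
  have ha' := ha.ne'
  field_simp
  ring

end Crest.Agent.R165.Eta2x576
end
end

-- ▼ part R165/Eta3_576

/-!
# Row 165 (S0250), block U4 (helper576): limit of the columns with source at a branch vertex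

* `tip_gauge_unif` : gauge near a tip, radius independent of the sequence
* `hj` : holomorphic square root near `x j` without the factor `j`
* `eta_lim` : `a^{-1/2} S(., l_j) → lv (F + χ gc bc)` in `L²_loc`, from `ResConv`
-/

set_option autoImplicit false
set_option linter.unusedVariables false
set_option linter.unusedSimpArgs false

noncomputable section

open MeasureTheory Filter Topology Set Metric
open Crest.ProbabilityR.IsingModel
open Crest.Agent.R165.Tr1x40 Crest.Agent.R165.RIfx891 Crest.Agent.R165.Embx622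
open Crest.Agent.R165.Upx622
open Crest.Agent.R165.Mac0x622 Crest.Agent.R165.Mac1x622 Crest.Agent.R165.Mac3x622
open Crest.Agent.R165.MacIx622
open Crest.Agent.R165.Eta1x576 Crest.Agent.R165.Eta2x576

namespace Crest.Agent.R165.Eta3x576

variable {n : ℕ}

/-! ### uniform radius -/

theorem tip_gauge_unif {x : Fin n → ℂ} (hx : Function.Injective x) (j : Fin n) :
    ∃ ρ > 0, ∀ a : ℕ → ℝ, (∀ k, 0 < a k) → Tendsto a atTop (𝓝 0) → ∀ V : ℕ → Fin n → Face,
      (∀ i, Tendsto (fun k => meshPoint (a k) (V k i)) atTop (𝓝 (x i))) →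
      ∀ᶠ k in atTop, ∀ f : Face, ‖meshPoint (a k) f - x j‖ < ρ → ∀ h,
      rays (V k) f h = gz x (x j) (V k) f * gz x (x j) (V k) (nb f h) * rayw (V k j) f h := by
  by_contra hc
  have key : ∀ m : ℕ, ∃ (b : ℝ) (U : Fin n → Face), (0 < b ∧ b < 1 / ((m : ℝ) + 1)) ∧
      (∀ i, ‖meshPoint b (U i) - x i‖ < 1 / ((m : ℝ) + 1)) ∧
      ¬ ∀ f : Face, ‖meshPoint b f - x j‖ < 1 / ((m : ℝ) + 1) → ∀ h,
        rays U f h = gz x (x j) U f * gz x (x j) U (nb f h) * rayw (U j) f h := by
    intro m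
    by_contra hm
    apply hc
    have hm0 : (0 : ℝ) < 1 / ((m : ℝ) + 1) := by positivity
    refine ⟨1 / ((m : ℝ) + 1), hm0, fun a hpos hlim V tip => ?_⟩
    have e1 : ∀ᶠ k in atTop, a k < 1 / ((m : ℝ) + 1) := hlim.eventually (eventually_lt_nhds hm0)
    have e2 : ∀ᶠ k in atTop, ∀ i, ‖meshPoint (a k) (V k i) - x i‖ < 1 / ((m : ℝ) + 1) := by
      rw [eventually_all]
      intro i
      have := tendsto_iff_norm_sub_tendsto_zero.1 (tip i)
      exact this.eventually (eventually_lt_nhds hm0)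
    filter_upwards [e1, e2] with k h1 h2
    by_contra h3
    exact hm ⟨a k, V k, ⟨hpos k, h1⟩, h2, h3⟩
  choose b U hb hU hbad using key
  have hm : Tendsto (fun m : ℕ => 1 / ((m : ℝ) + 1)) atTop (𝓝 0) :=
    tendsto_one_div_add_atTop_nhds_zero_nat
  have hlim : Tendsto b atTop (𝓝 0) :=
    squeeze_zero (fun m => (hb m).1.le) (fun m => (hb m).2.le) hm
  have tip : ∀ i, Tendsto (fun m => meshPoint (b m) (U m i)) atTop (𝓝 (x i)) := by
    intro i
    rw [tendsto_iff_norm_sub_tendsto_zero]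
    exact squeeze_zero (fun _ => norm_nonneg _) (fun m => (hU m i).le) hm
  obtain ⟨ρ, hρ, hk⟩ := tip_gauge hx (fun m => (hb m).1) hlim tip j
  have h2 : ∀ᶠ m : ℕ in atTop, 1 / ((m : ℝ) + 1) < ρ := hm.eventually (eventually_lt_nhds hρ)
  obtain ⟨m, h3, h4⟩ := (hk.and h2).exists
  exact hbad m fun f hf h => h3 f (hf.trans h4) h

/-! ### the square root near a tip -/

theorem factor_diff {x z : ℂ} (hz : x ≠ z) [Decidable (rel x z)] :
    ∀ᶠ v in 𝓝 z, DifferentiableAt ℂ (fun u : ℂ =>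
      ((if rel x z ∧ x.im < u.im then (-1 : ℝ) else 1 : ℝ) : ℂ) * (x - u) ^ (1 / 2 : ℂ)) v := by
  by_cases h : rel x z
  · have h1 : ∀ᶠ u in 𝓝 z, x.re < u.re :=
      (Complex.continuous_re.tendsto z).eventually (eventually_gt_nhds h.2)
    have e : ∀ u : ℂ, x.re < u.re → ((if rel x z ∧ x.im < u.im then (-1 : ℝ) else 1 : ℝ) : ℂ) *
        (x - u) ^ (1 / 2 : ℂ) = Complex.I * (u - x) ^ (1 / 2 : ℂ) := by
      intro u hu
      have h2 := cpow_half_neg (v := u - x) (by rw [Complex.sub_re]; linarith)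
      rw [neg_sub] at h2
      rw [h2]
      by_cases h3 : x.im < u.im
      · have h4 : ¬ (u - x).im ≤ 0 := by rw [Complex.sub_im]; linarith
        simp only [h, h3, h4, true_and, if_true, if_false]
        push_cast; ring
      · have h4 : (u - x).im ≤ 0 := by rw [Complex.sub_im]; linarith
        simp only [h, h3, h4, true_and, if_true, if_false]
        push_cast; ring
    filter_upwards [h1.eventually_nhds] with v hv
    have hv0 := hv.self_of_nhds
    have h5 : v - x ∈ Complex.slitPlane := by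
      left; rw [Complex.sub_re]; linarith
    have h6 : DifferentiableAt ℂ (fun u : ℂ => Complex.I * (u - x) ^ (1 / 2 : ℂ)) v :=
      (differentiableAt_const _).mul ((differentiableAt_id.sub_const x).cpow
        (differentiableAt_const _) h5)
    exact h6.congr_of_eventuallyEq (hv.mono fun u hu => e u hu)
  · have h5 : x - z ∈ Complex.slitPlane := by
      rw [Complex.mem_slitPlane_iff, Complex.sub_re, Complex.sub_im]
      by_cases him : x.im = z.im
      · left
        have : z.re ≤ x.re := not_lt.1 fun hc => h ⟨him, hc⟩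
        rcases lt_or_eq_of_le this with h6 | h6
        · linarith
        · exact absurd (Complex.ext h6.symm him) hz
      · right; exact sub_ne_zero.2 him
    have h6 : ∀ᶠ v in 𝓝 z, x - v ∈ Complex.slitPlane :=
      (continuous_const.sub continuous_id).continuousAt.eventually
        (Complex.isOpen_slitPlane.mem_nhds h5)
    filter_upwards [h6] with v hv
    simp only [h, false_and, if_false]
    exact (differentiableAt_const _).mul (((differentiableAt_const _).sub
      differentiableAt_id).cpow (differentiableAt_const _) hv)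

/-- the square root near `x j` without the factor `j` -/
def hj (x : Fin n → ℂ) (j : Fin n) (u : ℂ) : ℂ := by
  classical exact ∏ l ∈ Finset.univ.erase j,
    (((if rel (x l) (x j) ∧ (x l).im < u.im then (-1 : ℝ) else 1 : ℝ) : ℂ) *
      (x l - u) ^ (1 / 2 : ℂ))

theorem hj_diff {x : Fin n → ℂ} (hx : Function.Injective x) (j : Fin n) :
    ∃ ρ > 0, DifferentiableOn ℂ (hj x j) (ball (x j) ρ) := by
  classical
  have h1 : ∀ᶠ v in 𝓝 (x j), DifferentiableAt ℂ (hj x j) v := by
    have h2 : ∀ᶠ v in 𝓝 (x j), ∀ l ∈ Finset.univ.erase j, DifferentiableAt ℂ (fun u : ℂ =>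
        ((if rel (x l) (x j) ∧ (x l).im < u.im then (-1 : ℝ) else 1 : ℝ) : ℂ) *
          (x l - u) ^ (1 / 2 : ℂ)) v := by
      rw [Filter.eventually_all_finset]
      intro l hl
      exact factor_diff fun h => (Finset.ne_of_mem_erase hl) (hx h)
    filter_upwards [h2] with v hv
    have e : hj x j = ∏ l ∈ Finset.univ.erase j, fun u : ℂ =>
        (((if rel (x l) (x j) ∧ (x l).im < u.im then (-1 : ℝ) else 1 : ℝ) : ℂ) *
          (x l - u) ^ (1 / 2 : ℂ)) := by
      funext u
      rw [Finset.prod_apply]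
      rfl
    rw [e]
    exact DifferentiableAt.finsetProd fun l hl => hv l hl
  obtain ⟨ρ, hρ, h2⟩ := Metric.eventually_nhds_iff_ball.1 h1
  exact ⟨ρ, hρ, fun u hu => (h2 u hu).differentiableWithinAt⟩

theorem gc_rX (x : Fin n → ℂ) (j : Fin n) (u : ℂ) :
    (gc x (x j) u : ℂ) * rX x u = hj x j u * (x j - u) ^ (1 / 2 : ℂ) := by
  classical
  have e : (gc x (x j) u : ℂ) * rX x u = ∏ i,
      (((if rel (x i) (x j) ∧ (x i).im < u.im then (-1 : ℝ) else 1 : ℝ) : ℂ) *
        (x i - u) ^ (1 / 2 : ℂ)) := by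
    unfold gc rX
    rw [Finset.prod_mul_distrib]
    push_cast
    rfl
  rw [e, ← Finset.mul_prod_erase Finset.univ _ (Finset.mem_univ j)]
  unfold hj
  rw [if_neg (fun h => not_rel_self _ h.1)]
  push_cast
  ring

theorem bc_mul_sqrt {x u : ℂ} (hu : u ≠ x) :
    bc (u - x) * (x - u) ^ (1 / 2 : ℂ) = Br5x644.kp * Complex.I := by
  unfold bc Br5x644.zt
  rw [neg_sub]
  have h0 : x - u ≠ 0 := sub_ne_zero.2 hu.symm
  have h1 : (x - u) ^ (-(1/2) : ℂ) * (x - u) ^ (1 / 2 : ℂ) = 1 := by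
    rw [← Complex.cpow_add _ _ h0]
    norm_num
  linear_combination (Br5x644.kp * Complex.I : ℂ) * h1

/-- the branch amplitude times the square root -/
theorem bc_rX (x : Fin n → ℂ) (j : Fin n) {u : ℂ} (hu : u ≠ x j) :
    ((gc x (x j) u : ℂ) * bc (u - x j)) * rX x u = Br5x644.kp * Complex.I * hj x j u := by
  have h1 := gc_rX x j u
  have h2 := bc_mul_sqrt hu
  calc ((gc x (x j) u : ℂ) * bc (u - x j)) * rX x u
      = bc (u - x j) * ((gc x (x j) u : ℂ) * rX x u) := by ring
    _ = hj x j u * (bc (u - x j) * (x j - u) ^ (1 / 2 : ℂ)) := by rw [h1]; ring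
    _ = _ := by rw [h2]; ring

/-! ### the annulus -/

/-- closed annulus -/
def Anr (y : ℂ) (r : ℝ) : Set ℂ := {z | r / 4 ≤ ‖z - y‖ ∧ ‖z - y‖ ≤ r}

theorem Anr_closed (y : ℂ) (r : ℝ) : IsClosed (Anr y r) :=
  (isClosed_le continuous_const (continuous_id.sub continuous_const).norm).inter
    (isClosed_le (continuous_id.sub continuous_const).norm continuous_const)

theorem Anr_compact (y : ℂ) (r : ℝ) : IsCompact (Anr y r) := by
  refine (isCompact_closedBall y r).of_isClosed_subset (Anr_closed y r) fun z hz => ?_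
  rw [mem_closedBall, dist_eq_norm]
  exact hz.2

/-- admissible radii at the tip `j` -/
structure Rad (D : Set ℂ) (x : Fin n → ℂ) (j : Fin n) (ρ : ℝ) : Prop where
  pos : 0 < ρ
  sub : closedBall (x j) ρ ⊆ D
  far : ∀ i, i ≠ j → ρ < ‖x i - x j‖
  hol : DifferentiableOn ℂ (hj x j) (ball (x j) ρ)
  gauge : ∀ a : ℕ → ℝ, (∀ k, 0 < a k) → Tendsto a atTop (𝓝 0) → ∀ V : ℕ → Fin n → Face,
      (∀ i, Tendsto (fun k => meshPoint (a k) (V k i)) atTop (𝓝 (x i))) →
      ∀ᶠ k in atTop, ∀ f : Face, ‖meshPoint (a k) f - x j‖ < ρ → ∀ h,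
      rays (V k) f h = gz x (x j) (V k) f * gz x (x j) (V k) (nb f h) * rayw (V k j) f h

theorem Rad.mono {D : Set ℂ} {x : Fin n → ℂ} {j : Fin n} {ρ r : ℝ} (h : Rad D x j ρ) (hr : 0 < r)
    (hrρ : r ≤ ρ) : Rad D x j r :=
  ⟨hr, (closedBall_subset_closedBall hrρ).trans h.sub, fun i hi => hrρ.trans_lt (h.far i hi),
    h.hol.mono (ball_subset_ball hrρ), fun a h1 h2 V h3 => (h.gauge a h1 h2 V h3).mono
      fun k hk f hf => hk f (hf.trans_le hrρ)⟩

theorem exists_rad {D : Set ℂ} (hD : IsOpen D) {x : Fin n → ℂ} (hx : Function.Injective x)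
    (j : Fin n) (hj : x j ∈ D) : ∃ ρ, Rad D x j ρ := by
  classical
  obtain ⟨ρ1, h1, hg⟩ := tip_gauge_unif hx j
  obtain ⟨ρ2, h2, hh⟩ := hj_diff hx j
  obtain ⟨ρ3, h3, hs⟩ := Metric.isOpen_iff.1 hD _ hj
  obtain ⟨ρ4, h4, hf⟩ : ∃ r > 0, ∀ i, i ≠ j → r < ‖x i - x j‖ := by
    have : ∀ᶠ u in 𝓝[>] (0 : ℝ), ∀ i, i ≠ j → u < ‖x i - x j‖ := by
      rw [eventually_all]
      intro i
      by_cases hi : i = j
      · exact Eventually.of_forall fun u h => absurd hi h
      · have h0 : 0 < ‖x i - x j‖ := norm_pos_iff.2 (sub_ne_zero.2 fun h => hi (hx h))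
        filter_upwards [Ioo_mem_nhdsGT h0] with u hu _
        exact hu.2
    obtain ⟨r, hr, hr0⟩ := (this.and self_mem_nhdsWithin).exists
    exact ⟨r, hr0, hr⟩
  refine ⟨min (min ρ1 ρ2) (min (ρ3 / 2) ρ4), ⟨by positivity, ?_, ?_, ?_, ?_⟩⟩
  · refine Subset.trans (fun z hz => ?_) hs
    rw [mem_closedBall] at hz
    rw [mem_ball]
    have := (min_le_right (min ρ1 ρ2) (min (ρ3 / 2) ρ4)).trans (min_le_left _ _)
    linarith
  · intro i hi
    exact ((min_le_right _ _).trans (min_le_right _ _)).trans_lt (hf i hi)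
  · exact hh.mono (ball_subset_ball ((min_le_left _ _).trans (min_le_right _ _)))
  · intro a ha hlim V tip
    exact (hg a ha hlim V tip).mono fun k hk f hf => hk f
      (hf.trans_le ((min_le_left _ _).trans (min_le_left _ _)))

theorem Rad.anr {D : Set ℂ} {x : Fin n → ℂ} {j : Fin n} {ρ : ℝ} (h : Rad D x j ρ) :
    Anr (x j) ρ ⊆ Om D x := by
  intro z hz
  refine ⟨h.sub (by rw [mem_closedBall, dist_eq_norm]; exact hz.2), ?_⟩
  rintro ⟨i, rfl⟩
  by_cases hi : i = j
  · subst hi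
    have := hz.1
    rw [sub_self, norm_zero] at this
    have := h.pos
    linarith
  · have := h.far i hi
    linarith [hz.2]

/-! ### limits -/

theorem Pair_fin {a : ℝ} (ha : 0 < a) (y : ℂ) (r : ℝ) :
    {f : Face | ‖meshPoint a f - y‖ < r}.Finite := by
  set N : ℤ := ⌈(‖y‖ + r) / a⌉ with hN
  refine ((Finset.Icc (-N) N ×ˢ Finset.Icc (-N) N).finite_toSet).subset fun f hf => ?_
  rw [mem_ofPred_eq] at hf
  have h1 : ‖meshPoint a f‖ ≤ ‖y‖ + r := by
    have : ‖meshPoint a f‖ ≤ ‖meshPoint a f - y‖ + ‖y‖ := by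
      have := norm_add_le (meshPoint a f - y) y
      rwa [sub_add_cancel] at this
    linarith
  have key : ∀ m : ℤ, |a * (m : ℝ)| ≤ ‖y‖ + r → -N ≤ m ∧ m ≤ N := by
    intro m hm
    rw [abs_mul, abs_of_pos ha] at hm
    have h2 : |(m : ℝ)| ≤ (‖y‖ + r) / a := by rw [le_div_iff₀ ha]; linarith
    have h3 : |(m : ℝ)| ≤ (N : ℝ) := h2.trans (Int.le_ceil _)
    rw [abs_le] at h3
    constructor
    · exact_mod_cast h3.1
    · exact_mod_cast h3.2
  have h2 := key f.1 ((Complex.abs_re_le_norm (meshPoint a f)).trans h1)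
  have h3 := key f.2 ((Complex.abs_im_le_norm (meshPoint a f)).trans h1)
  simp only [Finset.coe_product, Finset.coe_Icc, mem_prod, mem_Icc]
  exact ⟨h2, h3⟩

/-- sums of `L²` convergent sequences -/
theorem l2_add {B : Set ℂ} {u v : ℕ → ℂ → ℝ} {U W : ℂ → ℝ} (hv : ∀ k, Measurable (v k))
    (hW : Measurable W)
    (h1 : Tendsto (fun k => ∫⁻ z in B, ENNReal.ofReal ((u k z - U z) ^ 2)) atTop (𝓝 0))
    (h2 : Tendsto (fun k => ∫⁻ z in B, ENNReal.ofReal ((v k z - W z) ^ 2)) atTop (𝓝 0)) :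
    Tendsto (fun k => ∫⁻ z in B, ENNReal.ofReal ((u k z + v k z - (U z + W z)) ^ 2)) atTop
      (𝓝 0) := by
  have hL2 := ENNReal.Tendsto.const_mul (a := (2 : ENNReal)) h1 (Or.inr (by simp))
  have hE2 := ENNReal.Tendsto.const_mul (a := (2 : ENNReal)) h2 (Or.inr (by simp))
  have hsum := hL2.add hE2
  simp only [mul_zero, add_zero] at hsum
  refine tendsto_of_tendsto_of_tendsto_of_le_of_le tendsto_const_nhds hsum (fun _ => zero_le)
    fun k => ?_
  have hmul : ∀ f : ℂ → ENNReal, 2 * ∫⁻ u in B, f u = ∫⁻ u in B, 2 * f u :=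
    fun f => (lintegral_const_mul' _ _ (by simp)).symm
  have hmeas : Measurable fun z => (2 : ENNReal) * ENNReal.ofReal ((v k z - W z) ^ 2) :=
    ((((hv k).sub hW).pow_const 2).ennreal_ofReal).const_mul _
  simp only [hmul]
  rw [← lintegral_add_right _ hmeas]
  refine lintegral_mono fun z => ?_
  rw [show (2 : ENNReal) = ENNReal.ofReal 2 by simp, ← ENNReal.ofReal_mul (by norm_num),
    ← ENNReal.ofReal_mul (by norm_num), ← ENNReal.ofReal_add (by positivity) (by positivity)]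
  apply ENNReal.ofReal_le_ofReal
  nlinarith [sq_nonneg ((u k z - U z) - (v k z - W z))]

/-- the amplitude of the cut-off branch field -/
def ba (x : Fin n → ℂ) (j : Fin n) (χ : ℂ → ℝ) (z : ℂ) : ℂ :=
  (χ z : ℂ) * ((gc x (x j) z : ℂ) * bc (z - x j))

theorem lv_ba (x : Fin n → ℂ) (j : Fin n) (χ : ℂ → ℝ) (z : ℂ) (h : Fin 4) :
    lv (ba x j χ z) h = χ z * (gc x (x j) z * lv (bc (z - x j)) h) := by
  unfold ba
  rw [lv_real_mul, lv_real_mul]

theorem ba_measurable (x : Fin n → ℂ) (j : Fin n) {r : ℝ} {χ : ℂ → ℝ} (hχ : Cut (x j) r χ) :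
    Measurable (ba x j χ) := by
  unfold ba
  exact (Complex.measurable_ofReal.comp hχ.smooth.continuous.measurable).mul
    ((Complex.measurable_ofReal.comp (gc_measurable x (x j))).mul
      (bc_measurable.comp (measurable_id.sub_const _)))

/-- local `L²` convergence of the scaled columns to the amplitude `E` on `O` -/
def ColLim (O : Set ℂ) (x : Fin n → ℂ) (j : Fin n) (a : ℕ → ℝ) (w : ℕ → Fld)
    (V : ℕ → Fin n → Face) (S : ℕ → Face × Fin 4 → Face × Fin 4 → ℝ) (E : ℂ → ℂ) : Prop :=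
  ∀ z₀ ∈ O, ∃ ρ > 0, ∀ h, Tendsto (fun k => ∫⁻ z in ball z₀ ρ, ENNReal.ofReal
    ((emb (a k) (fun f => gz x (x j) (V k) (V k j) *
      (a k ^ (-(1/2) : ℝ) * col (w k) (S k) (V k j) f h)) z - lv (E z) h) ^ 2)) atTop (𝓝 0)

/-- **limit of the columns from `ResConv`** -/
theorem eta_lim {D : Set ℂ} {x : Fin n → ℂ} {Q : Set ℂ → (ℂ → ℂ) → Prop}
    (hRC : ResConv (Om D x) x (LatSeq D x) Q) {j : Fin n} {r : ℝ} (hr : Rad D x j r) {χ : ℂ → ℝ}
    (hχ : Cut (x j) r χ) :
    ∃ F : ℂ → ℂ, Q (Anr (x j) r) F ∧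
      (∃ gg : ℂ → ℂ, ContinuousOn gg (Om D x \ Anr (x j) r) ∧
        ∀ z ∈ Om D x \ Anr (x j) r, F z * rX x z = gg z) ∧
      ∀ a w V, LatSeq D x a w V → ∀ S : ℕ → Face × Fin 4 → Face × Fin 4 → ℝ,
        (∀ᶠ k in atTop, Cov40 (w k) (S k)) →
        ColLim (Om D x) x j a w V S (fun z => F z + ba x j χ z) := by
  classical
  have hsupp : ∀ z, z ∉ Anr (x j) r → ∀ h, Gt x j χ z h = 0 := by
    intro z hz h
    apply Gt_zero x j hχ
    unfold Anr at hz
    rw [mem_ofPred_eq, not_and_or, not_le, not_le] at hz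
    have := hr.pos
    rcases hz with hz | hz
    · left; linarith
    · right; linarith
  obtain ⟨F, hQ, hgg, hF⟩ := hRC (Anr (x j) r) (Anr_compact _ _) hr.anr (Gt x j χ)
    (fun h => Gt_memLp x j hr.pos hχ h) hsupp
  refine ⟨F, hQ, hgg, fun a w V H S hS z₀ hz₀ => ?_⟩
  set c : ℕ → Face → ℝ := fun k f => χ (meshPoint (a k) f) with hc
  set ψ : ℕ → Fld := fun k => if Cov40 (w k) (S k) then
    psi (a k) (c k) (gz x (x j) (V k)) (col (w k) (S k) (V k j)) (V k j) else 0 with hψ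
  have hpos := H.pos
  have hlim := H.lim
  have hr0 := hr.pos
  have ea : ∀ᶠ k in atTop, a k < r / 16 := hlim.eventually (eventually_lt_nhds (by positivity))
  have et : ∀ᶠ k in atTop, ‖meshPoint (a k) (V k j) - x j‖ < r / 16 := by
    have := tendsto_iff_norm_sub_tendsto_zero.1 (H.tip j)
    exact this.eventually (eventually_lt_nhds (by positivity))
  have hg := hr.gauge a hpos hlim V H.tip
  have hins := H.ins (closedBall (x j) r) (isCompact_closedBall _ _) hr.sub
  -- finite support of the cut-off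
  have hfin : ∀ k, {f : Face | c k f ≠ 0}.Finite := by
    intro k
    refine (Pair_fin (hpos k) (x j) r).subset fun f hf => ?_
    by_contra hcc
    apply hf
    rw [mem_ofPred_eq, not_lt] at hcc
    exact hχ.zero _ (by linarith)
  -- behaviour at infinity
  have hzero : ∀ k, Tendsto (fun b : Face × Fin 4 => ψ k b.1 b.2) cofinite (𝓝 0) := by
    intro k
    by_cases hSk : Cov40 (w k) (S k)
    · have h1 : Tendsto (fun b : Face × Fin 4 => gz x (x j) (V k) (V k j) *
          (a k ^ (-(1/2) : ℝ) * (S k b (V k j, 0) - w k (V k j) 0 *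
            S k b (((V k j).1, (V k j).2 - 1), 2)))) cofinite (𝓝 0) := by
        have := (((hSk.zero (V k j, 0)).sub ((hSk.zero (((V k j).1, (V k j).2 - 1), 2)).const_mul
          (w k (V k j) 0))).const_mul (a k ^ (-(1/2) : ℝ))).const_mul
          (gz x (x j) (V k) (V k j))
        simpa using this
      refine h1.congr' ?_
      have h2 : {b' : Face × Fin 4 | c k b'.1 ≠ 0}.Finite := by
        have : {b' : Face × Fin 4 | c k b'.1 ≠ 0} = {f | c k f ≠ 0} ×ˢ (univ : Set (Fin 4)) := by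
          ext b'; simp
        rw [this]
        exact (hfin k).prod finite_univ
      have h3 : ∀ᶠ b' : Face × Fin 4 in cofinite, c k b'.1 = 0 := by
        rw [eventually_cofinite]
        exact h2
      filter_upwards [h3] with b' hb'
      rw [hψ]
      simp only [if_pos hSk]
      unfold psi ut col
      rw [hb']
      simp
    · rw [hψ]
      simp only [if_neg hSk]
      exact tendsto_const_nhds
  -- the equation
  have heq : ∀ᶠ k in atTop, ∀ f h, A (w k) (ψ k) f h =
      a k * gt (a k) (c k) (gz x (x j) (V k)) (V k j) f h := by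
    filter_upwards [hS, ea, et, hg, hins] with k h1 h2 h3 h4 h5 f h
    rw [hψ]
    simp only [if_pos h1]
    refine A_psi (hpos k) (gz_sq x (x j) (V k)) ?_ ?_ ?_ (fun f h => A_col h1 (V k j) f h) f h
    · intro f h hcf
      have h6 : ‖meshPoint (a k) f - x j‖ < r := by
        have h0 := abs_le.1 (nb_norm (a k) (hpos k) f h (x j))
        rcases hcf with hcf | hcf
        · by_contra hcc
          apply hcf
          rw [not_lt] at hcc
          exact hχ.zero _ (by linarith)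
        · by_contra hcc
          apply hcf
          rw [not_lt] at hcc
          exact hχ.zero _ (by linarith)
      rw [h5 f (by rw [mem_closedBall, dist_eq_norm]; exact h6.le) h, h4 f h6 h]
      ring
    · exact hχ.one _ (by linarith)
    · refine hχ.one _ ?_
      have h0 := abs_le.1 (nb_norm (a k) (hpos k) (V k j) 0 (x j))
      simp only [nb_zero] at h0
      linarith
  have hgsupp : ∀ᶠ k in atTop, ∀ f h, gt (a k) (c k) (gz x (x j) (V k)) (V k j) f h ≠ 0 →
      meshPoint (a k) f ∈ Anr (x j) r := by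
    filter_upwards [ea] with k h1 f h hne
    have := gt_supp hχ (hpos k) h1.le (gz x (x j) (V k)) (V k j) f h hne
    exact ⟨this.1.le, this.2.le⟩
  obtain ⟨ρ, hρ, hL⟩ := hF a w V H (fun k => gt (a k) (c k) (gz x (x j) (V k)) (V k j)) ψ hgsupp
    (fun h => gt_L2 hr0 hχ hpos hlim H.tip h) hzero heq z₀ hz₀
  -- the total field
  have hz0 : 0 < ‖z₀ - x j‖ :=
    norm_pos_iff.2 (sub_ne_zero.2 fun h => hz₀.2 ⟨j, h.symm⟩)
  refine ⟨min ρ (‖z₀ - x j‖ / 2), by positivity, fun h => ?_⟩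
  have hL' : Tendsto (fun k => ∫⁻ z in ball z₀ (min ρ (‖z₀ - x j‖ / 2)), ENNReal.ofReal
      ((emb (a k) (fun f => ψ k f h) z - lv (F z) h) ^ 2)) atTop (𝓝 0) :=
    tendsto_of_tendsto_of_tendsto_of_le_of_le tendsto_const_nhds (hL h) (fun _ => zero_le)
      fun k => lintegral_mono_set (ball_subset_ball (min_le_left _ _))
  have hU := ut_L2 hr0 hχ hpos hlim H.tip (z₀ := z₀) (ρ := min ρ (‖z₀ - x j‖ / 2))
    (by have := min_le_right ρ (‖z₀ - x j‖ / 2); linarith) h
  have hsum := l2_add (fun k => emb_measurable _ _)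
    (hχ.smooth.continuous.measurable.mul ((gc_measurable x (x j)).mul
      ((lv_continuous h).measurable.comp (bc_measurable.comp (measurable_id.sub_const _)))))
    hL' hU
  refine hsum.congr' ?_
  filter_upwards [hS] with k hk
  refine lintegral_congr fun z => ?_
  have e : emb (a k) (fun f => ψ k f h) z + emb (a k) (fun f => ut (a k)
      (fun f => χ (meshPoint (a k) f)) (gz x (x j) (V k)) (V k j) f h) z =
      emb (a k) (fun f => gz x (x j) (V k) (V k j) *
      (a k ^ (-(1/2) : ℝ) * col (w k) (S k) (V k j) f h)) z := by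
    unfold emb
    rw [hψ]
    simp only [if_pos hk]
    unfold psi
    ring
  rw [e, lv_add, lv_ba]
  rfl

end Crest.Agent.R165.Eta3x576
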