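import Crest.Agent.R165.GeoLat4_416

-- ▼ part R165/GeoCh_416
section

/-!
R165, block GEO, part 5: the chain lemma (from local joins near every point of a compact set to global joins)
and its application to the sites of `D`.
-/

set_option autoImplicit false

namespace Crest.Agent.R165.Geo

open Complex Set Filter Topology
open Crest.ProbabilityR.IsingModel

/-- Chain lemma. -/
theorem chain_join {A K : Set ℂ} (hA : IsPreconnected A) (hAK : A ⊆ K) (hK : IsCompact K)
    (S Q : ℝ → Set (ℤ × ℤ))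
    (hS : ∀ a, ∀ z ∈ S a, meshPoint a z ∈ A)
    (hloc : ∀ p ∈ K, ∃ U : Set ℂ, IsOpen U ∧ p ∈ U ∧ ∃ C : ℝ, ∀ᶠ a in 𝓝[>] (0:ℝ), ∀ u ∈ S a, ∀ v ∈ S a,
      meshPoint a u ∈ U → meshPoint a v ∈ U → ∃ n : ℕ, (n:ℝ) ≤ C / a ∧ PathIn (Q a) u v n)
    (hdense : ∀ U : Set ℂ, IsOpen U → (U ∩ A).Nonempty → ∀ᶠ a in 𝓝[>] (0:ℝ), ∃ z ∈ S a, meshPoint a z ∈ U) :
    ∃ C : ℝ, ∀ᶠ a in 𝓝[>] (0:ℝ), ∀ u ∈ S a, ∀ v ∈ S a, ∃ n : ℕ, (n:ℝ) ≤ C / a ∧ PathIn (Q a) u v n := by
  classical
  choose! U hUo hpU C hC using hloc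
  obtain ⟨t, htK, ht⟩ := hK.elim_nhds_subcover U (fun p hp => (hUo p hp).mem_nhds (hpU p hp))
  -- the graph of overlaps
  set R : ℂ → ℂ → Prop := fun i j => i ∈ t ∧ j ∈ t ∧ (U i ∩ U j ∩ A).Nonempty with hR
  have hconn : ∀ i ∈ t, (U i ∩ A).Nonempty → ∀ j ∈ t, (U j ∩ A).Nonempty → Relation.ReflTransGen R i j := by
    intro i hi hiA j hj hjA
    by_contra hcon
    set V1 : Set ℂ := ⋃ l ∈ {l | l ∈ t ∧ Relation.ReflTransGen R i l}, U l with hV1
    set V2 : Set ℂ := ⋃ l ∈ {l | l ∈ t ∧ ¬ Relation.ReflTransGen R i l}, U l with hV2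
    have ho1 : IsOpen V1 := isOpen_biUnion fun l hl => hUo l (htK l hl.1)
    have ho2 : IsOpen V2 := isOpen_biUnion fun l hl => hUo l (htK l hl.1)
    have hcov : A ⊆ V1 ∪ V2 := by
      intro x hx
      have := ht (hAK hx)
      simp only [mem_iUnion] at this
      obtain ⟨l, hl, hxl⟩ := this
      by_cases hil : Relation.ReflTransGen R i l
      · exact Or.inl (mem_biUnion (show l ∈ {l | l ∈ t ∧ Relation.ReflTransGen R i l} from ⟨hl, hil⟩) hxl)
      · exact Or.inr (mem_biUnion (show l ∈ {l | l ∈ t ∧ ¬ Relation.ReflTransGen R i l} from ⟨hl, hil⟩) hxl)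
    obtain ⟨x, hxi, hxA⟩ := hiA
    obtain ⟨y, hyj, hyA⟩ := hjA
    have h1 : (A ∩ V1).Nonempty := ⟨x, hxA,
      mem_biUnion (show i ∈ {l | l ∈ t ∧ Relation.ReflTransGen R i l} from ⟨hi, Relation.ReflTransGen.refl⟩) hxi⟩
    have h2 : (A ∩ V2).Nonempty := ⟨y, hyA,
      mem_biUnion (show j ∈ {l | l ∈ t ∧ ¬ Relation.ReflTransGen R i l} from ⟨hj, hcon⟩) hyj⟩
    obtain ⟨w, hwA, hw1, hw2⟩ := hA V1 V2 ho1 ho2 hcov h1 h2
    simp only [hV1, mem_iUnion] at hw1
    simp only [hV2, mem_iUnion] at hw2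
    obtain ⟨l1, hl1, hwl1⟩ := hw1
    obtain ⟨l2, hl2, hwl2⟩ := hw2
    exact hl2.2 (hl1.2.tail ⟨hl1.1, hl2.1, w, ⟨hwl1, hwl2⟩, hwA⟩)
  -- joins between two patches
  have hpair : ∀ i j : ℂ, i ∈ t → j ∈ t → Relation.ReflTransGen R i j → ∃ c : ℝ, ∀ᶠ a in 𝓝[>] (0:ℝ),
      ∀ u ∈ S a, ∀ v ∈ S a, meshPoint a u ∈ U i → meshPoint a v ∈ U j →
        ∃ n : ℕ, (n:ℝ) ≤ c / a ∧ PathIn (Q a) u v n := by
    intro i j hi _ hij
    induction hij with
    | refl => exact ⟨C i, hC i (htK i hi)⟩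
    | @tail b c _ hbc ih =>
      obtain ⟨c1, hc1⟩ := ih hbc.1
      refine ⟨c1 + C c, ?_⟩
      have hd := hdense (U b ∩ U c) ((hUo b (htK b hbc.1)).inter (hUo c (htK c hbc.2.1))) hbc.2.2
      filter_upwards [hc1, hC c (htK c hbc.2.1), hd, self_mem_nhdsWithin] with a h1 h2 h3 ha u hu v hv huU hvU
      obtain ⟨z, hz, hzU⟩ := h3
      obtain ⟨n1, hn1, p1⟩ := h1 u hu z hz huU hzU.1
      obtain ⟨n2, hn2, p2⟩ := h2 z hz v hv hzU.2 hvU
      refine ⟨n1 + n2, ?_, p1.trans p2⟩
      push_cast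
      rw [add_div]
      exact add_le_add hn1 hn2
  choose! c hc using hpair
  refine ⟨∑ i ∈ t, ∑ j ∈ t, |c i j|, ?_⟩
  have hall : ∀ᶠ a in 𝓝[>] (0:ℝ), ∀ i ∈ t, ∀ j ∈ t, Relation.ReflTransGen R i j →
      ∀ u ∈ S a, ∀ v ∈ S a, meshPoint a u ∈ U i → meshPoint a v ∈ U j →
        ∃ n : ℕ, (n:ℝ) ≤ c i j / a ∧ PathIn (Q a) u v n := by
    rw [Filter.eventually_all_finset]
    intro i hi
    rw [Filter.eventually_all_finset]
    intro j hj
    by_cases hij : Relation.ReflTransGen R i j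
    · filter_upwards [hc i j hi hj hij] with a ha _
      exact ha
    · exact Filter.Eventually.of_forall fun a h => absurd h hij
  filter_upwards [hall, self_mem_nhdsWithin] with a ha ha0 u hu v hv
  have ha0 : 0 < a := ha0
  have hu' := ht (hAK (hS a u hu))
  have hv' := ht (hAK (hS a v hv))
  simp only [mem_iUnion] at hu' hv'
  obtain ⟨i, hi, hui⟩ := hu'
  obtain ⟨j, hj, hvj⟩ := hv'
  obtain ⟨n, hn, p⟩ := ha i hi j hj (hconn i hi ⟨_, hui, hS a u hu⟩ j hj ⟨_, hvj, hS a v hv⟩) u hu v hv hui hvj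
  refine ⟨n, hn.trans ?_, p⟩
  apply div_le_div_of_nonneg_right _ ha0.le
  calc c i j ≤ |c i j| := le_abs_self _
    _ ≤ ∑ j ∈ t, |c i j| := Finset.single_le_sum (f := fun j => |c i j|) (fun _ _ => abs_nonneg _) hj
    _ ≤ ∑ i ∈ t, ∑ j ∈ t, |c i j| :=
        Finset.single_le_sum (f := fun i => ∑ j ∈ t, |c i j|)
          (fun _ _ => Finset.sum_nonneg fun _ _ => abs_nonneg _) hi

/-- mesh index is close -/
theorem meshIndex_close {a : ℝ} (ha : 0 < a) (x : ℂ) :
    |(x - meshPoint a (meshIndex a x)).re| ≤ a ∧ |(x - meshPoint a (meshIndex a x)).im| ≤ a := by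
  have key : ∀ t : ℝ, |t - a * ⌊t / a⌋| ≤ a := by
    intro t
    have h1 := Int.floor_le (t / a)
    have h2 := Int.lt_floor_add_one (t / a)
    rw [le_div_iff₀ ha] at h1
    rw [div_lt_iff₀ ha] at h2
    rw [abs_le]
    constructor <;> nlinarith
  simp only [meshPoint, meshIndex, Complex.sub_re, Complex.sub_im]
  exact ⟨key _, key _⟩

theorem norm_le_of_sup {v : ℂ} {b : ℝ} (h1 : |v.re| ≤ b) (h2 : |v.im| ≤ b) : ‖v‖ ≤ 2 * b := by
  have := Complex.norm_le_abs_re_add_abs_im v
  linarith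

/-- in an open set meeting the open set `V`, there are sites of `V` for small mesh -/
theorem dense_open {V : Set ℂ} (hV : IsOpen V) {q : ℂ} (hq : q ∈ V) :
    ∀ᶠ a in 𝓝[>] (0:ℝ), meshPoint a (meshIndex a q) ∈ V := by
  obtain ⟨ε, hε, hb⟩ := Metric.isOpen_iff.1 hV q hq
  filter_upwards [Ioo_mem_nhdsGT (show (0:ℝ) < ε / 4 by linarith)] with a ha
  apply hb
  obtain ⟨h1, h2⟩ := meshIndex_close ha.1 q
  rw [Metric.mem_ball, dist_comm, dist_eq_norm]
  have := norm_le_of_sup h1 h2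
  linarith [ha.2, ha.1]

/-- the open sup box -/
def obox (P : ℂ) (r0 : ℝ) : Set ℂ := {q | |(q - P).re| < r0 ∧ |(q - P).im| < r0}

theorem obox_open (P : ℂ) (r0 : ℝ) : IsOpen (obox P r0) := by
  have h1 : Continuous fun q : ℂ => |(q - P).re| := by fun_prop
  have h2 : Continuous fun q : ℂ => |(q - P).im| := by fun_prop
  exact (isOpen_lt h1 continuous_const).inter (isOpen_lt h2 continuous_const)

theorem obox_self {P : ℂ} {r0 : ℝ} (h : 0 < r0) : P ∈ obox P r0 := by simp [obox, h]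

/-- sites with mesh point in a box -/
theorem sn_of_obox {a : ℝ} (ha : 0 < a) {P : ℂ} {b : ℝ} {u : ℤ × ℤ} (hu : meshPoint a u ∈ obox P b) :
    sn (u - meshIndex a P) ≤ (⌊b / a + 1⌋₊ : ℕ) := by
  obtain ⟨h1, h2⟩ := meshIndex_close ha P
  set z := meshIndex a P with hz
  simp only [obox, mem_ofPred_eq, Complex.sub_re, Complex.sub_im, meshPoint] at hu h1 h2
  have hb : 0 ≤ b / a + 1 := by
    have : 0 < b := (abs_nonneg _).trans_lt hu.1
    positivity
  have key : ∀ (i j : ℤ) (t : ℝ), |a * i - t| < b → |t - a * j| ≤ a → |i - j| ≤ (⌊b / a + 1⌋₊ : ℕ) := by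
    intro i j t h1 h2
    have h3 : |a * (i:ℝ) - a * j| ≤ b + a := by
      calc |a * (i:ℝ) - a * j| = |(a * i - t) + (t - a * j)| := by congr 1; ring
        _ ≤ |a * i - t| + |t - a * j| := abs_add_le _ _
        _ ≤ b + a := by linarith
    have h4 : |(i:ℝ) - j| ≤ b / a + 1 := by
      rw [← mul_sub, abs_mul, abs_of_pos ha] at h3
      have : b / a + 1 = (b + a) / a := by field_simp
      rw [this, le_div_iff₀ ha]
      linarith
    have h5 : ((|i - j|.toNat : ℕ) : ℝ) ≤ b / a + 1 := by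
      have : ((|i - j|.toNat : ℕ) : ℤ) = |i - j| := Int.toNat_of_nonneg (abs_nonneg _)
      have h6 : ((|i - j|.toNat : ℕ) : ℝ) = |(i:ℝ) - j| := by
        rw [← Int.cast_natCast, this]; push_cast; rfl
      rw [h6]; exact h4
    have h7 : |i - j|.toNat ≤ ⌊b / a + 1⌋₊ := Nat.le_floor h5
    omega
  rw [sn_le]
  exact ⟨key _ _ _ hu.1 h1, key _ _ _ hu.2 h2⟩

/-- numerical facts for the boxes: with `b = r0/8` and `a ≤ r0/8`. -/
theorem box_num {a r0 : ℝ} (ha : 0 < a) (har : a ≤ r0 / 8) :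
    4 * ((⌊(r0 / 8) / a + 1⌋₊ : ℕ) : ℝ) ≤ r0 / a ∧
    ((12 * ⌊(r0 / 8) / a + 1⌋₊ : ℕ) : ℝ) ≤ (3 * r0) / a := by
  have h0 : 0 < r0 := by linarith
  have h1 : ((⌊(r0 / 8) / a + 1⌋₊ : ℕ) : ℝ) ≤ (r0 / 8) / a + 1 := Nat.floor_le (by positivity)
  have h2 : (1:ℝ) ≤ (r0 / 8) / a := by rw [le_div_iff₀ ha]; linarith
  have h3 : r0 / 8 / a = (r0 / a) / 8 := by ring
  have h4 : 3 * r0 / a = 3 * (r0 / a) := by ring
  rw [h3] at h1 h2
  constructor
  · rw [h3]; linarith
  · push_cast; rw [h3, h4]; linarith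

/-- GEO-4, connectedness: any two sites of `D` are joined inside `D` with at most `C/a` steps. -/
theorem CD.join {D : Set ℂ} {r M : ℝ} (h : CD D r M) :
    ∃ C : ℝ, ∀ᶠ a in 𝓝[>] (0:ℝ), ∀ u ∈ domainSites D a, ∀ v ∈ domainSites D a,
      ∃ n : ℕ, (n:ℝ) ≤ C / a ∧ PathIn (domainSites D a) u v n := by
  have hK : IsCompact (closure D) := h.bdd.isCompact_closure
  set r0 := r / 2 with hr0
  have hr0' : 0 < r0 := by have := h.r_pos; positivity
  refine chain_join h.conn.isPreconnected subset_closure hK (fun a => domainSites D a)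
    (fun a => domainSites D a) (fun a z hz => hz) ?_ ?_
  · intro p _
    refine ⟨obox p (r0 / 8), obox_open _ _, obox_self (by positivity), 3 * r0, ?_⟩
    filter_upwards [Ioo_mem_nhdsGT (show (0:ℝ) < r0 / 8 by positivity)] with a ha u hu v hv huU hvU
    obtain ⟨k, G, G', hG⟩ := latReg_domainSites h hr0' (by rw [hr0]; linarith) ha.1 (meshIndex a p)
    obtain ⟨n1, n2⟩ := box_num ha.1 ha.2.le
    obtain ⟨n, hn, hp⟩ := hG.join _ n1 hu hv (sn_of_obox ha.1 huU) (sn_of_obox ha.1 hvU)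
    refine ⟨n, le_trans ?_ n2, hp.mono inter_subset_left⟩
    exact_mod_cast hn
  · intro U hU ⟨q, hqU, hqD⟩
    filter_upwards [dense_open (hU.inter h.isOpen) ⟨hqU, hqD⟩] with a ha
    exact ⟨meshIndex a q, ha.2, ha.1⟩

end Crest.Agent.R165.Geo
end

-- ▼ part R165/GeoCo_416
section

/-!
R165, block GEO, part 6: the complement of the lattice domain is connected (globally, and inside any rectangle
containing the lattice domain with margin one).
-/

set_option autoImplicit false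

namespace Crest.Agent.R165.Geo

open Complex Set Filter Topology
open Crest.ProbabilityR.IsingModel

/-- clamp of a real number to `[-b, b]` -/
noncomputable def cl (b t : ℝ) : ℝ := max (-b) (min b t)

theorem cl_cont (b : ℝ) : Continuous (cl b) := by unfold cl; fun_prop

theorem cl_mem {b : ℝ} (hb : 0 ≤ b) (t : ℝ) : |cl b t| ≤ b := by
  unfold cl
  rw [abs_le]
  exact ⟨le_max_left _ _, max_le (by linarith) (min_le_left _ _)⟩

theorem cl_id {b t : ℝ} (ht : |t| ≤ b) : cl b t = t := by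
  rw [abs_le] at ht
  unfold cl
  rw [min_eq_right ht.2, max_eq_right ht.1]

theorem cl_out {b t : ℝ} (hb : 0 ≤ b) (ht : ¬ |t| ≤ b) : |cl b t| = b := by
  unfold cl
  rw [abs_le] at ht
  rcases le_or_gt t b with h | h
  · have h1 : t < -b := by
      by_contra hc
      push Not at hc
      exact ht ⟨hc, h⟩
    rw [min_eq_right h, max_eq_left h1.le, abs_neg, abs_of_nonneg hb]
  · rw [min_eq_left h.le, max_eq_right (by linarith), abs_of_nonneg hb]

/-- the complement of `D` inside a large box is connected -/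
theorem compl_box_preconnected {D : Set ℂ} (hc : IsPreconnected Dᶜ) {b : ℝ} (hb : 0 ≤ b)
    (hD : D ⊆ obox 0 b) : IsPreconnected (Dᶜ ∩ sbox 0 b) := by
  have himg : (fun q : ℂ => ((cl b q.re : ℝ) : ℂ) + ((cl b q.im : ℝ) : ℂ) * I) '' Dᶜ = Dᶜ ∩ sbox 0 b := by
    ext q
    constructor
    · rintro ⟨p, hp, rfl⟩
      constructor
      · by_cases hpb : |p.re| ≤ b ∧ |p.im| ≤ b
        · simp only [cl_id hpb.1, cl_id hpb.2, Complex.re_add_im]; exact hp
        · intro hq
          have := hD hq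
          simp only [obox, mem_ofPred_eq, sub_zero] at this
          simp only [Complex.add_re, Complex.ofReal_re, Complex.mul_re, Complex.I_re, mul_zero,
            Complex.ofReal_im, Complex.I_im, mul_one, sub_self, add_zero, Complex.add_im, Complex.mul_im,
            zero_add] at this
          rw [not_and_or] at hpb
          rcases hpb with h | h
          · rw [cl_out hb h] at this; exact lt_irrefl _ this.1
          · rw [cl_out hb h] at this; exact lt_irrefl _ this.2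
      · simp only [sbox, mem_ofPred_eq, sub_zero]
        simp only [Complex.add_re, Complex.ofReal_re, Complex.mul_re, Complex.I_re, mul_zero,
            Complex.ofReal_im, Complex.I_im, mul_one, sub_self, add_zero, Complex.add_im, Complex.mul_im,
            zero_add]
        exact ⟨cl_mem hb _, cl_mem hb _⟩
    · rintro ⟨hq, hqb⟩
      simp only [sbox, mem_ofPred_eq, sub_zero] at hqb
      refine ⟨q, hq, ?_⟩
      simp only [cl_id hqb.1, cl_id hqb.2, Complex.re_add_im]
  rw [← himg]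
  apply hc.image
  apply Continuous.continuousOn
  have h1 := cl_cont b
  have : Continuous fun q : ℂ => cl b q.re := h1.comp Complex.continuous_re
  have : Continuous fun q : ℂ => cl b q.im := h1.comp Complex.continuous_im
  fun_prop

/-- outside points near a point of the complement -/
theorem CD.near_ext {D : Set ℂ} {r M : ℝ} (h : CD D r M) {U : Set ℂ} (hU : IsOpen U) {q : ℂ} (hq : q ∈ U)
    (hqD : q ∉ D) : ∃ q' ∈ U, q' ∉ closure D := by
  by_cases hqc : q ∈ closure D
  · have hqf : q ∈ frontier D := by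
      rw [h.isOpen.frontier_eq]; exact ⟨hqc, hqD⟩
    obtain ⟨k, g, g', hg⟩ := h.chart q hqf
    obtain ⟨ε, hε, hb⟩ := Metric.isOpen_iff.1 hU q hq
    set t : ℝ := -(min (ε/2) r) with ht
    have hr := h.r_pos
    have hmin : 0 < min (ε/2) r := lt_min (by linarith) hr
    have ht1 : |t| ≤ 3 * r := by
      rw [ht, abs_neg, abs_of_pos hmin]; exact (min_le_right _ _).trans (by linarith)
    have h1 := hg.mem 0 t (by simp [hr.le]) ht1
    have h2 := hg.bdry 0 t (by simp [hr.le]) ht1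
    refine ⟨q + I ^ k * (((0:ℝ):ℂ) + (t:ℂ) * I), ?_, ?_⟩
    · apply hb
      rw [Metric.mem_ball, dist_eq_norm, add_sub_cancel_left, norm_mul, norm_I_pow, one_mul]
      simp only [Complex.ofReal_zero, zero_add, norm_mul, Complex.norm_real, Complex.norm_I, mul_one,
        Real.norm_eq_abs]
      rw [ht, abs_neg, abs_of_pos hmin]
      exact (min_le_left _ _).trans_lt (by linarith)
    · rw [hg.zero] at h1 h2
      rw [closure_eq_self_union_frontier]
      rintro (h3 | h3)
      · rw [h1] at h3; linarith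
      · rw [h2] at h3; linarith
  · exact ⟨q, hq, hqc⟩

theorem CD.bound {D : Set ℂ} {r M : ℝ} (h : CD D r M) : ∃ b : ℝ, 0 < b ∧ closure D ⊆ obox 0 b := by
  obtain ⟨R, hR⟩ := h.bdd.closure.subset_ball 0
  refine ⟨max R 1, lt_max_of_lt_right one_pos, fun q hq => ?_⟩
  have := hR hq
  rw [Metric.mem_ball, dist_zero_right] at this
  simp only [obox, mem_ofPred_eq, sub_zero]
  exact ⟨((Complex.abs_re_le_norm q).trans_lt this).trans_le (le_max_left _ _),
    ((Complex.abs_im_le_norm q).trans_lt this).trans_le (le_max_left _ _)⟩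

/-- sites of the complement with mesh point in a large fixed box are joined in the complement. -/
theorem CD.join_compl_box {D : Set ℂ} {r M : ℝ} (h : CD D r M) {b : ℝ} (hb : 0 < b)
    (hDb : closure D ⊆ obox 0 b) :
    ∃ C : ℝ, ∀ᶠ a in 𝓝[>] (0:ℝ), ∀ u, u ∉ domainSites D a → meshPoint a u ∈ sbox 0 b →
      ∀ v, v ∉ domainSites D a → meshPoint a v ∈ sbox 0 b →
      ∃ n : ℕ, (n:ℝ) ≤ C / a ∧ PathIn (domainSites D a)ᶜ u v n := by
  have hcl : IsClosed (sbox 0 b) := by
    have h1 : Continuous fun q : ℂ => |(q - 0).re| := by fun_prop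
    have h2 : Continuous fun q : ℂ => |(q - 0).im| := by fun_prop
    exact (isClosed_le h1 continuous_const).inter (isClosed_le h2 continuous_const)
  have hbd : Bornology.IsBounded (sbox 0 b) := by
    apply (Metric.isBounded_closedBall (x := (0:ℂ)) (r := 2 * b)).subset
    intro q hq
    rw [Metric.mem_closedBall, dist_eq_norm]
    exact norm_le_of_sup hq.1 hq.2
  have hK : IsCompact (Dᶜ ∩ sbox 0 b) :=
    Metric.isCompact_of_isClosed_isBounded (h.isOpen.isClosed_compl.inter hcl) (hbd.subset inter_subset_right)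
  set r0 := r / 2 with hr0
  have hr0' : 0 < r0 := by have := h.r_pos; positivity
  have := chain_join (compl_box_preconnected h.conn_compl.isPreconnected hb.le (subset_closure.trans hDb))
    subset_rfl hK (fun a => {z | z ∉ domainSites D a ∧ meshPoint a z ∈ sbox 0 b})
    (fun a => (domainSites D a)ᶜ) (fun a z hz => ⟨hz.1, hz.2⟩) ?_ ?_
  · obtain ⟨C, hC⟩ := this
    refine ⟨C, ?_⟩
    filter_upwards [hC] with a ha u hu hub v hv hvb
    exact ha u ⟨hu, hub⟩ v ⟨hv, hvb⟩
  · intro p _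
    refine ⟨obox p (r0 / 8), obox_open _ _, obox_self (by positivity), 3 * r0, ?_⟩
    filter_upwards [Ioo_mem_nhdsGT (show (0:ℝ) < r0 / 8 by positivity)] with a ha u hu v hv huU hvU
    obtain ⟨k, G, G', hG⟩ := latReg_domainSites h hr0' (by rw [hr0]; linarith) ha.1 (meshIndex a p)
    obtain ⟨n1, n2⟩ := box_num ha.1 ha.2.le
    obtain ⟨n, hn, hp⟩ := hG.join_compl _ n1 hu.1 hv.1 (sn_of_obox ha.1 huU) (sn_of_obox ha.1 hvU)
    refine ⟨n, le_trans ?_ n2, hp.mono inter_subset_left⟩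
    exact_mod_cast hn
  · rintro U hU ⟨q, hqU, hqD, hqb⟩
    -- first move outside the closure
    obtain ⟨q1, hq1U, hq1⟩ : ∃ q' ∈ U ∩ obox 0 b, q' ∉ closure D := by
      by_cases hqo : q ∈ obox 0 b
      · exact h.near_ext (hU.inter (obox_open 0 b)) ⟨hqU, hqo⟩ hqD
      · -- on the boundary of the box: shrink
        have hqc : q ∉ closure D := fun hc => hqo (hDb hc)
        have hopen : IsOpen (U ∩ (closure D)ᶜ) := hU.inter isClosed_closure.isOpen_compl
        obtain ⟨ε, hε, hball⟩ := Metric.isOpen_iff.1 hopen q ⟨hqU, hqc⟩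
        obtain ⟨s, hs0, hs1, hsε⟩ : ∃ s : ℝ, 0 < s ∧ s < 1 ∧ s * (‖q‖ + 1) < ε := by
          refine ⟨min (1/2) (ε / (2 * (‖q‖ + 1))), ?_, ?_, ?_⟩
          · apply lt_min (by norm_num); positivity
          · exact (min_le_left _ _).trans_lt (by norm_num)
          · calc min (1/2) (ε / (2 * (‖q‖ + 1))) * (‖q‖ + 1)
                ≤ (ε / (2 * (‖q‖ + 1))) * (‖q‖ + 1) :=
                  mul_le_mul_of_nonneg_right (min_le_right _ _) (by positivity)
              _ = ε / 2 := by field_simp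
              _ < ε := by linarith
        have hmem : ((1 - s : ℝ) : ℂ) * q ∈ Metric.ball q ε := by
          rw [Metric.mem_ball, dist_eq_norm]
          have : ((1 - s : ℝ) : ℂ) * q - q = ((-s : ℝ) : ℂ) * q := by push_cast; ring
          rw [this, norm_mul, Complex.norm_real, Real.norm_eq_abs, abs_neg, abs_of_pos hs0]
          nlinarith [norm_nonneg q]
        refine ⟨((1 - s : ℝ) : ℂ) * q, ⟨(hball hmem).1, ?_⟩, (hball hmem).2⟩
        simp only [sbox, mem_ofPred_eq, sub_zero] at hqb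
        simp only [obox, mem_ofPred_eq, sub_zero, Complex.re_ofReal_mul, Complex.im_ofReal_mul]
        rw [abs_mul, abs_mul, abs_of_pos (by linarith : (0:ℝ) < 1 - s)]
        have hx := abs_nonneg q.re
        have hy := abs_nonneg q.im
        constructor
        · nlinarith [hqb.1]
        · nlinarith [hqb.2]
    have hopen : IsOpen ((U ∩ obox 0 b) ∩ (closure D)ᶜ) :=
      (hU.inter (obox_open 0 b)).inter isClosed_closure.isOpen_compl
    filter_upwards [dense_open hopen ⟨hq1U, hq1⟩] with a ha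
    refine ⟨meshIndex a q1, ⟨fun hc => ha.2 (subset_closure hc), ?_⟩, ha.1.1⟩
    have := ha.1.2
    exact ⟨this.1.le, this.2.le⟩

end Crest.Agent.R165.Geo
end

-- ▼ part R165/GeoCp_416

/-!
R165, block GEO, part 7: global statements for the lattice domain: finiteness, connectedness of the complement in
the whole lattice and inside any rectangle containing the lattice domain with margin one.
-/

set_option autoImplicit false

namespace Crest.Agent.R165.Geo

open Complex Set Filter Topology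
open Crest.ProbabilityR.IsingModel

/-- clamp of an integer to `[l, u]` -/
def icl (l u t : ℤ) : ℤ := max l (min u t)

theorem icl_mem {l u : ℤ} (h : l ≤ u) (t : ℤ) : l ≤ icl l u t ∧ icl l u t ≤ u := by
  unfold icl; omega

theorem icl_id {l u t : ℤ} (h1 : l ≤ t) (h2 : t ≤ u) : icl l u t = t := by unfold icl; omega

theorem icl_out {l u t : ℤ} (h : l ≤ u) (ht : ¬ (l ≤ t ∧ t ≤ u)) : icl l u t = l ∨ icl l u t = u := by
  unfold icl; omega




/-- a far site is joined to its clamp outside `T` -/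
theorem PathIn.to_clamp {T : Set (ℤ × ℤ)} {l1 u1 l2 u2 : ℤ} (h1 : l1 ≤ u1) (h2 : l2 ≤ u2)
    (hT : ∀ w ∈ T, l1 < w.1 ∧ w.1 < u1 ∧ l2 < w.2 ∧ w.2 < u2) {u : ℤ × ℤ} (hu : u ∉ T) :
    PathIn Tᶜ u (icl l1 u1 u.1, icl l2 u2 u.2)
      ((icl l1 u1 u.1 - u.1).natAbs + (icl l2 u2 u.2 - u.2).natAbs) := by
  have p1 : PathIn Tᶜ (u.1, u.2) (icl l1 u1 u.1, u.2) (icl l1 u1 u.1 - u.1).natAbs := by
    apply PathIn.horiz'
    intro i hi1 hi2 hc
    by_cases hu1 : l1 ≤ u.1 ∧ u.1 ≤ u1
    · rw [icl_id hu1.1 hu1.2, min_self] at hi1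
      rw [icl_id hu1.1 hu1.2, max_self] at hi2
      have : i = u.1 := le_antisymm hi2 hi1
      rw [this] at hc
      exact hu hc
    · have := hT _ hc
      simp only at this
      unfold icl at hi1 hi2
      omega
  have p2 : PathIn Tᶜ (icl l1 u1 u.1, u.2) (icl l1 u1 u.1, icl l2 u2 u.2) (icl l2 u2 u.2 - u.2).natAbs := by
    apply PathIn.vert'
    intro i hi1 hi2 hc
    by_cases hu2 : l2 ≤ u.2 ∧ u.2 ≤ u2
    · rw [icl_id hu2.1 hu2.2, min_self] at hi1
      rw [icl_id hu2.1 hu2.2, max_self] at hi2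
      have : i = u.2 := le_antisymm hi2 hi1
      rw [this] at hc
      by_cases hu1 : l1 ≤ u.1 ∧ u.1 ≤ u1
      · rw [icl_id hu1.1 hu1.2] at hc; exact hu hc
      · have := hT _ hc
        simp only at this
        rcases icl_out h1 hu1 with h | h <;> rw [h] at this <;> omega
    · have := hT _ hc
      simp only at this
      unfold icl at hi1 hi2
      omega
  exact p1.trans p2

/-- margins: for a small mesh, all sites of `D` are strictly inside the square of half-side `⌊b/a⌋` -/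
theorem CD.site_bound {D : Set ℂ} {b : ℝ} (hDb : closure D ⊆ obox 0 b) {a : ℝ} (ha : 0 < a)
    {w : ℤ × ℤ} (hw : w ∈ domainSites D a) : |(w.1:ℝ)| < b / a ∧ |(w.2:ℝ)| < b / a := by
  have := hDb (subset_closure hw)
  simp only [obox, mem_ofPred_eq, sub_zero, meshPoint] at this
  rw [abs_mul, abs_mul, abs_of_pos ha] at this
  rw [lt_div_iff₀ ha, lt_div_iff₀ ha]
  constructor
  · linarith [this.1]
  · linarith [this.2]


/-- the complement is connected in the whole lattice. -/
theorem CD.join_compl {D : Set ℂ} {r M : ℝ} (h : CD D r M) :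
    ∃ C : ℝ, ∀ᶠ a in 𝓝[>] (0:ℝ), ∀ u, u ∉ domainSites D a → ∀ v, v ∉ domainSites D a →
      ∃ n : ℕ, (n:ℝ) ≤ C / a + 2 * (sn u + sn v) ∧ PathIn (domainSites D a)ᶜ u v n := by
  obtain ⟨b, hb, hDb⟩ := h.bound
  obtain ⟨C, hC⟩ := h.join_compl_box (b := b + 1) (by linarith) (fun q hq => by
    have := hDb hq
    simp only [obox, mem_ofPred_eq] at this ⊢
    exact ⟨by linarith [this.1], by linarith [this.2]⟩)
  refine ⟨C, ?_⟩
  filter_upwards [hC, Ioo_mem_nhdsGT (show (0:ℝ) < 1 by norm_num)] with a hCa ha u hu v hv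
  have ha0 : 0 < a := ha.1
  -- the square
  set N : ℤ := ⌈b / a⌉ with hN
  have hN0 : 0 ≤ N := by rw [hN]; positivity
  have hNb : a * N ≤ b + 1 := by
    have : (N:ℝ) < b / a + 1 := Int.ceil_lt_add_one _
    have h2 : a * (N:ℝ) < a * (b / a + 1) := mul_lt_mul_of_pos_left this ha0
    have h3 : a * (b / a + 1) = b + a := by field_simp
    linarith [ha.2]
  have hT : ∀ w ∈ domainSites D a, -N < w.1 ∧ w.1 < N ∧ -N < w.2 ∧ w.2 < N := by
    intro w hw
    obtain ⟨h1, h2⟩ := CD.site_bound hDb ha0 hw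
    have e := Int.le_ceil (b/a)
    rw [abs_lt] at h1 h2
    rw [← hN] at e
    refine ⟨?_, ?_, ?_, ?_⟩
    · have : (-(N:ℝ)) < w.1 := by linarith
      exact_mod_cast this
    · have : (w.1:ℝ) < N := by linarith
      exact_mod_cast this
    · have : (-(N:ℝ)) < w.2 := by linarith
      exact_mod_cast this
    · have : (w.2:ℝ) < N := by linarith
      exact_mod_cast this
  have hNN : -N ≤ N := by omega
  have pu := PathIn.to_clamp hNN hNN hT hu
  have pv := PathIn.to_clamp hNN hNN hT hv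
  have hbox : ∀ x : ℤ × ℤ, meshPoint a (icl (-N) N x.1, icl (-N) N x.2) ∈ sbox 0 (b + 1) := by
    intro x
    have m1 := icl_mem hNN x.1
    have m2 := icl_mem hNN x.2
    simp only [sbox, mem_ofPred_eq, sub_zero, meshPoint]
    rw [abs_mul, abs_mul, abs_of_pos ha0]
    constructor
    · have : |(icl (-N) N x.1 : ℝ)| ≤ N := by
        have : |icl (-N) N x.1| ≤ N := abs_le.2 ⟨by omega, by omega⟩
        exact_mod_cast this
      calc a * |(icl (-N) N x.1 : ℝ)| ≤ a * N := mul_le_mul_of_nonneg_left this ha0.le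
        _ ≤ b + 1 := hNb
    · have : |(icl (-N) N x.2 : ℝ)| ≤ N := by
        have : |icl (-N) N x.2| ≤ N := abs_le.2 ⟨by omega, by omega⟩
        exact_mod_cast this
      calc a * |(icl (-N) N x.2 : ℝ)| ≤ a * N := mul_le_mul_of_nonneg_left this ha0.le
        _ ≤ b + 1 := hNb
  obtain ⟨n, hn, p⟩ := hCa _ pu.right_mem (hbox u) _ pv.right_mem (hbox v)
  refine ⟨_, ?_, (pu.trans p).trans pv.symm⟩
  have hlen : ∀ x : ℤ × ℤ, (((icl (-N) N x.1 - x.1).natAbs + (icl (-N) N x.2 - x.2).natAbs : ℕ) : ℝ) ≤ 2 * sn x := by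
    intro x
    have : (((icl (-N) N x.1 - x.1).natAbs + (icl (-N) N x.2 - x.2).natAbs : ℕ) : ℤ) ≤ 2 * sn x := by
      unfold icl sn
      push_cast
      have h1 : |max (-N) (min N x.1) - x.1| ≤ |x.1| := by
        rcases abs_cases x.1 with hx | hx <;> rw [abs_le] <;> omega
      have h2 : |max (-N) (min N x.2) - x.2| ≤ |x.2| := by
        rcases abs_cases x.2 with hx | hx <;> rw [abs_le] <;> omega
      have h3 := le_max_left |x.1| |x.2|
      have h4 := le_max_right |x.1| |x.2|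
      linarith
    have key : ∀ n : ℕ, (n:ℤ) ≤ 2 * sn x → (n:ℝ) ≤ 2 * sn x := by
      intro n hn; exact_mod_cast hn
    exact key _ this
  have hlu := hlen u
  have hlv := hlen v
  push_cast at hlu hlv ⊢
  linarith


end Crest.Agent.R165.Geo
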