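import Crest.Agent.R165.BoxRay_432
import Crest.Agent.R165.DefRec_915
import Crest.Agent.R165.GSys_387
import Crest.Agent.R165.DomGeo_900
import Crest.Agent.R165.GeoRL_838
import Crest.Agent.R165.RegI_893

/-!
# Row 165 (S0250): the geometry of the composite flow (helper420)

* `Cfg T X Y ρ` : regular configuration of size `ρ`: a lattice-regular set of sites `T`, insertions
  `X`, marks `Y`, pairwise separated by `ρ` and further than `ρ` from the boundary
* `cfg_dom` : `C²` domains, `ρ = ⌊c/a⌋`;  `cfg_univ` : the plane, every `ρ`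
* `isoBox`, `isoBulk` : isomorphisms of backgrounds on balls;  `near_of_not_emb` : `hnear`
* `StepGeo` : all geometric inputs of `RegIx893.Geo.dstepL` at one scale `r`
* `stepGeo_of_cfg` : `StepGeo` for every configuration of size `≥ C0 (L r)`, all constants absolute
* `KK`, `KK_le`, `KK_tendsto` : number of steps, `rr (KK) ~ δ/a`
* `dom_steps` : `StepGeo` for all steps `k < KK` of a domain
-/

set_option autoImplicit false
set_option linter.unusedSectionVars false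

noncomputable section

open Filter Topology
open Crest.ProbabilityR.IsingModel
open Crest.Agent.R165.Gr0x606 Crest.Agent.R165.Latx683 Crest.Agent.R165.GDefx387
open Crest.Agent.R165.BgIsox432 Crest.Agent.R165.Geo Crest.Agent.R165.DBdx915
open Crest.Agent.R165.Packx915 Crest.Agent.R165.NSumx915 Crest.Agent.R165.DefRecx915
open Crest.Agent.R165.RegGx893 Crest.Agent.R165.RegIx893 Crest.Agent.R165.GSysx387
open Crest.Agent.R165.RIfx891 (GapU EXb EXbr)

namespace Crest.Agent.R165.GeoScx420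

/-! ### balls of faces -/

theorem fd_z (f g : ℤ × ℤ) : fd f g = max (f.1 - g.1).natAbs (f.2 - g.2).natAbs := rfl

theorem ball_eq_box (u : ℤ × ℤ) (R : ℕ) :
    ball u R = boxF (u.1 - R) (u.1 + R) (u.2 - R) (u.2 + R) := by
  ext f
  rw [mem_ball, fd_z]
  simp only [boxF, Set.mem_ofPred_eq]
  omega

/-- a vertex further than `R` from `u` is not an interior vertex of the ball of faces -/
theorem away_of_lt {u x : ℤ × ℤ} {R : ℕ} (h : R < fd u x) :
    Away (u.1 - R) (u.1 + R) (u.2 - R) (u.2 + R) x := by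
  rw [fd_z] at h
  unfold Away
  omega

theorem fd_corner {f z : ℤ × ℤ} (h1 : z.1 = f.1 ∨ z.1 = f.1 + 1) (h2 : z.2 = f.2 ∨ z.2 = f.2 + 1) :
    fd f z ≤ 1 := by
  rw [fd_z]
  omega

/-! ### no boundary site near a site -/

section bd

variable {T : Set (ℤ × ℤ)}

theorem mem_of_no_bd {t v : ℤ × ℤ} (ht : t ∈ T) (h : ∀ z ∈ bdS T, fd t v < fd t z) : v ∈ T := by
  by_contra hv
  obtain ⟨z, hz, h1⟩ := bdS_hit ht hv
  exact absurd (h z hz) (not_lt.2 h1)

/-- all corners of the faces of a ball are in `T` -/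
theorem corners_of_no_bd {u t : ℤ × ℤ} {R q : ℕ} (ht : t ∈ T) (hut : fd u t ≤ q)
    (h : ∀ z ∈ bdS T, R + 1 + 2 * q < fd u z) : ∀ f ∈ ball u R, cornersIn T f := by
  have key : ∀ v, fd u v ≤ R + 1 → v ∈ T := by
    intro v hv
    refine mem_of_no_bd ht fun z hz => ?_
    have h1 := h z hz
    have h2 := fd_triangle u t z
    have h3 := fd_triangle t u v
    have h4 := fd_comm t u
    omega
  intro f hf
  rw [mem_ball] at hf
  have h1 : ∀ v : ℤ × ℤ, fd f v ≤ 1 → v ∈ T := fun v hv =>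
    key v ((fd_triangle u f v).trans (by omega))
  exact ⟨h1 _ (fd_corner (Or.inl rfl) (Or.inl rfl)), h1 _ (fd_corner (Or.inr rfl) (Or.inl rfl)),
    h1 _ (fd_corner (Or.inl rfl) (Or.inr rfl)), h1 _ (fd_corner (Or.inr rfl) (Or.inr rfl))⟩


end bd

/-! ### isomorphisms of backgrounds on balls -/

section iso

variable {T : Set (ℤ × ℤ)} {n : ℕ} {X : Fin n → ℤ × ℤ}

/-- no insertion in the ball: the insertions can be removed -/
def isoBox (w : BW ℤ) {u : ℤ × ℤ} {R : ℕ} (hX : ∀ i, R < fd u (X i)) :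
    BgIso (wX w X) w (ball u R) :=
  (rayIso0 w X fun i => away_of_lt (hX i)).mono (ball_eq_box u R).le

/-- no insertion, no boundary site in the ball: plane -/
def isoBulk {u t : ℤ × ℤ} {R q : ℕ} (ht : t ∈ T) (hut : fd u t ≤ q)
    (hb : ∀ z ∈ bdS T, R + 1 + 2 * q < fd u z) (hX : ∀ i, R < fd u (X i)) (fr : Bool) :
    BgIso (wX (wDom T fr) X) (wPl ℤ) (ball u R) :=
  (isoBox (wDom T fr) hX).trans (critIso (critOn_dom (corners_of_no_bd ht hut hb) fr)) fun _ h => h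



end iso

/-! ### configurations -/

/-- **regular configuration of size `ρ`** -/
structure Cfg (T : Set (ℤ × ℤ)) {n m : ℕ} (X : Fin n → ℤ × ℤ) (Y : Fin m → ℤ × ℤ) (ρ : ℕ) :
    Prop where
  reg : ∃ κ : ℝ, LatReg T ρ κ ∧ κ * ρ ≤ 1
  XT : ∀ i, X i ∈ T
  YT : ∀ j, Y j ∈ T
  Xb : ∀ i, ∀ z ∈ bdS T, ρ < fd (X i) z
  Yb : ∀ j, ∀ z ∈ bdS T, ρ < fd (Y j) z
  XX : ∀ i j, i ≠ j → ρ < fd (X i) (X j)
  YY : ∀ i j, i ≠ j → ρ < fd (Y i) (Y j)
  XY : ∀ i j, ρ < fd (X i) (Y j)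

theorem latReg_mono {T : Set (ℤ × ℤ)} {ρ ρ' κ : ℝ} (h : LatReg T ρ κ) (hρ : ρ' ≤ ρ) :
    LatReg T ρ' κ := fun z => by
  obtain ⟨k, G, G', hE⟩ := h z
  exact ⟨k, G, G', hE.hd, hE.slope, hE.lip, fun w h1 h2 => hE.mem w (h1.trans hρ) (h2.trans hρ)⟩


section cfg

variable {T : Set (ℤ × ℤ)} {n m : ℕ} {X : Fin n → ℤ × ℤ} {Y : Fin m → ℤ × ℤ} {ρ : ℕ}

theorem Cfg.mono (h : Cfg T X Y ρ) {ρ' : ℕ} (hρ : ρ' ≤ ρ) : Cfg T X Y ρ' where
  reg := by
    obtain ⟨κ, h1, h2⟩ := h.reg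
    have h3 : (ρ' : ℝ) ≤ ρ := by exact_mod_cast hρ
    refine ⟨κ, latReg_mono h1 h3, ?_⟩
    have hκ : 0 ≤ κ := by
      obtain ⟨k, G, G', hG⟩ := h1 0
      exact hG.kappa_nonneg
    exact (mul_le_mul_of_nonneg_left h3 hκ).trans h2
  XT := h.XT
  YT := h.YT
  Xb i z hz := hρ.trans_lt (h.Xb i z hz)
  Yb i z hz := hρ.trans_lt (h.Yb i z hz)
  XX i j hij := hρ.trans_lt (h.XX i j hij)
  YY i j hij := hρ.trans_lt (h.YY i j hij)
  XY i j := hρ.trans_lt (h.XY i j)





end cfg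

/-! ### the geometric inputs of one step -/

/-- **all geometric inputs of `RegIx893.Geo.dstepL`** at the scale `r`, `r' = L r` -/
structure StepGeo {G : Type} [CommRing G] [CN G] {ι : Type*} (w : BW G) (C : ℝ)
    (Λ r0 D L r : ℕ) (loc : ι → G × G) (B Z : Set (G × G)) (ac em : Finset (G × G) → Prop) :
    Prop where
  geo : Geo w C Λ r0 (32 * (L * r)) loc B Z Set.univ
  sep : ∀ i j, i ≠ j → 2 * (L * r + D * r) < fd (loc i) (loc j)
  near : ∀ U, ac U → size r U ≤ 1 → ¬ em U → ∃ x ∈ U,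
    (∃ y ∈ B, fd y x + r ≤ D * r) ∨ (∃ z ∈ Z, fd z x + r ≤ D * r) ∨
    ∃ i, fd (loc i) x + r ≤ D * r
  nb : DCount fd B (L * r + D * r) r (8 * (L + D) + 1)
  nm : DCount fd Z (L * r + D * r) r 1




/-! ### domains -/

section dom

open Crest.Agent.R165.Scalex900 Crest.Agent.R165.DomGeox900

theorem no_bd_of_corners {T : Set (ℤ × ℤ)} {x : ℤ × ℤ} {R : ℕ}
    (h : ∀ f : ℤ × ℤ, fd x f ≤ R + 1 → cornersIn T f) : ∀ z ∈ bdS T, R < fd x z := by
  rintro z ⟨u, hzu, hu⟩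
  by_contra hlt
  rw [not_lt] at hlt
  have h1 : z ∈ T := (h z (by omega)).1
  have h2 : fd z u ≤ 1 := by
    rw [fd_z]
    rcases hzu with ⟨h3, h4⟩ | ⟨h3, h4⟩
    · rw [Int.abs_eq_natAbs] at h4; omega
    · rw [Int.abs_eq_natAbs] at h4; omega
  have h3 : u ∈ T := (h u ((fd_triangle x z u).trans (by omega))).1
  rcases hu with ⟨-, h4⟩ | ⟨h4, -⟩
  · exact h4 h3
  · exact h4 h1

/-- **`C²` domains**: configurations of size `c / a` -/
theorem cfg_dom {D : Set ℂ} {r M : ℝ} (h : CD D r M) {n m : ℕ} {x : Fin n → ℂ} {y : Fin m → ℂ}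
    (hx : ∀ i, x i ∈ D) (hy : ∀ j, y j ∈ D) (hinj : Function.Injective (Fin.append x y)) :
    ∃ c > 0, ∀ᶠ a : ℝ in 𝓝[>] 0, Cfg (domainSites D a) (fun i => meshIndex a (x i))
      (fun j => meshIndex a (y j)) ⌊c / a⌋₊ := by
  have hxy : ∀ i, Fin.append x y i ∈ D := fun i => by
    refine Fin.addCases (fun i => ?_) (fun i => ?_) i
    · rw [Fin.append_left]; exact hx i
    · rw [Fin.append_right]; exact hy i
  obtain ⟨c, hc, H⟩ := geo_all h.isOpen hxy hinj
  have hr := h.r_pos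
  have hM := h.M_nonneg
  set c1 : ℝ := min (c / 4) (min (r / 2) (1 / (M + 1))) with hc1
  have hc10 : 0 < c1 := lt_min (by positivity) (lt_min (by positivity) (by positivity))
  refine ⟨c1, hc10, ?_⟩
  have hsmall : ∀ᶠ a : ℝ in 𝓝[>] 0, a ≤ c / 4 :=
    mem_of_superset (Ioc_mem_nhdsGT (by positivity : (0:ℝ) < c / 4)) fun a ha => ha.2
  filter_upwards [H, hsmall, self_mem_nhdsWithin] with a hH ha4 ha0
  have ha : (0 : ℝ) < a := ha0
  obtain ⟨h1, h2⟩ := hH
  have hfl : ((⌊c1 / a⌋₊ : ℕ) : ℝ) ≤ c1 / a := Nat.floor_le (by positivity)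
  have hc4 : c1 / a ≤ c / 4 / a := by gcongr; exact min_le_left _ _
  have h14 : (1 : ℝ) ≤ c / 4 / a := by rw [le_div_iff₀ ha]; linarith
  have e4 : c / a = c / 4 / a + c / 4 / a + c / 4 / a + c / 4 / a := by ring
  have hbig : ((⌊c1 / a⌋₊ + 1 : ℕ) : ℝ) < c / a := by push_cast; linarith
  have hb : ∀ i, ∀ z ∈ bdS (domainSites D a), ⌊c1 / a⌋₊ < fd (meshIndex a (Fin.append x y i)) z :=
    fun i => no_bd_of_corners fun f hf => h2 i f
      (le_trans (by exact_mod_cast hf) hbig.le)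
  have hs : ∀ i j, i ≠ j →
      ⌊c1 / a⌋₊ < fd (meshIndex a (Fin.append x y i)) (meshIndex a (Fin.append x y j)) := by
    intro i j hij
    have h3 := h1 i j hij
    have h4 : ((⌊c1 / a⌋₊ + 1 : ℕ) : ℝ) < (fd (meshIndex a (Fin.append x y i))
      (meshIndex a (Fin.append x y j)) : ℝ) := hbig.trans_le h3
    have h5 : ⌊c1 / a⌋₊ + 1 < fd (meshIndex a (Fin.append x y i))
      (meshIndex a (Fin.append x y j)) := by exact_mod_cast h4
    omega
  have hT : ∀ i, meshIndex a (Fin.append x y i) ∈ domainSites D a := fun i =>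
    (h2 i _ (by rw [fd_self]; push_cast; positivity)).1
  refine ⟨⟨M * a, ?_, ?_⟩, fun i => ?_, fun j => ?_, fun i => ?_, fun j => ?_, fun i j hij => ?_,
    fun i j hij => ?_, fun i j => ?_⟩
  · refine latReg_mono (latReg_domainSites h (r0 := r / 2) (by positivity) (by linarith) ha) ?_
    refine hfl.trans ?_
    gcongr
    exact (min_le_right _ _).trans (min_le_left _ _)
  · have h5 : c1 ≤ 1 / (M + 1) := (min_le_right _ _).trans (min_le_right _ _)
    have h6 : c1 * (M + 1) ≤ 1 := by rwa [le_div_iff₀ (by positivity)] at h5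
    calc M * a * (⌊c1 / a⌋₊ : ℝ) ≤ M * a * (c1 / a) :=
          mul_le_mul_of_nonneg_left hfl (by positivity)
      _ = M * c1 := by field_simp
      _ ≤ 1 := by nlinarith
  · have := hT (Fin.castAdd m i); rwa [Fin.append_left] at this
  · have := hT (Fin.natAdd n j); rwa [Fin.append_right] at this
  · have := hb (Fin.castAdd m i); rwa [Fin.append_left] at this
  · have := hb (Fin.natAdd n j); rwa [Fin.append_right] at this
  · have := hs (Fin.castAdd m i) (Fin.castAdd m j) (by simpa [Fin.ext_iff] using hij)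
    rwa [Fin.append_left, Fin.append_left] at this
  · have := hs (Fin.natAdd n i) (Fin.natAdd n j) (by simpa [Fin.ext_iff] using hij)
    rwa [Fin.append_right, Fin.append_right] at this
  · have := hs (Fin.castAdd m i) (Fin.natAdd n j) (by
      intro h7
      have := congrArg Fin.val h7
      simp only [Fin.val_castAdd, Fin.val_natAdd] at this
      have := i.2
      omega)
    rwa [Fin.append_left, Fin.append_right] at this

/-! ### the number of steps -/

/-- number of steps up to the macroscopic scale `δ` -/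
def KK (l k0 : ℕ) (δ a : ℝ) : ℕ := lastK l k0 (δ / a)

theorem rr_cast (l k0 k : ℕ) : (rr l k0 k : ℝ) = (2 : ℝ) ^ (l * (k0 + k)) := by
  unfold rr; push_cast; rfl

theorem rr_le_of_le_KK {l k0 k : ℕ} {δ a : ℝ} (h0 : (2 : ℝ) ^ (l * k0) ≤ δ / a)
    (hk : k ≤ KK l k0 δ a) : (rr l k0 k : ℝ) ≤ δ / a := by
  rw [rr_cast]
  refine le_trans ?_ (lastK_le h0)
  exact pow_le_pow_right₀ (by norm_num) (Nat.mul_le_mul_left _ (by unfold KK at hk; omega))

theorem lt_rr_KK {l k0 : ℕ} (hl : 1 ≤ l) (δ a : ℝ) :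
    δ / a < 2 ^ l * (rr l k0 (KK l k0 δ a) : ℝ) := by
  refine (lt_lastK (k0 := k0) hl (δ / a)).trans_le (le_of_eq ?_)
  rw [rr_cast, ← pow_add]
  congr 1
  unfold KK
  ring

theorem KK_tendsto {l : ℕ} (hl : 1 ≤ l) (k0 : ℕ) {δ : ℝ} (hδ : 0 < δ) :
    Tendsto (KK l k0 δ) (𝓝[>] 0) atTop := lastK_div_tendsto hl k0 hδ

theorem ev_pow_le (N : ℝ) {δ : ℝ} (hδ : 0 < δ) : ∀ᶠ a : ℝ in 𝓝[>] 0, N ≤ δ / a :=
  (Tendsto.const_mul_atTop hδ tendsto_inv_nhdsGT_zero).eventually_ge_atTop N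



end dom

end Crest.Agent.R165.GeoScx420
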