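import Crest.Agent.R165.Tr1_40
import Crest.Agent.R165.L2_887
import Crest.Agent.R165.Sq3_54
import Crest.Agent.R165.SqK_470
import Crest.Agent.R165.Lat_683
import Crest.Agent.R165.GDef_387

-- ▼ part R165/FrA_441
section

/-!
# Row 165 (S0250): FREE-GLOBAL, part A (helper441)

Starred (dual) fields of a background with weights of size `u` (`0 < u`), and signs `s` on the
horizontal bonds (`s v` = sign of the bond `(v, v + e₁)`), *spin insertions allowed*.

Nodes = primal vertices `v`, half-edges of a node `0,1,2,3 = S,E,N,W` as for faces.  The four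
faces around `v` are `v` (NE), `v - e₁` (NW), `v - e₁ - e₂` (SW), `v - e₂` (SE).

* `wf s u`     : the signed weights
* `fs s u φ`   : the starred field
* `ws s u`     : the starred weights (plus type when `u ∈ {x_c, 1}`)
* `star_A`     : `A (ws) (fs φ) = T₀ (A (wf) φ) + (insertion term at the nodes with s v ≠ s (v - e₁))`
* `star_m`     : the constraint at an insertion
-/

set_option autoImplicit false

noncomputable section

namespace Crest.Agent.R165.FrAx441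

open Finset
open Crest.Agent.R165.Tr1x40

/-- the signed weights: sizes `u`, signs `s` on the horizontal bonds -/
def wf (s : Face → ℝ) (u : Fld) : Fld := fun f h =>
  match h with
  | 0 => s f * u f 0
  | 1 => u f 1
  | 2 => s (f.1, f.2 + 1) * u f 2
  | 3 => u f 3

/-- dual weight -/
def du (y : ℝ) : ℝ := (1 - y) / (1 + y)

/-- the starred field -/
def fs (s : Face → ℝ) (u φ : Fld) : Fld := fun v h =>
  match h with
  | 0 => -((1 + u (v.1, v.2 - 1) 3) / 2) * (s v * (φ (v.1 - 1, v.2 - 1) 1 + φ (v.1, v.2 - 1) 3))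
  | 1 => ((1 + u v 0) / 2) * (φ v 0 - s v * φ (v.1, v.2 - 1) 2)
  | 2 => -((1 + u v 3) / 2) * (φ v 3 - φ (v.1 - 1, v.2) 1)
  | 3 => ((1 + u (v.1 - 1, v.2) 0) / 2) *
      (s (v.1 - 1, v.2) * φ (v.1 - 1, v.2 - 1) 2 + φ (v.1 - 1, v.2) 0)

/-- the starred weights -/
def ws (s : Face → ℝ) (u : Fld) : Fld := fun v h =>
  match h with
  | 0 => s v * du (u (v.1, v.2 - 1) 3)
  | 1 => du (u v 0)
  | 2 => s (v.1, v.2 + 1) * du (u v 3)
  | 3 => du (u (v.1 - 1, v.2) 0)


theorem sym_ws (s : Face → ℝ) (u : Fld) : Sym (ws s u) := by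
  intro f h
  fin_cases h
  · simp [ws, nb, op]
  · simp [ws, nb, op]
  · simp [ws, nb, op]
  · simp [ws, nb, op]

/-- corner mismatches around a node, in the gauge of the node; `g = A φ` -/
def r1 (g : Fld) (v : Face) : ℝ := g v 0 + g v 3
def r2 (g : Fld) (v : Face) : ℝ := g (v.1 - 1, v.2) 0 - g (v.1 - 1, v.2) 1
def r3 (g : Fld) (v : Face) : ℝ := g (v.1 - 1, v.2 - 1) 1 - g (v.1 - 1, v.2 - 1) 2
def r4 (g : Fld) (v : Face) : ℝ := g (v.1, v.2 - 1) 2 - g (v.1, v.2 - 1) 3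

/-- corner value at `(v, SW)` read on the west bond minus the one read on the south bond, halved -/
def am (s : Face → ℝ) (u φ : Fld) (v : Face) : ℝ :=
  ((φ (v.1 - 1, v.2 - 1) 2 + wf s u (v.1 - 1, v.2 - 1) 2 * φ (v.1 - 1, v.2) 0)
    - (φ (v.1 - 1, v.2 - 1) 1 + wf s u (v.1 - 1, v.2 - 1) 1 * φ (v.1, v.2 - 1) 3)) / 2

/-- assembling four mismatches into a source at a node -/
def asm (a b c d : ℝ) (h : Fin 4) : ℝ :=
  match h with
  | 0 => (-d - a + b + c) / 2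
  | 1 => (d - a + b + c) / 2
  | 2 => (d + a + b + c) / 2
  | 3 => (d + a - b + c) / 2

/-- **starred equation**, insertions allowed: `σ = s v`, `τ = s (v - e₁)` -/
theorem star_A (s : Face → ℝ) (u φ : Fld) (hu : Sym u) (hs : ∀ v, s v ^ 2 = 1)
    (hpos : ∀ f h, 0 < u f h) (v : Face) (h : Fin 4) :
    A (ws s u) (fs s u φ) v h
      = asm (r1 (A (wf s u) φ) v) (r2 (A (wf s u) φ) v)
          ((s (v.1 - 1, v.2) + s v) / 2 * r3 (A (wf s u) φ) v
            + (s (v.1 - 1, v.2) - s v) * am s u φ v)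
          (s v * r4 (A (wf s u) φ) v) h := by
  obtain ⟨i, j⟩ := v
  have a1 := hpos (i, j - 1) 3
  have a2 := hpos (i, j) 0
  have a3 := hpos (i, j) 3
  have a4 := hpos (i - 1, j) 0
  have b1 : u (i, j - 1) 2 = u (i, j) 0 := by
    have := hu (i, j) 0; simpa [nb, op] using this
  have b2 : u (i - 1, j) 1 = u (i, j) 3 := by
    have := hu (i, j) 3; simpa [nb, op] using this
  have b3 : u (i - 1, j - 1) 1 = u (i, j - 1) 3 := by
    have := hu (i, j - 1) 3; simpa [nb, op] using this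
  have b4 : u (i - 1, j - 1) 2 = u (i - 1, j) 0 := by
    have := hu (i - 1, j) 0; simpa [nb, op] using this
  have c1 := sq_eq_one_iff.1 (hs (i, j))
  have c2 := sq_eq_one_iff.1 (hs (i - 1, j))
  have c3 := sq_eq_one_iff.1 (hs (i, j + 1))
  have d1 : (1 + u (i, j - 1) 3) ≠ 0 := by positivity
  have d2 : (1 + u (i, j) 0) ≠ 0 := by positivity
  have d3 : (1 + u (i, j) 3) ≠ 0 := by positivity
  have d4 : (1 + u (i - 1, j) 0) ≠ 0 := by positivity
  fin_cases h
  all_goals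
    simp only [A_S, A_E, A_N, A_W, asm, r1, r2, r3, r4, am, ws, fs, wf, du, Fin.zero_eta,
      Fin.mk_one, Fin.reduceFinMk, b1, b2, b3, b4, sub_add_cancel, add_sub_cancel_right]
    rcases c1 with c1 | c1 <;> rcases c2 with c2 | c2 <;> rcases c3 with c3 | c3 <;>
      simp only [c1, c2, c3] <;> field_simp <;> ring

/-- total charge of a node -/
def tot (ψ : Fld) (v : Face) : ℝ := ψ v 0 + ψ v 1 + ψ v 2 + ψ v 3

/-- **constraint** at an insertion (`s (v - e₁) = - s v`) -/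
theorem star_m (s : Face → ℝ) (u φ : Fld) (hu : Sym u) (hs : ∀ v, s v ^ 2 = 1)
    (v : Face) (hv : s (v.1 - 1, v.2) = -s v) :
    tot (fs s u φ) v
      = (-(s v) * r3 (A (wf s u) φ) v - s v * r4 (A (wf s u) φ) v
          - r1 (A (wf s u) φ) v + r2 (A (wf s u) φ) v) / 2 := by
  obtain ⟨i, j⟩ := v
  have b1 : u (i, j - 1) 2 = u (i, j) 0 := by
    have := hu (i, j) 0; simpa [nb, op] using this
  have b2 : u (i - 1, j) 1 = u (i, j) 3 := by
    have := hu (i, j) 3; simpa [nb, op] using this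
  have b3 : u (i - 1, j - 1) 1 = u (i, j - 1) 3 := by
    have := hu (i, j - 1) 3; simpa [nb, op] using this
  have b4 : u (i - 1, j - 1) 2 = u (i - 1, j) 0 := by
    have := hu (i - 1, j) 0; simpa [nb, op] using this
  have c1 := sq_eq_one_iff.1 (hs (i, j))
  have hv' : s (i - 1, j) = -s (i, j) := hv
  simp only [tot, A_S, A_E, A_N, A_W, r1, r2, r3, r4, fs, wf, b1, b2, b3, b4, sub_add_cancel, hv']
  rcases c1 with c1 | c1 <;> simp only [c1] <;> ring

/-! ### the free background: sizes in `{x_c, 1}` -/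

theorem du_xc : du xc = xc := by
  have h := xc_sq
  have h0 := xc_pos
  unfold du
  rw [div_eq_iff (by linarith)]
  nlinarith

theorem du_one : du 1 = 0 := by simp [du]

/-- the starred weights of a free background are of plus type -/
theorem isPlus_ws {s : Face → ℝ} {u : Fld} (hs : ∀ v, s v ^ 2 = 1)
    (hux : ∀ f h, u f h = xc ∨ u f h = 1) : IsPlus (ws s u) := by
  have key : ∀ f h, du (u f h) ^ 2 = xc ^ 2 ∨ du (u f h) = 0 := by
    intro f h
    rcases hux f h with h0 | h0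
    · left; rw [h0, du_xc]
    · right; rw [h0, du_one]
  intro v h
  fin_cases h
  · rcases key (v.1, v.2 - 1) 3 with h0 | h0
    · left; simp only [ws]; rw [mul_pow, hs, h0, one_mul]
    · right; simp only [ws]; rw [h0, mul_zero]
  · exact key v 0
  · rcases key v 3 with h0 | h0
    · left; simp only [ws]; rw [mul_pow, hs, h0, one_mul]
    · right; simp only [ws]; rw [h0, mul_zero]
  · exact key (v.1 - 1, v.2) 0

end Crest.Agent.R165.FrAx441
end
private theorem rz_78c9449587 : type_of% @_root_.Crest.Agent.R165.FrAx441.asm.eq_1 := @_root_.Crest.Agent.R165.FrAx441.asm.eq_1 -- L81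
private theorem rz_073604b81d : type_of% @_root_.Crest.Agent.R165.FrAx441.fs.eq_1 := @_root_.Crest.Agent.R165.FrAx441.fs.eq_1 -- L40
private theorem rz_be3bfa4b17 : type_of% @_root_.Crest.Agent.R165.FrAx441.wf.eq_1 := @_root_.Crest.Agent.R165.FrAx441.wf.eq_1 -- L29
private theorem rz_cd24b2b210 : type_of% @_root_.Crest.Agent.R165.FrAx441.ws.eq_1 := @_root_.Crest.Agent.R165.FrAx441.ws.eq_1 -- L49
end

-- ▼ part R165/FrGap_887
section

/-!
# Row 165 (S0250): the gap of a free background with spin insertions (helper887)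

On top of `FrA_441` (`wf`, `ws`, `fs`, `star_A`, `star_m`).

* `mS v`        : the source `(1,1,1,1)` at the node `v`; `ip (mS v) ψ = tot ψ v`
* `T0 s g`      : the rows of the starred system, without the insertion terms
* `star_eq`     : `A (ws) (fs φ) = T0 (A (wf) φ) + ∑_{v ∈ X} c_v • mS v`
* `nn_fs`, `nn_T0`, `abs_lam` : norm comparisons
* `free_gap`    : `|φ| ≤ 2 (4 G + |X|² K P (4 + 4 P)) |A^free φ|`, where `G` is the gap constant of
  the starred (plus type) background, `P ≥ |A*⁻¹ m_v|` and `K` bounds the entries of the inverse of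
  the matrix `B_vw = ⟨m_v, A*⁻¹ m_w⟩`
* `source`      : existence and `l²` bound `|A*⁻¹ m_v| ≤ 2 √(Q G)` of the corner columns
-/

set_option autoImplicit false

noncomputable section

namespace Crest.Agent.R165.FrGapx887

open Finset
open Crest.Agent.R165.Tr1x40 Crest.Agent.R165.Tr2x40 Crest.Agent.R165.FrAx441
  Crest.Agent.R165.L2x887

/-- the corner source at the node `v` -/
def mS (v : Face) : Fld := fun f _ => if f = v then 1 else 0

theorem mS_off {v f : Face} (h : f ∉ ({v} : Finset Face)) (k : Fin 4) : mS v f k = 0 := by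
  rw [mem_singleton] at h
  simp [mS, h]

theorem mS_FS (v : Face) : FS (mS v) := ⟨{v}, fun _ hf h => mS_off hf h⟩

theorem ip_mS (v : Face) (ψ : Fld) : ip (mS v) ψ = tot ψ v := by
  rw [ip_eq (K := {v}) (fun _ hf h => mS_off hf h), sum_singleton, Fin.sum_univ_four]
  simp [mS, tot]

theorem abs_tot_le {ψ : Fld} (v : Face) : |tot ψ v| ≤ 2 * Real.sqrt (nsq (ψ v)) := by
  have h : (tot ψ v) ^ 2 ≤ (2 * Real.sqrt (nsq (ψ v))) ^ 2 := by
    rw [mul_pow, Real.sq_sqrt (nsq_nonneg _), nsq_eq]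
    unfold tot
    nlinarith [sq_nonneg (ψ v 0 - ψ v 1), sq_nonneg (ψ v 0 - ψ v 2), sq_nonneg (ψ v 0 - ψ v 3),
      sq_nonneg (ψ v 1 - ψ v 2), sq_nonneg (ψ v 1 - ψ v 3), sq_nonneg (ψ v 2 - ψ v 3)]
  exact abs_le_of_sq_le_sq h (by positivity)

/-- rows of the starred system, without the insertion terms -/
def T0 (s : Face → ℝ) (g : Fld) : Fld := fun v h =>
  asm (r1 g v) (r2 g v) ((s (v.1 - 1, v.2) + s v) / 2 * r3 g v) (s v * r4 g v) h

/-- coefficient of the insertion term -/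
def cc (s : Face → ℝ) (u φ : Fld) (v : Face) : ℝ := -s v * am s u φ v

theorem star_eq {s : Face → ℝ} {u φ : Fld} (hu : Sym u) (hs : ∀ v, s v ^ 2 = 1)
    (hpos : ∀ f h, 0 < u f h) (X : Finset Face)
    (hX : ∀ v, v ∈ X → s (v.1 - 1, v.2) = -s v) (hX' : ∀ v, v ∉ X → s (v.1 - 1, v.2) = s v) :
    A (ws s u) (fs s u φ) = T0 s (A (wf s u) φ) + ∑ v ∈ X, cc s u φ v • mS v := by
  classical
  funext v h
  rw [star_A s u φ hu hs hpos v h, Pi.add_apply, Pi.add_apply, Finset.sum_apply,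
    Finset.sum_apply]
  by_cases hv : v ∈ X
  · have e : ∑ c ∈ X, (cc s u φ c • mS c) v h = cc s u φ v := by
      rw [sum_eq_single v]
      · simp [mS]
      · intro c _ hc
        simp [mS, Ne.symm hc]
      · intro hc; exact absurd hv hc
    rw [e]
    have hs' := hX v hv
    fin_cases h <;> simp only [asm, T0, cc, hs'] <;> ring
  · have e : ∑ c ∈ X, (cc s u φ c • mS c) v h = 0 := by
      refine sum_eq_zero fun c hc => ?_
      have : v ≠ c := fun hvc => hv (hvc ▸ hc)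
      simp [mS, this]
    rw [e, hX' v hv]
    simp only [T0, hX' v hv, sub_self, zero_mul, add_zero]

/-! ### norm comparisons -/

theorem nsq_asm_le (a b c d : ℝ) : nsq (asm a b c d) ≤ 4 * (a ^ 2 + b ^ 2 + c ^ 2 + d ^ 2) := by
  rw [nsq_eq]; simp only [asm]
  nlinarith [sq_nonneg (a + b), sq_nonneg (a - b), sq_nonneg (a + c), sq_nonneg (a - c),
    sq_nonneg (a + d), sq_nonneg (a - d), sq_nonneg (b + c), sq_nonneg (b - c),
    sq_nonneg (b + d), sq_nonneg (b - d), sq_nonneg (c + d), sq_nonneg (c - d)]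

/-- faces around the nodes of `K` and nodes around the faces of `K` -/
def box3 (K : Finset Face) : Finset Face :=
  (K ×ˢ ((Finset.Icc (-1 : ℤ) 1) ×ˢ (Finset.Icc (-1 : ℤ) 1))).image
    fun p => (p.1.1 + p.2.1, p.1.2 + p.2.2)

theorem mem_box3 {K : Finset Face} {f : Face} {a b : ℤ} (ha : a ∈ Finset.Icc (-1 : ℤ) 1)
    (hb : b ∈ Finset.Icc (-1 : ℤ) 1) (h : (f.1 - a, f.2 - b) ∈ K) : f ∈ box3 K := by
  refine mem_image.2 ⟨((f.1 - a, f.2 - b), (a, b)), ?_, ?_⟩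
  · exact mem_product.2 ⟨h, mem_product.2 ⟨ha, hb⟩⟩
  · ext <;> simp

theorem not_mem_of_box3 {K : Finset Face} {f : Face} (hf : f ∉ box3 K) (a b : ℤ)
    (ha : a ∈ Finset.Icc (-1 : ℤ) 1) (hb : b ∈ Finset.Icc (-1 : ℤ) 1) :
    (f.1 - a, f.2 - b) ∉ K := fun h => hf (mem_box3 ha hb h)

theorem T0_off {s : Face → ℝ} {g : Fld} {K : Finset Face} (h : ∀ f, f ∉ K → ∀ h, g f h = 0) :
    ∀ v, v ∉ box3 K → ∀ k, T0 s g v k = 0 := by
  intro v hv k
  have z1 : ∀ k, g v k = 0 := h v (by simpa using not_mem_of_box3 hv 0 0 (by simp) (by simp))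
  have z2 : ∀ k, g (v.1 - 1, v.2) k = 0 :=
    h _ (by simpa using not_mem_of_box3 hv 1 0 (by simp) (by simp))
  have z3 : ∀ k, g (v.1 - 1, v.2 - 1) k = 0 :=
    h _ (not_mem_of_box3 hv 1 1 (by simp) (by simp))
  have z4 : ∀ k, g (v.1, v.2 - 1) k = 0 :=
    h _ (by simpa using not_mem_of_box3 hv 0 1 (by simp) (by simp))
  fin_cases k <;> simp [T0, asm, r1, r2, r3, r4, z1, z2, z3, z4]

theorem FS_T0 {s : Face → ℝ} {g : Fld} (h : FS g) : FS (T0 s g) := by
  obtain ⟨K, h⟩ := h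
  exact ⟨box3 K, T0_off h⟩

theorem shift_inj (a b : ℤ) : Function.Injective fun f : Face => (f.1 + a, f.2 + b) := by
  rintro ⟨x, y⟩ ⟨x', y'⟩ h
  simp only [Prod.mk.injEq, add_left_inj] at h
  exact Prod.ext h.1 h.2

theorem shift_sum_le {g : Fld} {K : Finset Face} (h : ∀ f, f ∉ K → ∀ h, g f h = 0)
    (a b : ℤ) (c : Fin 4 → ℝ) (hc : ∀ k, 0 ≤ c k) (K' : Finset Face) :
    ∑ f ∈ K', ∑ k, c k * g (f.1 + a, f.2 + b) k ^ 2 ≤ ∑ f ∈ K, ∑ k, c k * g f k ^ 2 :=
  sum_comp_le (F := fun f => ∑ k, c k * g f k ^ 2)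
    (fun f => sum_nonneg fun k _ => mul_nonneg (hc k) (sq_nonneg _))
    (fun f hf => sum_eq_zero fun k _ => by rw [h f hf k]; ring) _ (shift_inj a b) K'

theorem nn_T0 {s : Face → ℝ} (hs : ∀ v, s v ^ 2 = 1) {g : Fld} (hg : FS g) :
    nn (T0 s g) ≤ 4 * nn g := by
  obtain ⟨K, hK⟩ := hg
  refine nn_le_of (T0_off hK) (by have := nn_nonneg g; positivity) ?_
  have pt : ∀ v, nsq (T0 s g v) ≤ 8 * (
      (∑ k, (![1, 0, 0, 1] : Fin 4 → ℝ) k * g (v.1 + 0, v.2 + 0) k ^ 2)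
      + (∑ k, (![1, 1, 0, 0] : Fin 4 → ℝ) k * g (v.1 + -1, v.2 + 0) k ^ 2)
      + (∑ k, (![0, 1, 1, 0] : Fin 4 → ℝ) k * g (v.1 + -1, v.2 + -1) k ^ 2)
      + (∑ k, (![0, 0, 1, 1] : Fin 4 → ℝ) k * g (v.1 + 0, v.2 + -1) k ^ 2)) := by
    intro v
    refine (nsq_asm_le _ _ _ _).trans ?_
    have q : ((s (v.1 - 1, v.2) + s v) / 2 * r3 g v) ^ 2 ≤ r3 g v ^ 2 := by
      have a1 := hs v
      have a2 := hs (v.1 - 1, v.2)
      have : ((s (v.1 - 1, v.2) + s v) / 2) ^ 2 ≤ 1 := by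
        nlinarith [sq_nonneg (s (v.1 - 1, v.2) - s v)]
      rw [mul_pow]
      nlinarith [sq_nonneg (r3 g v)]
    have q4 : (s v * r4 g v) ^ 2 = r4 g v ^ 2 := by rw [mul_pow, hs v, one_mul]
    have e1 : r1 g v ^ 2 ≤ 2 * (g v 0 ^ 2 + g v 3 ^ 2) := by
      unfold r1; nlinarith [sq_nonneg (g v 0 - g v 3)]
    have e2 : r2 g v ^ 2 ≤ 2 * (g (v.1 - 1, v.2) 0 ^ 2 + g (v.1 - 1, v.2) 1 ^ 2) := by
      unfold r2; nlinarith [sq_nonneg (g (v.1 - 1, v.2) 0 + g (v.1 - 1, v.2) 1)]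
    have e3 : r3 g v ^ 2 ≤ 2 * (g (v.1 - 1, v.2 - 1) 1 ^ 2 + g (v.1 - 1, v.2 - 1) 2 ^ 2) := by
      unfold r3; nlinarith [sq_nonneg (g (v.1 - 1, v.2 - 1) 1 + g (v.1 - 1, v.2 - 1) 2)]
    have e4 : r4 g v ^ 2 ≤ 2 * (g (v.1, v.2 - 1) 2 ^ 2 + g (v.1, v.2 - 1) 3 ^ 2) := by
      unfold r4; nlinarith [sq_nonneg (g (v.1, v.2 - 1) 2 + g (v.1, v.2 - 1) 3)]
    simp only [Fin.sum_univ_four, add_zero, ← sub_eq_add_neg]
    simp
    rw [q4]
    linarith
  have hb1 : ∀ k, (0 : ℝ) ≤ (![1, 0, 0, 1] : Fin 4 → ℝ) k := by intro k; fin_cases k <;> simp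
  have hb2 : ∀ k, (0 : ℝ) ≤ (![1, 1, 0, 0] : Fin 4 → ℝ) k := by intro k; fin_cases k <;> simp
  have hb3 : ∀ k, (0 : ℝ) ≤ (![0, 1, 1, 0] : Fin 4 → ℝ) k := by intro k; fin_cases k <;> simp
  have hb4 : ∀ k, (0 : ℝ) ≤ (![0, 0, 1, 1] : Fin 4 → ℝ) k := by intro k; fin_cases k <;> simp
  have s1 := shift_sum_le hK 0 0 _ hb1 (box3 K)
  have s2 := shift_sum_le hK (-1) 0 _ hb2 (box3 K)
  have s3 := shift_sum_le hK (-1) (-1) _ hb3 (box3 K)
  have s4 := shift_sum_le hK 0 (-1) _ hb4 (box3 K)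
  have tot4 : (∑ f ∈ K, ∑ k, (![1, 0, 0, 1] : Fin 4 → ℝ) k * g f k ^ 2)
      + (∑ f ∈ K, ∑ k, (![1, 1, 0, 0] : Fin 4 → ℝ) k * g f k ^ 2)
      + (∑ f ∈ K, ∑ k, (![0, 1, 1, 0] : Fin 4 → ℝ) k * g f k ^ 2)
      + (∑ f ∈ K, ∑ k, (![0, 0, 1, 1] : Fin 4 → ℝ) k * g f k ^ 2) = 2 * nn g ^ 2 := by
    rw [nn_sq_eq hK, mul_sum, ← sum_add_distrib, ← sum_add_distrib, ← sum_add_distrib]
    refine sum_congr rfl fun f _ => ?_
    rw [nsq_eq]
    simp [Fin.sum_univ_four]
    ring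
  calc ∑ f ∈ box3 K, nsq (T0 s g f) ≤ _ := sum_le_sum fun f _ => pt f
    _ ≤ 8 * (2 * nn g ^ 2) := by
        rw [← mul_sum, sum_add_distrib, sum_add_distrib, sum_add_distrib, ← tot4]
        gcongr
    _ = (4 * nn g) ^ 2 := by ring

/-- inverse of the starring, pointwise -/
theorem fs_inv (s : Face → ℝ) (u φ : Fld) (hu : Sym u) (hs : ∀ v, s v ^ 2 = 1)
    (hpos : ∀ f h, 0 < u f h) (f : Face) :
    φ f 0 = (fs s u φ f 1 + fs s u φ (f.1 + 1, f.2) 3) / (1 + u f 0) ∧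
    φ f 1 = (fs s u φ (f.1 + 1, f.2) 2 - s (f.1 + 1, f.2 + 1) * fs s u φ (f.1 + 1, f.2 + 1) 0)
      / (1 + u f 1) ∧
    φ f 2 = s (f.1, f.2 + 1) * (fs s u φ (f.1 + 1, f.2 + 1) 3 - fs s u φ (f.1, f.2 + 1) 1)
      / (1 + u f 2) ∧
    φ f 3 = (-fs s u φ f 2 - s (f.1, f.2 + 1) * fs s u φ (f.1, f.2 + 1) 0) / (1 + u f 3) := by
  obtain ⟨i, j⟩ := f
  have a0 := hpos (i, j) 0
  have a1 := hpos (i, j) 1
  have a2 := hpos (i, j) 2
  have a3 := hpos (i, j) 3
  have b1 : u (i + 1, j) 3 = u (i, j) 1 := by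
    have := hu (i, j) 1; simpa [nb, op] using this
  have b2 : u (i, j + 1) 0 = u (i, j) 2 := by
    have := hu (i, j) 2; simpa [nb, op] using this
  have c1 := hs (i, j)
  have c2 := hs (i, j + 1)
  have c3 := hs (i + 1, j + 1)
  have d0 : (1 + u (i, j) 0) ≠ 0 := by positivity
  have d1 : (1 + u (i, j) 1) ≠ 0 := by positivity
  have d2 : (1 + u (i, j) 2) ≠ 0 := by positivity
  have d3 : (1 + u (i, j) 3) ≠ 0 := by positivity
  refine ⟨?_, ?_, ?_, ?_⟩ <;> rw [eq_div_iff (by assumption)] <;>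
    simp only [fs, add_sub_cancel_right, b1, b2]
  · ring
  · linear_combination (-(1 + u (i, j) 1) / 2 * (φ (i, j) 1 + φ (i + 1, j) 3)) * c3
  · linear_combination (-(1 + u (i, j) 2) * φ (i, j) 2) * c2
  · linear_combination (-(1 + u (i, j) 3) / 2 * (φ (i - 1, j) 1 + φ (i, j) 3)) * c2

theorem sq_div_le' {a b y : ℝ} (hy : 0 < y) : ((a + b) / (1 + y)) ^ 2 ≤ 2 * (a ^ 2 + b ^ 2) := by
  rw [div_pow, div_le_iff₀ (by positivity)]
  have h1 : (a + b) ^ 2 ≤ 2 * (a ^ 2 + b ^ 2) := by nlinarith [sq_nonneg (a - b)]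
  have h2 : 1 ≤ (1 + y) ^ 2 := by nlinarith
  nlinarith [sq_nonneg a, sq_nonneg b]

theorem fs_off {s : Face → ℝ} {u φ : Fld} {K : Finset Face} (h : ∀ f, f ∉ K → ∀ h, φ f h = 0) :
    ∀ v, v ∉ box3 K → ∀ k, fs s u φ v k = 0 := by
  intro v hv k
  have z1 : ∀ k, φ v k = 0 := h v (by simpa using not_mem_of_box3 hv 0 0 (by simp) (by simp))
  have z2 : ∀ k, φ (v.1 - 1, v.2) k = 0 :=
    h _ (by simpa using not_mem_of_box3 hv 1 0 (by simp) (by simp))
  have z3 : ∀ k, φ (v.1 - 1, v.2 - 1) k = 0 :=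
    h _ (not_mem_of_box3 hv 1 1 (by simp) (by simp))
  have z4 : ∀ k, φ (v.1, v.2 - 1) k = 0 :=
    h _ (by simpa using not_mem_of_box3 hv 0 1 (by simp) (by simp))
  fin_cases k <;> simp [fs, z1, z2, z3, z4]

theorem FS_fs {s : Face → ℝ} {u φ : Fld} (h : FS φ) : FS (fs s u φ) := by
  obtain ⟨K, h⟩ := h
  exact ⟨box3 K, fs_off h⟩

theorem nn_fs {s : Face → ℝ} {u φ : Fld} (hu : Sym u) (hs : ∀ v, s v ^ 2 = 1)
    (hpos : ∀ f h, 0 < u f h) (hφ : FS φ) : nn φ ≤ 2 * nn (fs s u φ) := by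
  obtain ⟨K, hK⟩ := hφ
  have hF := fs_off (s := s) (u := u) hK
  set ψ := fs s u φ with hψ
  refine nn_le_of hK (by have := nn_nonneg ψ; positivity) ?_
  have pt : ∀ f, nsq (φ f) ≤ 2 * (
      (∑ k, (![0, 1, 1, 0] : Fin 4 → ℝ) k * ψ (f.1 + 0, f.2 + 0) k ^ 2)
      + (∑ k, (![0, 0, 1, 1] : Fin 4 → ℝ) k * ψ (f.1 + 1, f.2 + 0) k ^ 2)
      + (∑ k, (![1, 0, 0, 1] : Fin 4 → ℝ) k * ψ (f.1 + 1, f.2 + 1) k ^ 2)
      + (∑ k, (![1, 1, 0, 0] : Fin 4 → ℝ) k * ψ (f.1 + 0, f.2 + 1) k ^ 2)) := by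
    intro f
    obtain ⟨e0, e1, e2, e3⟩ := fs_inv s u φ hu hs hpos f
    rw [← hψ] at e0 e1 e2 e3
    have g0 : φ f 0 ^ 2 ≤ 2 * (ψ f 1 ^ 2 + ψ (f.1 + 1, f.2) 3 ^ 2) := by
      rw [e0]; exact sq_div_le' (hpos f 0)
    have g1 : φ f 1 ^ 2 ≤ 2 * (ψ (f.1 + 1, f.2) 2 ^ 2 + ψ (f.1 + 1, f.2 + 1) 0 ^ 2) := by
      rw [e1, sub_eq_add_neg]
      refine (sq_div_le' (hpos f 1)).trans ?_
      rw [neg_sq, mul_pow, hs, one_mul]
    have g2 : φ f 2 ^ 2 ≤ 2 * (ψ (f.1 + 1, f.2 + 1) 3 ^ 2 + ψ (f.1, f.2 + 1) 1 ^ 2) := by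
      rw [e2, mul_div_assoc, mul_pow, hs, one_mul, sub_eq_add_neg]
      refine (sq_div_le' (hpos f 2)).trans ?_
      rw [neg_sq]
    have g3 : φ f 3 ^ 2 ≤ 2 * (ψ f 2 ^ 2 + ψ (f.1, f.2 + 1) 0 ^ 2) := by
      rw [e3, sub_eq_add_neg]
      refine (sq_div_le' (hpos f 3)).trans ?_
      rw [neg_sq, neg_sq, mul_pow, hs, one_mul]
    rw [nsq_eq]
    simp only [Fin.sum_univ_four, add_zero]
    simp
    linarith
  have hb1 : ∀ k, (0 : ℝ) ≤ (![0, 1, 1, 0] : Fin 4 → ℝ) k := by intro k; fin_cases k <;> simp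
  have hb2 : ∀ k, (0 : ℝ) ≤ (![0, 0, 1, 1] : Fin 4 → ℝ) k := by intro k; fin_cases k <;> simp
  have hb3 : ∀ k, (0 : ℝ) ≤ (![1, 0, 0, 1] : Fin 4 → ℝ) k := by intro k; fin_cases k <;> simp
  have hb4 : ∀ k, (0 : ℝ) ≤ (![1, 1, 0, 0] : Fin 4 → ℝ) k := by intro k; fin_cases k <;> simp
  have s1 := shift_sum_le hF 0 0 _ hb1 K
  have s2 := shift_sum_le hF 1 0 _ hb2 K
  have s3 := shift_sum_le hF 1 1 _ hb3 K
  have s4 := shift_sum_le hF 0 1 _ hb4 K
  have tot4 : (∑ f ∈ box3 K, ∑ k, (![0, 1, 1, 0] : Fin 4 → ℝ) k * ψ f k ^ 2)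
      + (∑ f ∈ box3 K, ∑ k, (![0, 0, 1, 1] : Fin 4 → ℝ) k * ψ f k ^ 2)
      + (∑ f ∈ box3 K, ∑ k, (![1, 0, 0, 1] : Fin 4 → ℝ) k * ψ f k ^ 2)
      + (∑ f ∈ box3 K, ∑ k, (![1, 1, 0, 0] : Fin 4 → ℝ) k * ψ f k ^ 2) = 2 * nn ψ ^ 2 := by
    rw [nn_sq_eq hF, mul_sum, ← sum_add_distrib, ← sum_add_distrib, ← sum_add_distrib]
    refine sum_congr rfl fun f _ => ?_
    rw [nsq_eq]
    simp [Fin.sum_univ_four]
    ring
  calc ∑ f ∈ K, nsq (φ f) ≤ _ := sum_le_sum fun f _ => pt f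
    _ ≤ 2 * (2 * nn ψ ^ 2) := by
        rw [← mul_sum, sum_add_distrib, sum_add_distrib, sum_add_distrib, ← tot4]
        gcongr
    _ = (2 * nn ψ) ^ 2 := by ring

/-- the constraint functional is bounded -/
theorem abs_lam {s : Face → ℝ} (hs : ∀ v, s v ^ 2 = 1) {g : Fld} (hg : FS g) (v : Face) :
    |(-(s v) * r3 g v - s v * r4 g v - r1 g v + r2 g v) / 2| ≤ 4 * nn g := by
  have q := abs_le_nn hg
  have hsv : |s v| = 1 := by
    rcases sq_eq_one_iff.1 (hs v) with h | h <;> simp [h]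
  have a1 : |r1 g v| ≤ 2 * nn g := by
    unfold r1; exact (abs_add_le _ _).trans (by linarith [q v 0, q v 3])
  have a2 : |r2 g v| ≤ 2 * nn g := by
    unfold r2; exact (abs_sub _ _).trans (by linarith [q (v.1 - 1, v.2) 0, q (v.1 - 1, v.2) 1])
  have a3 : |-(s v) * r3 g v| ≤ 2 * nn g := by
    rw [abs_mul, abs_neg, hsv, one_mul]
    unfold r3
    exact (abs_sub _ _).trans (by linarith [q (v.1 - 1, v.2 - 1) 1, q (v.1 - 1, v.2 - 1) 2])
  have a4 : |s v * r4 g v| ≤ 2 * nn g := by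
    rw [abs_mul, hsv, one_mul]
    unfold r4
    exact (abs_sub _ _).trans (by linarith [q (v.1, v.2 - 1) 2, q (v.1, v.2 - 1) 3])
  rw [abs_div, abs_of_pos (by norm_num : (0 : ℝ) < 2), div_le_iff₀ (by norm_num)]
  calc |-(s v) * r3 g v - s v * r4 g v - r1 g v + r2 g v|
      ≤ |-(s v) * r3 g v - s v * r4 g v - r1 g v| + |r2 g v| := abs_add_le _ _
    _ ≤ |-(s v) * r3 g v - s v * r4 g v| + |r1 g v| + |r2 g v| := by gcongr; exact abs_sub _ _
    _ ≤ |-(s v) * r3 g v| + |s v * r4 g v| + |r1 g v| + |r2 g v| := by gcongr; exact abs_sub _ _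
    _ ≤ 4 * nn g * 2 := by linarith

/-! ### the gap -/

/-- **gap of the free background**: from the gap constant `G` of the starred background, the `l²`
norms `P` of the corner columns `Ψ v = A*⁻¹ m_v` and a bound `Kn` of the inverse `N` of the matrix
`B z w = tot (Ψ w) z` -/
theorem free_gap {s : Face → ℝ} {u : Fld} (hu : Sym u) (hs : ∀ v, s v ^ 2 = 1)
    (hpos : ∀ f h, 0 < u f h) (X : Finset Face)
    (hX : ∀ v, v ∈ X → s (v.1 - 1, v.2) = -s v) (hX' : ∀ v, v ∉ X → s (v.1 - 1, v.2) = s v)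
    {G P Kn : ℝ} (hP0 : 0 ≤ P) (hK0 : 0 ≤ Kn)
    (hgap : ∀ ψ, FS ψ → nn ψ ≤ G * nn (A (ws s u) ψ))
    (Ψ : Face → Fld) (hΨ : ∀ v ∈ X, FS (Ψ v)) (hΨA : ∀ v ∈ X, A (ws s u) (Ψ v) = mS v)
    (hP : ∀ v ∈ X, nn (Ψ v) ≤ P) (N : Face → Face → ℝ)
    (hN : ∀ v ∈ X, ∀ w ∈ X, ∑ z ∈ X, N v z * tot (Ψ w) z = if v = w then 1 else 0)
    (hK : ∀ v ∈ X, ∀ z ∈ X, |N v z| ≤ Kn) (φ : Fld) (hφ : FS φ) :
    nn φ ≤ 2 * (4 * G + (X.card : ℝ) ^ 2 * Kn * P * (4 + 4 * P)) * nn (A (wf s u) φ) := by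
  classical
  set g := A (wf s u) φ with hg
  have hgF : FS g := hφ.A
  set ψ := fs s u φ with hψ
  have hψF : FS ψ := FS_fs hφ
  have hT := FS_T0 (s := s) hgF
  have star := star_eq (φ := φ) hu hs hpos X hX hX'
  rw [← hψ, ← hg] at star
  set c := cc s u φ with hc
  -- subtract the corner columns
  have hSF : FS (∑ v ∈ X, c v • Ψ v) := FS.sum _ _ fun v hv => (hΨ v hv).smul _
  set ψ' := ψ - ∑ v ∈ X, c v • Ψ v with hψ'
  have hψ'F : FS ψ' := hψF.sub hSF
  have hA' : A (ws s u) ψ' = T0 s g := by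
    rw [hψ', A_sub', A_sum', star]
    have : ∑ v ∈ X, A (ws s u) (c v • Ψ v) = ∑ v ∈ X, c v • mS v :=
      sum_congr rfl fun v hv => by rw [A_smul', hΨA v hv]
    rw [this, add_sub_cancel_right]
  have sW : Sym (ws s u) := sym_ws s u
  have b0 := nn_T0 hs hgF
  have ng := nn_nonneg g
  -- the linear system for the coefficients
  have sys : ∀ z ∈ X, ∑ w ∈ X, c w * tot (Ψ w) z = tot ψ z - ip (mS z) ψ' := by
    intro z hz
    rw [← ip_mS z ψ, hψ', ip_sub_right hψF hSF, ip_sum_right _ _ fun v hv => (hΨ v hv).smul _,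
      sub_sub_cancel]
    refine sum_congr rfl fun w hw => ?_
    rw [ip_smul_right _ (hΨ w hw), ip_mS]
  have rhs : ∀ z ∈ X, |tot ψ z - ip (mS z) ψ'| ≤ (4 + 4 * P) * nn g := by
    intro z hz
    have e1 : |tot ψ z| ≤ 4 * nn g := by
      rw [hψ, star_m s u φ hu hs z (hX z hz)]
      exact abs_lam hs hgF z
    have e2 : |ip (mS z) ψ'| ≤ P * (4 * nn g) := by
      have : ip (mS z) ψ' = -ip (Ψ z) (T0 s g) := by
        rw [← hΨA z hz, ← hA', ip_A sW (hΨ z hz)]; ring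
      rw [this, abs_neg]
      exact (abs_ip_le (hΨ z hz) hT).trans (mul_le_mul (hP z hz) b0 (nn_nonneg _) hP0)
    exact (abs_sub _ _).trans (by linarith)
  have cb : ∀ v ∈ X, |c v| ≤ (X.card : ℝ) * Kn * ((4 + 4 * P) * nn g) := by
    intro v hv
    have e : c v = ∑ z ∈ X, N v z * (tot ψ z - ip (mS z) ψ') := by
      calc c v = ∑ w ∈ X, c w * (if v = w then 1 else 0) := by simp [hv]
        _ = ∑ w ∈ X, c w * ∑ z ∈ X, N v z * tot (Ψ w) z :=
            sum_congr rfl fun w hw => by rw [hN v hv w hw]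
        _ = ∑ w ∈ X, ∑ z ∈ X, N v z * (c w * tot (Ψ w) z) :=
            sum_congr rfl fun w _ => by
              rw [mul_sum]; exact sum_congr rfl fun z _ => by ring
        _ = ∑ z ∈ X, ∑ w ∈ X, N v z * (c w * tot (Ψ w) z) := sum_comm
        _ = ∑ z ∈ X, N v z * (tot ψ z - ip (mS z) ψ') :=
            sum_congr rfl fun z hz => by rw [← mul_sum, sys z hz]
    rw [e]
    calc |∑ z ∈ X, N v z * (tot ψ z - ip (mS z) ψ')|
        ≤ ∑ z ∈ X, |N v z * (tot ψ z - ip (mS z) ψ')| := abs_sum_le_sum_abs _ _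
      _ ≤ ∑ z ∈ X, Kn * ((4 + 4 * P) * nn g) := sum_le_sum fun z hz => by
          rw [abs_mul]
          exact mul_le_mul (hK v hv z hz) (rhs z hz) (abs_nonneg _) hK0
      _ = (X.card : ℝ) * Kn * ((4 + 4 * P) * nn g) := by
          rw [sum_const, nsmul_eq_mul]; ring
  have hs1 : nn ψ' ≤ G * (4 * nn g) := by
    have h1 := hgap ψ' hψ'F
    rw [hA'] at h1
    rcases le_or_gt 0 G with hG | hG
    · exact h1.trans (mul_le_mul_of_nonneg_left b0 hG)
    · -- a negative constant forces everything to vanish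
      have h2 : nn (T0 s g) = 0 := by
        have := nn_nonneg ψ'
        have := nn_nonneg (T0 s g)
        nlinarith
      have h3 := hgap (mS (0, 0)) (mS_FS _)
      have h4 : nn (mS (0, 0)) = 2 := by
        rw [nn_eq (K := {(0, 0)}) (fun _ hf h => mS_off hf h), sum_singleton, nsq_eq]
        simp only [mS, if_true]
        rw [show (1 : ℝ) ^ 2 + 1 ^ 2 + 1 ^ 2 + 1 ^ 2 = 2 ^ 2 by norm_num,
          Real.sqrt_sq (by norm_num)]
      have h5 := nn_nonneg (A (ws s u) (mS (0, 0)))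
      nlinarith
  have hs2 : nn (∑ v ∈ X, c v • Ψ v) ≤ (X.card : ℝ) * ((X.card : ℝ) * Kn * ((4 + 4 * P) * nn g) * P) := by
    refine (nn_sum_le _ _ fun v hv => (hΨ v hv).smul _).trans ?_
    calc ∑ v ∈ X, nn (c v • Ψ v) ≤ ∑ v ∈ X, (X.card : ℝ) * Kn * ((4 + 4 * P) * nn g) * P :=
          sum_le_sum fun v hv => by
            rw [nn_smul _ (hΨ v hv)]
            exact mul_le_mul (cb v hv) (hP v hv) (nn_nonneg _) (by positivity)
      _ = _ := by rw [sum_const, nsmul_eq_mul]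
  have hs3 : nn ψ ≤ nn ψ' + nn (∑ v ∈ X, c v • Ψ v) := by
    have : ψ = ψ' + ∑ v ∈ X, c v • Ψ v := by rw [hψ', sub_add_cancel]
    calc nn ψ = nn (ψ' + ∑ v ∈ X, c v • Ψ v) := by rw [← this]
      _ ≤ _ := nn_add_le hψ'F hSF
  have hs4 := nn_fs hu hs hpos hφ
  rw [← hψ] at hs4
  calc nn φ ≤ 2 * nn ψ := hs4
    _ ≤ 2 * (G * (4 * nn g) +
        (X.card : ℝ) * ((X.card : ℝ) * Kn * ((4 + 4 * P) * nn g) * P)) := by linarith
    _ = _ := by ring

/-- **corner columns** of a plus type background: existence in a closed finite set, `l²` bound -/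
theorem source {w : Fld} (hw : Sym w) (Λ : Finset Face)
    (hΛ : ∀ f ∈ Λ, ∀ h, w f h ≠ 0 → nb f h ∈ Λ) {G Q : ℝ} (hG : 0 ≤ G) (hQ : 0 ≤ Q)
    (hgap : ∀ ψ, FS ψ → nn ψ ≤ G * nn (A w ψ))
    (hpt : ∀ ψ, FS ψ → ∀ v, nsq (ψ v) ≤ Q * (nn ψ * nn (A w ψ))) (v : Face) (hv : v ∈ Λ) :
    ∃ Ψ : Fld, (∀ f, f ∉ Λ → ∀ h, Ψ f h = 0) ∧ A w Ψ = mS v ∧ nn Ψ ≤ 2 * Real.sqrt (Q * G) := by
  have hinj : ∀ φ : Fld, (∀ f, f ∉ Λ → ∀ h, φ f h = 0) → (∀ f ∈ Λ, ∀ h, A w φ f h = 0) →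
      φ = 0 := by
    intro φ h0 h1
    have hF : FS φ := ⟨Λ, h0⟩
    have hA : A w φ = 0 := by
      funext f h
      by_cases hf : f ∈ Λ
      · exact h1 f hf h
      · have e1 : φ f = 0 := funext fun j => h0 f hf j
        have e3 : A0 (0 : Fin 4 → ℝ) h = 0 := by fin_cases h <;> simp [A0]
        have e2 : w f h * φ (nb f h) (op h) = 0 := by
          by_cases h2 : nb f h ∈ Λ
          · by_cases hz : w f h = 0
            · rw [hz, zero_mul]
            · exfalso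
              apply hf
              have h3 := hΛ (nb f h) h2 (op h) (by rwa [hw f h])
              rwa [nb_nb_op] at h3
          · rw [h0 _ h2, mul_zero]
        show A w φ f h = 0
        simp only [A, Y, e1, e3]
        linear_combination sg h * e2
    have hn := hgap φ hF
    rw [hA, nn_zero, mul_zero] at hn
    have hz : nn φ = 0 := le_antisymm hn (nn_nonneg _)
    funext f h
    have := abs_le_nn hF f h
    rw [hz] at this
    exact abs_nonpos_iff.1 this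
  have hm : ∀ f, f ∉ Λ → ∀ h, mS v f h = 0 := by
    intro f hf h
    have : f ≠ v := fun hc => hf (hc ▸ hv)
    simp [mS, this]
  obtain ⟨Ψ, hΨ0, hΨA⟩ := solve Λ hΛ hw hinj (mS v) hm
  obtain ⟨χ, hχ0, hχA⟩ := solve Λ hΛ hw hinj Ψ hΨ0
  refine ⟨Ψ, hΨ0, hΨA, ?_⟩
  have hΨF : FS Ψ := ⟨Λ, hΨ0⟩
  have hχF : FS χ := ⟨Λ, hχ0⟩
  have n0 := nn_nonneg Ψ
  have e1 : nn Ψ ^ 2 = -tot χ v := by
    rw [nn_sq]
    calc ip Ψ Ψ = ip Ψ (A w χ) := by rw [hχA]
      _ = -ip (A w Ψ) χ := ip_A hw hΨF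
      _ = -tot χ v := by rw [hΨA, ip_mS]
  have e2 : nsq (χ v) ≤ Q * G * nn Ψ ^ 2 := by
    have h1 := hpt χ hχF v
    have h2 := hgap χ hχF
    rw [hχA] at h1 h2
    calc nsq (χ v) ≤ Q * (nn χ * nn Ψ) := h1
      _ ≤ Q * ((G * nn Ψ) * nn Ψ) := by gcongr
      _ = _ := by ring
  have e3 : |tot χ v| ≤ 2 * (Real.sqrt (Q * G) * nn Ψ) := by
    refine (abs_tot_le v).trans ?_
    have : Real.sqrt (nsq (χ v)) ≤ Real.sqrt (Q * G) * nn Ψ := by
      rw [← Real.sqrt_sq n0, ← Real.sqrt_mul (by positivity)]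
      exact Real.sqrt_le_sqrt e2
    linarith
  have e4 : nn Ψ ^ 2 ≤ 2 * (Real.sqrt (Q * G) * nn Ψ) := by
    rw [e1]; exact (neg_le_abs _).trans e3
  rcases n0.eq_or_lt with h | h
  · rw [← h]; positivity
  · have : nn Ψ * nn Ψ ≤ (2 * Real.sqrt (Q * G)) * nn Ψ := by nlinarith
    exact le_of_mul_le_mul_right this h

end Crest.Agent.R165.FrGapx887
end
end

-- ▼ part R165/PlGap_887
section

/-!
# Row 165 (S0250): consequences of the square trick (helper54) for plus type backgrounds (helper887)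

`w` any symmetric weight with `w = 0` or `w² = x_c²` on every half-edge.
* `sq`     : (SQ) in the `nn` notation of `L2_887`
* `pt`     : value at one face, `|φ_v|² ≤ 2 CQ |φ| |A φ|`
* `gapBox` : `|φ| ≤ CQ (9 + 8 r) |A φ|` for `φ` supported in a box of radius `r`
* `gap`    : `|φ| ≤ (CQ (9 + 8 r) + 3) |A φ|` for EVERY finitely supported `φ`, if the couplings of
             `w` live in a box of radius `r`
* `entry`  : decay of a corner column away from its source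
-/

set_option autoImplicit false

noncomputable section

namespace Crest.Agent.R165.PlGapx887

open Finset
open Crest.Agent.R165.Tr1x40 Crest.Agent.R165.Tr2x40 Crest.Agent.R165.L2x887

/-- the constant of the square trick -/
def CQ : ℝ := 6000000000

theorem nn_eq_tsum {φ : Fld} (h : FS φ) : nn φ = Real.sqrt (∑' f, nsq (φ f)) := by
  obtain ⟨K, hK⟩ := h
  rw [nn_eq hK, tsum_eq_sum fun f hf => ?_]
  have : φ f = 0 := funext fun k => hK f hf k
  rw [this]; simp [nsq]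

/-- **(SQ)** -/
theorem sq {w : Fld} (hs : Sym w) (hp : IsPlus w) {φ : Fld} (hφ : FS φ) (E : Finset Face) (κ : ℝ)
    (hκ : ∀ z, SqKx470.kapS E z ≤ κ) :
    ∑ f ∈ E, nsq (φ f) ≤ CQ * (1 + κ) * (nn φ * nn (A w φ)) := by
  rw [nn_eq_tsum hφ, nn_eq_tsum hφ.A]
  obtain ⟨K, hK⟩ := hφ
  refine Sqx54.sq_main hs hp (I := K) hK E κ fun z => ?_
  refine le_of_eq_of_le ?_ (hκ z)
  unfold SqKx470.kapS
  refine sum_congr rfl fun f _ => ?_
  unfold Sqx54.wt
  simp only [Prod.fst_sub, Prod.snd_sub, Int.cast_sub]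

/-- one face -/
theorem pt {w : Fld} (hs : Sym w) (hp : IsPlus w) {φ : Fld} (hφ : FS φ) (v : Face) :
    nsq (φ v) ≤ 2 * CQ * (nn φ * nn (A w φ)) := by
  have h := sq hs hp hφ {v} 1 fun z => ?_
  · rw [sum_singleton] at h
    refine h.trans (le_of_eq ?_)
    ring
  · unfold SqKx470.kapS
    rw [sum_singleton, div_le_one (by positivity)]
    have a1 := abs_nonneg ((v.1 : ℝ) - (z.1 : ℝ))
    have a2 := abs_nonneg ((v.2 : ℝ) - (z.2 : ℝ))
    linarith


/-- **gap** of a plus type background whose couplings live in a box of radius `r` -/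
theorem gap {w : Fld} (hs : Sym w) (hp : IsPlus w) {T : Finset Face}
    (hT : ∀ f, f ∉ T → ∀ h, w f h = 0) {c : Face} {r : ℝ} (hr : 0 ≤ r)
    (hE : ∀ f ∈ T, |((f.1 : ℝ) - (c.1 : ℝ))| ≤ r ∧ |((f.2 : ℝ) - (c.2 : ℝ))| ≤ r)
    {φ : Fld} (hφ : FS φ) :
    nn φ ≤ (CQ * (9 + 8 * r) + 3) * nn (A w φ) := by
  classical
  have h := sq hs hp hφ T (8 * (1 + r)) fun z => SqKx470.kap_box hr hE z
  obtain ⟨K, hK⟩ := hφ
  have hK2 : ∀ f, f ∉ nbh K ∪ T → ∀ h, φ f h = 0 := fun f hf =>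
    hK f fun hc => hf (mem_union_left _ (subset_nbh K hc))
  have hA2 : ∀ f, f ∉ nbh K ∪ T → ∀ h, A w φ f h = 0 := fun f hf =>
    A_zero_off hK f fun hc => hf (mem_union_left _ hc)
  have e1 := nn_sq_eq hK2
  have e2 := nn_sq_eq hA2
  have n0 := nn_nonneg φ
  have n1 := nn_nonneg (A w φ)
  have split : ∀ F : Face → ℝ, ∑ f ∈ nbh K ∪ T, F f = ∑ f ∈ T, F f + ∑ f ∈ (nbh K ∪ T) \ T, F f := by
    intro F
    rw [add_comm, sum_sdiff subset_union_right]
  have out : ∑ f ∈ (nbh K ∪ T) \ T, nsq (φ f) ≤ 7 * nn (A w φ) ^ 2 := by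
    have p : ∀ f ∈ (nbh K ∪ T) \ T, nsq (φ f) ≤ 7 * nsq (A w φ f) := by
      intro f hf
      have hfT := (mem_sdiff.1 hf).2
      have e : nsq (A w φ f) = nsq (A0 (φ f)) := by
        congr 1
        funext h
        simp [A, Y, hT f hfT h]
      rw [e]
      have a1 := nsq_A0_ge (φ f)
      have a2 := Sqx54.xc2_lo
      have a3 := nsq_nonneg (φ f)
      nlinarith
    calc ∑ f ∈ (nbh K ∪ T) \ T, nsq (φ f) ≤ ∑ f ∈ (nbh K ∪ T) \ T, 7 * nsq (A w φ f) :=
          sum_le_sum p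
      _ = 7 * ∑ f ∈ (nbh K ∪ T) \ T, nsq (A w φ f) := by rw [mul_sum]
      _ ≤ 7 * ∑ f ∈ nbh K ∪ T, nsq (A w φ f) := by
          have := sum_le_sum_of_subset_of_nonneg (f := fun f => nsq (A w φ f))
            (sdiff_subset (s := nbh K ∪ T) (t := T)) fun f _ _ => nsq_nonneg _
          linarith
      _ = _ := by rw [← e2]
  have key : nn φ ^ 2 ≤ CQ * (9 + 8 * r) * (nn φ * nn (A w φ)) + 7 * nn (A w φ) ^ 2 := by
    rw [e1, split]
    refine add_le_add (h.trans (le_of_eq ?_)) out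
    ring
  by_contra hc
  push Not at hc
  set a := CQ * (9 + 8 * r) with ha
  have ha0 : 0 ≤ a := by rw [ha]; unfold CQ; positivity
  have h3 : 0 < nn φ := lt_of_le_of_lt (by positivity) hc
  have h4 : (a + 3) * nn (A w φ) * nn φ < nn φ * nn φ := mul_lt_mul_of_pos_right hc h3
  have h5 : (a + 3) * nn (A w φ) * nn (A w φ) ≤ nn φ * nn (A w φ) :=
    mul_le_mul_of_nonneg_right hc.le n1
  nlinarith [mul_nonneg ha0 (sq_nonneg (nn (A w φ))), sq_nonneg (nn (A w φ))]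

/-! ### cut-off -/

/-- sup distance -/
def dm (x f : Face) : ℝ := max |((f.1 : ℝ) - (x.1 : ℝ))| |((f.2 : ℝ) - (x.2 : ℝ))|

theorem dm_nonneg (x f : Face) : 0 ≤ dm x f := le_max_of_le_left (abs_nonneg _)

/-- tent function of radius `ρ` around `x` -/
def tent (x : Face) (ρ : ℝ) (f : Face) : ℝ := max 0 (1 - dm x f / ρ)

theorem tent_self (x : Face) (ρ : ℝ) : tent x ρ x = 1 := by simp [tent, dm]

theorem tent_nonneg (x : Face) (ρ : ℝ) (f : Face) : 0 ≤ tent x ρ f := le_max_left _ _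

theorem tent_le_one (x : Face) {ρ : ℝ} (hρ : 0 < ρ) (f : Face) : tent x ρ f ≤ 1 := by
  refine max_le zero_le_one ?_
  have : 0 ≤ dm x f / ρ := div_nonneg (dm_nonneg x f) hρ.le
  linarith

theorem tent_zero {x : Face} {ρ : ℝ} (hρ : 0 < ρ) {f : Face}
    (hf : ρ ≤ dm x f) : tent x ρ f = 0 := by
  refine max_eq_left ?_
  rw [sub_nonpos, le_div_iff₀ hρ, one_mul]
  exact hf

theorem dist_nb (x f : Face) (h : Fin 4) : |dm x (nb f h) - dm x f| ≤ 1 := by
  unfold dm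
  refine (abs_max_sub_max_le_max _ _ _ _).trans (max_le ?_ ?_)
  · refine (abs_abs_sub_abs_le_abs_sub _ _).trans ?_
    fin_cases h <;> simp [nb]
  · refine (abs_abs_sub_abs_le_abs_sub _ _).trans ?_
    fin_cases h <;> simp [nb]

theorem tent_lip (x : Face) {ρ : ℝ} (hρ : 0 < ρ) (f : Face) (h : Fin 4) :
    |tent x ρ (nb f h) - tent x ρ f| ≤ 1 / ρ := by
  have h1 := abs_max_sub_max_le_max 0 (1 - dm x (nb f h) / ρ) 0 (1 - dm x f / ρ)
  refine h1.trans (max_le (by simp; positivity) ?_)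
  rw [sub_sub_sub_cancel_left, ← sub_div, abs_div, abs_of_pos hρ]
  refine div_le_div_of_nonneg_right ?_ hρ.le
  rw [abs_sub_comm]
  exact dist_nb x f h

/-- multiplication by a function -/
def cut (c : Face → ℝ) (φ : Fld) : Fld := fun f h => c f * φ f h

theorem cut_FS {c : Face → ℝ} {φ : Fld} (hφ : FS φ) : FS (cut c φ) := by
  obtain ⟨K, hK⟩ := hφ
  exact ⟨K, fun f hf h => by rw [cut, hK f hf h, mul_zero]⟩

theorem nn_cut_le {c : Face → ℝ} {φ : Fld} (hφ : FS φ) {m : ℝ} (hm : 0 ≤ m)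
    (hc : ∀ f, |c f| ≤ m) : nn (cut c φ) ≤ m * nn φ := by
  obtain ⟨K, hK⟩ := hφ
  refine nn_le_of (K := K) (fun f hf h => by rw [cut, hK f hf h, mul_zero])
    (mul_nonneg hm (nn_nonneg _)) ?_
  rw [mul_pow, nn_sq_eq hK, mul_sum]
  refine sum_le_sum fun f _ => ?_
  simp only [nsq, cut, mul_sum]
  refine sum_le_sum fun h _ => ?_
  rw [mul_pow]
  have : c f ^ 2 ≤ m ^ 2 := sq_le_sq' (by linarith [(abs_le.1 (hc f)).1]) (abs_le.1 (hc f)).2
  exact mul_le_mul_of_nonneg_right this (sq_nonneg _)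

/-- the commutator of `A` with a slowly varying cut-off -/
theorem nn_comm_le {w : Fld} (hw : ∀ f h, w f h ^ 2 ≤ 1) {c : Face → ℝ} {φ : Fld} (hφ : FS φ)
    {m : ℝ} (hm : 0 ≤ m) (hc : ∀ f h, |c (nb f h) - c f| ≤ m) :
    nn (A w (cut c φ) - cut c (A w φ)) ≤ m * nn φ := by
  obtain ⟨K, hK⟩ := hφ
  have hF : ∀ f h, (A w (cut c φ) - cut c (A w φ)) f h
      = sg h * w f h * ((c (nb f h) - c f) * φ (nb f h) (op h)) := by
    intro f h
    have := A_cut w c φ f h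
    show A w (fun f h => c f * φ f h) f h - c f * A w φ f h = _
    rw [this]; ring
  have h0 : ∀ f, f ∉ nbh K → ∀ h, (A w (cut c φ) - cut c (A w φ)) f h = 0 := by
    intro f hf h
    rw [hF, hK _ (nb_notMem hf h)]; ring
  have h2 : ∀ f, f ∉ nbh K → ∀ h, φ f h = 0 := fun f hf => hK f fun hc => hf (subset_nbh K hc)
  refine nn_le_of h0 (mul_nonneg hm (nn_nonneg _)) ?_
  have s1 : ∑ f ∈ nbh K, ∑ h, φ (nb f h) (op h) ^ 2 = ∑ f ∈ nbh K, nsq (φ f) := by
    refine (sum_bar (nbh K) (fun f h => φ f h ^ 2) (fun f hf h => ?_) (fun f hf h => ?_))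
    · rw [h2 f hf h]; ring
    · have := hK (nb f h) (nb_notMem hf h) (op h)
      rw [this]; ring
  rw [mul_pow, nn_sq_eq h2, ← s1, mul_sum]
  refine sum_le_sum fun f _ => ?_
  simp only [nsq, mul_sum]
  refine sum_le_sum fun h _ => ?_
  rw [hF f h]
  have a1 : (c (nb f h) - c f) ^ 2 ≤ m ^ 2 :=
    sq_le_sq' (by linarith [(abs_le.1 (hc f h)).1]) (abs_le.1 (hc f h)).2
  have a2 := hw f h
  have a3 := sg_sq h
  calc (sg h * w f h * ((c (nb f h) - c f) * φ (nb f h) (op h))) ^ 2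
      = (sg h ^ 2 * w f h ^ 2) * ((c (nb f h) - c f) ^ 2 * φ (nb f h) (op h) ^ 2) := by ring
    _ ≤ 1 * (m ^ 2 * φ (nb f h) (op h) ^ 2) := by
        rw [a3, one_mul]
        exact mul_le_mul a2 (mul_le_mul_of_nonneg_right a1 (sq_nonneg _)) (by positivity)
          zero_le_one
    _ = _ := one_mul _

theorem plus_le_one {w : Fld} (hp : IsPlus w) (f : Face) (h : Fin 4) : w f h ^ 2 ≤ 1 :=
  Sqx54.w_sq_le hp f h

/-- **decay away from the source**: `A Ψ = 0` within distance `ρ` of `x` -/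
theorem entry {w : Fld} (hs : Sym w) (hp : IsPlus w) {Ψ : Fld} (hΨ : FS Ψ) (x : Face) {ρ : ℝ}
    (hρ : 0 < ρ)
    (h0 : ∀ f, dm x f < ρ → ∀ h, A w Ψ f h = 0) :
    nsq (Ψ x) ≤ 2 * CQ / ρ * nn Ψ ^ 2 := by
  have c1 := nn_cut_le (c := tent x ρ) hΨ zero_le_one fun f => by
    rw [abs_of_nonneg (tent_nonneg x ρ f)]; exact tent_le_one x hρ f
  have c2 := nn_comm_le (plus_le_one hp) (c := tent x ρ) hΨ (m := 1 / ρ) (by positivity)
    (tent_lip x hρ)
  have z : cut (tent x ρ) (A w Ψ) = 0 := by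
    funext f h
    show tent x ρ f * A w Ψ f h = 0
    rcases lt_or_ge (dm x f) ρ with hf | hf
    · rw [h0 f hf h, mul_zero]
    · rw [tent_zero hρ hf, zero_mul]
  rw [z, sub_zero] at c2
  have h1 := pt hs hp (cut_FS (c := tent x ρ) hΨ) x
  have h2 : nsq (cut (tent x ρ) Ψ x) = nsq (Ψ x) := by
    simp [nsq, cut, tent_self]
  rw [h2] at h1
  have n0 := nn_nonneg Ψ
  have n1 := nn_nonneg (cut (tent x ρ) Ψ)
  have n2 := nn_nonneg (A w (cut (tent x ρ) Ψ))
  calc nsq (Ψ x) ≤ 2 * CQ * (nn (cut (tent x ρ) Ψ) * nn (A w (cut (tent x ρ) Ψ))) := h1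
    _ ≤ 2 * CQ * ((1 * nn Ψ) * (1 / ρ * nn Ψ)) := by
        unfold CQ
        gcongr
    _ = _ := by ring

end Crest.Agent.R165.PlGapx887
end
end

-- ▼ part R165/FrFin_887

/-!
# Row 165 (S0250): the gap of the domain backgrounds, final form (helper887)

Types of `Lat_683` / `GDef_387` (`HE ℤ → ℝ`, `Aop`, `l2`).
* `toF`, `cur`     : bridge to `Tr1_40`
* `wSt T`          : the starred (plus type) background of the free background of `T`; nodes of `T`
                     are its faces, `(v,0) ~ {v - e₂, v}`, `(v,1) ~ {v - e₁, v}`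
* `free_gap_box`   : **gap of `wX (wDom T true) X`**, constant `CF n r ρ c₀`, from a lower bound `c₀`
                     of the determinant of the corner matrix of ANY inverse of `wX (wSt T) X`
* `plus_gap_box`   : **gap of `wX (wDom T false) X`**, any `X`
* `CF_scale`       : `CF n (R/a) (δ/a) c₀ ≤ C(n,R,δ,c₀) / a`
-/

set_option autoImplicit false

noncomputable section

open Finset
open Crest.ProbabilityR.IsingModel
open Crest.Agent.R165.Tr1x40 Crest.Agent.R165.Tr2x40 Crest.Agent.R165.FrAx441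
  Crest.Agent.R165.L2x887 Crest.Agent.R165.FrGapx887 Crest.Agent.R165.PlGapx887

namespace Crest.Agent.R165.FrFinx887

open Crest.Agent.R165.Latx683 (BW HE Aop wX wDom ray Aop_S Aop_E Aop_N Aop_W yE yN)
open Crest.Agent.R165.GDefx387 (l2)

/-! ### bridge -/

/-- half-edge weights of a bond weight -/
def toF (W : BW ℤ) : Fld := fun f h =>
  match h with
  | 0 => W f 0
  | 1 => W (f.1 + 1, f.2) 1
  | 2 => W (f.1, f.2 + 1) 0
  | 3 => W f 1

theorem sym_toF (W : BW ℤ) : Sym (toF W) := by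
  intro f h; fin_cases h <;> simp [toF, nb, op]

/-- currying -/
def cur (φ : HE ℤ → ℝ) : Fld := fun f h => φ (f, h)

theorem A_toF (W : BW ℤ) (φ : HE ℤ → ℝ) (f : Face) (h : Fin 4) :
    A (toF W) (cur φ) f h = Aop W φ (f, h) := by
  fin_cases h
  · show A (toF W) (cur φ) f 0 = Aop W φ (f, 0)
    rw [A_S, Aop_S]
    simp [toF, cur, yN]
  · show A (toF W) (cur φ) f 1 = Aop W φ (f, 1)
    rw [A_E, Aop_E]
    simp [toF, cur, yE]
  · show A (toF W) (cur φ) f 2 = Aop W φ (f, 2)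
    rw [A_N, Aop_N]
    simp [toF, cur, yN]
  · show A (toF W) (cur φ) f 3 = Aop W φ (f, 3)
    rw [A_W, Aop_W]
    simp [toF, cur, yE]

theorem A_toF' (W : BW ℤ) (φ : HE ℤ → ℝ) : A (toF W) (cur φ) = cur (Aop W φ) := by
  funext f h; exact A_toF W φ f h

/-- finite support -/
def FSH (φ : HE ℤ → ℝ) : Prop := (Function.support φ).Finite

theorem FSH.cur {φ : HE ℤ → ℝ} (h : FSH φ) : FS (cur φ) := by
  classical
  refine ⟨h.toFinset.image Prod.fst, fun f hf k => ?_⟩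
  by_contra hc
  exact hf (mem_image.2 ⟨(f, k), (Set.Finite.mem_toFinset h).2 hc, rfl⟩)

theorem l2_eq {φ : HE ℤ → ℝ} (h : FSH φ) : l2 φ = L2x887.nn (cur φ) := by
  classical
  obtain ⟨K, hK⟩ := h.cur
  rw [nn_eq hK, l2]
  congr 1
  rw [tsum_eq_sum (s := K ×ˢ (univ : Finset (Fin 4))), sum_product]
  · rfl
  · intro g hg
    have : g.1 ∉ K := fun hc => hg (mem_product.2 ⟨hc, mem_univ _⟩)
    have := hK g.1 this g.2
    simp only [cur] at this
    rw [show g = (g.1, g.2) from rfl, this]; ring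

theorem FSH.of_cur {φ : HE ℤ → ℝ} (h : FS (FrFinx887.cur φ)) : FSH φ := by
  classical
  obtain ⟨K, hK⟩ := h
  refine ((K ×ˢ (univ : Finset (Fin 4))).finite_toSet).subset fun g hg => ?_
  simp only [coe_product, coe_univ, Set.mem_prod, mem_coe, Set.mem_univ, and_true]
  by_contra hc
  exact hg (hK g.1 hc g.2)

theorem FSH.Aop {φ : HE ℤ → ℝ} (h : FSH φ) (W : BW ℤ) : FSH (Latx683.Aop W φ) := by
  apply FSH.of_cur
  rw [← A_toF']
  exact h.cur.A

/-! ### the backgrounds -/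

open Classical in
/-- starred background of the free background of `T` -/
def wSt (T : Set (ℤ × ℤ)) : BW ℤ := fun z j =>
  if j = 0 then (if (z.1, z.2 - 1) ∈ T ∧ z ∈ T then xc else 0)
  else (if (z.1 - 1, z.2) ∈ T ∧ z ∈ T then xc else 0)

theorem xc_eq : Latx683.xc = xc := rfl

/-- sizes of the free background -/
def uF (T : Set (ℤ × ℤ)) : Fld := toF (wDom T true)

/-- signs of the horizontal bonds -/
def sR {n : ℕ} (X : Fin n → ℤ × ℤ) (v : Face) : ℝ := ray X v 0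

theorem ray_one {n : ℕ} (X : Fin n → ℤ × ℤ) (v : Face) : ray X v 1 = 1 := by
  simp [ray]

theorem sR_sq {n : ℕ} (X : Fin n → ℤ × ℤ) (v : Face) : sR X v ^ 2 = 1 := by
  unfold sR ray
  rw [← prod_pow]
  refine prod_eq_one fun i _ => ?_
  split_ifs <;> norm_num

theorem sR_eq {n : ℕ} (X : Fin n → ℤ × ℤ) (v : Face) :
    sR X v = ∏ i, if (X i).2 = v.2 ∧ (X i).1 ≤ v.1 then (-1 : ℝ) else 1 := by
  unfold sR ray; simp

theorem sR_branch {n : ℕ} {X : Fin n → ℤ × ℤ} (hX : Function.Injective X) (i : Fin n) :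
    sR X ((X i).1 - 1, (X i).2) = -sR X (X i) := by
  classical
  rw [sR_eq, sR_eq, ← mul_prod_erase univ _ (mem_univ i), ← mul_prod_erase univ _ (mem_univ i)]
  have e1 : (if (X i).2 = ((X i).1 - 1, (X i).2).2 ∧ (X i).1 ≤ ((X i).1 - 1, (X i).2).1
      then (-1 : ℝ) else 1) = 1 := by
    rw [if_neg]; simp
  have e2 : (if (X i).2 = (X i).2 ∧ (X i).1 ≤ (X i).1 then (-1 : ℝ) else 1) = -1 := by simp
  rw [e1, e2, one_mul, neg_one_mul, neg_neg]
  refine prod_congr rfl fun j hj => ?_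
  have hj : X j ≠ X i := fun hc => (mem_erase.1 hj).1 (hX hc)
  by_cases h1 : (X j).2 = (X i).2
  · have h2 : (X j).1 ≠ (X i).1 := fun hc => hj (Prod.ext hc h1)
    by_cases h3 : (X j).1 ≤ (X i).1
    · have h4 : (X j).1 ≤ (X i).1 - 1 := by omega
      simp [h1, h3, h4]
    · have h4 : ¬ (X j).1 ≤ (X i).1 - 1 := by omega
      simp [h3, h4]
  · simp [h1]

theorem sR_nonbranch {n : ℕ} {X : Fin n → ℤ × ℤ} {v : Face} (hv : ∀ i, X i ≠ v) :
    sR X (v.1 - 1, v.2) = sR X v := by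
  rw [sR_eq, sR_eq]
  refine prod_congr rfl fun j _ => ?_
  have hj := hv j
  by_cases h1 : (X j).2 = v.2
  · have h2 : (X j).1 ≠ v.1 := fun hc => hj (Prod.ext hc h1)
    by_cases h3 : (X j).1 ≤ v.1
    · have h4 : (X j).1 ≤ v.1 - 1 := by omega
      simp [h1, h3, h4]
    · have h4 : ¬ (X j).1 ≤ v.1 - 1 := by omega
      simp [h3, h4]
  · simp [h1]

theorem uF_pos (T : Set (ℤ × ℤ)) (f : Face) (h : Fin 4) : 0 < uF T f h := by
  have key : ∀ z j, 0 < wDom T true z j := by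
    intro z j
    unfold wDom
    simp only [if_true]
    split_ifs
    · exact xc_pos
    · exact one_pos
  fin_cases h <;> exact key _ _

theorem uF_mem (T : Set (ℤ × ℤ)) (f : Face) (h : Fin 4) : uF T f h = xc ∨ uF T f h = 1 := by
  have key : ∀ z j, wDom T true z j = xc ∨ wDom T true z j = 1 := by
    intro z j
    unfold wDom
    simp only [if_true]
    split_ifs
    · left; rfl
    · right; rfl
  fin_cases h <;> exact key _ _

theorem toF_free {n : ℕ} (T : Set (ℤ × ℤ)) (X : Fin n → ℤ × ℤ) :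
    toF (wX (wDom T true) X) = wf (sR X) (uF T) := by
  funext f h
  fin_cases h
  · rfl
  · show ray X (f.1 + 1, f.2) 1 * _ = _
    rw [ray_one, one_mul]; rfl
  · rfl
  · show ray X f 1 * _ = _
    rw [ray_one, one_mul]; rfl

theorem du_size (p : Prop) [Decidable p] : du (if p then xc else 1) = if p then xc else 0 := by
  split_ifs
  · exact du_xc
  · exact du_one

theorem toF_star {n : ℕ} (T : Set (ℤ × ℤ)) (X : Fin n → ℤ × ℤ) :
    toF (wX (wSt T) X) = ws (sR X) (uF T) := by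
  classical
  have key : ∀ z j, du (wDom T true z j) = if z ∈ T ∧ z + unitVec j ∈ T then xc else 0 := by
    intro z j
    unfold wDom
    simp only [if_true]
    exact du_size _
  funext f h
  obtain ⟨a, b⟩ := f
  fin_cases h
  · show ray X (a, b) 0 * wSt T (a, b) 0 = sR X (a, b) * du (wDom T true (a, b - 1) 1)
    rw [key]
    simp [wSt, unitVec, sR]
  · show ray X (a + 1, b) 1 * wSt T (a + 1, b) 1 = du (wDom T true (a, b) 0)
    rw [key, ray_one, one_mul]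
    simp [wSt, unitVec]
  · show ray X (a, b + 1) 0 * wSt T (a, b + 1) 0 = sR X (a, b + 1) * du (wDom T true (a, b) 1)
    rw [key]
    simp [wSt, unitVec, sR]
  · show ray X (a, b) 1 * wSt T (a, b) 1 = du (wDom T true (a - 1, b) 0)
    rw [key, ray_one, one_mul]
    simp [wSt, unitVec]

theorem ws_zero_off {n : ℕ} (T : Set (ℤ × ℤ)) (X : Fin n → ℤ × ℤ) {f : Face} (hf : f ∉ T)
    (h : Fin 4) : toF (wX (wSt T) X) f h = 0 := by
  classical
  obtain ⟨a, b⟩ := f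
  fin_cases h
  · show ray X (a, b) 0 * wSt T (a, b) 0 = 0
    simp [wSt, hf]
  · show ray X (a + 1, b) 1 * wSt T (a + 1, b) 1 = 0
    simp [wSt, hf]
  · show ray X (a, b + 1) 0 * wSt T (a, b + 1) 0 = 0
    simp [wSt, hf]
  · show ray X (a, b) 1 * wSt T (a, b) 1 = 0
    simp [wSt, hf]

theorem ws_closed {n : ℕ} (T : Set (ℤ × ℤ)) (X : Fin n → ℤ × ℤ) {f : Face} (h : Fin 4)
    (h0 : toF (wX (wSt T) X) f h ≠ 0) : nb f h ∈ T := by
  by_contra hc
  apply h0
  rw [← sym_toF (wX (wSt T) X) f h]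
  exact ws_zero_off T X hc _

/-! ### the constants -/

/-- gap constant of a plus type background in a box of radius `r` -/
def CG (r : ℝ) : ℝ := CQ * (9 + 8 * r) + 3

/-- `l²` norm of a corner column -/
def CP (r : ℝ) : ℝ := 2 * Real.sqrt (2 * CQ * CG r)

/-- entries of the corner matrix -/
def CB (r ρ : ℝ) : ℝ := max 1 (2 * (Real.sqrt (2 * CQ / ρ) * CP r))

/-- entries of the inverse corner matrix -/
def CN' (n : ℕ) (r ρ c₀ : ℝ) : ℝ := n.factorial * CB r ρ ^ n / c₀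

/-- the gap constant of the free background -/
def CF (n : ℕ) (r ρ c₀ : ℝ) : ℝ :=
  2 * (4 * CG r + (n : ℝ) ^ 2 * CN' n r ρ c₀ * CP r * (4 + 4 * CP r))

theorem CG_nonneg {r : ℝ} (hr : 0 ≤ r) : 0 ≤ CG r := by unfold CG CQ; positivity

/-! ### inverse of the corner matrix -/

theorem inv_entry {n : ℕ} (B : Matrix (Fin n) (Fin n) ℝ) {b c₀ : ℝ} (hb1 : 1 ≤ b)
    (hb : ∀ i j, |B i j| ≤ b) (hc₀ : 0 < c₀) (hdet : c₀ ≤ |B.det|) (i j : Fin n) :
    |B⁻¹ i j| ≤ n.factorial * b ^ n / c₀ := by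
  classical
  have hd : 0 < |B.det| := lt_of_lt_of_le hc₀ hdet
  rw [Matrix.inv_def, Ring.inverse_eq_inv', Matrix.smul_apply, smul_eq_mul, abs_mul, abs_inv,
    Matrix.adjugate_apply]
  have h1 : |(B.updateRow j (Pi.single i 1)).det| ≤ n.factorial * b ^ n := by
    have h2 := Matrix.det_le (A := B.updateRow j (Pi.single i 1)) (abv := AbsoluteValue.abs)
      (x := b) (fun k l => by
        show |(B.updateRow j (Pi.single i 1)) k l| ≤ b
        rw [Matrix.updateRow_apply]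
        split_ifs with hk
        · by_cases hl : l = i
          · subst hl; simpa using hb1
          · simp [hl]; linarith
        · exact hb k l)
    simpa [nsmul_eq_mul] using h2
  rw [inv_mul_le_iff₀ hd]
  calc |(B.updateRow j (Pi.single i 1)).det| ≤ n.factorial * b ^ n := h1
    _ = c₀ * (n.factorial * b ^ n / c₀) := by field_simp
    _ ≤ |B.det| * (n.factorial * b ^ n / c₀) := by
        refine mul_le_mul_of_nonneg_right hdet ?_
        positivity

/-! ### main theorems -/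

/-- **gap of the free background with spin insertions** -/
theorem free_gap_box {n : ℕ} {X : Fin n → ℤ × ℤ} (hX : Function.Injective X)
    {T : Finset (ℤ × ℤ)} (hXT : ∀ i, X i ∈ T) {c : Face} {r : ℝ} (hr : 0 ≤ r)
    (hE : ∀ f ∈ T, |((f.1 : ℝ) - (c.1 : ℝ))| ≤ r ∧ |((f.2 : ℝ) - (c.2 : ℝ))| ≤ r)
    {ρ : ℝ} (hρ : 0 < ρ) (hsep : ∀ i j, i ≠ j → ρ ≤ dm (X i) (X j))
    {c₀ : ℝ} (hc₀ : 0 < c₀) (S : HE ℤ → HE ℤ → ℝ)
    (hS : ∀ g h', Aop (wX (wSt (T : Set (ℤ × ℤ))) X) (fun h => S h h') g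
      = -(Pi.single h' 1 : HE ℤ → ℝ) g)
    (hdet : c₀ ≤ |(Matrix.of fun i j : Fin n => ∑ k, ∑ l, S (X i, k) (X j, l)).det|)
    {φ : HE ℤ → ℝ} (hφ : FSH φ) :
    l2 φ ≤ CF n r ρ c₀ * l2 (Aop (wX (wDom (T : Set (ℤ × ℤ)) true) X) φ) := by
  classical
  set s := sR X with hs
  set u := uF (T : Set (ℤ × ℤ)) with hu
  have hws : toF (wX (wSt (T : Set (ℤ × ℤ))) X) = ws s u := toF_star _ X
  have hwf : toF (wX (wDom (T : Set (ℤ × ℤ)) true) X) = wf s u := toF_free _ X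
  have hpl : IsPlus (ws s u) := isPlus_ws (sR_sq X) (uF_mem _)
  have hsy : Sym (ws s u) := sym_ws s u
  have hz : ∀ f, f ∉ T → ∀ h, ws s u f h = 0 := fun f hf h => by
    rw [← hws]; exact ws_zero_off _ X (by simpa using hf) h
  have hcl : ∀ f ∈ T, ∀ h, ws s u f h ≠ 0 → nb f h ∈ T := fun f _ h h0 => by
    rw [← hws] at h0; simpa using ws_closed _ X h h0
  have hgap : ∀ ψ, FS ψ → nn ψ ≤ CG r * nn (A (ws s u) ψ) := fun ψ hψ =>
    PlGapx887.gap hsy hpl hz hr hE hψ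
  have hpt : ∀ ψ, FS ψ → ∀ v, nsq (ψ v) ≤ 2 * CQ * (nn ψ * nn (A (ws s u) ψ)) :=
    fun ψ hψ v => PlGapx887.pt hsy hpl hψ v
  have hCG := CG_nonneg hr
  have hCQ : (0 : ℝ) ≤ CQ := by unfold CQ; norm_num
  -- the corner columns
  have hcol := fun i => source hsy T hcl hCG (by positivity : (0 : ℝ) ≤ 2 * CQ) hgap hpt (X i) (hXT i)
  choose Ψ hΨ0 hΨA hΨn using hcol
  have hΨF : ∀ i, FS (Ψ i) := fun i => ⟨T, hΨ0 i⟩
  have hP0 : 0 ≤ CP r := by unfold CP; positivity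
  -- the corner matrix
  let B : Matrix (Fin n) (Fin n) ℝ := Matrix.of fun i j => tot (Ψ j) (X i)
  have hBS : ∀ i j, B i j = -∑ k, ∑ l, S (X i, k) (X j, l) := by
    intro i j
    -- `Ψ j + ∑_l S(., (X j, l))` vanishes
    let χ : HE ℤ → ℝ := fun h => Ψ j h.1 h.2 + ∑ l, S h (X j, l)
    have hχA : ∀ g, Aop (wX (wSt (T : Set (ℤ × ℤ))) X) χ g = 0 := by
      intro g
      have e1 : χ = (fun h => Ψ j h.1 h.2) + ∑ l, fun h => S h (X j, l) := by
        funext h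
        simp [χ, Finset.sum_apply]
      rw [e1, map_add, map_sum, Pi.add_apply, Finset.sum_apply]
      have e2 : Aop (wX (wSt (T : Set (ℤ × ℤ))) X) (fun h => Ψ j h.1 h.2) g = mS (X j) g.1 g.2 := by
        have := A_toF (wX (wSt (T : Set (ℤ × ℤ))) X) (fun h => Ψ j h.1 h.2) g.1 g.2
        rw [hws] at this
        rw [← hΨA j, show g = (g.1, g.2) from rfl, ← this]
        rfl
      rw [e2, sum_congr rfl fun l _ => hS g (X j, l)]
      obtain ⟨g1, g2⟩ := g
      simp only [mS, Pi.single_apply, Prod.mk.injEq, sum_neg_distrib]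
      by_cases hg : g1 = X j
      · simp [hg]
      · simp [hg]
    have hχ0 : ∀ f, f ∉ T → ∀ h, cur χ f h = 0 := by
      intro f hf
      have e : ∀ h, A0 (cur χ f) h = 0 := by
        intro h
        have h1 := A_toF (wX (wSt (T : Set (ℤ × ℤ))) X) χ f h
        rw [hχA, hws] at h1
        simpa [A, Y, hz f hf h] using h1
      have e0 := e 0
      have e1 := e 1
      have e2 := e 2
      have e3 := e 3
      simp only [A0_zero, A0_one, A0_two, A0_three] at e0 e1 e2 e3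
      intro h
      fin_cases h
      · show cur χ f 0 = 0; linarith
      · show cur χ f 1 = 0; linarith
      · show cur χ f 2 = 0; linarith
      · show cur χ f 3 = 0; linarith
    have hχF : FS (cur χ) := ⟨T, hχ0⟩
    have hA0 : A (ws s u) (cur χ) = 0 := by
      rw [← hws, A_toF']
      funext f h
      exact hχA (f, h)
    have hn := hgap _ hχF
    rw [hA0, nn_zero, mul_zero] at hn
    have hz0 : ∀ k, Ψ j (X i) k + ∑ l, S (X i, k) (X j, l) = 0 := by
      intro k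
      have h1 := abs_le_nn hχF (X i) k
      have h2 : |cur χ (X i) k| ≤ 0 := h1.trans hn
      exact abs_nonpos_iff.1 h2
    show tot (Ψ j) (X i) = _
    rw [Fin.sum_univ_four (f := fun k => ∑ l, S (X i, k) (X j, l))]
    unfold tot
    have := hz0 0
    have := hz0 1
    have := hz0 2
    have := hz0 3
    linarith
  have hdetB : c₀ ≤ |B.det| := by
    have e : B = -(Matrix.of fun i j : Fin n => ∑ k, ∑ l, S (X i, k) (X j, l)) := by
      ext i j
      rw [hBS]; rfl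
    rw [e, Matrix.det_neg, abs_mul, abs_pow, abs_neg, abs_one, one_pow, one_mul]
    exact hdet
  have hb : ∀ i j, |B i j| ≤ CB r ρ := by
    intro i j
    show |tot (Ψ j) (X i)| ≤ _
    by_cases hij : i = j
    · subst hij
      have h1 : tot (Ψ i) (X i) = 0 := by
        have h2 := ip_A hsy (hΨF i) (ψ := Ψ i)
        rw [hΨA i, ip_mS, ip_comm, ip_mS] at h2
        linarith
      rw [h1, abs_zero]
      exact zero_le_one.trans (le_max_left _ _)
    · have h1 := entry hsy hpl (hΨF j) (X i) hρ fun f hf h => by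
        rw [hΨA j]
        have : f ≠ X j := fun hc => by
          have := hsep i j hij
          rw [← hc] at this
          linarith
        simp [mS, this]
      refine le_max_of_le_right ((abs_tot_le _).trans ?_)
      have h2 : Real.sqrt (nsq (Ψ j (X i))) ≤ Real.sqrt (2 * CQ / ρ) * CP r := by
        calc Real.sqrt (nsq (Ψ j (X i))) ≤ Real.sqrt (2 * CQ / ρ * nn (Ψ j) ^ 2) :=
              Real.sqrt_le_sqrt h1
          _ = Real.sqrt (2 * CQ / ρ) * nn (Ψ j) := by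
              rw [Real.sqrt_mul (by positivity), Real.sqrt_sq (nn_nonneg _)]
          _ ≤ Real.sqrt (2 * CQ / ρ) * CP r :=
              mul_le_mul_of_nonneg_left (hΨn j) (Real.sqrt_nonneg _)
      linarith
  have hinv := inv_entry B (le_max_left _ _) hb hc₀ hdetB
  have hBinv : B⁻¹ * B = 1 := by
    refine Matrix.nonsing_inv_mul B (Ne.isUnit fun h => ?_)
    rw [h, abs_zero] at hdetB
    linarith
  have hK0 : 0 ≤ CN' n r ρ c₀ := by
    unfold CN'
    have : 0 ≤ CB r ρ := zero_le_one.trans (le_max_left _ _)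
    positivity
  rw [l2_eq hφ, l2_eq (hφ.Aop _), ← A_toF', hwf]
  rcases Nat.eq_zero_or_pos n with hn0 | hn0
  · -- no insertion
    subst hn0
    have := free_gap (s := s) (u := u) (sym_toF _) (sR_sq X) (uF_pos _) ∅
      (fun v hv => absurd hv (notMem_empty v)) (fun v _ => sR_nonbranch fun i => i.elim0)
      hP0 hK0 hgap (fun _ => 0) (fun v hv => absurd hv (notMem_empty v))
      (fun v hv => absurd hv (notMem_empty v)) (fun v hv => absurd hv (notMem_empty v))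
      (fun _ _ => 0) (fun v hv => absurd hv (notMem_empty v))
      (fun v hv => absurd hv (notMem_empty v)) (cur φ) hφ.cur
    simpa [CF] using this
  · have : Nonempty (Fin n) := ⟨⟨0, hn0⟩⟩
    let inv := Function.invFun X
    have hinvX : ∀ i, inv (X i) = i := Function.leftInverse_invFun hX
    have hmem : ∀ v, v ∈ univ.image X → ∃ i, X i = v := fun v hv => by
      simpa using hv
    have := free_gap (s := s) (u := u) (sym_toF _) (sR_sq X) (uF_pos _) (univ.image X)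
      (fun v hv => by obtain ⟨i, rfl⟩ := hmem v hv; exact sR_branch hX i)
      (fun v hv => sR_nonbranch fun i hc => hv (mem_image.2 ⟨i, mem_univ _, hc⟩))
      hP0 hK0 hgap (fun v => Ψ (inv v)) (fun v _ => hΨF _)
      (fun v hv => by obtain ⟨i, rfl⟩ := hmem v hv; simp only [hinvX]; exact hΨA i)
      (fun v _ => hΨn _) (fun v z => B⁻¹ (inv v) (inv z))
      (fun v hv w hw => by
        obtain ⟨i, rfl⟩ := hmem v hv
        obtain ⟨j, rfl⟩ := hmem w hw
        rw [sum_image fun _ _ _ _ h => hX h]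
        simp only [hinvX]
        have h1 : (B⁻¹ * B) i j = (1 : Matrix (Fin n) (Fin n) ℝ) i j := by rw [hBinv]
        rw [Matrix.mul_apply, Matrix.one_apply] at h1
        refine h1.trans ?_
        by_cases hij : i = j
        · subst hij; simp
        · rw [if_neg hij, if_neg fun hc => hij (hX hc)])
      (fun v _ z _ => hinv _ _) (cur φ) hφ.cur
    rwa [card_image_of_injective _ hX, card_univ, Fintype.card_fin] at this

/-- faces touching `T` -/
def fT (T : Finset (ℤ × ℤ)) : Finset (ℤ × ℤ) :=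
  T.biUnion fun v => {v, (v.1 - 1, v.2), (v.1, v.2 - 1), (v.1 - 1, v.2 - 1)}

theorem isPlus_plus {n : ℕ} (T : Set (ℤ × ℤ)) (X : Fin n → ℤ × ℤ) :
    IsPlus (toF (wX (wDom T false) X)) := by
  classical
  have hr : ∀ z j, ray X z j ^ 2 = 1 := by
    intro z j
    unfold ray
    rw [← prod_pow]
    refine prod_eq_one fun i _ => ?_
    split_ifs <;> norm_num
  have key : ∀ z j, (wX (wDom T false) X z j) ^ 2 = xc ^ 2 ∨ wX (wDom T false) X z j = 0 := by
    intro z j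
    unfold wX wDom
    simp only [Bool.false_eq_true, if_false]
    split_ifs
    · left; rw [mul_pow, hr, one_mul, xc_eq]
    · right; rw [mul_zero]
  intro f h
  fin_cases h <;> exact key _ _

theorem plus_zero_off {n : ℕ} (T : Finset (ℤ × ℤ)) (X : Fin n → ℤ × ℤ) {f : Face}
    (hf : f ∉ fT T) (h : Fin 4) : toF (wX (wDom (T : Set (ℤ × ℤ)) false) X) f h = 0 := by
  classical
  obtain ⟨a, b⟩ := f
  have c1 : (a, b) ∉ T := fun hc => hf (mem_biUnion.2 ⟨_, hc, by simp⟩)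
  have c2 : (a + 1, b) ∉ T := fun hc => hf (mem_biUnion.2 ⟨_, hc, by simp⟩)
  have c3 : (a, b + 1) ∉ T := fun hc => hf (mem_biUnion.2 ⟨_, hc, by simp⟩)
  have c4 : (a + 1, b + 1) ∉ T := fun hc => hf (mem_biUnion.2 ⟨_, hc, by simp⟩)
  fin_cases h
  · show ray X (a, b) 0 * wDom (T : Set (ℤ × ℤ)) false (a, b) 0 = 0
    simp [wDom, unitVec, c1, c2]
  · show ray X (a + 1, b) 1 * wDom (T : Set (ℤ × ℤ)) false (a + 1, b) 1 = 0
    simp [wDom, unitVec, c2, c4]
  · show ray X (a, b + 1) 0 * wDom (T : Set (ℤ × ℤ)) false (a, b + 1) 0 = 0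
    simp [wDom, unitVec, c3, c4]
  · show ray X (a, b) 1 * wDom (T : Set (ℤ × ℤ)) false (a, b) 1 = 0
    simp [wDom, unitVec, c1, c3]

/-- **gap of the plus background**, any insertions -/
theorem plus_gap_box {n : ℕ} (X : Fin n → ℤ × ℤ) {T : Finset (ℤ × ℤ)} {c : Face} {r : ℝ}
    (hr : 0 ≤ r)
    (hE : ∀ f ∈ T, |((f.1 : ℝ) - (c.1 : ℝ))| ≤ r ∧ |((f.2 : ℝ) - (c.2 : ℝ))| ≤ r)
    {φ : HE ℤ → ℝ} (hφ : FSH φ) :
    l2 φ ≤ CG (r + 1) * l2 (Aop (wX (wDom (T : Set (ℤ × ℤ)) false) X) φ) := by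
  classical
  rw [l2_eq hφ, l2_eq (hφ.Aop _), ← A_toF']
  refine PlGapx887.gap (sym_toF _) (isPlus_plus _ X) (T := fT T) (fun f hf h =>
    plus_zero_off T X hf h) (c := c) (by linarith) ?_ hφ.cur
  intro f hf
  obtain ⟨v, hv, hfv⟩ := mem_biUnion.1 hf
  obtain ⟨h1, h2⟩ := hE v hv
  rw [abs_le] at h1 h2
  simp only [mem_insert, mem_singleton] at hfv
  rcases hfv with rfl | rfl | rfl | rfl
  · constructor <;> rw [abs_le] <;> constructor <;> linarith
  · constructor <;> rw [abs_le] <;> constructor <;> push_cast <;> linarith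
  · constructor <;> rw [abs_le] <;> constructor <;> push_cast <;> linarith
  · constructor <;> rw [abs_le] <;> constructor <;> push_cast <;> linarith

end Crest.Agent.R165.FrFinx887
end
private theorem rz_6b68b96c1a : type_of% @_root_.Crest.Agent.R165.FrFinx887.toF.eq_1 := @_root_.Crest.Agent.R165.FrFinx887.toF.eq_1 -- L36
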