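import Crest.Agent.R165.RIface_891
import Crest.Agent.R165.L2_887
import Crest.Agent.R165.FRDLat_439
import Crest.Agent.R165.Cov2_359

/-!
# Row 165 (S0250): gap, inverse and covariance bounds of finite plus backgrounds

Input: the universal gap `GapU C` of block R (`RIface_891`).

* `gap_fin`: weights in `{±x_c, 0}`, zero off a box of radius `R`: `|φ| ≤ (C R + 3) |A φ|` for all
  finitely supported `φ`;
* `Lat_683` form: `gap_lat : |l| ≤ (C R + 3) |AopF w l|`, `abtw` (input of `FRDInf_439`);
* `SF`: the inverse on finitely supported fields, `isNegInv`, `restS_one_eq`: the covariance of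
  `FRDInf_439` at `p = 1` is `covS S`; `form_le`: `|⟨l, S m⟩| ≤ (C R + 3) |l| |m|`;
* domains: `PlusBox` of `wX (wDom T false) X` for `T` in a box.
-/

set_option autoImplicit false
set_option linter.unusedSimpArgs false

noncomputable section

namespace Crest.Agent.R165.GapFinx40

open Finset Crest.Agent.R165.Tr1x40 Crest.Agent.R165.Tr2x40 Crest.Agent.R165.RIfx891
  Crest.Agent.R165.L2x887

/-! ### abstract form on `Tr1_40` fields -/

/-- all weights in `{±x_c, 0}`, zero at the faces off the box -/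
structure PlusBox (w : Tr1x40.Fld) (x : Face) (R : ℝ) : Prop where
  sym : Sym w
  plus : IsPlus w
  out : ∀ f, f ∉ bx x R → ∀ h, w f h = 0

theorem PlusBox.mono {w : Tr1x40.Fld} {x : Face} {R R' : ℝ} (h : R ≤ R') (H : PlusBox w x R) :
    PlusBox w x R' := ⟨H.sym, H.plus, fun f hf => H.out f fun hc => hf (bx_mono x h hc)⟩



/-! ### `Lat_683` form -/

section lat

open Crest.Agent.R165.Latx683 Crest.Agent.R165.GDefx387 Crest.Agent.R165.FRDAbsx439
  Crest.Agent.R165.FRDInfx439 Crest.Agent.R165.FRDLatx439 Crest.Agent.R165.Gr0x606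












/-! ### the inverse on finitely supported fields -/

/-- the linear map `l ↦ S l` on finitely supported fields, for a kernel with finite columns -/
def SF (S : HE ℤ → HE ℤ → ℝ) (hf : ∀ k, (Function.support fun h => S h k).Finite) :
    Latx683.Fld ℤ →ₗ[ℝ] Latx683.Fld ℤ :=
  Finsupp.linearCombination ℝ fun k => Finsupp.ofSupportFinite (fun h => S h k) (hf k)

theorem SF_single (S : HE ℤ → HE ℤ → ℝ) (hf : ∀ k, (Function.support fun h => S h k).Finite) (k : HE ℤ) :
    SF S hf (Finsupp.single k 1) = Finsupp.ofSupportFinite (fun h => S h k) (hf k) := by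
  rw [SF, Finsupp.linearCombination_single, one_smul]

theorem SF_apply (S : HE ℤ → HE ℤ → ℝ) (hf : ∀ k, (Function.support fun h => S h k).Finite)
    (l : Latx683.Fld ℤ) (h : HE ℤ) : SF S hf l h = ∑ k ∈ l.support, l k * S h k := by
  rw [SF, Finsupp.linearCombination_apply, Finsupp.sum, Finsupp.finsetSum_apply]
  exact sum_congr rfl fun k _ => rfl

/-- `SF` is `-A⁻¹` -/
theorem isNegInv {w : BW ℤ} {S : HE ℤ → HE ℤ → ℝ} (hS : IsCov w S)
    (hf : ∀ k, (Function.support fun h => S h k).Finite)
    (hinj : ∀ l : Latx683.Fld ℤ, AopF w l = 0 → l = 0) : IsNegInv (AopF w) (SF S hf) := by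
  have hr : ∀ l, AopF w (SF S hf l) = -l := by
    intro l
    have e : (AopF w ∘ₗ SF S hf) = -LinearMap.id := by
      apply Finsupp.lhom_ext
      intro k c
      have ec : (Finsupp.single k c : Latx683.Fld ℤ) = c • Finsupp.single k 1 := by
        rw [Finsupp.smul_single, smul_eq_mul, mul_one]
      rw [ec, map_smul, map_smul]
      congr 1
      rw [LinearMap.comp_apply, SF_single, LinearMap.neg_apply, LinearMap.id_apply]
      ext h
      rw [AopF_coe, Finsupp.ofSupportFinite_coe, hS.inv h k, Finsupp.neg_apply, single_coe]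
    have := congrArg (fun T : Latx683.Fld ℤ →ₗ[ℝ] Latx683.Fld ℤ => T l) e
    simpa using this
  refine ⟨hr, fun l => ?_⟩
  have h1 : AopF w (SF S hf (AopF w l) + l) = 0 := by rw [map_add, hr]; abel
  have h2 := hinj _ h1
  exact eq_neg_of_add_eq_zero_left h2


/-- `⟨l, S m⟩` is the bilinear form of the kernel -/
theorem dot_SF (S : HE ℤ → HE ℤ → ℝ) (hf : ∀ k, (Function.support fun h => S h k).Finite) (l m : Latx683.Fld ℤ) :
    dotF (HE ℤ) l (SF S hf m) = formS S l m := by
  rw [formS_apply, dotF_apply, Finsupp.sum]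
  refine sum_congr rfl fun h _ => ?_
  rw [SF_apply, mul_sum]
  exact sum_congr rfl fun k _ => by ring

/-- the full covariance of `FRDInf_439` is the covariance `covS S` -/
theorem restS_one_eq {w : BW ℤ} {S : HE ℤ → HE ℤ → ℝ} (hS : IsCov w S)
    (hf : ∀ k, (Function.support fun h => S h k).Finite) (hN : IsNegInv (AopF w) (SF S hf)) :
    restS (AopF_asy w) hN 1 = covS S hS.skew := by
  apply Cov.ext
  refine LinearMap.ext fun l => LinearMap.ext fun m => ?_
  rw [restS_apply, map_one, Module.End.one_apply, preF_ip, dot_SF]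
  rfl


/-! ### backgrounds of domains -/


theorem ray_sq {n : ℕ} (X : Fin n → ℤ × ℤ) (z : ℤ × ℤ) (j : Fin 2) : ray X z j ^ 2 = 1 := by
  unfold ray
  rw [← prod_pow]
  refine prod_eq_one fun i _ => ?_
  split_ifs <;> norm_num


open Crest.ProbabilityR.IsingModel in
/-- sites of a bounded domain -/
theorem sites_le {D : Set ℂ} {B a : ℝ} (hD : ∀ z ∈ D, ‖z‖ ≤ B) (ha : 0 < a) :
    ∀ z ∈ domainSites D a, |(z.1 : ℝ) - ((0, 0) : Face).1| ≤ B / a ∧
      |(z.2 : ℝ) - ((0, 0) : Face).2| ≤ B / a := by
  intro z hz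
  have h1 : ‖meshPoint a z‖ ≤ B := hD _ hz
  have h2 : |a * z.1| ≤ B := (Complex.abs_re_le_norm _).trans h1
  have h3 : |a * z.2| ≤ B := (Complex.abs_im_le_norm _).trans h1
  rw [abs_mul, abs_of_pos ha] at h2 h3
  simp only [Int.cast_zero, sub_zero]
  exact ⟨by rw [le_div_iff₀ ha]; linarith, by rw [le_div_iff₀ ha]; linarith⟩



/-- `GDef_387.l2` of a finitely supported field -/
theorem l2_eq {G : Type} [CommRing G] (l : Latx683.Fld G) :
    l2 (l : HE G → ℝ) = Real.sqrt (dotF (HE G) l l) := by
  classical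
  unfold l2
  congr 1
  rw [dotF_eq_sum l l l.support (Finset.Subset.refl _), tsum_eq_sum (s := l.support)]
  · exact Finset.sum_congr rfl fun i _ => by ring
  · intro i hi
    rw [Finsupp.notMem_support_iff.mp hi]; norm_num


end lat

end Crest.Agent.R165.GapFinx40
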