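import Crest.Agent.R165.UDomC_420
import Crest.Agent.R165.UFin_420

/-!
# Row 165 (S0250), U6-DOM part J2 (helper420): centred bonds from the finite-set identity

`J2Set T w S` : `Σ_N Π_{e∈A} ε_e Π_{walls N} w = (Σ_N Π_{walls N} w) · E_S[Π_{e∈A} (1 - 2 w_e b_e)]` for all
finite sets `A` of bonds (output of block J) gives `J2Leaf`.
-/

set_option autoImplicit false

noncomputable section

open Filter Topology Finset
open Crest.ProbabilityR.IsingModel

namespace Crest.Agent.R165.UJ2x420

open Crest.Agent.R165.Gr0x606 Crest.Agent.R165.Gr1x606 Crest.Agent.R165.Enx599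
open Crest.Agent.R165.J1ax606 Crest.Agent.R165.J1bx606
open Crest.Agent.R165.Topx683 Crest.Agent.R165.Redx541 Crest.Agent.R165.Red2x541
  Crest.Agent.R165.Centx541
open Crest.Agent.R165.Latx683 (BW hp hq wDom ray wX IsCov covS formS Fld)
open Crest.Agent.R165.UDomBx420 Crest.Agent.R165.UKerx420 Crest.Agent.R165.UFinx420
open Crest.Agent.R165.UDomAx420 (eps tip)
open Crest.Agent.R165.UDomCx420

/-- the exact bond identity on finite sets of bonds -/
def J2Set (T : Finset (ℤ × ℤ)) (w : BW ℤ) (S : Cov (Fld ℤ)) : Prop :=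
  ∀ A : Finset (EG ℤ), Nsum T w (fun s => ∏ e ∈ A, eps s e) =
    Nsum T w (fun _ => 1) *
      EE S ((∏ e ∈ A, (1 - (2 * w e.1 e.2) • bb e) : Ge (VI (HE ℤ))) : Gr (VI (HE ℤ)))

theorem pe_eq (e : EG ℤ) : pe e = hp e.1 e.2 := by
  obtain ⟨⟨z1, z2⟩, j⟩ := e
  fin_cases j
  · rfl
  · simp [pe, hp]

theorem qe_eq (e : EG ℤ) : qe e = hq e.1 e.2 := by
  obtain ⟨⟨z1, z2⟩, j⟩ := e
  fin_cases j
  · simp [qe, hq]
  · rfl

theorem Nsum_sub (T : Finset (ℤ × ℤ)) (w : BW ℤ) (f g : (ℤ × ℤ → Bool) → ℝ) (c : ℝ) :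
    Nsum T w (fun s => f s - c * g s) = Nsum T w f - c * Nsum T w g := by
  unfold Nsum
  rw [Finset.mul_sum, ← Finset.sum_sub_distrib]
  refine Finset.sum_congr rfl fun N _ => ?_
  ring


/-- distinct points give distinct bonds for small mesh -/
theorem eventually_distinct {m : ℕ} (y : Fin m → ℂ) (hy : Function.Injective y) :
    ∀ᶠ a in 𝓝[>] (0 : ℝ), Function.Injective (fun k => meshIndex a (y k)) := by
  have key : ∀ k l : Fin m, ∀ᶠ a in 𝓝[>] (0 : ℝ),
      meshIndex a (y k) = meshIndex a (y l) → k = l := by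
    intro k l
    by_cases h : k = l
    · exact Eventually.of_forall fun _ _ => h
    · have hne : y k ≠ y l := fun e => h (hy e)
      have h1 := tendsto_mesh (y k) 0
      have h2 := tendsto_mesh (y l) 0
      have h3 : ∀ᶠ a in 𝓝[>] (0 : ℝ), meshPoint a (meshIndex a (y k) + 0) ≠
          meshPoint a (meshIndex a (y l) + 0) := by
        have := (h1.prodMk_nhds h2).eventually
          ((isOpen_ne_fun continuous_fst continuous_snd).mem_nhds
            (show (y k, y l) ∈ {p : ℂ × ℂ | p.1 ≠ p.2} from hne))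
        exact this
      filter_upwards [h3] with a ha hh
      exact absurd (by rw [hh]) ha
  filter_upwards [eventually_all.2 fun k => eventually_all.2 fun l => key k l] with a ha k l h
  exact ha k l h



end Crest.Agent.R165.UJ2x420
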