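import Crest.Agent.R165.UZs_420
import Crest.Agent.R165.UJ2_420
import Crest.Agent.R165.J2c_606

/-!
# Row 165 (S0250), U6-DOM (helper420): bridge block J ↔ `Lat_683`, plus boundary conditions

* `aop_eq`, `isInv_of_isCov`, `isCov_of_fInv`, `covS_eq`, `cut_eq`, `Zs_eq_Nsum` : bridges
* `exCov_plus`, `j2set_plus` : the plus halves of `ExCov` and `J2SetLeaf`
-/

set_option autoImplicit false
set_option linter.unusedSimpArgs false

noncomputable section

open Filter Topology Finset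
open Crest.ProbabilityR.IsingModel

namespace Crest.Agent.R165.UJ3x420

open Crest.Agent.R165.Gr0x606 Crest.Agent.R165.Gr1x606 Crest.Agent.R165.J1ax606
  Crest.Agent.R165.J1bx606 Crest.Agent.R165.J1cx606
open Crest.Agent.R165.J2ax606 (IsInv PP)
open Crest.Agent.R165.J2bx606 (FInv)
open Crest.Agent.R165.J2cx606 (sig sgr cut Zs BB J2_plus exists_finv_plus)
open Crest.Agent.R165.Topx683 Crest.Agent.R165.Redx541 Crest.Agent.R165.Red2x541
open Crest.Agent.R165.Latx683 (BW hp hq wDom ray wX IsCov covS formS Fld)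
open Crest.Agent.R165.UKerx420 Crest.Agent.R165.UFinx420 Crest.Agent.R165.UJ2x420
open Crest.Agent.R165.UDomCx420 Crest.Agent.R165.UZsx420

section gen
variable {G : Type} [CommRing G]

/-- the two half-edge operators agree -/
theorem aop_eq (w : BW G) (φ : HE G → ℝ) (h : HE G) :
    J2ax606.Aop (fun e => w e.1 e.2) φ h = Latx683.Aop w φ h := by
  obtain ⟨⟨f1, f2⟩, a⟩ := h
  have e1 : (1 : Fin 4) ≠ 0 := by decide
  have e2 : (2 : Fin 4) ≠ 0 := by decide
  have e3 : (3 : Fin 4) ≠ 0 := by decide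
  have e4 : (2 : Fin 4) ≠ 1 := by decide
  have e5 : (3 : Fin 4) ≠ 1 := by decide
  have e6 : (3 : Fin 4) ≠ 2 := by decide
  have l1 : ¬ (1 : Fin 4) < 0 := by decide
  have l2 : ¬ (2 : Fin 4) < 0 := by decide
  have l3 : ¬ (3 : Fin 4) < 0 := by decide
  have l4 : ¬ (2 : Fin 4) < 1 := by decide
  have l5 : ¬ (3 : Fin 4) < 1 := by decide
  have l6 : ¬ (3 : Fin 4) < 2 := by decide
  have m1 : (0 : Fin 4) < 1 := by decide
  have m2 : (0 : Fin 4) < 2 := by decide
  have m3 : (0 : Fin 4) < 3 := by decide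
  have m4 : (1 : Fin 4) < 2 := by decide
  have m5 : (1 : Fin 4) < 3 := by decide
  have m6 : (2 : Fin 4) < 3 := by decide
  have s0 : J2ax606.sg 0 = 1 := by unfold J2ax606.sg; rw [if_pos (by decide)]
  have s1 : J2ax606.sg 1 = 1 := by unfold J2ax606.sg; rw [if_pos (by decide)]
  have s2 : J2ax606.sg 2 = -1 := by unfold J2ax606.sg; rw [if_neg (by decide)]
  have s3 : J2ax606.sg 3 = -1 := by unfold J2ax606.sg; rw [if_neg (by decide)]
  fin_cases a
  · show J2ax606.Aop (fun e => w e.1 e.2) φ ((f1, f2), 0) = Latx683.Aop w φ ((f1, f2), 0)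
    rw [Latx683.Aop_S]
    simp only [J2ax606.Aop, J2ax606.a4, J2ax606.ed, J2ax606.bar, Fin.sum_univ_four,
      Latx683.yN, s0, e1, e2, e3, l1, l2, l3, m1, m2, m3, lt_irrefl, if_true, if_false,
      Prod.mk_sub_mk, sub_zero, sub_add_cancel]
    ring
  · show J2ax606.Aop (fun e => w e.1 e.2) φ ((f1, f2), 1) = Latx683.Aop w φ ((f1, f2), 1)
    rw [Latx683.Aop_E]
    simp only [J2ax606.Aop, J2ax606.a4, J2ax606.ed, J2ax606.bar, Fin.sum_univ_four,
      Latx683.yE, s1, e1, e2, e3, l1, l2, l3, m1, m2, m3, m4, m5, l4, l5, lt_irrefl, if_true, if_false,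
      Prod.mk_add_mk, add_zero]
    ring
  · show J2ax606.Aop (fun e => w e.1 e.2) φ ((f1, f2), 2) = Latx683.Aop w φ ((f1, f2), 2)
    rw [Latx683.Aop_N]
    simp only [J2ax606.Aop, J2ax606.a4, J2ax606.ed, J2ax606.bar, Fin.sum_univ_four,
      Latx683.yN, s2, e1, e2, e3, e4, e5, l1, l2, l3, l4, l5, l6, m1, m2, m3, m4, m5, m6, lt_irrefl,
      if_true, if_false, Prod.mk_add_mk, add_zero]
    ring
  · show J2ax606.Aop (fun e => w e.1 e.2) φ ((f1, f2), 3) = Latx683.Aop w φ ((f1, f2), 3)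
    rw [Latx683.Aop_W]
    simp only [J2ax606.Aop, J2ax606.a4, J2ax606.ed, J2ax606.bar, Fin.sum_univ_four,
      Latx683.yE, s3, e1, e2, e3, e4, e5, e6, l1, l2, l3, l4, l5, l6, m1, m2, m3, m4, m5, m6,
      lt_irrefl, if_true, if_false, Prod.mk_sub_mk, sub_zero, sub_add_cancel]
    ring

variable [DecidableEq G]

theorem isInv_of_isCov {w : BW G} {S : HE G → HE G → ℝ} (h : IsCov w S) :
    IsInv (fun e => w e.1 e.2) S where
  anti := h.skew
  inv g h' := by
    rw [aop_eq, h.inv g h', Pi.single_apply]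
    split_ifs <;> simp

theorem isCov_of_fInv {w : BW G} {S : HE G → HE G → ℝ} (h : FInv (fun e => w e.1 e.2) S) :
    IsCov w S where
  skew := h.anti
  zero k := by
    refine tendsto_const_nhds.congr' ?_
    filter_upwards [(h.fin k).compl_mem_cofinite] with g hg
    by_contra hc
    exact hg (fun e => hc e.symm)
  inv g h' := by
    rw [← aop_eq, h.inv g h', Pi.single_apply]
    split_ifs <;> simp

end gen

theorem covS_eq {G : Type} (S : HE G → HE G → ℝ) (h h' : ∀ i j, S i j = -S j i) :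
    covS S h = covOf S h' := by
  have e : formS S = formOf S := by
    apply form_ext
    intro i j
    rw [formOf_single]
    exact Latx683.formS_single S i j
  unfold covS covOf
  congr

theorem cut_eq {n : ℕ} (X : Fin n → ℤ × ℤ) (e : EG ℤ) : cut X e = ray X e.1 e.2 := by
  unfold cut ray
  refine Finset.prod_congr rfl fun i _ => ?_
  unfold sgr
  by_cases h : e.2 = 0 ∧ e.1.2 = (X i).2 ∧ (X i).1 ≤ e.1.1
  · rw [if_pos h, if_pos ⟨h.1, h.2.1.symm, h.2.2⟩]
  · rw [if_neg h, if_neg (fun h' => h ⟨h'.1, h'.2.1.symm, h'.2.2⟩)]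

theorem sig_eq (N : Finset (ℤ × ℤ)) (z : ℤ × ℤ) : sig N z = spinSign (conf N z) := by
  unfold sig conf spinSign
  by_cases h : z ∈ N <;> simp [h]

theorem eps_eq' (N : Finset (ℤ × ℤ)) (e : EG ℤ) : J2cx606.eps N e = UDomAx420.eps (conf N) e := by
  unfold J2cx606.eps UDomAx420.eps
  rw [sig_eq, sig_eq]
  rfl

theorem zs_eq_nsum (T : Finset (ℤ × ℤ)) (w : BW ℤ) {n : ℕ} (X : Fin n → ℤ × ℤ)
    (A : Finset (EG ℤ)) :
    Zs T (fun e => w e.1 e.2) X A = Nsum T (wX w X) (fun s => ∏ e ∈ A, UDomAx420.eps s e) := by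
  rw [← Nsum_ray]
  unfold Zs Nsum
  refine Finset.sum_congr rfl fun N _ => ?_
  congr 2
  · exact Finset.prod_congr rfl fun i _ => sig_eq N _
  · exact Finset.prod_congr rfl fun e _ => eps_eq' N e

theorem zs_empty (T : Finset (ℤ × ℤ)) (w : BW ℤ) {n : ℕ} (X : Fin n → ℤ × ℤ) :
    Zs T (fun e => w e.1 e.2) X ∅ = Nsum T (wX w X) (fun _ => 1) := by
  rw [zs_eq_nsum]
  simp only [Finset.prod_empty]

theorem zs_empty' (T : Finset (ℤ × ℤ)) (w : BW ℤ) {n : ℕ} (X : Fin n → ℤ × ℤ) :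
    Zs T (fun e => w e.1 e.2) X ∅ = Nsum T w (fun s => ∏ i, spinSign (s (X i))) := by
  rw [zs_empty, ← Nsum_ray]
  simp only [mul_one]

theorem wX_eq (w : BW ℤ) {n : ℕ} (X : Fin n → ℤ × ℤ) :
    (fun e : EG ℤ => w e.1 e.2 * cut X e) = fun e => wX w X e.1 e.2 := by
  funext e
  rw [cut_eq]
  unfold wX
  ring

/-- the plus background vanishes away from `T` -/
theorem wDom_off (T : Finset (ℤ × ℤ)) (e : EG ℤ) (he : e ∉ touch T) :
    wDom (T : Set (ℤ × ℤ)) false e.1 e.2 = 0 := by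
  unfold wDom
  simp only [Bool.false_eq_true, if_false, Finset.mem_coe]
  rw [if_neg]
  intro h
  exact he (mem_touch.2 h)

/-- **bond identities, plus boundary conditions** -/
theorem j2set_plus (T : Finset (ℤ × ℤ)) (hT : NoHole T) {n : ℕ} (X : Fin n → ℤ × ℤ)
    (hS : ∃ S, IsCov (wX (wDom (T : Set (ℤ × ℤ)) false) X) S) :
    J2Set T (wX (wDom (T : Set (ℤ × ℤ)) false) X) (Cof (wX (wDom (T : Set (ℤ × ℤ)) false) X)) := by
  intro A
  have h0 := isInv_of_isCov (Sof_spec hS)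
  have h1 : IsInv (fun e => wDom (T : Set (ℤ × ℤ)) false e.1 e.2 * cut X e)
      (Sof (wX (wDom (T : Set (ℤ × ℤ)) false) X)) := by
    rw [wX_eq]; exact h0
  have h2 := J2_plus T hT (fun e => wDom (T : Set (ℤ × ℤ)) false e.1 e.2) (wDom_off T) X h1 A
  rw [zs_eq_nsum, zs_empty] at h2
  rw [h2, Cof, covS_eq _ _ h1.anti]
  congr 2
  unfold BB
  rw [wX_eq]

/-- **existence of the covariance, plus boundary conditions** -/
theorem exCov_plus (T : Finset (ℤ × ℤ)) (hT : NoHole T) {n : ℕ} (X : Fin n → ℤ × ℤ) :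
    ∃ S, IsCov (wX (wDom (T : Set (ℤ × ℤ)) false) X) S := by
  obtain ⟨S, hS⟩ := exists_finv_plus T hT (fun e => wDom (T : Set (ℤ × ℤ)) false e.1 e.2)
    (wDom_off T) X (by rw [zs_empty']; exact (pos_plus T X).ne')
  rw [wX_eq] at hS
  exact ⟨S, isCov_of_fInv hS⟩

/-! ### reduction of `ExCov` and `J2SetLeaf` to the free case -/





end Crest.Agent.R165.UJ3x420
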