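import Crest.Agent.R165.Fin2_315
import Crest.Agent.R165.FrFin_887
import Crest.Agent.R165.J2g_606
import Crest.Agent.R165.GapFin_40

/-!
# Row 165 (S0250), P9: the final step in the lattice domains (helper315)

* `abs_wX_le` : the weights of the domain backgrounds are at most one
* `inv_plus`, `inv_free`, `inv_of_isCov_plus`, `inv_of_isCov_free` : inverse kernels
* `gap_plus` : the gap of a plus background in a box of radius `R ≥ 1`, absolute constant `CPl`
* `vol_near` : radius of the set of faces close to the sites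
* `fin_plus_tendsto` : **plus backgrounds**, any insertions, any filter: the final factor tends to one
* `fin_dom_tendsto` : meshes `a → 0`, gap `C / a` as hypothesis (free boundary conditions)
-/

set_option autoImplicit false
set_option linter.unusedSectionVars false

noncomputable section

namespace Crest.Agent.R165.Fin3x315

open scoped ENNReal
open Filter Topology
open Crest.ProbabilityR.IsingModel
open Crest.Agent.R165.Gr0x606 Crest.Agent.R165.Gr1x606 Crest.Agent.R165.Latx683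
  Crest.Agent.R165.PNormx417 Crest.Agent.R165.GDefx387 Crest.Agent.R165.FRDPolyx439
  Crest.Agent.R165.FRDLatx439 Crest.Agent.R165.FRDRestx439 Crest.Agent.R165.GeOpsx337
  Crest.Agent.R165.KFlowx337
  Crest.Agent.R165.NSumx915 Crest.Agent.R165.Bridgex915 Crest.Agent.R165.KStepx892
  Crest.Agent.R165.Fin0x315 Crest.Agent.R165.Fin1x315 Crest.Agent.R165.Fin2x315
  Crest.Agent.R165.Scalex900 Crest.Agent.R165.GSysx387

/-! ### weights -/

theorem xc_pos : 0 < xc := Covx359.xc_pos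
theorem xc_lt_one : xc < 1 := Covx359.xc_lt_one

theorem abs_wDom_le (T : Set (ℤ × ℤ)) (b : Bool) (z : ℤ × ℤ) (j : Fin 2) :
    |wDom T b z j| ≤ 1 := by
  have h1 : |xc| ≤ 1 := by rw [abs_of_pos xc_pos]; exact xc_lt_one.le
  unfold wDom
  cases b
  · simp only [Bool.false_eq_true, if_false]
    split_ifs
    · exact h1
    · simp
  · simp only [if_true]
    split_ifs
    · exact h1
    · simp

theorem abs_ray {n : ℕ} (X : Fin n → ℤ × ℤ) (z : ℤ × ℤ) (j : Fin 2) : |ray X z j| = 1 := by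
  unfold ray
  rw [Finset.abs_prod]
  refine Finset.prod_eq_one fun i _ => ?_
  split_ifs <;> simp

theorem abs_wX_le (T : Set (ℤ × ℤ)) (b : Bool) {n : ℕ} (X : Fin n → ℤ × ℤ) (z : ℤ × ℤ)
    (j : Fin 2) : |wX (wDom T b) X z j| ≤ 1 := by
  unfold wX
  rw [abs_mul, abs_ray, one_mul]
  exact abs_wDom_le T b z j

/-! ### inverse kernels -/

theorem inv_of_finv {w : BW ℤ} {S : HE ℤ → HE ℤ → ℝ} (h : J2bx606.FInv (fun e => w e.1 e.2) S) :
    Inv w S :=
  Inv.of_isCov (UJ3x420.isCov_of_fInv h) h.fin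

theorem inv_plus {n : ℕ} (T : Finset (ℤ × ℤ)) (X : Fin n → ℤ × ℤ) :
    ∃ S, Inv (wX (wDom (T : Set (ℤ × ℤ)) false) X) S ∧
      IsCov (wX (wDom (T : Set (ℤ × ℤ)) false) X) S ∧
      ∀ S', IsCov (wX (wDom (T : Set (ℤ × ℤ)) false) X) S' → S' = S := by
  obtain ⟨S, h1, h2, h3⟩ := Covx359.exists_isCov_plus T X
  exact ⟨S, Inv.of_isCov h1 h2.fin, h1, h3⟩

theorem inv_of_isCov_plus {n : ℕ} {T : Finset (ℤ × ℤ)} {X : Fin n → ℤ × ℤ}
    {S : HE ℤ → HE ℤ → ℝ} (hS : IsCov (wX (wDom (T : Set (ℤ × ℤ)) false) X) S) :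
    Inv (wX (wDom (T : Set (ℤ × ℤ)) false) X) S := by
  obtain ⟨S', h1, _, h3⟩ := inv_plus T X
  rw [h3 S hS]
  exact h1

theorem inv_of_isCov_free {T : Finset (ℤ × ℤ)} {n : ℕ} (hn : Even n) {X : Fin n → ℤ × ℤ}
    (hX : ∀ i, X i ∈ T)
    (hpos : UDomCx420.Nsum T (wDom (T : Set (ℤ × ℤ)) true)
      (fun s => ∏ i, spinSign (s (X i))) ≠ 0)
    {S : HE ℤ → HE ℤ → ℝ} (hS : IsCov (wX (wDom (T : Set (ℤ × ℤ)) true) X) S) :
    Inv (wX (wDom (T : Set (ℤ × ℤ)) true) X) S := by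
  obtain ⟨S', hS'⟩ := J2gx606.exists_finv_wfree T hn X hX hpos
  have e : S = S' := hS'.unique_inv (UJ3x420.isInv_of_isCov hS)
  subst e
  exact inv_of_finv hS'

/-! ### gap and volume -/

/-- the gap constant of the plus backgrounds -/
def CPl : ℝ := PlGapx887.CQ * 25 + 3

theorem CPl_pos : 0 < CPl := by unfold CPl PlGapx887.CQ; norm_num

/-- **gap of a plus background** in a box of radius `R ≥ 1` -/
theorem gap_plus {n : ℕ} (X : Fin n → ℤ × ℤ) {T : Finset (ℤ × ℤ)} {c : ℤ × ℤ} {R : ℝ} (hR : 1 ≤ R)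
    (hT : ∀ f ∈ T, |((f.1 : ℝ) - (c.1 : ℝ))| ≤ R ∧ |((f.2 : ℝ) - (c.2 : ℝ))| ≤ R) (f : Fld ℤ) :
    l2 (f : HE ℤ → ℝ) ≤
      CPl * R * l2 (Aop (wX (wDom (T : Set (ℤ × ℤ)) false) X) (f : HE ℤ → ℝ)) := by
  have hf : FrFinx887.FSH (f : HE ℤ → ℝ) := by
    unfold FrFinx887.FSH
    exact f.finite_support
  refine (FrFinx887.plus_gap_box X (c := c) (by linarith) hT hf).trans ?_
  refine mul_le_mul_of_nonneg_right ?_ (Real.sqrt_nonneg _)
  unfold FrFinx887.CG CPl PlGapx887.CQ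
  nlinarith

theorem fd_le_real {f g : ℤ × ℤ} {s : ℝ} (h1 : |((g.1 : ℝ) - f.1)| ≤ s) (h2 : |((g.2 : ℝ) - f.2)| ≤ s) :
    (fd f g : ℝ) ≤ s := by
  rw [fd_int]
  push_cast
  refine max_le ?_ ?_
  · rw [Nat.cast_natAbs, Int.cast_abs, Int.cast_sub, abs_sub_comm]; exact h1
  · rw [Nat.cast_natAbs, Int.cast_abs, Int.cast_sub, abs_sub_comm]; exact h2


/-! ### the final factor -/

variable {M K : ℕ} (D : FRD 16 M K)




end Crest.Agent.R165.Fin3x315
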