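import Crest.Agent.R165.JRunD_445
import Crest.Agent.R165.JVol_950
import Crest.Agent.R165.Out_683
import Crest.Agent.R165.Fin3_315
import Crest.Agent.R165.U5Props_422

/-!
# Row 165 (S0250): the spin ratio and the runs, for small mesh and for large discs (helper445)

With the frozen names `DD`, `domF` of `Out_683`, `Inv`, `runOf`, `Inv.last` of `Fin2_315`, `Vol` of
`JVol_950`:

* `VolN T b R Λ`  : admissible volumes (no sources), `exists_volN`
* `runD hX h5 v N` : the run (SRabs_900) of the domain `T` with insertions `X`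
* `runD_start`, `runD_fin`, `runD_c`, `c_empty`
* `ratio_total` : `start / start = exp (∑_{k<N} ∑' U, (cc X k U - cc ∅ k U)) * (fin X / fin ∅)`
* `Links D a b x` : covariances of `TT D a` with the spins `x` and without spins
* `links_C2`, `links_disc` : it holds for small mesh in `C²` domains / in large discs
* `Links.spm_run`, `Links.spm_total` : the spin ratio of the model in terms of the runs
-/

set_option autoImplicit false
set_option linter.unusedSectionVars false

noncomputable section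

open Finset Filter Topology
open Crest.ProbabilityR.IsingModel

namespace Crest.Agent.R165.JRunx445

open Crest.Agent.R165.Gr0x606 Crest.Agent.R165.Gr1x606 Crest.Agent.R165.GeOpsx337
  Crest.Agent.R165.ExpGx337 Crest.Agent.R165.KStepx892 Crest.Agent.R165.KFlowx337
  Crest.Agent.R165.SrcDefx991 Crest.Agent.R165.SRabsx900 Crest.Agent.R165.KInitx892
open Crest.Agent.R165.Latx683 (BW wDom ray wX wPl IsCov covS Fld HE xc)
open Crest.Agent.R165.GDefx387 Crest.Agent.R165.GSysx387 Crest.Agent.R165.GSysOKx439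
  Crest.Agent.R165.FRDPolyx439 Crest.Agent.R165.BgIsox432
open Crest.Agent.R165.Bkgx683 Crest.Agent.R165.Outx683
open Crest.Agent.R165.PEndx683 (Cst)
open Crest.Agent.R165.J4Defx653 (tpot tr TrInv Rng)
open Crest.Agent.R165.J2ax606 (bar)
open Crest.Agent.R165.J4Geox126 (faE Yf)
open Crest.Agent.R165.Topx683 Crest.Agent.R165.Redx541 Crest.Agent.R165.Red2x541
  Crest.Agent.R165.Centx541 Crest.Agent.R165.Symx541 Crest.Agent.R165.SRx541
open Crest.Agent.R165.UKerx420 (wD Cof Sof Sof_spec Sof_skew)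
open Crest.Agent.R165.JDomAx606 Crest.Agent.R165.Fin2x315 Crest.Agent.R165.JVolx950
open Crest.Agent.R165.U5Px422 (TT mem_TT)
open Crest.Agent.R165.Telx337 (cc)

/-! ### volumes -/

/-- admissible volumes, no sources -/
abbrev VolN (T : Finset (ℤ × ℤ)) (b : BoundaryCondition) (R : ℕ) (Λ : Finset (ℤ × ℤ)) : Prop :=
  Vol T b R (noSrc ℤ (Ge (Fld ℤ))).Ys Λ


theorem volD_of_vol {T : Finset (ℤ × ℤ)} {b : BoundaryCondition} {R : ℕ} {κ : Type}
    {Ys : κ → Finset (ℤ × ℤ)} {Λ : Finset (ℤ × ℤ)} (v : Vol T b R Ys Λ) : VolD T b R Λ :=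
  ⟨v.BB, fun _ h => v.W (mem_Wf.2 h), fun h hh => v.nb h (mem_Wf.2 hh)⟩

/-! ### the run of a domain -/

section run

variable {T : Finset (ℤ × ℤ)} {b : BoundaryCondition} {n : ℕ} {X : Fin n → ℤ × ℤ}




variable {S : HE ℤ → HE ℤ → ℝ} (hS : Inv (Bg.dom T b X).w S) (c : Cst) (P : MPar)
    (h5 : 5 ≤ c.p * (c.k0 + 1)) {Λ : Finset (ℤ × ℤ)} (v : VolN T b P.R Λ) (N : ℕ)











end run


/-! ### the covariances of a domain -/

/-- the covariances of a plus background have finite columns -/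
theorem inv_plus' {D : Set ℂ} {a : ℝ} (h : (domainSites D a).Finite) {n : ℕ} {X : Fin n → ℤ × ℤ}
    {S : HE ℤ → HE ℤ → ℝ} (hS : IsCov (wD (isF .plus) D a X) S) :
    Inv (wD (isF .plus) D a X) S := by
  unfold wD at hS ⊢
  rw [← h.coe_toFinset] at hS ⊢
  exact Fin3x315.inv_of_isCov_plus hS

/-- the covariances of a free background have finite columns -/
theorem inv_free' {D : Set ℂ} {a : ℝ} {T : Finset (ℤ × ℤ)} (hT : (T : Set (ℤ × ℤ)) = domainSites D a)
    {n : ℕ} (hn : Even n) {X : Fin n → ℤ × ℤ} (hX : ∀ i, X i ∈ domainSites D a)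
    (hpos : 0 < UDomCx420.Nsum T (wDom (domainSites D a) true)
      (fun s => ∏ i, spinSign (s (X i))))
    {S : HE ℤ → HE ℤ → ℝ} (hS : IsCov (wD (isF .free) D a X) S) :
    Inv (wD (isF .free) D a X) S := by
  unfold wD at hS ⊢
  rw [← hT] at hS hpos hX ⊢
  exact Fin3x315.inv_of_isCov_free hn (fun i => Finset.mem_coe.1 (hX i)) hpos.ne' hS

/-- everything needed at one mesh -/
structure Links (D : Set ℂ) (a : ℝ) (b : BoundaryCondition) {n : ℕ} (X : Fin n → ℤ × ℤ) :
    Prop where
  fin : (domainSites D a).Finite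
  lk : Lk D a b X
  inv : Inv (wD (isF b) D a X) (Sof (wD (isF b) D a X))

theorem Links.tt {D : Set ℂ} {a : ℝ} {b : BoundaryCondition} {n : ℕ} {X : Fin n → ℤ × ℤ}
    (h : Links D a b X) : TT D a = h.fin.toFinset := by
  unfold TT
  rw [dif_pos h.fin]

theorem Links.w {D : Set ℂ} {a : ℝ} {b : BoundaryCondition} {n : ℕ} {X : Fin n → ℤ × ℤ}
    (h : Links D a b X) : (Bg.dom (TT D a) b X).w = wD (isF b) D a X := by
  rw [h.tt]
  exact dom_w h.fin X

/-- the inverse kernel for the background of the list -/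
theorem Links.invB {D : Set ℂ} {a : ℝ} {b : BoundaryCondition} {n : ℕ} {X : Fin n → ℤ × ℤ}
    (h : Links D a b X) :
    Inv (Bg.dom (TT D a) b X).w (Sof (Bg.dom (TT D a) b X).w) := by
  rw [h.w]
  exact h.inv



/-- **`C²` domains, small mesh** -/
theorem links_C2 (b : BoundaryCondition) (n : ℕ) (hR : Rel b n) {D : Set ℂ}
    (hD : IsC2JordanDomain D) (x : Fin n → ℂ) (hx : ∀ i, x i ∈ D) :
    ∀ᶠ a in 𝓝[>] (0 : ℝ), Links D a b (fun i => meshIndex a (x i)) := by
  have hm : ∀ i, ∀ᶠ a in 𝓝[>] (0 : ℝ), meshIndex a (x i) ∈ domainSites D a := by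
    intro i
    simpa using UKerx420.eventually_mem (isOpen_of_C2 hD) (hx i) 0
  filter_upwards [lk_C2 b n hR hD x hx, UZsx420.ev_pos b n hR hD x hx,
    eventually_all.2 hm, self_mem_nhdsWithin] with a h1 h2 hm ha
  have hfin : (domainSites D a).Finite := domainSites_finite (bounded_of_C2 hD) ha
  refine ⟨hfin, h1, ?_⟩
  rcases hR with rfl | ⟨rfl, hn⟩
  · exact inv_plus' hfin (Sof_spec h1.ex)
  · exact inv_free' hfin.coe_toFinset hn hm (h2 hfin) (Sof_spec h1.ex)


/-- **large discs at fixed mesh** -/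
theorem links_disc {a : ℝ} (ha : 0 < a) : ∀ᶠ B : ℝ in atTop, ∀ (n : ℕ) (X : Fin n → ℤ × ℤ),
    Links (Metric.ball (0 : ℂ) B) a BoundaryCondition.plus X := by
  filter_upwards [lk_disc ha] with B hB n X
  have hfin : (domainSites (Metric.ball (0 : ℂ) B) a).Finite :=
    domainSites_finite Metric.isBounded_ball ha
  exact ⟨hfin, hB n X, inv_plus' hfin (Sof_spec (hB n X).ex)⟩



end Crest.Agent.R165.JRunx445
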