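import Crest.Agent.R165.J1b_606
import Crest.Agent.R165.J1c_606
import Crest.Agent.R165.J4Def_653

-- ▼ part R165/Kw1_871
section

/-!
# Row 165 (S0250), block J: Kramers-Wannier, part 1 (helper871)

On top of helper606's `Gr1`, `J1a`, `J1b`.

* `cPs cs` : the product of the Clifford operators `cP h`, `h ∈ cs` (corner operators; the half-edge
  `(f, i)` stands for the corner between the directions `i` and `i + 1` of the face `f`, which sits
  at the vertex `cv (f, i)`)
* `E0_cPs_sstar` : toggling the four edges at the vertex `v` multiplies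
  `E0 (cPs cs (mon S))` by `(-1)^(number of corners of cs at v)`
* `E0_cPs_mon_abs` : `|E0 (cPs cs (mon S))| = 1` if all faces have the right parity
* `E0_cPs_mon_zero` : it vanishes otherwise
-/

set_option autoImplicit false
set_option linter.unusedSimpArgs false
set_option linter.unusedSectionVars false

noncomputable section

namespace Crest.Agent.R165.Kw1x871

open Crest.Agent.R165.Gr0x606 Crest.Agent.R165.Gr1x606 Crest.Agent.R165.J1ax606
  Crest.Agent.R165.J1bx606

/-! ### corner operators -/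

section ops
variable {ι : Type*}

/-- product of the operators `cP h` -/
def cPs (cs : List ι) (a : Gr (VI ι)) : Gr (VI ι) := cs.foldr (fun h b => cP h b) a

@[simp] theorem cPs_nil (a : Gr (VI ι)) : cPs [] a = a := rfl
@[simp] theorem cPs_cons (h : ι) (cs : List ι) (a : Gr (VI ι)) :
    cPs (h :: cs) a = cP h (cPs cs a) := rfl


/-- `cPs` as a linear map -/
def cPL (cs : List ι) : Gr (VI ι) →ₗ[ℝ] Gr (VI ι) where
  toFun := cPs cs
  map_add' a b := by
    induction cs with
    | nil => rfl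
    | cons h cs ih => rw [cPs_cons, cPs_cons, cPs_cons, ih, map_add]
  map_smul' c a := by
    induction cs with
    | nil => rfl
    | cons h cs ih => rw [cPs_cons, cPs_cons, ih]; simp

@[simp] theorem cPL_apply (cs : List ι) (a : Gr (VI ι)) : cPL cs a = cPs cs a := rfl

end ops

section gen
variable {G : Type*} [CommRing G] [DecidableEq G]

/-- the vertex of the corner between the directions `i`, `i+1` of the face `f` -/
def cv (h : HE G) : G × G :=
  h.1 + (if h.2 = 0 then (1, 0) else if h.2 = 1 then (1, 1) else if h.2 = 2 then (0, 1) else (0, 0))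

/-- the plaquette operator at the vertex `v` -/
def plaq (v : G × G) (a : Gr (VI (HE G))) : Gr (VI (HE G)) :=
  cP (v - (1, 0) - (0, 1), 1) (cM (v - (0, 1), 3) (cP (v - (0, 1), 2) (cM (v, 0) (cP (v, 3)
    (cM (v - (1, 0), 1) (cP (v - (1, 0), 0) (cM (v - (1, 0) - (0, 1), 2) a)))))))

theorem E0_plaq' (v : G × G) (a : Gr (VI (HE G))) : E0 (plaq v a) = E0 a :=
  E0_plaq _ _ _ _ a

theorem plaq_mon (S : Finset (EG G)) (v : G × G) :
    plaq v (mon S : Gr (VI (HE G))) = (mon (sstar S v) : Gr (VI (HE G))) := by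
  have e1 := tog_mon S (v - (1, 0), 0)
  rw [pe_zero, qe_zero] at e1
  have e2 := tog_mon' (symmDiff S {(v - (1, 0), 0)}) (v, 1)
  rw [pe_one, qe_one] at e2
  have e3 := tog_mon' (symmDiff (symmDiff S {(v - (1, 0), 0)}) {(v, 1)}) (v, 0)
  rw [pe_zero, qe_zero] at e3
  have e4 := tog_mon (symmDiff (symmDiff (symmDiff S {(v - (1, 0), 0)}) {(v, 1)}) {(v, 0)})
    (v - (0, 1), 1)
  rw [pe_one, qe_one, sub_right_comm v (0, 1) (1, 0)] at e4
  rw [plaq, e1, e2, map_neg, map_neg, e3, neg_neg, e4, sstar]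

/-- the sign of a corner at a vertex -/
def csg (v : G × G) (h : HE G) : ℝ := if cv h = v then -1 else 1

theorem cP_comm_aux (k h : HE G) (a : Gr (VI (HE G))) :
    cP k (cP h a) = (if k = h then (1 : ℝ) else -1) • cP h (cP k a) := by
  by_cases e : k = h
  · subst e; simp
  · rw [if_neg e, cP_cP_ne e, neg_one_smul]

theorem cM_comm_aux (k h : HE G) (a : Gr (VI (HE G))) :
    cM k (cP h a) = -cP h (cM k a) := cM_cP k h a

theorem plaq_cP (v : G × G) (h : HE G) (a : Gr (VI (HE G))) :
    plaq v (cP h a) = csg v h • cP h (plaq v a) := by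
  have key : csg v h = (if (v - (1, 0) - (0, 1), (1 : Fin 4)) = h then (1 : ℝ) else -1) *
      ((if (v - (0, 1), (2 : Fin 4)) = h then (1 : ℝ) else -1) *
      ((if (v, (3 : Fin 4)) = h then (1 : ℝ) else -1) *
      (if (v - (1, 0), (0 : Fin 4)) = h then (1 : ℝ) else -1))) := by
    obtain ⟨f, i⟩ := h
    unfold csg cv
    have c0 : (v - (1, 0), (0 : Fin 4)) = (f, i) ↔ i = 0 ∧ f + (1, 0) = v := by
      rw [Prod.mk.injEq, sub_eq_iff_eq_add]
      constructor
      · rintro ⟨h1, h2⟩; exact ⟨h2.symm, h1.symm⟩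
      · rintro ⟨h1, h2⟩; exact ⟨h2.symm, h1.symm⟩
    have c1 : (v - (1, 0) - (0, 1), (1 : Fin 4)) = (f, i) ↔ i = 1 ∧ f + (1, 1) = v := by
      have e11 : ((1, 0) + (0, 1) : G × G) = (1, 1) := by simp
      rw [Prod.mk.injEq, sub_sub, e11, sub_eq_iff_eq_add]
      constructor
      · rintro ⟨h1, h2⟩; exact ⟨h2.symm, h1.symm⟩
      · rintro ⟨h1, h2⟩; exact ⟨h2.symm, h1.symm⟩
    have c2 : (v - (0, 1), (2 : Fin 4)) = (f, i) ↔ i = 2 ∧ f + (0, 1) = v := by
      rw [Prod.mk.injEq, sub_eq_iff_eq_add]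
      constructor
      · rintro ⟨h1, h2⟩; exact ⟨h2.symm, h1.symm⟩
      · rintro ⟨h1, h2⟩; exact ⟨h2.symm, h1.symm⟩
    have c3 : (v, (3 : Fin 4)) = (f, i) ↔ i = 3 ∧ f + (0, 0) = v := by
      rw [Prod.mk.injEq]
      constructor
      · rintro ⟨h1, h2⟩; exact ⟨h2.symm, by rw [← h1]; ext <;> simp⟩
      · rintro ⟨h1, h2⟩; exact ⟨by rw [← h2]; ext <;> simp, h1.symm⟩
    rw [if_congr c0 rfl rfl, if_congr c1 rfl rfl, if_congr c2 rfl rfl, if_congr c3 rfl rfl]
    fin_cases i
    · by_cases hh : f + (1, 0) = v <;> simp [hh]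
    · by_cases hh : f + (1, 1) = v <;> simp [hh]
    · by_cases hh : f + (0, 1) = v <;> simp [hh]
    · by_cases hh : f + (0, 0) = v <;> simp [hh]
  unfold plaq
  simp only [cM_comm_aux, cP_comm_aux _ h, map_neg, map_smul, smul_neg, neg_neg, smul_smul]
  rw [key]
  congr 1
  ring


/-- sign of a list of corners at a vertex -/
def csgs (v : G × G) (cs : List (HE G)) : ℝ := (cs.map (csg v)).prod

@[simp] theorem csgs_nil (v : G × G) : csgs v ([] : List (HE G)) = 1 := rfl
@[simp] theorem csgs_cons (v : G × G) (h : HE G) (cs : List (HE G)) :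
    csgs v (h :: cs) = csg v h * csgs v cs := by simp [csgs]

theorem plaq_cPs (v : G × G) (cs : List (HE G)) (a : Gr (VI (HE G))) :
    plaq v (cPs cs a) = csgs v cs • cPs cs (plaq v a) := by
  induction cs with
  | nil => simp
  | cons h cs ih =>
    rw [cPs_cons, plaq_cP, ih, cPs_cons, csgs_cons, map_smul, smul_smul]

theorem csg_sq (v : G × G) (h : HE G) : csg v h * csg v h = 1 := by
  unfold csg; split_ifs <;> norm_num

theorem csgs_sq (v : G × G) (cs : List (HE G)) : csgs v cs * csgs v cs = 1 := by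
  induction cs with
  | nil => simp
  | cons h cs ih =>
    rw [csgs_cons, mul_mul_mul_comm, csg_sq, ih, one_mul]

/-- **star moves with corner insertions** -/
theorem E0_cPs_sstar (cs : List (HE G)) (S : Finset (EG G)) (v : G × G) :
    E0 (cPs cs (mon (sstar S v) : Gr (VI (HE G)))) =
      csgs v cs * E0 (cPs cs (mon S : Gr (VI (HE G)))) := by
  have h := E0_plaq' v (cPs cs (mon S : Gr (VI (HE G))))
  rw [plaq_cPs, map_smul, plaq_mon, smul_eq_mul] at h
  rw [← h, ← mul_assoc, csgs_sq, one_mul]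

end gen

end Crest.Agent.R165.Kw1x871
end
end

-- ▼ part R165/Kw2_871
section

/-!
# Row 165 (S0250), block J: Kramers-Wannier, part 2 (helper871): monomials

`Mo A a` : `a` is up to sign the product of the generators in the finite set `A` of half-edges.
`|E0 a| = 1` if every face has an even number of half-edges in `A`, and `E0 a = 0` otherwise.
-/

set_option autoImplicit false
set_option linter.unusedSimpArgs false
set_option linter.unusedSectionVars false

noncomputable section

namespace Crest.Agent.R165.Kw2x871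

open Crest.Agent.R165.Gr0x606 Crest.Agent.R165.Gr1x606 Crest.Agent.R165.J1ax606
  Crest.Agent.R165.J1bx606 Crest.Agent.R165.Kw1x871

section mono
variable {ι : Type*} [DecidableEq ι]

/-- `a` is, up to sign, the product of the generators in `A` -/
inductive Mo : Finset ι → Gr (VI ι) → Prop
  | one : Mo ∅ 1
  | cons {A : Finset ι} {a : Gr (VI ι)} (h : ι) (hh : h ∉ A) : Mo A a → Mo (insert h A) (ph h * a)
  | neg {A : Finset ι} {a : Gr (VI ι)} : Mo A a → Mo A (-a)

theorem Mo.de_zero {A : Finset ι} {a : Gr (VI ι)} (ha : Mo A a) {h : ι} (hh : h ∉ A) :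
    de h a = 0 := by
  induction ha with
  | one => simp
  | cons k hk _ ih =>
    rw [Finset.mem_insert, not_or] at hh
    rw [de_ph_mul_ne hh.1, ih hh.2]
    simp
  | neg _ ih => rw [map_neg, ih hh, neg_zero]

theorem Mo.front {A : Finset ι} {a : Gr (VI ι)} (ha : Mo A a) {h : ι} (hh : h ∈ A) :
    ∃ a', Mo (A.erase h) a' ∧ a = ph h * a' := by
  induction ha with
  | one => simp at hh
  | @cons A a k hk ha ih =>
    by_cases hkh : h = k
    · subst hkh
      refine ⟨a, ?_, rfl⟩
      rwa [Finset.erase_insert hk]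
    · have hA : h ∈ A := by
        rcases Finset.mem_insert.1 hh with h1 | h1
        · exact absurd h1 hkh
        · exact h1
      obtain ⟨a', ha', rfl⟩ := ih hA
      refine ⟨-(ph k * a'), ?_, ?_⟩
      · have : (insert k A).erase h = insert k (A.erase h) := by
          rw [Finset.erase_insert_of_ne (Ne.symm hkh)]
        rw [this]
        exact Mo.neg (Mo.cons k (fun hc => hk (Finset.mem_of_mem_erase hc)) ha')
      · rw [ph_anti_mul k h, mul_neg]
  | neg _ ih =>
    obtain ⟨a', ha', h'⟩ := ih hh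
    exact ⟨-a', ha'.neg, by rw [h', mul_neg]⟩

theorem Mo.cP_of_notMem {A : Finset ι} {a : Gr (VI ι)} (ha : Mo A a) {h : ι} (hh : h ∉ A) :
    cP h a = ph h * a := by rw [cP_apply, ha.de_zero hh, add_zero]

theorem Mo.cM_of_notMem {A : Finset ι} {a : Gr (VI ι)} (ha : Mo A a) {h : ι} (hh : h ∉ A) :
    cM h a = ph h * a := by rw [cM_apply, ha.de_zero hh, sub_zero]

theorem Mo.cP_ph {A : Finset ι} {a : Gr (VI ι)} (ha : Mo A a) {h : ι} (hh : h ∉ A) :
    cP h (ph h * a) = a := by
  rw [cP_apply, ph_ph_mul_self, zero_add, de_ph_mul_self, ha.de_zero hh, mul_zero, sub_zero]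

theorem Mo.cM_ph {A : Finset ι} {a : Gr (VI ι)} (ha : Mo A a) {h : ι} (hh : h ∉ A) :
    cM h (ph h * a) = -a := by
  rw [cM_apply, ph_ph_mul_self, zero_sub, de_ph_mul_self, ha.de_zero hh, mul_zero, sub_zero]

/-- the corner operators map monomials to monomials -/
theorem Mo.cP {A : Finset ι} {a : Gr (VI ι)} (ha : Mo A a) (h : ι) :
    Mo (symmDiff A {h}) (Gr1x606.cP h a) := by
  by_cases hh : h ∈ A
  · have h1 : symmDiff A {h} = A.erase h := by
      ext x; simp only [Finset.mem_symmDiff, Finset.mem_singleton, Finset.mem_erase]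
      by_cases hx : x = h
      · subst hx; simp [hh]
      · simp [hx]
    obtain ⟨a', ha', rfl⟩ := ha.front hh
    rw [h1, ha'.cP_ph (Finset.notMem_erase h A)]
    exact ha'
  · have h1 : symmDiff A {h} = insert h A := by
      ext x; simp only [Finset.mem_symmDiff, Finset.mem_singleton, Finset.mem_insert]
      by_cases hx : x = h
      · subst hx; simp [hh]
      · simp [hx]
    rw [h1, ha.cP_of_notMem hh]
    exact Mo.cons h hh ha


theorem Mo.cPs {A : Finset ι} {a : Gr (VI ι)} (ha : Mo A a) (cs : List ι) :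
    Mo (cs.foldr (fun h B => symmDiff B {h}) A) (Kw1x871.cPs cs a) := by
  induction cs with
  | nil => exact ha
  | cons h cs ih => exact ih.cP h

end mono

section gen
variable {G : Type*} [DecidableEq G]

/-- the sign of the corner relation -/
def tau (i : Fin 4) : ℝ := if i = 3 then 1 else -1

theorem tau_abs (i : Fin 4) : |tau i| = 1 := by
  unfold tau; split_ifs <;> norm_num

/-- corner relations, uniformly -/
theorem E0_corner (f : G × G) (i : Fin 4) (a : Gr (VI (HE G))) :
    E0 (cP (f, i) a) = tau i * E0 (cM (f, i + 1) a) := by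
  fin_cases i
  · have := E0_r01 f a
    simpa [tau] using this
  · have := E0_r12 f a
    simpa [tau] using this
  · have := E0_r23 f a
    simpa [tau] using this
  · have := E0_r30 f a
    simpa [tau] using this

/-- removal of a corner pair -/
theorem Mo.remove {A : Finset (HE G)} {a : Gr (VI (HE G))} (ha : Mo A a) (f : G × G) (i : Fin 4)
    (h1 : (f, i) ∈ A) (h2 : (f, i + 1) ∈ A) :
    ∃ a', Mo ((A.erase (f, i)).erase (f, i + 1)) a' ∧ |E0 a| = |E0 a'| := by
  obtain ⟨a1, ha1, rfl⟩ := ha.front h1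
  have hne : ((f, i + 1) : HE G) ≠ (f, i) := by
    intro hc
    rw [Prod.mk.injEq] at hc
    have := hc.2
    revert this
    fin_cases i <;> simp
  have h2' : (f, i + 1) ∈ A.erase (f, i) := Finset.mem_erase.2 ⟨hne, h2⟩
  obtain ⟨a2, ha2, rfl⟩ := ha1.front h2'
  refine ⟨a2, ha2, ?_⟩
  have e1 := E0_corner f i (ph (f, i + 1) * a2)
  rw [ha1.cP_of_notMem (Finset.notMem_erase _ _), ha2.cM_ph (Finset.notMem_erase _ _), map_neg] at e1
  rw [e1, abs_mul, tau_abs, one_mul, abs_neg]

/-- sliding along a corner -/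
theorem Mo.slide {A : Finset (HE G)} {a : Gr (VI (HE G))} (ha : Mo A a) (f : G × G) (i : Fin 4)
    (h1 : (f, i) ∈ A) (h2 : (f, i + 1) ∉ A) :
    ∃ a', Mo (insert (f, i + 1) (A.erase (f, i))) a' ∧ |E0 a| = |E0 a'| := by
  obtain ⟨a1, ha1, rfl⟩ := ha.front h1
  have h2' : (f, i + 1) ∉ A.erase (f, i) := fun hc => h2 (Finset.mem_of_mem_erase hc)
  refine ⟨ph (f, i + 1) * a1, Mo.cons _ h2' ha1, ?_⟩
  have e1 := E0_corner f i a1
  rw [ha1.cP_of_notMem (Finset.notMem_erase _ _), ha1.cM_of_notMem h2'] at e1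
  rw [e1, abs_mul, tau_abs, one_mul]

/-- the number of half-edges of `A` at the face `f` -/
def nat_ (A : Finset (HE G)) (f : G × G) : ℕ := (A.filter fun h => h.1 = f).card

/-- parity kills -/
theorem Mo.E0_zero {A : Finset (HE G)} {a : Gr (VI (HE G))} (ha : Mo A a) (f : G × G)
    (h : Odd (nat_ A f)) : E0 a = 0 := by
  set σ : HE G → ℝ := fun h => if h.1 = f then -1 else 1 with hσ
  have h1 : ∀ b : Gr (VI (HE G)), E0 (mp (dil σ) b) = E0 b := by
    intro b
    refine EE_dil K0 K0 K0_anti K0_anti σ ?_ _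
    intro i j
    by_cases e : i.1 = j.1
    · have : σ i * σ j = 1 := by
        simp only [hσ, e]; split_ifs <;> norm_num
      rw [this, one_mul]
    · have : K0 i j = 0 := if_neg e
      rw [this, mul_zero]
  have h2 : mp (dil σ) a = ((-1 : ℝ) ^ (nat_ A f)) • a := by
    clear h h1
    induction ha with
    | one => simp [nat_]
    | @cons A a k hk ha ih =>
      rw [map_mul, ih, mp_dil_ph]
      unfold nat_
      rw [Finset.filter_insert]
      by_cases e : k.1 = f
      · rw [if_pos e, Finset.card_insert_of_notMem (by simp [hk]), pow_succ]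
        simp only [hσ, e, if_true]
        rw [smul_mul_smul_comm]
        congr 1
        ring
      · rw [if_neg e]
        simp only [hσ, e, if_false]
        rw [one_smul, mul_smul_comm]
    | neg _ ih => rw [map_neg, ih, smul_neg]
  have h3 := h1 a
  rw [h2, h.neg_one_pow, map_smul, smul_eq_mul] at h3
  linarith

theorem nat_eq (A : Finset (HE G)) (f : G × G) :
    nat_ A f = ∑ i : Fin 4, if (f, i) ∈ A then 1 else 0 := by
  unfold nat_
  have hinj : Function.Injective fun i : Fin 4 => ((f, i) : HE G) := fun i j h => (Prod.mk.inj h).2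
  have h : (A.filter fun h => h.1 = f) =
      (Finset.univ.filter fun i : Fin 4 => (f, i) ∈ A).image fun i : Fin 4 => ((f, i) : HE G) := by
    ext x
    rw [Finset.mem_filter, Finset.mem_image]
    constructor
    · rintro ⟨h1, h2⟩
      have hx : x = (f, x.2) := by rw [← h2]
      exact ⟨x.2, Finset.mem_filter.2 ⟨Finset.mem_univ _, hx ▸ h1⟩, hx.symm⟩
    · rintro ⟨j, h1, h2⟩
      rw [← h2]
      exact ⟨(Finset.mem_filter.1 h1).2, rfl⟩
  rw [h, Finset.card_image_of_injective _ hinj, Finset.card_filter]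

/-- two half-edges at one face can be removed -/
theorem Mo.two {A : Finset (HE G)} {a : Gr (VI (HE G))} (ha : Mo A a) (f : G × G)
    (h : 2 ≤ nat_ A f) :
    ∃ i j, i ≠ j ∧ (f, i) ∈ A ∧ (f, j) ∈ A ∧
      ∃ a', Mo ((A.erase (f, i)).erase (f, j)) a' ∧ |E0 a| = |E0 a'| := by
  have cons : ∀ i : Fin 4, (f, i) ∈ A → (f, i + 1) ∈ A → ∃ i j, i ≠ j ∧ (f, i) ∈ A ∧ (f, j) ∈ A ∧
      ∃ a', Mo ((A.erase (f, i)).erase (f, j)) a' ∧ |E0 a| = |E0 a'| := by
    intro i h1 h2
    refine ⟨i, i + 1, ?_, h1, h2, ha.remove f i h1 h2⟩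
    fin_cases i <;> simp
  have opp : ∀ i : Fin 4, (f, i) ∈ A → (f, i + 1) ∉ A → (f, i + 1 + 1) ∈ A →
      ∃ i j, i ≠ j ∧ (f, i) ∈ A ∧ (f, j) ∈ A ∧
      ∃ a', Mo ((A.erase (f, i)).erase (f, j)) a' ∧ |E0 a| = |E0 a'| := by
    intro i h1 h2 h3
    obtain ⟨a1, ha1, e1⟩ := ha.slide f i h1 h2
    have hne : (i + 1 + 1 : Fin 4) ≠ i := by fin_cases i <;> simp
    have hne2 : (i + 1 + 1 : Fin 4) ≠ i + 1 := by fin_cases i <;> simp
    obtain ⟨a2, ha2, e2⟩ := ha1.remove f (i + 1) (Finset.mem_insert_self _ _)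
      (Finset.mem_insert_of_mem (Finset.mem_erase.2 ⟨fun hc => hne (Prod.mk.inj hc).2, h3⟩))
    refine ⟨i, i + 1 + 1, hne.symm, h1, h3, a2, ?_, e1.trans e2⟩
    rw [Finset.erase_insert (fun hc => h2 (Finset.mem_of_mem_erase hc))] at ha2
    exact ha2
  by_cases m0 : (f, (0 : Fin 4)) ∈ A <;> by_cases m1 : (f, (1 : Fin 4)) ∈ A <;>
    by_cases m2 : (f, (2 : Fin 4)) ∈ A <;> by_cases m3 : (f, (3 : Fin 4)) ∈ A
  all_goals first
    | exact cons 0 m0 m1
    | exact cons 1 m1 m2
    | exact cons 2 m2 m3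
    | exact cons 3 m3 m0
    | exact opp 0 m0 m1 m2
    | exact opp 1 m1 m2 m3
    | (exfalso
       rw [nat_eq, Fin.sum_univ_four] at h
       simp only [m0, m1, m2, m3, if_true, if_false] at h
       omega)

/-- all half-edges at one face can be removed if their number is even -/
theorem Mo.clear {A : Finset (HE G)} {a : Gr (VI (HE G))} (ha : Mo A a) (f : G × G)
    (h : Even (nat_ A f)) :
    ∃ a', Mo (A.filter fun h => h.1 ≠ f) a' ∧ |E0 a| = |E0 a'| := by
  induction hn : nat_ A f using Nat.strong_induction_on generalizing A a with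
  | _ n ih =>
  by_cases h0 : nat_ A f = 0
  · have : (A.filter fun h => h.1 ≠ f) = A := by
      unfold nat_ at h0
      rw [Finset.card_eq_zero, Finset.filter_eq_empty_iff] at h0
      rw [Finset.filter_eq_self]
      exact fun x hx => h0 hx
    rw [this]
    exact ⟨a, ha, rfl⟩
  · have h2 : 2 ≤ nat_ A f := by
      obtain ⟨k, hk⟩ := h
      omega
    obtain ⟨i, j, hij, hi, hj, a', ha', e⟩ := ha.two f h2
    have hc : nat_ ((A.erase (f, i)).erase (f, j)) f = nat_ A f - 2 := by
      unfold nat_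
      rw [Finset.filter_erase, Finset.filter_erase, Finset.card_erase_of_mem,
        Finset.card_erase_of_mem]
      · omega
      · simp [hi]
      · rw [Finset.mem_erase, Finset.mem_filter]
        exact ⟨fun hc => hij (Prod.mk.inj hc).2.symm, hj, rfl⟩
    have hev : Even (nat_ ((A.erase (f, i)).erase (f, j)) f) := by
      rw [hc]
      obtain ⟨k, hk⟩ := h
      exact ⟨k - 1, by omega⟩
    obtain ⟨a'', ha'', e'⟩ := ih (nat_ A f - 2) (by omega) ha' hev hc
    refine ⟨a'', ?_, e.trans e'⟩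
    have : ((A.erase (f, i)).erase (f, j)).filter (fun h => h.1 ≠ f) = A.filter fun h => h.1 ≠ f := by
      ext x
      simp only [Finset.mem_filter, Finset.mem_erase]
      constructor
      · rintro ⟨⟨_, _, h1⟩, h2⟩
        exact ⟨h1, h2⟩
      · rintro ⟨h1, h2⟩
        refine ⟨⟨?_, ?_, h1⟩, h2⟩
        · rintro rfl; exact h2 rfl
        · rintro rfl; exact h2 rfl
    rw [this] at ha''
    exact ha''

/-- **even monomials have absolute value one** -/
theorem Mo.E0_abs {A : Finset (HE G)} {a : Gr (VI (HE G))} (ha : Mo A a)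
    (h : ∀ f, Even (nat_ A f)) : |E0 a| = 1 := by
  induction hn : A.card using Nat.strong_induction_on generalizing A a with
  | _ n ih =>
  by_cases h0 : A = ∅
  · subst h0
    clear hn ih h
    have : ∀ {B : Finset (HE G)} {b : Gr (VI (HE G))}, Mo B b → B = ∅ → |E0 b| = 1 := by
      intro B b hb
      induction hb with
      | one => intro _; simp [E0]
      | cons k hk _ _ => intro hc; exact absurd hc (Finset.insert_ne_empty _ _)
      | neg _ ih => intro hc; rw [map_neg, abs_neg]; exact ih hc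
    exact this ha rfl
  · obtain ⟨⟨f, i⟩, hx⟩ := Finset.nonempty_iff_ne_empty.2 h0
    obtain ⟨a', ha', e⟩ := ha.clear f (h f)
    rw [e]
    refine ih (A.filter fun h => h.1 ≠ f).card ?_ ha' ?_ rfl
    · rw [← hn]
      apply Finset.card_lt_card
      rw [Finset.ssubset_iff_subset_ne]
      refine ⟨Finset.filter_subset _ _, fun hc => ?_⟩
      have := hc ▸ hx
      rw [Finset.mem_filter] at this
      exact this.2 rfl
    · intro g
      unfold nat_
      rw [Finset.filter_filter]
      by_cases hg : g = f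
      · subst hg
        have : (A.filter fun h => h.1 ≠ g ∧ h.1 = g) = ∅ := by
          rw [Finset.filter_eq_empty_iff]
          intro x _ hx
          exact hx.1 hx.2
        rw [this]; simp
      · have : (A.filter fun h => h.1 ≠ f ∧ h.1 = g) = A.filter fun h => h.1 = g := by
          apply Finset.filter_congr
          intro x _
          constructor
          · exact fun h => h.2
          · intro h
            refine ⟨?_, h⟩
            rw [h]
            exact hg
        rw [this]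
        exact h g

end gen

end Crest.Agent.R165.Kw2x871
end
end

-- ▼ part R165/Kw3_871
section

/-!
# Row 165 (S0250), block J: Kramers-Wannier, part 3 (helper871): the plane

* `Ok cs S` : the edge set `S` has at every face the parity of the number of corners of `cs`
* `E0_cPs_mon_abs`, `E0_cPs_mon_zero`
* `KW_sum` : if the signs `s` have flux `(-1)^(number of corners at v)` at every vertex `v`, then
  `E0 (cPs cs (∏_{e ∈ B} (1 + s_e x_e b_e))) = ε ∑_{P ⊆ B, Ok cs P} ∏_{e ∈ P} x_e`, `|ε| = 1`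
  with `ε` independent of `B` and `x`
-/

set_option autoImplicit false
set_option linter.unusedSimpArgs false
set_option linter.unusedSectionVars false

noncomputable section

namespace Crest.Agent.R165.Kw3x871

open Crest.Agent.R165.Gr0x606 Crest.Agent.R165.Gr1x606 Crest.Agent.R165.J1ax606
  Crest.Agent.R165.J1bx606 Crest.Agent.R165.J1cx606 Crest.Agent.R165.Kw1x871
  Crest.Agent.R165.Kw2x871

section gen
variable {G : Type*} [CommRing G] [DecidableEq G]

/-- parity of the degree of the edge set `S` at the face `f` -/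
def dgE (S : Finset (EG G)) (f : G × G) : ZMod 2 :=
  ind S (f, 0) + ind S (f + (1, 0), 1) + (ind S (f + (0, 1), 0) + ind S (f, 1))

theorem evAt_iff (S : Finset (EG G)) (f : G × G) : EvAt S f ↔ dgE S f = 0 := Iff.rfl

/-- parity of the number of corners at the face `f` -/
def cnt (cs : List (HE G)) (f : G × G) : ZMod 2 := (cs.map fun h => if h.1 = f then (1 : ZMod 2) else 0).sum

@[simp] theorem cnt_nil (f : G × G) : cnt ([] : List (HE G)) f = 0 := rfl
@[simp] theorem cnt_cons (h : HE G) (cs : List (HE G)) (f : G × G) :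
    cnt (h :: cs) f = (if h.1 = f then 1 else 0) + cnt cs f := by simp [cnt]

/-- the parity condition -/
def Ok (cs : List (HE G)) (S : Finset (EG G)) : Prop := ∀ f, dgE S f = cnt cs f

theorem nat_symmDiff (A : Finset (HE G)) (h : HE G) (f : G × G) :
    ((nat_ (symmDiff A {h}) f : ℕ) : ZMod 2) = (if h.1 = f then 1 else 0) + (nat_ A f : ℕ) := by
  unfold nat_
  by_cases hh : h ∈ A
  · have h1 : symmDiff A {h} = A.erase h := by
      ext x; simp only [Finset.mem_symmDiff, Finset.mem_singleton, Finset.mem_erase]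
      by_cases hx : x = h
      · subst hx; simp [hh]
      · simp [hx]
    rw [h1, Finset.filter_erase]
    by_cases hf : h.1 = f
    · have hm : h ∈ A.filter fun x => x.1 = f := Finset.mem_filter.2 ⟨hh, hf⟩
      rw [if_pos hf]
      have := Finset.card_erase_add_one hm
      rw [← this]
      push_cast
      generalize (((A.filter fun x => x.1 = f).erase h).card : ZMod 2) = z
      revert z; decide
    · rw [if_neg hf, zero_add, Finset.erase_eq_of_notMem]
      simp [hf]
  · have h1 : symmDiff A {h} = insert h A := by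
      ext x; simp only [Finset.mem_symmDiff, Finset.mem_singleton, Finset.mem_insert]
      by_cases hx : x = h
      · subst hx; simp [hh]
      · simp [hx]
    rw [h1, Finset.filter_insert]
    by_cases hf : h.1 = f
    · rw [if_pos hf, if_pos hf, Finset.card_insert_of_notMem (by simp [hh])]
      push_cast
      ring
    · rw [if_neg hf, if_neg hf, zero_add]

theorem nat_foldr (A : Finset (HE G)) (cs : List (HE G)) (f : G × G) :
    ((nat_ (cs.foldr (fun h B => symmDiff B {h}) A) f : ℕ) : ZMod 2) = cnt cs f + (nat_ A f : ℕ) := by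
  induction cs with
  | nil => simp
  | cons h cs ih =>
    rw [List.foldr_cons, nat_symmDiff, ih, cnt_cons, add_assoc]

/-- the monomial of an edge set -/
theorem mo_mon (S : Finset (EG G)) :
    ∃ A : Finset (HE G), Mo A (mon S : Gr (VI (HE G))) ∧
      (∀ h ∈ A, ∃ e ∈ S, h = pe e ∨ h = qe e) ∧
      ∀ f, nat_ A f = (S.filter fun e => (pe e).1 = f).card + (S.filter fun e => (qe e).1 = f).card := by
  induction S using Finset.induction_on with
  | empty =>
    refine ⟨∅, ?_, ?_, ?_⟩
    · exact Mo.one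
    · simp
    · intro f; simp [nat_]
  | insert e S he ih =>
    obtain ⟨A, hA, hm, hn⟩ := ih
    have hq : qe e ∉ A := by
      intro hc
      obtain ⟨e', he', h | h⟩ := hm _ hc
      · exact pe_ne_qe e' e h.symm
      · exact he (qe_inj h ▸ he')
    have hp : pe e ∉ insert (qe e) A := by
      intro hc
      rcases Finset.mem_insert.1 hc with hc | hc
      · exact pe_ne_qe e e hc
      obtain ⟨e', he', h | h⟩ := hm _ hc
      · exact he (pe_inj h ▸ he')
      · exact pe_ne_qe e e' h
    refine ⟨insert (pe e) (insert (qe e) A), ?_, ?_, ?_⟩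
    · rw [mon_insert he, Ge.coe_mul, coe_bb, mul_assoc]
      exact Mo.cons _ hp (Mo.cons _ hq hA)
    · intro h hh
      rcases Finset.mem_insert.1 hh with rfl | hh
      · exact ⟨e, Finset.mem_insert_self _ _, Or.inl rfl⟩
      rcases Finset.mem_insert.1 hh with rfl | hh
      · exact ⟨e, Finset.mem_insert_self _ _, Or.inr rfl⟩
      obtain ⟨e', he', h'⟩ := hm _ hh
      exact ⟨e', Finset.mem_insert_of_mem he', h'⟩
    · intro f
      have h1 : nat_ (insert (pe e) (insert (qe e) A)) f =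
          (if (pe e).1 = f then 1 else 0) + ((if (qe e).1 = f then 1 else 0) + nat_ A f) := by
        unfold nat_
        rw [Finset.filter_insert, Finset.filter_insert]
        by_cases h2 : (pe e).1 = f <;> by_cases h3 : (qe e).1 = f
        · rw [if_pos h2, if_pos h2, if_pos h3, if_pos h3, Finset.card_insert_of_notMem,
            Finset.card_insert_of_notMem]
          · ring
          · simp [hq]
          · rw [Finset.mem_insert, Finset.mem_filter]
            rintro (hc | hc)
            · exact hp (hc ▸ Finset.mem_insert_self _ _)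
            · exact hp (Finset.mem_insert_of_mem hc.1)
        · rw [if_pos h2, if_pos h2, if_neg h3, if_neg h3, Finset.card_insert_of_notMem]
          · ring
          · rw [Finset.mem_filter]
            exact fun hc => hp (Finset.mem_insert_of_mem hc.1)
        · rw [if_neg h2, if_neg h2, if_pos h3, if_pos h3, Finset.card_insert_of_notMem]
          · ring
          · simp [hq]
        · rw [if_neg h2, if_neg h2, if_neg h3, if_neg h3]
          ring
      rw [h1, hn, Finset.filter_insert, Finset.filter_insert]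
      by_cases h2 : (pe e).1 = f <;> by_cases h3 : (qe e).1 = f
      · rw [if_pos h2, if_pos h2, if_pos h3, if_pos h3, Finset.card_insert_of_notMem (by simp [he]),
          Finset.card_insert_of_notMem (by simp [he])]
        ring
      · rw [if_pos h2, if_pos h2, if_neg h3, if_neg h3, Finset.card_insert_of_notMem (by simp [he])]
        ring
      · rw [if_neg h2, if_neg h2, if_pos h3, if_pos h3, Finset.card_insert_of_notMem (by simp [he])]
        ring
      · rw [if_neg h2, if_neg h2, if_neg h3, if_neg h3]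
        ring

theorem mo_cPs_mon (cs : List (HE G)) (S : Finset (EG G)) :
    ∃ A : Finset (HE G), Mo A (cPs cs (mon S : Gr (VI (HE G)))) ∧
      ∀ f, ((nat_ A f : ℕ) : ZMod 2) = cnt cs f + dgE S f := by
  obtain ⟨A, hA, _, hn⟩ := mo_mon S
  refine ⟨_, hA.cPs cs, fun f => ?_⟩
  rw [nat_foldr, hn, Nat.cast_add, card_pe, card_qe]
  rfl

theorem zadd_self (z : ZMod 2) : z + z = 0 := by revert z; decide

/-- absolute value one -/
theorem E0_cPs_mon_abs (cs : List (HE G)) (S : Finset (EG G)) (h : Ok cs S) :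
    |E0 (cPs cs (mon S : Gr (VI (HE G))))| = 1 := by
  obtain ⟨A, hA, hn⟩ := mo_cPs_mon cs S
  refine hA.E0_abs fun f => ?_
  rw [← ZMod.natCast_eq_zero_iff_even, hn, h f]
  exact zadd_self _

/-- parity -/
theorem E0_cPs_mon_zero (cs : List (HE G)) (S : Finset (EG G)) (h : ¬Ok cs S) :
    E0 (cPs cs (mon S : Gr (VI (HE G)))) = 0 := by
  obtain ⟨A, hA, hn⟩ := mo_cPs_mon cs S
  unfold Ok at h
  push Not at h
  obtain ⟨f, hf⟩ := h
  refine hA.E0_zero f ?_
  rw [← Nat.not_even_iff_odd, ← ZMod.natCast_eq_zero_iff_even, hn]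
  intro hc
  apply hf
  revert hc
  generalize cnt cs f = a
  generalize dgE S f = b
  revert a b; decide

theorem symmDiff_empty (S : Finset (EG G)) : symmDiff S ∅ = S := by
  ext x; simp [Finset.mem_symmDiff]

theorem symmDiff_sstar (S W : Finset (EG G)) (v : G × G) :
    symmDiff S (sstar W v) = sstar (symmDiff S W) v := by
  unfold sstar
  simp only [symmDiff_assoc]

theorem E0_cPs_walls (cs : List (HE G)) (S : Finset (EG G)) (N : Finset (G × G)) :
    E0 (cPs cs (mon (symmDiff S (walls N)) : Gr (VI (HE G)))) =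
      (∏ v ∈ N, csgs v cs) * E0 (cPs cs (mon S : Gr (VI (HE G)))) := by
  induction N using Finset.induction_on with
  | empty => rw [walls_empty, symmDiff_empty, Finset.prod_empty, one_mul]
  | insert v N hv ih =>
    rw [walls_insert hv, symmDiff_sstar, E0_cPs_sstar, ih, Finset.prod_insert hv, mul_assoc]

/-- signs -/
def Sg (s : EG G → ℝ) : Prop := ∀ e, s e * s e = 1

theorem prod_symmDiff_single {s : EG G → ℝ} (hs : Sg s) (S : Finset (EG G)) (e : EG G) :
    ∏ e' ∈ symmDiff S {e}, s e' = s e * ∏ e' ∈ S, s e' := by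
  by_cases he : e ∈ S
  · have h1 : symmDiff S {e} = S.erase e := by
      ext x; simp only [Finset.mem_symmDiff, Finset.mem_singleton, Finset.mem_erase]
      by_cases hx : x = e
      · subst hx; simp [he]
      · simp [hx]
    rw [h1, ← Finset.mul_prod_erase S s he, ← mul_assoc, hs, one_mul]
  · have h1 : symmDiff S {e} = insert e S := by
      ext x; simp only [Finset.mem_symmDiff, Finset.mem_singleton, Finset.mem_insert]
      by_cases hx : x = e
      · subst hx; simp [he]
      · simp [hx]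
    rw [h1, Finset.prod_insert he]

/-- the flux of the signs `s` at the vertex `v` -/
def flux (s : EG G → ℝ) (v : G × G) : ℝ :=
  s (v - (1, 0), 0) * s (v, 1) * s (v, 0) * s (v - (0, 1), 1)

theorem prod_sstar {s : EG G → ℝ} (hs : Sg s) (S : Finset (EG G)) (v : G × G) :
    ∏ e ∈ sstar S v, s e = flux s v * ∏ e ∈ S, s e := by
  unfold sstar flux
  rw [prod_symmDiff_single hs, prod_symmDiff_single hs, prod_symmDiff_single hs,
    prod_symmDiff_single hs]
  ring

theorem prod_walls {s : EG G → ℝ} (hs : Sg s) (S : Finset (EG G)) (N : Finset (G × G)) :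
    ∏ e ∈ symmDiff S (walls N), s e = (∏ v ∈ N, flux s v) * ∏ e ∈ S, s e := by
  induction N using Finset.induction_on with
  | empty => rw [walls_empty, symmDiff_empty, Finset.prod_empty, one_mul]
  | insert v N hv ih =>
    rw [walls_insert hv, symmDiff_sstar, prod_sstar hs, ih, Finset.prod_insert hv, mul_assoc]

theorem prod_sq {s : EG G → ℝ} (hs : Sg s) (S : Finset (EG G)) :
    (∏ e ∈ S, s e) * ∏ e ∈ S, s e = 1 := by
  rw [← Finset.prod_mul_distrib]
  exact Finset.prod_eq_one fun e _ => hs e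

theorem dgE_symmDiff (S S' : Finset (EG G)) (f : G × G) :
    dgE (symmDiff S S') f = dgE S f + dgE S' f := by
  have h : ∀ e, ind (symmDiff S S') e = ind S e + ind S' e := by
    intro e
    unfold ind
    by_cases h1 : e ∈ S <;> by_cases h2 : e ∈ S'
    · rw [if_neg (by simp [Finset.mem_symmDiff, h1, h2]), if_pos h1, if_pos h2]; decide
    · rw [if_pos (by simp [Finset.mem_symmDiff, h1, h2]), if_pos h1, if_neg h2]; decide
    · rw [if_pos (by simp [Finset.mem_symmDiff, h1, h2]), if_neg h1, if_pos h2]; decide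
    · rw [if_neg (by simp [Finset.mem_symmDiff, h1, h2]), if_neg h1, if_neg h2]; decide
  unfold dgE
  simp only [h]
  ring

end gen

/-! ### the plane -/

/-- two admissible edge sets differ by walls -/
theorem Ok.walls {cs : List (HE ℤ)} {S S' : Finset (EG ℤ)} (h : Ok cs S) (h' : Ok cs S') :
    ∃ N : Finset (ℤ × ℤ), S' = symmDiff S (J1bx606.walls N) := by
  obtain ⟨N, hN⟩ := exists_walls (symmDiff S S') fun f => by
    rw [evAt_iff, dgE_symmDiff, h f, h' f]
    exact zadd_self _
  exact ⟨N, by rw [hN, symmDiff_symmDiff_cancel_left]⟩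

/-- **constancy of the sign** -/
theorem sign_const {cs : List (HE ℤ)} {s : EG ℤ → ℝ} (hs : Sg s)
    (hf : ∀ v, flux s v = csgs v cs) {S S' : Finset (EG ℤ)} (h : Ok cs S) (h' : Ok cs S') :
    (∏ e ∈ S', s e) * E0 (cPs cs (mon S' : Gr (VI (HE ℤ)))) =
      (∏ e ∈ S, s e) * E0 (cPs cs (mon S : Gr (VI (HE ℤ)))) := by
  obtain ⟨N, rfl⟩ := h.walls h'
  rw [prod_walls hs, E0_cPs_walls]
  have h1 : (∏ v ∈ N, flux s v) * ∏ v ∈ N, csgs v cs = 1 := by
    rw [← Finset.prod_mul_distrib]
    exact Finset.prod_eq_one fun v _ => by rw [hf, csgs_sq]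
  calc _ = ((∏ v ∈ N, flux s v) * ∏ v ∈ N, csgs v cs) *
      ((∏ e ∈ S, s e) * E0 (cPs cs (mon S : Gr (VI (HE ℤ))))) := by ring
    _ = _ := by rw [h1, one_mul]

/-- expansion of the product with a linear functional in front -/
theorem lin_prod {G : Type*} [CommRing G] [DecidableEq G] (L : Gr (VI (HE G)) →ₗ[ℝ] ℝ) (A : Finset (EG G)) (y : EG G → ℝ) :
    L ((∏ e ∈ A, (1 + y e • bb e) : Ge (VI (HE G))) : Gr (VI (HE G))) =
      ∑ S ∈ A.powerset, (∏ e ∈ S, y e) * L (mon S : Gr (VI (HE G))) := by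
  rw [Finset.prod_one_add]
  have : ∀ S : Finset (EG G), ∏ e ∈ S, y e • bb e = (∏ e ∈ S, y e) • mon S := by
    intro S
    rw [mon, Finset.prod_smul]
  simp only [this]
  have h2 : ((∑ S ∈ A.powerset, (∏ e ∈ S, y e) • mon S : Ge (VI (HE G))) : Gr (VI (HE G))) =
      ∑ S ∈ A.powerset, (∏ e ∈ S, y e) • (mon S : Gr (VI (HE G))) := by
    have := map_sum (Ge (VI (HE G))).val (fun S => (∏ e ∈ S, y e) • mon S) A.powerset
    exact this
  rw [h2, map_sum]
  refine Finset.sum_congr rfl fun S _ => ?_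
  rw [map_smul, smul_eq_mul]

open Classical in
/-- **Kramers-Wannier, sum form** -/
theorem KW_sum (cs : List (HE ℤ)) {s : EG ℤ → ℝ} (hs : Sg s) (hf : ∀ v, flux s v = csgs v cs) :
    ∃ ε : ℝ, |ε| = 1 ∧ ∀ (B : Finset (EG ℤ)) (x : EG ℤ → ℝ),
      E0 (cPs cs ((∏ e ∈ B, (1 + (s e * x e) • bb e) : Ge (VI (HE ℤ))) : Gr (VI (HE ℤ)))) =
        ε * ∑ P ∈ B.powerset.filter (Ok cs), ∏ e ∈ P, x e := by
  have exp : ∀ (B : Finset (EG ℤ)) (x : EG ℤ → ℝ),
      E0 (cPs cs ((∏ e ∈ B, (1 + (s e * x e) • bb e) : Ge (VI (HE ℤ))) : Gr (VI (HE ℤ)))) =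
      ∑ P ∈ B.powerset.filter (Ok cs), ((∏ e ∈ P, s e) * E0 (cPs cs (mon P : Gr (VI (HE ℤ))))) *
        ∏ e ∈ P, x e := by
    intro B x
    have h := lin_prod (E0 ∘ₗ cPL cs) B (fun e => s e * x e)
    simp only [LinearMap.comp_apply, cPL_apply] at h
    rw [h, Finset.sum_filter]
    refine Finset.sum_congr rfl fun P _ => ?_
    split_ifs with hP
    · rw [Finset.prod_mul_distrib]; ring
    · rw [E0_cPs_mon_zero cs P hP, mul_zero]
  by_cases hex : ∃ P : Finset (EG ℤ), Ok cs P
  · obtain ⟨P0, h0⟩ := hex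
    refine ⟨(∏ e ∈ P0, s e) * E0 (cPs cs (mon P0 : Gr (VI (HE ℤ)))), ?_, fun B x => ?_⟩
    · rw [abs_mul, E0_cPs_mon_abs cs P0 h0, mul_one]
      have := prod_sq hs P0
      have h2 : |∏ e ∈ P0, s e| * |∏ e ∈ P0, s e| = 1 := by rw [← abs_mul, this, abs_one]
      have h3 := abs_nonneg (∏ e ∈ P0, s e)
      nlinarith
    · rw [exp, Finset.mul_sum]
      refine Finset.sum_congr rfl fun P hP => ?_
      rw [sign_const hs hf h0 (Finset.mem_filter.1 hP).2]
  · refine ⟨1, abs_one, fun B x => ?_⟩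
    rw [exp, one_mul]
    have : B.powerset.filter (Ok cs) = ∅ := by
      rw [Finset.filter_eq_empty_iff]
      exact fun P _ hP => hex ⟨P, hP⟩
    rw [this, Finset.sum_empty, Finset.sum_empty]

end Crest.Agent.R165.Kw3x871
end
end

-- ▼ part R165/KwHi_408
section

/-!
# Row 165 (S0250): high-temperature expansion, free boundary conditions (helper408)

* `xc = √2 - 1 = tanh β_c = exp (-2 β_c)` (`J = 1`)
* `expect_eq` : `domainExpect` at `lam = 0`, `J = 1`, `β = β_c` as a ratio with edge factors `1 + xc ε_e`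
* `hiT` : `∑_σ σ_X ∏_{e ⊆ T} (1 + w_e ε_e) = 2^|T| ∑_{P : ∂P = X} ∏_{e ∈ P} w_e` for arbitrary weights
* `free_expect` : `⟨σ_X⟩^free_T = ∑_{∂P = X} xc^|P| / ∑_{∂P = ∅} xc^|P|`
-/

set_option autoImplicit false

noncomputable section

open Finset
open Crest.ProbabilityR.IsingModel

namespace Crest.Agent.R165.KwHix408

open J4Defx653

/-- the critical weight -/
def xc : ℝ := Real.sqrt 2 - 1

theorem xc_pos : 0 < xc := by
  have : (1 : ℝ) < Real.sqrt 2 := by
    rw [Real.lt_sqrt (by norm_num)]; norm_num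
  unfold xc; linarith

theorem sqrt2_sq : Real.sqrt 2 * Real.sqrt 2 = 2 := Real.mul_self_sqrt (by norm_num)

theorem xc_sq : xc * xc + 2 * xc = 1 := by
  have := sqrt2_sq
  unfold xc; nlinarith

theorem xc_lt_one : xc < 1 := by
  have := xc_sq; have := xc_pos; nlinarith

theorem exp_two_beta : Real.exp (2 * criticalBeta 1) = 1 + Real.sqrt 2 := by
  have h : 2 * criticalBeta 1 = Real.log (1 + Real.sqrt 2) := by
    unfold criticalBeta; ring
  rw [h, Real.exp_log (by positivity)]

/-- `exp (-2 β_c) = xc` -/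
theorem exp_neg_two_beta : Real.exp (-(2 * criticalBeta 1)) = xc := by
  rw [Real.exp_neg, exp_two_beta]
  have h := xc_sq
  have h2 : Real.sqrt 2 = xc + 1 := by unfold xc; ring
  rw [h2]
  refine (eq_inv_of_mul_eq_one_left ?_).symm
  nlinarith

/-- `tanh β_c = xc` in multiplicative form -/
theorem sinh_eq : Real.sinh (criticalBeta 1) = xc * Real.cosh (criticalBeta 1) := by
  have h1 := exp_neg_two_beta
  have h2 : Real.exp (-criticalBeta 1) = xc * Real.exp (criticalBeta 1) := by
    rw [← h1, ← Real.exp_add]; congr 1; ring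
  rw [Real.sinh_eq, Real.cosh_eq, h2]
  have := xc_sq
  have h3 : 0 < Real.exp (criticalBeta 1) := Real.exp_pos _
  nlinarith


theorem exp_sign (t : ℝ) (ht : t = 1 ∨ t = -1) :
    Real.exp (criticalBeta 1 * t) = Real.cosh (criticalBeta 1) * (1 + xc * t) := by
  have h := sinh_eq
  rcases ht with rfl | rfl
  · rw [mul_one, mul_one, mul_add, mul_one, mul_comm _ xc, ← h, Real.cosh_add_sinh]
  · have : Real.cosh (criticalBeta 1) * (1 + xc * -1) =
      Real.cosh (criticalBeta 1) - xc * Real.cosh (criticalBeta 1) := by ring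
    rw [this, ← h, Real.cosh_sub_sinh, mul_neg, mul_one]

theorem epsE_sign (s : ℤ × ℤ → Bool) (e : (ℤ × ℤ) × Fin 2) : epsE s e = 1 ∨ epsE s e = -1 := by
  unfold epsE
  cases s e.1 <;> cases s (e.1 + unitVec e.2) <;> simp [spinSign]



/-- ratio with edge factors `1 + w_e ε_e` -/
def gE (T : Finset (ℤ × ℤ)) (b : BoundaryCondition) (w : (ℤ × ℤ) × Fin 2 → ℝ)
    (f : (ℤ × ℤ → Bool) → ℝ) : ℝ :=
  (∑ σ : T → Bool, f (extendConfig T b σ) *
      ∏ e ∈ EE T b, (1 + w e * epsE (extendConfig T b σ) e)) /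
    ∑ σ : T → Bool, ∏ e ∈ EE T b, (1 + w e * epsE (extendConfig T b σ) e)


/-! ### the high-temperature expansion -/

/-- degree of the node `v` in the edge set `P` -/
def deg (P : Finset ((ℤ × ℤ) × Fin 2)) (v : ℤ × ℤ) : ℕ :=
  ∑ e ∈ P, ((if e.1 = v then 1 else 0) + (if e.1 + unitVec e.2 = v then 1 else 0))

/-- the odd nodes of `P` inside `T` are exactly `X` -/
def Bdy (T : Finset (ℤ × ℤ)) (X : Finset (ℤ × ℤ)) (P : Finset ((ℤ × ℤ) × Fin 2)) : Prop :=
  ∀ v ∈ T, (Odd (deg P v) ↔ v ∈ X)

theorem spinSign_pow_even (c : Bool) {n : ℕ} (h : Even n) : spinSign c ^ n = 1 := by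
  obtain ⟨k, rfl⟩ := h
  rw [← two_mul, pow_mul, pow_two, spinSign_sq, one_pow]

theorem sum_pow (n : ℕ) : ∑ c : Bool, spinSign c ^ n = if Even n then 2 else 0 := by
  rw [Fintype.sum_bool]
  split_ifs with h
  · rw [spinSign_pow_even _ h, spinSign_pow_even _ h]; norm_num
  · have h' := Nat.not_even_iff_odd.1 h
    simp only [spinSign, if_true, one_pow, Bool.false_eq_true, if_false, h'.neg_one_pow]
    norm_num

theorem sum_spins (T : Finset (ℤ × ℤ)) (n : T → ℕ) :
    ∑ σ : T → Bool, ∏ v : T, spinSign (σ v) ^ n v = if ∀ v, Even (n v) then (2 : ℝ) ^ T.card else 0 := by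
  have h := Finset.prod_univ_sum (fun _ : T => (univ : Finset Bool))
    (fun (v : T) (c : Bool) => spinSign c ^ n v)
  rw [Fintype.piFinset_univ] at h
  rw [← h]
  simp only [sum_pow]
  split_ifs with hn
  · rw [Finset.prod_congr rfl fun v _ => if_pos (hn v), Finset.prod_const, Finset.card_univ,
      Fintype.card_coe]
  · push Not at hn
    obtain ⟨v, hv⟩ := hn
    exact Finset.prod_eq_zero (mem_univ v) (if_neg hv)

/-- a product of bond variables inside `T` is a product of powers of spins -/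
theorem prod_eps (T : Finset (ℤ × ℤ)) (b : BoundaryCondition) (σ : T → Bool)
    (P : Finset ((ℤ × ℤ) × Fin 2)) (hP : ∀ e ∈ P, e.1 ∈ T ∧ e.1 + unitVec e.2 ∈ T) :
    ∏ e ∈ P, epsE (extendConfig T b σ) e = ∏ v : T, spinSign (σ v) ^ deg P v := by
  have h1 : ∀ (u : ℤ × ℤ) (hu : u ∈ T), spinSign (extendConfig T b σ u) =
      ∏ v : T, spinSign (σ v) ^ (if u = v then 1 else 0) := by
    intro u hu
    rw [Finset.prod_eq_single (⟨u, hu⟩ : T)]
    · simp [extendConfig, hu]
    · intro v _ hv
      rw [if_neg, pow_zero]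
      rintro rfl
      exact hv rfl
    · intro h; exact absurd (mem_univ _) h
  have h2 : ∀ e ∈ P, epsE (extendConfig T b σ) e = ∏ v : T, spinSign (σ v) ^
      ((if e.1 = v then 1 else 0) + (if e.1 + unitVec e.2 = v then 1 else 0)) := by
    intro e he
    unfold epsE
    rw [h1 _ (hP e he).1, h1 _ (hP e he).2, ← Finset.prod_mul_distrib]
    refine Finset.prod_congr rfl fun v _ => ?_
    rw [← pow_add]
  rw [Finset.prod_congr rfl h2, Finset.prod_comm]
  refine Finset.prod_congr rfl fun v _ => ?_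
  rw [Finset.prod_pow_eq_pow_sum]
  rfl

theorem sB_eq (T : Finset (ℤ × ℤ)) (b : BoundaryCondition) (σ : T → Bool)
    (X : Finset (ℤ × ℤ)) (hX : X ⊆ T) :
    sB (extendConfig T b σ) X = ∏ v : T, spinSign (σ v) ^ (if (v : ℤ × ℤ) ∈ X then 1 else 0) := by
  have h1 : ∀ v : T, spinSign (σ v) ^ (if (v : ℤ × ℤ) ∈ X then 1 else 0) =
      if (v : ℤ × ℤ) ∈ X then spinSign (extendConfig T b σ v) else 1 := by
    intro v
    split_ifs with h
    · simp [extendConfig]
    · rw [pow_zero]
  rw [Finset.prod_congr rfl fun v _ => h1 v,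
    Finset.prod_coe_sort T (fun x => if x ∈ X then spinSign (extendConfig T b σ x) else 1),
    Finset.prod_ite_mem, Finset.inter_eq_right.2 hX, sB]

open Classical in
/-- **high-temperature expansion**, free boundary conditions, arbitrary weights -/
theorem hiT (T : Finset (ℤ × ℤ)) (w : (ℤ × ℤ) × Fin 2 → ℝ) (X : Finset (ℤ × ℤ)) (hX : X ⊆ T) :
    ∑ σ : T → Bool, sB (extendConfig T .free σ) X *
        ∏ e ∈ EE T .free, (1 + w e * epsE (extendConfig T .free σ) e) =
      2 ^ T.card * ∑ P ∈ (EE T .free).powerset.filter (Bdy T X), ∏ e ∈ P, w e := by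
  have h1 : ∀ σ : T → Bool, sB (extendConfig T .free σ) X *
        ∏ e ∈ EE T .free, (1 + w e * epsE (extendConfig T .free σ) e) =
      ∑ P ∈ (EE T .free).powerset, (∏ e ∈ P, w e) *
        ∏ v : T, spinSign (σ v) ^ ((if (v : ℤ × ℤ) ∈ X then 1 else 0) + deg P v) := by
    intro σ
    rw [Finset.prod_one_add, Finset.mul_sum]
    refine Finset.sum_congr rfl fun P hP => ?_
    rw [Finset.mem_powerset] at hP
    rw [Finset.prod_mul_distrib, prod_eps T _ σ P (fun e he => (mem_EE.1 (hP he)).1 rfl),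
      sB_eq T _ σ X hX]
    simp only [pow_add, Finset.prod_mul_distrib]
    ring
  rw [Finset.sum_congr rfl fun σ _ => h1 σ, Finset.sum_comm]
  simp only [← Finset.mul_sum, sum_spins]
  rw [Finset.mul_sum, Finset.sum_filter]
  refine Finset.sum_congr rfl fun P _ => ?_
  have h2 : (∀ v : T, Even ((if (v : ℤ × ℤ) ∈ X then 1 else 0) + deg P v)) ↔ Bdy T X P := by
    constructor
    · intro h v hv
      have := h ⟨v, hv⟩
      simp only at this
      by_cases hx : v ∈ X
      · rw [if_pos hx, add_comm, Nat.even_add_one, Nat.not_even_iff_odd] at this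
        exact ⟨fun _ => hx, fun _ => this⟩
      · rw [if_neg hx, zero_add] at this
        exact ⟨fun ho => absurd this (Nat.not_even_iff_odd.2 ho), fun h' => absurd h' hx⟩
    · intro h v
      have := h v v.2
      by_cases hx : (v : ℤ × ℤ) ∈ X
      · rw [if_pos hx, add_comm, Nat.even_add_one, Nat.not_even_iff_odd]
        exact this.2 hx
      · rw [if_neg hx, zero_add, ← Nat.not_odd_iff_even]
        exact fun ho => hx (this.1 ho)
  by_cases hb : Bdy T X P
  · rw [if_pos (h2.2 hb), if_pos hb]; ring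
  · rw [if_neg (fun h => hb (h2.1 h)), if_neg hb]; ring

open Classical in
/-- ratio form -/
theorem gE_free (T : Finset (ℤ × ℤ)) (w : (ℤ × ℤ) × Fin 2 → ℝ) (X : Finset (ℤ × ℤ)) (hX : X ⊆ T) :
    gE T .free w (fun s => sB s X) =
      (∑ P ∈ (EE T .free).powerset.filter (Bdy T X), ∏ e ∈ P, w e) /
        ∑ P ∈ (EE T .free).powerset.filter (Bdy T ∅), ∏ e ∈ P, w e := by
  unfold gE
  rw [hiT T w X hX]
  have h := hiT T w ∅ (empty_subset _)
  simp only [sB, Finset.prod_empty, one_mul] at h
  rw [h, mul_div_mul_left _ _ (by positivity)]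


end Crest.Agent.R165.KwHix408
end
end

-- ▼ part R165/KwLo_408
section

/-!
# Row 165 (S0250): low-temperature (domain wall) form, plus boundary conditions (helper408)

`sN N` = the configuration with minus spins exactly on `N`.

* `plus_sum` : `∑_σ F(σ) ∏_{e meets T} (1 + xc ε_e) = (1+xc)^{|E|} ∑_{N ⊆ T} F(sN N) xc^|walls N|`
* `plus_expect` : `⟨F⟩^+_T = ∑_{N ⊆ T} F(sN N) xc^|walls N| / ∑_{N ⊆ T} xc^|walls N|`
* `image_walls` : if `T` has no holes, `walls` is a bijection from subsets of `T` onto the edge sets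
  which are even at every face
* `spin_ray` : `σ_u (sN N) = ∏_{e ∈ walls N} (-1)^[e on the horizontal ray from u]`
* `plus_ray` : `∑_{N ⊆ T} ∏_{x ∈ X} σ_x(sN N) ∏_{walls N} y_e = ∑_{N ⊆ T} ∏_{walls N} y^X_e`
-/

set_option autoImplicit false

noncomputable section

open Finset
open Crest.ProbabilityR.IsingModel

namespace Crest.Agent.R165.KwLox408

open J4Defx653 KwHix408 J1ax606 J1bx606 J1cx606

/-- the configuration with minus spins exactly on `N` -/
def sN (N : Finset (ℤ × ℤ)) : ℤ × ℤ → Bool := fun v => decide (v ∉ N)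

theorem spinSign_sN (N : Finset (ℤ × ℤ)) (v : ℤ × ℤ) :
    spinSign (sN N v) = if v ∈ N then -1 else 1 := by
  unfold sN spinSign
  by_cases h : v ∈ N <;> simp [h]

theorem uv_eq (j : Fin 2) : (uv j : ℤ × ℤ) = unitVec j := rfl

/-- bond variables of `sN N` -/
theorem epsE_sN (N : Finset (ℤ × ℤ)) (e : (ℤ × ℤ) × Fin 2) :
    epsE (sN N) e = if e ∈ walls N then -1 else 1 := by
  unfold epsE
  rw [spinSign_sN, spinSign_sN]
  have := @mem_walls ℤ _ _ N e
  rw [uv_eq] at this
  by_cases h1 : e.1 ∈ N <;> by_cases h2 : e.1 + unitVec e.2 ∈ N <;> simp [this, h1, h2]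

theorem EE_plus (T : Finset (ℤ × ℤ)) : EE T .plus = touch T := by
  ext e
  rw [mem_EE, mem_touch, uv_eq]
  simp

theorem one_sub_xc : 1 - xc = xc * (1 + xc) := by
  have := xc_sq; linarith

theorem ext_mem {T : Finset (ℤ × ℤ)} {b : BoundaryCondition} {σ : T → Bool} {v : ℤ × ℤ}
    (hv : v ∈ T) : extendConfig T b σ v = σ ⟨v, hv⟩ := dif_pos hv

theorem ext_not_mem {T : Finset (ℤ × ℤ)} {b : BoundaryCondition} {σ : T → Bool} {v : ℤ × ℤ}
    (hv : v ∉ T) : extendConfig T b σ v = b.exterior := dif_neg hv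

/-- configurations on `T` extended by plus = subsets of `T` -/
theorem sum_config (T : Finset (ℤ × ℤ)) (F : (ℤ × ℤ → Bool) → ℝ) :
    ∑ σ : T → Bool, F (extendConfig T .plus σ) = ∑ N ∈ T.powerset, F (sN N) := by
  classical
  refine Finset.sum_bij' (fun σ _ => T.filter fun v => extendConfig T .plus σ v = false)
    (fun N _ => fun v : T => sN N v) ?_ ?_ ?_ ?_ ?_
  · intro σ _
    exact Finset.mem_powerset.2 (Finset.filter_subset _ _)
  · intro N _
    exact Finset.mem_univ _
  · intro σ _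
    funext v
    have hv := v.2
    have h1 : (v : ℤ × ℤ) ∉ (T.filter fun v => extendConfig T .plus σ v = false) ↔ σ v = true := by
      rw [Finset.mem_filter, ext_mem hv]
      simp [hv]
    unfold sN
    cases hσ : σ v
    · rw [decide_eq_false_iff_not, h1, hσ]; simp
    · rw [decide_eq_true_iff, h1, hσ]
  · intro N hN
    rw [Finset.mem_powerset] at hN
    ext v
    rw [Finset.mem_filter]
    constructor
    · rintro ⟨hv, h⟩
      rw [ext_mem hv] at h
      simpa [sN] using h
    · intro hv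
      refine ⟨hN hv, ?_⟩
      rw [ext_mem (hN hv)]
      simpa [sN] using hv
  · intro σ _
    congr 1
    funext v
    unfold sN
    by_cases hv : v ∈ T
    · have h1 : v ∉ (T.filter fun v => extendConfig T .plus σ v = false) ↔ σ ⟨v, hv⟩ = true := by
        rw [Finset.mem_filter, ext_mem hv]
        simp [hv]
      rw [ext_mem hv]
      cases hσ : σ ⟨v, hv⟩
      · symm; rw [decide_eq_false_iff_not, h1, hσ]; simp
      · symm; rw [decide_eq_true_iff, h1, hσ]
    · rw [ext_not_mem hv]
      have h1 : v ∉ (T.filter fun v => extendConfig T .plus σ v = false) := by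
        rw [Finset.mem_filter]; exact fun h => hv h.1
      simp [h1, BoundaryCondition.exterior]

/-- the edge factor in domain wall form, critical weights -/
theorem prod_edge (T N : Finset (ℤ × ℤ)) (hN : N ⊆ T) :
    ∏ e ∈ EE T .plus, (1 + xc * epsE (sN N) e) =
      (1 + xc) ^ (EE T .plus).card * xc ^ (walls N).card := by
  rw [EE_plus]
  have h1 : ∀ e ∈ touch T, (1 + xc * epsE (sN N) e) =
      (1 + xc) * (if e ∈ walls N then xc else 1) := by
    intro e _
    rw [epsE_sN]
    split_ifs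
    · have := one_sub_xc; linarith
    · ring
  rw [Finset.prod_congr rfl h1, Finset.prod_mul_distrib, Finset.prod_const, Finset.prod_ite_mem,
    Finset.inter_eq_right.2 (walls_subset_touch hN), Finset.prod_const]

theorem plus_sum (T : Finset (ℤ × ℤ)) (F : (ℤ × ℤ → Bool) → ℝ) :
    ∑ σ : T → Bool, F (extendConfig T .plus σ) *
        ∏ e ∈ EE T .plus, (1 + xc * epsE (extendConfig T .plus σ) e) =
      (1 + xc) ^ (EE T .plus).card * ∑ N ∈ T.powerset, F (sN N) * xc ^ (walls N).card := by
  rw [sum_config T (fun s => F s * ∏ e ∈ EE T .plus, (1 + xc * epsE s e)), Finset.mul_sum]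
  refine Finset.sum_congr rfl fun N hN => ?_
  rw [prod_edge T N (Finset.mem_powerset.1 hN)]
  ring

/-- **domain wall form**, plus boundary conditions -/
theorem gE_plus (T : Finset (ℤ × ℤ)) (F : (ℤ × ℤ → Bool) → ℝ) :
    gE T .plus (fun _ => xc) F =
      (∑ N ∈ T.powerset, F (sN N) * xc ^ (walls N).card) /
        ∑ N ∈ T.powerset, xc ^ (walls N).card := by
  unfold gE
  have h := plus_sum T (fun _ => 1)
  simp only [one_mul] at h
  rw [plus_sum, h, mul_div_mul_left]
  have := xc_pos
  positivity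


theorem evAt_walls (N : Finset (ℤ × ℤ)) (f : ℤ × ℤ) : EvAt (walls N) f := by
  by_contra h
  have h1 := E0_mon_walls (G := ℤ) N
  rw [E0_mon_odd _ f h] at h1
  exact zero_ne_one h1



/-! ### spins as products along rays -/

/-- the horizontal bonds to the right of `u` -/
def OnRay (u : ℤ × ℤ) (e : (ℤ × ℤ) × Fin 2) : Prop := e.2 = 0 ∧ e.1.2 = u.2 ∧ u.1 ≤ e.1.1

instance (u : ℤ × ℤ) (e : (ℤ × ℤ) × Fin 2) : Decidable (OnRay u e) := by
  unfold OnRay; infer_instance




end Crest.Agent.R165.KwLox408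
end
end

-- ▼ part R165/Kw4_871
section

/-!
# Row 165 (S0250), block J: Kramers-Wannier, part 4 (helper871): field form and ratios

* `lf h` : the field of the corner `h` (`S - E - N - W`, `S + E - N - W`, `S + E + N - W`,
  `S + E + N + W`)
* `E0_lf` : `E0 (cP h a) = E0 (φ(lf h) a)`, and the same for products of corners at distinct faces
* `KW_num` : `E0 (∏ φ(lf c) · ∏_{e ∈ B} (1 + s_e x_e b_e)) = ε ∑_{P ⊆ B, Ok cs P} ∏_{e ∈ P} x_e`
* `KW_den` : `E0 (∏_{e ∈ B} (1 + s_e x_e b_e)) = ∑_{N ⊆ T} ∏_{c ∈ cs} σ_{cv c}(N) ∏_{walls N} x_e`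
-/

set_option autoImplicit false
set_option linter.unusedSimpArgs false
set_option linter.unusedSectionVars false

noncomputable section

namespace Crest.Agent.R165.Kw4x871

open Crest.Agent.R165.Gr0x606 Crest.Agent.R165.Gr1x606 Crest.Agent.R165.J1ax606
  Crest.Agent.R165.J1bx606 Crest.Agent.R165.J1cx606 Crest.Agent.R165.Kw1x871
  Crest.Agent.R165.Kw2x871 Crest.Agent.R165.Kw3x871

section gen
variable {G : Type*} [DecidableEq G]

/-- coefficients of the corner fields -/
def lk (i j : Fin 4) : ℝ := if j ≤ i then 1 else if i = 0 ∧ j = 0 then 1 else -1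

/-- the field of a corner -/
def lf (h : HE G) : VI (HE G) := ∑ j : Fin 4, (if j ≤ h.2 then (1 : ℝ) else -1) • Finsupp.single (h.1, j) (1 : ℝ)

theorem fi_lf (h : HE G) : fi (lf h) = ∑ j : Fin 4, (if j ≤ h.2 then (1 : ℝ) else -1) • ph (h.1, j) := by
  unfold lf
  rw [fi, map_sum]
  refine Finset.sum_congr rfl fun j _ => ?_
  rw [map_smul]
  rfl

/-- field form of the corner operator -/
theorem E0_cP_lf (h : HE G) (a : Gr (VI (HE G))) : E0 (cP h a) = E0 (fi (lf h) * a) := by
  obtain ⟨f, i⟩ := h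
  rw [fi_lf, Finset.sum_mul, map_sum, cP_apply, map_add]
  simp only [smul_mul_assoc, map_smul, smul_eq_mul, E0_ph_mul, Fin.sum_univ_four]
  fin_cases i <;> simp [k4] <;> ring

theorem cP_fi_lf {h k : HE G} (hk : k.1 ≠ h.1) (a : Gr (VI (HE G))) :
    cP k (fi (lf h) * a) = -(fi (lf h) * cP k a) := by
  have hne : ∀ j : Fin 4, k ≠ (h.1, j) := fun j hc => hk (by rw [hc])
  have hj : ∀ j : Fin 4, cP k (ph (h.1, j) * a) = -(ph (h.1, j) * cP k a) := by
    intro j
    rw [cP_apply, cP_apply, de_ph_mul_ne (hne j), ph_anti_mul, mul_add]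
    abel
  rw [fi_lf, Finset.sum_mul, Finset.sum_mul, map_sum, ← Finset.sum_neg_distrib]
  refine Finset.sum_congr rfl fun j _ => ?_
  rw [smul_mul_assoc, map_smul, hj, smul_mul_assoc, smul_neg]

/-- sign of the length -/
def sgl {α : Type*} (cs : List α) : ℝ := (-1) ^ cs.length

theorem cPs_fi_lf {h : HE G} (cs : List (HE G)) (hcs : ∀ k ∈ cs, k.1 ≠ h.1) (a : Gr (VI (HE G))) :
    cPs cs (fi (lf h) * a) = sgl cs • (fi (lf h) * cPs cs a) := by
  induction cs with
  | nil => simp [sgl]
  | cons k cs ih =>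
    rw [cPs_cons, ih (fun k' hk' => hcs k' (List.mem_cons_of_mem _ hk')), map_smul,
      cP_fi_lf (hcs k List.mem_cons_self), cPs_cons]
    simp [sgl, pow_succ]

/-- product of the corner fields -/
def lfs (cs : List (HE G)) : Gr (VI (HE G)) := (cs.map fun h => fi (lf h)).prod

@[simp] theorem lfs_nil : lfs ([] : List (HE G)) = 1 := rfl
@[simp] theorem lfs_cons (h : HE G) (cs : List (HE G)) : lfs (h :: cs) = fi (lf h) * lfs cs := by
  simp [lfs]

theorem lfs_mul_fi (cs : List (HE G)) (x : VI (HE G)) :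
    lfs cs * fi x = sgl cs • (fi x * lfs cs) := by
  induction cs with
  | nil => simp [sgl]
  | cons k cs ih =>
    rw [lfs_cons, mul_assoc, ih, mul_smul_comm, ← mul_assoc, fi_anti (lf k) x, neg_mul, mul_assoc]
    simp [sgl, pow_succ]

theorem sgl_sq {α : Type*} (cs : List α) : sgl cs * sgl cs = 1 := by
  unfold sgl; rw [← mul_pow]; norm_num

/-- **field form** for corners at distinct faces -/
theorem E0_lf (cs : List (HE G)) (hcs : (cs.map Prod.fst).Nodup) (a : Gr (VI (HE G))) :
    E0 (cPs cs a) = E0 (lfs cs * a) := by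
  induction cs generalizing a with
  | nil => simp
  | cons h cs ih =>
    rw [List.map_cons, List.nodup_cons] at hcs
    have hne : ∀ k ∈ cs, k.1 ≠ h.1 := by
      intro k hk hc
      exact hcs.1 (List.mem_map.2 ⟨k, hk, hc⟩)
    have h1 : fi (lf h) * cPs cs a = sgl cs • cPs cs (fi (lf h) * a) := by
      rw [cPs_fi_lf cs hne, smul_smul, sgl_sq, one_smul]
    rw [cPs_cons, E0_cP_lf, h1, map_smul, ih hcs.2, ← mul_assoc, lfs_mul_fi, smul_mul_assoc,
      map_smul, smul_smul, sgl_sq, one_smul, lfs_cons]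

end gen

/-! ### numerator and denominator -/

open Classical in
/-- **numerator** -/
theorem KW_num (cs : List (HE ℤ)) (hcs : (cs.map Prod.fst).Nodup) {s : EG ℤ → ℝ} (hs : Sg s)
    (hf : ∀ v, flux s v = csgs v cs) :
    ∃ ε : ℝ, |ε| = 1 ∧ ∀ (B : Finset (EG ℤ)) (x : EG ℤ → ℝ),
      E0 (lfs cs * ((∏ e ∈ B, (1 + (s e * x e) • bb e) : Ge (VI (HE ℤ))) : Gr (VI (HE ℤ)))) =
        ε * ∑ P ∈ B.powerset.filter (Ok cs), ∏ e ∈ P, x e := by
  obtain ⟨ε, h1, h2⟩ := KW_sum cs hs hf
  exact ⟨ε, h1, fun B x => by rw [← E0_lf cs hcs]; exact h2 B x⟩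

/-- spin of the vertex `v` in the configuration with minus spins `N` -/
def spn (N : Finset (ℤ × ℤ)) (v : ℤ × ℤ) : ℝ := if v ∈ N then -1 else 1

/-- product of the spins at the corners -/
def spns (N : Finset (ℤ × ℤ)) (cs : List (HE ℤ)) : ℝ := (cs.map fun h => spn N (cv h)).prod

@[simp] theorem spns_nil (N : Finset (ℤ × ℤ)) : spns N [] = 1 := rfl
@[simp] theorem spns_cons (N : Finset (ℤ × ℤ)) (h : HE ℤ) (cs : List (HE ℤ)) :
    spns N (h :: cs) = spn N (cv h) * spns N cs := by simp [spns]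

theorem prod_csg (N : Finset (ℤ × ℤ)) (h : HE ℤ) : ∏ v ∈ N, csg v h = spn N (cv h) := by
  unfold csg spn
  rw [Finset.prod_ite_eq N (cv h) (fun _ => (-1 : ℝ))]

theorem prod_csgs (N : Finset (ℤ × ℤ)) (cs : List (HE ℤ)) : ∏ v ∈ N, csgs v cs = spns N cs := by
  induction cs with
  | nil => simp
  | cons h cs ih =>
    rw [spns_cons, ← ih, ← prod_csg, ← Finset.prod_mul_distrib]
    exact Finset.prod_congr rfl fun v _ => csgs_cons v h cs

/-- `T` is exactly filled by the even subsets of `B` -/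
def Fills (B : Finset (EG ℤ)) (T : Finset (ℤ × ℤ)) : Prop := ∀ N : Finset (ℤ × ℤ), walls N ⊆ B ↔ N ⊆ T

theorem fills_touch {T : Finset (ℤ × ℤ)} (hT : NoHole T) : Fills (touch T) T :=
  fun N => ⟨hT N, walls_subset_touch⟩

theorem prod_walls_s {cs : List (HE ℤ)} {s : EG ℤ → ℝ} (hs : Sg s)
    (hf : ∀ v, flux s v = csgs v cs) (N : Finset (ℤ × ℤ)) : ∏ e ∈ walls N, s e = spns N cs := by
  have h := prod_walls hs (∅ : Finset (EG ℤ)) N
  rw [Finset.prod_empty, mul_one] at h
  have h2 : symmDiff (∅ : Finset (EG ℤ)) (walls N) = walls N := by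
    ext x; simp [Finset.mem_symmDiff]
  rw [h2] at h
  rw [h, ← prod_csgs]
  exact Finset.prod_congr rfl fun v _ => hf v

/-- sums over even subsets of `B` -/
theorem sum_even {B : Finset (EG ℤ)} {T : Finset (ℤ × ℤ)} (hB : Fills B T)
    (g : Finset (EG ℤ) → ℝ) :
    ∑ S ∈ B.powerset, g S * E0 (mon S : Gr (VI (HE ℤ))) = ∑ N ∈ T.powerset, g (walls N) := by
  have h1 : ∑ S ∈ B.powerset, g S * E0 (mon S : Gr (VI (HE ℤ))) =
      ∑ S ∈ T.powerset.image walls, g S * E0 (mon S : Gr (VI (HE ℤ))) := by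
    symm
    apply Finset.sum_subset
    · intro S hS
      obtain ⟨N, hN, rfl⟩ := Finset.mem_image.1 hS
      rw [Finset.mem_powerset] at hN ⊢
      exact (hB N).2 hN
    · intro S hS hS'
      rw [Finset.mem_powerset] at hS
      have : ∃ f, ¬EvAt S f := by
        by_contra hc
        push Not at hc
        obtain ⟨N, hN⟩ := exists_walls S hc
        apply hS'
        rw [Finset.mem_image]
        exact ⟨N, Finset.mem_powerset.2 ((hB N).1 (hN ▸ hS)), hN⟩
      obtain ⟨f, hf⟩ := this
      rw [E0_mon_odd S f hf, mul_zero]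
  rw [h1, Finset.sum_image fun N _ N' _ h => walls_inj h]
  refine Finset.sum_congr rfl fun N _ => ?_
  rw [E0_mon_walls, mul_one]

/-- J1 for general edge sets -/
theorem J1_fills {B : Finset (EG ℤ)} {T : Finset (ℤ × ℤ)} (hB : Fills B T) (y : EG ℤ → ℝ) :
    E0 ((∏ e ∈ B, (1 + y e • bb e) : Ge (VI (HE ℤ))) : Gr (VI (HE ℤ))) =
      ∑ N ∈ T.powerset, ∏ e ∈ walls N, y e := by
  rw [E0_prod, sum_even hB fun S => ∏ e ∈ S, y e]

/-- **denominator** -/
theorem KW_den {cs : List (HE ℤ)} {s : EG ℤ → ℝ} (hs : Sg s)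
    (hf : ∀ v, flux s v = csgs v cs) {B : Finset (EG ℤ)} {T : Finset (ℤ × ℤ)} (hB : Fills B T)
    (x : EG ℤ → ℝ) :
    E0 ((∏ e ∈ B, (1 + (s e * x e) • bb e) : Ge (VI (HE ℤ))) : Gr (VI (HE ℤ))) =
      ∑ N ∈ T.powerset, spns N cs * ∏ e ∈ walls N, x e := by
  rw [J1_fills hB]
  refine Finset.sum_congr rfl fun N _ => ?_
  rw [Finset.prod_mul_distrib, prod_walls_s hs hf]

open Classical in
/-- even subsets of `B`, without signs -/
theorem sum_ok_nil {B : Finset (EG ℤ)} {T : Finset (ℤ × ℤ)} (hB : Fills B T)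
    (x : EG ℤ → ℝ) :
    ∑ P ∈ B.powerset.filter (Ok []), ∏ e ∈ P, x e = ∑ N ∈ T.powerset, ∏ e ∈ walls N, x e := by
  have h : B.powerset.filter (Ok []) = T.powerset.image walls := by
    ext S
    rw [Finset.mem_filter, Finset.mem_image, Finset.mem_powerset]
    constructor
    · rintro ⟨h1, h2⟩
      obtain ⟨N, hN⟩ := exists_walls S h2
      exact ⟨N, Finset.mem_powerset.2 ((hB N).1 (hN ▸ h1)), hN⟩
    · rintro ⟨N, hN, rfl⟩
      exact ⟨(hB N).2 (Finset.mem_powerset.1 hN), fun f => KwLox408.evAt_walls N f⟩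
  rw [h, Finset.sum_image fun N _ N' _ h => walls_inj h]

end Crest.Agent.R165.Kw4x871
end
end

-- ▼ part R165/Kw5_871

/-!
# Row 165 (S0250), block J: Kramers-Wannier, part 5 (helper871): spin form

The free Ising model lives on the nodes (faces of the half-edge system), the plus model on the
vertices; `dE (n, j)` is the edge of the vertex lattice dual to the node edge `{n, n + e_j}`.

* `KW` : `⟨σ_X⟩^free_{B} = |E_S [∏ φ(lf c)]| · |⟨∏_c σ_{cv c}⟩^+_T|` for every covariance `S` which
  represents `∏_{e ∈ B} (1 + s_e xc b_e)`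
* `KW_free` : the free model on the node set `T'` (all inner edges)
* `KW_touch` : the edges touching `T` (N4 of note 862)
* `flux_ray` : the cuts along rays to the right have the right flux
-/

set_option autoImplicit false
set_option linter.unusedSimpArgs false
set_option linter.unusedSectionVars false

noncomputable section

open Crest.ProbabilityR.IsingModel

namespace Crest.Agent.R165.Kw5x871

open Crest.Agent.R165.Gr0x606 Crest.Agent.R165.Gr1x606 Crest.Agent.R165.J1ax606
  Crest.Agent.R165.J1bx606 Crest.Agent.R165.J1cx606 Crest.Agent.R165.Kw1x871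
  Crest.Agent.R165.Kw2x871 Crest.Agent.R165.Kw3x871 Crest.Agent.R165.Kw4x871
open KwHix408 KwLox408 J4Defx653

/-! ### node edges and their duals -/

/-- dual of the node edge `{n, n + e_j}` -/
def dE (e : EG ℤ) : EG ℤ := if e.2 = 0 then (e.1 + (1, 0), 1) else (e.1 + (0, 1), 0)

/-- inverse of `dE` -/
def dI (e : EG ℤ) : EG ℤ := if e.2 = 0 then (e.1 - (0, 1), 1) else (e.1 - (1, 0), 0)

@[simp] theorem dE_dI (e : EG ℤ) : dE (dI e) = e := by
  obtain ⟨z, j⟩ := e
  fin_cases j <;> simp [dE, dI]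

@[simp] theorem dI_dE (e : EG ℤ) : dI (dE e) = e := by
  obtain ⟨z, j⟩ := e
  fin_cases j <;> simp [dE, dI]

theorem dE_inj : Function.Injective dE := fun a b h => by rw [← dI_dE a, h, dI_dE]

theorem mem_image_dE {P : Finset (EG ℤ)} {e : EG ℤ} : e ∈ P.image dE ↔ dI e ∈ P := by
  rw [Finset.mem_image]
  constructor
  · rintro ⟨a, ha, rfl⟩; rwa [dI_dE]
  · intro h; exact ⟨_, h, dE_dI e⟩

theorem mem_image_dI {P : Finset (EG ℤ)} {e : EG ℤ} : e ∈ P.image dI ↔ dE e ∈ P := by
  rw [Finset.mem_image]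
  constructor
  · rintro ⟨a, ha, rfl⟩; rwa [dE_dI]
  · intro h; exact ⟨_, h, dI_dE e⟩

/-- degrees -/
theorem deg_cast (P : Finset (EG ℤ)) (v : ℤ × ℤ) : ((deg P v : ℕ) : ZMod 2) = dgE (P.image dE) v := by
  have hi : ∀ e, ind (P.image dE) e = ind P (dI e) := by
    intro e
    unfold ind
    simp only [mem_image_dE]
  have h0 : dgE (P.image dE) v = ind P (v - (0, 1), 1) + ind P (v, 0) +
      (ind P (v, 1) + ind P (v - (1, 0), 0)) := by
    unfold dgE
    simp only [hi]
    simp [dI]
  have h1 : ∀ w : EG ℤ, ind P w = ∑ e ∈ P, if e = w then (1 : ZMod 2) else 0 := by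
    intro w
    rw [Finset.sum_ite_eq' P w (fun _ => (1 : ZMod 2))]
    rfl
  rw [h0, h1, h1, h1, h1]
  unfold deg
  rw [Nat.cast_sum, ← Finset.sum_add_distrib, ← Finset.sum_add_distrib, ← Finset.sum_add_distrib]
  refine Finset.sum_congr rfl fun e _ => ?_
  obtain ⟨⟨a, b⟩, j⟩ := e
  obtain ⟨c, d⟩ := v
  push_cast
  fin_cases j
  · simp only [Fin.zero_eta, Fin.isValue, unitVec, Prod.mk.injEq, Prod.mk_add_mk, Prod.mk_sub_mk,
      add_zero, sub_zero, and_true, and_false, zero_ne_one, one_ne_zero, if_false, if_true, zero_add,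
      eq_sub_iff_add_eq]
  · simp only [Fin.mk_one, Fin.isValue, unitVec, Prod.mk.injEq, Prod.mk_add_mk, Prod.mk_sub_mk,
      add_zero, sub_zero, and_true, and_false, zero_ne_one, one_ne_zero, if_false, if_true, zero_add,
      eq_sub_iff_add_eq]
    ring

theorem cnt_eq (cs : List (HE ℤ)) (hcs : (cs.map Prod.fst).Nodup) (f : ℤ × ℤ) :
    cnt cs f = if f ∈ (cs.map Prod.fst).toFinset then 1 else 0 := by
  induction cs with
  | nil => simp
  | cons h cs ih =>
    rw [List.map_cons, List.nodup_cons] at hcs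
    rw [cnt_cons, ih hcs.2, List.map_cons, List.toFinset_cons]
    by_cases hf : h.1 = f
    · subst hf
      rw [if_pos rfl, if_neg (by rw [List.mem_toFinset]; exact hcs.1), if_pos (by simp), add_zero]
    · rw [if_neg hf, zero_add]
      have : f ∈ insert h.1 (cs.map Prod.fst).toFinset ↔ f ∈ (cs.map Prod.fst).toFinset := by
        rw [Finset.mem_insert]
        constructor
        · rintro (h1 | h1)
          · exact absurd h1.symm hf
          · exact h1
        · exact Or.inr
      simp only [this]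

/-- the parity condition on nodes -/
theorem ok_iff (T' : Finset (ℤ × ℤ)) (cs : List (HE ℤ)) (hcs : (cs.map Prod.fst).Nodup)
    (hX : ∀ c ∈ cs, c.1 ∈ T') (P : Finset (EG ℤ)) (hP : ∀ e ∈ P, e.1 ∈ T' ∧ e.1 + unitVec e.2 ∈ T') :
    Ok cs (P.image dE) ↔ Bdy T' (cs.map Prod.fst).toFinset P := by
  have hodd : ∀ v, Odd (deg P v) ↔ dgE (P.image dE) v = 1 := by
    intro v
    rw [← deg_cast, ← Nat.not_even_iff_odd, ← ZMod.natCast_eq_zero_iff_even]
    generalize ((deg P v : ℕ) : ZMod 2) = z
    revert z; decide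
  have h01 : ∀ z w : ZMod 2, (z = 1 ↔ w = 1) ↔ z = w := by decide
  constructor
  · intro h v _
    rw [hodd, h v, cnt_eq cs hcs]
    split_ifs with h1 <;> simp [h1]
  · intro h v
    by_cases hv : v ∈ T'
    · have h1 := h v hv
      rw [hodd] at h1
      rw [← h01, h1, cnt_eq cs hcs]
      split_ifs with h1 <;> simp [h1]
    · have h1 : deg P v = 0 := by
        unfold deg
        refine Finset.sum_eq_zero fun e he => ?_
        have n1 : ¬e.1 = v := fun hc => hv (hc ▸ (hP e he).1)
        have n2 : ¬e.1 + unitVec e.2 = v := fun hc => hv (hc ▸ (hP e he).2)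
        rw [if_neg n1, if_neg n2, add_zero]
      rw [← deg_cast, h1, cnt_eq cs hcs, if_neg]
      · simp
      · rw [List.mem_toFinset, List.mem_map]
        rintro ⟨c, hc, rfl⟩
        exact hv (hX c hc)

/-- free couplings on the edge set `B` -/
def wB (B : Finset (EG ℤ)) (x : EG ℤ → ℝ) (e : EG ℤ) : ℝ := if dE e ∈ B then x (dE e) else 0

open Classical in
theorem sum_nodes (T' : Finset (ℤ × ℤ)) (cs : List (HE ℤ)) (hcs : (cs.map Prod.fst).Nodup)
    (hX : ∀ c ∈ cs, c.1 ∈ T') (B : Finset (EG ℤ)) (hB : ∀ e, dE e ∈ B → e ∈ EE T' .free)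
    (x : EG ℤ → ℝ) :
    ∑ P ∈ (EE T' .free).powerset.filter (Bdy T' (cs.map Prod.fst).toFinset), ∏ e ∈ P, wB B x e =
      ∑ P ∈ B.powerset.filter (Ok cs), ∏ e ∈ P, x e := by
  have hsub : ∀ P ∈ (EE T' .free).powerset.filter (Bdy T' (cs.map Prod.fst).toFinset),
      ¬(P.image dE ⊆ B) → ∏ e ∈ P, wB B x e = 0 := by
    intro P _ h
    rw [Finset.not_subset] at h
    obtain ⟨e, he, he'⟩ := h
    rw [mem_image_dE] at he
    refine Finset.prod_eq_zero he ?_
    unfold wB
    rw [dE_dI, if_neg he']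
  rw [← Finset.sum_filter_of_ne (p := fun P => P.image dE ⊆ B)
    (fun P hP h => by by_contra hc; exact h (hsub P hP hc))]
  refine Finset.sum_bij' (fun P _ => P.image dE) (fun P _ => P.image dI) ?_ ?_ ?_ ?_ ?_
  · intro P hP
    rw [Finset.mem_filter, Finset.mem_filter, Finset.mem_powerset] at hP
    rw [Finset.mem_filter, Finset.mem_powerset]
    refine ⟨hP.2, (ok_iff T' cs hcs hX P fun e he => ?_).2 hP.1.2⟩
    exact (mem_EE.1 (hP.1.1 he)).1 rfl
  · intro P hP
    rw [Finset.mem_filter, Finset.mem_powerset] at hP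
    have hEE : ∀ e ∈ P.image dI, e ∈ EE T' .free := by
      intro e he
      rw [mem_image_dI] at he
      exact hB e (hP.1 he)
    have him : (P.image dI).image dE = P := by
      ext e; rw [mem_image_dE, mem_image_dI, dE_dI]
    rw [Finset.mem_filter, Finset.mem_filter, Finset.mem_powerset]
    refine ⟨⟨hEE, (ok_iff T' cs hcs hX _ fun e he => ?_).1 (by rw [him]; exact hP.2)⟩, by rw [him]; exact hP.1⟩
    exact (mem_EE.1 (hEE e he)).1 rfl
  · intro P _
    ext e; rw [mem_image_dI, mem_image_dE, dI_dE]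
  · intro P _
    ext e; rw [mem_image_dE, mem_image_dI, dE_dI]
  · intro P hP
    rw [Finset.mem_filter] at hP
    rw [Finset.prod_image fun a _ b _ h => dE_inj h]
    refine Finset.prod_congr rfl fun e he => ?_
    unfold wB
    rw [if_pos (hP.2 (Finset.mem_image_of_mem _ he))]

/-! ### the theorem -/

/-- `S` represents the Gaussian state with density `∏_{e ∈ B} (1 + y_e b_e)` -/
def Rep (B : Finset (EG ℤ)) (y : EG ℤ → ℝ) (S : Cov (VI (HE ℤ))) : Prop :=
  ∀ F : Gr (VI (HE ℤ)),
    E0 (F * ((∏ e ∈ B, (1 + y e • bb e) : Ge (VI (HE ℤ))) : Gr (VI (HE ℤ)))) =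
      E0 ((∏ e ∈ B, (1 + y e • bb e) : Ge (VI (HE ℤ))) : Gr (VI (HE ℤ))) * EE S F

theorem spin_list (N : Finset (ℤ × ℤ)) (cs : List (HE ℤ)) :
    (cs.map fun h => spinSign (sN N (cv h))).prod = spns N cs := by
  unfold spns spn
  congr 1
  refine List.map_congr_left fun h _ => ?_
  rw [spinSign_sN]


open Classical in
theorem KW_sums {cs : List (HE ℤ)} (hcs : (cs.map Prod.fst).Nodup) {s : EG ℤ → ℝ} (hs : Sg s)
    (hf : ∀ v, flux s v = csgs v cs) {B : Finset (EG ℤ)} {T : Finset (ℤ × ℤ)} (hB : Fills B T)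
    (x : EG ℤ → ℝ) (S : Cov (VI (HE ℤ))) (hS : Rep B (fun e => s e * x e) S) :
    |∑ P ∈ B.powerset.filter (Ok cs), ∏ e ∈ P, x e| =
      |EE S (lfs cs)| * |∑ N ∈ T.powerset, spns N cs * ∏ e ∈ walls N, x e| := by
  obtain ⟨ε, hε, hn⟩ := KW_num cs hcs hs hf
  have h1 := hn B x
  have h2 := KW_den hs hf hB x
  have h3 := hS (lfs cs)
  rw [h1, h2] at h3
  have h4 := congrArg abs h3
  rw [abs_mul, hε, one_mul, abs_mul] at h4
  rw [h4, mul_comm]

/-- **Kramers-Wannier for Pfaffians of corner fields** at the critical point -/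
theorem KW {cs : List (HE ℤ)} (hcs : (cs.map Prod.fst).Nodup) {s : EG ℤ → ℝ} (hs : Sg s)
    (hf : ∀ v, flux s v = csgs v cs) {B : Finset (EG ℤ)} {T : Finset (ℤ × ℤ)} (hB : Fills B T)
    {T' : Finset (ℤ × ℤ)} (hX : ∀ c ∈ cs, c.1 ∈ T') (hBT : ∀ e, dE e ∈ B → e ∈ EE T' .free)
    (S : Cov (VI (HE ℤ))) (hS : Rep B (fun e => s e * xc) S) :
    |gE T' .free (wB B fun _ => xc) (fun σ => sB σ (cs.map Prod.fst).toFinset)| =
      |EE S (lfs cs)| * |gE T .plus (fun _ => xc) (fun σ => (cs.map fun h => spinSign (σ (cv h))).prod)| := by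
  classical
  have hXT : (cs.map Prod.fst).toFinset ⊆ T' := by
    intro v hv
    rw [List.mem_toFinset, List.mem_map] at hv
    obtain ⟨c, hc, rfl⟩ := hv
    exact hX c hc
  have h0 := sum_nodes T' [] (by simp) (by simp) B hBT (fun _ => xc)
  rw [sum_ok_nil hB] at h0
  simp only [List.map_nil, List.toFinset_nil] at h0
  rw [gE_free T' _ _ hXT, sum_nodes T' cs hcs hX B hBT, h0, gE_plus]
  have h1 := KW_sums hcs hs hf hB (fun _ => xc) S hS
  simp only [spin_list]
  simp only [Finset.prod_const] at h1 ⊢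
  rw [abs_div, abs_div, h1, mul_div_assoc]

/-! ### the two standard situations -/

/-- the vertices all of whose four nodes are in `T'` -/
def starT (T' : Finset (ℤ × ℤ)) : Finset (ℤ × ℤ) :=
  T'.filter fun v => v - (1, 0) ∈ T' ∧ v - (0, 1) ∈ T' ∧ v - (1, 1) ∈ T'

/-- no holes, for a set of nodes -/
def NHF (T' : Finset (ℤ × ℤ)) : Prop :=
  ∀ N : Finset (ℤ × ℤ), walls N ⊆ (EE T' .free).image dE → N ⊆ starT T'

theorem fills_free {T' : Finset (ℤ × ℤ)} (h : NHF T') : Fills ((EE T' .free).image dE) (starT T') := by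
  intro N
  refine ⟨h N, fun hN => ?_⟩
  intro e he
  rw [mem_image_dE, mem_EE]
  have he' := walls_subset_touch hN he
  rw [mem_touch] at he'
  have key : dI e = dI e → (dI e).1 ∈ T' ∧ (dI e).1 + unitVec (dI e).2 ∈ T' := by
    intro _
    obtain ⟨⟨a, b⟩, j⟩ := e
    fin_cases j
    · simp only [starT, Finset.mem_filter, uv, unitVec, dI, Fin.zero_eta, Fin.isValue, if_true,
        Prod.mk_add_mk, Prod.mk_sub_mk, sub_zero, add_zero, add_sub_cancel_right, one_ne_zero,
        if_false, sub_add_cancel] at he' ⊢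
      rcases he' with h1 | h1
      · exact ⟨h1.2.2.1, h1.1⟩
      · exact ⟨h1.2.2.2, h1.2.1⟩
    · simp only [starT, Finset.mem_filter, uv, unitVec, dI, Fin.mk_one, Fin.isValue, if_true,
        Prod.mk_add_mk, Prod.mk_sub_mk, sub_zero, add_zero, add_sub_cancel_right, one_ne_zero,
        if_false, sub_add_cancel] at he' ⊢
      rcases he' with h1 | h1
      · exact ⟨h1.2.1, h1.1⟩
      · exact ⟨h1.2.2.2, h1.2.2.1⟩
  exact ⟨fun _ => key rfl, Or.inl (key rfl).1⟩

theorem gE_congr {T : Finset (ℤ × ℤ)} {b : BoundaryCondition} {w w' : (ℤ × ℤ) × Fin 2 → ℝ}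
    (h : ∀ e ∈ EE T b, w e = w' e) (f : (ℤ × ℤ → Bool) → ℝ) : gE T b w f = gE T b w' f := by
  unfold gE
  have : ∀ σ : T → Bool, ∏ e ∈ EE T b, (1 + w e * epsE (extendConfig T b σ) e) =
      ∏ e ∈ EE T b, (1 + w' e * epsE (extendConfig T b σ) e) := fun σ =>
    Finset.prod_congr rfl fun e he => by rw [h e he]
  simp only [this]

/-- **Kramers-Wannier, free model on the nodes `T'`** -/
theorem KW_free {cs : List (HE ℤ)} (hcs : (cs.map Prod.fst).Nodup) {s : EG ℤ → ℝ} (hs : Sg s)
    (hf : ∀ v, flux s v = csgs v cs) {T' : Finset (ℤ × ℤ)} (hT : NHF T') (hX : ∀ c ∈ cs, c.1 ∈ T')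
    (S : Cov (VI (HE ℤ))) (hS : Rep ((EE T' .free).image dE) (fun e => s e * xc) S) :
    |gE T' .free (fun _ => xc) (fun σ => sB σ (cs.map Prod.fst).toFinset)| =
      |EE S (lfs cs)| * |gE (starT T') .plus (fun _ => xc)
        (fun σ => (cs.map fun h => spinSign (σ (cv h))).prod)| := by
  rw [← KW hcs hs hf (fills_free hT) hX (fun e he => by rwa [mem_image_dE, dI_dE] at he) S hS]
  congr 1
  refine gE_congr (fun e he => ?_) _
  unfold wB
  rw [if_pos (Finset.mem_image_of_mem _ he)]

/-- **Kramers-Wannier, plus model on `T`** (N4): the free model has the edges dual to the edges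
touching `T` -/
theorem KW_touch {cs : List (HE ℤ)} (hcs : (cs.map Prod.fst).Nodup) {s : EG ℤ → ℝ} (hs : Sg s)
    (hf : ∀ v, flux s v = csgs v cs) {T T' : Finset (ℤ × ℤ)} (hT : NoHole T)
    (hX : ∀ c ∈ cs, c.1 ∈ T') (hTT : ∀ e, dE e ∈ touch T → e ∈ EE T' .free)
    (S : Cov (VI (HE ℤ))) (hS : Rep (touch T) (fun e => s e * xc) S) :
    |gE T' .free (wB (touch T) fun _ => xc) (fun σ => sB σ (cs.map Prod.fst).toFinset)| =
      |EE S (lfs cs)| * |gE T .plus (fun _ => xc)
        (fun σ => (cs.map fun h => spinSign (σ (cv h))).prod)| :=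
  KW hcs hs hf (fills_touch hT) hX hTT S hS

/-! ### rays -/

/-- signs along the rays to the right of the vertices `vs` -/
def rayS (vs : List (ℤ × ℤ)) (e : EG ℤ) : ℝ := (vs.map fun v => if OnRay v e then (-1 : ℝ) else 1).prod

@[simp] theorem rayS_nil (e : EG ℤ) : rayS [] e = 1 := rfl
@[simp] theorem rayS_cons (v : ℤ × ℤ) (vs : List (ℤ × ℤ)) (e : EG ℤ) :
    rayS (v :: vs) e = (if OnRay v e then (-1 : ℝ) else 1) * rayS vs e := by simp [rayS]

theorem sg_rayS (vs : List (ℤ × ℤ)) : Sg (rayS vs) := by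
  intro e
  induction vs with
  | nil => simp
  | cons v vs ih =>
    rw [rayS_cons, mul_mul_mul_comm, ih, mul_one]
    split_ifs <;> norm_num

theorem flux_one (u v : ℤ × ℤ) :
    flux (fun e => if OnRay u e then (-1 : ℝ) else 1) v = if u = v then -1 else 1 := by
  obtain ⟨a, b⟩ := u
  obtain ⟨c, d⟩ := v
  unfold flux
  simp only [OnRay, Prod.mk_sub_mk, sub_zero, Prod.mk.injEq, zero_ne_one, one_ne_zero, false_and,
    true_and, if_false, mul_one, Fin.isValue]
  by_cases hd : d = b
  · subst hd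
    by_cases h1 : a ≤ c - 1
    · have h2 : a ≤ c := by omega
      have h3 : ¬a = c := by omega
      simp [h1, h2, h3]
    · by_cases h2 : a ≤ c
      · have h3 : a = c := by omega
        subst h3
        simp
      · have h3 : ¬a = c := by omega
        simp [h1, h2, h3]
  · have hd' : ¬b = d := fun h => hd h.symm
    simp [hd, hd']

theorem flux_mul (s t : EG ℤ → ℝ) (v : ℤ × ℤ) :
    flux (fun e => s e * t e) v = flux s v * flux t v := by
  unfold flux; ring

theorem flux_rayS (vs : List (ℤ × ℤ)) (v : ℤ × ℤ) :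
    flux (rayS vs) v = (vs.map fun u => if u = v then (-1 : ℝ) else 1).prod := by
  induction vs with
  | nil => simp [flux, rayS]
  | cons u vs ih =>
    have : rayS (u :: vs) = fun e => (if OnRay u e then (-1 : ℝ) else 1) * rayS vs e := by
      funext e; simp
    rw [this, flux_mul, flux_one, ih]
    simp

/-- the rays starting at the corners have the right flux -/
theorem flux_ray (cs : List (HE ℤ)) (v : ℤ × ℤ) : flux (rayS (cs.map cv)) v = csgs v cs := by
  rw [flux_rayS]
  unfold csgs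
  rw [List.map_map]
  rfl

end Crest.Agent.R165.Kw5x871
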