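import Crest.Agent.R165.PathInt_641

-- ▼ part R165/PathGl_641
section

/-!
# Row 165 (S0250), block U5: global convergence of ratios (helper641)

`LDD n D Z g` : locally uniform one-step expansions on the configuration space of `D`.
Output: `LDD.ratio` (all ratios converge, independently of the lattice approximation), the limit
`Gl`, its cocycle property, the segment formula, differentiability of its logarithm, and the
comparison of two families whose log-derivatives are related by the conformal covariance rule.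
-/

set_option autoImplicit false

noncomputable section

open Filter Topology Set
open Crest.ProbabilityR.IsingModel

namespace Crest.Agent.R165.PathGlx641

open ConfTopx641 PathIntx641

/-- real coordinate of a complex number -/
def cc (j : Fin 2) (z : ℂ) : ℝ := if j = 0 then z.re else z.im

/-- integer coordinate -/
def cz (j : Fin 2) (z : ℤ × ℤ) : ℤ := if j = 0 then z.1 else z.2

/-- mixture of complex configurations -/
def cm {n : ℕ} (S : Finset (Fin n × Fin 2)) (x y : Fin n → ℂ) : Fin n → ℂ := fun i =>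
  ⟨if (i, 0) ∈ S then (y i).re else (x i).re, if (i, 1) ∈ S then (y i).im else (x i).im⟩

/-- mixture of lattice configurations -/
def lm {n : ℕ} (S : Finset (Fin n × Fin 2)) (u w : Fin n → ℤ × ℤ) : Fin n → ℤ × ℤ := fun i =>
  (if (i, 0) ∈ S then (w i).1 else (u i).1, if (i, 1) ∈ S then (w i).2 else (u i).2)

theorem mc_lm {n : ℕ} (a : ℝ) (S : Finset (Fin n × Fin 2)) (u w : Fin n → ℤ × ℤ) :
    mc a (lm S u w) = cm S (mc a u) (mc a w) := by
  funext i
  apply Complex.ext
  · simp only [mc, lm, cm, meshPoint]; split_ifs <;> rfl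
  · simp only [mc, lm, cm, meshPoint]; split_ifs <;> rfl

@[simp] theorem cm_empty {n : ℕ} (x y : Fin n → ℂ) : cm ∅ x y = x := by
  funext i; simp [cm]

@[simp] theorem lm_empty {n : ℕ} (x y : Fin n → ℤ × ℤ) : lm ∅ x y = x := by
  funext i; simp [lm]

@[simp] theorem cm_univ {n : ℕ} (x y : Fin n → ℂ) : cm Finset.univ x y = y := by
  funext i; simp [cm]

@[simp] theorem lm_univ {n : ℕ} (x y : Fin n → ℤ × ℤ) : lm Finset.univ x y = y := by
  funext i; simp [lm]



theorem cm_insert {n : ℕ} (S : Finset (Fin n × Fin 2)) (x y : Fin n → ℂ) (i : Fin n) (j : Fin 2)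
    (h : (i, j) ∉ S) :
    cm (insert (i, j) S) x y =
      csh (cm S x y) i (((cc j (y i) - cc j (x i) : ℝ) : ℂ) * cv (unitVec j)) := by
  funext k
  by_cases hk : k = i
  · subst hk
    simp only [csh, Function.update_self]
    fin_cases j
    · change (k, 0) ∉ S at h
      apply Complex.ext
      · simp [cm, cc, h, cv, unitVec]
      · simp [cm, cc, cv, unitVec]
    · change (k, 1) ∉ S at h
      apply Complex.ext
      · simp [cm, cc, cv, unitVec]
      · simp [cm, cc, h, cv, unitVec]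
  · simp only [csh, Function.update_of_ne hk]
    apply Complex.ext <;> simp [cm, hk]

theorem lm_insert {n : ℕ} (S : Finset (Fin n × Fin 2)) (x y : Fin n → ℤ × ℤ) (i : Fin n) (j : Fin 2)
    (h : (i, j) ∉ S) :
    lm (insert (i, j) S) x y = sh (lm S x y) i ((cz j (y i) - cz j (x i)) • unitVec j) := by
  funext k
  by_cases hk : k = i
  · subst hk
    simp only [sh, Function.update_self]
    fin_cases j
    · change (k, 0) ∉ S at h
      apply Prod.ext
      · simp [lm, cz, h, unitVec]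
      · simp [lm, cz, unitVec]
    · change (k, 1) ∉ S at h
      apply Prod.ext
      · simp [lm, cz, unitVec]
      · simp [lm, cz, h, unitVec]
  · simp only [sh, Function.update_of_ne hk]
    apply Prod.ext <;> simp [lm, hk]

theorem continuous_cm {n : ℕ} (S : Finset (Fin n × Fin 2)) :
    Continuous fun p : (Fin n → ℂ) × (Fin n → ℂ) => cm S p.1 p.2 := by
  refine continuous_pi fun i => ?_
  have h : (fun p : (Fin n → ℂ) × (Fin n → ℂ) => cm S p.1 p.2 i) = fun p =>
      (((if (i, 0) ∈ S then (p.2 i).re else (p.1 i).re : ℝ) : ℂ) +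
        ((if (i, 1) ∈ S then (p.2 i).im else (p.1 i).im : ℝ) : ℂ) * Complex.I) := by
    funext p
    apply Complex.ext <;> simp [cm]
  rw [h]
  refine Continuous.add ?_ (Continuous.mul ?_ continuous_const)
  · split_ifs
    · fun_prop
    · fun_prop
  · split_ifs
    · fun_prop
    · fun_prop

/-- the closed box spanned by two configurations -/
def Box {n : ℕ} (x y : Fin n → ℂ) : Set (Fin n → ℂ) :=
  {z | ∀ i, (z i).re ∈ uIcc (x i).re (y i).re ∧ (z i).im ∈ uIcc (x i).im (y i).im}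

theorem seg_mem_box {n : ℕ} (S : Finset (Fin n × Fin 2)) (x y : Fin n → ℂ) (i : Fin n) (j : Fin 2)
    (h : (i, j) ∉ S) (s : ℝ) (hs : s ∈ uIcc 0 (cc j (y i) - cc j (x i))) :
    csh (cm S x y) i ((s : ℂ) * cv (unitVec j)) ∈ Box x y := by
  have key : ∀ p q : ℝ, s ∈ uIcc 0 (q - p) → p + s ∈ uIcc p q := by
    intro p q hs
    rcases le_total 0 (q - p) with h | h
    · rw [uIcc_of_le h] at hs
      rw [uIcc_of_le (by linarith)]
      exact ⟨by linarith [hs.1], by linarith [hs.2]⟩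
    · rw [uIcc_of_ge h] at hs
      rw [uIcc_of_ge (by linarith)]
      exact ⟨by linarith [hs.1], by linarith [hs.2]⟩
  have mixre : ∀ k, (cm S x y k).re ∈ uIcc (x k).re (y k).re := by
    intro k; simp only [cm]; split_ifs
    · exact right_mem_uIcc
    · exact left_mem_uIcc
  have mixim : ∀ k, (cm S x y k).im ∈ uIcc (x k).im (y k).im := by
    intro k; simp only [cm]; split_ifs
    · exact right_mem_uIcc
    · exact left_mem_uIcc
  intro k
  by_cases hk : k = i
  · subst hk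
    simp only [csh, Function.update_self]
    fin_cases j
    · change (k, 0) ∉ S at h
      have hs' : s ∈ uIcc 0 ((y k).re - (x k).re) := hs
      refine ⟨?_, ?_⟩
      · have : (cm S x y k + (s : ℂ) * cv (unitVec 0)).re = (x k).re + s := by
          simp [cm, h, cv, unitVec]
        change (cm S x y k + (s : ℂ) * cv (unitVec 0)).re ∈ _
        rw [this]; exact key _ _ hs'
      · have : (cm S x y k + (s : ℂ) * cv (unitVec 0)).im = (cm S x y k).im := by
          simp [cv, unitVec]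
        change (cm S x y k + (s : ℂ) * cv (unitVec 0)).im ∈ _
        rw [this]; exact mixim k
    · change (k, 1) ∉ S at h
      have hs' : s ∈ uIcc 0 ((y k).im - (x k).im) := hs
      refine ⟨?_, ?_⟩
      · have : (cm S x y k + (s : ℂ) * cv (unitVec 1)).re = (cm S x y k).re := by
          simp [cv, unitVec]
        change (cm S x y k + (s : ℂ) * cv (unitVec 1)).re ∈ _
        rw [this]; exact mixre k
      · have : (cm S x y k + (s : ℂ) * cv (unitVec 1)).im = (x k).im + s := by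
          simp [cm, h, cv, unitVec]
        change (cm S x y k + (s : ℂ) * cv (unitVec 1)).im ∈ _
        rw [this]; exact key _ _ hs'
  · simp only [csh, Function.update_of_ne hk]
    exact ⟨mixre k, mixim k⟩

theorem cm_mem_box {n : ℕ} (S : Finset (Fin n × Fin 2)) (x y : Fin n → ℂ) : cm S x y ∈ Box x y := by
  intro k
  refine ⟨?_, ?_⟩ <;> simp only [cm] <;> split_ifs
  · exact right_mem_uIcc
  · exact left_mem_uIcc
  · exact right_mem_uIcc
  · exact left_mem_uIcc

theorem box_dist {n : ℕ} {x y z : Fin n → ℂ} (hz : z ∈ Box x y) : dist z x ≤ 2 * dist y x := by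
  rw [dist_pi_le_iff (by positivity)]
  intro i
  have h1 : |(z i).re - (x i).re| ≤ dist y x := by
    have h2 : |(z i).re - (x i).re| ≤ |(y i).re - (x i).re| :=
      abs_sub_left_of_mem_uIcc (hz i).1
    refine h2.trans ?_
    have h3 : |(y i).re - (x i).re| ≤ ‖y i - x i‖ := by
      rw [← Complex.sub_re]; exact Complex.abs_re_le_norm _
    exact h3.trans (by rw [← dist_eq_norm]; exact dist_le_pi_dist y x i)
  have h1' : |(z i).im - (x i).im| ≤ dist y x := by
    have h2 : |(z i).im - (x i).im| ≤ |(y i).im - (x i).im| :=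
      abs_sub_left_of_mem_uIcc (hz i).2
    refine h2.trans ?_
    have h3 : |(y i).im - (x i).im| ≤ ‖y i - x i‖ := by
      rw [← Complex.sub_im]; exact Complex.abs_im_le_norm _
    exact h3.trans (by rw [← dist_eq_norm]; exact dist_le_pi_dist y x i)
  rw [dist_eq_norm]
  refine (Complex.norm_le_abs_re_add_abs_im _).trans ?_
  rw [Complex.sub_re, Complex.sub_im]
  linarith

/-- integrated expansions along axis segments in `U` (see `LD.of_axis` for the usual way to
obtain it from one-step expansions, and `PathSeq_641` for diagonal steps) -/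
structure LD {n : ℕ} (U : Set (Fin n → ℂ)) (Z : ℝ → (Fin n → ℤ × ℤ) → ℝ)
    (g : Fin n → Fin 2 → (Fin n → ℂ) → ℝ) : Prop where
  isOpen : IsOpen U
  pos : PosOn U Z
  cont : ∀ i j, ContinuousOn (g i j) U
  seg : ∀ (i : Fin n) (j : Fin 2) (x : Fin n → ℂ) (T : ℝ),
    (∀ s ∈ uIcc 0 T, csh x i ((s : ℂ) * cv (unitVec j)) ∈ U) → ∀ l : Filter ℝ, l ≤ 𝓝[>] 0 →
    ∀ u : ℝ → Fin n → ℤ × ℤ, Tendsto (fun a => mc a (u a)) l (𝓝 x) →
    ∀ N : ℝ → ℤ, Tendsto (fun a => a * (N a : ℝ)) l (𝓝 T) →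
    Tendsto (fun a => Z a (sh (u a) i (N a • unitVec j)) / Z a (u a)) l
      (𝓝 (Real.exp (∫ s in (0 : ℝ)..T, g i j (csh x i ((s : ℂ) * cv (unitVec j))))))


/-- the relation: ratios converge, for every lattice approximation and along every filter -/
def Rel {n : ℕ} (Z : ℝ → (Fin n → ℤ × ℤ) → ℝ) (x y : Fin n → ℂ) (G : ℝ) : Prop :=
  ∀ l : Filter ℝ, l ≤ 𝓝[>] 0 → ∀ u w : ℝ → Fin n → ℤ × ℤ,
    Tendsto (fun a => mc a (u a)) l (𝓝 x) → Tendsto (fun a => mc a (w a)) l (𝓝 y) →
    Tendsto (fun a => Z a (w a) / Z a (u a)) l (𝓝 G)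

theorem tendsto_comp_cc {l : Filter ℝ} {u : ℝ → ℂ} {x : ℂ} (h : Tendsto u l (𝓝 x)) (j : Fin 2) :
    Tendsto (fun a => cc j (u a)) l (𝓝 (cc j x)) := by
  unfold cc
  split_ifs
  · exact (Complex.continuous_re.tendsto x).comp h
  · exact (Complex.continuous_im.tendsto x).comp h

theorem cc_meshPoint (a : ℝ) (j : Fin 2) (z : ℤ × ℤ) : cc j (meshPoint a z) = a * cz j z := by
  unfold cc cz meshPoint; split_ifs <;> rfl

theorem ev_pos {n : ℕ} {U : Set (Fin n → ℂ)} {Z : ℝ → (Fin n → ℤ × ℤ) → ℝ} (hU : IsOpen U)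
    (hpos : PosOn U Z) {l : Filter ℝ} (hl : l ≤ 𝓝[>] 0) {u : ℝ → Fin n → ℤ × ℤ} {x : Fin n → ℂ}
    (hx : x ∈ U) (hu : Tendsto (fun a => mc a (u a)) l (𝓝 x)) : ∀ᶠ a in l, 0 < Z a (u a) := by
  filter_upwards [hl hpos, hu.eventually (hU.mem_nhds hx)] with a h1 h2
  exact h1 _ h2

/-- one axis-parallel segment -/
theorem LD.rel_seg {n : ℕ} {U : Set (Fin n → ℂ)} {Z : ℝ → (Fin n → ℤ × ℤ) → ℝ}
    {g : Fin n → Fin 2 → (Fin n → ℂ) → ℝ} (H : LD U Z g) {x y : Fin n → ℂ}
    (hbox : Box x y ⊆ U) (S : Finset (Fin n × Fin 2)) (i : Fin n) (j : Fin 2) (h : (i, j) ∉ S)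
    (l : Filter ℝ) (hl : l ≤ 𝓝[>] 0) (u w : ℝ → Fin n → ℤ × ℤ)
    (hu : Tendsto (fun a => mc a (u a)) l (𝓝 x)) (hw : Tendsto (fun a => mc a (w a)) l (𝓝 y)) :
    Tendsto (fun a => Z a (lm (insert (i, j) S) (u a) (w a)) / Z a (lm S (u a) (w a))) l
      (𝓝 (Real.exp (∫ s in (0 : ℝ)..(cc j (y i) - cc j (x i)),
        g i j (csh (cm S x y) i ((s : ℂ) * cv (unitVec j)))))) := by
  have hbase : Tendsto (fun a => mc a (lm S (u a) (w a))) l (𝓝 (cm S x y)) := by
    simp only [mc_lm]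
    exact ((continuous_cm S).tendsto (x, y)).comp (hu.prodMk_nhds hw)
  have hN : Tendsto (fun a => a * ((cz j (w a i) - cz j (u a i) : ℤ) : ℝ)) l
      (𝓝 (cc j (y i) - cc j (x i))) := by
    have h1 := tendsto_comp_cc (tendsto_pi_nhds.1 hw i) j
    have h2 := tendsto_comp_cc (tendsto_pi_nhds.1 hu i) j
    refine (h1.sub h2).congr fun a => ?_
    simp only [mc, cc_meshPoint]
    push_cast; ring
  have := H.seg i j (cm S x y) _ (fun s hs => hbox (seg_mem_box S x y i j h s hs)) l hl _ hbase _ hN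
  refine this.congr fun a => ?_
  rw [lm_insert S (u a) (w a) i j h]

/-- **box lemma** -/
theorem LD.rel_box {n : ℕ} {U : Set (Fin n → ℂ)} {Z : ℝ → (Fin n → ℤ × ℤ) → ℝ}
    {g : Fin n → Fin 2 → (Fin n → ℂ) → ℝ} (H : LD U Z g) {x y : Fin n → ℂ}
    (hbox : Box x y ⊆ U) : ∃ G : ℝ, 0 < G ∧ Rel Z x y G := by
  classical
  have hx : x ∈ U := hbox (by simpa using cm_mem_box ∅ x y)
  have key : ∀ S : Finset (Fin n × Fin 2), ∃ G : ℝ, 0 < G ∧
      ∀ l : Filter ℝ, l ≤ 𝓝[>] 0 → ∀ u w : ℝ → Fin n → ℤ × ℤ,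
        Tendsto (fun a => mc a (u a)) l (𝓝 x) → Tendsto (fun a => mc a (w a)) l (𝓝 y) →
        Tendsto (fun a => Z a (lm S (u a) (w a)) / Z a (u a)) l (𝓝 G) := by
    intro S
    induction S using Finset.induction_on with
    | empty =>
      refine ⟨1, one_pos, fun l hl u w hu _ => ?_⟩
      refine tendsto_const_nhds.congr' ?_
      filter_upwards [ev_pos H.isOpen H.pos hl hx hu] with a ha
      simp only [lm_empty]
      exact (div_self ha.ne').symm
    | insert p S hp ih =>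
      obtain ⟨i, j⟩ := p
      obtain ⟨G, hG, hGt⟩ := ih
      refine ⟨Real.exp (∫ s in (0 : ℝ)..(cc j (y i) - cc j (x i)),
        g i j (csh (cm S x y) i ((s : ℂ) * cv (unitVec j)))) * G,
        mul_pos (Real.exp_pos _) hG, fun l hl u w hu hw => ?_⟩
      refine ((H.rel_seg hbox S i j hp l hl u w hu hw).mul (hGt l hl u w hu hw)).congr' ?_
      have hbase : Tendsto (fun a => mc a (lm S (u a) (w a))) l (𝓝 (cm S x y)) := by
        simp only [mc_lm]
        exact ((continuous_cm S).tendsto (x, y)).comp (hu.prodMk_nhds hw)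
      filter_upwards [ev_pos H.isOpen H.pos hl (hbox (cm_mem_box S x y)) hbase] with a ha
      rw [div_mul_div_cancel₀ ha.ne']
  obtain ⟨G, hG, hGt⟩ := key Finset.univ
  refine ⟨G, hG, fun l hl u w hu hw => ?_⟩
  simpa only [lm_univ] using hGt l hl u w hu hw

/-- locally uniform one-step expansions on the configuration space of `D` -/
structure LDD (n : ℕ) (D : Set ℂ) (Z : ℝ → (Fin n → ℤ × ℤ) → ℝ)
    (g : Fin n → Fin 2 → (Fin n → ℂ) → ℝ) : Prop where
  isOpen : IsOpen D
  conn : IsPreconnected D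
  loc : ∀ x ∈ Conf n D, ∃ U, x ∈ U ∧ LD U Z g

theorem tendsto_mesh {n : ℕ} (x : Fin n → ℂ) :
    Tendsto (fun a => mc a (fun i => meshIndex a (x i))) (𝓝[>] 0) (𝓝 x) := by
  rw [tendsto_pi_nhds]
  intro i
  have key : ∀ r : ℝ, Tendsto (fun a : ℝ => a * (⌊r / a⌋ : ℝ)) (𝓝[>] 0) (𝓝 r) := by
    intro r
    have h1 : Tendsto (fun a : ℝ => r - a) (𝓝[>] 0) (𝓝 r) := by
      have : Tendsto (fun a : ℝ => r - a) (𝓝 0) (𝓝 (r - 0)) := tendsto_const_nhds.sub tendsto_id
      rw [sub_zero] at this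
      exact this.mono_left nhdsWithin_le_nhds
    refine tendsto_of_tendsto_of_tendsto_of_le_of_le' h1 tendsto_const_nhds ?_ ?_
    · filter_upwards [self_mem_nhdsWithin] with a ha
      have ha' : (0 : ℝ) < a := ha
      have h := Int.lt_floor_add_one (r / a)
      have h2 : r < a * (⌊r / a⌋ + 1) := by
        rw [div_lt_iff₀ ha'] at h
        linarith
      linarith
    · filter_upwards [self_mem_nhdsWithin] with a ha
      have ha' : (0 : ℝ) < a := ha
      have h := Int.floor_le (r / a)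
      rw [le_div_iff₀ ha'] at h
      linarith
  have e : (fun a => mc a (fun i => meshIndex a (x i)) i) = fun a : ℝ =>
      ((a * (⌊(x i).re / a⌋ : ℝ) : ℝ) : ℂ) + ((a * (⌊(x i).im / a⌋ : ℝ) : ℝ) : ℂ) * Complex.I := by
    funext a
    apply Complex.ext <;> simp [mc, meshPoint, meshIndex]
  rw [e]
  have e2 : x i = (((x i).re : ℝ) : ℂ) + (((x i).im : ℝ) : ℂ) * Complex.I :=
    (Complex.re_add_im (x i)).symm
  rw [e2]
  simp only [Complex.add_re, Complex.ofReal_re, Complex.mul_re, Complex.I_re, mul_zero,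
    Complex.ofReal_im, Complex.I_im, mul_one, sub_self, add_zero, Complex.add_im, Complex.mul_im,
    zero_add]
  exact ((Complex.continuous_ofReal.tendsto _).comp (key _)).add
    (((Complex.continuous_ofReal.tendsto _).comp (key _)).mul_const _)

variable {n : ℕ} {D : Set ℂ} {Z : ℝ → (Fin n → ℤ × ℤ) → ℝ}
  {g : Fin n → Fin 2 → (Fin n → ℂ) → ℝ}

theorem LDD.ev_pos (H : LDD n D Z g) {x : Fin n → ℂ} (hx : x ∈ Conf n D) {l : Filter ℝ}
    (hl : l ≤ 𝓝[>] 0) {u : ℝ → Fin n → ℤ × ℤ} (hu : Tendsto (fun a => mc a (u a)) l (𝓝 x)) :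
    ∀ᶠ a in l, 0 < Z a (u a) := by
  obtain ⟨U, hxU, hU⟩ := H.loc x hx
  exact PathGlx641.ev_pos hU.isOpen hU.pos hl hxU hu

theorem Rel.unique {x y : Fin n → ℂ} {G G' : ℝ} (h : Rel Z x y G) (h' : Rel Z x y G') : G = G' := by
  have h1 := h (𝓝[>] 0) le_rfl _ _ (tendsto_mesh x) (tendsto_mesh y)
  have h2 := h' (𝓝[>] 0) le_rfl _ _ (tendsto_mesh x) (tendsto_mesh y)
  exact tendsto_nhds_unique h1 h2

theorem Rel.symm {x y : Fin n → ℂ} {G : ℝ} (h : Rel Z x y G) (hG : 0 < G) : Rel Z y x G⁻¹ := by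
  intro l hl u w hu hw
  have := (h l hl w u hw hu).inv₀ hG.ne'
  refine this.congr fun a => ?_
  rw [inv_div]

theorem LDD.rel_trans (H : LDD n D Z g) {x y z : Fin n → ℂ} (hy : y ∈ Conf n D) {G G' : ℝ}
    (h : Rel Z x y G) (h' : Rel Z y z G') : Rel Z x z (G * G') := by
  intro l hl u w hu hw
  have hm : Tendsto (fun a => mc a (fun i => meshIndex a (y i))) l (𝓝 y) :=
    (tendsto_mesh y).mono_left hl
  have h1 := h l hl u _ hu hm
  have h2 := h' l hl _ w hm hw
  refine (h1.mul h2).congr' ?_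
  filter_upwards [H.ev_pos hy hl hm] with a ha
  rw [mul_comm, div_mul_div_cancel₀ ha.ne']

theorem LDD.rel_local (H : LDD n D Z g) {x : Fin n → ℂ} (hx : x ∈ Conf n D) :
    ∀ᶠ y in 𝓝 x, ∃ G : ℝ, 0 < G ∧ Rel Z x y G := by
  obtain ⟨U, hxU, hU⟩ := H.loc x hx
  obtain ⟨r, hr, hrU⟩ := Metric.isOpen_iff.1 hU.isOpen x hxU
  filter_upwards [Metric.ball_mem_nhds x (half_pos hr)] with y hy
  refine hU.rel_box fun z hz => hrU ?_
  rw [Metric.mem_ball] at hy ⊢
  exact (box_dist hz).trans_lt (by linarith)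

/-- **all ratios converge** -/
theorem LDD.ratio (H : LDD n D Z g) {x y : Fin n → ℂ} (hx : x ∈ Conf n D) (hy : y ∈ Conf n D) :
    ∃ G : ℝ, 0 < G ∧ Rel Z x y G := by
  refine rel_of_local H.isOpen H.conn (fun x y => ∃ G : ℝ, 0 < G ∧ Rel Z x y G)
    (fun x hx => H.rel_local hx) ?_ ?_ hx hy
  · rintro x y z - hy - ⟨G, hG, h⟩ ⟨G', hG', h'⟩
    exact ⟨G * G', mul_pos hG hG', H.rel_trans hy h h'⟩
  · rintro x y - - ⟨G, hG, h⟩
    exact ⟨G⁻¹, inv_pos.2 hG, h.symm hG⟩

/-- the limit ratio -/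
def Gl (Z : ℝ → (Fin n → ℤ × ℤ) → ℝ) (x y : Fin n → ℂ) : ℝ :=
  limUnder (𝓝[>] (0 : ℝ)) fun a => Z a (fun i => meshIndex a (y i)) / Z a (fun i => meshIndex a (x i))

theorem Rel.gl_eq {x y : Fin n → ℂ} {G : ℝ} (h : Rel Z x y G) : Gl Z x y = G :=
  (h (𝓝[>] 0) le_rfl _ _ (tendsto_mesh x) (tendsto_mesh y)).limUnder_eq

theorem LDD.rel_gl (H : LDD n D Z g) {x y : Fin n → ℂ} (hx : x ∈ Conf n D) (hy : y ∈ Conf n D) :
    Rel Z x y (Gl Z x y) := by
  obtain ⟨G, _, h⟩ := H.ratio hx hy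
  rw [h.gl_eq]; exact h

theorem LDD.gl_pos (H : LDD n D Z g) {x y : Fin n → ℂ} (hx : x ∈ Conf n D) (hy : y ∈ Conf n D) :
    0 < Gl Z x y := by
  obtain ⟨G, hG, h⟩ := H.ratio hx hy
  rw [h.gl_eq]; exact hG


theorem LDD.gl_mul (H : LDD n D Z g) {x y z : Fin n → ℂ} (hx : x ∈ Conf n D) (hy : y ∈ Conf n D)
    (hz : z ∈ Conf n D) : Gl Z x y * Gl Z y z = Gl Z x z :=
  (H.rel_trans hy (H.rel_gl hx hy) (H.rel_gl hy hz)).gl_eq.symm

theorem LDD.gl_self (H : LDD n D Z g) {x : Fin n → ℂ} (hx : x ∈ Conf n D) : Gl Z x x = 1 := by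
  have h := H.gl_mul hx hx hx
  have := (H.gl_pos hx hx).ne'
  exact mul_left_cancel₀ this (by rw [h, mul_one])


end Crest.Agent.R165.PathGlx641
end
end

-- ▼ part R165/PathDf_641
section

/-!
# Row 165 (S0250), block U5: differentiability of the limit ratios and covariance (helper641)
-/

set_option autoImplicit false

noncomputable section

open Filter Topology Set
open Crest.ProbabilityR.IsingModel

namespace Crest.Agent.R165.PathDfx641

open ConfTopx641 PathIntx641 PathGlx641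

/-- the real linear functional `h ↦ Σ Re (A_i h_i)` -/
def cl {n : ℕ} (A : Fin n → ℂ) : (Fin n → ℂ) →L[ℝ] ℝ :=
  ∑ i, Complex.reCLM.comp ((ContinuousLinearMap.mul ℝ ℂ (A i)).comp
    (ContinuousLinearMap.proj (R := ℝ) (φ := fun _ : Fin n => ℂ) i))

theorem cl_apply {n : ℕ} (A : Fin n → ℂ) (h : Fin n → ℂ) : cl A h = ∑ i, (A i * h i).re := by
  simp [cl]

/-- the complex gradient of the log-derivative -/
def cg {n : ℕ} (g : Fin n → Fin 2 → (Fin n → ℂ) → ℝ) (x : Fin n → ℂ) (i : Fin n) : ℂ :=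
  (g i 0 x : ℂ) - (g i 1 x : ℂ) * Complex.I

theorem cl_cg {n : ℕ} (g : Fin n → Fin 2 → (Fin n → ℂ) → ℝ) (x h : Fin n → ℂ) :
    cl (cg g x) h = ∑ p : Fin n × Fin 2, g p.1 p.2 x * cc p.2 (h p.1) := by
  rw [cl_apply, Fintype.sum_prod_type]
  refine Finset.sum_congr rfl fun i _ => ?_
  rw [Fin.sum_univ_two]
  simp [cg, cc]

theorem cc_sub (j : Fin 2) (z w : ℂ) : cc j (z - w) = cc j z - cc j w := by
  unfold cc; split_ifs <;> simp

theorem abs_cc_le (j : Fin 2) (z : ℂ) : |cc j z| ≤ ‖z‖ := by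
  unfold cc; split_ifs
  · exact Complex.abs_re_le_norm z
  · exact Complex.abs_im_le_norm z

theorem cc_add_smul (j : Fin 2) (z : ℂ) (t : ℝ) : cc j (z + t * cv (unitVec j)) = cc j z + t := by
  fin_cases j <;> simp [cc, cv, unitVec]

theorem box_csh {n : ℕ} (x : Fin n → ℂ) (i : Fin n) (j : Fin 2) (t : ℝ) {z : Fin n → ℂ}
    (hz : z ∈ Box x (csh x i ((t : ℂ) * cv (unitVec j)))) :
    ∃ s ∈ uIcc 0 t, z = csh x i ((s : ℂ) * cv (unitVec j)) := by
  have sing : ∀ (a b : ℝ), a ∈ uIcc b b → a = b := fun a b h => by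
    rw [uIcc_self] at h; exact h
  have key : ∀ p q : ℝ, q ∈ uIcc p (p + t) → q - p ∈ uIcc 0 t := by
    intro p q hs
    rcases le_total 0 t with h | h
    · rw [uIcc_of_le (by linarith)] at hs
      rw [uIcc_of_le h]
      exact ⟨by linarith [hs.1], by linarith [hs.2]⟩
    · rw [uIcc_of_ge (by linarith)] at hs
      rw [uIcc_of_ge h]
      exact ⟨by linarith [hs.1], by linarith [hs.2]⟩
  refine ⟨cc j (z i) - cc j (x i), ?_, ?_⟩
  · have h := hz i
    simp only [csh, Function.update_self] at h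
    fin_cases j
    · have h1 : (z i).re ∈ uIcc (x i).re ((x i).re + t) := by
        have := h.1
        simpa [cv, unitVec] using this
      exact key _ _ h1
    · have h1 : (z i).im ∈ uIcc (x i).im ((x i).im + t) := by
        have := h.2
        simpa [cv, unitVec] using this
      exact key _ _ h1
  · funext k
    have h := hz k
    by_cases hk : k = i
    · subst hk
      simp only [csh, Function.update_self] at h ⊢
      fin_cases j
      · have h1 : (z k).im = (x k).im := by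
          apply sing
          have := h.2
          simpa [cv, unitVec] using this
        apply Complex.ext
        · simp [cc, cv, unitVec]
        · simp [cc, cv, unitVec, h1]
      · have h1 : (z k).re = (x k).re := by
          apply sing
          have := h.1
          simpa [cv, unitVec] using this
        apply Complex.ext
        · simp [cc, cv, unitVec, h1]
        · simp [cc, cv, unitVec]
    · simp only [csh, Function.update_of_ne hk] at h ⊢
      exact Complex.ext (sing _ _ h.1) (sing _ _ h.2)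

/-- **segment formula** -/
theorem _root_.Crest.Agent.R165.PathGlx641.LD.rel_axis {n : ℕ} {U : Set (Fin n → ℂ)}
    {Z : ℝ → (Fin n → ℤ × ℤ) → ℝ} {g : Fin n → Fin 2 → (Fin n → ℂ) → ℝ} (H : LD U Z g)
    {x : Fin n → ℂ} {i : Fin n} {j : Fin 2} {t : ℝ}
    (hseg : ∀ s ∈ uIcc 0 t, csh x i ((s : ℂ) * cv (unitVec j)) ∈ U) :
    Rel Z x (csh x i ((t : ℂ) * cv (unitVec j)))
      (Real.exp (∫ s in (0 : ℝ)..t, g i j (csh x i ((s : ℂ) * cv (unitVec j))))) := by
  set y := csh x i ((t : ℂ) * cv (unitVec j)) with hy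
  have hbox : Box x y ⊆ U := by
    intro z hz
    obtain ⟨s, hs, rfl⟩ := box_csh x i j t hz
    exact hseg s hs
  obtain ⟨G, hG, hR⟩ := H.rel_box hbox
  have hyi : cc j (y i) - cc j (x i) = t := by
    simp only [hy, csh, Function.update_self, cc_add_smul]; ring
  have h1 := H.rel_seg hbox ∅ i j (by simp) (𝓝[>] 0) le_rfl _ _ (tendsto_mesh x) (tendsto_mesh y)
  simp only [lm_empty, cm_empty, hyi] at h1
  have h2 : Tendsto (fun a => mc a (lm (insert (i, j) ∅) (fun i => meshIndex a (x i))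
      (fun i => meshIndex a (y i)))) (𝓝[>] 0) (𝓝 y) := by
    have e : cm (insert (i, j) ∅) x y = y := by
      rw [cm_insert ∅ x y i j (by simp), hyi, cm_empty]
    simp only [mc_lm]
    nth_rewrite 2 [← e]
    exact ((continuous_cm (insert (i, j) ∅)).tendsto (x, y)).comp
      ((tendsto_mesh x).prodMk_nhds (tendsto_mesh y))
  have h3 := hR (𝓝[>] 0) le_rfl _ _ (tendsto_mesh x) h2
  rw [← tendsto_nhds_unique h3 h1]
  exact hR

section main

variable {n : ℕ} {D : Set ℂ} {Z : ℝ → (Fin n → ℤ × ℤ) → ℝ}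
  {g : Fin n → Fin 2 → (Fin n → ℂ) → ℝ}

/-- segment formula for the limit -/
theorem gl_axis {U : Set (Fin n → ℂ)} (H : LD U Z g)
    {x : Fin n → ℂ} {i : Fin n} {j : Fin 2} {t : ℝ}
    (hseg : ∀ s ∈ uIcc 0 t, csh x i ((s : ℂ) * cv (unitVec j)) ∈ U) :
    Real.log (Gl Z x (csh x i ((t : ℂ) * cv (unitVec j)))) =
      ∫ s in (0 : ℝ)..t, g i j (csh x i ((s : ℂ) * cv (unitVec j))) := by
  rw [(H.rel_axis hseg).gl_eq, Real.log_exp]

/-- first order expansion of the logarithm of the limit ratio -/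
theorem LDD.log_gl_mix (H : LDD n D Z g) {x : Fin n → ℂ} (hx : x ∈ Conf n D)
    (S : Finset (Fin n × Fin 2)) : ∀ ε > 0, ∀ᶠ y in 𝓝 x,
      |Real.log (Gl Z x (cm S x y)) - ∑ p ∈ S, g p.1 p.2 x * (cc p.2 (y p.1) - cc p.2 (x p.1))|
        ≤ ε * dist y x := by
  classical
  obtain ⟨U, hxU, hU⟩ := H.loc x hx
  -- a small ball inside everything
  have hopen : IsOpen (U ∩ Conf n D) := hU.isOpen.inter (Conf.isOpen n H.isOpen)
  obtain ⟨r, hr, hrU⟩ := Metric.isOpen_iff.1 hopen x ⟨hxU, hx⟩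
  induction S using Finset.induction_on with
  | empty =>
    intro ε hε
    refine Eventually.of_forall fun y => ?_
    simp only [cm_empty, Finset.sum_empty, sub_zero]
    rw [H.gl_self hx, Real.log_one, abs_zero]
    positivity
  | insert p S hp ih =>
    obtain ⟨i, j⟩ := p
    intro ε hε
    have hc : ContinuousAt (g i j) x := (hU.cont i j).continuousAt (hU.isOpen.mem_nhds hxU)
    obtain ⟨δ, hδ, hδg⟩ := Metric.continuousAt_iff.1 hc (ε / 2) (half_pos hε)
    filter_upwards [ih (ε / 2) (half_pos hε),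
      Metric.ball_mem_nhds x (lt_min (half_pos hr) (half_pos hδ))] with y h1 h2
    rw [Metric.mem_ball] at h2
    have h2r : dist y x < r / 2 := h2.trans_le (min_le_left _ _)
    have h2δ : dist y x < δ / 2 := h2.trans_le (min_le_right _ _)
    have hboxr : ∀ z ∈ Box x y, z ∈ U ∧ z ∈ Conf n D := fun z hz =>
      hrU (by rw [Metric.mem_ball]; exact (box_dist hz).trans_lt (by linarith))
    have hm1 : cm S x y ∈ Conf n D := (hboxr _ (cm_mem_box S x y)).2
    have hm2 : cm (insert (i, j) S) x y ∈ Conf n D :=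
      (hboxr _ (cm_mem_box (insert (i, j) S) x y)).2
    set t : ℝ := cc j (y i) - cc j (x i) with ht
    have hax : Real.log (Gl Z (cm S x y) (cm (insert (i, j) S) x y)) =
        ∫ s in (0 : ℝ)..t, g i j (csh (cm S x y) i ((s : ℂ) * cv (unitVec j))) := by
      rw [cm_insert S x y i j hp]
      exact gl_axis hU fun s hs => (hboxr _ (seg_mem_box S x y i j hp s hs)).1
    have hlog : Real.log (Gl Z x (cm (insert (i, j) S) x y)) =
        Real.log (Gl Z x (cm S x y)) + Real.log (Gl Z (cm S x y) (cm (insert (i, j) S) x y)) := by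
      rw [← H.gl_mul hx hm1 hm2,
        Real.log_mul (H.gl_pos hx hm1).ne' (H.gl_pos hm1 hm2).ne']
    have hbd : |(∫ s in (0 : ℝ)..t, g i j (csh (cm S x y) i ((s : ℂ) * cv (unitVec j)))) -
        g i j x * t| ≤ ε / 2 * dist y x := by
      have hint : IntervalIntegrable (fun s : ℝ => g i j (csh (cm S x y) i ((s : ℂ) * cv (unitVec j))))
          MeasureTheory.volume 0 t := by
        apply ContinuousOn.intervalIntegrable
        refine (hU.cont i j).comp ?_ fun s hs => (hboxr _ (seg_mem_box S x y i j hp s hs)).1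
        exact ((continuous_csh _ i).comp
          (Complex.continuous_ofReal.mul continuous_const)).continuousOn
      have e : g i j x * t = ∫ _ in (0 : ℝ)..t, g i j x := by
        rw [intervalIntegral.integral_const, smul_eq_mul]; ring
      rw [e, ← intervalIntegral.integral_sub hint intervalIntegrable_const, ← Real.norm_eq_abs]
      have := intervalIntegral.norm_integral_le_of_norm_le_const
        (f := fun s : ℝ => g i j (csh (cm S x y) i ((s : ℂ) * cv (unitVec j))) - g i j x)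
        (C := ε / 2) (a := 0) (b := t) ?_
      · refine this.trans ?_
        rw [sub_zero]
        refine mul_le_mul_of_nonneg_left ?_ (half_pos hε).le
        rw [ht, ← cc_sub]
        refine (abs_cc_le _ _).trans ?_
        rw [← dist_eq_norm]; exact dist_le_pi_dist y x i
      · intro s hs
        have hs' : s ∈ uIcc 0 t := uIoc_subset_uIcc hs
        have hz := seg_mem_box S x y i j hp s hs'
        have hd : dist (csh (cm S x y) i ((s : ℂ) * cv (unitVec j))) x < δ :=
          (box_dist hz).trans_lt (by linarith)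
        have := hδg hd
        rw [Real.dist_eq] at this
        rw [Real.norm_eq_abs]
        exact this.le
    rw [Finset.sum_insert hp, hlog, hax]
    simp only
    have e : Real.log (Gl Z x (cm S x y)) +
        (∫ s in (0 : ℝ)..t, g i j (csh (cm S x y) i ((s : ℂ) * cv (unitVec j)))) -
        (g i j x * (cc j (y i) - cc j (x i)) +
          ∑ p ∈ S, g p.1 p.2 x * (cc p.2 (y p.1) - cc p.2 (x p.1))) =
        (Real.log (Gl Z x (cm S x y)) -
          ∑ p ∈ S, g p.1 p.2 x * (cc p.2 (y p.1) - cc p.2 (x p.1))) +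
        ((∫ s in (0 : ℝ)..t, g i j (csh (cm S x y) i ((s : ℂ) * cv (unitVec j)))) -
          g i j x * t) := by
      rw [ht]; ring
    rw [e]
    refine (abs_add_le _ _).trans ?_
    linarith

/-- **differentiability of the logarithm of the limit ratio** -/
theorem LDD.hasFDerivAt (H : LDD n D Z g) {x₀ x : Fin n → ℂ} (hx₀ : x₀ ∈ Conf n D)
    (hx : x ∈ Conf n D) :
    HasFDerivAt (fun y => Real.log (Gl Z x₀ y)) (cl (cg g x)) x := by
  have h1 : HasFDerivAt (fun y => Real.log (Gl Z x y)) (cl (cg g x)) x := by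
    rw [hasFDerivAt_iff_isLittleO_nhds_zero, Asymptotics.isLittleO_iff]
    intro ε hε
    have h := LDD.log_gl_mix H hx Finset.univ ε hε
    have h' : Tendsto (fun h : Fin n → ℂ => x + h) (𝓝 0) (𝓝 x) := by
      have : Continuous fun h : Fin n → ℂ => x + h := continuous_const.add continuous_id
      simpa using this.tendsto 0
    filter_upwards [h'.eventually h] with v hv
    simp only [cm_univ] at hv
    rw [Real.norm_eq_abs, H.gl_self hx, Real.log_one, sub_zero, cl_cg]
    have e : ∀ p : Fin n × Fin 2, cc p.2 ((x + v) p.1) - cc p.2 (x p.1) = cc p.2 (v p.1) := by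
      intro p
      rw [← cc_sub]; simp
    simp only [e] at hv
    have e2 : dist (x + v) x = ‖v‖ := by rw [dist_eq_norm]; simp
    rw [e2] at hv
    exact hv
  have h2 : (fun y => Real.log (Gl Z x₀ y)) =ᶠ[𝓝 x]
      fun y => Real.log (Gl Z x₀ x) + Real.log (Gl Z x y) := by
    filter_upwards [(Conf.isOpen n H.isOpen).mem_nhds hx] with y hy
    rw [← H.gl_mul hx₀ hx hy, Real.log_mul (H.gl_pos hx₀ hx).ne' (H.gl_pos hx hy).ne']
  exact (h1.const_add _).congr_of_eventuallyEq h2

/-- derivative of `log ‖w‖` -/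
theorem hasFDerivAt_log_norm {w : ℂ} (hw : w ≠ 0) :
    HasFDerivAt (fun z : ℂ => Real.log ‖z‖)
      (Complex.reCLM.comp (ContinuousLinearMap.mul ℝ ℂ w⁻¹)) w := by
  have h1 : HasFDerivAt (fun z : ℂ => ‖z‖ ^ 2) (2 • innerSL ℝ w) w :=
    (hasStrictFDerivAt_norm_sq w).hasFDerivAt
  have hne : ‖w‖ ^ 2 ≠ 0 := pow_ne_zero _ (norm_ne_zero_iff.2 hw)
  have h2 := (h1.log hne).const_mul (1 / 2)
  have e : (fun z : ℂ => Real.log ‖z‖) = fun z : ℂ => 1 / 2 * Real.log (‖z‖ ^ 2) := by
    funext z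
    rw [Real.log_pow]; push_cast; ring
  rw [e]
  refine h2.congr_fderiv ?_
  ext h
  simp only [ContinuousLinearMap.comp_apply, ContinuousLinearMap.mul_apply', Complex.reCLM_apply,
    smul_apply, innerSL_apply_apply, smul_eq_mul, nsmul_eq_mul]
  rw [Complex.inner, Complex.inv_def]
  have hn : ‖w‖ ^ 2 = Complex.normSq w := Complex.sq_norm w
  rw [hn]
  have hne' : Complex.normSq w ≠ 0 := by rw [← hn]; exact hne
  simp only [Complex.mul_re, Complex.mul_im, Complex.conj_re, Complex.conj_im, Complex.ofReal_re,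
    Complex.ofReal_im]
  push_cast
  field_simp
  ring

/-- **covariance up to a constant**: two families of log-derivatives related by the conformal
covariance rule with weight `κ` -/
theorem cov {D' : Set ℂ} {Z' : ℝ → (Fin n → ℤ × ℤ) → ℝ} {g' : Fin n → Fin 2 → (Fin n → ℂ) → ℝ}
    (H : LDD n D Z g) (H' : LDD n D' Z' g') {φ : ℂ → ℂ} (hφ : DifferentiableOn ℂ φ D)
    (hinj : InjOn φ D) (hmaps : MapsTo φ D D') (hφ' : ∀ z ∈ D, deriv φ z ≠ 0) {κ : ℝ}
    (hrel : ∀ x ∈ Conf n D, ∀ i, cg g x i = deriv φ (x i) * cg g' (fun k => φ (x k)) i +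
      κ * (deriv (deriv φ) (x i) / deriv φ (x i)))
    {x y : Fin n → ℂ} (hx : x ∈ Conf n D) (hy : y ∈ Conf n D) :
    Gl Z x y * ∏ i, ‖deriv φ (x i)‖ ^ κ =
      Gl Z' (fun k => φ (x k)) (fun k => φ (y k)) * ∏ i, ‖deriv φ (y i)‖ ^ κ := by
  have hmem : ∀ z ∈ Conf n D, (fun k => φ (z k)) ∈ Conf n D' := fun z hz =>
    ⟨fun i => hmaps (hz.1 i), fun i j hij => hz.2 (hinj (hz.1 i) (hz.1 j) hij)⟩
  have hopen := Conf.isOpen n H.isOpen
  have hconn := Conf.isPreconnected n H.isOpen H.conn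
  -- derivative of the map on configurations
  have hd1 : ∀ z ∈ D, HasDerivAt φ (deriv φ z) z := fun z hz =>
    ((hφ z hz).differentiableAt (H.isOpen.mem_nhds hz)).hasDerivAt
  have hdd : DifferentiableOn ℂ (deriv φ) D := hφ.deriv H.isOpen
  have hd2 : ∀ z ∈ D, HasDerivAt (deriv φ) (deriv (deriv φ) z) z := fun z hz =>
    ((hdd z hz).differentiableAt (H.isOpen.mem_nhds hz)).hasDerivAt
  let pr : (i : Fin n) → (Fin n → ℂ) →L[ℝ] ℂ := fun i =>
    ContinuousLinearMap.proj (R := ℝ) (φ := fun _ : Fin n => ℂ) i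
  have hpr : ∀ (i : Fin n) (z : Fin n → ℂ), HasFDerivAt (fun z : Fin n → ℂ => z i) (pr i) z :=
    fun i z => (pr i).hasFDerivAt
  have hcomp : ∀ (f : ℂ → ℂ) (f' : ℂ) (i : Fin n) (z : Fin n → ℂ), HasDerivAt f f' (z i) →
      HasFDerivAt (fun z : Fin n → ℂ => f (z i))
        ((ContinuousLinearMap.mul ℝ ℂ f').comp (pr i)) z := by
    intro f f' i z hf
    have h1 : HasFDerivAt f ((ContinuousLinearMap.mul ℝ ℂ f')) (z i) := by
      have := hf.hasFDerivAt.restrictScalars ℝ
      refine this.congr_fderiv ?_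
      ext h
      simp [mul_comm]
    exact h1.comp z (hpr i z)
  let L : (Fin n → ℂ) → ℝ := fun z =>
    Real.log (Gl Z x z) - Real.log (Gl Z' (fun k => φ (x k)) (fun k => φ (z k))) -
      κ * ∑ i, Real.log ‖deriv φ (z i)‖
  have hL : ∀ z ∈ Conf n D, HasFDerivAt L (0 : (Fin n → ℂ) →L[ℝ] ℝ) z := by
    intro z hz
    have h1 := LDD.hasFDerivAt H hx hz
    have h2 : HasFDerivAt (fun w : Fin n → ℂ => (fun k => φ (w k)))
        (ContinuousLinearMap.pi fun i =>
          (ContinuousLinearMap.mul ℝ ℂ (deriv φ (z i))).comp (pr i)) z := by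
      rw [hasFDerivAt_pi]
      intro i
      exact hcomp φ _ i z (hd1 _ (hz.1 i))
    have h3 := (LDD.hasFDerivAt H' (hmem x hx) (hmem z hz)).comp z h2
    have h4 : ∀ i, HasFDerivAt (fun w : Fin n → ℂ => Real.log ‖deriv φ (w i)‖)
        ((Complex.reCLM.comp (ContinuousLinearMap.mul ℝ ℂ (deriv φ (z i))⁻¹)).comp
          ((ContinuousLinearMap.mul ℝ ℂ (deriv (deriv φ) (z i))).comp (pr i))) z := fun i =>
      HasFDerivAt.comp (g := fun z : ℂ => Real.log ‖z‖) z (hasFDerivAt_log_norm (hφ' _ (hz.1 i)))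
        (hcomp (deriv φ) _ i z (hd2 _ (hz.1 i)))
    have h5 := HasFDerivAt.fun_sum (u := Finset.univ) fun i _ => h4 i
    have h6 := (h1.sub h3).sub (h5.const_mul κ)
    refine h6.congr_fderiv ?_
    ext h
    simp only [zero_apply, sub_apply,
      ContinuousLinearMap.comp_apply, smul_apply,
      sum_apply, cl_apply, ContinuousLinearMap.coe_pi',
      ContinuousLinearMap.mul_apply', Complex.reCLM_apply, smul_eq_mul, pr,
      ContinuousLinearMap.proj_apply]
    rw [Finset.mul_sum, ← Finset.sum_sub_distrib, ← Finset.sum_sub_distrib]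
    refine Finset.sum_eq_zero fun i _ => ?_
    rw [hrel z hz i]
    have e1 : κ * ((deriv φ (z i))⁻¹ * (deriv (deriv φ) (z i) * h i)).re =
        (κ * (deriv (deriv φ) (z i) / deriv φ (z i)) * h i).re := by
      rw [show (κ : ℂ) * (deriv (deriv φ) (z i) / deriv φ (z i)) * h i =
        (κ : ℂ) * ((deriv φ (z i))⁻¹ * (deriv (deriv φ) (z i) * h i)) by
          rw [div_eq_mul_inv]; ring, Complex.re_ofReal_mul]
    rw [e1, ← Complex.sub_re, ← Complex.sub_re]
    ring_nf
    simp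
  have hconst := hopen.is_const_of_fderiv_eq_zero hconn
    (fun z hz => (hL z hz).differentiableAt.differentiableWithinAt)
    (fun z hz => (hL z hz).fderiv) hx hy
  simp only [L] at hconst
  rw [H.gl_self hx, H'.gl_self (hmem x hx), Real.log_one] at hconst
  have hp : ∀ z ∈ Conf n D, (∏ i, ‖deriv φ (z i)‖ ^ κ) =
      Real.exp (κ * ∑ i, Real.log ‖deriv φ (z i)‖) := by
    intro z hz
    rw [Finset.mul_sum, Real.exp_sum]
    refine Finset.prod_congr rfl fun i _ => ?_
    rw [Real.rpow_def_of_pos (norm_pos_iff.2 (hφ' _ (hz.1 i))), mul_comm]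
  rw [hp x hx, hp y hy, ← Real.exp_log (H.gl_pos hx hy),
    ← Real.exp_log (H'.gl_pos (hmem x hx) (hmem y hy)), ← Real.exp_add, ← Real.exp_add]
  congr 1
  linarith

end main

end Crest.Agent.R165.PathDfx641
end
end

-- ▼ part R165/PathSeq_641

/-!
# Row 165 (S0250), block U5: `LDD` from continuous convergence, axis or diagonal steps (helper641)

`NF x` is the filter of pairs `(a, u)` (mesh, lattice configuration) with `a → 0+` and `a u → x`.
If the one-step quotients `(Z a (u + v at i) / Z a u - 1) / a` converge along `NF x` for every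
`x ∈ Conf n D` (equivalently: along every sequence, `UCv.of_seq`), then everything is locally
uniform automatically.  `LDD.of_axis` uses axis steps, `LDD.of_diag` uses the two diagonal steps
and the fact that one axis step has ratio tending to `1`.
-/

set_option autoImplicit false

noncomputable section

open Filter Topology Set
open Crest.ProbabilityR.IsingModel

namespace Crest.Agent.R165.PathSeqx641

open ConfTopx641 PathIntx641 PathGlx641 PathDfx641

variable {n : ℕ}

/-- pairs `(a, u)` with `a → 0+` and `a u → x` -/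
def NF (x : Fin n → ℂ) : Filter (ℝ × (Fin n → ℤ × ℤ)) :=
  comap Prod.fst (𝓝[>] 0) ⊓ comap (fun p : ℝ × (Fin n → ℤ × ℤ) => mc p.1 p.2) (𝓝 x)

instance (x : Fin n → ℂ) : (NF x).IsCountablyGenerated := by
  unfold NF; infer_instance

theorem tendsto_nf_iff {β : Type*} {l : Filter β} {x : Fin n → ℂ}
    {f : β → ℝ × (Fin n → ℤ × ℤ)} :
    Tendsto f l (NF x) ↔ Tendsto (fun b => (f b).1) l (𝓝[>] 0) ∧
      Tendsto (fun b => mc (f b).1 (f b).2) l (𝓝 x) := by
  unfold NF
  rw [tendsto_inf, tendsto_comap_iff, tendsto_comap_iff]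
  rfl

theorem nf_fst (x : Fin n → ℂ) : Tendsto (fun p : ℝ × (Fin n → ℤ × ℤ) => p.1) (NF x) (𝓝[>] 0) :=
  (tendsto_nf_iff.1 tendsto_id).1

theorem nf_mc (x : Fin n → ℂ) : Tendsto (fun p : ℝ × (Fin n → ℤ × ℤ) => mc p.1 p.2) (NF x) (𝓝 x) :=
  (tendsto_nf_iff.1 tendsto_id).2

theorem nf_pos (x : Fin n → ℂ) : ∀ᶠ p : ℝ × (Fin n → ℤ × ℤ) in NF x, 0 < p.1 :=
  (nf_fst x).eventually eventually_mem_nhdsWithin

/-- shifting by a fixed lattice vector -/
theorem nf_shift (x : Fin n → ℂ) (i : Fin n) (v : ℤ × ℤ) :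
    Tendsto (fun p : ℝ × (Fin n → ℤ × ℤ) => (p.1, sh p.2 i v)) (NF x) (NF x) := by
  rw [tendsto_nf_iff]
  refine ⟨nf_fst x, ?_⟩
  simp only [mc_sh]
  rw [tendsto_pi_nhds]
  intro k
  have h1 := tendsto_pi_nhds.1 (nf_mc x) k
  by_cases hk : k = i
  · subst hk
    simp only [csh, Function.update_self]
    have h2 : Tendsto (fun p : ℝ × (Fin n → ℤ × ℤ) => ((p.1 : ℝ) : ℂ) * cv v) (NF x)
        (𝓝 (((0 : ℝ) : ℂ) * cv v)) :=
      ((Complex.continuous_ofReal.tendsto 0).comp
        ((nf_fst x).mono_right nhdsWithin_le_nhds)).mul_const _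
    have h3 := h1.add h2
    simpa using h3
  · simp only [csh, Function.update_of_ne hk]; exact h1

theorem nf_hasBasis {x : Fin n → ℂ} {P : ℝ × (Fin n → ℤ × ℤ) → Prop} (h : ∀ᶠ p in NF x, P p) :
    ∃ δ > 0, ∀ a : ℝ, 0 < a → a < δ → ∀ u : Fin n → ℤ × ℤ, dist (mc a u) x < δ → P (a, u) := by
  unfold NF at h
  rw [eventually_inf] at h
  obtain ⟨s, hs, t, ht, hst⟩ := h
  obtain ⟨s', hs', hss⟩ := mem_comap.1 hs
  obtain ⟨t', ht', htt⟩ := mem_comap.1 ht
  obtain ⟨δ1, hδ1, h1⟩ := mem_nhdsGT_iff_exists_Ioo_subset.1 hs'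
  obtain ⟨δ2, hδ2, h2⟩ := Metric.mem_nhds_iff.1 ht'
  refine ⟨min δ1 δ2, lt_min hδ1 hδ2, fun a ha haδ u hu => ?_⟩
  refine hst (a, u) ⟨hss (h1 ⟨ha, haδ.trans_le (min_le_left _ _)⟩), htt (h2 ?_)⟩
  exact hu.trans_le (min_le_right _ _)

/-- compactness: an eventual property along every `NF x`, `x ∈ K`, is uniform on `K` -/
theorem ev_compact {K : Set (Fin n → ℂ)} (hK : IsCompact K) {P : ℝ × (Fin n → ℤ × ℤ) → Prop}
    (h : ∀ x ∈ K, ∀ᶠ p in NF x, P p) :
    ∀ᶠ a in 𝓝[>] (0 : ℝ), ∀ u : Fin n → ℤ × ℤ, mc a u ∈ K → P (a, u) := by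
  classical
  choose! δ hδ hP using fun x hx => nf_hasBasis (h x hx)
  obtain ⟨t, htK, ht⟩ := hK.elim_nhds_subcover (fun x => Metric.ball x (if x ∈ K then δ x else 1))
    (fun x hx => Metric.ball_mem_nhds x (by rw [if_pos hx]; exact hδ x hx))
  have h1 : ∀ᶠ a in 𝓝[>] (0 : ℝ), ∀ y ∈ t, a < δ y := by
    rw [eventually_all_finset]
    intro y hy
    exact nhdsWithin_le_nhds (Iio_mem_nhds (hδ y (htK y hy)))
  filter_upwards [h1, eventually_mem_nhdsWithin] with a ha ha0 u hu
  obtain ⟨y, hy, hyu⟩ := mem_iUnion₂.1 (ht hu)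
  rw [if_pos (htK y hy)] at hyu
  exact hP y (htK y hy) a ha0 (ha y hy) u hyu

/-- continuous convergence -/
def UC (U : Set (Fin n → ℂ)) (q : ℝ × (Fin n → ℤ × ℤ) → ℝ) (G : (Fin n → ℂ) → ℝ) : Prop :=
  ∀ x ∈ U, Tendsto q (NF x) (𝓝 (G x))

/-- sequential criterion -/
theorem UC.of_seq {U : Set (Fin n → ℂ)} {q : ℝ × (Fin n → ℤ × ℤ) → ℝ} {G : (Fin n → ℂ) → ℝ}
    (h : ∀ x ∈ U, ∀ (a : ℕ → ℝ) (u : ℕ → Fin n → ℤ × ℤ), (∀ k, 0 < a k) →
      Tendsto a atTop (𝓝 0) → Tendsto (fun k => mc (a k) (u k)) atTop (𝓝 x) →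
      Tendsto (fun k => q (a k, u k)) atTop (𝓝 (G x))) : UC U q G := by
  intro x hx
  refine tendsto_of_seq_tendsto fun s hs => ?_
  obtain ⟨h1, h2⟩ := tendsto_nf_iff.1 hs
  -- replace the finitely many bad meshes
  have hpos : ∀ᶠ k in atTop, 0 < (s k).1 := h1.eventually eventually_mem_nhdsWithin
  let a : ℕ → ℝ := fun k => if 0 < (s k).1 then (s k).1 else 1
  have ha : ∀ k, 0 < a k := by
    intro k; simp only [a]; split_ifs with h
    · exact h
    · exact one_pos
  have hae : ∀ᶠ k in atTop, a k = (s k).1 := by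
    filter_upwards [hpos] with k hk; simp only [a, if_pos hk]
  have h1' : Tendsto a atTop (𝓝 0) :=
    (h1.mono_right nhdsWithin_le_nhds).congr' (hae.mono fun k hk => hk.symm)
  have h2' : Tendsto (fun k => mc (a k) (s k).2) atTop (𝓝 x) :=
    h2.congr' (hae.mono fun k hk => by simp only [hk])
  refine (h x hx a (fun k => (s k).2) ha h1' h2').congr' ?_
  filter_upwards [hae] with k hk
  rw [hk]; rfl

/-- the limit is continuous -/
theorem UC.continuousOn {U : Set (Fin n → ℂ)} (hU : IsOpen U) {q : ℝ × (Fin n → ℤ × ℤ) → ℝ}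
    {G : (Fin n → ℂ) → ℝ} (h : UC U q G) : ContinuousOn G U := by
  intro x hx
  apply ContinuousAt.continuousWithinAt
  rw [Metric.continuousAt_iff]
  intro ε hε
  have h1 : ∀ᶠ p in NF x, dist (q p) (G x) ≤ ε / 2 :=
    (h x hx).eventually (Metric.closedBall_mem_nhds _ (half_pos hε))
  obtain ⟨δ, hδ, hP⟩ := nf_hasBasis h1
  obtain ⟨r, hr, hrU⟩ := Metric.isOpen_iff.1 hU x hx
  refine ⟨min r (δ / 2), lt_min hr (half_pos hδ), fun {y} hy => ?_⟩
  have hyU : y ∈ U := hrU (hy.trans_le (min_le_left _ _))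
  have hy2 : dist y x < δ / 2 := hy.trans_le (min_le_right _ _)
  have h2 : ∀ᶠ p in NF y, dist (q p) (G x) ≤ ε / 2 := by
    have e1 : ∀ᶠ p : ℝ × (Fin n → ℤ × ℤ) in NF y, dist (mc p.1 p.2) y < δ / 2 :=
      (nf_mc y).eventually (Metric.ball_mem_nhds y (half_pos hδ))
    have e2 : ∀ᶠ p : ℝ × (Fin n → ℤ × ℤ) in NF y, p.1 < δ :=
      ((nf_fst y).mono_right nhdsWithin_le_nhds).eventually (Iio_mem_nhds hδ)
    filter_upwards [e1, e2, nf_pos y] with p h3 h4 h5
    exact hP p.1 h5 h4 p.2 ((dist_triangle _ y _).trans_lt (by linarith))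
  have hne : (NF y).NeBot := by
    have : Tendsto (fun a : ℝ => (a, fun i => meshIndex a (y i))) (𝓝[>] 0) (NF y) :=
      tendsto_nf_iff.2 ⟨tendsto_id, tendsto_mesh y⟩
    exact this.neBot
  have h3 : dist (G y) (G x) ≤ ε / 2 :=
    le_of_tendsto ((h y hyU).dist tendsto_const_nhds) h2
  linarith

/-- one-step quotient -/
def qv (Z : ℝ → (Fin n → ℤ × ℤ) → ℝ) (i : Fin n) (v : ℤ × ℤ) (p : ℝ × (Fin n → ℤ × ℤ)) : ℝ :=
  (Z p.1 (sh p.2 i v) / Z p.1 p.2 - 1) / p.1

theorem UC.ldv {U K V : Set (Fin n → ℂ)} (hU : IsOpen U) (hK : IsCompact K) (hKU : K ⊆ U)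
    (hVK : V ⊆ K) {Z : ℝ → (Fin n → ℤ × ℤ) → ℝ} {i : Fin n} {v : ℤ × ℤ} {G : (Fin n → ℂ) → ℝ}
    (h : UC U (qv Z i v) G) : LDv V Z i v G := by
  intro ε hε
  have hc := h.continuousOn hU
  have h1 : ∀ x ∈ K, ∀ᶠ p : ℝ × (Fin n → ℤ × ℤ) in NF x,
      |Z p.1 (sh p.2 i v) / Z p.1 p.2 - 1 - p.1 * G (mc p.1 p.2)| ≤ ε * p.1 := by
    intro x hx
    have e1 : Tendsto (fun p : ℝ × (Fin n → ℤ × ℤ) => qv Z i v p - G (mc p.1 p.2)) (NF x)
        (𝓝 (G x - G x)) :=
      (h x (hKU hx)).sub ((hc.continuousAt (hU.mem_nhds (hKU hx))).tendsto.comp (nf_mc x))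
    rw [sub_self] at e1
    have e2 := e1.eventually (Metric.closedBall_mem_nhds (0 : ℝ) hε)
    filter_upwards [e2, nf_pos x] with p h2 h3
    change dist _ _ ≤ _ at h2
    rw [dist_zero_right, Real.norm_eq_abs] at h2
    have e3 : Z p.1 (sh p.2 i v) / Z p.1 p.2 - 1 - p.1 * G (mc p.1 p.2) =
        (qv Z i v p - G (mc p.1 p.2)) * p.1 := by
      unfold qv; field_simp
    rw [e3, abs_mul, abs_of_pos h3]
    exact mul_le_mul_of_nonneg_right h2 h3.le
  filter_upwards [ev_compact hK h1] with a ha u hu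
  exact ha u (hVK hu)

variable {D : Set ℂ} {Z : ℝ → (Fin n → ℤ × ℤ) → ℝ} {g : Fin n → Fin 2 → (Fin n → ℂ) → ℝ}

theorem posOn_of_nf {K : Set (Fin n → ℂ)} (hK : IsCompact K)
    (h : ∀ x ∈ K, ∀ᶠ p : ℝ × (Fin n → ℤ × ℤ) in NF x, 0 < Z p.1 p.2) : PosOn K Z :=
  ev_compact (P := fun p => 0 < Z p.1 p.2) hK h

theorem PosOn.mono {U V : Set (Fin n → ℂ)} (h : PosOn U Z) (hV : V ⊆ U) : PosOn V Z := by
  filter_upwards [h] with a ha u hu
  exact ha u (hV hu)



/-- two-step quotients from the two diagonal steps -/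
theorem UC.two_step (hpos : ∀ x ∈ Conf n D, ∀ᶠ p : ℝ × (Fin n → ℤ × ℤ) in NF x, 0 < Z p.1 p.2)
    (hp : ∀ i, UC (Conf n D) (qv Z i (1, 1)) fun x => g i 0 x + g i 1 x)
    (hm : ∀ i, UC (Conf n D) (qv Z i (1, -1)) fun x => g i 0 x - g i 1 x) (i : Fin n) (j : Fin 2) :
    UC (Conf n D) (qv Z i ((2 : ℤ) • unitVec j)) fun x => 2 * g i j x := by
  intro x hx
  have hA := hp i x hx
  have ha0 : Tendsto (fun p : ℝ × (Fin n → ℤ × ℤ) => p.1) (NF x) (𝓝 0) :=
    (nf_fst x).mono_right nhdsWithin_le_nhds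
  have hpos1 := (nf_shift x i (1, 1)).eventually (hpos x hx)
  fin_cases j
  · -- (2,0) = (1,1) + (1,-1)
    have hB := (hm i x hx).comp (nf_shift x i (1, 1))
    have h1 := (hA.add hB).add ((ha0.mul hA).mul hB)
    have h2 : (g i 0 x + g i 1 x) + (g i 0 x - g i 1 x) +
        0 * (g i 0 x + g i 1 x) * (g i 0 x - g i 1 x) = 2 * g i 0 x := by ring
    rw [h2] at h1
    refine h1.congr' ?_
    filter_upwards [hpos x hx, hpos1, nf_pos x] with p h3 h4 h5
    simp only [Function.comp, qv, sh_sh] at h4 ⊢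
    have e : ((1 : ℤ), (1 : ℤ)) + (1, -1) = (2 : ℤ) • unitVec 0 := by
      simp [unitVec]
    rw [e]
    change _ = (Z p.1 (sh p.2 i ((2 : ℤ) • unitVec 0)) / Z p.1 p.2 - 1) / p.1
    field_simp
    ring
  · -- (0,2) + (1,-1) = (1,1)
    have hB := (hm i x hx).comp (nf_shift x i ((2 : ℤ) • unitVec 1))
    have hpos2 := (nf_shift x i ((2 : ℤ) • unitVec 1)).eventually (hpos x hx)
    have hB1 : ∀ᶠ p : ℝ × (Fin n → ℤ × ℤ) in NF x,
        1 + p.1 * (qv Z i (1, -1) ∘ fun p : ℝ × (Fin n → ℤ × ℤ) =>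
          (p.1, sh p.2 i ((2 : ℤ) • unitVec 1))) p ≠ 0 := by
      have h7 := (ha0.mul hB).const_add 1
      rw [zero_mul, add_zero] at h7
      exact h7.eventually (isOpen_ne.mem_nhds one_ne_zero)
    have h1 := (hA.sub hB).div ((ha0.mul hB).const_add 1) (by simp)
    have h2 : ((g i 0 x + g i 1 x) - (g i 0 x - g i 1 x)) / (1 + 0 * (g i 0 x - g i 1 x)) =
        2 * g i 1 x := by
      rw [zero_mul, add_zero, div_one]; ring
    rw [h2] at h1
    refine h1.congr' ?_
    filter_upwards [hpos x hx, hpos1, hpos2, nf_pos x] with p h3 h4 h5 h6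
    simp only [Pi.div_apply, Function.comp, qv, sh_sh] at h4 h5 ⊢
    have e : (2 : ℤ) • unitVec 1 + (1, -1) = ((1 : ℤ), (1 : ℤ)) := by
      simp [unitVec]
    rw [e]
    change _ = (Z p.1 (sh p.2 i ((2 : ℤ) • unitVec 1)) / Z p.1 p.2 - 1) / p.1
    have key : ∀ P0 P1 P2 a : ℝ, 0 < P0 → 0 < P1 → 0 < P2 → 0 < a →
        ((P1 / P0 - 1) / a - (P1 / P2 - 1) / a) / (1 + a * ((P1 / P2 - 1) / a)) =
          (P2 / P0 - 1) / a := by
      intro P0 P1 P2 a h0 h1 h2 ha
      have e1 : 1 + a * ((P1 / P2 - 1) / a) = P1 / P2 := by field_simp; ring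
      rw [e1]; field_simp; ring
    exact key _ _ _ _ h3 h4 h5 h6

/-- **`LDD` from the two diagonal steps and one axis step of ratio `→ 1`** -/
theorem LDD.of_diag (hD : IsOpen D) (hc : IsPreconnected D)
    (hpos : ∀ x ∈ Conf n D, ∀ᶠ p : ℝ × (Fin n → ℤ × ℤ) in NF x, 0 < Z p.1 p.2)
    (hp : ∀ i, UC (Conf n D) (qv Z i (1, 1)) fun x => g i 0 x + g i 1 x)
    (hm : ∀ i, UC (Conf n D) (qv Z i (1, -1)) fun x => g i 0 x - g i 1 x)
    (hax : ∀ i j, UC (Conf n D)
      (fun p => Z p.1 (sh p.2 i (unitVec j)) / Z p.1 p.2) fun _ => 1) : LDD n D Z g where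
  isOpen := hD
  conn := hc
  loc x hx := by
    have hCo := Conf.isOpen n hD
    obtain ⟨r, hr, hrU⟩ := Metric.nhds_basis_closedBall.mem_iff.1 (hCo.mem_nhds hx)
    have hK : IsCompact (Metric.closedBall x r) := isCompact_closedBall x r
    have h2 : ∀ i j, UC (Conf n D) (qv Z i ((2 : ℤ) • unitVec j)) fun x => 2 * g i j x :=
      fun i j => UC.two_step hpos hp hm i j
    have hgc : ∀ i j, ContinuousOn (g i j) (Conf n D) := by
      intro i j
      have := ((h2 i j).continuousOn hCo).const_smul (1 / 2 : ℝ)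
      refine this.congr fun y _ => ?_
      simp
    have hpo : PosOn (Metric.ball x r) Z :=
      PosOn.mono (posOn_of_nf hK fun y hy => hpos y (hrU hy)) Metric.ball_subset_closedBall
    refine ⟨Metric.ball x r, Metric.mem_ball_self hr, Metric.isOpen_ball, hpo,
      fun i j => (hgc i j).mono (Metric.ball_subset_closedBall.trans hrU), ?_⟩
    intro i j x' T hseg l hl u hu N hN
    have hld : LDv (Metric.ball x r) Z i ((2 : ℤ) • unitVec j) fun x => 2 * g i j x :=
      (h2 i j).ldv hCo hK hrU Metric.ball_subset_closedBall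
    -- half the number of steps
    have ha0 : Tendsto (fun a : ℝ => a) l (𝓝 0) := tendsto_id.mono_left (hl.trans nhdsWithin_le_nhds)
    have hNdec : ∀ a, N a = 2 * (N a / 2) + N a % 2 := fun a => (Int.mul_ediv_add_emod (N a) 2).symm
    have hr01 : ∀ a, 0 ≤ N a % 2 ∧ N a % 2 < 2 := fun a =>
      ⟨Int.emod_nonneg _ (by norm_num), Int.emod_lt_of_pos _ (by norm_num)⟩
    have hrem : Tendsto (fun a => a * ((N a % 2 : ℤ) : ℝ)) l (𝓝 0) := by
      have hb : Tendsto (fun a : ℝ => 2 * |a|) l (𝓝 0) := by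
        have := (ha0.abs).const_mul 2
        simpa using this
      refine squeeze_zero_norm (fun a => ?_) hb
      rw [Real.norm_eq_abs, abs_mul, mul_comm]
      refine mul_le_mul_of_nonneg_right ?_ (abs_nonneg a)
      obtain ⟨h3, h4⟩ := hr01 a
      rw [abs_of_nonneg (by exact_mod_cast h3)]
      exact_mod_cast h4.le
    have hM : Tendsto (fun a => a * ((N a / 2 : ℤ) : ℝ)) l (𝓝 (T / 2)) := by
      have := (hN.sub hrem).div_const 2
      rw [sub_zero] at this
      refine this.congr fun a => ?_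
      have h5 : (N a : ℝ) = 2 * ((N a / 2 : ℤ) : ℝ) + ((N a % 2 : ℤ) : ℝ) := by
        exact_mod_cast hNdec a
      rw [h5]; ring
    have hcv2 : cv ((2 : ℤ) • unitVec j) = 2 * cv (unitVec j) := by
      rw [cv_smul]; norm_num
    have hseg2 : ∀ s ∈ uIcc 0 (T / 2), csh x' i ((s : ℂ) * cv ((2 : ℤ) • unitVec j)) ∈
        Metric.ball x r := by
      intro s hs
      have e : (s : ℂ) * cv ((2 : ℤ) • unitVec j) = ((2 * s : ℝ) : ℂ) * cv (unitVec j) := by
        rw [hcv2]; push_cast; ring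
      rw [e]
      apply hseg
      rcases le_total 0 T with h | h
      · rw [uIcc_of_le (by linarith)] at hs
        rw [uIcc_of_le h]
        exact ⟨by linarith [hs.1], by linarith [hs.2]⟩
      · rw [uIcc_of_ge (by linarith)] at hs
        rw [uIcc_of_ge h]
        exact ⟨by linarith [hs.1], by linarith [hs.2]⟩
    have hmain := segment_int Metric.isOpen_ball hpo
      (((hgc i j).mono (Metric.ball_subset_closedBall.trans hrU)).const_smul (2 : ℝ) |>.congr
        fun y _ => by simp) hld hseg2 hl hu hM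
    -- the integral
    have hI : (∫ s in (0 : ℝ)..(T / 2), 2 * g i j (csh x' i ((s : ℂ) * cv ((2 : ℤ) • unitVec j)))) =
        ∫ s in (0 : ℝ)..T, g i j (csh x' i ((s : ℂ) * cv (unitVec j))) := by
      have e : (fun s : ℝ => 2 * g i j (csh x' i ((s : ℂ) * cv ((2 : ℤ) • unitVec j)))) =
          fun s : ℝ => 2 * (fun t : ℝ => g i j (csh x' i ((t : ℂ) * cv (unitVec j)))) (2 * s) := by
        funext s
        have : (s : ℂ) * cv ((2 : ℤ) • unitVec j) = ((2 * s : ℝ) : ℂ) * cv (unitVec j) := by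
          rw [hcv2]; push_cast; ring
        simp only [this]
      rw [e, intervalIntegral.integral_const_mul, intervalIntegral.integral_comp_mul_left
        (fun t : ℝ => g i j (csh x' i ((t : ℂ) * cv (unitVec j)))) (by norm_num : (2 : ℝ) ≠ 0)]
      have e2 : 2 * (T / 2) = T := by ring
      rw [mul_zero, e2, smul_eq_mul]
      ring
    rw [hI] at hmain
    -- the last step
    set w : ℝ → Fin n → ℤ × ℤ := fun a => sh (u a) i ((N a / 2) • (2 : ℤ) • unitVec j) with hw
    set y := csh x' i ((T : ℂ) * cv (unitVec j)) with hy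
    have hwlim : Tendsto (fun a => mc a (w a)) l (𝓝 y) := by
      rw [tendsto_pi_nhds]
      intro k
      have hx1 : Tendsto (fun a => mc a (u a) k) l (𝓝 (x' k)) := tendsto_pi_nhds.1 hu k
      by_cases hk : k = i
      · subst hk
        have e1 : y k = x' k + ((T / 2 : ℝ) : ℂ) * (2 * cv (unitVec j)) := by
          simp only [hy, csh, Function.update_self]; push_cast; ring
        have e2 : ∀ a, mc a (w a) k = mc a (u a) k +
            ((a * ((N a / 2 : ℤ) : ℝ) : ℝ) : ℂ) * (2 * cv (unitVec j)) := by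
          intro a
          simp only [hw, mc_sh, csh, Function.update_self]
          rw [cv_smul, hcv2]
          push_cast; ring
        rw [e1]
        simp only [e2]
        exact hx1.add (((Complex.continuous_ofReal.tendsto _).comp hM).mul_const _)
      · have e1 : y k = x' k := by simp [hy, csh, hk]
        have e2 : ∀ a, mc a (w a) k = mc a (u a) k := by
          intro a; simp only [hw, mc_sh, csh, Function.update_of_ne hk]
        rw [e1]; simp only [e2]; exact hx1
    have hyC : y ∈ Conf n D :=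
      hrU (Metric.ball_subset_closedBall (hseg T right_mem_uIcc))
    have hnf : Tendsto (fun a => (a, w a)) l (NF y) :=
      tendsto_nf_iff.2 ⟨tendsto_id.mono_left hl, hwlim⟩
    have hlast : Tendsto (fun a => Z a (sh (w a) i ((N a % 2) • unitVec j)) / Z a (w a)) l
        (𝓝 1) := by
      rw [Metric.tendsto_nhds]
      intro ε hε
      have e1 := hnf.eventually ((hax i j y hyC).eventually (Metric.ball_mem_nhds 1 hε))
      have e2 := hnf.eventually (hpos y hyC)
      filter_upwards [e1, e2] with a h5 h6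
      have h7 : N a % 2 = 0 ∨ N a % 2 = 1 := by
        have := hr01 a; omega
      rcases h7 with h7 | h7
      · rw [h7, zero_smul, sh_zero, div_self h6.ne', dist_self]; exact hε
      · rw [h7, one_smul]; exact h5
    have hfin := hlast.mul hmain
    rw [one_mul] at hfin
    refine hfin.congr' ?_
    filter_upwards [hnf.eventually (hpos y hyC)] with a h6
    have e3 : sh (w a) i ((N a % 2) • unitVec j) = sh (u a) i (N a • unitVec j) := by
      simp only [hw, sh_sh]
      congr 1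
      rw [smul_smul, ← add_smul]
      congr 1
      have := hNdec a
      omega
    rw [e3]
    have : Z a (w a) ≠ 0 := h6.ne'
    rw [hw] at this ⊢
    rw [div_mul_div_cancel₀ this]

end Crest.Agent.R165.PathSeqx641
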