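import Crest.Agent.R165.UFin_420
import Crest.Agent.R165.PathSeq_641
import Crest.Agent.R165.GeoC_65
import Crest.Agent.Lib.InjHolo

/-!
# Row 165 (S0250), block U5: `SpinIn` from logarithmic derivatives (helper641)

* `SpinInB b Lam` : the inputs (I1), (I1c) for ONE boundary condition; `spinIn_of_B`, `SpinInB.of_spinIn`.
* `LatApp D T` : finite sets `T a` of sites approximating the domain `D` (`T(D,a)`, its star, ...).
* `LDF A T` : one-step expansions (`LDD`) of `GB .plus (T a)` with coefficients `A D i x`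
  (`∂_{x_i} log = A`, i.e. `Re A` in direction `1`, `-Im A` in direction `i`).
* `CovA A` : conformal covariance of the coefficients (weight `1/8` anomaly).
* `spinInB_plus` : `SpinInB .plus` from these.
* `LDF.ratio2` : ratio limits along different approximating families `T`, `T'` of the same domain
  are the same.
-/

set_option autoImplicit false

noncomputable section

open Filter Topology Set
open Crest.ProbabilityR.IsingModel

namespace Crest.Agent.R165.USpinx641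

open ConfTopx641 PathIntx641 PathGlx641 PathDfx641
open U5Px422 (GB TT Allow SpinIn LApp)

/-- a `C²` Jordan domain is preconnected -/
theorem preconn_of_C2 {D : Set ℂ} (hD : IsC2JordanDomain D) : IsPreconnected D := by
  rcases D.eq_empty_or_nonempty with rfl | hne
  · exact isPreconnected_empty
  · obtain ⟨r, M, h⟩ := GeoCx65.exists_CD hD hne
    exact h.conn.isPreconnected

/-- a bijective holomorphic map of `C²` Jordan domains has no critical point -/
theorem deriv_ne {D : Set ℂ} (hD : IsC2JordanDomain D) {φ : ℂ → ℂ} (hφ : DifferentiableOn ℂ φ D)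
    (hinj : InjOn φ D) {z : ℂ} (hz : z ∈ D) : deriv φ z ≠ 0 :=
  Crest.Agent.Lib.deriv_ne_zero_of_injOn (Red2x541.isOpen_of_C2 hD) hφ hinj hz

/-- **inputs (I1), (I1c) for one boundary condition** -/
structure SpinInB (b : BoundaryCondition) (Lam : (n : ℕ) → Set ℂ → (Fin n → ℂ) → ℝ) : Prop where
  pos : ∀ n D, Allow b n → IsC2JordanDomain D → ∀ x ∈ U5Px422.Conf D n, 0 < Lam n D x
  ratio : ∀ n D, Allow b n → IsC2JordanDomain D → ∀ x ∈ U5Px422.Conf D n,
    ∀ x' ∈ U5Px422.Conf D n, ∀ u u' : ℝ → Fin n → ℤ × ℤ, LApp u x → LApp u' x' →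
      Tendsto (fun a : ℝ => GB b (TT D a) (u a) / GB b (TT D a) (u' a)) (𝓝[>] 0)
        (𝓝 (Lam n D x / Lam n D x'))
  cov : ∀ n D D', Allow b n → IsC2JordanDomain D → IsC2JordanDomain D' → ∀ φ : ℂ → ℂ,
    DifferentiableOn ℂ φ D → Set.BijOn φ D D' → ∃ k : ℝ, 0 < k ∧ ∀ x ∈ U5Px422.Conf D n,
      Lam n D' (fun i => φ (x i)) * ∏ i, ‖deriv φ (x i)‖ ^ ((1 : ℝ) / 8) = k * Lam n D x



/-! ### approximating families of site sets -/

/-- finite sets `T a` of sites approximating the domain `D` at mesh `a` -/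
structure LatApp (D : Set ℂ) (T : ℝ → Finset (ℤ × ℤ)) : Prop where
  inn : ∀ K : Set ℂ, IsCompact K → K ⊆ D → ∀ᶠ a in 𝓝[>] (0 : ℝ), ∀ f, meshPoint a f ∈ K → f ∈ T a
  out : ∀ K : Set ℂ, IsClosed K → Disjoint K (closure D) →
    ∀ᶠ a in 𝓝[>] (0 : ℝ), ∀ f, meshPoint a f ∈ K → f ∉ T a

theorem latApp_TT {D : Set ℂ} (hD : IsC2JordanDomain D) : LatApp D (TT D) where
  inn K _ hKD := by
    filter_upwards [self_mem_nhdsWithin] with a ha f hf
    exact (U5Px422.mem_TT (Redx541.bounded_of_C2 hD) ha).2 (hKD hf)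
  out K _ hKD := by
    filter_upwards [self_mem_nhdsWithin] with a ha f hf h
    exact Set.disjoint_left.1 hKD hf
      (subset_closure ((U5Px422.mem_TT (Redx541.bounded_of_C2 hD) ha).1 h))

/-! ### logarithmic derivatives -/

/-- coefficients of the one-step expansion from the complex logarithmic derivative -/
def gOf {n : ℕ} (A : Fin n → (Fin n → ℂ) → ℂ) : Fin n → Fin 2 → (Fin n → ℂ) → ℝ :=
  fun i j x => if j = 0 then (A i x).re else -(A i x).im

@[simp] theorem gOf_zero {n : ℕ} (A : Fin n → (Fin n → ℂ) → ℂ) (i : Fin n) (x : Fin n → ℂ) :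
    gOf A i 0 x = (A i x).re := rfl

@[simp] theorem gOf_one {n : ℕ} (A : Fin n → (Fin n → ℂ) → ℂ) (i : Fin n) (x : Fin n → ℂ) :
    gOf A i 1 x = -(A i x).im := rfl

theorem cg_gOf {n : ℕ} (A : Fin n → (Fin n → ℂ) → ℂ) (x : Fin n → ℂ) (i : Fin n) :
    cg (gOf A) x i = A i x := by
  unfold cg
  rw [gOf_zero, gOf_one]
  apply Complex.ext <;> simp

/-- spin correlations of the family `T` of finite site sets -/
def ZT (b : BoundaryCondition) (T : ℝ → Finset (ℤ × ℤ)) {n : ℕ} : ℝ → (Fin n → ℤ × ℤ) → ℝ :=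
  fun a u => GB b (T a) u

/-- conformal covariance of the logarithmic derivatives -/
def CovA (A : (n : ℕ) → Set ℂ → Fin n → (Fin n → ℂ) → ℂ) : Prop :=
  ∀ n D D', IsC2JordanDomain D → IsC2JordanDomain D' → ∀ φ : ℂ → ℂ,
    DifferentiableOn ℂ φ D → Set.BijOn φ D D' → ∀ x ∈ Conf n D, ∀ i,
      A n D i x = deriv φ (x i) * A n D' i (fun k => φ (x k)) +
        ((1 / 8 : ℝ) : ℂ) * (deriv (deriv φ) (x i) / deriv φ (x i))

/-- one-step expansions for the family `T` of site sets approximating `D` -/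
def LDF (A : (n : ℕ) → Set ℂ → Fin n → (Fin n → ℂ) → ℂ) (D : Set ℂ)
    (T : ℝ → Finset (ℤ × ℤ)) : Prop :=
  ∀ n, LDD n D (ZT .plus T) (gOf (A n D))

open Classical in
/-- the normalised scaling limit -/
def Lam (n : ℕ) (D : Set ℂ) (x : Fin n → ℂ) : ℝ :=
  if h : (Conf n D).Nonempty then Gl (ZT .plus (TT D)) h.some x else 1

theorem lam_eq {n : ℕ} {D : Set ℂ} {x : Fin n → ℂ} (hx : x ∈ Conf n D) :
    ∃ x0 ∈ Conf n D, ∀ y, Lam n D y = Gl (ZT .plus (TT D)) x0 y := by
  have h : (Conf n D).Nonempty := ⟨x, hx⟩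
  refine ⟨h.some, h.some_mem, fun y => ?_⟩
  unfold Lam
  rw [dif_pos h]

theorem lapp_mc {n : ℕ} {u : ℝ → Fin n → ℤ × ℤ} {x : Fin n → ℂ} (h : LApp u x) :
    Tendsto (fun a => mc a (u a)) (𝓝[>] 0) (𝓝 x) :=
  tendsto_pi_nhds.2 h

variable {A : (n : ℕ) → Set ℂ → Fin n → (Fin n → ℂ) → ℂ}

theorem lam_pos {D : Set ℂ} (H : LDF A D (TT D)) {n : ℕ} {x : Fin n → ℂ} (hx : x ∈ Conf n D) :
    0 < Lam n D x := by
  obtain ⟨x0, hx0, e⟩ := lam_eq (show x ∈ Conf n D from hx)
  rw [e]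
  exact (H n).gl_pos hx0 hx

theorem lam_div {D : Set ℂ} (H : LDF A D (TT D)) {n : ℕ} {x x' : Fin n → ℂ} (hx : x ∈ Conf n D)
    (hx' : x' ∈ Conf n D) : Lam n D x / Lam n D x' = Gl (ZT .plus (TT D)) x' x := by
  obtain ⟨x0, hx0, e⟩ := lam_eq (show x ∈ Conf n D from hx)
  have L := H n
  rw [e, e, div_eq_iff (L.gl_pos hx0 hx').ne', mul_comm, L.gl_mul hx0 hx' hx]

/-- two families of site sets with the same one-step expansions have the same ratio limits -/
theorem gl_congr {n : ℕ} {D : Set ℂ} {Z Z' : ℝ → (Fin n → ℤ × ℤ) → ℝ}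
    {g : Fin n → Fin 2 → (Fin n → ℂ) → ℝ} (H : LDD n D Z g) (H' : LDD n D Z' g)
    {x y : Fin n → ℂ} (hx : x ∈ Conf n D) (hy : y ∈ Conf n D) : Gl Z x y = Gl Z' x y := by
  have h := PathDfx641.cov (κ := 0) H H' (φ := id) differentiableOn_id (injOn_id D)
    (mapsTo_id D) (fun z _ => by simp) (fun x _ i => by simp) hx hy
  simpa using h

/-- **ratio limits of the plus correlations along an arbitrary approximating family** -/
theorem LDF.ratio {D : Set ℂ} {T : ℝ → Finset (ℤ × ℤ)} (H : LDF A D (TT D)) (H' : LDF A D T)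
    {n : ℕ} {x x' : Fin n → ℂ} (hx : x ∈ Conf n D) (hx' : x' ∈ Conf n D)
    {u u' : ℝ → Fin n → ℤ × ℤ} (hu : LApp u x) (hu' : LApp u' x') :
    Tendsto (fun a : ℝ => GB .plus (T a) (u a) / GB .plus (T a) (u' a)) (𝓝[>] 0)
        (𝓝 (Lam n D x / Lam n D x')) := by
  rw [lam_div H hx hx', gl_congr (H n) (H' n) hx' hx]
  exact (H' n).rel_gl hx' hx _ le_rfl _ _ (lapp_mc hu') (lapp_mc hu)

/-- **inputs (I1), (I1c) of block U5 for plus, from the logarithmic derivatives** -/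
theorem spinInB_plus (H : ∀ D, IsC2JordanDomain D → LDF A D (TT D)) (HA : CovA A) :
    SpinInB .plus Lam where
  pos n D _ hD x hx := lam_pos (H D hD) hx
  ratio n D _ hD x hx x' hx' u u' hu hu' := LDF.ratio (H D hD) (H D hD) hx hx' hu hu'
  cov n D D' _ hD hD' φ hφ hbij := by
    have L := H D hD n
    have L' := H D' hD' n
    have hφ' : ∀ z ∈ D, deriv φ z ≠ 0 := fun z hz => deriv_ne hD hφ hbij.injOn hz
    have hmem : ∀ z ∈ Conf n D, (fun k => φ (z k)) ∈ Conf n D' := fun z hz =>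
      ⟨fun i => hbij.mapsTo (hz.1 i), fun i j hij => hz.2 (hbij.injOn (hz.1 i) (hz.1 j) hij)⟩
    by_cases hne : (Conf n D).Nonempty
    · obtain ⟨y, hy⟩ := hne
      obtain ⟨x0, hx0, e⟩ := lam_eq hy
      obtain ⟨x0', hx0', e'⟩ := lam_eq (hmem y hy)
      have hP : 0 < ∏ i, ‖deriv φ (x0 i)‖ ^ ((1 : ℝ) / 8) :=
        Finset.prod_pos fun i _ => Real.rpow_pos_of_pos (norm_pos_iff.2 (hφ' _ (hx0.1 i))) _
      refine ⟨Gl (ZT .plus (TT D')) x0' (fun k => φ (x0 k)) *
          ∏ i, ‖deriv φ (x0 i)‖ ^ ((1 : ℝ) / 8),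
        mul_pos (L'.gl_pos hx0' (hmem x0 hx0)) hP, fun x hx => ?_⟩
      have hcov := PathDfx641.cov L L' hφ hbij.injOn hbij.mapsTo hφ' (κ := 1 / 8)
        (fun x hx i => by
          rw [cg_gOf, cg_gOf]
          exact HA n D D' hD hD' φ hφ hbij x hx i) hx0 hx
      rw [e, e', ← L'.gl_mul hx0' (hmem x0 hx0) (hmem x hx)]
      rw [mul_assoc, ← hcov]
      ring
    · exact ⟨1, one_pos, fun x hx => absurd ⟨x, hx⟩ hne⟩


end Crest.Agent.R165.USpinx641
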