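import Mathlib
import Crest.Agent.R165.GeoD_65
import Crest.Agent.R165.FrFin_887
import Crest.Agent.R165.StarApp_583
import Crest.Agent.R165.MacI_622
import Crest.Agent.R165.GeoCp_416

-- ▼ part R165/GeoE_65
section

/-!
# Row 165, block GEO (helper65), file E: the frontier of a domain with charts is Lebesgue null
-/

set_option autoImplicit false

open Set Topology Filter Metric MeasureTheory

namespace Crest.Agent.R165.GeoDx65

open Crest.Agent.R165.Geo
open Complex (I)

variable {D : Set ℂ} {p : ℂ} {r M : ℝ} {k : ℕ} {g g' : ℝ → ℝ}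

/-- the graph of a differentiable function, in a rotated frame, is a null set -/
theorem volume_graph {g g' : ℝ → ℝ} (hg : ∀ s, HasDerivAt g (g' s) s) (p : ℂ) (k : ℕ) :
    volume ((fun z : ℂ => p + I ^ k * ((z.re:ℂ) + (g z.re:ℂ) * I)) '' univ) = 0 := by
  -- the derivative
  let L : ℂ → (ℂ →L[ℝ] ℂ) := fun z =>
    (Complex.reCLM).smulRight (I ^ k * (1 + ((g' z.re : ℝ) : ℂ) * I))
  refine addHaar_image_eq_zero_of_det_fderivWithin_eq_zero (f' := L) volume (fun z _ => ?_)
    (fun z _ => ?_)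
  · have h1 : HasFDerivAt (fun z : ℂ => z.re) Complex.reCLM z := Complex.reCLM.hasFDerivAt
    have h2 : HasDerivAt (fun s : ℝ => p + I ^ k * ((s:ℂ) + (g s:ℂ) * I))
        (I ^ k * (1 + ((g' z.re : ℝ) : ℂ) * I)) z.re := by
      have h3 : HasDerivAt (fun s : ℝ => (s:ℂ)) 1 z.re := Complex.ofRealCLM.hasDerivAt
      have h4 : HasDerivAt (fun s : ℝ => (g s:ℂ)) ((g' z.re : ℝ) : ℂ) z.re := (hg z.re).ofReal_comp
      exact ((h3.add (h4.mul_const I)).const_mul (I ^ k)).const_add p
    have h5 := h2.hasFDerivAt.comp z h1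
    have h6 : (ContinuousLinearMap.toSpanSingleton ℝ (I ^ k * (1 + ((g' z.re : ℝ) : ℂ) * I))).comp
        Complex.reCLM = L z := by
      ext v
      simp [L]
    rw [h6] at h5
    exact h5.hasFDerivWithinAt
  · -- the kernel contains `I`
    have hker : L z I = 0 := by simp [L]
    by_contra hdet
    have h1 : (((L z : ℂ →L[ℝ] ℂ) : ℂ →ₗ[ℝ] ℂ)).det ≠ 0 := hdet
    have h2 := LinearMap.bot_lt_ker_of_det_eq_zero (f := ((L z : ℂ →L[ℝ] ℂ) : ℂ →ₗ[ℝ] ℂ))
    have h3 : IsUnit (((L z : ℂ →L[ℝ] ℂ) : ℂ →ₗ[ℝ] ℂ)).det := isUnit_iff_ne_zero.2 h1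
    have h4 : Function.Injective (((L z : ℂ →L[ℝ] ℂ) : ℂ →ₗ[ℝ] ℂ)) := by
      have := (LinearEquiv.ofIsUnitDet (v := Complex.basisOneI) (v' := Complex.basisOneI)
        (f := ((L z : ℂ →L[ℝ] ℂ) : ℂ →ₗ[ℝ] ℂ)) (by rwa [LinearMap.det_toMatrix])).injective
      exact this
    have h5 : (I : ℂ) = 0 := h4 (by rw [map_zero]; exact hker)
    exact Complex.I_ne_zero h5

/-- **the frontier is a null set** -/
theorem volume_frontier (h : CD D r M) : volume (frontier D) = 0 := by
  obtain ⟨S, hS, hcov⟩ := CD.frontier_cover h h.r_pos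
  refine measure_mono_null (inter_eq_left.2 hcov |>.symm.subset) ?_
  rw [inter_iUnion₂]
  refine (measure_biUnion_null_iff S.countable_toSet).2 fun p hp => ?_
  obtain ⟨k, g, g', hc⟩ := h.chart p (hS p hp)
  refine measure_mono_null ?_ (volume_graph hc.hd p k)
  rintro z ⟨hz1, hz2⟩
  obtain ⟨s, t, hzst, -, hs, ht⟩ := exists_coord p k z
  rw [mem_ball, Complex.dist_eq] at hz2
  have h0 := h.r_pos
  have h1 : t = g s := (hc.bdry s t (by linarith) (by linarith)).1 (by rw [← hzst]; exact hz1)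
  refine ⟨(s:ℂ), mem_univ _, ?_⟩
  rw [hzst, h1]
  simp

end Crest.Agent.R165.GeoDx65
end

-- ▼ part R165/LatSeq_416

/-!
# Row 165 (S0250): the concrete plus backgrounds are `LatSeq` (helper416)

Bridge `toF : BW ℤ → Fld` of `FrFin_887`.

* `toF_wX`            : `toF (wX W X) f h = rays X f h * toF W f h`
* `WApp D W a`        : bond weights `W k` on the mesh `a k` approximating the domain `D`
* `latSeq_of`         : `WApp D W a` ⟹ `LatSeq D x a (toF (wX (W k) (V k))) V`
* `WApp.dom`, `WApp.star` : `wDom (T (a k)) false` and the starred background `wSt (T (a k))` of a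
                        family `LatApp D T` (`T = TT D`, `T = starT (TT D ·)`)
* `latSeq_TT`, `latSeq_starT`, `latSeq_wSt` : the instances
* `volume_frontier`   : the frontier of a C² Jordan domain is a null set
-/

set_option autoImplicit false

noncomputable section

open Filter Topology Set Metric MeasureTheory
open Crest.ProbabilityR.IsingModel
open Crest.Agent.R165.Tr1x40 Crest.Agent.R165.RIfx891
open Crest.Agent.R165.Mac0x622 Crest.Agent.R165.MacIx622
open Crest.Agent.R165.Latx683 (BW HE Aop wX wDom ray)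
open Crest.Agent.R165.FrFinx887 (toF sym_toF A_toF cur wSt)
open Crest.Agent.R165.USpinx641 (LatApp latApp_TT)
open Crest.Agent.R165.U5Px422 (TT)
open Crest.Agent.R165.Kw5x871 (starT)

namespace Crest.Agent.R165.LatSeqx416

/-! ### the rays -/

theorem ray_eq_S {n : ℕ} (X : Fin n → ℤ × ℤ) (f : Face) : ray X f 0 = rays X f 0 := by
  unfold ray rays rayw
  refine Finset.prod_congr rfl fun i _ => ?_
  by_cases h : (X i).2 = f.2 ∧ (X i).1 ≤ f.1
  · rw [if_pos ⟨rfl, h⟩, if_pos (Or.inl ⟨rfl, h.1.symm, h.2⟩)]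
  · rw [if_neg fun hc => h hc.2, if_neg]
    rintro (hc | hc)
    · exact h ⟨hc.2.1.symm, hc.2.2⟩
    · exact absurd hc.1 (by decide)

theorem ray_eq_N {n : ℕ} (X : Fin n → ℤ × ℤ) (f : Face) :
    ray X (f.1, f.2 + 1) 0 = rays X f 2 := by
  unfold ray rays rayw
  refine Finset.prod_congr rfl fun i _ => ?_
  by_cases h : (X i).2 = f.2 + 1 ∧ (X i).1 ≤ f.1
  · rw [if_pos ⟨rfl, h⟩, if_pos (Or.inr ⟨rfl, h.1.symm, h.2⟩)]
  · rw [if_neg fun hc => h hc.2, if_neg]
    rintro (hc | hc)
    · exact absurd hc.1 (by decide)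
    · exact h ⟨hc.2.1.symm, hc.2.2⟩

theorem rays_E {n : ℕ} (X : Fin n → ℤ × ℤ) (f : Face) : rays X f 1 = 1 := by
  unfold rays rayw
  refine Finset.prod_eq_one fun i _ => ?_
  rw [if_neg]
  rintro (hc | hc)
  · exact absurd hc.1 (by decide)
  · exact absurd hc.1 (by decide)

theorem rays_W {n : ℕ} (X : Fin n → ℤ × ℤ) (f : Face) : rays X f 3 = 1 := by
  unfold rays rayw
  refine Finset.prod_eq_one fun i _ => ?_
  rw [if_neg]
  rintro (hc | hc)
  · exact absurd hc.1 (by decide)
  · exact absurd hc.1 (by decide)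

/-- **the insertions in the conventions of `Tr1_40`** -/
theorem toF_wX {n : ℕ} (W : BW ℤ) (X : Fin n → ℤ × ℤ) (f : Face) (h : Fin 4) :
    toF (wX W X) f h = rays X f h * toF W f h := by
  fin_cases h
  · show ray X f 0 * W f 0 = rays X f 0 * W f 0
    rw [ray_eq_S]
  · show ray X (f.1 + 1, f.2) 1 * W (f.1 + 1, f.2) 1 = rays X f 1 * W (f.1 + 1, f.2) 1
    rw [FrFinx887.ray_one, rays_E]
  · show ray X (f.1, f.2 + 1) 0 * W (f.1, f.2 + 1) 0 = rays X f 2 * W (f.1, f.2 + 1) 0
    rw [ray_eq_N]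
  · show ray X f 1 * W f 1 = rays X f 3 * W f 1
    rw [FrFinx887.ray_one, rays_W]



/-! ### backgrounds approximating a domain -/

/-- the bond weights `W k` on the mesh `a k` approximate the plus background of the domain `D` -/
structure WApp (D : Set ℂ) (W : ℕ → BW ℤ) (a : ℕ → ℝ) : Prop where
  val : ∀ k z j, W k z j = xc ∨ W k z j = 0
  inn : ∀ K : Set ℂ, IsCompact K → K ⊆ D → ∀ᶠ k in atTop, ∀ z, meshPoint (a k) z ∈ K →
    ∀ j, W k z j = xc
  out : ∀ K : Set ℂ, IsClosed K → Disjoint K (closure D) → ∀ᶠ k in atTop, ∀ z,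
    meshPoint (a k) z ∈ K → ∀ j, W k z j = 0
  fin : ∀ k, {z | ∃ j, W k z j ≠ 0}.Finite

theorem dist_mesh_le {a : ℝ} (ha : 0 < a) {u v : ℤ × ℤ} (h1 : |u.1 - v.1| ≤ 1)
    (h2 : |u.2 - v.2| ≤ 1) : dist (meshPoint a u) (meshPoint a v) ≤ 2 * a :=
  StarAppx583.norm_mesh_le ha h1 h2

theorem ev_small {a : ℕ → ℝ} (hl : Tendsto a atTop (𝓝 0)) {δ : ℝ} (hδ : 0 < δ) :
    ∀ᶠ k in atTop, 2 * a k < δ := by
  have h : Tendsto (fun k => 2 * a k) atTop (𝓝 (2 * 0)) := hl.const_mul 2
  rw [mul_zero] at h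
  exact h.eventually (Iio_mem_nhds hδ)


/-! ### the two kinds of backgrounds -/

theorem tendsto_pos {a : ℕ → ℝ} (ha : ∀ k, 0 < a k) (hl : Tendsto a atTop (𝓝 0)) :
    Tendsto a atTop (𝓝[>] 0) :=
  tendsto_nhdsWithin_iff.2 ⟨hl, Eventually.of_forall ha⟩

theorem norm_mesh_shift {a : ℝ} (ha : 0 < a) (z : ℤ × ℤ) (j : Fin 2) :
    dist (meshPoint a (z + unitVec j)) (meshPoint a z) ≤ 2 * a := by
  refine dist_mesh_le ha ?_ ?_ <;> fin_cases j <;> simp [unitVec]

/-- a closed set away from a bounded one stays away after thickening -/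
theorem exists_thick {D K : Set ℂ} (hb : Bornology.IsBounded D) (hK : IsClosed K)
    (hKD : Disjoint K (closure D)) : ∃ δ > 0, Disjoint (cthickening δ K) (closure D) := by
  have hc : IsCompact (closure D) := hb.isCompact_closure
  obtain ⟨δ, hδ, h⟩ := hKD.symm.exists_cthickenings hc hK
  exact ⟨δ, hδ, (h.mono_left (self_subset_cthickening _)).symm⟩

/-- **the plus background of a family of site sets** -/
theorem WApp.dom {D : Set ℂ} (hb : Bornology.IsBounded D) {T : ℝ → Finset (ℤ × ℤ)} (h : LatApp D T) {a : ℕ → ℝ}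
    (ha : ∀ k, 0 < a k) (hl : Tendsto a atTop (𝓝 0)) :
    WApp D (fun k => wDom (T (a k) : Set (ℤ × ℤ)) false) a where
  val k z j := by
    unfold wDom
    simp only [Bool.false_eq_true, if_false]
    split_ifs
    · left; rfl
    · right; rfl
  inn K hK hKD := by
    filter_upwards [(tendsto_pos ha hl).eventually (h.inn K hK hKD)] with k hk z hz j
    unfold wDom
    simp only [Bool.false_eq_true, if_false]
    rw [if_pos (Or.inl (Finset.mem_coe.2 (hk z hz)))]
    rfl
  out K hK hKD := by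
    obtain ⟨δ, hδ, hdis⟩ := exists_thick hb hK hKD
    filter_upwards [(tendsto_pos ha hl).eventually (h.out _ isClosed_cthickening hdis),
      ev_small hl hδ] with k h1 h2 z hz j
    unfold wDom
    simp only [Bool.false_eq_true, if_false]
    rw [if_neg]
    rintro (hc | hc)
    · exact h1 z (self_subset_cthickening _ hz) (Finset.mem_coe.1 hc)
    · exact h1 _ (mem_cthickening_of_dist_le _ _ δ K hz
        ((norm_mesh_shift (ha k) z j).trans h2.le)) (Finset.mem_coe.1 hc)
  fin k := by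
    refine ((T (a k)).finite_toSet.union (((T (a k)).finite_toSet.image fun z => z - unitVec 0).union
      ((T (a k)).finite_toSet.image fun z => z - unitVec 1))).subset ?_
    rintro z ⟨j, hj⟩
    unfold wDom at hj
    simp only [Bool.false_eq_true, if_false, ne_eq, ite_eq_right_iff, Classical.not_imp] at hj
    rcases hj.1 with h1 | h1
    · exact Or.inl h1
    · right
      fin_cases j
      · exact Or.inl ⟨_, h1, by simp⟩
      · exact Or.inr ⟨_, h1, by simp⟩


theorem dist_mesh_add {a : ℝ} (ha : 0 < a) (z v : ℤ × ℤ) :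
    dist (meshPoint a (z + v)) (meshPoint a z) ≤ a * (|(v.1 : ℝ)| + |(v.2 : ℝ)|) := by
  rw [dist_eq_norm]
  refine (Complex.norm_le_abs_re_add_abs_im _).trans ?_
  have e1 : (meshPoint a (z + v) - meshPoint a z).re = a * (v.1 : ℝ) := by
    simp [meshPoint]; ring
  have e2 : (meshPoint a (z + v) - meshPoint a z).im = a * (v.2 : ℝ) := by
    simp [meshPoint]; ring
  rw [e1, e2, abs_mul, abs_mul, abs_of_pos ha]
  linarith

/-- translation of a background by a fixed vector -/
theorem WApp.shift {D : Set ℂ} (hD : IsOpen D) (hb : Bornology.IsBounded D) {W : ℕ → BW ℤ}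
    {a : ℕ → ℝ} (H : WApp D W a) (ha : ∀ k, 0 < a k) (hl : Tendsto a atTop (𝓝 0)) (v : ℤ × ℤ) :
    WApp D (fun k z j => W k (z + v) j) a where
  val k z j := H.val k _ j
  inn K hK hKD := by
    obtain ⟨δ, hδ, hKδ⟩ := hK.exists_cthickening_subset_open hD hKD
    have h2 : ∀ᶠ k in atTop, a k * (|(v.1 : ℝ)| + |(v.2 : ℝ)|) < δ := by
      have h := hl.mul_const (|(v.1 : ℝ)| + |(v.2 : ℝ)|)
      rw [zero_mul] at h
      exact h.eventually (Iio_mem_nhds hδ)
    filter_upwards [H.inn _ hK.cthickening hKδ, h2] with k h1 h2 z hz j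
    exact h1 _ (mem_cthickening_of_dist_le _ _ δ K hz ((dist_mesh_add (ha k) z v).trans h2.le)) j
  out K hK hKD := by
    obtain ⟨δ, hδ, hdis⟩ := exists_thick hb hK hKD
    have h2 : ∀ᶠ k in atTop, a k * (|(v.1 : ℝ)| + |(v.2 : ℝ)|) < δ := by
      have h := hl.mul_const (|(v.1 : ℝ)| + |(v.2 : ℝ)|)
      rw [zero_mul] at h
      exact h.eventually (Iio_mem_nhds hδ)
    filter_upwards [H.out _ isClosed_cthickening hdis, h2] with k h1 h2 z hz j
    exact h1 _ (mem_cthickening_of_dist_le _ _ δ K hz ((dist_mesh_add (ha k) z v).trans h2.le)) j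
  fin k := by
    refine ((H.fin k).image fun z => z - v).subset ?_
    rintro z ⟨j, hj⟩
    exact ⟨z + v, ⟨j, hj⟩, by simp⟩

/-! ### instances for `C²` Jordan domains -/


theorem coe_TT {D : Set ℂ} (hb : Bornology.IsBounded D) {a : ℝ} (ha : 0 < a) :
    (TT D a : Set (ℤ × ℤ)) = domainSites D a := by
  ext z
  rw [Finset.mem_coe, U5Px422.mem_TT hb ha]
  rfl







/-! ### tips -/




/-- **the frontier of a `C²` Jordan domain is a null set** -/
theorem volume_frontier {D : Set ℂ} (hD : IsC2JordanDomain D) : volume (frontier D) = 0 := by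
  rcases D.eq_empty_or_nonempty with rfl | hne
  · simp
  · obtain ⟨r, M, h⟩ := GeoCx65.exists_CD hD hne
    exact GeoDx65.volume_frontier h

end Crest.Agent.R165.LatSeqx416
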