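import Crest.Agent.R165.En_599
import Crest.Agent.R165.Red_541
import Crest.Agent.R165.Lat_683

-- ▼ part R165/UDomB_420
section

/-!
# Row 165 (S0250), U6-DOM part B (helper420): the energy half of `UDc` and `UCc`

Abstract wiring, for one domain `D`, boundary condition, spins `x`, bonds `(y, j)`:

* `BondJ2`  (block J): for small `a`,
  `⟨σ_x ∏ (ε_k - √2/2)⟩ = ⟨σ_x⟩ · E_{S_a}[∏_k (1 - 2 w_k φ_{p_k} φ_{q_k} - √2/2)]`, `w_k = γ_{k0} γ_{k1} x_c`;
* `KerLim` (block U4): `a⁻¹ (γ γ' S_a(h, h') - δ_{kl} (±√2/4)) → Sl(e_h, e_{h'})`, where the limit is an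
  alternating real bilinear form `Sl` on `Fin m → ℂ` (field at `y_k` tested against `c ∈ ℂ`:
  `Re (c ψ(y_k))`), `e_E = 1`, `e_W = i`, `e_S = e^{3πi/4}`, `e_N = e^{-3πi/4}`;
* `SpinLim` (block U5): `a^{-n/8} ⟨σ_x⟩ → F`.
* covariance: `Sl_D(c_k, c_l) = Sl_{D'}(r_k c_k, r_l c_l)`, `r_k² = φ'(y_k)`.
-/

set_option autoImplicit false

noncomputable section

open Filter Topology Finset
open Crest.ProbabilityR.IsingModel

namespace Crest.Agent.R165.UDomBx420

open Crest.Agent.R165.Gr0x606 Crest.Agent.R165.Enx599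
open Crest.Agent.R165.Topx683 Crest.Agent.R165.Redx541 Crest.Agent.R165.Centx541

/-- critical weight -/
def xc : ℝ := Real.sqrt 2 - 1

/-- plane value of `E[φ_{hp} φ_{hq}]` -/
def cP : ℝ := Real.sqrt 2 / 4

theorem one_sub_e0 : 1 - e0 = 2 * xc * cP := by
  have h : Real.sqrt 2 * Real.sqrt 2 = 2 := Real.mul_self_sqrt (by norm_num)
  unfold e0 xc cP
  linear_combination (-(1:ℝ) / 2) * h

/-- the direction of a half-edge as a test vector: `j = 1` (vertical bond, `E`, `W`),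
`j = 0` (horizontal bond, `S`, `N`) -/
def ed (j : Fin 2) (i : Fin 2) : ℂ :=
  if j = 1 then (if i = 0 then 1 else Complex.I)
  else (if i = 0 then ⟨-(Real.sqrt 2 / 2), Real.sqrt 2 / 2⟩ else ⟨-(Real.sqrt 2 / 2), -(Real.sqrt 2 / 2)⟩)


/-! ### algebra: taking out the factors -/

variable {V : Type*} [AddCommGroup V] [Module ℝ V]

/-- product of the bond variables `1 - 2 w_k φφ` centred by `c` -/
def bpr {κ : Type*} (p : κ → Fin 2 → V) (w c : κ → ℝ) (K : List κ) : Gr V :=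
  (K.map fun k => 1 - (2 * w k) • (fi (p k 0) * fi (p k 1)) - algebraMap ℝ (Gr V) (c k)).prod

theorem bpr_eq {κ : Type*} (p : κ → Fin 2 → V) (w : κ → ℝ) (γ : κ → Fin 2 → ℝ)
    (hγ : ∀ k, w k = γ k 0 * γ k 1 * xc) (K : List κ) :
    bpr p w (fun _ => e0) K =
      (-2 * xc) ^ K.length • cpr (fun k i => γ k i • p k i) (fun _ => cP) K := by
  induction K with
  | nil => simp [bpr, cpr]
  | cons k K ih =>
    have e : (1 - (2 * w k) • (fi (p k 0) * fi (p k 1)) - algebraMap ℝ (Gr V) e0) =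
        (-2 * xc) • (fi (γ k 0 • p k 0) * fi (γ k 1 • p k 1) - algebraMap ℝ (Gr V) cP) := by
      have h1 : (1 : Gr V) - algebraMap ℝ (Gr V) e0 = algebraMap ℝ (Gr V) (2 * xc * cP) := by
        rw [← one_sub_e0, map_sub, map_one]
      have h2 : (1 - (2 * w k) • (fi (p k 0) * fi (p k 1)) - algebraMap ℝ (Gr V) e0) =
          (1 - algebraMap ℝ (Gr V) e0) - (2 * w k) • (fi (p k 0) * fi (p k 1)) := by abel
      rw [h2, h1, smul_sub, hγ, fi_smul, fi_smul, smul_mul_smul_comm, smul_smul,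
        Algebra.algebraMap_eq_smul_one, Algebra.algebraMap_eq_smul_one, smul_smul]
      have h3 : 2 * (γ k 0 * γ k 1 * xc) = -(-2 * xc * (γ k 0 * γ k 1)) := by ring
      have h4 : 2 * xc * cP = -(-2 * xc * cP) := by ring
      rw [h3, h4, neg_smul, neg_smul]
      abel
    simp only [bpr, cpr, List.map_cons, List.prod_cons, List.length_cons] at *
    rw [ih, e, smul_mul_smul_comm, pow_succ, mul_comm]

/-! ### the lattice input and the limit -/

/-- matrix of the limit form -/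
def M0 {m : ℕ} (Sl : Cov (Fin m → ℂ)) (j : Fin m → Fin 2) (p q : Fin m × Fin 2) : ℝ :=
  Sl.b (Pi.single p.1 (ed (j p.1) p.2)) (Pi.single q.1 (ed (j q.1) q.2))

/-- centring block -/
def cBlock {m : ℕ} (p q : Fin m × Fin 2) : ℝ :=
  if p.1 = q.1 then (if p.2 = 0 ∧ q.2 = 1 then cP else if p.2 = 1 ∧ q.2 = 0 then -cP else 0) else 0

/-- block J: bonds as Grassmann bilinears in the background `(D, a, b, x)` -/
def BondJ2 (W : ℝ → Type) [∀ a, AddCommGroup (W a)] [∀ a, Module ℝ (W a)]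
    (S : ∀ a, Cov (W a)) (D : Set ℂ) (b : BoundaryCondition) {n m : ℕ} (x : Fin n → ℂ)
    (y : Fin m → ℂ) (j : Fin m → Fin 2) (p : ∀ a, Fin m → Fin 2 → W a) (w : ℝ → Fin m → ℝ) :
    Prop :=
  ∀ᶠ a in 𝓝[>] (0 : ℝ), D0c D a b x y j =
    D0c D a b x (![] : Fin 0 → ℂ) ![] * EE (S a) (bpr (p a) (w a) (fun _ => e0) (List.finRange m))

/-- block U4: convergence of the rescaled kernels at the bonds -/
def KerLim (W : ℝ → Type) [∀ a, AddCommGroup (W a)] [∀ a, Module ℝ (W a)]
    (S : ∀ a, Cov (W a)) {m : ℕ} (j : Fin m → Fin 2) (p : ∀ a, Fin m → Fin 2 → W a)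
    (w : ℝ → Fin m → ℝ) (Sl : Cov (Fin m → ℂ)) : Prop :=
  ∃ γ : ℝ → Fin m → Fin 2 → ℝ,
    (∀ᶠ a in 𝓝[>] (0 : ℝ), ∀ k, w a k = γ a k 0 * γ a k 1 * xc) ∧
    ∀ q q' : Fin m × Fin 2,
      Tendsto (fun a => a⁻¹ * (γ a q.1 q.2 * γ a q'.1 q'.2 * (S a).b (p a q.1 q.2) (p a q'.1 q'.2) -
        cBlock q q')) (𝓝[>] 0) (𝓝 (M0 Sl j q q'))

/-- block U5: spin limit -/
def SpinLim (D : Set ℂ) (b : BoundaryCondition) {n : ℕ} (x : Fin n → ℂ) (F : ℝ) : Prop :=
  Tendsto (fun a : ℝ => scl n 0 a * D0c D a b x (![] : Fin 0 → ℂ) ![]) (𝓝[>] 0) (𝓝 F)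

/-- the energy Pfaffian of the limit form -/
def Epf {m : ℕ} (Sl : Cov (Fin m → ℂ)) (j : Fin m → Fin 2) : ℝ :=
  EE Sl (cpr (fun k i => (Pi.single k (ed (j k) i) : Fin m → ℂ)) (fun _ => 0) (List.finRange m))

theorem scl_add (n m : ℕ) {a : ℝ} (ha : 0 < a) : scl n m a = scl n 0 a * (a⁻¹) ^ m := by
  unfold scl
  rw [← Real.rpow_natCast, Real.inv_rpow ha.le, ← Real.rpow_neg ha.le, ← Real.rpow_add ha]
  congr 1
  push_cast
  ring

/-- **energy half of `UDc`** -/
theorem domain_limit (W : ℝ → Type) [∀ a, AddCommGroup (W a)] [∀ a, Module ℝ (W a)]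
    (S : ∀ a, Cov (W a)) (D : Set ℂ) (b : BoundaryCondition) {n m : ℕ} (x : Fin n → ℂ)
    (y : Fin m → ℂ) (j : Fin m → Fin 2) (p : ∀ a, Fin m → Fin 2 → W a) (w : ℝ → Fin m → ℝ)
    (Sl : Cov (Fin m → ℂ)) (F : ℝ)
    (hJ : BondJ2 W S D b x y j p w) (hK : KerLim W S j p w Sl) (hS : SpinLim D b x F) :
    Tendsto (fun a : ℝ => scl n m a * D0c D a b x y j) (𝓝[>] 0)
      (𝓝 ((-2 * xc) ^ m * Epf Sl j * F)) := by
  obtain ⟨γ, hγ, hlim⟩ := hK
  have h1 : Tendsto (fun a : ℝ => (a⁻¹) ^ (List.finRange m).length *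
      EE (S a) (cpr (fun k i => γ a k i • p a k i) (fun _ => cP) (List.finRange m))) (𝓝[>] 0)
      (𝓝 (pfl (M0 Sl j) (2 * (List.finRange m).length) (idx (List.finRange m)))) := by
    refine tendsto_EE_cpr (F := 𝓝[>] (0:ℝ)) S (fun a k i => γ a k i • p a k i) (fun _ _ => cP)
      (fun a => a) (List.finRange m) (List.nodup_finRange m) (M0 Sl j) ?_
    intro q _ q' _
    refine (hlim q q').congr fun a => ?_
    congr 1
    unfold cmat cBlock
    simp only [map_smul, LinearMap.smul_apply, smul_eq_mul]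
    ring
  have h2 : Epf Sl j = pfl (M0 Sl j) (2 * (List.finRange m).length) (idx (List.finRange m)) := by
    unfold Epf
    rw [EE_cpr Sl _ _ _ (List.nodup_finRange m) _ le_rfl]
    congr 1
    funext q q'
    unfold cmat M0
    simp
  rw [← h2, List.length_finRange] at h1
  have h3 : Tendsto (fun a : ℝ => (-2 * xc) ^ m * ((a⁻¹) ^ m *
      EE (S a) (cpr (fun k i => γ a k i • p a k i) (fun _ => cP) (List.finRange m))) *
      (scl n 0 a * D0c D a b x (![] : Fin 0 → ℂ) ![])) (𝓝[>] 0)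
      (𝓝 ((-2 * xc) ^ m * Epf Sl j * F)) := (h1.const_mul _).mul hS
  refine h3.congr' ?_
  filter_upwards [hJ, hγ, self_mem_nhdsWithin] with a ha hγa ha0
  have ha0' : (0 : ℝ) < a := ha0
  rw [ha, bpr_eq (p a) (w a) (γ a) hγa, List.length_finRange, map_smul, smul_eq_mul,
    scl_add n m ha0']
  ring

/-! ### covariance -/

/-- multiplication by `r_k` at `y_k` -/
def rmul {m : ℕ} (r : Fin m → ℂ) : (Fin m → ℂ) →ₗ[ℝ] (Fin m → ℂ) where
  toFun c := fun k => r k * c k
  map_add' c d := by funext k; simp [mul_add]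
  map_smul' t c := by
    funext k
    simp only [Pi.smul_apply, RingHom.id_apply, Complex.real_smul]
    ring

theorem rmul_single {m : ℕ} (r : Fin m → ℂ) (k : Fin m) (c : ℂ) :
    rmul r (Pi.single k c) = Pi.single k (r k * c) := by
  funext l
  by_cases h : l = k
  · subst h; simp [rmul]
  · simp [rmul, h]

/-- 2-dimensional determinant rule for a pair of fields at one point -/
theorem fi_fi_single {m : ℕ} (k : Fin m) (c d : ℂ) :
    (fi (Pi.single k c : Fin m → ℂ) * fi (Pi.single k d : Fin m → ℂ) : Gr (Fin m → ℂ)) =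
      (c.re * d.im - c.im * d.re) •
        (fi (Pi.single k 1 : Fin m → ℂ) * fi (Pi.single k Complex.I : Fin m → ℂ)) := by
  have hs : ∀ z : ℂ, (Pi.single k z : Fin m → ℂ) =
      z.re • (Pi.single k 1 : Fin m → ℂ) + z.im • (Pi.single k Complex.I : Fin m → ℂ) := by
    intro z
    funext l
    by_cases h : l = k
    · subst h; simp [Complex.re_add_im]
    · simp [h]
  rw [hs c, hs d]
  simp only [fi_add, fi_smul, mul_add, add_mul, smul_mul_smul_comm, fi_mul_self, smul_zero,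
    zero_add, add_zero]
  rw [fi_anti (Pi.single k Complex.I : Fin m → ℂ) (Pi.single k 1), smul_neg, ← neg_smul,
    ← add_smul]
  congr 1
  ring

theorem cpr_smul {κ : Type*} (A B : κ → Gr V) (t : κ → ℝ) (h : ∀ k, A k = t k • B k)
    (K : List κ) : (K.map A).prod = (K.map t).prod • (K.map B).prod := by
  induction K with
  | nil => simp
  | cons k K ih =>
    simp only [List.map_cons, List.prod_cons]
    rw [ih, h k, smul_mul_smul_comm]

theorem Epf_pullback {m : ℕ} (Sl Sl' : Cov (Fin m → ℂ)) (j : Fin m → Fin 2) (r : Fin m → ℂ)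
    (h : ∀ k l c d, Sl.b (Pi.single k c) (Pi.single l d) =
      Sl'.b (Pi.single k (r k * c)) (Pi.single l (r l * d))) :
    Epf Sl j = (∏ k, ‖r k‖ ^ 2) * Epf Sl' j := by
  have hcov : ∀ u v : Fin m → ℂ, Sl.b u v = Sl'.b (rmul r u) (rmul r v) := by
    intro u v
    have hu : u = ∑ k, Pi.single k (u k) := (Finset.univ_sum_single u).symm
    have hv : v = ∑ k, Pi.single k (v k) := (Finset.univ_sum_single v).symm
    rw [hu, hv]
    simp only [map_sum, LinearMap.sum_apply, rmul_single]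
    refine Finset.sum_congr rfl fun k _ => Finset.sum_congr rfl fun l _ => ?_
    exact h _ _ _ _
  unfold Epf
  rw [← EE_mp (rmul r) Sl Sl' hcov]
  have h1 : mp (rmul r) (cpr (fun k i => (Pi.single k (ed (j k) i) : Fin m → ℂ)) (fun _ => 0)
      (List.finRange m)) = ((List.finRange m).map fun k => ‖r k‖ ^ 2).prod •
      (cpr (fun k i => (Pi.single k (ed (j k) i) : Fin m → ℂ)) (fun _ => 0) (List.finRange m)) := by
    unfold cpr
    rw [map_list_prod, List.map_map]
    refine cpr_smul _ _ _ ?_ _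
    intro k
    simp only [Function.comp_apply, map_zero, sub_zero, map_mul, mp_fi, rmul_single]
    rw [fi_fi_single k (r k * ed (j k) 0), fi_fi_single k (ed (j k) 0), smul_smul]
    congr 1
    rw [Complex.sq_norm, Complex.normSq_apply]
    simp only [Complex.mul_re, Complex.mul_im]
    ring
  rw [h1, map_smul, smul_eq_mul, ← List.ofFn_eq_map, List.prod_ofFn]

/-- everything needed for one `(D, b, x, y, j)` -/
structure DomData (D : Set ℂ) (b : BoundaryCondition) {n m : ℕ} (x : Fin n → ℂ)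
    (y : Fin m → ℂ) (j : Fin m → Fin 2) (Sl : Cov (Fin m → ℂ)) (F : ℝ) where
  /-- spaces of fields -/
  W : ℝ → Type
  /-- group structure -/
  grp : ∀ a, AddCommGroup (W a)
  /-- vector space structure -/
  vsp : ∀ a, Module ℝ (W a)
  /-- covariances -/
  S : ∀ a, Cov (W a)
  /-- half-edge fields -/
  p : ∀ a, Fin m → Fin 2 → W a
  /-- signed weights -/
  w : ℝ → Fin m → ℝ
  j2 : BondJ2 W S D b x y j p w
  ker : KerLim W S j p w Sl
  spin : SpinLim D b x F

theorem DomData.limit {D : Set ℂ} {b : BoundaryCondition} {n m : ℕ} {x : Fin n → ℂ}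
    {y : Fin m → ℂ} {j : Fin m → Fin 2} {Sl : Cov (Fin m → ℂ)} {F : ℝ}
    (H : DomData D b x y j Sl F) :
    Tendsto (fun a : ℝ => scl n m a * D0c D a b x y j) (𝓝[>] 0)
      (𝓝 ((-2 * xc) ^ m * Epf Sl j * F)) := by
  let _ := H.grp
  let _ := H.vsp
  exact domain_limit H.W H.S D b x y j H.p H.w Sl F H.j2 H.ker H.spin

/-- **energy half of `UCc`** -/
theorem domain_covariance {D D' : Set ℂ} {φ : ℂ → ℂ} {b : BoundaryCondition} {n m : ℕ}
    {x : Fin n → ℂ} {y : Fin m → ℂ} {j : Fin m → Fin 2} {Sl Sl' : Cov (Fin m → ℂ)} {F F' : ℝ}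
    (H : DomData D b x y j Sl F)
    (H' : DomData D' b (fun i => φ (x i)) (fun k => φ (y k)) j Sl' F')
    (hS : ∃ r : Fin m → ℂ, (∀ k, r k ^ 2 = deriv φ (y k)) ∧
      ∀ k l c d, Sl.b (Pi.single k c) (Pi.single l d) =
        Sl'.b (Pi.single k (r k * c)) (Pi.single l (r l * d)))
    (hF : F = (∏ i, ‖deriv φ (x i)‖ ^ ((1 : ℝ) / 8)) * F') :
    ∃ G G' : ℝ,
      Tendsto (fun a : ℝ => scl n m a * D0c D a b x y j) (𝓝[>] 0) (𝓝 G) ∧
      Tendsto (fun a : ℝ => scl n m a * D0c D' a b (fun i => φ (x i)) (fun k => φ (y k)) j)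
        (𝓝[>] 0) (𝓝 G') ∧
      G = (∏ i, ‖deriv φ (x i)‖ ^ ((1 : ℝ) / 8)) * (∏ k, ‖deriv φ (y k)‖) * G' := by
  obtain ⟨r, hr, hS⟩ := hS
  refine ⟨_, _, H.limit, H'.limit, ?_⟩
  have h1 : (∏ k, ‖deriv φ (y k)‖) = ∏ k, ‖r k‖ ^ 2 := by
    refine Finset.prod_congr rfl fun k _ => ?_
    rw [← hr k, norm_pow]
  rw [h1, Epf_pullback Sl Sl' j r hS, hF]
  ring

end Crest.Agent.R165.UDomBx420
end
end

-- ▼ part R165/UKer_420

/-!
# Row 165 (S0250), U6-DOM part K (helper420): interface for the kernel limits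

Statement of the kernel limits wanted from U3/U4 for one domain `D`, boundary condition (`fr = true`:
free, `fr = false`: plus) and spins `x`, in the gauge of `Lat_683` (horizontal rays to the right).
Points ON the rays are allowed: `kap` is the sign which turns the ray gauge into the gauge which is
trivial near `z` (faces above the line of `z` keep their sign).

* `KerD fr D x bl rg` : `a⁻¹ κ κ' S_a((f,i),(f',i')) → bl z z' (e_i, e_{i'})` for `z ≠ z'` in `D ∖ x`,
  `a⁻¹ (κ κ' S_a((f,i),(f',i')) - [plane value]) → rg z (e_i, e_{i'})` for the two faces of a bond at `z`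
* `kerLim_of` : this gives `KerLim` of `UDomB_420` for every choice of bonds.
* `KerCov` : weight-1/2 covariance.
-/

set_option autoImplicit false

noncomputable section

open Filter Topology Finset
open Crest.ProbabilityR.IsingModel

namespace Crest.Agent.R165.UKerx420

open Crest.Agent.R165.Gr0x606 Crest.Agent.R165.Enx599
open Crest.Agent.R165.Topx683 Crest.Agent.R165.Redx541 Crest.Agent.R165.Centx541
open Crest.Agent.R165.Latx683 (BW HE hp hq wDom ray wX IsCov covS formS Fld)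
open Crest.Agent.R165.UDomBx420

/-- test vectors of the four directions `S, E, N, W` : `e^{-3iθ/2}`, `θ = -90, 0, 90, 180` -/
def edir (i : Fin 4) : ℂ :=
  if i = 0 then ⟨-(Real.sqrt 2 / 2), Real.sqrt 2 / 2⟩
  else if i = 1 then 1
  else if i = 2 then ⟨-(Real.sqrt 2 / 2), -(Real.sqrt 2 / 2)⟩
  else Complex.I

/-- the half-edges `i = 0, 1` of the bond `(v, j)` -/
def hb (v : ℤ × ℤ) (j i : Fin 2) : HE ℤ := if i = 0 then hp v j else hq v j

theorem edir_hb (v : ℤ × ℤ) (j i : Fin 2) : edir (hb v j i).2 = ed j i := by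
  fin_cases j <;> fin_cases i <;> simp [hb, edir, ed, hp, hq]

/-- local gauge sign at the point `z`, face `f`, lattice spins `X`, continuum spins `x` -/
def kap {n : ℕ} (x : Fin n → ℂ) (X : Fin n → ℤ × ℤ) (z : ℂ) (f : ℤ × ℤ) : ℝ := by
  classical exact
  ∏ i, if (x i).im = z.im ∧ (x i).re < z.re ∧ f.2 < (X i).2 then -1 else 1

theorem kap_sq {n : ℕ} (x : Fin n → ℂ) (X : Fin n → ℤ × ℤ) (z : ℂ) (f : ℤ × ℤ) :
    kap x X z f * kap x X z f = 1 := by
  unfold kap
  rw [← Finset.prod_mul_distrib]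
  refine Finset.prod_eq_one fun i _ => ?_
  split_ifs <;> norm_num

/-- the rescaled face -/
def fpt (a : ℝ) (f : ℤ × ℤ) : ℂ := meshPoint a f

/-- background of the domain `D` at mesh `a` with spins `X` -/
def wD (fr : Bool) (D : Set ℂ) (a : ℝ) {n : ℕ} (X : Fin n → ℤ × ℤ) : BW ℤ :=
  wX (wDom (domainSites D a) fr) X

/-- plane value of `S` for the two half-edges of one bond -/
def cB (i i' : Fin 2) : ℝ := if i = 0 ∧ i' = 1 then cP else if i = 1 ∧ i' = 0 then -cP else 0

/-- the kernel limits of one domain -/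
structure KerD (fr : Bool) (D : Set ℂ) {n : ℕ} (x : Fin n → ℂ)
    (bl : ℂ → ℂ → LinearMap.BilinForm ℝ ℂ) (rg : ℂ → LinearMap.BilinForm ℝ ℂ) : Prop where
  /-- two different points -/
  off : ∀ (S : ℝ → HE ℤ → HE ℤ → ℝ),
    (∀ᶠ a in 𝓝[>] (0 : ℝ), IsCov (wD fr D a (fun i => meshIndex a (x i))) (S a)) →
    ∀ z z' : ℂ, z ∈ D → z' ∈ D → z ≠ z' → (∀ i, x i ≠ z) → (∀ i, x i ≠ z') →
    ∀ (i i' : Fin 4) (f f' : ℝ → ℤ × ℤ), Tendsto (fun a => fpt a (f a)) (𝓝[>] 0) (𝓝 z) →
      Tendsto (fun a => fpt a (f' a)) (𝓝[>] 0) (𝓝 z') →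
      Tendsto (fun a => a⁻¹ * (kap x (fun i => meshIndex a (x i)) z (f a) *
        kap x (fun i => meshIndex a (x i)) z' (f' a) * S a (f a, i) (f' a, i'))) (𝓝[>] 0)
        (𝓝 (bl z z' (edir i) (edir i')))
  /-- regular part at a bond -/
  diag : ∀ (S : ℝ → HE ℤ → HE ℤ → ℝ),
    (∀ᶠ a in 𝓝[>] (0 : ℝ), IsCov (wD fr D a (fun i => meshIndex a (x i))) (S a)) →
    ∀ z : ℂ, z ∈ D → (∀ i, x i ≠ z) → ∀ (j i i' : Fin 2),
      Tendsto (fun a => a⁻¹ * (kap x (fun i => meshIndex a (x i)) z (hb (meshIndex a z) j i).1 *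
        kap x (fun i => meshIndex a (x i)) z (hb (meshIndex a z) j i').1 *
          S a (hb (meshIndex a z) j i) (hb (meshIndex a z) j i') - cB i i')) (𝓝[>] 0)
        (𝓝 (rg z (ed j i) (ed j i')))
  /-- skew -/
  skew : ∀ z z', z ∈ D → z' ∈ D → z ≠ z' → ∀ c c', bl z z' c c' = -bl z' z c' c
  /-- alternating -/
  alt : ∀ z, z ∈ D → ∀ c, rg z c c = 0

/-- weight-1/2 covariance of the kernel limits -/
def KerCov (D : Set ℂ) {n : ℕ} (x : Fin n → ℂ) (φ : ℂ → ℂ)
    (bl bl' : ℂ → ℂ → LinearMap.BilinForm ℝ ℂ) (rg rg' : ℂ → LinearMap.BilinForm ℝ ℂ) : Prop :=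
  ∃ r : ℂ → ℂ,
    (∀ z ∈ D, (∀ i, x i ≠ z) → r z ^ 2 = deriv φ z) ∧
    (∀ z z', z ∈ D → z' ∈ D → z ≠ z' → (∀ i, x i ≠ z) → (∀ i, x i ≠ z') → ∀ c c',
      bl z z' c c' = bl' (φ z) (φ z') (r z * c) (r z' * c')) ∧
    ∀ z, z ∈ D → (∀ i, x i ≠ z) → ∀ c c', rg z c c' = rg' (φ z) (r z * c) (r z * c')

/-! ### the form on `Fin m → ℂ` -/

/-- assembled limit form -/
def asm {m : ℕ} (y : Fin m → ℂ) (bl : ℂ → ℂ → LinearMap.BilinForm ℝ ℂ)
    (rg : ℂ → LinearMap.BilinForm ℝ ℂ) : LinearMap.BilinForm ℝ (Fin m → ℂ) :=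
  ∑ k : Fin m, ∑ l : Fin m, (if k = l then rg (y k) else bl (y k) (y l)).compl₁₂
    (LinearMap.proj k) (LinearMap.proj l)

theorem asm_single {m : ℕ} (y : Fin m → ℂ) (bl : ℂ → ℂ → LinearMap.BilinForm ℝ ℂ)
    (rg : ℂ → LinearMap.BilinForm ℝ ℂ) (k l : Fin m) (c d : ℂ) :
    asm y bl rg (Pi.single k c) (Pi.single l d) =
      (if k = l then rg (y k) else bl (y k) (y l)) c d := by
  unfold asm
  simp only [LinearMap.sum_apply, LinearMap.compl₁₂_apply, LinearMap.proj_apply]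
  rw [Finset.sum_eq_single k]
  · rw [Finset.sum_eq_single l]
    · simp
    · intro l' _ h
      rw [Pi.single_eq_of_ne h, map_zero]
    · intro h; exact absurd (Finset.mem_univ _) h
  · intro k' _ h
    refine Finset.sum_eq_zero fun l' _ => ?_
    rw [Pi.single_eq_of_ne h, map_zero, LinearMap.zero_apply]
  · intro h; exact absurd (Finset.mem_univ _) h

theorem asm_apply {m : ℕ} (y : Fin m → ℂ) (bl : ℂ → ℂ → LinearMap.BilinForm ℝ ℂ)
    (rg : ℂ → LinearMap.BilinForm ℝ ℂ) (u v : Fin m → ℂ) :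
    asm y bl rg u v = ∑ k : Fin m, ∑ l : Fin m,
      (if k = l then rg (y k) else bl (y k) (y l)) (u k) (v l) := by
  unfold asm
  simp only [LinearMap.sum_apply, LinearMap.compl₁₂_apply, LinearMap.proj_apply]

/-- the covariance -/
def asmCov {m : ℕ} (y : Fin m → ℂ) (bl : ℂ → ℂ → LinearMap.BilinForm ℝ ℂ)
    (rg : ℂ → LinearMap.BilinForm ℝ ℂ)
    (hs : ∀ k l, k ≠ l → ∀ c c', bl (y k) (y l) c c' = -bl (y l) (y k) c' c)
    (ha : ∀ k c, rg (y k) c c = 0) : Cov (Fin m → ℂ) where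
  b := asm y bl rg
  alt u := by
    have hrg : ∀ k c d, rg (y k) c d = -rg (y k) d c := by
      intro k c d
      have h := ha k (c + d)
      simp only [map_add, LinearMap.add_apply, ha, zero_add, add_zero] at h
      linarith
    have key : asm y bl rg u u = -asm y bl rg u u := by
      calc asm y bl rg u u = ∑ k : Fin m, ∑ l : Fin m,
            (if k = l then rg (y k) else bl (y k) (y l)) (u k) (u l) := asm_apply _ _ _ _ _
        _ = ∑ l : Fin m, ∑ k : Fin m,
            (if k = l then rg (y k) else bl (y k) (y l)) (u k) (u l) := Finset.sum_comm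
        _ = -∑ l : Fin m, ∑ k : Fin m,
            (if l = k then rg (y l) else bl (y l) (y k)) (u l) (u k) := by
          rw [← Finset.sum_neg_distrib]
          refine Finset.sum_congr rfl fun l _ => ?_
          rw [← Finset.sum_neg_distrib]
          refine Finset.sum_congr rfl fun k _ => ?_
          by_cases h : k = l
          · subst h; simp only [if_true]; exact hrg _ _ _
          · rw [if_neg h, if_neg (Ne.symm h)]; exact hs _ _ h _ _
        _ = -asm y bl rg u u := by rw [asm_apply]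
    linarith

/-! ### floors -/

theorem tendsto_floor (t : ℝ) (c : ℤ) :
    Tendsto (fun a : ℝ => a * ((⌊t / a⌋ + c : ℤ) : ℝ)) (𝓝[>] 0) (𝓝 t) := by
  have h1 : Tendsto (fun a : ℝ => a) (𝓝[>] 0) (𝓝 0) := tendsto_id.mono_left nhdsWithin_le_nhds
  have h2 : Tendsto (fun a : ℝ => t + (|(c : ℝ)| + 1) * a) (𝓝[>] 0) (𝓝 t) := by
    simpa using (h1.const_mul (|(c : ℝ)| + 1)).const_add t
  have h3 : Tendsto (fun a : ℝ => t - (|(c : ℝ)| + 1) * a) (𝓝[>] 0) (𝓝 t) := by
    simpa using (h1.const_mul (|(c : ℝ)| + 1)).const_sub t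
  refine tendsto_of_tendsto_of_tendsto_of_le_of_le' h3 h2 ?_ ?_
  · filter_upwards [self_mem_nhdsWithin] with a ha
    have ha' : (0 : ℝ) < a := ha
    have h4 := Int.lt_floor_add_one (t / a)
    have h5 : t < a * (⌊t / a⌋ + 1) := by
      have := (div_lt_iff₀ ha').1 h4
      linarith
    have h6 := neg_abs_le (c : ℝ)
    push_cast
    nlinarith
  · filter_upwards [self_mem_nhdsWithin] with a ha
    have ha' : (0 : ℝ) < a := ha
    have h4 := Int.floor_le (t / a)
    have h5 : a * ⌊t / a⌋ ≤ t := by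
      have := (le_div_iff₀ ha').1 h4
      linarith
    have h6 := le_abs_self (c : ℝ)
    push_cast
    nlinarith

theorem tendsto_mesh (z : ℂ) (c : ℤ × ℤ) :
    Tendsto (fun a : ℝ => meshPoint a (meshIndex a z + c)) (𝓝[>] 0) (𝓝 z) := by
  have h1 := tendsto_floor z.re c.1
  have h2 := tendsto_floor z.im c.2
  have h3 : Tendsto (fun a : ℝ => ((a * ((⌊z.re / a⌋ + c.1 : ℤ) : ℝ) : ℝ) : ℂ) +
      ((a * ((⌊z.im / a⌋ + c.2 : ℤ) : ℝ) : ℝ) : ℂ) * Complex.I) (𝓝[>] 0)
      (𝓝 ((z.re : ℂ) + (z.im : ℂ) * Complex.I)) := by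
    refine Tendsto.add ?_ (Tendsto.mul_const _ ?_)
    · exact (Complex.continuous_ofReal.tendsto _).comp h1
    · exact (Complex.continuous_ofReal.tendsto _).comp h2
  rw [Complex.re_add_im] at h3
  refine h3.congr fun a => ?_
  apply Complex.ext <;> simp [meshPoint, meshIndex]

theorem eventually_mem {D : Set ℂ} (hD : IsOpen D) {z : ℂ} (hz : z ∈ D) (c : ℤ × ℤ) :
    ∀ᶠ a in 𝓝[>] (0 : ℝ), meshIndex a z + c ∈ domainSites D a :=
  (tendsto_mesh z c).eventually (hD.mem_nhds hz)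

theorem eventually_floor_lt {s t : ℝ} (h : s < t) : ∀ᶠ a in 𝓝[>] (0 : ℝ), ⌊s / a⌋ < ⌊t / a⌋ := by
  have h1 : ∀ᶠ a in 𝓝[>] (0 : ℝ), a * ((⌊s / a⌋ + 1 : ℤ) : ℝ) < a * ((⌊t / a⌋ + 0 : ℤ) : ℝ) :=
    (tendsto_floor s 1).eventually_lt (tendsto_floor t 0) h
  filter_upwards [h1, self_mem_nhdsWithin] with a ha ha0
  have ha' : (0 : ℝ) < a := ha0
  have := lt_of_mul_lt_mul_left ha ha'.le
  have h2 : ⌊s / a⌋ + 1 < ⌊t / a⌋ + 0 := by exact_mod_cast this
  omega

theorem floor_le_of_le {s t a : ℝ} (ha : 0 < a) (h : s ≤ t) : ⌊s / a⌋ ≤ ⌊t / a⌋ :=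
  Int.floor_le_floor ((div_le_div_iff_of_pos_right ha).2 h)

/-- for small mesh, the ray condition at `z` is the continuum one -/
theorem eventually_ray {n : ℕ} (x : Fin n → ℂ) (z : ℂ) (hx : ∀ i, x i ≠ z) (j : Fin 2) :
    ∀ᶠ a in 𝓝[>] (0 : ℝ),
      ray (fun i => meshIndex a (x i)) (meshIndex a z) j =
        kap x (fun i => meshIndex a (x i)) z (hb (meshIndex a z) j 0).1 *
        kap x (fun i => meshIndex a (x i)) z (hb (meshIndex a z) j 1).1 := by
  have key : ∀ i, ∀ᶠ a in 𝓝[>] (0 : ℝ),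
      ((meshIndex a (x i)).2 = (meshIndex a z).2 ∧ (meshIndex a (x i)).1 ≤ (meshIndex a z).1) ↔
        ((x i).im = z.im ∧ (x i).re < z.re) := by
    intro i
    by_cases him : (x i).im = z.im
    · have hre : (x i).re ≠ z.re := fun h => hx i (Complex.ext h him)
      rcases lt_or_gt_of_ne hre with h | h
      · filter_upwards [self_mem_nhdsWithin] with a ha
        refine ⟨fun _ => ⟨him, h⟩, fun _ => ⟨?_, floor_le_of_le ha h.le⟩⟩
        simp [meshIndex, him]
      · filter_upwards [eventually_floor_lt h] with a ha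
        refine ⟨fun hh => absurd hh.2 (not_le.2 ha), fun hh => absurd hh.2 (not_lt.2 h.le)⟩
    · rcases lt_or_gt_of_ne him with h | h
      · filter_upwards [eventually_floor_lt h] with a ha
        exact ⟨fun hh => absurd hh.1 ha.ne, fun hh => absurd hh.1 him⟩
      · filter_upwards [eventually_floor_lt h] with a ha
        exact ⟨fun hh => absurd hh.1 ha.ne', fun hh => absurd hh.1 him⟩
  filter_upwards [eventually_all.2 key] with a ha
  unfold ray kap
  rw [← Finset.prod_mul_distrib]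
  refine Finset.prod_congr rfl fun i _ => ?_
  have hi := ha i
  fin_cases j
  · simp only [Fin.zero_eta, Fin.isValue, true_and, hb, if_true, Latx683.hp_zero, one_ne_zero,
      if_false, Latx683.hq_zero]
    by_cases hc : (x i).im = z.im ∧ (x i).re < z.re
    · have h2 := hi.2 hc
      rw [if_pos h2, if_neg, if_pos]
      · norm_num
      · refine ⟨hc.1, hc.2, ?_⟩
        have := h2.1
        omega
      · rintro ⟨-, -, h3⟩
        have := h2.1
        omega
    · rw [if_neg (fun h => hc (hi.1 h)), if_neg (fun h => hc ⟨h.1, h.2.1⟩),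
        if_neg (fun h => hc ⟨h.1, h.2.1⟩)]
      norm_num
  · simp only [Fin.mk_one, Fin.isValue, hb, if_true, Latx683.hp_one, one_ne_zero, if_false,
      Latx683.hq_one, false_and]
    by_cases hc : (x i).im = z.im ∧ (x i).re < z.re
    · have h2 := hi.2 hc
      have h3 : ¬ (meshIndex a z).2 < (meshIndex a (x i)).2 := by
        have := h2.1
        omega
      simp [h3]
    · have h3 : ∀ b : ℤ, ¬((x i).im = z.im ∧ (x i).re < z.re ∧ b < (meshIndex a (x i)).2) :=
        fun b h => hc ⟨h.1, h.2.1⟩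
      simp [h3]

theorem wDom_inside {D : Set ℂ} {a : ℝ} {v : ℤ × ℤ} {j : Fin 2} (fr : Bool)
    (h : v ∈ domainSites D a) (h' : v + unitVec j ∈ domainSites D a) :
    wDom (domainSites D a) fr v j = UDomBx420.xc := by
  unfold wDom
  cases fr
  · simp only [Bool.false_eq_true, if_false]
    rw [if_pos (Or.inl h)]
    rfl
  · simp only [if_true]
    rw [if_pos ⟨h, h'⟩]
    rfl

/-! ### a covariance for every background -/

open Classical in
/-- a chosen covariance of the background -/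
def Sof (w : BW ℤ) : HE ℤ → HE ℤ → ℝ := if h : ∃ S, IsCov w S then h.choose else fun _ _ => 0

theorem Sof_spec {w : BW ℤ} (h : ∃ S, IsCov w S) : IsCov w (Sof w) := by
  unfold Sof
  rw [dif_pos h]
  exact h.choose_spec

theorem Sof_skew (w : BW ℤ) (h h' : HE ℤ) : Sof w h h' = -Sof w h' h := by
  by_cases hw : ∃ S, IsCov w S
  · exact (Sof_spec hw).skew h h'
  · unfold Sof
    rw [dif_neg hw]
    simp

/-- Grassmann covariance of a background -/
def Cof (w : BW ℤ) : Cov (Fld ℤ) := covS (Sof w) (Sof_skew w)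

theorem Cof_single (w : BW ℤ) (h h' : HE ℤ) :
    (Cof w).b (Finsupp.single h 1) (Finsupp.single h' 1) = Sof w h h' :=
  Latx683.formS_single _ h h'

/-- **from `KerD` to the abstract `KerLim` of `UDomB_420`** -/
theorem kerLim_of {fr : Bool} {D : Set ℂ} (hD : IsOpen D) {n m : ℕ} {x : Fin n → ℂ}
    {bl : ℂ → ℂ → LinearMap.BilinForm ℝ ℂ} {rg : ℂ → LinearMap.BilinForm ℝ ℂ}
    (K : KerD fr D x bl rg)
    (hex : ∀ᶠ a in 𝓝[>] (0 : ℝ), ∃ S, IsCov (wD fr D a (fun i => meshIndex a (x i))) S)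
    (y : Fin m → ℂ) (j : Fin m → Fin 2) (hy : ∀ k, y k ∈ D) (hxy : ∀ i k, x i ≠ y k)
    (hinj : Function.Injective y) :
    KerLim (fun _ => Fld ℤ) (fun a => Cof (wD fr D a (fun i => meshIndex a (x i)))) j
      (fun a k i => Finsupp.single (hb (meshIndex a (y k)) (j k) i) 1)
      (fun a k => wD fr D a (fun i => meshIndex a (x i)) (meshIndex a (y k)) (j k))
      (asmCov y bl rg (fun k l h => K.skew _ _ (hy k) (hy l) (fun e => h (hinj e)))
        (fun k => K.alt _ (hy k))) := by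
  set X : ℝ → Fin n → ℤ × ℤ := fun a i => meshIndex a (x i) with hX
  have hS : ∀ᶠ a in 𝓝[>] (0 : ℝ), IsCov (wD fr D a (X a)) (Sof (wD fr D a (X a))) :=
    hex.mono fun a h => Sof_spec h
  refine ⟨fun a k i => kap x (X a) (y k) (hb (meshIndex a (y k)) (j k) i).1, ?_, ?_⟩
  · have h1 : ∀ k, ∀ᶠ a in 𝓝[>] (0 : ℝ), meshIndex a (y k) + 0 ∈ domainSites D a :=
      fun k => eventually_mem hD (hy k) 0
    have h2 : ∀ k, ∀ᶠ a in 𝓝[>] (0 : ℝ),
        meshIndex a (y k) + unitVec (j k) ∈ domainSites D a :=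
      fun k => eventually_mem hD (hy k) _
    have h3 : ∀ k, ∀ᶠ a in 𝓝[>] (0 : ℝ), _ :=
      fun k => eventually_ray x (y k) (fun i => hxy i k) (j k)
    filter_upwards [eventually_all.2 h1, eventually_all.2 h2, eventually_all.2 h3] with a h1 h2 h3 k
    have e1 : wD fr D a (X a) (meshIndex a (y k)) (j k) =
        ray (X a) (meshIndex a (y k)) (j k) * UDomBx420.xc := by
      unfold wD wX
      rw [wDom_inside fr (by simpa using h1 k) (h2 k)]
    show wD fr D a (X a) (meshIndex a (y k)) (j k) = _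
    rw [e1, h3 k]
  · rintro ⟨k, i⟩ ⟨l, i'⟩
    have e : M0 (asmCov y bl rg (fun k l h => K.skew _ _ (hy k) (hy l) (fun e => h (hinj e)))
        (fun k => K.alt _ (hy k))) j (k, i) (l, i') =
        (if k = l then rg (y k) else bl (y k) (y l)) (ed (j k) i) (ed (j l) i') :=
      asm_single y bl rg k l _ _
    rw [e]
    by_cases hkl : k = l
    · subst hkl
      rw [if_pos rfl]
      refine (K.diag _ hS (y k) (hy k) (fun i => hxy i k) (j k) i i').congr fun a => ?_
      congr 1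
      rw [Cof_single]
      congr 1
      unfold cBlock cB
      simp
    · rw [if_neg hkl]
      have hne : y k ≠ y l := fun h => hkl (hinj h)
      have hf : ∀ (q : Fin m) (i : Fin 2), ∃ c : ℤ × ℤ, ∀ a : ℝ,
          (hb (meshIndex a (y q)) (j q) i).1 = meshIndex a (y q) + c := by
        intro q i
        generalize j q = jq
        fin_cases jq <;> fin_cases i
        · exact ⟨0, fun a => by simp [hb]⟩
        · exact ⟨(0, -1), fun a => by ext <;> simp [hb, hq, sub_eq_add_neg]⟩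
        · exact ⟨(-1, 0), fun a => by ext <;> simp [hb, hp, sub_eq_add_neg]⟩
        · exact ⟨0, fun a => by simp [hb, hq]⟩
      obtain ⟨c, hc⟩ := hf k i
      obtain ⟨c', hc'⟩ := hf l i'
      have t1 : Tendsto (fun a => fpt a ((hb (meshIndex a (y k)) (j k) i).1)) (𝓝[>] 0)
          (𝓝 (y k)) := (tendsto_mesh (y k) c).congr fun a => by rw [hc a]; rfl
      have t2 : Tendsto (fun a => fpt a ((hb (meshIndex a (y l)) (j l) i').1)) (𝓝[>] 0)
          (𝓝 (y l)) := (tendsto_mesh (y l) c').congr fun a => by rw [hc' a]; rfl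
      have hlim := K.off _ hS (y k) (y l) (hy k) (hy l) hne (fun i => hxy i k) (fun i => hxy i l)
        (hb 0 (j k) i).2 (hb 0 (j l) i').2 _ _ t1 t2
      rw [edir_hb, edir_hb] at hlim
      refine hlim.congr fun a => ?_
      congr 1
      rw [Cof_single]
      have hd : ∀ (v : ℤ × ℤ) (jj ii : Fin 2), (hb v jj ii) = ((hb v jj ii).1, (hb 0 jj ii).2) := by
        intro v jj ii
        fin_cases jj <;> fin_cases ii <;> rfl
      have e3 : cBlock (k, i) (l, i') = 0 := by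
        unfold cBlock
        rw [if_neg hkl]
      rw [e3, sub_zero, ← hd, ← hd]

end Crest.Agent.R165.UKerx420
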