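import Crest.Agent.R165.USpin_641
import Crest.Agent.R165.U3Spin_719
import Crest.Agent.R165.Kw5_871

/-!
# Row 165 (S0250), blocks B2/B3: INTERFACE of the lattice limits (helper641)

Families `a ↓ 0` of plus backgrounds (`BgFam D w`, without insertions) approximating a domain `D`,
lattice spins `X a → x`, covariances `S a` of `wX (w a) (X a)`.

* `bgFam_of_latApp`, `bgFam_dom` : instances
* `KerF` : kernel limits (form of helper420's `KerD`, arbitrary family)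
* `cS`, `cSS` : pairing with the corner field `S + E + N + W` at the face `X_i`
  (= SW corner, at the insertion `X_i`)
* `gsrc`, `IsBrN` : normalised continuum spinor with source at `x_i`
* `BrF` : limits of `a^{-1/2} S(., l_i)` and of `S(l_j, l_i)`
* `MacLeaf`, `BrLeaf`, `LdLeaf` : statements to be proved
-/

set_option autoImplicit false

noncomputable section

open Filter Topology Set
open Crest.ProbabilityR.IsingModel

namespace Crest.Agent.R165.UB3x641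

open Crest.Agent.R165.Latx683 (BW HE hp hq wDom wPl ray wX IsCov)
open Crest.Agent.R165.Latx683
open Crest.Agent.R165.UKerx420 (edir hb kap fpt cB wD KerD)
open Crest.Agent.R165.UDomBx420 (ed)
open Crest.Agent.R165.U5Px422 (GB TT LApp)
open Crest.Agent.R165.ConfTopx641 Crest.Agent.R165.USpinx641
open Crest.Agent.R165.U3x719

/-! ### families of backgrounds -/

/-- families of plus backgrounds (without insertions) approximating the domain `D` -/
structure BgFam (D : Set ℂ) (w : ℝ → BW ℤ) : Prop where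
  val : ∀ᶠ a in 𝓝[>] (0 : ℝ), ∀ z j, w a z j = 0 ∨ w a z j = Latx683.xc
  inn : ∀ K : Set ℂ, IsCompact K → K ⊆ D →
    ∀ᶠ a in 𝓝[>] (0 : ℝ), ∀ z j, meshPoint a z ∈ K → w a z j = Latx683.xc
  out : ∀ K : Set ℂ, IsClosed K → Disjoint K (closure D) →
    ∀ᶠ a in 𝓝[>] (0 : ℝ), ∀ z j, meshPoint a z ∈ K → w a z j = 0

theorem mesh_unit_dist {a : ℝ} (ha : 0 < a) (z : ℤ × ℤ) (j : Fin 2) :
    dist (meshPoint a (z + unitVec j)) (meshPoint a z) ≤ a := by
  rw [dist_eq_norm]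
  refine (Complex.norm_le_abs_re_add_abs_im _).trans ?_
  fin_cases j
  · simp only [meshPoint, unitVec, Fin.zero_eta, Fin.isValue, if_true, Prod.fst_add,
      Prod.snd_add, Complex.sub_re, Complex.sub_im]
    push_cast
    have e1 : a * ((z.1 : ℝ) + 1) - a * (z.1 : ℝ) = a := by ring
    rw [e1, abs_of_pos ha]
    simp
  · simp only [meshPoint, unitVec, Fin.mk_one, Fin.isValue, one_ne_zero, if_false, Prod.fst_add,
      Prod.snd_add, Complex.sub_re, Complex.sub_im]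
    push_cast
    have e1 : a * ((z.2 : ℝ) + 1) - a * (z.2 : ℝ) = a := by ring
    rw [e1, abs_of_pos ha]
    simp

/-- plus backgrounds of approximating site sets -/
theorem bgFam_of_latApp {D : Set ℂ} {T : ℝ → Finset (ℤ × ℤ)} (h : LatApp D T)
    (hb : Bornology.IsBounded D) : BgFam D fun a => wDom (T a : Set (ℤ × ℤ)) false where
  val := Eventually.of_forall fun a z j => by
    unfold wDom
    simp only [Bool.false_eq_true, if_false]
    split_ifs
    · exact Or.inr rfl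
    · exact Or.inl rfl
  inn K hK hKD := by
    filter_upwards [h.inn K hK hKD] with a ha z j hz
    unfold wDom
    simp only [Bool.false_eq_true, if_false]
    rw [if_pos (Or.inl (by simpa using ha z hz))]
  out K hK hKD := by
    have hc : IsCompact (closure D) := Metric.isCompact_of_isClosed_isBounded isClosed_closure
      hb.closure
    obtain ⟨δ, hδ, hdisj⟩ := (hKD.symm.exists_cthickenings hc hK)
    have h1 := h.out (Metric.cthickening δ K) Metric.isClosed_cthickening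
      (hdisj.symm.mono_right (Metric.self_subset_cthickening _))
    have h2 : ∀ᶠ a in 𝓝[>] (0 : ℝ), a ≤ δ :=
      mem_nhdsWithin_of_mem_nhds (Iic_mem_nhds hδ)
    filter_upwards [h1, h2, self_mem_nhdsWithin] with a ha had ha0 z j hz
    have hn1 : z ∉ T a := ha z (Metric.self_subset_cthickening _ hz)
    have hn2 : z + unitVec j ∉ T a := ha _ (Metric.mem_cthickening_of_dist_le _ _ _ _ hz
      ((mesh_unit_dist ha0 z j).trans had))
    unfold wDom
    simp only [Bool.false_eq_true, if_false]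
    rw [if_neg]
    rintro (h | h)
    · exact hn1 (by simpa using h)
    · exact hn2 (by simpa using h)

/-- the domain itself -/
theorem bgFam_dom {D : Set ℂ} (hD : IsC2JordanDomain D) :
    BgFam D fun a => wDom (domainSites D a) false := by
  have h := bgFam_of_latApp (latApp_TT hD) (Redx541.bounded_of_C2 hD)
  have key : ∀ᶠ a in 𝓝[>] (0 : ℝ), ((TT D a : Finset (ℤ × ℤ)) : Set (ℤ × ℤ)) = domainSites D a := by
    filter_upwards [self_mem_nhdsWithin] with a ha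
    have h1 := Redx541.domainSites_finite (Redx541.bounded_of_C2 hD) ha
    unfold TT
    rw [dif_pos h1, Set.Finite.coe_toFinset]
  refine ⟨?_, fun K hK hKD => ?_, fun K hK hKD => ?_⟩
  · filter_upwards [h.val, key] with a h1 h2
    rwa [h2] at h1
  · filter_upwards [h.inn K hK hKD, key] with a h1 h2
    rwa [h2] at h1
  · filter_upwards [h.out K hK hKD, key] with a h1 h2
    rwa [h2] at h1

/-! ### kernel limits along a family -/

/-- the kernel limits along the family `w` (as `UKerx420.KerD`) -/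
structure KerF (D : Set ℂ) {n : ℕ} (x : Fin n → ℂ) (w : ℝ → BW ℤ) (X : ℝ → Fin n → ℤ × ℤ)
    (bl : ℂ → ℂ → LinearMap.BilinForm ℝ ℂ) (rg : ℂ → LinearMap.BilinForm ℝ ℂ) : Prop where
  off : ∀ S : ℝ → HE ℤ → HE ℤ → ℝ, (∀ᶠ a in 𝓝[>] (0 : ℝ), IsCov (wX (w a) (X a)) (S a)) →
    ∀ z z' : ℂ, z ∈ D → z' ∈ D → z ≠ z' → (∀ i, x i ≠ z) → (∀ i, x i ≠ z') →
    ∀ (i i' : Fin 4) (f f' : ℝ → ℤ × ℤ), Tendsto (fun a => fpt a (f a)) (𝓝[>] 0) (𝓝 z) →
      Tendsto (fun a => fpt a (f' a)) (𝓝[>] 0) (𝓝 z') →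
      Tendsto (fun a => a⁻¹ * (kap x (X a) z (f a) * kap x (X a) z' (f' a) *
        S a (f a, i) (f' a, i'))) (𝓝[>] 0) (𝓝 (bl z z' (edir i) (edir i')))
  diag : ∀ S : ℝ → HE ℤ → HE ℤ → ℝ, (∀ᶠ a in 𝓝[>] (0 : ℝ), IsCov (wX (w a) (X a)) (S a)) →
    ∀ z : ℂ, z ∈ D → (∀ i, x i ≠ z) → ∀ v : ℝ → ℤ × ℤ,
      Tendsto (fun a => fpt a (v a)) (𝓝[>] 0) (𝓝 z) → ∀ j i i' : Fin 2,
      Tendsto (fun a => a⁻¹ * (kap x (X a) z (hb (v a) j i).1 * kap x (X a) z (hb (v a) j i').1 *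
          S a (hb (v a) j i) (hb (v a) j i') - cB i i')) (𝓝[>] 0)
        (𝓝 (rg z (ed j i) (ed j i')))

/-- `KerF` for the domain family is `KerD` -/
theorem KerF.kerD {D : Set ℂ} {n : ℕ} {x : Fin n → ℂ}
    {bl : ℂ → ℂ → LinearMap.BilinForm ℝ ℂ} {rg : ℂ → LinearMap.BilinForm ℝ ℂ}
    (h : KerF D x (fun a => wDom (domainSites D a) false) (fun a i => meshIndex a (x i)) bl rg)
    (skew : ∀ z z', z ∈ D → z' ∈ D → z ≠ z' → ∀ c c', bl z z' c c' = -bl z' z c' c)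
    (alt : ∀ z, z ∈ D → ∀ c, rg z c c = 0) : KerD false D x bl rg where
  off S hS := h.off S hS
  diag S hS z hz hx j i i' := h.diag S hS z hz hx (fun a => meshIndex a z)
    (by
      have h1 := UKerx420.tendsto_mesh z 0
      simp only [add_zero] at h1
      exact h1) j i i'
  skew := skew
  alt := alt

/-! ### sources at the insertions -/

/-- pairing of a column with the corner field `S + E + N + W` of the face `v` -/
def cS (S : HE ℤ → HE ℤ → ℝ) (h : HE ℤ) (v : ℤ × ℤ) : ℝ := ∑ j : Fin 4, S h (v, j)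

/-- pairing of two corner fields -/
def cSS (S : HE ℤ → HE ℤ → ℝ) (v v' : ℤ × ℤ) : ℝ := ∑ i : Fin 4, ∑ j : Fin 4, S (v, i) (v', j)

/-- `e^{iπ/4} ∏_{j ≠ i} (x_j - x_i)^{1/2}`, seen from above the rays -/
def gsrc {n : ℕ} (x : Fin n → ℂ) (i : Fin n) : ℂ := by
  classical exact
  e8 * ∏ j ∈ Finset.univ.erase i,
    ((if (x j).im = (x i).im ∧ (x j).re < (x i).re then (-1 : ℂ) else 1) *
      (x j - x i) ^ (1 / 2 : ℂ))

/-- the spinor with source at `x_i`, with its sign -/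
structure IsBrN (D : Set ℂ) {n : ℕ} (x : Fin n → ℂ) (i : Fin n) (g : ℂ → ℂ) : Prop where
  br : IsBr D x i g
  nrm : g (x i) = gsrc x i

theorem e8_sq : e8 ^ 2 = Complex.I := by
  unfold e8
  rw [← Complex.exp_nat_mul]
  have : ((2 : ℕ) : ℂ) * (Real.pi / 4 * Complex.I) = Real.pi / 2 * Complex.I := by push_cast; ring
  rw [this, Complex.exp_pi_div_two_mul_I]

theorem gsrc_sq {n : ℕ} (x : Fin n → ℂ) (i : Fin n) : gsrc x i ^ 2 = Complex.I * U3x719.wX x i := by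
  classical
  unfold gsrc U3x719.wX
  rw [mul_pow, e8_sq, ← Finset.prod_pow]
  congr 1
  refine Finset.prod_congr rfl fun j _ => ?_
  rw [mul_pow]
  have h1 : ((x j - x i) ^ (1 / 2 : ℂ)) ^ 2 = x j - x i := by
    rw [← Complex.cpow_nat_mul]
    norm_num
  rw [h1]
  split_ifs <;> norm_num

/-- local sign at the insertion `X_i` -/
def kapX {n : ℕ} (x : Fin n → ℂ) (X : Fin n → ℤ × ℤ) (i : Fin n) : ℝ := kap x X (x i) (X i)

/-- limits of the columns with source at the insertions, `g i` = spinor with source at `x_i`,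
`c1`, `c2` universal constants -/
structure BrF (c1 c2 : ℝ) (D : Set ℂ) {n : ℕ} (x : Fin n → ℂ) (w : ℝ → BW ℤ)
    (X : ℝ → Fin n → ℤ × ℤ) (g : Fin n → ℂ → ℂ) : Prop where
  /-- `a^{-1/2} S(h, l_i)` -/
  eta : ∀ S : ℝ → HE ℤ → HE ℤ → ℝ, (∀ᶠ a in 𝓝[>] (0 : ℝ), IsCov (wX (w a) (X a)) (S a)) →
    ∀ z : ℂ, z ∈ D → (∀ i, x i ≠ z) → ∀ (i : Fin n) (d : Fin 4) (f : ℝ → ℤ × ℤ),
      Tendsto (fun a => fpt a (f a)) (𝓝[>] 0) (𝓝 z) →
      Tendsto (fun a => a ^ (-(1 : ℝ) / 2) * (kap x (X a) z (f a) * kapX x (X a) i *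
        cS (S a) (f a, d) (X a i))) (𝓝[>] 0) (𝓝 (c1 * (edir d * e8 * (g i z / rXa x z)).re))
  /-- `S(l_j, l_i)` -/
  cor : ∀ S : ℝ → HE ℤ → HE ℤ → ℝ, (∀ᶠ a in 𝓝[>] (0 : ℝ), IsCov (wX (w a) (X a)) (S a)) →
    ∀ i j : Fin n, i ≠ j →
      Tendsto (fun a => kapX x (X a) j * kapX x (X a) i * cSS (S a) (X a j) (X a i)) (𝓝[>] 0)
        (𝓝 (c2 * (g i (x j) / (Complex.I * gsrc x j)).re))

/-! ### leaves -/

/-- **MAC**, plus families (622, 610) : kernel limits, with the continuum kernels of 719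
(`g y c z`: residue `src x y c` at `y`) -/
def MacLeaf : Prop :=
  ∀ D : Set ℂ, IsC2JordanDomain D → ∀ (n : ℕ) (x : Fin n → ℂ), x ∈ Conf n D →
    ∃ (bl : ℂ → ℂ → LinearMap.BilinForm ℝ ℂ) (rg : ℂ → LinearMap.BilinForm ℝ ℂ)
      (g : ℂ → ℂ → ℂ → ℂ),
      (∀ y ∈ D, (∀ i, x i ≠ y) → ∀ c, IsKer D x y (src x y c) (g y c)) ∧
      (∀ z ∈ D, ∀ y ∈ D, z ≠ y → (∀ i, x i ≠ z) → (∀ i, x i ≠ y) → ∀ c c',
        bl z y c c' = kerB x g z y c c' / (2 * Real.pi * Latx683.xc)) ∧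
      (∀ y ∈ D, (∀ i, x i ≠ y) → ∀ c c', rg y c c' = kerR x g y c c' / (2 * Real.pi * Latx683.xc)) ∧
      (∀ z z', z ∈ D → z' ∈ D → z ≠ z' → ∀ c c', bl z z' c c' = -bl z' z c' c) ∧
      (∀ z, z ∈ D → ∀ c, rg z c c = 0) ∧
      ∀ (w : ℝ → BW ℤ) (X : ℝ → Fin n → ℤ × ℤ), BgFam D w → LApp X x → KerF D x w X bl rg

/-- **branch limits**, plus families (644, 813) -/
def BrLeaf : Prop :=
  ∃ c1 c2 : ℝ, c1 ≠ 0 ∧ c2 ^ 2 = 1 ∧ ∀ D : Set ℂ, IsC2JordanDomain D → ∀ (n : ℕ) (x : Fin n → ℂ),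
    x ∈ Conf n D → ∃ g : Fin n → ℂ → ℂ, (∀ i, IsBrN D x i (g i)) ∧
      ∀ (w : ℝ → BW ℤ) (X : ℝ → Fin n → ℤ × ℤ), BgFam D w → LApp X x → BrF c1 c2 D x w X g

/-- the logarithmic derivative -/
def AAf (n : ℕ) (D : Set ℂ) (i : Fin n) (x : Fin n → ℂ) : ℂ := by
  classical exact if h : ∃ g, IsBr D x i g then Ai x i h.choose else 0

/-- **logarithmic derivatives** (813, 644, 470) -/
def LdLeaf : Prop :=
  ∀ (D : Set ℂ), IsC2JordanDomain D → ∀ T : ℝ → Finset (ℤ × ℤ), LatApp D T →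
    (∀ᶠ a in 𝓝[>] (0 : ℝ), J1cx606.NoHole (T a)) → LDF AAf D T

/-- covariance of `Ai` (719) -/
def AiCov : Prop :=
  ∀ D D' : Set ℂ, IsC2JordanDomain D → IsC2JordanDomain D' → ∀ φ : ℂ → ℂ,
    DifferentiableOn ℂ φ D → Set.BijOn φ D D' → ∀ (n : ℕ) (x : Fin n → ℂ), x ∈ Conf n D →
    ∀ (i : Fin n) (g g' : ℂ → ℂ), IsBr D x i g → IsBr D' (fun k => φ (x k)) i g' →
      Ai x i g = deriv φ (x i) * Ai (fun k => φ (x k)) i g' +
        ((1 / 8 : ℝ) : ℂ) * (deriv (deriv φ) (x i) / deriv φ (x i))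

theorem covA_of (hA : AiCov) (hB : BrLeaf) : CovA AAf := by
  classical
  intro n D D' hD hD' φ hφ hbij x hx i
  obtain ⟨c1, c2, -, -, h⟩ := hB
  obtain ⟨g, hg, -⟩ := h D hD n x hx
  have hx' : (fun k => φ (x k)) ∈ Conf n D' :=
    ⟨fun i => hbij.mapsTo (hx.1 i), fun i j hij => hx.2 (hbij.injOn (hx.1 i) (hx.1 j) hij)⟩
  obtain ⟨g', hg', -⟩ := h D' hD' n _ hx'
  have e1 : ∃ g, IsBr D x i g := ⟨_, (hg i).br⟩
  have e2 : ∃ g, IsBr D' (fun k => φ (x k)) i g := ⟨_, (hg' i).br⟩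
  unfold AAf
  rw [dif_pos e1, dif_pos e2]
  exact hA D D' hD hD' φ hφ hbij n x hx i _ _ e1.choose_spec e2.choose_spec


end Crest.Agent.R165.UB3x641
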