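import Mathlib
import Crest.Agent.R165.UB3_641
import Crest.Agent.R165.Gr3_813
import Crest.Agent.R165.Br8_644

-- ▼ part R165/ResInt_439
section

/-!
# Row 165 (S0250), block U: continuum evaluation of `∫ (∂χ) H` (helper439)

* `db χ z = χ_x(z) + i χ_y(z)`
* `integral_db_mul` : `∫ db φ * H = 0` when `φ` is `C¹` with compact support in an open set on which
  `H` is holomorphic
* `integral_radial` : polar coordinates
* `integral_db_circle` : `∫ db χ * H = i c` when `χ` is a `C¹` cut-off (`= 1` near `x`, compactly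
  supported in the ball) and `c` is the integral of `H` over the small circles
* `integral_db_pole` (simple pole), `integral_db_pole2` (double pole): value `-2π · residue`
-/

set_option autoImplicit false

noncomputable section

open MeasureTheory Set Filter Topology Metric Complex

namespace Crest.Agent.R165.ResIntx439

/-- `χ_x + i χ_y` -/
def db (χ : ℂ → ℂ) (z : ℂ) : ℂ := fderiv ℝ χ z 1 + I * fderiv ℝ χ z I


theorem db_sub {χ φ : ℂ → ℂ} {z : ℂ} (h : DifferentiableAt ℝ χ z) (h' : DifferentiableAt ℝ φ z) :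
    db (fun z => χ z - φ z) z = db χ z - db φ z := by
  unfold db
  rw [show (fun z => χ z - φ z) = χ - φ from rfl, fderiv_sub h h']
  simp only [_root_.sub_apply]
  ring

theorem db_congr {χ φ : ℂ → ℂ} {z : ℂ} (h : χ =ᶠ[𝓝 z] φ) : db χ z = db φ z := by
  unfold db; rw [h.fderiv_eq]

theorem db_const (c : ℂ) (z : ℂ) : db (fun _ => c) z = 0 := by simp [db]

theorem db_eq_zero_of_tsupport {χ : ℂ → ℂ} {z : ℂ} (h : z ∉ tsupport χ) : db χ z = 0 := by
  have h1 : χ =ᶠ[𝓝 z] fun _ => 0 := notMem_tsupport_iff_eventuallyEq.1 h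
  rw [db_congr h1, db_const]

theorem continuous_db {χ : ℂ → ℂ} (h : ContDiff ℝ 1 χ) : Continuous (db χ) := by
  have h1 : Continuous (fderiv ℝ χ) := h.continuous_fderiv one_ne_zero
  unfold db
  exact (h1.clm_apply continuous_const).add
    (continuous_const.mul (h1.clm_apply continuous_const))

/-- a product with a factor which is only nice on the support of the other -/
theorem continuous_mul_of {φ F : ℂ → ℂ} (hφ : Continuous φ)
    (hF : ∀ z ∈ tsupport φ, ContinuousAt F z) : Continuous fun z => φ z * F z := by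
  rw [continuous_iff_continuousAt]
  intro z
  by_cases hz : z ∈ tsupport φ
  · exact hφ.continuousAt.mul (hF z hz)
  · have h1 : φ =ᶠ[𝓝 z] fun _ => 0 := notMem_tsupport_iff_eventuallyEq.1 hz
    have h2 : (fun z => φ z * F z) =ᶠ[𝓝 z] fun _ => 0 := by
      filter_upwards [h1] with w hw
      rw [hw, zero_mul]
    exact (continuousAt_const (y := (0 : ℂ))).congr h2.symm

theorem hcs_mul {φ F : ℂ → ℂ} (hc : HasCompactSupport φ) : HasCompactSupport fun z => φ z * F z :=
  hc.mul_right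

theorem integrable_mul_of {φ F : ℂ → ℂ} (hφ : Continuous φ) (hc : HasCompactSupport φ)
    (hF : ∀ z ∈ tsupport φ, ContinuousAt F z) : Integrable fun z => φ z * F z :=
  (continuous_mul_of hφ hF).integrable_of_hasCompactSupport (hcs_mul hc)

/-- the cutoff derivative is supported in the support of the cutoff -/
theorem tsupport_fderiv_apply (φ : ℂ → ℂ) (v : ℂ) :
    tsupport (fun z => fderiv ℝ φ z v) ⊆ tsupport φ := by
  refine closure_minimal ?_ (isClosed_tsupport φ)
  intro z hz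
  by_contra h
  have h1 : φ =ᶠ[𝓝 z] fun _ => 0 := notMem_tsupport_iff_eventuallyEq.1 h
  apply hz
  show fderiv ℝ φ z v = 0
  rw [h1.fderiv_eq]
  simp

theorem fderiv_real_of_complex {H : ℂ → ℂ} {z : ℂ} (h : DifferentiableAt ℂ H z) (v : ℂ) :
    fderiv ℝ H z v = v * deriv H z := by
  rw [h.fderiv_restrictScalars ℝ, ContinuousLinearMap.coe_restrictScalars', ← smul_eq_mul,
    ← fderiv_apply_one_eq_deriv, ← map_smul, smul_eq_mul, mul_one]

/-- **no residue**: compactly supported test functions -/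
theorem integral_db_mul {Ω : Set ℂ} (hΩ : IsOpen Ω) {φ H : ℂ → ℂ} (hφ : ContDiff ℝ 1 φ)
    (hc : HasCompactSupport φ) (hs : tsupport φ ⊆ Ω) (hH : DifferentiableOn ℂ H Ω) :
    ∫ z, db φ z * H z = 0 := by
  have hcont : ∀ z ∈ Ω, ContinuousAt H z := fun z hz =>
    (hH.differentiableAt (hΩ.mem_nhds hz)).continuousAt
  have hfd : ∀ v : ℂ, ∀ z ∈ Ω, ContinuousAt (fun z => fderiv ℝ H z v) z := by
    intro v z hz
    have h1 : ContinuousAt (fun w => v * deriv H w) z :=
      continuousAt_const.mul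
        ((hH.deriv hΩ).differentiableAt (hΩ.mem_nhds hz)).continuousAt
    refine h1.congr ?_
    filter_upwards [hΩ.mem_nhds hz] with w hw
    exact (fderiv_real_of_complex (hH.differentiableAt (hΩ.mem_nhds hw)) v).symm
  have hφc : ∀ v : ℂ, Continuous fun z => fderiv ℝ φ z v := fun v =>
    (hφ.continuous_fderiv one_ne_zero).clm_apply continuous_const
  have hφs : ∀ v : ℂ, HasCompactSupport fun z => fderiv ℝ φ z v := fun v =>
    HasCompactSupport.intro' hc.isCompact (isClosed_tsupport φ) fun z hz =>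
      image_eq_zero_of_notMem_tsupport (f := fun z => fderiv ℝ φ z v)
        fun h => hz (tsupport_fderiv_apply φ v h)
  have hint : ∀ v : ℂ, Integrable fun z => fderiv ℝ φ z v * H z := fun v =>
    integrable_mul_of (hφc v) (hφs v) fun z hz => hcont z (hs (tsupport_fderiv_apply φ v hz))
  have key : ∀ v : ℂ, ∫ z, fderiv ℝ φ z v * H z = -∫ z, φ z * (v * deriv H z) := by
    intro v
    have h1 := integral_mul_fderiv_eq_neg_fderiv_mul_of_integrable (μ := (volume : Measure ℂ))
      (𝕜 := ℂ) (f := φ) (g := H) (v := v) (hint v)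
      (integrable_mul_of hφ.continuous hc fun z hz => hfd v z (hs hz))
      (integrable_mul_of hφ.continuous hc fun z hz => hcont z (hs hz))
      (fun z _ => (hφ.differentiable one_ne_zero) z)
      (fun z hz => (hH.differentiableAt (hΩ.mem_nhds (hs hz))).restrictScalars ℝ)
    rw [← neg_eq_iff_eq_neg, ← h1]
    refine integral_congr_ae (ae_of_all _ fun z => ?_)
    show φ z * fderiv ℝ H z v = φ z * (v * deriv H z)
    by_cases hz : z ∈ tsupport φ
    · rw [fderiv_real_of_complex (hH.differentiableAt (hΩ.mem_nhds (hs hz)))]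
    · rw [image_eq_zero_of_notMem_tsupport hz, zero_mul, zero_mul]
  have e1 : (fun z => db φ z * H z) =
      fun z => fderiv ℝ φ z 1 * H z + I * (fderiv ℝ φ z I * H z) := by
    funext z; unfold db; ring
  rw [e1, integral_add (hint 1) ((hint I).const_mul I), integral_const_mul, key 1, key I,
    ← integral_neg, ← integral_neg, ← integral_const_mul, ← integral_add]
  · rw [← integral_zero ℂ ℂ (μ := volume)]
    refine integral_congr_ae (ae_of_all _ fun z => ?_)
    show -(φ z * (1 * deriv H z)) + I * -(φ z * (I * deriv H z)) = 0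
    have := I_mul_I
    linear_combination (-φ z * deriv H z) * this
  · refine (integrable_mul_of hφ.continuous hc fun z hz => ?_).neg
    exact continuousAt_const.mul
        ((hH.deriv hΩ).differentiableAt (hΩ.mem_nhds (hs hz))).continuousAt
  · refine (integrable_mul_of hφ.continuous hc fun z hz => ?_).neg.const_mul I
    exact continuousAt_const.mul
        ((hH.deriv hΩ).differentiableAt (hΩ.mem_nhds (hs hz))).continuousAt

/-! ### polar coordinates -/

/-- the angular integral -/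
theorem angular (x : ℂ) (t : ℝ) (H : ℂ → ℂ) :
    ∫ φ in Ioo (-Real.pi) Real.pi, (circleMap 0 t φ) * H (circleMap x t φ) =
      -I * ∮ z in C(x, t), H z := by
  have hper : Function.Periodic (fun φ : ℝ => circleMap 0 t φ * H (circleMap x t φ))
      (2 * Real.pi) := fun φ => by
    show circleMap 0 t (φ + 2 * Real.pi) * H (circleMap x t (φ + 2 * Real.pi)) = _
    rw [periodic_circleMap, periodic_circleMap]
  rw [← integral_Ioc_eq_integral_Ioo, ← intervalIntegral.integral_of_le (by linarith [Real.pi_pos])]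
  have h1 := hper.intervalIntegral_add_eq (-Real.pi) 0
  rw [show -Real.pi + 2 * Real.pi = Real.pi by ring, zero_add] at h1
  rw [h1, circleIntegral, ← intervalIntegral.integral_const_mul]
  refine intervalIntegral.integral_congr fun φ _ => ?_
  show circleMap 0 t φ * H (circleMap x t φ) =
    -I * (deriv (circleMap x t) φ • H (circleMap x t φ))
  rw [deriv_circleMap, smul_eq_mul]
  have := I_mul_I
  linear_combination (circleMap 0 t φ * H (circleMap x t φ)) * this

/-- **radial test functions** -/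
theorem integral_radial {x : ℂ} {r δ ρ : ℝ} (hδ : 0 < δ) (hρ : ρ < r) {H : ℂ → ℂ} {g : ℝ → ℝ}
    (hg : Continuous g) (hg0 : ∀ t, 0 ≤ t → t ≤ δ → g t = 0) (hg1 : ∀ t, ρ ≤ t → g t = 0)
    (hH : ContinuousOn H (ball x r \ {x})) {c : ℂ}
    (hc : ∀ t, 0 < t → t < r → ∮ z in C(x, t), H z = c) :
    ∫ z, (g ‖z - x‖ : ℂ) * (z - x) * H z = (-I * c) * ∫ t in Ioi (0 : ℝ), ((t * g t : ℝ) : ℂ) := by
  -- the integrand is continuous with compact support
  set F : ℂ → ℂ := fun z => (g ‖z‖ : ℂ) * z * H (x + z) with hF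
  have hr0 : ∀ z : ℂ, z ≠ 0 → ‖z‖ < r → ContinuousAt (fun z => H (x + z)) z := by
    intro z hz hzr
    have h1 : ContinuousAt H (x + z) := by
      refine hH.continuousAt (IsOpen.mem_nhds (isOpen_ball.sdiff isClosed_singleton) ⟨?_, ?_⟩)
      · rw [mem_ball, dist_eq_norm, add_sub_cancel_left]; exact hzr
      · intro h
        rw [mem_singleton_iff] at h
        exact hz (by simpa using h)
    exact ContinuousAt.comp (f := fun z => x + z) h1 (by fun_prop)
  have hFc : Continuous F := by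
    rw [continuous_iff_continuousAt]
    intro z
    by_cases h1 : ‖z‖ < δ
    · have h2 : F =ᶠ[𝓝 z] fun _ => 0 := by
        filter_upwards [(isOpen_lt continuous_norm continuous_const).mem_nhds h1] with w hw
        simp only [hF]
        rw [hg0 _ (norm_nonneg _) (le_of_lt hw)]; simp
      exact (continuousAt_const (y := (0 : ℂ))).congr h2.symm
    · by_cases h3 : ρ < ‖z‖
      · have h2 : F =ᶠ[𝓝 z] fun _ => 0 := by
          filter_upwards [(isOpen_lt continuous_const continuous_norm).mem_nhds h3] with w hw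
          simp only [hF]
          rw [hg1 _ (le_of_lt hw)]; simp
        exact (continuousAt_const (y := (0 : ℂ))).congr h2.symm
      · push Not at h1 h3
        have hz : z ≠ 0 := fun h => by rw [h, norm_zero] at h1; linarith
        have h4 := hr0 z hz (lt_of_le_of_lt h3 hρ)
        exact ContinuousAt.mul (by fun_prop) h4
  have hF0 : ∀ z, ρ ≤ ‖z‖ → F z = 0 := fun z hz => by
    simp only [hF]; rw [hg1 _ hz]; simp
  rw [← integral_add_left_eq_self _ x]
  have e1 : (fun z => (g ‖x + z - x‖ : ℂ) * (x + z - x) * H (x + z)) = F := by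
    funext z
    simp only [hF, add_sub_cancel_left]
  rw [e1, ← Complex.integral_comp_polarCoord_symm]
  have htar : Complex.polarCoord.target = Ioi (0 : ℝ) ×ˢ Ioo (-Real.pi) Real.pi :=
    Complex.polarCoord_target
  rw [show polarCoord.target = Ioi (0 : ℝ) ×ˢ Ioo (-Real.pi) Real.pi from rfl]
  set P : ℝ × ℝ → ℂ := fun p => p.1 • F (Complex.polarCoord.symm p) with hP
  have hPc : Continuous P := by
    have : Continuous fun p : ℝ × ℝ => Complex.polarCoord.symm p := by
      simp only [Complex.polarCoord_symm_apply]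
      fun_prop
    exact continuous_fst.smul (hFc.comp this)
  have hP0 : ∀ p : ℝ × ℝ, ρ ≤ p.1 → 0 < p.1 → P p = 0 := by
    intro p hp hp0
    simp only [hP]
    rw [hF0 _ (by rw [Complex.norm_polarCoord_symm, abs_of_pos hp0]; exact hp), smul_zero]
  have hint : IntegrableOn P (Ioi (0 : ℝ) ×ˢ Ioo (-Real.pi) Real.pi) (volume.prod volume) := by
    have hK : IsCompact (Icc (0 : ℝ) (max ρ 0) ×ˢ Icc (-Real.pi) Real.pi) :=
      isCompact_Icc.prod isCompact_Icc
    have h1 : IntegrableOn P (Icc (0 : ℝ) (max ρ 0) ×ˢ Icc (-Real.pi) Real.pi)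
        (volume.prod volume) := hPc.continuousOn.integrableOn_compact hK
    have h2 : IntegrableOn P ((Ioi (0 : ℝ) ×ˢ Ioo (-Real.pi) Real.pi) \
        (Icc (0 : ℝ) (max ρ 0) ×ˢ Icc (-Real.pi) Real.pi)) (volume.prod volume) := by
      refine (integrableOn_zero (ε' := ℂ)).congr_fun ?_ ?_
      · intro p hp
        obtain ⟨⟨hp1, hp2⟩, hp3⟩ := hp
        rw [mem_Ioi] at hp1
        have : ρ ≤ p.1 := by
          by_contra hcon
          push Not at hcon
          exact hp3 ⟨⟨hp1.le, hcon.le.trans (le_max_left _ _)⟩, Ioo_subset_Icc_self hp2⟩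
        exact (hP0 p this hp1).symm
      · exact (measurableSet_Ioi.prod measurableSet_Ioo).diff
          (measurableSet_Icc.prod measurableSet_Icc)
    exact (h1.union h2).mono_set fun p hp => by
      by_cases hq : p ∈ (Icc (0 : ℝ) (max ρ 0) ×ˢ Icc (-Real.pi) Real.pi)
      · exact Or.inl hq
      · exact Or.inr ⟨hp, hq⟩
  rw [show (volume : Measure (ℝ × ℝ)) = volume.prod volume from rfl,
    setIntegral_prod _ hint, ← integral_const_mul]
  refine setIntegral_congr_fun measurableSet_Ioi fun t ht => ?_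
  rw [mem_Ioi] at ht
  show ∫ φ in Ioo (-Real.pi) Real.pi, P (t, φ) = (-I * c) * ((t * g t : ℝ) : ℂ)
  have e2 : ∀ φ : ℝ, P (t, φ) = ((t * g t : ℝ) : ℂ) * (circleMap 0 t φ * H (circleMap x t φ)) := by
    intro φ
    have e3 : Complex.polarCoord.symm (t, φ) = circleMap 0 t φ := by
      rw [Complex.polarCoord_symm_apply, circleMap_zero, Complex.exp_mul_I]
      simp
    have e4 : circleMap x t φ = x + circleMap 0 t φ := by simp [circleMap]
    simp only [hP, hF, e3, e4]
    rw [norm_circleMap_zero, abs_of_pos ht, Complex.real_smul]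
    push_cast
    ring
  rw [setIntegral_congr_fun measurableSet_Ioo fun φ _ => e2 φ, integral_const_mul, angular x t]
  by_cases htr : t < r
  · rw [hc t ht htr]; ring
  · rw [hg1 t (by linarith)]; simp

/-! ### a radial cut-off -/

/-- smooth cut-off on the line: `1` below `a`, `0` above `b` -/
def cut (a b s : ℝ) : ℝ := 1 - Real.smoothTransition ((s - a) / (b - a))

theorem cut_contDiff (a b : ℝ) : ContDiff ℝ 2 (cut a b) := by
  unfold cut
  exact contDiff_const.sub (Real.smoothTransition.contDiff.comp (by fun_prop))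

theorem cut_one {a b s : ℝ} (hab : a < b) (h : s ≤ a) : cut a b s = 1 := by
  unfold cut
  rw [Real.smoothTransition.zero_of_nonpos (div_nonpos_of_nonpos_of_nonneg (by linarith)
    (by linarith)), sub_zero]

theorem cut_zero {a b s : ℝ} (hab : a < b) (h : b ≤ s) : cut a b s = 0 := by
  unfold cut
  rw [Real.smoothTransition.one_of_one_le ((one_le_div (by linarith)).2 (by linarith)), sub_self]

theorem deriv_cut_zero {a b s : ℝ} (hab : a < b) (h : s < a ∨ b < s) : deriv (cut a b) s = 0 := by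
  rcases h with h | h
  · have : cut a b =ᶠ[𝓝 s] fun _ => 1 := by
      filter_upwards [eventually_lt_nhds h] with t ht using cut_one hab ht.le
    rw [this.deriv_eq, deriv_const]
  · have : cut a b =ᶠ[𝓝 s] fun _ => 0 := by
      filter_upwards [eventually_gt_nhds h] with t ht using cut_zero hab ht.le
    rw [this.deriv_eq, deriv_const]

/-- radial cut-off -/
def rc (x : ℂ) (a b : ℝ) (z : ℂ) : ℂ := ((cut a b (‖z - x‖ ^ 2) : ℝ) : ℂ)

theorem rc_contDiff (x : ℂ) (a b : ℝ) : ContDiff ℝ 1 (rc x a b) := by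
  unfold rc
  have h1 : ContDiff ℝ 1 fun z : ℂ => ‖z - x‖ ^ 2 :=
    (contDiff_id.sub contDiff_const).norm_sq ℝ
  exact ofRealCLM.contDiff.comp (((cut_contDiff a b).of_le (by norm_num)).comp h1)

theorem db_rc (x : ℂ) (a b : ℝ) (z : ℂ) :
    db (rc x a b) z = ((2 * deriv (cut a b) (‖z - x‖ ^ 2) : ℝ) : ℂ) * (z - x) := by
  have h1 : HasFDerivAt (fun z : ℂ => ‖z - x‖ ^ 2) (2 • (innerSL ℝ (z - x))) z := by
    have h := (hasStrictFDerivAt_norm_sq (z - x)).hasFDerivAt.comp z
      ((hasFDerivAt_id z).sub_const x)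
    rw [ContinuousLinearMap.comp_id] at h
    exact h
  have h2 : HasDerivAt (cut a b) (deriv (cut a b) (‖z - x‖ ^ 2)) (‖z - x‖ ^ 2) :=
    (((cut_contDiff a b).differentiable (by norm_num)) _).hasDerivAt
  have h3 := ofRealCLM.hasFDerivAt.comp z (h2.comp_hasFDerivAt z h1)
  have h4 : fderiv ℝ (rc x a b) z = _ := HasFDerivAt.fderiv h3
  unfold db
  rw [h4]
  simp only [ContinuousLinearMap.comp_apply, smul_apply, innerSL_apply_apply, Complex.inner,
    smul_eq_mul, nsmul_eq_mul, ofRealCLM_apply, conj_re, mul_re, conj_im, I_re, I_im]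
  apply Complex.ext <;> simp <;> ring

theorem tsupport_rc {x : ℂ} {a b r : ℝ} (hab : a < b) (hr : 0 < r) (hb : b < r ^ 2) :
    tsupport (rc x a b) ⊆ ball x r := by
  have h1 : Function.support (rc x a b) ⊆ {z | ‖z - x‖ ^ 2 ≤ b} := by
    intro z hz
    by_contra hcon
    simp only [mem_ofPred_eq, not_le] at hcon
    exact hz (by simp [rc, cut_zero hab hcon.le])
  have h2 : IsClosed {z : ℂ | ‖z - x‖ ^ 2 ≤ b} := isClosed_le (by fun_prop) continuous_const
  intro z hz
  have h3 : ‖z - x‖ ^ 2 ≤ b := (closure_minimal h1 h2) hz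
  rw [mem_ball, dist_eq_norm]
  exact lt_of_pow_lt_pow_left₀ 2 hr.le (by linarith)

theorem hcs_of_tsupport_ball {χ : ℂ → ℂ} {x : ℂ} {r : ℝ} (h : tsupport χ ⊆ ball x r) :
    HasCompactSupport χ :=
  HasCompactSupport.of_support_subset_isCompact (isCompact_closedBall x r)
    ((subset_tsupport χ).trans (h.trans ball_subset_closedBall))

theorem rc_one_near {x : ℂ} {a b : ℝ} (ha : 0 < a) (hab : a < b) : rc x a b =ᶠ[𝓝 x] fun _ => 1 := by
  have h : IsOpen {z : ℂ | ‖z - x‖ ^ 2 < a} := isOpen_lt (by fun_prop) continuous_const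
  filter_upwards [h.mem_nhds (by simpa using ha)] with z hz
  simp [rc, cut_one hab (le_of_lt hz)]

/-- the radial integral of the derivative of the cut-off -/
theorem integral_cut {a b : ℝ} (ha : 0 < a) (hab : a < b) :
    ∫ t in Ioi (0 : ℝ), ((t * (2 * deriv (cut a b) (t ^ 2)) : ℝ) : ℂ) = -1 := by
  rw [integral_complex_ofReal]
  have hd : ∀ t : ℝ, HasDerivAt (fun t => cut a b (t ^ 2)) (t * (2 * deriv (cut a b) (t ^ 2))) t := by
    intro t
    have h2 : HasDerivAt (cut a b) (deriv (cut a b) (t ^ 2)) (t ^ 2) :=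
      (((cut_contDiff a b).differentiable (by norm_num)) _).hasDerivAt
    have h3 := HasDerivAt.comp (h₂ := cut a b) (h := fun t : ℝ => t ^ 2) t h2 (hasDerivAt_pow 2 t)
    have e : deriv (cut a b) (t ^ 2) * (((2 : ℕ) : ℝ) * t ^ (2 - 1)) =
      t * (2 * deriv (cut a b) (t ^ 2)) := by norm_num; ring
    rw [e] at h3
    exact h3
  have hcont : Continuous fun t : ℝ => t * (2 * deriv (cut a b) (t ^ 2)) := by
    have : Continuous (deriv (cut a b)) := (cut_contDiff a b).continuous_deriv (by norm_num)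
    fun_prop
  have hlim : Tendsto (fun t : ℝ => cut a b (t ^ 2)) atTop (𝓝 0) := by
    refine tendsto_const_nhds.congr' ?_
    filter_upwards [eventually_ge_atTop (max b 1)] with t ht
    have h1 : 1 ≤ t := (le_max_right _ _).trans ht
    have h2 : b ≤ t := (le_max_left _ _).trans ht
    exact (cut_zero hab (by nlinarith)).symm
  have hint : IntegrableOn (fun t : ℝ => t * (2 * deriv (cut a b) (t ^ 2))) (Ioi 0) := by
    have hs : HasCompactSupport fun t : ℝ => t * (2 * deriv (cut a b) (t ^ 2)) := by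
      refine HasCompactSupport.of_support_subset_isCompact
        (isCompact_Icc (a := -(max b 1)) (b := max b 1)) ?_
      intro t ht
      by_contra hcon
      rw [mem_Icc, ← abs_le, not_le] at hcon
      apply ht
      have h1 : 1 < |t| := lt_of_le_of_lt (le_max_right _ _) hcon
      have h2 : b < |t| := lt_of_le_of_lt (le_max_left _ _) hcon
      show t * (2 * deriv (cut a b) (t ^ 2)) = 0
      rw [deriv_cut_zero hab (Or.inr (by rw [← sq_abs]; nlinarith))]
      ring
    exact (hcont.integrable_of_hasCompactSupport hs).integrableOn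
  have h := integral_Ioi_of_hasDerivAt_of_tendsto (a := 0)
    (hd 0).continuousAt.continuousWithinAt (fun t _ => hd t) hint hlim
  rw [h, show (0 : ℝ) ^ 2 = 0 by norm_num, cut_one hab ha.le]
  norm_num

theorem integral_rc {x : ℂ} {r a b : ℝ} (hr : 0 < r) (ha : 0 < a) (hab : a < b) (hb : b < r ^ 2)
    {H : ℂ → ℂ} (hH : ContinuousOn H (ball x r \ {x})) {c : ℂ}
    (hc : ∀ t, 0 < t → t < r → ∮ z in C(x, t), H z = c) :
    ∫ z, db (rc x a b) z * H z = I * c := by
  -- radii
  obtain ⟨ρ, hρ1, hρ2⟩ : ∃ ρ, √b < ρ ∧ ρ < r := by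
    refine exists_between ?_
    rw [Real.sqrt_lt' hr]; exact hb
  have hρ0 : 0 < ρ := lt_of_le_of_lt (Real.sqrt_nonneg _) hρ1
  obtain ⟨δ, hδ1, hδ2⟩ : ∃ δ, 0 < δ ∧ δ < √a := exists_between (Real.sqrt_pos.2 ha)
  have hcont : Continuous fun t : ℝ => 2 * deriv (cut a b) (t ^ 2) := by
    have : Continuous (deriv (cut a b)) := (cut_contDiff a b).continuous_deriv (by norm_num)
    fun_prop
  have h := integral_radial (x := x) (r := r) (H := H) hδ1 hρ2 hcont (fun t ht0 ht => ?_)
    (fun t ht => ?_) hH hc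
  · rw [integral_cut ha hab] at h
    calc ∫ z, db (rc x a b) z * H z
        = ∫ z, ((2 * deriv (cut a b) (‖z - x‖ ^ 2) : ℝ) : ℂ) * (z - x) * H z := by
          refine integral_congr_ae (ae_of_all _ fun z => ?_)
          show db (rc x a b) z * H z = _
          rw [db_rc]
      _ = (-I * c) * (-1) := h
      _ = I * c := by ring
  · show 2 * deriv (cut a b) (t ^ 2) = 0
    rw [deriv_cut_zero hab (Or.inl ?_), mul_zero]
    rw [← Real.lt_sqrt ht0]
    exact lt_of_le_of_lt ht hδ2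
  · show 2 * deriv (cut a b) (t ^ 2) = 0
    rw [deriv_cut_zero hab (Or.inr ?_), mul_zero]
    have h0 : √b < t := lt_of_lt_of_le hρ1 ht
    exact Real.lt_sq_of_sqrt_lt h0

/-- `db χ` is supported in `tsupport χ`, away from the points near which `χ` is constant -/
theorem tsupport_db {χ : ℂ → ℂ} {x : ℂ} {c : ℂ} (h : χ =ᶠ[𝓝 x] fun _ => c) :
    tsupport (db χ) ⊆ tsupport χ \ {x} := by
  intro z hz
  constructor
  · have : Function.support (db χ) ⊆ tsupport χ := fun w hw => by
      by_contra hcon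
      exact hw (db_eq_zero_of_tsupport hcon)
    exact closure_minimal this (isClosed_tsupport χ) hz
  · rw [mem_singleton_iff]
    rintro rfl
    have h1 : db χ =ᶠ[𝓝 z] fun _ => 0 := by
      filter_upwards [h.eventuallyEq_nhds] with w hw
      rw [db_congr hw, db_const]
    exact (notMem_tsupport_iff_eventuallyEq.2 h1) hz

theorem integrable_db_mul {x : ℂ} {r : ℝ} {H χ : ℂ → ℂ} (hH : ContinuousOn H (ball x r \ {x}))
    (hχ : ContDiff ℝ 1 χ) (hs : tsupport χ ⊆ ball x r) {c : ℂ} (h1 : χ =ᶠ[𝓝 x] fun _ => c) :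
    Integrable fun z => db χ z * H z := by
  refine integrable_mul_of (continuous_db hχ) ?_ fun z hz => ?_
  · exact hcs_of_tsupport_ball ((tsupport_db h1).trans (sdiff_subset.trans hs))
  · have h2 := tsupport_db h1 hz
    exact hH.continuousAt (IsOpen.mem_nhds (isOpen_ball.sdiff isClosed_singleton)
      ⟨hs h2.1, h2.2⟩)

/-- **evaluation**: `∫ (χ_x + i χ_y) H = i ∮ H` for a cut-off `χ` which is `1` near `x` -/
theorem integral_db_circle {x : ℂ} {r : ℝ} (hr : 0 < r) {H χ : ℂ → ℂ}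
    (hH : DifferentiableOn ℂ H (ball x r \ {x})) {c : ℂ}
    (hc : ∀ t, 0 < t → t < r → ∮ z in C(x, t), H z = c)
    (hχ : ContDiff ℝ 1 χ) (hs : tsupport χ ⊆ ball x r) (h1 : χ =ᶠ[𝓝 x] fun _ => 1) :
    ∫ z, db χ z * H z = I * c := by
  have hr2 : 0 < r ^ 2 := by positivity
  have ha : 0 < r ^ 2 / 3 := by positivity
  have hab : r ^ 2 / 3 < r ^ 2 / 2 := by linarith
  have hb : r ^ 2 / 2 < r ^ 2 := by linarith
  set χ₀ : ℂ → ℂ := rc x (r ^ 2 / 3) (r ^ 2 / 2) with hχ₀
  have hχ₀c : ContDiff ℝ 1 χ₀ := rc_contDiff _ _ _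
  have hχ₀s : tsupport χ₀ ⊆ ball x r := tsupport_rc hab hr hb
  have hχ₀1 : χ₀ =ᶠ[𝓝 x] fun _ => 1 := rc_one_near ha hab
  have hφc : ContDiff ℝ 1 fun z => χ z - χ₀ z := hχ.sub hχ₀c
  have hφ0 : (fun z => χ z - χ₀ z) =ᶠ[𝓝 x] fun _ => 0 := by
    filter_upwards [h1, hχ₀1] with z e1 e2
    rw [e1, e2, sub_self]
  have hsub : tsupport (fun z => χ z - χ₀ z) ⊆ tsupport χ ∪ tsupport χ₀ := by
    refine closure_minimal ?_ ((isClosed_tsupport χ).union (isClosed_tsupport χ₀))
    intro z hz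
    by_contra hcon
    rw [mem_union, not_or] at hcon
    apply hz
    show χ z - χ₀ z = 0
    rw [image_eq_zero_of_notMem_tsupport hcon.1, image_eq_zero_of_notMem_tsupport hcon.2, sub_self]
  have hφs : tsupport (fun z => χ z - χ₀ z) ⊆ ball x r \ {x} := by
    intro z hz
    refine ⟨(union_subset hs hχ₀s) (hsub hz), ?_⟩
    rw [mem_singleton_iff]
    rintro rfl
    exact (notMem_tsupport_iff_eventuallyEq.2 hφ0) hz
  have hcs : HasCompactSupport fun z => χ z - χ₀ z :=
    hcs_of_tsupport_ball (hφs.trans sdiff_subset)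
  have e0 := integral_db_mul (isOpen_ball.sdiff isClosed_singleton) hφc hcs hφs hH
  have e1 := integral_rc hr ha hab hb hH.continuousOn hc
  have i1 := integrable_db_mul hH.continuousOn hχ hs h1
  have i2 := integrable_db_mul hH.continuousOn hχ₀c hχ₀s hχ₀1
  have e2 : (fun z => db (fun z => χ z - χ₀ z) z * H z) =
      fun z => db χ z * H z - db χ₀ z * H z := by
    funext z
    rw [db_sub (hχ.differentiable one_ne_zero z) (hχ₀c.differentiable one_ne_zero z), sub_mul]
  rw [e2, integral_sub i1 i2, sub_eq_zero] at e0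
  rw [e0, e1]

/-- circle integrals of a function with a simple pole -/
theorem circle_pole {x : ℂ} {r : ℝ} {H g : ℂ → ℂ} (hg : DifferentiableOn ℂ g (ball x r))
    (hH : ∀ z ∈ ball x r, z ≠ x → (z - x) * H z = g z) {t : ℝ} (ht : 0 < t) (htr : t < r) :
    ∮ z in C(x, t), H z = 2 * Real.pi * I * g x := by
  have h1 : DifferentiableOn ℂ g (closedBall x t) := hg.mono (closedBall_subset_ball htr)
  have h2 := h1.circleIntegral_sub_inv_smul (mem_ball_self ht)
  rw [smul_eq_mul] at h2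
  rw [← h2]
  refine circleIntegral.integral_congr ht.le fun z hz => ?_
  have hzx : z ≠ x := ne_of_mem_sphere hz ht.ne'
  have hzb : z ∈ ball x r := (closedBall_subset_ball htr) (sphere_subset_closedBall hz)
  show H z = (z - x)⁻¹ • g z
  rw [smul_eq_mul, ← hH z hzb hzx, inv_mul_cancel_left₀ (sub_ne_zero.2 hzx)]

/-- circle integrals of a function with a double pole -/
theorem circle_pole2 {x : ℂ} {r : ℝ} {H g : ℂ → ℂ} (hg : DifferentiableOn ℂ g (ball x r))
    (hH : ∀ z ∈ ball x r, z ≠ x → (z - x) ^ 2 * H z = g z) {t : ℝ} (ht : 0 < t) (htr : t < r) :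
    ∮ z in C(x, t), H z = 2 * Real.pi * I * deriv g x := by
  have h1 : DifferentiableOn ℂ g (closedBall x t) := hg.mono (closedBall_subset_ball htr)
  have h2 := h1.deriv_eq_smul_circleIntegral ht
  rw [smul_eq_mul] at h2
  rw [← h2]
  refine circleIntegral.integral_congr ht.le fun z hz => ?_
  have hzx : z ≠ x := ne_of_mem_sphere hz ht.ne'
  have hzb : z ∈ ball x r := (closedBall_subset_ball htr) (sphere_subset_closedBall hz)
  show H z = (1 / (z - x) ^ 2) • g z
  rw [smul_eq_mul, ← hH z hzb hzx, one_div,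
    inv_mul_cancel_left₀ (pow_ne_zero 2 (sub_ne_zero.2 hzx))]

theorem differentiableOn_of_mul_pow {x : ℂ} {r : ℝ} {H g : ℂ → ℂ} (n : ℕ)
    (hg : DifferentiableOn ℂ g (ball x r))
    (hH : ∀ z ∈ ball x r, z ≠ x → (z - x) ^ n * H z = g z) :
    DifferentiableOn ℂ H (ball x r \ {x}) := by
  have h1 : DifferentiableOn ℂ (fun z => g z / (z - x) ^ n) (ball x r \ {x}) := by
    refine (hg.mono sdiff_subset).div (by fun_prop) fun z hz => ?_
    exact pow_ne_zero n (sub_ne_zero.2 hz.2)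
  refine h1.congr fun z hz => ?_
  have : (z - x) ^ n ≠ 0 := pow_ne_zero n (sub_ne_zero.2 hz.2)
  rw [← hH z hz.1 hz.2, mul_div_cancel_left₀ _ this]

/-- **simple pole**: `∫ (χ_x + i χ_y) H = -2π · Res` -/
theorem integral_db_pole {x : ℂ} {r : ℝ} (hr : 0 < r) {H g χ : ℂ → ℂ}
    (hg : DifferentiableOn ℂ g (ball x r))
    (hH : ∀ z ∈ ball x r, z ≠ x → (z - x) * H z = g z)
    (hχ : ContDiff ℝ 1 χ) (hs : tsupport χ ⊆ ball x r) (h1 : χ =ᶠ[𝓝 x] fun _ => 1) :
    ∫ z, db χ z * H z = -(2 * Real.pi) * g x := by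
  have hd : DifferentiableOn ℂ H (ball x r \ {x}) :=
    differentiableOn_of_mul_pow 1 hg (by simpa using hH)
  rw [integral_db_circle hr hd (fun t ht htr => circle_pole hg hH ht htr) hχ hs h1]
  have := I_mul_I
  linear_combination (2 * Real.pi * g x) * this

/-- **double pole**: `∫ (χ_x + i χ_y) H = -2π · Res` -/
theorem integral_db_pole2 {x : ℂ} {r : ℝ} (hr : 0 < r) {H g χ : ℂ → ℂ}
    (hg : DifferentiableOn ℂ g (ball x r))
    (hH : ∀ z ∈ ball x r, z ≠ x → (z - x) ^ 2 * H z = g z)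
    (hχ : ContDiff ℝ 1 χ) (hs : tsupport χ ⊆ ball x r) (h1 : χ =ᶠ[𝓝 x] fun _ => 1) :
    ∫ z, db χ z * H z = -(2 * Real.pi) * deriv g x := by
  have hd : DifferentiableOn ℂ H (ball x r \ {x}) := differentiableOn_of_mul_pow 2 hg hH
  rw [integral_db_circle hr hd (fun t ht htr => circle_pole2 hg hH ht htr) hχ hs h1]
  have := I_mul_I
  linear_combination (2 * Real.pi * deriv g x) * this

end Crest.Agent.R165.ResIntx439
end
end

-- ▼ part R165/Eval_644

/-!
# Row 165 (S0250), block U4 (helper644): continuum evaluation of the pairings at a branch point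

* `pc χ c z d` : limit of the commutator `[A, χ_a] Ψ` at direction `d` if `Ψ → lv (c z)`
* `sum_pc` : `∑_d pc χ c z d * lv u d = x_c Re (i (χ_x + i χ_y) c u)`
* `pair_eval` : integrated form
* `lsg`, `Rloc` : local sign and local branch of `∏_{j ≠ i} (x_j - z)^{1/2}` near `x_i`
* `eval_N` : pairing with `c = k zt z / z` : `2 π x_c kp Re (k 2 i A_i)`, in particular
  `Re ((1 + i) A_i)` for `k = kp (1 - i) / 2`
* `eval_S` : pairing with `c = - kp zt z` : `Re (g (x_j) / (i gsrc_j))`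
-/

set_option autoImplicit false

noncomputable section

open MeasureTheory Set Filter Topology Metric Complex
open scoped ComplexConjugate

namespace Crest.Agent.R165.Evalx644

open Crest.Agent.R165.RIfx891 (lv)
open Crest.Agent.R165.UKerx420 (edir kap fpt)
open Crest.Agent.R165.U3x719 (rX rXa e8 IsBr Ai)
open Crest.Agent.R165.UB3x641 (gsrc IsBrN kapX e8_sq)
open Crest.Agent.R165.Gr2x813 (sgd opd)
open Crest.Agent.R165.Br5x644 (zt kp kp_sq)
open Crest.Agent.R165.Latx683 (xc)

/-- the directions `S, E, N, W` -/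
def dir (d : Fin 4) : ℂ := if d = 0 then -I else if d = 1 then 1 else if d = 2 then I else -1

/-- limit of the commutator with the cut-off `χ` of a field of amplitude `c` -/
def pc (χ : ℂ → ℝ) (c : ℂ → ℂ) (z : ℂ) (d : Fin 4) : ℝ :=
  fderiv ℝ χ z (dir d) * (sgd d * (xc * lv (c z) (opd d)))

theorem lv_eq (c : ℂ) (d : Fin 4) : lv c d = (edir d * c).re := by
  have h2 : Real.sqrt 2 ≠ 0 := by positivity
  have e : ∀ a : ℝ, a / Real.sqrt 2 = a * Real.sqrt 2 / 2 := fun a => by
    rw [div_eq_div_iff h2 two_ne_zero, mul_assoc, Real.mul_self_sqrt (by norm_num)]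
  fin_cases d
  · simp only [Fin.zero_eta, Fin.isValue, lv, edir, if_true, mul_re, e]; ring
  · simp [lv, edir]
  · simp only [Fin.reduceFinMk, Fin.isValue, lv, edir, Fin.reduceEq, if_false, if_true, mul_re, e]
    ring
  · simp [lv, edir]

/-- product of two field values -/
theorem lv_mul (c u : ℂ) (d e : Fin 4) : lv c d * lv u e =
    (edir d * edir e * (c * u) + edir d * conj (edir e) * (c * conj u)).re / 2 := by
  rw [lv_eq, lv_eq]
  simp only [mul_re, add_re, mul_im, conj_re, conj_im]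
  ring

theorem sum_pc (χ : ℂ → ℝ) (c : ℂ → ℂ) (z u : ℂ) :
    ∑ d, pc χ c z d * lv u d = xc * (I * (U3x719.db χ z * (c z * u))).re := by
  have h2 : Real.sqrt 2 ≠ 0 := by positivity
  have h3 : Real.sqrt 2 * Real.sqrt 2 = 2 := Real.mul_self_sqrt (by norm_num)
  have e : ∀ a b : ℝ, (a / Real.sqrt 2) * (b / Real.sqrt 2) = a * b / 2 := fun a b => by
    rw [div_mul_div_comm, h3]
  have e0 : pc χ c z 0 * lv u 0 = (fderiv ℝ χ z I) * xc * (((c z).im - (c z).re) * (u.re + u.im) / 2) := by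
    simp only [pc, dir, sgd, Gr2x813.opd_zero, lv, if_true, map_neg, Fin.isValue, true_or]
    have := e ((c z).im - (c z).re) (-(u.re + u.im))
    linear_combination (-(fderiv ℝ χ z I) * xc) * this
  have e1 : pc χ c z 1 * lv u 1 = (fderiv ℝ χ z 1) * xc * (-(c z).im * u.re) := by
    simp only [pc, dir, sgd, Gr2x813.opd_one, lv, if_true, Fin.isValue, or_true, one_ne_zero,
      if_false]
    ring
  have e2 : pc χ c z 2 * lv u 2 = (fderiv ℝ χ z I) * xc * (((c z).re + (c z).im) * (u.im - u.re) / 2) := by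
    simp only [pc, dir, sgd, Gr2x813.opd_two, lv, if_true, Fin.isValue, Fin.reduceEq, if_false,
      or_self]
    have := e (-((c z).re + (c z).im)) (u.im - u.re)
    linear_combination (-(fderiv ℝ χ z I) * xc) * this
  have e3 : pc χ c z 3 * lv u 3 = (fderiv ℝ χ z 1) * xc * (-(c z).re * u.im) := by
    simp only [pc, dir, sgd, Gr2x813.opd_three, lv, Fin.isValue, Fin.reduceEq, if_false,
      or_self, map_neg]
    ring
  rw [Fin.sum_univ_four, e0, e1, e2, e3]
  simp only [U3x719.db, mul_re, mul_im, add_re, add_im, I_re, I_im, ofReal_re, ofReal_im]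
  ring

/-! ### integration -/

/-- the cut-off around `x0`, complex valued -/
def chs (χ : ℂ → ℝ) (x0 : ℂ) (z : ℂ) : ℂ := (χ (z - x0) : ℂ)

theorem chs_contDiff {χ : ℂ → ℝ} (hχ : ContDiff ℝ 1 χ) (x0 : ℂ) : ContDiff ℝ 1 (chs χ x0) := by
  unfold chs
  exact ofRealCLM.contDiff.comp (hχ.comp (contDiff_id.sub contDiff_const))

theorem fderiv_chs {χ : ℂ → ℝ} (hχ : ContDiff ℝ 1 χ) (x0 z v : ℂ) :
    fderiv ℝ (chs χ x0) z v = ((fderiv ℝ χ (z - x0) v : ℝ) : ℂ) := by
  have h1 : HasFDerivAt χ (fderiv ℝ χ (z - x0)) (z - x0) :=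
    (hχ.differentiable one_ne_zero _).hasFDerivAt
  have h2 : HasFDerivAt (fun z : ℂ => z - x0) (ContinuousLinearMap.id ℝ ℂ) z :=
    (hasFDerivAt_id z).sub_const x0
  have h3 : HasFDerivAt (chs χ x0) (ofRealCLM.comp ((fderiv ℝ χ (z - x0)).comp
      (ContinuousLinearMap.id ℝ ℂ))) z :=
    ofRealCLM.hasFDerivAt.comp z (HasFDerivAt.comp (f := fun z : ℂ => z - x0) z h1 h2)
  rw [h3.fderiv]
  rfl

theorem db_chs {χ : ℂ → ℝ} (hχ : ContDiff ℝ 1 χ) (x0 z : ℂ) :
    ResIntx439.db (chs χ x0) z = U3x719.db χ (z - x0) := by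
  unfold ResIntx439.db U3x719.db
  rw [fderiv_chs hχ, fderiv_chs hχ]

theorem tsupport_chs {χ : ℂ → ℝ} {x0 : ℂ} {r : ℝ} (hs : tsupport χ ⊆ ball 0 r) :
    tsupport (chs χ x0) ⊆ ball x0 r := by
  have h1 : Function.support (chs χ x0) ⊆ (fun z => z - x0) ⁻¹' (tsupport χ) := by
    intro z hz
    have : χ (z - x0) ≠ 0 := by
      intro h; apply hz; unfold chs; rw [h, ofReal_zero]
    exact subset_tsupport χ this
  have h2 : IsClosed ((fun z : ℂ => z - x0) ⁻¹' (tsupport χ)) :=
    (isClosed_tsupport χ).preimage (by fun_prop)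
  intro z hz
  have h3 := hs (closure_minimal h1 h2 hz)
  rw [mem_ball, dist_zero_right] at h3
  rwa [mem_ball, dist_eq_norm]

theorem chs_one {χ : ℂ → ℝ} {x0 : ℂ} (h1 : χ =ᶠ[𝓝 0] fun _ => 1) :
    chs χ x0 =ᶠ[𝓝 x0] fun _ => 1 := by
  have h2 : Tendsto (fun z : ℂ => z - x0) (𝓝 x0) (𝓝 0) := by
    have : Continuous fun z : ℂ => z - x0 := by fun_prop
    have h3 := this.tendsto x0
    rwa [sub_self] at h3
  filter_upwards [h2.eventually h1] with z hz
  unfold chs
  rw [hz, ofReal_one]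

/-- partial derivatives vanish where the cut-off is locally constant -/
theorem tsupport_fderiv_chs {χ : ℂ → ℝ} {x0 : ℂ} {r : ℝ}
    (hs : tsupport χ ⊆ ball 0 r) (h1 : χ =ᶠ[𝓝 0] fun _ => 1) (v : ℂ) :
    tsupport (fun z => fderiv ℝ (chs χ x0) z v) ⊆ ball x0 r \ {x0} := by
  have hcl : IsClosed (tsupport (chs χ x0)) := isClosed_tsupport _
  intro z hz
  constructor
  · have : Function.support (fun z => fderiv ℝ (chs χ x0) z v) ⊆ tsupport (chs χ x0) := fun w hw => by
      by_contra hcon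
      apply hw
      have h2 : chs χ x0 =ᶠ[𝓝 w] fun _ => 0 := notMem_tsupport_iff_eventuallyEq.1 hcon
      show fderiv ℝ (chs χ x0) w v = 0
      rw [h2.fderiv_eq]
      simp
    exact tsupport_chs hs (closure_minimal this hcl hz)
  · rw [mem_singleton_iff]
    rintro rfl
    have h4 : (fun w => fderiv ℝ (chs χ z) w v) =ᶠ[𝓝 z] fun _ => 0 := by
      filter_upwards [(chs_one (x0 := z) h1).eventuallyEq_nhds] with w hw
      rw [hw.fderiv_eq]
      simp
    exact (notMem_tsupport_iff_eventuallyEq.2 h4) hz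

/-- **pairing of the commutator with a column** -/
theorem pair_eval {x0 : ℂ} {r : ℝ} {χ : ℂ → ℝ} (hχ : ContDiff ℝ 1 χ)
    (hs : tsupport χ ⊆ ball 0 r) (h1 : χ =ᶠ[𝓝 0] fun _ => 1) {c u P1 P2 : ℂ → ℂ}
    (hP1 : ContinuousOn P1 (ball x0 r \ {x0})) (hP2 : ContinuousOn P2 (ball x0 r \ {x0}))
    (e1 : ∀ᵐ z, z ∈ ball x0 r → z ≠ x0 → c (z - x0) * u z = P1 z)
    (e2 : ∀ᵐ z, z ∈ ball x0 r → z ≠ x0 → c (z - x0) * conj (u z) = P2 z) :
    (∀ d, Integrable fun z => pc χ c (z - x0) d * lv (u z) d) ∧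
    ∑ d, ∫ z, pc χ c (z - x0) d * lv (u z) d =
      xc * (I * ∫ z, ResIntx439.db (chs χ x0) z * P1 z).re := by
  have hopen : IsOpen (ball x0 r \ {x0}) := isOpen_ball.sdiff isClosed_singleton
  have hint : ∀ d, Integrable fun z => pc χ c (z - x0) d * lv (u z) d := by
    intro d
    have hc1 : Continuous fun z => fderiv ℝ (chs χ x0) z (dir d) :=
      ((chs_contDiff hχ x0).continuous_fderiv one_ne_zero).clm_apply continuous_const
    have hts := tsupport_fderiv_chs (x0 := x0) hs h1 (dir d)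
    have hcs : HasCompactSupport fun z => fderiv ℝ (chs χ x0) z (dir d) :=
      ResIntx439.hcs_of_tsupport_ball (hts.trans sdiff_subset)
    set F : ℂ → ℂ := fun z => ((sgd d * xc / 2 : ℝ) : ℂ) *
      (edir (opd d) * edir d * P1 z + edir (opd d) * conj (edir d) * P2 z) with hF
    have hFc : ContinuousOn F (ball x0 r \ {x0}) := by
      exact continuousOn_const.mul ((continuousOn_const.mul hP1).add (continuousOn_const.mul hP2))
    have hi : Integrable fun z => fderiv ℝ (chs χ x0) z (dir d) * F z :=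
      ResIntx439.integrable_mul_of hc1 hcs fun z hz => hFc.continuousAt (hopen.mem_nhds (hts hz))
    refine hi.re.congr ?_
    filter_upwards [e1, e2] with z h2 h3
    by_cases hz : z ∈ ball x0 r ∧ z ≠ x0
    · have h4 := h2 hz.1 hz.2
      have h5 := h3 hz.1 hz.2
      simp only [hF, ← h4, ← h5, fderiv_chs hχ, pc]
      have h6 := lv_mul (c (z - x0)) (u z) (opd d) d
      have h7 : ∀ (p q : ℝ) (w : ℂ), RCLike.re ((p : ℂ) * ((q : ℂ) * w)) = p * (q * w.re) := by
        intro p q w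
        change ((p : ℂ) * ((q : ℂ) * w)).re = _
        rw [re_ofReal_mul, re_ofReal_mul]
      rw [h7]
      linear_combination (-(fderiv ℝ χ (z - x0) (dir d)) * sgd d * xc) * h6
    · have hz' : z ∉ ball x0 r \ {x0} := fun h => hz ⟨h.1, h.2⟩
      have h4 : fderiv ℝ (chs χ x0) z (dir d) = 0 := by
        have := mt (fun h => hts h) hz'
        exact image_eq_zero_of_notMem_tsupport (f := fun z => fderiv ℝ (chs χ x0) z (dir d)) this
      have h5 := h4
      rw [fderiv_chs hχ, ofReal_eq_zero] at h5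
      simp only [h4, zero_mul, pc, h5, map_zero]
  refine ⟨hint, ?_⟩
  rw [← integral_finsetSum _ fun d _ => hint d]
  have hi2 : Integrable fun z => ResIntx439.db (chs χ x0) z * P1 z :=
    ResIntx439.integrable_db_mul hP1 (chs_contDiff hχ x0) (tsupport_chs hs) (chs_one h1)
  have e3 : (fun z => ∑ d, pc χ c (z - x0) d * lv (u z) d) =ᵐ[volume]
      fun z => xc * (I * (ResIntx439.db (chs χ x0) z * P1 z)).re := by
    filter_upwards [e1] with z h2
    rw [sum_pc, db_chs hχ]
    by_cases hz : z ∈ ball x0 r ∧ z ≠ x0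
    · rw [h2 hz.1 hz.2]
    · have hz' : z ∉ ball x0 r \ {x0} := fun h => hz ⟨h.1, h.2⟩
      have h4 : ∀ v, fderiv ℝ χ (z - x0) v = 0 := by
        intro v
        have := mt (fun h => (tsupport_fderiv_chs (x0 := x0) hs h1 v) h) hz'
        have h5 := image_eq_zero_of_notMem_tsupport (f := fun z => fderiv ℝ (chs χ x0) z v) this
        rwa [fderiv_chs hχ, ofReal_eq_zero] at h5
      have h5 : U3x719.db χ (z - x0) = 0 := by
        unfold U3x719.db
        rw [h4, h4]
        simp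
      rw [h5]
      simp
  rw [integral_congr_ae e3, integral_const_mul]
  congr 1
  have e4 : ∫ z, (I * (ResIntx439.db (chs χ x0) z * P1 z)).re =
      (∫ z, I * (ResIntx439.db (chs χ x0) z * P1 z)).re := by
    have := integral_re (𝕜 := ℂ) (hi2.const_mul I)
    exact this
  rw [e4, integral_const_mul]

/-! ### local sign and local square root -/

section loc

variable {n : ℕ}

/-- local sign near `x_i` -/
def lsg (x : Fin n → ℂ) (i : Fin n) (z : ℂ) : ℝ := by
  classical
  exact ∏ j, if (x j).im = (x i).im ∧ (x j).re < (x i).re ∧ z.im < (x i).im then (-1 : ℝ) else 1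

/-- branch of `∏_{j ≠ i} (x_j - z)^{1/2}` near `x_i` -/
def Rloc (x : Fin n → ℂ) (i : Fin n) (z : ℂ) : ℂ := by
  classical
  exact ∏ j ∈ Finset.univ.erase i, if (x j).im = (x i).im ∧ (x j).re < (x i).re then
    -I * (z - x j) ^ (1 / 2 : ℂ) else (x j - z) ^ (1 / 2 : ℂ)

/-- separation radius -/
def Sep (x : Fin n → ℂ) (i : Fin n) (r : ℝ) : Prop :=
  ∀ j, j ≠ i → ((x j).im = (x i).im → r ≤ |(x j).re - (x i).re|) ∧
    ((x j).im ≠ (x i).im → r ≤ |(x j).im - (x i).im|)

theorem Sep.mono {x : Fin n → ℂ} {i : Fin n} {r r' : ℝ} (h : Sep x i r) (hr : r' ≤ r) :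
    Sep x i r' := fun j hj => ⟨fun h1 => hr.trans ((h j hj).1 h1), fun h1 => hr.trans ((h j hj).2 h1)⟩

theorem exists_sep {x : Fin n → ℂ} (hx : Function.Injective x) (i : Fin n) :
    ∃ r : ℝ, 0 < r ∧ Sep x i r := by
  have h1 : ∀ j, ∃ δ : ℝ, 0 < δ ∧ (j ≠ i → ((x j).im = (x i).im → δ ≤ |(x j).re - (x i).re|) ∧
      ((x j).im ≠ (x i).im → δ ≤ |(x j).im - (x i).im|)) := by
    intro j
    by_cases hj : j = i
    · exact ⟨1, one_pos, fun h => absurd hj h⟩
    by_cases him : (x j).im = (x i).im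
    · have hre : (x j).re ≠ (x i).re := fun h => hj (hx (Complex.ext h him))
      exact ⟨_, abs_pos.2 (sub_ne_zero.2 hre), fun _ => ⟨fun _ => le_rfl, fun h => absurd him h⟩⟩
    · exact ⟨_, abs_pos.2 (sub_ne_zero.2 him), fun _ => ⟨fun h => absurd h him, fun _ => le_rfl⟩⟩
  choose δ hδ hδ' using h1
  have hne : (Finset.univ : Finset (Fin n)).Nonempty := ⟨i, Finset.mem_univ i⟩
  have h2 : ∀ j, Finset.univ.inf' hne δ ≤ δ j := fun j => Finset.inf'_le _ (Finset.mem_univ j)
  exact ⟨Finset.univ.inf' hne δ, (Finset.lt_inf'_iff hne).2 fun j _ => hδ j, fun j hj =>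
    ⟨fun h => (h2 j).trans ((hδ' j hj).1 h), fun h => (h2 j).trans ((hδ' j hj).2 h)⟩⟩

theorem sqrt_above {w : ℂ} (h : 0 < w.im) : (-w) ^ (1 / 2 : ℂ) = -I * w ^ (1 / 2 : ℂ) := by
  have hw : w ≠ 0 := by rintro rfl; simp at h
  rw [cpow_def_of_ne_zero (neg_ne_zero.2 hw), cpow_def_of_ne_zero hw, Complex.log, Complex.log,
    norm_neg, arg_neg_eq_arg_sub_pi_of_im_pos h]
  have e : ((Real.log ‖w‖ : ℂ) + ((w.arg - Real.pi : ℝ) : ℂ) * I) * (1 / 2) =
      ((Real.log ‖w‖ : ℂ) + (w.arg : ℂ) * I) * (1 / 2) + -(Real.pi / 2 * I) := by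
    push_cast; ring
  rw [e, Complex.exp_add, Complex.exp_neg, exp_pi_div_two_mul_I, inv_I]
  ring

theorem sqrt_below {w : ℂ} (h : w.im < 0) : (-w) ^ (1 / 2 : ℂ) = I * w ^ (1 / 2 : ℂ) := by
  have hw : w ≠ 0 := by rintro rfl; simp at h
  rw [cpow_def_of_ne_zero (neg_ne_zero.2 hw), cpow_def_of_ne_zero hw, Complex.log, Complex.log,
    norm_neg, arg_neg_eq_arg_add_pi_of_im_neg h]
  have e : ((Real.log ‖w‖ : ℂ) + ((w.arg + Real.pi : ℝ) : ℂ) * I) * (1 / 2) =
      ((Real.log ‖w‖ : ℂ) + (w.arg : ℂ) * I) * (1 / 2) + (Real.pi / 2 * I) := by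
    push_cast; ring
  rw [e, Complex.exp_add, exp_pi_div_two_mul_I]
  ring

theorem sqrt_on {w : ℂ} (h : w.im = 0) (h' : 0 < w.re) :
    (-w) ^ (1 / 2 : ℂ) = I * w ^ (1 / 2 : ℂ) := by
  have hw : w ≠ 0 := by rintro rfl; simp at h'
  have h1 : w = (w.re : ℂ) := Complex.ext (by simp) (by simp [h])
  have h2 : arg w = 0 := by rw [h1]; exact arg_ofReal_of_nonneg h'.le
  have h3 : arg (-w) = Real.pi := by
    rw [h1, ← ofReal_neg]; exact arg_ofReal_of_neg (by linarith)
  rw [cpow_def_of_ne_zero (neg_ne_zero.2 hw), cpow_def_of_ne_zero hw, Complex.log, Complex.log,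
    norm_neg, h2, h3]
  have e : ((Real.log ‖w‖ : ℂ) + (Real.pi : ℂ) * I) * (1 / 2) =
      ((Real.log ‖w‖ : ℂ) + ((0 : ℝ) : ℂ) * I) * (1 / 2) + (Real.pi / 2 * I) := by
    push_cast; ring
  rw [e, Complex.exp_add, exp_pi_div_two_mul_I]
  ring

theorem sq_half (w : ℂ) : (w ^ (1 / 2 : ℂ)) ^ 2 = w := by
  rw [← Complex.cpow_nat_mul]
  norm_num

theorem lsg_sq (x : Fin n → ℂ) (i : Fin n) (z : ℂ) : lsg x i z * lsg x i z = 1 := by
  unfold lsg
  rw [← Finset.prod_mul_distrib]
  refine Finset.prod_eq_one fun j _ => ?_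
  split_ifs <;> norm_num

/-- off the line through `x_i` -/
theorem lsg_mul_rX (x : Fin n → ℂ) (i : Fin n) {z : ℂ} (hz : z.im ≠ (x i).im) :
    (lsg x i z : ℂ) * rX x z = (x i - z) ^ (1 / 2 : ℂ) * Rloc x i z := by
  classical
  unfold lsg rX Rloc
  rw [ofReal_prod, ← Finset.prod_mul_distrib,
    ← Finset.mul_prod_erase Finset.univ _ (Finset.mem_univ i)]
  congr 1
  · rw [if_neg (fun h => absurd h.2.1 (lt_irrefl _))]; simp
  · refine Finset.prod_congr rfl fun j _ => ?_
    by_cases hc : (x j).im = (x i).im ∧ (x j).re < (x i).re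
    · rw [if_pos hc]
      have e : x j - z = -(z - x j) := by ring
      rcases lt_or_gt_of_ne hz with h | h
      · rw [if_pos ⟨hc.1, hc.2, h⟩, e, sqrt_below (by rw [sub_im, hc.1]; linarith)]
        push_cast; ring
      · rw [if_neg (fun h' => absurd h'.2.2 (not_lt.2 h.le)), e,
          sqrt_above (by rw [sub_im, hc.1]; linarith)]
        push_cast; ring
    · rw [if_neg hc, if_neg (fun h => hc ⟨h.1, h.2.1⟩)]
      push_cast; ring

theorem Rloc_sq (x : Fin n → ℂ) (i : Fin n) (z : ℂ) :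
    Rloc x i z ^ 2 = ∏ j ∈ Finset.univ.erase i, (x j - z) := by
  classical
  unfold Rloc
  rw [← Finset.prod_pow]
  refine Finset.prod_congr rfl fun j _ => ?_
  split_ifs
  · rw [mul_pow, sq_half, neg_sq, I_sq]; ring
  · exact sq_half _

theorem e8_Rloc (x : Fin n → ℂ) (i : Fin n) : e8 * Rloc x i (x i) = gsrc x i := by
  classical
  unfold Rloc gsrc
  congr 1
  refine Finset.prod_congr rfl fun j _ => ?_
  by_cases hc : (x j).im = (x i).im ∧ (x j).re < (x i).re
  · rw [if_pos hc, if_pos hc]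
    have e : x j - x i = -(x i - x j) := by ring
    rw [e, sqrt_on (by rw [sub_im, hc.1, sub_self]) (by rw [sub_re]; linarith [hc.2])]
    ring
  · rw [if_neg hc, if_neg hc, one_mul]

theorem sep_ne {x : Fin n → ℂ} {i : Fin n} {r : ℝ} (hr : Sep x i r) {z : ℂ} (hz : z ∈ ball (x i) r)
    {j : Fin n} (hj : j ≠ i) : x j - z ≠ 0 := by
  intro h
  have h1 : x j = z := sub_eq_zero.1 h
  rw [mem_ball, dist_eq_norm, ← h1] at hz
  have hre := (abs_re_le_norm _).trans_lt hz
  have him := (abs_im_le_norm _).trans_lt hz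
  rw [sub_re] at hre
  rw [sub_im] at him
  by_cases h2 : (x j).im = (x i).im
  · exact absurd ((hr j hj).1 h2) (not_le.2 hre)
  · exact absurd ((hr j hj).2 h2) (not_le.2 him)

theorem Rloc_ne {x : Fin n → ℂ} {i : Fin n} {r : ℝ} (hr : Sep x i r) {z : ℂ}
    (hz : z ∈ ball (x i) r) : Rloc x i z ≠ 0 := by
  intro h
  have h1 := Rloc_sq x i z
  rw [h, zero_pow two_ne_zero] at h1
  exact (Finset.prod_ne_zero_iff.2 fun j hj => sep_ne hr hz (Finset.ne_of_mem_erase hj)) h1.symm

theorem Rloc_diff {x : Fin n → ℂ} {i : Fin n} {r : ℝ} (hr : Sep x i r) :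
    DifferentiableOn ℂ (Rloc x i) (ball (x i) r) := by
  classical
  unfold Rloc
  refine DifferentiableOn.fun_finsetProd fun j hj => ?_
  have hj := Finset.ne_of_mem_erase hj
  obtain ⟨ha, hb⟩ := hr j hj
  intro z hz
  rw [mem_ball, dist_eq_norm] at hz
  have hre := (abs_re_le_norm _).trans_lt hz
  have him := (abs_im_le_norm _).trans_lt hz
  rw [sub_re, abs_lt] at hre
  rw [sub_im, abs_lt] at him
  by_cases hc : (x j).im = (x i).im ∧ (x j).re < (x i).re
  · simp only [if_pos hc]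
    have h1 := ha hc.1
    rw [abs_of_neg (by linarith [hc.2])] at h1
    have hs : z - x j ∈ slitPlane := Or.inl (by rw [sub_re]; linarith)
    exact (DifferentiableAt.const_mul ((differentiableAt_id.sub_const _).cpow_const hs)
      _).differentiableWithinAt
  · simp only [if_neg hc]
    have hs : x j - z ∈ slitPlane := by
      by_cases h2 : (x j).im = (x i).im
      · have h3 : (x i).re ≤ (x j).re := not_lt.1 fun h => hc ⟨h2, h⟩
        have h1 := ha h2
        rw [abs_of_nonneg (by linarith)] at h1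
        exact Or.inl (by rw [sub_re]; linarith)
      · refine Or.inr ?_
        have h1 := hb h2
        rw [sub_im]
        intro h3
        rcases le_total (x j).im (x i).im with h4 | h4
        · rw [abs_of_nonpos (by linarith)] at h1; linarith
        · rw [abs_of_nonneg (by linarith)] at h1; linarith
    exact (((differentiableAt_const _).sub differentiableAt_id).cpow_const hs).differentiableWithinAt

/-- the logarithmic derivative in terms of `m = g / Rloc` -/
theorem Ai_eq {x : Fin n → ℂ} {i : Fin n} {r : ℝ} (hr0 : 0 < r) (hr : Sep x i r) {g : ℂ → ℂ}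
    (hg : DifferentiableOn ℂ g (ball (x i) r)) (hgi : g (x i) = gsrc x i) :
    e8 * deriv (fun z => g z / Rloc x i z) (x i) = 2 * I * Ai x i g := by
  have hm : DifferentiableAt ℂ (fun z => g z / Rloc x i z) (x i) :=
    ((hg.div (Rloc_diff hr) fun z hz => Rloc_ne hr hz).differentiableAt
      (isOpen_ball.mem_nhds (mem_ball_self hr0)))
  have e1 : (fun z => -I * g z ^ 2 / ∏ j ∈ Finset.univ.erase i, (x j - z)) =
      fun z => -I * (g z / Rloc x i z) ^ 2 := by
    funext z
    rw [← Rloc_sq, div_pow, mul_div_assoc]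
  have e2 : g (x i) / Rloc x i (x i) = e8 := by
    rw [hgi, ← e8_Rloc, mul_div_cancel_right₀ _ (Rloc_ne hr (mem_ball_self hr0))]
  unfold Ai
  rw [e1]
  have h3 : HasDerivAt (fun z => -I * (g z / Rloc x i z) ^ 2)
      (-I * (((2 : ℕ) : ℂ) * (g (x i) / Rloc x i (x i)) ^ (2 - 1) *
        deriv (fun z => g z / Rloc x i z) (x i))) (x i) :=
    (hm.hasDerivAt.pow 2).const_mul (-I)
  rw [h3.deriv, e2]
  have := I_mul_I
  norm_num
  linear_combination (e8 * deriv (fun z => g z / Rloc x i z) (x i)) * this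

/-! ### the column near `x_i` -/

/-- amplitude of the column (source at an insertion, spinor `g`) in the local gauge at `x_i` -/
def ucol (x : Fin n → ℂ) (i : Fin n) (g : ℂ → ℂ) (z : ℂ) : ℂ :=
  (lsg x i z : ℂ) * ((kp : ℂ) * (e8 * (g z / rXa x z)))

theorem lv_ucol (x : Fin n → ℂ) (i : Fin n) (g : ℂ → ℂ) (z : ℂ) (d : Fin 4) :
    lv (ucol x i g z) d = lsg x i z * (kp * (edir d * e8 * (g z / rXa x z)).re) := by
  rw [lv_eq, ucol]
  have : edir d * ((lsg x i z : ℂ) * ((kp : ℂ) * (e8 * (g z / rXa x z)))) =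
      (lsg x i z : ℂ) * ((kp : ℂ) * (edir d * e8 * (g z / rXa x z))) := by ring
  rw [this, re_ofReal_mul, re_ofReal_mul]

theorem ae_im_ne (c : ℝ) : ∀ᵐ z : ℂ, z.im ≠ c := by
  have h1 : volume {z : ℂ | z.im = c} = 0 := by
    have h2 : ∀ᵐ p : ℝ × ℝ ∂(volume.prod volume), p.2 ≠ c := by
      have h3 : ∀ᵐ y : ℝ, y ≠ c := by
        rw [ae_iff]; simp
      exact (Measure.quasiMeasurePreserving_snd (μ := (volume : Measure ℝ)) (ν := (volume : Measure ℝ))).ae h3
    have h4 := Complex.volume_preserving_equiv_real_prod.quasiMeasurePreserving.ae h2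
    rw [ae_iff] at h4
    simpa using h4
  rw [ae_iff]
  simpa using h1

theorem rXa_eq {x : Fin n → ℂ} {z : ℂ} (hz : ∀ j, z.im ≠ (x j).im) : rXa x z = rX x z := by
  classical
  unfold rXa
  rw [Finset.prod_eq_one fun j _ => if_neg fun h => hz j h.1.symm, one_mul]

/-- the column is `kp e8 m (x_i - z)^{-1/2}` -/
theorem ucol_eq {x : Fin n → ℂ} {i : Fin n} {g : ℂ → ℂ} {z : ℂ} (hz : ∀ j, z.im ≠ (x j).im) :
    ucol x i g z = (kp : ℂ) * e8 * (g z / Rloc x i z) * (x i - z) ^ (-(1/2) : ℂ) := by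
  have h1 := lsg_mul_rX x i (hz i)
  have h2 : ((lsg x i z : ℝ) : ℂ) * (lsg x i z : ℂ) = 1 := by
    rw [← ofReal_mul, lsg_sq, ofReal_one]
  have h3 : (lsg x i z : ℂ) ≠ 0 := left_ne_zero_of_mul_eq_one h2
  have h4 : (lsg x i z : ℂ) / rX x z = 1 / ((lsg x i z : ℂ) * rX x z) := by
    by_cases h : rX x z = 0
    · rw [h]; simp
    · rw [div_eq_div_iff h (mul_ne_zero h3 h)]
      linear_combination (rX x z) * h2
  rw [ucol, rXa_eq hz, cpow_neg]
  calc (lsg x i z : ℂ) * ((kp : ℂ) * (e8 * (g z / rX x z)))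
      = (kp : ℂ) * e8 * g z * ((lsg x i z : ℂ) / rX x z) := by ring
    _ = _ := by rw [h4, h1, one_div, mul_inv]; ring

theorem zt_sub (x0 z : ℂ) : zt (z - x0) = -I * (x0 - z) ^ (-(1/2) : ℂ) := by
  unfold zt; rw [neg_sub]

theorem half_mul (w : ℂ) (hw : w ≠ 0) :
    w ^ (-(1/2) : ℂ) * w ^ (-(1/2) : ℂ) = w⁻¹ := by
  rw [← cpow_add _ _ hw, ← cpow_neg_one]
  norm_num

theorem half_conj (w : ℂ) :
    w ^ (-(1/2) : ℂ) * conj (w ^ (-(1/2) : ℂ)) = ((‖w‖ ^ (-(1/2) : ℝ)) ^ 2 : ℝ) := by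
  rw [mul_conj, normSq_eq_norm_sq]
  have := Complex.norm_cpow_real w (-(1/2) : ℝ)
  push_cast at this ⊢
  rw [this]

/-- `∏ g / Rloc` is continuous near `x_i` -/
theorem m_diff {x : Fin n → ℂ} {i : Fin n} {r : ℝ} (hr : Sep x i r) {g : ℂ → ℂ}
    (hg : DifferentiableOn ℂ g (ball (x i) r)) :
    DifferentiableOn ℂ (fun z => g z / Rloc x i z) (ball (x i) r) :=
  hg.div (Rloc_diff hr) fun _ hz => Rloc_ne hr hz

theorem cont_norm (x0 : ℂ) (r : ℝ) :
    ContinuousOn (fun z : ℂ => (((‖x0 - z‖ ^ (-(1/2) : ℝ)) ^ 2 : ℝ) : ℂ)) (ball x0 r \ {x0}) := by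
  refine continuous_ofReal.comp_continuousOn (ContinuousOn.pow ?_ 2)
  refine ContinuousOn.rpow_const (by fun_prop) fun z hz => Or.inl ?_
  rw [norm_ne_zero_iff, sub_ne_zero]
  exact fun h => hz.2 h.symm

/-- **evaluation, double pole** (diagonal steps) -/
theorem eval_gen {x : Fin n → ℂ} {i : Fin n} {r : ℝ} (hr0 : 0 < r) (hr : Sep x i r)
    {g : ℂ → ℂ} (hg : DifferentiableOn ℂ g (ball (x i) r)) (hgi : g (x i) = gsrc x i)
    {χ : ℂ → ℝ} (hχ : ContDiff ℝ 1 χ) (hs : tsupport χ ⊆ ball 0 r) (h1 : χ =ᶠ[𝓝 0] fun _ => 1)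
    (k : ℂ) :
    (∀ d, Integrable fun z => pc χ (fun w => k * (zt w / w)) (z - x i) d * lv (ucol x i g z) d) ∧
    ∑ d, ∫ z, pc χ (fun w => k * (zt w / w)) (z - x i) d * lv (ucol x i g z) d =
      2 * Real.pi * xc * kp * (k * (2 * I) * Ai x i g).re := by
  set m : ℂ → ℂ := fun z => g z / Rloc x i z with hm
  have hmd := m_diff hr hg
  have hae : ∀ᵐ z : ℂ, ∀ j, z.im ≠ (x j).im := ae_all_iff.2 fun j => ae_im_ne _
  set K : ℂ := k * kp * e8 * I with hK
  have hmc : ContinuousOn m (ball (x i) r \ {x i}) := hmd.continuousOn.mono sdiff_subset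
  obtain ⟨ha, hb⟩ := pair_eval (x0 := x i) hχ hs h1 (c := fun w => k * (zt w / w))
    (u := ucol x i g) (P1 := fun z => K * m z / (z - x i) ^ 2)
    (P2 := fun z => k * kp * (-I) * ((((‖x i - z‖ ^ (-(1/2) : ℝ)) ^ 2 : ℝ) : ℂ)) * conj (e8 * m z)
      / (z - x i))
    ((continuousOn_const.mul hmc).div (by fun_prop) fun z hz =>
      pow_ne_zero 2 (sub_ne_zero.2 hz.2))
    (((continuousOn_const.mul (cont_norm _ _)).mul
      (continuous_conj.comp_continuousOn (continuousOn_const.mul hmc))).div (by fun_prop)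
        fun z hz => sub_ne_zero.2 hz.2)
    (by
      filter_upwards [hae] with z hz _ hzx
      have h2 : z - x i ≠ 0 := sub_ne_zero.2 hzx
      have h3 : x i - z ≠ 0 := sub_ne_zero.2 (Ne.symm hzx)
      rw [ucol_eq hz, zt_sub]
      have h4 := half_mul (x i - z) h3
      have h5 : (x i - z)⁻¹ = -(z - x i)⁻¹ := by rw [← neg_sub, neg_inv]
      rw [h5] at h4
      simp only [hm, hK]
      calc k * (-I * (x i - z) ^ (-(1/2) : ℂ) / (z - x i)) *
            ((kp : ℂ) * e8 * (g z / Rloc x i z) * (x i - z) ^ (-(1/2) : ℂ))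
          = k * kp * e8 * (-I) * (g z / Rloc x i z) / (z - x i) *
            ((x i - z) ^ (-(1/2) : ℂ) * (x i - z) ^ (-(1/2) : ℂ)) := by ring
        _ = _ := by rw [h4]; field_simp)
    (by
      filter_upwards [hae] with z hz _ hzx
      rw [ucol_eq hz, zt_sub]
      have h4 := half_conj (x i - z)
      rw [← h4]
      simp only [map_mul, conj_ofReal, hm]
      ring)
  refine ⟨ha, ?_⟩
  rw [hb]
  have e1 := ResIntx439.integral_db_pole2 (x := x i) hr0 (H := fun z => K * m z / (z - x i) ^ 2)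
    (g := fun z => K * m z) (hmd.const_mul K) (fun z _ hzx => by
      have : (z - x i) ^ 2 ≠ 0 := pow_ne_zero 2 (sub_ne_zero.2 hzx)
      field_simp) (chs_contDiff hχ (x i)) (tsupport_chs hs) (chs_one h1)
  rw [e1]
  have hmi : DifferentiableAt ℂ m (x i) := hmd.differentiableAt (isOpen_ball.mem_nhds (mem_ball_self hr0))
  rw [deriv_const_mul K hmi]
  have e2 := Ai_eq hr0 hr hg hgi
  have e3 : I * (-(2 * Real.pi) * (K * deriv m (x i))) =
      ((2 * Real.pi * kp : ℝ) : ℂ) * (k * (2 * I) * Ai x i g) := by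
    have := I_mul_I
    rw [mul_assoc k, ← e2, hK]
    push_cast
    linear_combination (-(2 * Real.pi * (k * kp * e8) * deriv m (x i))) * this
  rw [e3, re_ofReal_mul]
  ring

/-- step `(1, 1)` -/
theorem eval_N {x : Fin n → ℂ} {i : Fin n} {r : ℝ} (hr0 : 0 < r) (hr : Sep x i r)
    {g : ℂ → ℂ} (hg : DifferentiableOn ℂ g (ball (x i) r)) (hgi : g (x i) = gsrc x i)
    {χ : ℂ → ℝ} (hχ : ContDiff ℝ 1 χ) (hs : tsupport χ ⊆ ball 0 r) (h1 : χ =ᶠ[𝓝 0] fun _ => 1) :
    ∑ d, ∫ z, pc χ (fun w => kp * ((1 - I) / 2) * (zt w / w)) (z - x i) d * lv (ucol x i g z) d =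
      ((1 + I) * Ai x i g).re := by
  rw [(eval_gen hr0 hr hg hgi hχ hs h1 _).2]
  have h2 := kp_sq
  have e : (kp : ℂ) * ((1 - I) / 2) * (2 * I) * Ai x i g = (kp : ℂ) * ((1 + I) * Ai x i g) := by
    have := I_mul_I
    linear_combination (-(kp : ℂ) * Ai x i g) * this
  rw [e, re_ofReal_mul]
  calc 2 * Real.pi * xc * kp * (kp * ((1 + I) * Ai x i g).re)
      = (2 * Real.pi * Crest.Agent.R165.Latx683.xc * kp ^ 2) * ((1 + I) * Ai x i g).re := by ring
    _ = _ := by
      have h3 : 2 * Real.pi * Crest.Agent.R165.Latx683.xc * kp ^ 2 = 1 := h2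
      rw [h3, one_mul]

/-- step `(1, -1)` -/
theorem eval_N2 {x : Fin n → ℂ} {i : Fin n} {r : ℝ} (hr0 : 0 < r) (hr : Sep x i r)
    {g : ℂ → ℂ} (hg : DifferentiableOn ℂ g (ball (x i) r)) (hgi : g (x i) = gsrc x i)
    {χ : ℂ → ℝ} (hχ : ContDiff ℝ 1 χ) (hs : tsupport χ ⊆ ball 0 r) (h1 : χ =ᶠ[𝓝 0] fun _ => 1) :
    ∑ d, ∫ z, pc χ (fun w => kp * ((1 + I) / 2) * (zt w / w)) (z - x i) d * lv (ucol x i g z) d =
      -((1 - I) * Ai x i g).re := by
  rw [(eval_gen hr0 hr hg hgi hχ hs h1 _).2]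
  have h2 := kp_sq
  have e : (kp : ℂ) * ((1 + I) / 2) * (2 * I) * Ai x i g = (kp : ℂ) * (-((1 - I) * Ai x i g)) := by
    have := I_mul_I
    linear_combination ((kp : ℂ) * Ai x i g) * this
  rw [e, re_ofReal_mul, neg_re]
  calc 2 * Real.pi * xc * kp * (kp * -((1 - I) * Ai x i g).re)
      = (2 * Real.pi * Crest.Agent.R165.Latx683.xc * kp ^ 2) * -((1 - I) * Ai x i g).re := by ring
    _ = _ := by
      have h3 : 2 * Real.pi * Crest.Agent.R165.Latx683.xc * kp ^ 2 = 1 := h2
      rw [h3, one_mul]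

/-- **evaluation, simple pole** (two insertions) -/
theorem eval_S {x : Fin n → ℂ} {j : Fin n} {r : ℝ} (hr0 : 0 < r) (hr : Sep x j r)
    {g : ℂ → ℂ} (hg : DifferentiableOn ℂ g (ball (x j) r))
    {χ : ℂ → ℝ} (hχ : ContDiff ℝ 1 χ) (hs : tsupport χ ⊆ ball 0 r) (h1 : χ =ᶠ[𝓝 0] fun _ => 1) :
    (∀ d, Integrable fun z => pc χ (fun w => -(kp : ℂ) * zt w) (z - x j) d * lv (ucol x j g z) d) ∧
    ∑ d, ∫ z, pc χ (fun w => -(kp : ℂ) * zt w) (z - x j) d * lv (ucol x j g z) d =
      (g (x j) / (I * gsrc x j)).re := by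
  set m : ℂ → ℂ := fun z => g z / Rloc x j z with hm
  have hmd := m_diff hr hg
  have hae : ∀ᵐ z : ℂ, ∀ j, z.im ≠ (x j).im := ae_all_iff.2 fun j => ae_im_ne _
  set K : ℂ := -(kp : ℂ) * kp * e8 * I with hK
  have hmc : ContinuousOn m (ball (x j) r \ {x j}) := hmd.continuousOn.mono sdiff_subset
  obtain ⟨ha, hb⟩ := pair_eval (x0 := x j) hχ hs h1 (c := fun w => -(kp : ℂ) * zt w)
    (u := ucol x j g) (P1 := fun z => K * m z / (z - x j))
    (P2 := fun z => kp * kp * I * ((((‖x j - z‖ ^ (-(1/2) : ℝ)) ^ 2 : ℝ) : ℂ)) * conj (e8 * m z))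
    ((continuousOn_const.mul hmc).div (by fun_prop) fun z hz => sub_ne_zero.2 hz.2)
    ((continuousOn_const.mul (cont_norm _ _)).mul
      (continuous_conj.comp_continuousOn (continuousOn_const.mul hmc)))
    (by
      filter_upwards [hae] with z hz _ hzx
      have h2 : z - x j ≠ 0 := sub_ne_zero.2 hzx
      have h3 : x j - z ≠ 0 := sub_ne_zero.2 (Ne.symm hzx)
      rw [ucol_eq hz, zt_sub]
      have h4 := half_mul (x j - z) h3
      have h5 : (x j - z)⁻¹ = -(z - x j)⁻¹ := by rw [← neg_sub, neg_inv]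
      rw [h5] at h4
      simp only [hm, hK]
      calc -(kp : ℂ) * (-I * (x j - z) ^ (-(1/2) : ℂ)) *
            ((kp : ℂ) * e8 * (g z / Rloc x j z) * (x j - z) ^ (-(1/2) : ℂ))
          = kp * kp * e8 * I * (g z / Rloc x j z) *
            ((x j - z) ^ (-(1/2) : ℂ) * (x j - z) ^ (-(1/2) : ℂ)) := by ring
        _ = _ := by rw [h4]; field_simp)
    (by
      filter_upwards [hae] with z hz _ hzx
      rw [ucol_eq hz, zt_sub]
      have h4 := half_conj (x j - z)
      rw [← h4]
      simp only [map_mul, conj_ofReal, hm]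
      ring)
  refine ⟨ha, ?_⟩
  rw [hb]
  have e1 := ResIntx439.integral_db_pole (x := x j) hr0 (H := fun z => K * m z / (z - x j))
    (g := fun z => K * m z) (hmd.const_mul K) (fun z _ hzx => by
      have : z - x j ≠ 0 := sub_ne_zero.2 hzx
      field_simp) (chs_contDiff hχ (x j)) (tsupport_chs hs) (chs_one h1)
  rw [e1]
  have hR := Rloc_ne hr (mem_ball_self hr0)
  have h8 : e8 ≠ 0 := by unfold e8; exact Complex.exp_ne_zero _
  have hgs : gsrc x j ≠ 0 := by rw [← e8_Rloc]; exact mul_ne_zero h8 hR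
  have e3 : I * (-(2 * Real.pi) * (K * m (x j))) =
      ((2 * Real.pi * kp ^ 2 : ℝ) : ℂ) * (g (x j) / (I * gsrc x j)) := by
    have hI := I_mul_I
    have h8s := e8_sq
    rw [hK, hm, ← e8_Rloc]
    push_cast
    have hI0 := I_ne_zero
    have e4 : g (x j) / (I * (e8 * Rloc x j (x j))) = -e8 * (g (x j) / Rloc x j (x j)) := by
      rw [div_eq_iff (mul_ne_zero hI0 (mul_ne_zero h8 hR))]
      have : -e8 * (g (x j) / Rloc x j (x j)) * (I * (e8 * Rloc x j (x j))) =
          -(e8 ^ 2 * I) * (g (x j) / Rloc x j (x j) * Rloc x j (x j)) := by ring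
      rw [this, div_mul_cancel₀ _ hR, h8s, hI]; ring
    rw [e4]
    linear_combination (2 * Real.pi * kp * kp * e8 * (g (x j) / Rloc x j (x j))) * hI
  rw [e3, re_ofReal_mul]
  have h2 : 2 * Real.pi * Crest.Agent.R165.Latx683.xc * kp ^ 2 = 1 := kp_sq
  calc xc * (2 * Real.pi * kp ^ 2 * (g (x j) / (I * gsrc x j)).re)
      = (2 * Real.pi * Crest.Agent.R165.Latx683.xc * kp ^ 2) * (g (x j) / (I * gsrc x j)).re := by
        ring
    _ = _ := by rw [h2, one_mul]

/-! ### gauge signs along the lattice approximation -/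

/-- off the lines through the insertions -/
theorem ev_kap {ι : Type*} {l : Filter ι} {a : ι → ℝ} {X : ι → Fin n → ℤ × ℤ} {f : ι → ℤ × ℤ}
    {x : Fin n → ℂ} {z : ℂ} (ha : ∀ᶠ k in l, 0 < a k)
    (hX : ∀ j, Tendsto (fun k => fpt (a k) (X k j)) l (𝓝 (x j)))
    (hf : Tendsto (fun k => fpt (a k) (f k)) l (𝓝 z)) (hz : ∀ j, z.im ≠ (x j).im) (i : Fin n) :
    ∀ᶠ k in l, kap x (X k) (x i) (f k) = lsg x i z ∧ kap x (X k) z (f k) = 1 := by
  have h1 : ∀ j, ∀ᶠ k in l, (z.im < (x j).im → (f k).2 < (X k j).2) ∧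
      ((x j).im < z.im → (X k j).2 < (f k).2) := by
    intro j
    have hfi : Tendsto (fun k => a k * ((f k).2 : ℝ)) l (𝓝 z.im) :=
      (continuous_im.tendsto z).comp hf
    have hXi : Tendsto (fun k => a k * ((X k j).2 : ℝ)) l (𝓝 (x j).im) :=
      (continuous_im.tendsto (x j)).comp (hX j)
    rcases lt_or_gt_of_ne (hz j) with h | h
    · filter_upwards [hfi.eventually_lt hXi h, ha] with k h2 h3
      refine ⟨fun _ => ?_, fun h' => absurd h' (not_lt.2 h.le)⟩
      exact_mod_cast lt_of_mul_lt_mul_left h2 h3.le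
    · filter_upwards [hXi.eventually_lt hfi h, ha] with k h2 h3
      refine ⟨fun h' => absurd h' (not_lt.2 h.le), fun _ => ?_⟩
      exact_mod_cast lt_of_mul_lt_mul_left h2 h3.le
  filter_upwards [eventually_all.2 h1] with k hk
  constructor
  · rw [Gr3x813.kap_eq_prod]
    unfold lsg
    refine Finset.prod_congr rfl fun j _ => ?_
    by_cases hc : (x j).im = (x i).im ∧ (x j).re < (x i).re
    · rcases lt_or_gt_of_ne (hz j) with h | h
      · rw [if_pos ⟨hc.1, hc.2, (hk j).1 h⟩, if_pos ⟨hc.1, hc.2, hc.1 ▸ h⟩]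
      · have h2 := (hk j).2 h
        have h3 : ¬ z.im < (x i).im := by rw [← hc.1]; exact not_lt.2 h.le
        rw [if_neg (fun h' => absurd h'.2.2 (not_lt.2 h2.le)), if_neg (fun h' => h3 h'.2.2)]
    · rw [if_neg (fun h => hc ⟨h.1, h.2.1⟩), if_neg (fun h => hc ⟨h.1, h.2.1⟩)]
  · rw [Gr3x813.kap_eq_prod]
    exact Finset.prod_eq_one fun j _ => if_neg fun h => hz j h.1.symm

end loc

end Crest.Agent.R165.Evalx644
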