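import Crest.Prelude.Def_PerturbedIsing

-- ▼ part R165/ConfTop_641
section

/-!
# Row 165 (S0250), block U5: configuration spaces of planar domains are connected (helper641)

* `Conf n D`      : injective `n`-tuples of points of `D`
* `isPreconnected_sdiff_singleton` : an open preconnected subset of `ℂ` minus a point is preconnected
* `isPreconnected_sdiff_finset`
* `Conf.isOpen`, `Conf.isPreconnected`
-/

set_option autoImplicit false

noncomputable section

open Filter Topology Set

namespace Crest.Agent.R165.ConfTopx641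

/-- punctured discs are preconnected -/
theorem isPreconnected_punctured_ball (p : ℂ) (r : ℝ) :
    IsPreconnected (Metric.ball p r \ {p}) := by
  have h : Metric.ball p r \ {p} =
      (fun q : ℝ × ℝ => p + q.1 * Complex.exp (q.2 * Complex.I)) '' (Ioo 0 r ×ˢ univ) := by
    ext z
    constructor
    · rintro ⟨hz, hzp⟩
      have hne : z - p ≠ 0 := sub_ne_zero.2 hzp
      refine ⟨(‖z - p‖, Complex.arg (z - p)), ⟨⟨norm_pos_iff.2 hne, ?_⟩, mem_univ _⟩, ?_⟩
      · rw [Metric.mem_ball, dist_eq_norm] at hz; exact hz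
      · simp only
        rw [Complex.norm_mul_exp_arg_mul_I]; ring
    · rintro ⟨⟨ρ, θ⟩, ⟨⟨h0, hr⟩, _⟩, rfl⟩
      simp only at h0 hr ⊢
      have hn : ‖(ρ : ℂ) * Complex.exp (θ * Complex.I)‖ = ρ := by
        rw [norm_mul, Complex.norm_exp_ofReal_mul_I, mul_one, Complex.norm_real,
          Real.norm_of_nonneg h0.le]
      refine ⟨?_, ?_⟩
      · rw [Metric.mem_ball, dist_eq_norm, add_sub_cancel_left, hn]; exact hr
      · intro h
        have h1 : (ρ : ℂ) * Complex.exp (θ * Complex.I) = 0 := by
          have : p + (ρ : ℂ) * Complex.exp (θ * Complex.I) = p := h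
          simpa using this
        rw [h1, norm_zero] at hn
        exact h0.ne hn
  rw [h]
  refine IsPreconnected.image ?_ _ ?_
  · exact isPreconnected_Ioo.prod isPreconnected_univ
  · refine Continuous.continuousOn ?_
    fun_prop

/-- an open preconnected set minus a point is preconnected -/
theorem isPreconnected_sdiff_singleton {U : Set ℂ} (hU : IsOpen U) (hc : IsPreconnected U) (p : ℂ) :
    IsPreconnected (U \ {p}) := by
  by_cases hp : p ∈ U
  swap
  · rwa [sdiff_singleton_eq_self hp]
  obtain ⟨r, hr, hball⟩ := Metric.isOpen_iff.1 hU p hp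
  rw [isPreconnected_iff_subset_of_disjoint]
  intro u v hu hv huv hdis
  -- the punctured ball is in one of them
  have key : ∀ u v : Set ℂ, IsOpen u → IsOpen v → U \ {p} ⊆ u ∪ v → (U \ {p}) ∩ (u ∩ v) = ∅ →
      Metric.ball p r \ {p} ⊆ u → (U \ {p}) ⊆ u := by
    intro u v hu hv huv hdis hb
    by_contra hcon
    obtain ⟨y, hyU, hyu⟩ := not_subset.1 hcon
    have hyv : y ∈ v := (huv hyU).resolve_left hyu
    have h1 := hc (u ∪ Metric.ball p r) (v ∩ {p}ᶜ) (hu.union Metric.isOpen_ball)
      (hv.inter isOpen_compl_singleton) ?_ ⟨p, hp, Or.inr (Metric.mem_ball_self hr)⟩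
      ⟨y, hyU.1, hyv, hyU.2⟩
    · obtain ⟨z, hzU, hz1, hz2⟩ := h1
      have hzU' : z ∈ U \ {p} := ⟨hzU, hz2.2⟩
      have hzu : z ∈ u := by
        rcases hz1 with h | h
        · exact h
        · exact hb ⟨h, hz2.2⟩
      have : z ∈ (U \ {p}) ∩ (u ∩ v) := ⟨hzU', hzu, hz2.1⟩
      rw [hdis] at this
      exact this
    · intro z hz
      by_cases hzp : z = p
      · exact Or.inl (Or.inr (hzp ▸ Metric.mem_ball_self hr))
      · rcases huv ⟨hz, hzp⟩ with h | h
        · exact Or.inl (Or.inl h)
        · exact Or.inr ⟨h, hzp⟩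
  have hsub : Metric.ball p r \ {p} ⊆ U \ {p} := sdiff_subset_sdiff_left hball
  have hpb := isPreconnected_iff_subset_of_disjoint.1 (isPreconnected_punctured_ball p r) u v hu hv
    (hsub.trans huv) (by
      apply subset_empty_iff.1
      rw [← hdis]
      exact inter_subset_inter_left _ hsub)
  rcases hpb with h | h
  · exact Or.inl (key u v hu hv huv hdis h)
  · exact Or.inr (key v u hv hu (by rwa [union_comm]) (by rwa [inter_comm v u]) h)

/-- an open preconnected set minus a finite set is preconnected -/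
theorem isPreconnected_sdiff_finset {U : Set ℂ} (hU : IsOpen U) (hc : IsPreconnected U)
    (F : Finset ℂ) : IsOpen (U \ F) ∧ IsPreconnected (U \ (F : Set ℂ)) := by
  classical
  induction F using Finset.induction_on with
  | empty => simpa using ⟨hU, hc⟩
  | insert a s _ ih =>
    have e : U \ (insert a s : Finset ℂ) = (U \ (s : Set ℂ)) \ {a} := by
      ext z; simp only [Finset.coe_insert, Set.mem_sdiff, mem_insert_iff, mem_singleton_iff, not_or]
      tauto
    rw [e]
    exact ⟨ih.1.sdiff isClosed_singleton, isPreconnected_sdiff_singleton ih.1 ih.2 a⟩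

/-- the configuration space -/
def Conf (n : ℕ) (D : Set ℂ) : Set (Fin n → ℂ) := {x | (∀ i, x i ∈ D) ∧ Function.Injective x}

theorem Conf.isOpen (n : ℕ) {D : Set ℂ} (hD : IsOpen D) : IsOpen (Conf n D) := by
  have h : Conf n D = (⋂ i, {x : Fin n → ℂ | x i ∈ D}) ∩
      (⋂ i, ⋂ j, {x : Fin n → ℂ | i ≠ j → x i ≠ x j}) := by
    ext x
    simp only [Conf, mem_ofPred_eq, mem_inter_iff, mem_iInter, Function.Injective]
    refine and_congr Iff.rfl ⟨fun h i j hij hx => hij (h hx), fun h i j hx => ?_⟩
    by_contra hij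
    exact h i j hij hx
  rw [h]
  refine (isOpen_iInter_of_finite fun i => hD.preimage (continuous_apply i)).inter
    (isOpen_iInter_of_finite fun i => isOpen_iInter_of_finite fun j => ?_)
  by_cases hij : i = j
  · simp [hij]
  · have : {x : Fin n → ℂ | i ≠ j → x i ≠ x j} = {x : Fin n → ℂ | x i ≠ x j} := by
      ext x; simp [hij]
    rw [this]
    exact isOpen_ne_fun (continuous_apply i) (continuous_apply j)

/-- the mixture of two configurations: coordinates in `S` from `y`, others from `x` -/
def mix {n : ℕ} (S : Finset (Fin n)) (x y : Fin n → ℂ) : Fin n → ℂ := fun i => if i ∈ S then y i else x i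

theorem mix_mem_conf {n : ℕ} {D : Set ℂ} {x y : Fin n → ℂ} (hx : x ∈ Conf n D) (hy : y ∈ Conf n D)
    (hxy : ∀ i j, x i ≠ y j) (S : Finset (Fin n)) : mix S x y ∈ Conf n D := by
  refine ⟨fun i => ?_, fun i j hij => ?_⟩
  · simp only [mix]; split_ifs
    · exact hy.1 i
    · exact hx.1 i
  · simp only [mix] at hij
    split_ifs at hij with h1 h2 h2
    · exact hy.2 hij
    · exact absurd hij.symm (hxy _ _)
    · exact absurd hij (hxy _ _)
    · exact hx.2 hij

/-- infinitely many points: a configuration avoiding a finite set -/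
theorem exists_avoid (n : ℕ) {D : Set ℂ} (hD : IsOpen D) (hne : D.Nonempty) (F : Finset ℂ) :
    ∃ w ∈ Conf n D, ∀ i, w i ∉ F := by
  have hinf : D.Infinite := by
    obtain ⟨p, hp⟩ := hne
    exact infinite_of_mem_nhds p (hD.mem_nhds hp)
  have hinf' : (D \ (F : Set ℂ)).Infinite := hinf.sdiff F.finite_toSet
  let f := hinf'.natEmbedding
  refine ⟨fun i => (f i : ℂ), ⟨fun i => (f i).2.1, fun i j hij => ?_⟩, fun i => (f i).2.2⟩
  have : f i = f j := Subtype.ext hij
  exact Fin.ext (f.injective this)

/-- moving one coordinate inside a connected fibre: an equivalence relation which is locally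
trivial on `Conf n D` is preserved -/
theorem rel_of_local {n : ℕ} {D : Set ℂ} (hD : IsOpen D) (hc : IsPreconnected D)
    (P : (Fin n → ℂ) → (Fin n → ℂ) → Prop)
    (hloc : ∀ x ∈ Conf n D, ∀ᶠ y in 𝓝 x, P x y)
    (htr : ∀ x y z, x ∈ Conf n D → y ∈ Conf n D → z ∈ Conf n D → P x y → P y z → P x z)
    (hsy : ∀ x y, x ∈ Conf n D → y ∈ Conf n D → P x y → P y x)
    {x y : Fin n → ℂ} (hx : x ∈ Conf n D) (hy : y ∈ Conf n D) : P x y := by
  classical
  have hrefl : ∀ x ∈ Conf n D, P x x := fun x hx => (hloc x hx).self_of_nhds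
  -- one coordinate
  have one : ∀ x ∈ Conf n D, ∀ i : Fin n, ∀ z : ℂ, Function.update x i z ∈ Conf n D →
      P x (Function.update x i z) := by
    intro x hx i z hz
    let F : Finset ℂ := (Finset.univ.erase i).image x
    obtain ⟨hFo, hFc⟩ := isPreconnected_sdiff_finset hD hc F
    have hmem : ∀ w, w ∈ D \ (F : Set ℂ) ↔ Function.update x i w ∈ Conf n D := by
      intro w
      constructor
      · rintro ⟨hwD, hwF⟩
        have hne : ∀ j, j ≠ i → x j ≠ w := by
          intro j hj e
          apply hwF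
          simp only [F, Finset.coe_image, mem_image, Finset.mem_coe, Finset.mem_erase,
            Finset.mem_univ, and_true]
          exact ⟨j, hj, e⟩
        refine ⟨fun j => ?_, fun j k hjk => ?_⟩
        · by_cases hj : j = i
          · subst hj; simpa using hwD
          · rw [Function.update_of_ne hj]; exact hx.1 j
        · by_cases hj : j = i
          · by_cases hk : k = i
            · rw [hj, hk]
            · exfalso
              subst hj
              rw [Function.update_self, Function.update_of_ne hk] at hjk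
              exact hne k hk hjk.symm
          · by_cases hk : k = i
            · exfalso
              subst hk
              rw [Function.update_self, Function.update_of_ne hj] at hjk
              exact hne j hj hjk
            · rw [Function.update_of_ne hj, Function.update_of_ne hk] at hjk
              exact hx.2 hjk
      · intro hw
        refine ⟨by simpa using hw.1 i, ?_⟩
        simp only [F, Finset.coe_image, mem_image, Finset.mem_coe, Finset.mem_erase,
          Finset.mem_univ, and_true, not_exists, not_and]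
        intro j hj e
        apply hj
        apply hw.2
        rw [Function.update_of_ne hj, Function.update_self, e]
    have hxi : x i ∈ D \ (F : Set ℂ) := by
      rw [hmem, Function.update_eq_self]; exact hx
    have hzi : z ∈ D \ (F : Set ℂ) := (hmem z).2 hz
    have := hFc.induction₂ (fun w w' => P (Function.update x i w) (Function.update x i w'))
      (fun w hw => by
        have hcont : Tendsto (fun w' : ℂ => Function.update x i w') (𝓝 w)
            (𝓝 (Function.update x i w)) := by
          have : Continuous fun w' : ℂ => Function.update x i w' :=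
            continuous_const.update i continuous_id
          exact this.tendsto w
        exact (hcont.eventually (hloc _ ((hmem w).1 hw))).filter_mono nhdsWithin_le_nhds)
      (fun a b c ha hb hcc => htr _ _ _ ((hmem a).1 ha) ((hmem b).1 hb) ((hmem c).1 hcc))
      (fun a b ha hb => hsy _ _ ((hmem a).1 ha) ((hmem b).1 hb)) hxi hzi
    simpa using this
  -- disjoint configurations
  have disj : ∀ x ∈ Conf n D, ∀ w ∈ Conf n D, (∀ i j, x i ≠ w j) → P x w := by
    intro x hx w hw hxw
    have hS : ∀ S : Finset (Fin n), P x (mix S x w) := by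
      intro S
      induction S using Finset.induction_on with
      | empty =>
        have : mix ∅ x w = x := by funext i; simp [mix]
        rw [this]; exact hrefl x hx
      | insert a s ha ih =>
        have e : mix (insert a s) x w = Function.update (mix s x w) a (w a) := by
          funext j
          by_cases hj : j = a
          · subst hj; simp [mix]
          · rw [Function.update_of_ne hj]; simp [mix, hj]
        have h1 := mix_mem_conf hx hw hxw s
        have h2 := mix_mem_conf hx hw hxw (insert a s)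
        refine htr _ _ _ hx h1 h2 ih ?_
        rw [e] at h2 ⊢
        exact one _ h1 a _ h2
    have := hS Finset.univ
    have e : mix Finset.univ x w = w := by funext i; simp [mix]
    rwa [e] at this
  rcases n.eq_zero_or_pos with hn | hn
  · subst hn
    have : x = y := Subsingleton.elim _ _
    rw [this]; exact hrefl y hy
  obtain ⟨w, hw, hwF⟩ := exists_avoid n hD ⟨x ⟨0, hn⟩, hx.1 _⟩
    (Finset.univ.image x ∪ Finset.univ.image y)
  have h1 : ∀ i j, x i ≠ w j := by
    intro i j e
    apply hwF j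
    rw [Finset.mem_union]; left
    exact Finset.mem_image.2 ⟨i, Finset.mem_univ _, e⟩
  have h2 : ∀ i j, y i ≠ w j := by
    intro i j e
    apply hwF j
    rw [Finset.mem_union]; right
    exact Finset.mem_image.2 ⟨i, Finset.mem_univ _, e⟩
  exact htr _ _ _ hx hw hy (disj x hx w hw h1) (hsy _ _ hy hw (disj y hy w hw h2))

/-- **configuration spaces of connected open planar sets are preconnected** -/
theorem Conf.isPreconnected (n : ℕ) {D : Set ℂ} (hD : IsOpen D) (hc : IsPreconnected D) :
    IsPreconnected (Conf n D) := by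
  intro u v hu hv huv ⟨x, hx, hxu⟩ ⟨y, hy, hyv⟩
  by_contra hcon
  have hdis : ∀ z ∈ Conf n D, z ∈ u → z ∉ v := fun z hz h1 h2 => hcon ⟨z, hz, h1, h2⟩
  have := rel_of_local hD hc (fun a b => (a ∈ u → b ∈ u) ∧ (b ∈ u → a ∈ u)) (n := n) ?_ ?_ ?_ hx hy
  · exact hdis y hy (this.1 hxu) hyv
  · intro z hz
    rcases huv hz with h | h
    · filter_upwards [hu.mem_nhds h] with b hb
      exact ⟨fun _ => hb, fun _ => h⟩
    · filter_upwards [hv.mem_nhds h, (Conf.isOpen n hD).mem_nhds hz] with b hb hbc
      exact ⟨fun h' => absurd h (hdis z hz h'), fun h' => absurd hb (hdis b hbc h')⟩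
  · rintro a b c - - - ⟨h1, h2⟩ ⟨h3, h4⟩
    exact ⟨fun h => h3 (h1 h), fun h => h2 (h4 h)⟩
  · rintro a b - - ⟨h1, h2⟩
    exact ⟨h2, h1⟩

end Crest.Agent.R165.ConfTopx641
end
end

-- ▼ part R165/PathInt_641

/-!
# Row 165 (S0250), block U5: integration of discrete log-derivatives (helper641)

A positive family `Z a u` (`a` mesh, `u` lattice configuration) whose one-step ratios have the
expansion `Z a (u + e_j at i) / Z a u = 1 + a g_{ij}(a u) + o(a)` locally uniformly has convergent
ratios, and the limit is the exponential of the integral of `g`.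
-/

set_option autoImplicit false

noncomputable section

open Filter Topology Set
open Crest.ProbabilityR.IsingModel

namespace Crest.Agent.R165.PathIntx641

open ConfTopx641

/-- lattice configuration read in the plane -/
def mc (a : ℝ) {n : ℕ} (u : Fin n → ℤ × ℤ) : Fin n → ℂ := fun i => meshPoint a (u i)

/-- shift of coordinate `i` by the lattice vector `v` -/
def sh {n : ℕ} (u : Fin n → ℤ × ℤ) (i : Fin n) (v : ℤ × ℤ) : Fin n → ℤ × ℤ :=
  Function.update u i (u i + v)

/-- the complex number of a lattice vector -/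
def cv (v : ℤ × ℤ) : ℂ := ⟨v.1, v.2⟩

/-- shift of coordinate `i` by the complex number `w` -/
def csh {n : ℕ} (x : Fin n → ℂ) (i : Fin n) (w : ℂ) : Fin n → ℂ :=
  Function.update x i (x i + w)

theorem meshPoint_eq (a : ℝ) (v : ℤ × ℤ) : meshPoint a v = a * cv v := by
  apply Complex.ext <;> simp [meshPoint, cv]

theorem cv_add (v w : ℤ × ℤ) : cv (v + w) = cv v + cv w := by
  apply Complex.ext <;> simp [cv]

theorem cv_smul (k : ℤ) (v : ℤ × ℤ) : cv (k • v) = k * cv v := by
  apply Complex.ext <;> simp [cv]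

theorem mc_sh (a : ℝ) {n : ℕ} (u : Fin n → ℤ × ℤ) (i : Fin n) (v : ℤ × ℤ) :
    mc a (sh u i v) = csh (mc a u) i (a * cv v) := by
  funext j
  by_cases hj : j = i
  · subst hj
    simp only [mc, sh, csh, Function.update_self, meshPoint_eq, cv_add]; ring
  · simp only [mc, sh, csh, Function.update_of_ne hj]

theorem sh_sh {n : ℕ} (u : Fin n → ℤ × ℤ) (i : Fin n) (v w : ℤ × ℤ) :
    sh (sh u i v) i w = sh u i (v + w) := by
  simp only [sh, Function.update_self, Function.update_idem, add_assoc]

@[simp] theorem sh_zero {n : ℕ} (u : Fin n → ℤ × ℤ) (i : Fin n) : sh u i 0 = u := by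
  simp [sh]

@[simp] theorem csh_zero {n : ℕ} (x : Fin n → ℂ) (i : Fin n) : csh x i 0 = x := by
  simp [csh]

theorem csh_csh {n : ℕ} (u : Fin n → ℂ) (i : Fin n) (v w : ℂ) :
    csh (csh u i v) i w = csh u i (v + w) := by
  simp only [csh, Function.update_self, Function.update_idem, add_assoc]

theorem dist_csh_le {n : ℕ} (x y : Fin n → ℂ) (i : Fin n) (w w' : ℂ) :
    dist (csh x i w) (csh y i w') ≤ dist x y + ‖w - w'‖ := by
  rw [dist_pi_le_iff (by positivity)]
  intro j
  by_cases hj : j = i
  · subst hj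
    simp only [csh, Function.update_self]
    calc dist (x j + w) (y j + w') ≤ dist (x j) (y j) + dist w w' := dist_add_add_le _ _ _ _
      _ ≤ dist x y + ‖w - w'‖ := add_le_add (dist_le_pi_dist x y j) (dist_eq_norm w w').le
  · simp only [csh, Function.update_of_ne hj]
    exact (dist_le_pi_dist x y j).trans (le_add_of_nonneg_right (norm_nonneg _))

theorem continuous_csh {n : ℕ} (x : Fin n → ℂ) (i : Fin n) : Continuous fun w : ℂ => csh x i w := by
  unfold csh
  exact continuous_const.update i (continuous_const.add continuous_id)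

/-- one-step expansion in direction `v` for coordinate `i` -/
def LDv {n : ℕ} (U : Set (Fin n → ℂ)) (Z : ℝ → (Fin n → ℤ × ℤ) → ℝ) (i : Fin n) (v : ℤ × ℤ)
    (g : (Fin n → ℂ) → ℝ) : Prop :=
  ∀ ε > 0, ∀ᶠ a in 𝓝[>] (0 : ℝ), ∀ u : Fin n → ℤ × ℤ, mc a u ∈ U →
    |Z a (sh u i v) / Z a u - 1 - a * g (mc a u)| ≤ ε * a

/-- positivity on `U` -/
def PosOn {n : ℕ} (U : Set (Fin n → ℂ)) (Z : ℝ → (Fin n → ℤ × ℤ) → ℝ) : Prop :=
  ∀ᶠ a in 𝓝[>] (0 : ℝ), ∀ u : Fin n → ℤ × ℤ, mc a u ∈ U → 0 < Z a u

/-- elementary bound for the logarithm -/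
theorem log_bound {r m a ε M : ℝ} (ha : 0 < a) (hm : |m| ≤ M)
    (h : |r - 1 - a * m| ≤ ε * a) (hsm : a * (M + ε) ≤ 1 / 2) (hsm2 : a * (2 * (M + ε) ^ 2) ≤ ε) :
    |Real.log r - a * m| ≤ 2 * ε * a := by
  set y := r - 1 with hy
  have h1 : |y| ≤ a * (M + ε) := by
    have e : y = (y - a * m) + a * m := by ring
    rw [e]
    refine (abs_add_le _ _).trans ?_
    rw [abs_mul, abs_of_pos ha]
    have := mul_le_mul_of_nonneg_left hm ha.le
    linarith
  have h2 : |y| ≤ 1 / 2 := h1.trans hsm
  have hrpos : 0 < r := by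
    have := (abs_le.1 h2).1
    rw [hy] at this; linarith
  have hup : Real.log r ≤ y := by
    have := Real.log_le_sub_one_of_pos hrpos
    rw [hy]; exact this
  have hlo : y - 2 * y ^ 2 ≤ Real.log r := by
    have h3 := Real.one_sub_inv_le_log_of_pos hrpos
    have h4 : y - 2 * y ^ 2 ≤ 1 - r⁻¹ := by
      have hr : r = 1 + y := by rw [hy]; ring
      have hr2 : (1 : ℝ) / 2 ≤ r := by
        have := (abs_le.1 h2).1
        rw [hr]; linarith
      have e : 1 - r⁻¹ = y / r := by
        field_simp
        rw [hy]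
      rw [e, le_div_iff₀ hrpos, hr]
      nlinarith [sq_nonneg y, mul_nonneg (sq_nonneg y) (by linarith [(abs_le.1 h2).1] : 0 ≤ 1 + 2 * y)]
    linarith
  have hy2 : 2 * y ^ 2 ≤ ε * a := by
    have h5 : y ^ 2 ≤ (a * (M + ε)) ^ 2 := by
      rw [← sq_abs y]
      exact pow_le_pow_left₀ (abs_nonneg _) h1 2
    calc 2 * y ^ 2 ≤ 2 * (a * (M + ε)) ^ 2 := by linarith
      _ = a * (a * (2 * (M + ε) ^ 2)) := by ring
      _ ≤ a * ε := mul_le_mul_of_nonneg_left hsm2 ha.le
      _ = ε * a := mul_comm _ _
  obtain ⟨hA, hB⟩ := abs_le.1 h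
  rw [abs_le]
  constructor <;> nlinarith

/-- **segment lemma** (natural number of steps) -/
theorem segment {n : ℕ} {U : Set (Fin n → ℂ)} (hU : IsOpen U) {Z : ℝ → (Fin n → ℤ × ℤ) → ℝ}
    (hpos : PosOn U Z) {i : Fin n} {v : ℤ × ℤ} {g : (Fin n → ℂ) → ℝ} (hg : ContinuousOn g U)
    (hLD : LDv U Z i v g) {x : Fin n → ℂ} {T : ℝ} (hT : 0 ≤ T)
    (hseg : ∀ s ∈ Icc 0 T, csh x i (s * cv v) ∈ U) {l : Filter ℝ} (hl : l ≤ 𝓝[>] 0)
    {u : ℝ → Fin n → ℤ × ℤ} (hu : Tendsto (fun a => mc a (u a)) l (𝓝 x))
    {N : ℝ → ℕ} (hN : Tendsto (fun a => a * (N a : ℝ)) l (𝓝 T)) :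
    Tendsto (fun a => Z a (sh (u a) i ((N a : ℤ) • v)) / Z a (u a)) l
      (𝓝 (Real.exp (∫ s in (0 : ℝ)..T, g (csh x i (s * cv v))))) := by
  classical
  set c : ℝ := ‖cv v‖ with hc
  have hc0 : 0 ≤ c := norm_nonneg _
  -- the compact segment
  set γ : ℝ → Fin n → ℂ := fun s => csh x i (s * cv v) with hγ
  have hγc : Continuous γ :=
    (continuous_csh x i).comp (Complex.continuous_ofReal.mul continuous_const)
  have hKc : IsCompact (γ '' Icc 0 T) := isCompact_Icc.image hγc
  have hKU : γ '' Icc 0 T ⊆ U := by rintro _ ⟨s, hs, rfl⟩; exact hseg s hs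
  obtain ⟨δ, hδ, hδU⟩ := hKc.exists_cthickening_subset_open hU hKU
  set K' := Metric.cthickening δ (γ '' Icc 0 T) with hK'
  have hK'c : IsCompact K' := hKc.cthickening
  have hgK : ContinuousOn g K' := hg.mono hδU
  obtain ⟨M0, hM0⟩ := hK'c.exists_bound_of_continuousOn hgK
  set M := max M0 0 with hM
  have hM' : ∀ p ∈ K', |g p| ≤ M := fun p hp => (hM0 p hp).trans (le_max_left _ _)
  have hMnn : 0 ≤ M := le_max_right _ _
  -- the clamped function
  set cl : ℝ → ℝ := fun s => max 0 (min s T) with hcl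
  have hclc : Continuous cl := continuous_const.max (continuous_id.min continuous_const)
  have hclm : ∀ s, cl s ∈ Icc 0 T := fun s => ⟨le_max_left _ _, max_le hT (min_le_right _ _)⟩
  have hcls : ∀ s ∈ Icc 0 T, cl s = s := fun s hs => by
    simp only [hcl]; rw [min_eq_left hs.2, max_eq_right hs.1]
  set h : ℝ → ℝ := fun s => g (γ (cl s)) with hh
  have hhc : Continuous h :=
    hg.comp_continuous (hγc.comp hclc) fun s => hKU (mem_image_of_mem γ (hclm s))
  -- it suffices to treat logarithms
  have hlim2 : Tendsto (fun a => ∫ s in (0 : ℝ)..(a * N a), h s) l (𝓝 (∫ s in (0 : ℝ)..T, h s)) := by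
    have : Continuous fun b : ℝ => ∫ s in (0 : ℝ)..b, h s :=
      intervalIntegral.continuous_primitive (fun a b => hhc.intervalIntegrable a b) 0
    exact (this.tendsto T).comp hN
  have hint : (∫ s in (0 : ℝ)..T, h s) = ∫ s in (0 : ℝ)..T, g (csh x i (s * cv v)) := by
    apply intervalIntegral.integral_congr
    intro s hs
    rw [uIcc_of_le hT] at hs
    simp only [hh, hcls s hs]; rfl
  -- positivity of all the values
  have hmem : ∀ δ' > 0, δ' ≤ δ → ∀ᶠ a in l, 0 < a ∧ ∀ k : ℕ, k ≤ N a →
      ∀ s : ℝ, a * k ≤ s → s ≤ a * (k + 1) → (s ≤ a * N a ∨ s = a * k) →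
        dist (mc a (sh (u a) i ((k : ℤ) • v))) (γ (cl s)) < δ' := by
    intro δ' hδ' _
    have e1 : ∀ᶠ a in l, 0 < a := hl (eventually_mem_nhdsWithin)
    have e2 : ∀ᶠ a in l, dist (mc a (u a)) x < δ' / 3 :=
      hu.eventually (Metric.ball_mem_nhds x (by positivity))
    have e3 : ∀ᶠ a in l, a * c < δ' / 3 := by
      have : Tendsto (fun a : ℝ => a * c) l (𝓝 (0 * c)) :=
        ((tendsto_id.mono_left (hl.trans nhdsWithin_le_nhds)).mul_const c)
      rw [zero_mul] at this
      exact this.eventually (Iio_mem_nhds (by positivity))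
    have e4 : ∀ᶠ a in l, (a * N a - T) * c < δ' / 3 := by
      have : Tendsto (fun a : ℝ => (a * N a - T) * c) l (𝓝 ((T - T) * c)) :=
        (hN.sub_const T).mul_const c
      rw [sub_self, zero_mul] at this
      exact this.eventually (Iio_mem_nhds (by positivity))
    filter_upwards [e1, e2, e3, e4] with a ha h2 h3 h4
    refine ⟨ha, fun k hk s hs1 hs2 hs3 => ?_⟩
    have hsN : s ≤ a * N a := by
      rcases hs3 with h | h
      · exact h
      · rw [h]; exact mul_le_mul_of_nonneg_left (by exact_mod_cast hk) ha.le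
    have hs0 : 0 ≤ s := le_trans (by positivity) hs1
    rw [mc_sh, hγ]
    refine (dist_csh_le _ _ _ _ _).trans_lt ?_
    have e5 : (a : ℂ) * cv ((k : ℤ) • v) - ((cl s : ℝ) : ℂ) * cv v = ((a * k - cl s : ℝ) : ℂ) * cv v := by
      rw [cv_smul]; push_cast; ring
    have e6 : |a * k - cl s| ≤ a + max 0 (a * N a - T) := by
      by_cases hsT : s ≤ T
      · rw [hcls s ⟨hs0, hsT⟩, abs_le]
        constructor
        · have : 0 ≤ max 0 (a * N a - T) := le_max_left _ _
          nlinarith
        · have : 0 ≤ max 0 (a * N a - T) := le_max_left _ _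
          linarith
      · have hT' : T < s := not_le.1 hsT
        have hcl' : cl s = T := by
          simp only [hcl]; rw [min_eq_right hT'.le, max_eq_right hT]
        rw [hcl', abs_le]
        have : a * N a - T ≤ max 0 (a * N a - T) := le_max_right _ _
        constructor
        · nlinarith
        · nlinarith
    rw [e5, norm_mul, ← hc, Complex.norm_real, Real.norm_eq_abs]
    have e7 : |a * k - cl s| * c ≤ (a + max 0 (a * N a - T)) * c := mul_le_mul_of_nonneg_right e6 hc0
    have e8 : max 0 (a * N a - T) * c ≤ δ' / 3 := by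
      rcases le_total 0 (a * N a - T) with h | h
      · rw [max_eq_right h]; exact h4.le
      · rw [max_eq_left h, zero_mul]; positivity
    nlinarith
  have hmemK : ∀ s, γ (cl s) ∈ γ '' Icc 0 T := fun s => mem_image_of_mem γ (hclm s)
  -- the main estimate
  have hmain : Tendsto (fun a => Real.log (Z a (sh (u a) i ((N a : ℤ) • v)) / Z a (u a)) -
      ∫ s in (0 : ℝ)..(a * N a), h s) l (𝓝 0) := by
    rw [Metric.tendsto_nhds]
    intro η hη
    set ε : ℝ := η / (4 * (T + 1)) with hε
    have hT1 : 0 < T + 1 := by linarith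
    have hεpos : 0 < ε := by positivity
    obtain ⟨δ1, hδ1, huc⟩ := Metric.uniformContinuousOn_iff.1
      (hK'c.uniformContinuousOn_of_continuous hgK) ε hεpos
    set δ' := min δ δ1 with hδ'
    have hδ'pos : 0 < δ' := lt_min hδ hδ1
    have f1 := hmem δ' hδ'pos (min_le_left _ _)
    have f2 : ∀ᶠ a in l, ∀ u : Fin n → ℤ × ℤ, mc a u ∈ U → 0 < Z a u := hl hpos
    have f3 : ∀ᶠ a in l, ∀ u : Fin n → ℤ × ℤ, mc a u ∈ U →
        |Z a (sh u i v) / Z a u - 1 - a * g (mc a u)| ≤ ε * a := hl (hLD ε hεpos)
    have f4 : ∀ᶠ a in l, a * (M + ε) ≤ 1 / 2 := by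
      have : Tendsto (fun a : ℝ => a * (M + ε)) l (𝓝 (0 * (M + ε))) :=
        (tendsto_id.mono_left (hl.trans nhdsWithin_le_nhds)).mul_const _
      rw [zero_mul] at this
      exact this.eventually (Iic_mem_nhds (by norm_num))
    have f5 : ∀ᶠ a in l, a * (2 * (M + ε) ^ 2) ≤ ε := by
      have : Tendsto (fun a : ℝ => a * (2 * (M + ε) ^ 2)) l (𝓝 (0 * (2 * (M + ε) ^ 2))) :=
        (tendsto_id.mono_left (hl.trans nhdsWithin_le_nhds)).mul_const _
      rw [zero_mul] at this
      exact this.eventually (Iic_mem_nhds hεpos)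
    have f6 : ∀ᶠ a in l, a * N a ≤ T + 1 := hN.eventually (Iic_mem_nhds (by linarith))
    filter_upwards [f1, f2, f3, f4, f5, f6] with a ⟨ha, h1⟩ h2 h3 h4 h5 h6
    -- the points of the discrete path
    set w : ℕ → Fin n → ℤ × ℤ := fun k => sh (u a) i ((k : ℤ) • v) with hw
    have hwsucc : ∀ k, w (k + 1) = sh (w k) i v := by
      intro k
      simp only [hw, sh_sh]
      congr 1
      push_cast
      rw [add_smul, one_smul]
    have hwK : ∀ k ≤ N a, mc a (w k) ∈ K' := by
      intro k hk
      have := h1 k hk (a * k) le_rfl (by nlinarith) (Or.inr rfl)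
      exact Metric.mem_cthickening_of_dist_le _ _ _ _ (hmemK _) (this.le.trans (min_le_left _ _))
    have hwU : ∀ k ≤ N a, mc a (w k) ∈ U := fun k hk => hδU (hwK k hk)
    have hzpos : ∀ k ≤ N a, 0 < Z a (w k) := fun k hk => h2 _ (hwU k hk)
    have hw0 : w 0 = u a := by simp [hw]
    have hstep : ∀ k ∈ Finset.range (N a),
        ‖(Real.log (Z a (w (k + 1))) - Real.log (Z a (w k))) -
          ∫ s in (a * k)..(a * ((k + 1 : ℕ) : ℝ)), h s‖ ≤ 3 * ε * a := by
      intro k hk
      have hk' : k < N a := Finset.mem_range.1 hk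
      have hp := hzpos k hk'.le
      have hp1 := hzpos (k + 1) hk'
      rw [← Real.log_div hp1.ne' hp.ne']
      have hb : |Real.log (Z a (w (k + 1)) / Z a (w k)) - a * g (mc a (w k))| ≤ 2 * ε * a := by
        refine log_bound ha (hM' _ (hwK k hk'.le)) ?_ h4 h5
        rw [hwsucc]
        exact h3 _ (hwU k hk'.le)
      have hb2 : ‖(∫ s in (a * k)..(a * ((k + 1 : ℕ) : ℝ)), h s) - a * g (mc a (w k))‖ ≤ ε * a := by
        have e9 : a * g (mc a (w k)) = ∫ _ in (a * (k : ℝ))..(a * ((k + 1 : ℕ) : ℝ)), g (mc a (w k)) := by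
          rw [intervalIntegral.integral_const, smul_eq_mul]
          push_cast; ring
        rw [e9, ← intervalIntegral.integral_sub (hhc.intervalIntegrable _ _)
          intervalIntegrable_const]
        have := intervalIntegral.norm_integral_le_of_norm_le_const
          (f := fun s => h s - g (mc a (w k))) (C := ε) (a := a * (k : ℝ))
          (b := a * ((k + 1 : ℕ) : ℝ)) ?_
        · refine this.trans (le_of_eq ?_)
          have : a * ((k + 1 : ℕ) : ℝ) - a * (k : ℝ) = a := by push_cast; ring
          rw [this, abs_of_pos ha]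
        · intro s hs
          have hle : a * (k : ℝ) ≤ a * ((k + 1 : ℕ) : ℝ) := by push_cast; nlinarith
          rw [uIoc_of_le hle] at hs
          have hs2 : s ≤ a * (k + 1) := by simpa using hs.2
          have hsN : s ≤ a * N a := by
            refine hs.2.trans (mul_le_mul_of_nonneg_left ?_ ha.le)
            exact_mod_cast hk'
          have hd := h1 k hk'.le s hs.1.le hs2 (Or.inl hsN)
          have hd' : dist (γ (cl s)) (mc a (w k)) < δ1 := by
            rw [dist_comm]; exact hd.trans_le (min_le_right _ _)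
          have hmK' : γ (cl s) ∈ K' := Metric.self_subset_cthickening _ (hmemK s)
          have := huc _ hmK' _ (hwK k hk'.le) hd'
          rw [Real.dist_eq] at this
          exact this.le
      rw [Real.norm_eq_abs] at hb2 ⊢
      have e10 : Real.log (Z a (w (k + 1)) / Z a (w k)) -
          (∫ s in (a * k)..(a * ((k + 1 : ℕ) : ℝ)), h s) =
          (Real.log (Z a (w (k + 1)) / Z a (w k)) - a * g (mc a (w k))) -
          ((∫ s in (a * k)..(a * ((k + 1 : ℕ) : ℝ)), h s) - a * g (mc a (w k))) := by ring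
      rw [e10]
      refine (abs_sub _ _).trans ?_
      linarith
    have hsum : Real.log (Z a (sh (u a) i ((N a : ℤ) • v)) / Z a (u a)) -
        (∫ s in (0 : ℝ)..(a * N a), h s) = ∑ k ∈ Finset.range (N a),
          ((Real.log (Z a (w (k + 1))) - Real.log (Z a (w k))) -
            ∫ s in (a * k)..(a * ((k + 1 : ℕ) : ℝ)), h s) := by
      rw [Finset.sum_sub_distrib, Finset.sum_range_sub (fun k => Real.log (Z a (w k)))]
      have h7 : ∑ k ∈ Finset.range (N a), ∫ s in (a * (k : ℝ))..(a * ((k + 1 : ℕ) : ℝ)), h s =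
          ∫ s in (a * ((0 : ℕ) : ℝ))..(a * (N a : ℝ)), h s :=
        intervalIntegral.sum_integral_adjacent_intervals (a := fun k : ℕ => a * (k : ℝ))
          (fun k _ => hhc.intervalIntegrable _ _)
      rw [h7]
      have hz0 : 0 < Z a (u a) := by have := hzpos 0 (Nat.zero_le _); rwa [hw0] at this
      have hzN : 0 < Z a (sh (u a) i ((N a : ℤ) • v)) := hzpos (N a) le_rfl
      rw [Real.log_div hzN.ne' hz0.ne', hw0]
      simp [hw]
    rw [Real.dist_eq, sub_zero, hsum, ← Real.norm_eq_abs]
    calc ‖∑ k ∈ Finset.range (N a), ((Real.log (Z a (w (k + 1))) - Real.log (Z a (w k))) -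
            ∫ s in (a * k)..(a * ((k + 1 : ℕ) : ℝ)), h s)‖
        ≤ ∑ _k ∈ Finset.range (N a), 3 * ε * a := norm_sum_le_of_le _ hstep
      _ = 3 * ε * (a * N a) := by rw [Finset.sum_const, Finset.card_range, nsmul_eq_mul]; ring
      _ ≤ 3 * ε * (T + 1) := mul_le_mul_of_nonneg_left h6 (by positivity)
      _ < η := by
        rw [hε]
        have : 3 * (η / (4 * (T + 1))) * (T + 1) = 3 / 4 * η := by field_simp
        rw [this]; linarith
  -- conclusion
  have hlog : Tendsto (fun a => Real.log (Z a (sh (u a) i ((N a : ℤ) • v)) / Z a (u a))) l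
      (𝓝 (∫ s in (0 : ℝ)..T, g (csh x i (s * cv v)))) := by
    have := hmain.add hlim2
    rw [zero_add, hint] at this
    refine this.congr fun a => ?_
    ring
  refine ((Real.continuous_exp.tendsto _).comp hlog).congr' ?_
  have f1 := hmem δ hδ le_rfl
  have f2 : ∀ᶠ a in l, ∀ u : Fin n → ℤ × ℤ, mc a u ∈ U → 0 < Z a u := hl hpos
  filter_upwards [f1, f2] with a ⟨ha, h1⟩ h2
  have hwU : ∀ k ≤ N a, 0 < Z a (sh (u a) i ((k : ℤ) • v)) := by
    intro k hk
    have := h1 k hk (a * k) le_rfl (by nlinarith) (Or.inr rfl)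
    exact h2 _ (hδU (Metric.mem_cthickening_of_dist_le _ _ _ _ (hmemK _) this.le))
  have h0 := hwU 0 (Nat.zero_le _)
  simp only [Nat.cast_zero, zero_smul, sh_zero] at h0
  exact Real.exp_log (div_pos (hwU _ le_rfl) h0)

/-- **segment lemma** (integer number of steps, any sign) -/
theorem segment_int {n : ℕ} {U : Set (Fin n → ℂ)} (hU : IsOpen U) {Z : ℝ → (Fin n → ℤ × ℤ) → ℝ}
    (hpos : PosOn U Z) {i : Fin n} {v : ℤ × ℤ} {g : (Fin n → ℂ) → ℝ} (hg : ContinuousOn g U)
    (hLD : LDv U Z i v g) {x : Fin n → ℂ} {T : ℝ}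
    (hseg : ∀ s ∈ uIcc 0 T, csh x i (s * cv v) ∈ U) {l : Filter ℝ} (hl : l ≤ 𝓝[>] 0)
    {u : ℝ → Fin n → ℤ × ℤ} (hu : Tendsto (fun a => mc a (u a)) l (𝓝 x))
    {N : ℝ → ℤ} (hN : Tendsto (fun a => a * (N a : ℝ)) l (𝓝 T)) :
    Tendsto (fun a => Z a (sh (u a) i (N a • v)) / Z a (u a)) l
      (𝓝 (Real.exp (∫ s in (0 : ℝ)..T, g (csh x i (s * cv v))))) := by
  classical
  -- split the filter
  set A : Set ℝ := {a | 0 ≤ N a} with hA
  have hsplit : l = (l ⊓ 𝓟 A) ⊔ (l ⊓ 𝓟 Aᶜ) := by
    rw [← inf_sup_left, sup_principal, union_compl_self, principal_univ, inf_top_eq]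
  have hapos : ∀ᶠ a in l, 0 < a := hl eventually_mem_nhdsWithin
  rw [hsplit]
  refine Tendsto.sup ?_ ?_
  · -- nonnegative number of steps
    rcases eq_or_neBot (l ⊓ 𝓟 A) with hbot | hne
    · rw [hbot]; exact tendsto_bot
    have hT : 0 ≤ T := by
      refine ge_of_tendsto (hN.mono_left (inf_le_left : l ⊓ 𝓟 A ≤ l)) ?_
      have h1 : ∀ᶠ a in l ⊓ 𝓟 A, 0 < a := hapos.filter_mono inf_le_left
      have h2 : ∀ᶠ a in l ⊓ 𝓟 A, a ∈ A := mem_inf_of_right (mem_principal_self A)
      filter_upwards [h1, h2] with a ha hNa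
      have : (0 : ℝ) ≤ (N a : ℝ) := by exact_mod_cast hNa
      positivity
    have h2 : ∀ᶠ a in l ⊓ 𝓟 A, a ∈ A := mem_inf_of_right (mem_principal_self A)
    have hN' : Tendsto (fun a => a * (((N a).toNat : ℕ) : ℝ)) (l ⊓ 𝓟 A) (𝓝 T) := by
      refine (hN.mono_left inf_le_left).congr' ?_
      filter_upwards [h2] with a hNa
      have : (((N a).toNat : ℤ)) = N a := Int.toNat_of_nonneg hNa
      have h3 : (((N a).toNat : ℕ) : ℝ) = (N a : ℝ) := by
        have h4 := congrArg (fun z : ℤ => (z : ℝ)) this
        simpa only [Int.cast_natCast] using h4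
      rw [h3]
    have := segment hU hpos hg hLD hT (fun s hs => hseg s (by rwa [uIcc_of_le hT]))
      (inf_le_left.trans hl) (hu.mono_left inf_le_left) hN'
    refine this.congr' ?_
    filter_upwards [h2] with a hNa
    have : (((N a).toNat : ℤ)) = N a := Int.toNat_of_nonneg hNa
    rw [this]
  · -- nonpositive number of steps
    rcases eq_or_neBot (l ⊓ 𝓟 Aᶜ) with hbot | hne
    · rw [hbot]; exact tendsto_bot
    have h2 : ∀ᶠ a in l ⊓ 𝓟 Aᶜ, a ∈ Aᶜ := mem_inf_of_right (mem_principal_self Aᶜ)
    have hT : T ≤ 0 := by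
      refine le_of_tendsto (hN.mono_left (inf_le_left : l ⊓ 𝓟 Aᶜ ≤ l)) ?_
      have h1 : ∀ᶠ a in l ⊓ 𝓟 Aᶜ, 0 < a := hapos.filter_mono inf_le_left
      filter_upwards [h1, h2] with a ha hNa
      have hNa' : N a < 0 := not_le.1 hNa
      have : (N a : ℝ) ≤ 0 := by exact_mod_cast hNa'.le
      nlinarith
    -- the base point is the shifted configuration
    set u' : ℝ → Fin n → ℤ × ℤ := fun a => sh (u a) i (N a • v) with hu'
    set x' := csh x i (T * cv v) with hx'
    have hu'lim : Tendsto (fun a => mc a (u' a)) (l ⊓ 𝓟 Aᶜ) (𝓝 x') := by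
      rw [tendsto_pi_nhds]
      intro j
      have hx1 : Tendsto (fun a => mc a (u a) j) (l ⊓ 𝓟 Aᶜ) (𝓝 (x j)) :=
        (tendsto_pi_nhds.1 hu j).mono_left inf_le_left
      by_cases hj : j = i
      · subst hj
        have e1 : x' j = x j + T * cv v := by simp [hx', csh]
        have e2 : ∀ a, mc a (u' a) j = mc a (u a) j + ((a * N a : ℝ) : ℂ) * cv v := by
          intro a
          simp only [hu', mc_sh, csh, Function.update_self, cv_smul]
          push_cast; ring
        rw [e1]
        simp only [e2]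
        exact hx1.add (((Complex.continuous_ofReal.tendsto T).comp
          (hN.mono_left inf_le_left)).mul_const _)
      · have e1 : x' j = x j := by simp [hx', csh, hj]
        have e2 : ∀ a, mc a (u' a) j = mc a (u a) j := by
          intro a
          simp only [hu', mc_sh, csh, Function.update_of_ne hj]
        rw [e1]; simp only [e2]; exact hx1
    have hN' : Tendsto (fun a => a * (((-N a).toNat : ℕ) : ℝ)) (l ⊓ 𝓟 Aᶜ) (𝓝 (-T)) := by
      refine ((hN.mono_left inf_le_left).neg).congr' ?_
      filter_upwards [h2] with a hNa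
      have hNa' : N a < 0 := not_le.1 hNa
      have : (((-N a).toNat : ℤ)) = -N a := Int.toNat_of_nonneg (by omega)
      have h3 : (((-N a).toNat : ℕ) : ℝ) = -(N a : ℝ) := by
        have := congrArg (fun z : ℤ => (z : ℝ)) this
        push_cast at this
        simpa using this
      rw [h3]; ring
    have hseg' : ∀ s ∈ Icc 0 (-T), csh x' i (s * cv v) ∈ U := by
      intro s hs
      rw [hx', csh_csh]
      have : (T : ℂ) * cv v + s * cv v = ((T + s : ℝ) : ℂ) * cv v := by push_cast; ring
      rw [this]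
      apply hseg
      rw [uIcc_of_ge hT]
      exact ⟨by linarith [hs.1], by linarith [hs.2]⟩
    have := segment hU hpos hg hLD (by linarith : 0 ≤ -T) hseg' (inf_le_left.trans hl) hu'lim hN'
    have hinv := this.inv₀ (Real.exp_pos _).ne'
    have hI : (Real.exp (∫ s in (0 : ℝ)..(-T), g (csh x' i (s * cv v))))⁻¹ =
        Real.exp (∫ s in (0 : ℝ)..T, g (csh x i (s * cv v))) := by
      rw [← Real.exp_neg]
      congr 1
      have e1 : (fun s : ℝ => g (csh x' i (s * cv v))) =
          fun s : ℝ => (fun t : ℝ => g (csh x i (t * cv v))) (s + T) := by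
        funext s
        simp only [hx', csh_csh]
        congr 2
        push_cast; ring
      rw [e1, intervalIntegral.integral_comp_add_right (fun t : ℝ => g (csh x i (t * cv v))) T,
        zero_add, neg_add_cancel, ← intervalIntegral.integral_symm]
    rw [hI] at hinv
    refine hinv.congr' ?_
    filter_upwards [h2] with a hNa
    have hNa' : N a < 0 := not_le.1 hNa
    have h3 : (((-N a).toNat : ℤ)) = -N a := Int.toNat_of_nonneg (by omega)
    have h4 : sh (u' a) i (((-N a).toNat : ℤ) • v) = u a := by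
      simp only [hu', sh_sh, h3]
      rw [← add_smul]; simp
    rw [h4, inv_div]

end Crest.Agent.R165.PathIntx641
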