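import Crest.Agent.R165.Step_470
import Crest.Agent.R165.Cov2_359
import Crest.Agent.R165.PathInt_641

-- ▼ part R165/Step2_470
section

/-!
# Row 165 (S0250), block U, B1 (ii): the STEP identity, plus boundary conditions (helper470)

For a finite `T` without holes, ANY insertions `X : Fin n → ℤ × ℤ` and any covariance
`IsCov (wTX .plus T X) S`:
* `Nsum_Zs` : bridge `Nsum` (UDomC_420) / `Zs` (J2c_606)
* `J2Set_plus` : the finite-set bond identity
* `GB_plus_pos` : spin correlations are positive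
* `plus_NE, plus_SW, plus_SE, plus_NW, plus_unit, plus_unit'` : the ratios, unconditionally
-/

set_option autoImplicit false
set_option linter.unusedSectionVars false

noncomputable section

open Crest.ProbabilityR.IsingModel

namespace Crest.Agent.R165.Step2x470

open Gr0x606 Latx683 Stepx470
open Crest.Agent.R165.UDomCx420 Crest.Agent.R165.UJ2x420 Crest.Agent.R165.U5Px422
open Crest.Agent.R165.Covx359
open Crest.Agent.R165.J1cx606 (NoHole)
open Crest.Agent.R165.J2cx606 (Zs sig)
open Crest.Agent.R165.Gk1x422 (sp)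

theorem spin_conf (N : Finset (ℤ × ℤ)) (z : ℤ × ℤ) : spinSign (conf N z) = sig N z := by
  unfold conf sig
  by_cases h : z ∈ N <;> simp [h, spinSign]

theorem eps_conf (N : Finset (ℤ × ℤ)) (e : J1ax606.EG ℤ) :
    UDomAx420.eps (conf N) e = J2cx606.eps N e := by
  unfold UDomAx420.eps J2cx606.eps UDomAx420.tip
  rw [spin_conf, spin_conf]
  rfl

/-- both spin sums agree -/
theorem Nsum_Zs (T : Finset (ℤ × ℤ)) (w : BW ℤ) {n : ℕ} (X : Fin n → ℤ × ℤ)
    (A : Finset (J1ax606.EG ℤ)) :
    Nsum T (wX w X) (fun s => ∏ e ∈ A, UDomAx420.eps s e) = Zs T (un w) X A := by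
  rw [← Nsum_ray]
  unfold Nsum Zs
  refine Finset.sum_congr rfl fun N _ => ?_
  have h1 : ∏ i, spinSign (conf N (X i)) = ∏ i, sig N (X i) :=
    Finset.prod_congr rfl fun i _ => spin_conf N (X i)
  have h2 : ∏ e ∈ A, UDomAx420.eps (conf N) e = ∏ e ∈ A, J2cx606.eps N e :=
    Finset.prod_congr rfl fun e _ => eps_conf N e
  simp only [h1, h2]
  rfl

theorem Nsum_Zs_one (T : Finset (ℤ × ℤ)) (w : BW ℤ) {n : ℕ} (X : Fin n → ℤ × ℤ) :
    Nsum T (wX w X) (fun _ => 1) = Zs T (un w) X ∅ := by
  rw [← Nsum_Zs]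
  simp only [Finset.prod_empty]

/-- **the finite-set bond identity**, plus boundary conditions -/
theorem J2Set_plus {T : Finset (ℤ × ℤ)} (hT : NoHole T) {n : ℕ} {X : Fin n → ℤ × ℤ}
    {S : HE ℤ → HE ℤ → ℝ} (hc : IsCov (wX (wDom (T : Set (ℤ × ℤ)) false) X) S) :
    J2Set T (wX (wDom (T : Set (ℤ × ℤ)) false) X) (covS S hc.skew) := by
  intro A
  rw [Nsum_Zs, Nsum_Zs_one]
  have hi : J2ax606.IsInv (fun e => un (wDom (T : Set (ℤ × ℤ)) false) e * J2cx606.cut X e) S := by
    rw [← un_wX]; exact isInv_of_isCov hc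
  have h := J2cx606.J2_plus T hT (un (wDom (T : Set (ℤ × ℤ)) false)) (wDom_plus_out T) X hi A
  have hu : ∀ e : J1ax606.EG ℤ, un (wDom (T : Set (ℤ × ℤ)) false) e * J2cx606.cut X e =
      wX (wDom (T : Set (ℤ × ℤ)) false) X e.1 e.2 := fun e =>
    (congrFun (un_wX (wDom (T : Set (ℤ × ℤ)) false) X) e).symm
  have hB : J2cx606.BB (fun e => un (wDom (T : Set (ℤ × ℤ)) false) e * J2cx606.cut X e) A =
      ∏ e ∈ A, (1 - (2 * wX (wDom (T : Set (ℤ × ℤ)) false) X e.1 e.2) • J1ax606.bb e) :=
    Finset.prod_congr rfl fun e _ => by simp only [hu e]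
  rw [h, covS_eq, hB]



/-- spin correlations with plus boundary conditions are positive -/
theorem GB_plus_pos {T : Finset (ℤ × ℤ)} (hT : NoHole T) {n : ℕ} (X : Fin n → ℤ × ℤ) :
    0 < GB .plus T X := by
  rw [GB_eq .plus (by simp)]
  refine div_pos ?_ (Nsum_pos T _ _)
  have h1 : sp X = fun s => (∏ i, spinSign (s (X i))) * 1 := by
    funext s; rw [mul_one]; rfl
  have h2 : decide (BoundaryCondition.plus = BoundaryCondition.free) = false := rfl
  rw [h1, Nsum_ray, h2, Nsum_Zs_one]
  refine Zs_plus_pos T hT _ (fun e he => ?_) X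
  rw [wDom_plus_in T e he, abs_of_pos xc_pos]
  exact xc_lt_one

section plus

variable {T : Finset (ℤ × ℤ)} (hT : NoHole T) {n : ℕ} {X : Fin n → ℤ × ℤ} {S : HE ℤ → HE ℤ → ℝ}
  (hc : IsCov (wTX .plus T X) S) (i : Fin n)
include hT hc

/-- **STEP `v = (1, 1)`** -/
theorem plus_NE : GB .plus T (Function.update X i (X i + (1, 1))) / GB .plus T X =
    -formS S (lSW (wTX .plus T X) (X i)) (lNE (wTX .plus T X) (X i)) :=
  ratio_NE .plus (by simp) T X S hc.skew (J2Set_plus hT hc) i (GB_plus_pos hT X).ne'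
    (Stepx470.IsCov.row3 hc _)


/-- **STEP `v = (1, -1)`** -/
theorem plus_SE : GB .plus T (Function.update X i (X i + (1, -1))) / GB .plus T X =
    formS S (lNW (wTX .plus T X) (X i - (0, 1))) (lSE (wTX .plus T X) (X i - (0, 1))) :=
  ratio_SE .plus (by simp) T X S hc.skew (J2Set_plus hT hc) i (GB_plus_pos hT X).ne'
    (Stepx470.IsCov.row3 hc _)


/-- **STEP `v = unitVec j`** -/
theorem plus_unit (j : Fin 2) :
    GB .plus T (Function.update X i (X i + unitVec j)) / GB .plus T X =
      1 - 2 * wTX .plus T X (X i) j * S (hp (X i) j) (hq (X i) j) :=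
  ratio_unit .plus (by simp) T X S hc.skew (J2Set_plus hT hc) i (GB_plus_pos hT X).ne' j


end plus

end Crest.Agent.R165.Step2x470
end
end

-- ▼ part R165/Step3_470

/-!
# Row 165 (S0250), block U, B1 (ii): unit steps as corner forms (helper470)

For a face `f` and a kernel `S` solving the four rows of `A S = -1` at `f`:
* corner vectors `lSW, lNE, lNW, lSE` (Step_470) and, through the vertical edges,
  `lES = E_f - y W_{f+e1}`, `lEN = E_f + y W_{f+e1}`, `lWN = W_f + y E_{f-e1}`, `lWS = W_f - y E_{f-e1}`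
* `corSE, corNE, corNW, corSW` : the two vectors of a corner give the same form up to sign and source
* `side_bot, side_right, side_top, side_left` : `1 - 2 w S(hp, hq)` of each side of `f` is the form of
  the two corners of that side
* `plus_E, plus_N, plus_W, plus_S` : unit STEP in this form; `sh_*` : all steps in terms of `sh`.
-/

set_option autoImplicit false
set_option linter.unusedSectionVars false
set_option linter.unusedSimpArgs false

noncomputable section

open Crest.ProbabilityR.IsingModel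

namespace Crest.Agent.R165.Step3x470

open Gr0x606 Latx683 Stepx470 Step2x470

section face

variable {G : Type} [CommRing G] [DecidableEq G]

/-- the four rows of the face `f` -/
def Row4 (w : BW G) (S : HE G → HE G → ℝ) (f : G × G) : Prop := ∀ d : Fin 4, Row w S (f, d)

theorem Row4.row3 {w : BW G} {S : HE G → HE G → ℝ} {f : G × G} (h : Row4 w S f) : Row3 w S f :=
  ⟨h 0, h 1, h 2⟩


/-- south east corner through the vertical edge: `E_f - y W_{f+e1}` -/
def lES (w : BW G) (f : G × G) : Fld G :=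
  Finsupp.single (f, 1) 1 - yE w f • Finsupp.single ((f.1 + 1, f.2), 3) 1
/-- north east corner through the vertical edge: `E_f + y W_{f+e1}` -/
def lEN (w : BW G) (f : G × G) : Fld G :=
  Finsupp.single (f, 1) 1 + yE w f • Finsupp.single ((f.1 + 1, f.2), 3) 1
/-- north west corner through the vertical edge: `W_f + y E_{f-e1}` -/
def lWN (w : BW G) (f : G × G) : Fld G :=
  Finsupp.single (f, 3) 1 + yE w (f.1 - 1, f.2) • Finsupp.single ((f.1 - 1, f.2), 1) 1
/-- south west corner through the vertical edge: `W_f - y E_{f-e1}` -/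
def lWS (w : BW G) (f : G × G) : Fld G :=
  Finsupp.single (f, 3) 1 - yE w (f.1 - 1, f.2) • Finsupp.single ((f.1 - 1, f.2), 1) 1

theorem rel3 {w : BW G} {S : HE G → HE G → ℝ} {f : G × G} (h : Row4 w S f) (h' : HE G) :
    S (f, 3) h' + S (f, 2) h' + yE w (f.1 - 1, f.2) * S ((f.1 - 1, f.2), 1) h'
      - yN w f * S ((f.1, f.2 + 1), 0) h'
      = (Pi.single h' 1 : HE G → ℝ) (f, 3) - (Pi.single h' 1 : HE G → ℝ) (f, 2) := by
  have e2 := h 2 h'
  have e3 := h 3 h'
  rw [Aop_N] at e2
  rw [Aop_W] at e3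
  linear_combination e2 - e3

theorem rel4 {w : BW G} {S : HE G → HE G → ℝ} {f : G × G} (h : Row4 w S f) (h' : HE G) :
    S (f, 3) h' - S (f, 0) h' - yE w (f.1 - 1, f.2) * S ((f.1 - 1, f.2), 1) h'
      + yN w (f.1, f.2 - 1) * S ((f.1, f.2 - 1), 2) h'
      = -(Pi.single h' 1 : HE G → ℝ) (f, 3) - (Pi.single h' 1 : HE G → ℝ) (f, 0) := by
  have e0 := h 0 h'
  have e3 := h 3 h'
  rw [Aop_S] at e0
  rw [Aop_W] at e3
  linear_combination e0 + e3

/-- coordinate of a field -/
theorem lin_ext {l m : Fld G →ₗ[ℝ] ℝ} (h : ∀ h' : HE G, l (Finsupp.single h' 1) = m (Finsupp.single h' 1)) :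
    l = m := by
  apply Finsupp.lhom_ext'
  intro h'
  apply LinearMap.ext_ring
  exact h h'

/-- south east corner: `S(l_ES, ·) = -S(l_SE, ·) + ∂_E - ∂_S` -/
theorem corSE {w : BW G} {S : HE G → HE G → ℝ} {f : G × G} (h : Row4 w S f) (v : Fld G) :
    formS S (lES w f) v = -formS S (lSE w f) v + v (f, 1) - v (f, 0) := by
  have key : formS S (lES w f) = -formS S (lSE w f) + (Finsupp.lapply (f, 1) : Fld G →ₗ[ℝ] ℝ)
      - Finsupp.lapply (f, 0) := by
    apply lin_ext
    intro h'
    have := rel1 h.row3 h'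
    rw [single_pi, single_pi] at this
    unfold lES lSE
    simp only [map_sub, map_add, map_smul, LinearMap.sub_apply, LinearMap.add_apply,
      LinearMap.neg_apply, LinearMap.smul_apply, smul_eq_mul, formS_single, Finsupp.lapply_apply]
    linear_combination this
  rw [key]
  simp

/-- north east corner: `S(l_EN, ·) = -S(l_NE, ·) + ∂_N - ∂_E` -/
theorem corNE {w : BW G} {S : HE G → HE G → ℝ} {f : G × G} (h : Row4 w S f) (v : Fld G) :
    formS S (lEN w f) v = -formS S (lNE w f) v + v (f, 2) - v (f, 1) := by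
  have key : formS S (lEN w f) = -formS S (lNE w f) + (Finsupp.lapply (f, 2) : Fld G →ₗ[ℝ] ℝ)
      - Finsupp.lapply (f, 1) := by
    apply lin_ext
    intro h'
    have := rel2 h.row3 h'
    rw [single_pi, single_pi] at this
    unfold lEN lNE
    simp only [map_sub, map_add, map_smul, LinearMap.sub_apply, LinearMap.add_apply,
      LinearMap.neg_apply, LinearMap.smul_apply, smul_eq_mul, formS_single, Finsupp.lapply_apply]
    linear_combination this
  rw [key]
  simp

/-- north west corner: `S(l_WN, ·) = -S(l_NW, ·) + ∂_W - ∂_N` -/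
theorem corNW {w : BW G} {S : HE G → HE G → ℝ} {f : G × G} (h : Row4 w S f) (v : Fld G) :
    formS S (lWN w f) v = -formS S (lNW w f) v + v (f, 3) - v (f, 2) := by
  have key : formS S (lWN w f) = -formS S (lNW w f) + (Finsupp.lapply (f, 3) : Fld G →ₗ[ℝ] ℝ)
      - Finsupp.lapply (f, 2) := by
    apply lin_ext
    intro h'
    have := rel3 h h'
    rw [single_pi, single_pi] at this
    unfold lWN lNW
    simp only [map_sub, map_add, map_smul, LinearMap.sub_apply, LinearMap.add_apply,
      LinearMap.neg_apply, LinearMap.smul_apply, smul_eq_mul, formS_single, Finsupp.lapply_apply]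
    linear_combination this
  rw [key]
  simp

/-- south west corner: `S(l_WS, ·) = S(l_SW, ·) - ∂_W - ∂_S` -/
theorem corSW {w : BW G} {S : HE G → HE G → ℝ} {f : G × G} (h : Row4 w S f) (v : Fld G) :
    formS S (lWS w f) v = formS S (lSW w f) v - v (f, 3) - v (f, 0) := by
  have key : formS S (lWS w f) = formS S (lSW w f) - (Finsupp.lapply (f, 3) : Fld G →ₗ[ℝ] ℝ)
      - Finsupp.lapply (f, 0) := by
    apply lin_ext
    intro h'
    have := rel4 h h'
    rw [single_pi, single_pi] at this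
    unfold lWS lSW
    simp only [map_sub, map_add, map_smul, LinearMap.sub_apply, LinearMap.add_apply,
      LinearMap.neg_apply, LinearMap.smul_apply, smul_eq_mul, formS_single, Finsupp.lapply_apply]
    linear_combination this
  rw [key]
  simp

theorem skew_form {S : HE G → HE G → ℝ} (hS : ∀ h h', S h h' = -S h' h) (u v : Fld G) :
    formS S u v = -formS S v u := (covS S hS).skew u v


variable [Nontrivial G]

theorem ne_dn (f : G × G) : ((f.1, f.2 - 1) : G × G) ≠ f := by
  intro hc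
  have := congrArg Prod.snd hc
  simp at this


theorem ne_rt (f : G × G) : ((f.1 + 1, f.2) : G × G) ≠ f := by
  intro hc
  have := congrArg Prod.fst hc
  simp at this


/-- bottom side: corners `SW`, `SE` -/
theorem side_bot {w : BW G} {S : HE G → HE G → ℝ} (hS : ∀ h h', S h h' = -S h' h) {f : G × G}
    (h : Row4 w S f) : 1 - 2 * w f 0 * S (hp f 0) (hq f 0) = formS S (lSW w f) (lES w f) := by
  have h1 := rel1 h.row3 (f, 0)
  have h2 := rel1 h.row3 ((f.1, f.2 - 1), 2)
  have s1 := hS (f, 0) (f, 0)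
  have s2 := hS ((f.1, f.2 - 1), 2) ((f.1, f.2 - 1), 2)
  have s3 := hS (f, 0) (f, 1)
  have s4 := hS (f, 0) ((f.1 + 1, f.2), 3)
  have s5 := hS ((f.1, f.2 - 1), 2) (f, 1)
  have s6 := hS ((f.1, f.2 - 1), 2) ((f.1 + 1, f.2), 3)
  have s7 := hS (f, 0) ((f.1, f.2 - 1), 2)
  rw [Pi.single_apply, Pi.single_apply, if_neg (by simp), if_pos rfl] at h1
  rw [Pi.single_apply, Pi.single_apply, if_neg (by simp), if_neg (by simp)] at h2
  rw [hp_zero, hq_zero]
  unfold lSW lES
  simp only [map_sub, map_add, map_smul, LinearMap.sub_apply, LinearMap.smul_apply, smul_eq_mul,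
    formS_single]
  rw [← yN_bot w f]
  linear_combination h1 - yN w (f.1, f.2 - 1) * h2 - s3 + yE w f * s4
    + yN w (f.1, f.2 - 1) * s5 - yN w (f.1, f.2 - 1) * yE w f * s6
    - (1/2) * s1 + (1/2) * yN w (f.1, f.2 - 1) ^ 2 * s2 - yN w (f.1, f.2 - 1) * s7

/-- right side: corners `SE`, `NE` -/
theorem side_right {w : BW G} {S : HE G → HE G → ℝ} (hS : ∀ h h', S h h' = -S h' h) {f : G × G}
    (h : Row4 w S f) : 1 - 2 * w (f.1 + 1, f.2) 1 * S (hp (f.1 + 1, f.2) 1) (hq (f.1 + 1, f.2) 1) =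
      formS S (lSE w f) (lEN w f) := by
  have e1 : formS S (lSE w f) (lEN w f) = -formS S (lES w f) (lEN w f) + (lEN w f) (f, 1)
      - (lEN w f) (f, 0) := by
    rw [corSE h]; ring
  have e2 : (lEN w f) (f, 1) = 1 := by
    simp [lEN, Finsupp.single_apply, ne_rt f]
  have e3 : (lEN w f) (f, 0) = 0 := by
    simp [lEN, Finsupp.single_apply]
  have s1 := hS (f, 1) (f, 1)
  have s2 := hS ((f.1 + 1, f.2), 3) ((f.1 + 1, f.2), 3)
  have s3 := hS (f, 1) ((f.1 + 1, f.2), 3)
  rw [e1, e2, e3, hp_one, hq_one]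
  unfold lES lEN
  simp only [map_sub, map_add, map_smul, LinearMap.sub_apply, LinearMap.smul_apply, smul_eq_mul,
    formS_single, add_sub_cancel_right]
  unfold yE
  linear_combination (1/2) * s1 - (1/2) * w (f.1 + 1, f.2) 1 ^ 2 * s2 - w (f.1 + 1, f.2) 1 * s3

/-- top side: corners `NE`, `NW` -/
theorem side_top {w : BW G} {S : HE G → HE G → ℝ} (hS : ∀ h h', S h h' = -S h' h) {f : G × G}
    (h : Row4 w S f) : 1 - 2 * w (f.1, f.2 + 1) 0 * S (hp (f.1, f.2 + 1) 0) (hq (f.1, f.2 + 1) 0) =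
      formS S (lEN w f) (lNW w f) := by
  have e1 := corNE h (lNW w f)
  have e2 : (lNW w f) (f, 2) = 1 := by
    simp [lNW, Finsupp.single_apply]
  have e3 : (lNW w f) (f, 1) = 0 := by
    simp [lNW, Finsupp.single_apply]
  have s1 := hS (f, 2) (f, 2)
  have s2 := hS ((f.1, f.2 + 1), 0) ((f.1, f.2 + 1), 0)
  have s3 := hS (f, 2) ((f.1, f.2 + 1), 0)
  rw [e1, e2, e3, hp_zero, hq_zero]
  unfold lNE lNW
  simp only [map_sub, map_add, map_smul, LinearMap.add_apply, LinearMap.smul_apply, smul_eq_mul,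
    formS_single, add_sub_cancel_right]
  unfold yN
  linear_combination (1/2) * s1 - (1/2) * w (f.1, f.2 + 1) 0 ^ 2 * s2 - w (f.1, f.2 + 1) 0 * s3

/-- left side: corners `NW`, `SW` -/
theorem side_left {w : BW G} {S : HE G → HE G → ℝ} (hS : ∀ h h', S h h' = -S h' h) {f : G × G}
    (h : Row4 w S f) : 1 - 2 * w f 1 * S (hp f 1) (hq f 1) = formS S (lNW w f) (lSW w f) := by
  have e1 : formS S (lNW w f) (lSW w f) = -formS S (lWN w f) (lSW w f) + (lSW w f) (f, 3)
      - (lSW w f) (f, 2) := by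
    rw [corNW h]; ring
  have e2 : (lSW w f) (f, 3) = 0 := by
    simp [lSW, Finsupp.single_apply]
  have e3 : (lSW w f) (f, 2) = 0 := by
    simp [lSW, Finsupp.single_apply, ne_dn f]
  have e4 : formS S (lSW w f) (lWN w f) = formS S (lWS w f) (lWN w f) + (lWN w f) (f, 3)
      + (lWN w f) (f, 0) := by
    rw [corSW h]; ring
  have e5 : (lWN w f) (f, 3) = 1 := by
    simp [lWN, Finsupp.single_apply]
  have e6 : (lWN w f) (f, 0) = 0 := by
    simp [lWN, Finsupp.single_apply]
  have s1 := hS (f, 3) (f, 3)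
  have s2 := hS ((f.1 - 1, f.2), 1) ((f.1 - 1, f.2), 1)
  have s3 := hS (f, 3) ((f.1 - 1, f.2), 1)
  rw [e1, e2, e3, skew_form hS (lWN w f), e4, e5, e6, hp_one, hq_one]
  unfold lWS lWN
  simp only [map_sub, map_add, map_smul, LinearMap.sub_apply, LinearMap.smul_apply, smul_eq_mul,
    formS_single]
  unfold yE
  simp only [sub_add_cancel]
  linear_combination (-(1/2) : ℝ) * s1 + (1/2) * w f 1 ^ 2 * s2 - w f 1 * s3

end face

/-! ### steps with plus boundary conditions, `sh` form -/

section plus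

open Crest.Agent.R165.U5Px422 (GB)
open Crest.Agent.R165.J1cx606 (NoHole)
open Crest.Agent.R165.PathIntx641 (sh)

variable {T : Finset (ℤ × ℤ)} (hT : NoHole T) {n : ℕ} {X : Fin n → ℤ × ℤ} {S : HE ℤ → HE ℤ → ℝ}
  (hc : IsCov (wTX .plus T X) S) (i : Fin n)
include hT hc

theorem sh_NE : GB .plus T (sh X i (1, 1)) / GB .plus T X =
    formS S (lNE (wTX .plus T X) (X i)) (lSW (wTX .plus T X) (X i)) := by
  rw [skew_form hc.skew]; exact plus_NE hT hc i


theorem sh_SE : GB .plus T (sh X i (1, -1)) / GB .plus T X =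
    formS S (lNW (wTX .plus T X) (X i - (0, 1))) (lSE (wTX .plus T X) (X i - (0, 1))) :=
  plus_SE hT hc i






end plus

end Crest.Agent.R165.Step3x470
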