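import Crest.Agent.R165.Emb_622
import Crest.Agent.R165.PotB_894
import Crest.Agent.R165.RIface_891
import Crest.Agent.R165.Tr2_40

-- ▼ part R165/Up_622
section

/-!
# Row 165 (S0250), U4/MAC (helper622): from `L²` convergence to pointwise convergence

`upgrade`: let `u_k` be 5-point harmonic at all faces `f` with `a_k f` in a ball about `z₀`; if
`emb (a_k) (u_k) → Φ` in `L²` of the ball, `Φ` bounded there and continuous at `z₀`, then
`u_k (f_k) → Φ z₀` for all faces `f_k` with `a_k f_k → z₀`.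
-/

set_option autoImplicit false

noncomputable section

open MeasureTheory Filter Topology Set Metric
open Crest.ProbabilityR.IsingModel
open Crest.Agent.R165.Embx622 Crest.Agent.R165.PotAx894 Crest.Agent.R165.PotBx894

namespace Crest.Agent.R165.Upx622

/-- distance of a point from the corner of its cell -/
theorem norm_mesh_sub {a : ℝ} (ha : 0 < a) (z : ℂ) :
    ‖meshPoint a (meshIndex a z) - z‖ ≤ 2 * a := by
  have h : z ∈ cell a (meshIndex a z) := rfl
  rw [mem_cell' ha] at h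
  obtain ⟨⟨h1, h2⟩, h3, h4⟩ := h
  refine (Complex.norm_le_abs_re_add_abs_im _).trans ?_
  have e1 : |(meshPoint a (meshIndex a z) - z).re| ≤ a := by
    rw [Complex.sub_re, abs_le]
    simp only [meshPoint]
    constructor <;> nlinarith
  have e2 : |(meshPoint a (meshIndex a z) - z).im| ≤ a := by
    rw [Complex.sub_im, abs_le]
    simp only [meshPoint]
    constructor <;> nlinarith
  linarith

theorem norm_cell_sub {a : ℝ} (ha : 0 < a) {f : ℤ × ℤ} {z : ℂ} (hz : z ∈ cell a f) :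
    ‖meshPoint a f - z‖ ≤ 2 * a := by
  rw [mem_cell] at hz
  rw [← hz]
  exact norm_mesh_sub ha z

theorem meshPoint_sub (a : ℝ) (f g : ℤ × ℤ) :
    ‖meshPoint a f - meshPoint a g‖ ≤ |a| * (|((f.1 - g.1 : ℤ) : ℝ)| + |((f.2 - g.2 : ℤ) : ℝ)|) := by
  refine (Complex.norm_le_abs_re_add_abs_im _).trans ?_
  rw [Complex.sub_re, Complex.sub_im]
  simp only [meshPoint]
  rw [← mul_sub, ← mul_sub, abs_mul, abs_mul]
  push_cast
  linarith

theorem abs_le_meshPoint_sub (a : ℝ) (f g : ℤ × ℤ) :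
    |a| * |((f.1 - g.1 : ℤ) : ℝ)| ≤ ‖meshPoint a f - meshPoint a g‖ ∧
    |a| * |((f.2 - g.2 : ℤ) : ℝ)| ≤ ‖meshPoint a f - meshPoint a g‖ := by
  have h1 := Complex.abs_re_le_norm (meshPoint a f - meshPoint a g)
  have h2 := Complex.abs_im_le_norm (meshPoint a f - meshPoint a g)
  rw [Complex.sub_re] at h1
  rw [Complex.sub_im] at h2
  simp only [meshPoint] at h1 h2 ⊢
  rw [← mul_sub, abs_mul] at h1 h2
  push_cast
  exact ⟨h1, h2⟩

/-- sums over finitely many cells are bounded by the integral over any set containing them -/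
theorem sum_le_lintegral {a : ℝ} (ha : 0 < a) (s : Finset (ℤ × ℤ)) (g : ℤ × ℤ → ENNReal)
    {B : Set ℂ} (hB : MeasurableSet B) (hs : ∀ f ∈ s, cell a f ⊆ B) :
    ENNReal.ofReal (a ^ 2) * ∑ f ∈ s, g f ≤ ∫⁻ z in B, emb a g z := by
  have h1 : ∑ f ∈ s, g f = ∑' f, (s : Set (ℤ × ℤ)).indicator g f := by
    rw [tsum_eq_sum (s := s)]
    · exact Finset.sum_congr rfl fun f hf => by simp [hf]
    · intro f hf; simp [hf]
  rw [h1, ← lintegral_emb ha, ← lintegral_indicator hB]
  refine lintegral_mono fun z => ?_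
  unfold emb
  by_cases hz : meshIndex a z ∈ s
  · rw [indicator_of_mem (by simpa using hz), indicator_of_mem (hs _ hz rfl)]
  · rw [indicator_of_notMem (by simpa using hz)]
    exact zero_le

/-- differences along a box -/
theorem sub_le_of_D {u : ℤ × ℤ → ℝ} {c : ℤ × ℤ} {n : ℕ} {G : ℝ}
    (h : ∀ z ∈ Q c n, |D1 u z| ≤ G ∧ |D2 u z| ≤ G) {f g : ℤ × ℤ} (hf : f ∈ Q c n)
    (hg : g ∈ Q c n) :
    |u f - u g| ≤ G * (|((f.1 - g.1 : ℤ) : ℝ)| + |((f.2 - g.2 : ℤ) : ℝ)|) := by
  rw [mem_Q] at hf hg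
  simp only [abs_le] at hf hg
  -- one dimensional estimate
  have key : ∀ (v : ℤ → ℝ) (i j : ℤ), i ≤ j → (∀ l, i ≤ l → l < j → |v (l + 1) - v l| ≤ G) →
      |v j - v i| ≤ G * |((j - i : ℤ) : ℝ)| := by
    intro v i j hij hv
    rw [← sum_Ico_telescope v hij]
    refine (Finset.abs_sum_le_sum_abs _ _).trans ?_
    refine (Finset.sum_le_sum (g := fun _ => G) fun l hl => ?_).trans ?_
    · rw [Finset.mem_Ico] at hl; exact hv l hl.1 hl.2
    · rw [Finset.sum_const, Int.card_Ico, nsmul_eq_mul]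
      have : ((j - i).toNat : ℝ) = |((j - i : ℤ) : ℝ)| := by
        rw [abs_of_nonneg (by exact_mod_cast (by omega : (0:ℤ) ≤ j - i))]
        have : ((j - i).toNat : ℤ) = j - i := Int.toNat_of_nonneg (by omega)
        exact_mod_cast this
      rw [this]; linarith
  have key' : ∀ (v : ℤ → ℝ) (i j : ℤ), (∀ l, min i j ≤ l → l < max i j → |v (l + 1) - v l| ≤ G) →
      |v j - v i| ≤ G * |((j - i : ℤ) : ℝ)| := by
    intro v i j hv
    rcases le_total i j with hij | hij
    · exact key v i j hij (by rwa [min_eq_left hij, max_eq_right hij] at hv)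
    · rw [abs_sub_comm]
      have := key v j i hij (by rwa [min_eq_right hij, max_eq_left hij] at hv)
      rw [show ((j - i : ℤ) : ℝ) = -((i - j : ℤ) : ℝ) by push_cast; ring, abs_neg]
      exact this
  have s1 : |u (f.1, f.2) - u (g.1, f.2)| ≤ G * |((f.1 - g.1 : ℤ) : ℝ)| := by
    refine key' (fun l => u (l, f.2)) g.1 f.1 fun l h1 h2 => ?_
    have hm : (l, f.2) ∈ Q c n := by
      rw [mem_Q]
      simp only [abs_le]
      refine ⟨⟨?_, ?_⟩, hf.2⟩
      · rcases min_le_iff.1 h1 with h | h <;> omega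
      · rcases lt_max_iff.1 h2 with h | h <;> omega
    have := (h _ hm).1
    simpa [D1, e1] using this
  have s2 : |u (g.1, f.2) - u (g.1, g.2)| ≤ G * |((f.2 - g.2 : ℤ) : ℝ)| := by
    refine key' (fun l => u (g.1, l)) g.2 f.2 fun l h1 h2 => ?_
    have hm : (g.1, l) ∈ Q c n := by
      rw [mem_Q]
      simp only [abs_le]
      refine ⟨hg.1, ?_, ?_⟩
      · rcases min_le_iff.1 h1 with h | h <;> omega
      · rcases lt_max_iff.1 h2 with h | h <;> omega
    have := (h _ hm).2
    simpa [D2, e2] using this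
  have s3 : |u f - u g| ≤ |u (f.1, f.2) - u (g.1, f.2)| + |u (g.1, f.2) - u (g.1, g.2)| := by
    have : u f - u g = (u (f.1, f.2) - u (g.1, f.2)) + (u (g.1, f.2) - u (g.1, g.2)) := by ring
    rw [this]; exact abs_add_le _ _
  linarith

/-- Lipschitz estimate for a harmonic function with `L²` bound on a ball -/
theorem lip_est {a : ℝ} (ha : 0 < a) {u : ℤ × ℤ → ℝ} {z₀ : ℂ} {ρ : ℝ} (haρ : a ≤ ρ / 128)
    (harm : ∀ f, ‖meshPoint a f - z₀‖ < ρ → lap u f = 0) {M : ℝ} (hM0 : 0 ≤ M)
    (hM : ∫⁻ z in ball z₀ ρ, ENNReal.ofReal ((emb a u z) ^ 2) ≤ ENNReal.ofReal (M ^ 2))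
    {f g : ℤ × ℤ} (hf : ‖meshPoint a f - z₀‖ ≤ ρ / 128) (hg : ‖meshPoint a g - z₀‖ ≤ ρ / 128) :
    |u f - u g| ≤ 1554048 * M / ρ ^ 2 * ‖meshPoint a f - meshPoint a g‖ := by
  have hρ : 0 < ρ := by linarith
  set c := meshIndex a z₀ with hc
  have hcz : ‖meshPoint a c - z₀‖ ≤ 2 * a := norm_mesh_sub ha z₀
  set r := ⌊ρ / (4 * a)⌋₊ with hr
  have ha4 : 0 < 4 * a := by linarith
  have hq : 32 ≤ ρ / (4 * a) := by rw [le_div_iff₀ ha4]; linarith
  have hr1 : (r : ℝ) ≤ ρ / (4 * a) := Nat.floor_le (by positivity)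
  have hr2 : ρ / (4 * a) < r + 1 := Nat.lt_floor_add_one _
  have hr3 : ρ / (8 * a) ≤ r := by
    have : ρ / (8 * a) = ρ / (4 * a) / 2 := by field_simp; ring
    rw [this]; linarith
  have hra : (r : ℝ) * a ≤ ρ / 4 := by
    have := mul_le_mul_of_nonneg_right hr1 ha.le
    have e : ρ / (4 * a) * a = ρ / 4 := by field_simp
    linarith
  have hra' : ρ / 8 ≤ (r : ℝ) * a := by
    have := mul_le_mul_of_nonneg_right hr3 ha.le
    have e : ρ / (8 * a) * a = ρ / 8 := by field_simp
    linarith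
  have hr16 : 16 ≤ r := by
    have : (16 : ℝ) ≤ r := by linarith
    exact_mod_cast this
  have hr0 : (0 : ℝ) < r := by
    have : (16 : ℝ) ≤ r := by exact_mod_cast hr16
    linarith
  -- points of the box are in the ball
  have hbox : ∀ z ∈ Q c r, ‖meshPoint a z - z₀‖ ≤ ρ / 2 + 2 * a := by
    intro z hz
    rw [mem_Q] at hz
    have h1 := meshPoint_sub a z c
    rw [abs_of_pos ha] at h1
    have h2 : |((z.1 - c.1 : ℤ) : ℝ)| ≤ r := by
      have := hz.1
      rw [← Int.cast_abs]; exact_mod_cast this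
    have h3 : |((z.2 - c.2 : ℤ) : ℝ)| ≤ r := by
      have := hz.2
      rw [← Int.cast_abs]; exact_mod_cast this
    have h4 : ‖meshPoint a z - z₀‖ ≤ ‖meshPoint a z - meshPoint a c‖ + ‖meshPoint a c - z₀‖ :=
      norm_sub_le_norm_sub_add_norm_sub _ _ _
    nlinarith
  have hH : Harm u c (r - 1) := by
    intro z hz
    refine harm z (lt_of_le_of_lt (hbox z (Q_mono (Nat.sub_le _ _) hz)) ?_)
    linarith
  -- the sum of squares
  set S := ∑ w ∈ Q c r, u w ^ 2 with hS
  have hS0 : 0 ≤ S := Finset.sum_nonneg fun _ _ => sq_nonneg _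
  have hSM : a ^ 2 * S ≤ M ^ 2 := by
    have h1 := sum_le_lintegral ha (Q c r) (fun f => ENNReal.ofReal (u f ^ 2)) (B := ball z₀ ρ)
      measurableSet_ball (by
        intro f hf z hz
        rw [mem_ball, dist_eq_norm]
        have h2 := norm_cell_sub ha hz
        have h3 := hbox f hf
        have h4 : ‖z - z₀‖ ≤ ‖z - meshPoint a f‖ + ‖meshPoint a f - z₀‖ :=
          norm_sub_le_norm_sub_add_norm_sub _ _ _
        rw [norm_sub_rev z (meshPoint a f)] at h4
        linarith)
    have h2 := h1.trans hM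
    rw [← ENNReal.ofReal_sum_of_nonneg (fun _ _ => sq_nonneg _),
      ← ENNReal.ofReal_mul (by positivity)] at h2
    exact (ENNReal.ofReal_le_ofReal_iff (by positivity)).1 h2
  -- gradient bound
  set G : ℝ := 777024 * M * a / ρ ^ 2 with hG
  have hG0 : 0 ≤ G := by positivity
  have hgrad : ∀ z ∈ Q c (r / 2 / 4), |D1 u z| ≤ G ∧ |D2 u z| ≤ G := by
    intro z hz
    have h1 := interior_D_sq (by omega) hH hz
    have h2 : 147392784 / (r : ℝ) ^ 4 * S ≤ G ^ 2 := by
      have e1 : 147392784 / (r : ℝ) ^ 4 * S = 147392784 * (a ^ 2 * S) * a ^ 2 / (r * a) ^ 4 := by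
        field_simp
      rw [e1]
      have e2 : (ρ / 8) ^ 4 ≤ (r * a) ^ 4 := pow_le_pow_left₀ (by positivity) hra' 4
      have e3 : 0 < (ρ / 8) ^ 4 := by positivity
      calc 147392784 * (a ^ 2 * S) * a ^ 2 / (r * a) ^ 4
          ≤ 147392784 * M ^ 2 * a ^ 2 / (ρ / 8) ^ 4 := by
            apply div_le_div₀ (by positivity) _ e3 e2
            gcongr
        _ = (147392784 * 4096) * (M * a / ρ ^ 2) ^ 2 := by field_simp; ring
        _ ≤ (777024 ^ 2) * (M * a / ρ ^ 2) ^ 2 := by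
            apply mul_le_mul_of_nonneg_right _ (sq_nonneg _)
            norm_num
        _ = G ^ 2 := by rw [hG]; ring
    have h3 : D1 u z ^ 2 ≤ G ^ 2 := by nlinarith [sq_nonneg (D2 u z)]
    have h4 : D2 u z ^ 2 ≤ G ^ 2 := by nlinarith [sq_nonneg (D1 u z)]
    exact ⟨abs_le_of_sq_le_sq h3 hG0, abs_le_of_sq_le_sq h4 hG0⟩
  -- membership
  have hmem : ∀ f : ℤ × ℤ, ‖meshPoint a f - z₀‖ ≤ ρ / 128 → f ∈ Q c (r / 2 / 4) := by
    intro f hf
    have h1 : ‖meshPoint a f - meshPoint a c‖ ≤ ρ / 128 + 2 * a := by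
      have h4 : ‖meshPoint a f - meshPoint a c‖ ≤ ‖meshPoint a f - z₀‖ + ‖z₀ - meshPoint a c‖ :=
        norm_sub_le_norm_sub_add_norm_sub _ _ _
      rw [norm_sub_rev z₀] at h4
      linarith
    obtain ⟨h2, h3⟩ := abs_le_meshPoint_sub a f c
    rw [abs_of_pos ha] at h2 h3
    have hn : ((r / 2 / 4 : ℕ) : ℝ) * a ≥ ρ / 32 - a := by
      have h5 : r ≤ 8 * (r / 2 / 4) + 7 := by omega
      have h6 : (r : ℝ) ≤ 8 * ((r / 2 / 4 : ℕ) : ℝ) + 7 := by exact_mod_cast h5
      have h7 : ρ / (4 * a) * a = ρ / 4 := by field_simp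
      nlinarith
    have hx : ∀ m : ℤ, a * |(m : ℝ)| ≤ ρ / 128 + 2 * a → |m| ≤ ((r / 2 / 4 : ℕ) : ℤ) := by
      intro m hm
      have h8 : a * |(m : ℝ)| ≤ a * ((r / 2 / 4 : ℕ) : ℝ) := by nlinarith
      have h9 := le_of_mul_le_mul_left h8 ha
      rw [← Int.cast_abs] at h9
      have h10 : ((|m| : ℤ) : ℝ) ≤ (((r / 2 / 4 : ℕ) : ℤ) : ℝ) := by
        rw [Int.cast_natCast]; exact h9
      exact Int.cast_le.1 h10
    rw [mem_Q]
    exact ⟨hx _ (h2.trans h1), hx _ (h3.trans h1)⟩
  have hfin := sub_le_of_D hgrad (hmem f hf) (hmem g hg)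
  obtain ⟨h2, h3⟩ := abs_le_meshPoint_sub a f g
  rw [abs_of_pos ha] at h2 h3
  refine hfin.trans ?_
  have e : G * (|((f.1 - g.1 : ℤ) : ℝ)| + |((f.2 - g.2 : ℤ) : ℝ)|) =
      777024 * M / ρ ^ 2 * (a * |((f.1 - g.1 : ℤ) : ℝ)| + a * |((f.2 - g.2 : ℤ) : ℝ)|) := by
    rw [hG]; ring
  rw [e]
  have e2 : 1554048 * M / ρ ^ 2 * ‖meshPoint a f - meshPoint a g‖ =
      777024 * M / ρ ^ 2 * (‖meshPoint a f - meshPoint a g‖ + ‖meshPoint a f - meshPoint a g‖) := by
    ring
  rw [e2]
  apply mul_le_mul_of_nonneg_left _ (by positivity)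
  linarith

/-- **upgrade**: `L²` convergence on a ball of functions that are harmonic there implies convergence
along all families of faces tending to the centre -/
theorem upgrade {ι : Type*} {l : Filter ι} {a : ι → ℝ} (ha : Tendsto a l (𝓝[>] 0))
    {u : ι → ℤ × ℤ → ℝ} {z₀ : ℂ} {ρ : ℝ} (hρ : 0 < ρ)
    (harm : ∀ᶠ k in l, ∀ f, ‖meshPoint (a k) f - z₀‖ < ρ → lap (u k) f = 0)
    {Φ : ℂ → ℝ} {B : ℝ} (hB : ∀ z ∈ ball z₀ ρ, |Φ z| ≤ B) (hc : ContinuousAt Φ z₀)
    (hL : Tendsto (fun k => ∫⁻ z in ball z₀ ρ, ENNReal.ofReal ((emb (a k) (u k) z - Φ z) ^ 2)) l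
      (𝓝 0))
    {f : ι → ℤ × ℤ} (hf : Tendsto (fun k => meshPoint (a k) (f k)) l (𝓝 z₀)) :
    Tendsto (fun k => u k (f k)) l (𝓝 (Φ z₀)) := by
  have hB0 : 0 ≤ B := (abs_nonneg _).trans (hB z₀ (mem_ball_self hρ))
  have hapos : ∀ᶠ k in l, 0 < a k := ha.eventually self_mem_nhdsWithin
  have ha0 : Tendsto a l (𝓝 0) := ha.mono_right nhdsWithin_le_nhds
  -- bound of the L² norm
  set V : ℝ := (volume (ball z₀ ρ)).toReal with hV
  have hVfin : volume (ball z₀ ρ) ≠ ⊤ := measure_ball_lt_top.ne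
  set M : ℝ := Real.sqrt (2 + 2 * B ^ 2 * V) with hMdef
  have hM2 : M ^ 2 = 2 + 2 * B ^ 2 * V := Real.sq_sqrt (by positivity)
  have hM0 : 0 ≤ M := Real.sqrt_nonneg _
  have hMb : ∀ᶠ k in l, ∫⁻ z in ball z₀ ρ, ENNReal.ofReal ((emb (a k) (u k) z) ^ 2) ≤
      ENNReal.ofReal (M ^ 2) := by
    filter_upwards [hL.eventually (eventually_le_nhds (show (0 : ENNReal) < 1 from one_pos))]
      with k hk
    calc ∫⁻ z in ball z₀ ρ, ENNReal.ofReal ((emb (a k) (u k) z) ^ 2)
        ≤ ∫⁻ z in ball z₀ ρ, (2 * ENNReal.ofReal ((emb (a k) (u k) z - Φ z) ^ 2) +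
            ENNReal.ofReal (2 * B ^ 2)) := by
          refine setLIntegral_mono' measurableSet_ball fun z hz => ?_
          have h1 : |Φ z| ≤ B := hB z hz
          have h2 : Φ z ^ 2 ≤ B ^ 2 := by rw [← sq_abs]; gcongr
          rw [show (2 : ENNReal) = ENNReal.ofReal 2 by simp, ← ENNReal.ofReal_mul (by norm_num),
            ← ENNReal.ofReal_add (by positivity) (by positivity)]
          apply ENNReal.ofReal_le_ofReal
          nlinarith [sq_nonneg (emb (a k) (u k) z - 2 * Φ z)]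
      _ = 2 * (∫⁻ z in ball z₀ ρ, ENNReal.ofReal ((emb (a k) (u k) z - Φ z) ^ 2)) +
            ENNReal.ofReal (2 * B ^ 2) * volume (ball z₀ ρ) := by
          rw [lintegral_add_right _ measurable_const, lintegral_const_mul' _ _ (by simp),
            lintegral_const, Measure.restrict_apply_univ]
      _ ≤ 2 * 1 + ENNReal.ofReal (2 * B ^ 2) * volume (ball z₀ ρ) := by gcongr
      _ = ENNReal.ofReal (M ^ 2) := by
          have e : ENNReal.ofReal (2 * B ^ 2 * V) = ENNReal.ofReal (2 * B ^ 2) *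
              volume (ball z₀ ρ) := by
            rw [ENNReal.ofReal_mul (by positivity : (0 : ℝ) ≤ 2 * B ^ 2), hV,
              ENNReal.ofReal_toReal hVfin]
          rw [hM2, ENNReal.ofReal_add (by positivity) (by positivity), e]
          simp
  set K : ℝ := 1554048 * M / ρ ^ 2 with hK
  have hK0 : 0 ≤ K := by positivity
  rw [Metric.tendsto_nhds]
  intro ε hε
  -- choice of η
  obtain ⟨η₁, hη₁, hΦ⟩ := Metric.continuousAt_iff.1 hc (ε / 4) (by positivity)
  set η : ℝ := min (min (η₁ / 2) (ρ / 256)) (ε / (16 * (K + 1))) with hη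
  have hη0 : 0 < η := by positivity
  have hη1 : η ≤ η₁ / 2 := (min_le_left _ _).trans (min_le_left _ _)
  have hη2 : η ≤ ρ / 256 := (min_le_left _ _).trans (min_le_right _ _)
  have hη3 : η ≤ ε / (16 * (K + 1)) := min_le_right _ _
  have hKη : K * (4 * η) ≤ ε / 4 := by
    have h1 : η * (16 * (K + 1)) ≤ ε := by
      rwa [le_div_iff₀ (by positivity)] at hη3
    nlinarith
  set W : ℝ := (volume (ball z₀ η)).toReal with hW
  have hWfin : volume (ball z₀ η) ≠ ⊤ := measure_ball_lt_top.ne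
  have hW0 : 0 < W := ENNReal.toReal_pos (measure_ball_pos _ _ hη0).ne' hWfin
  have hsmall : ∀ᶠ k in l, ∫⁻ z in ball z₀ ρ, ENNReal.ofReal ((emb (a k) (u k) z - Φ z) ^ 2) ≤
      ENNReal.ofReal ((ε / 4) ^ 2 * W) :=
    hL.eventually (eventually_le_nhds (by
      rw [ENNReal.ofReal_pos]; positivity))
  have hfz : ∀ᶠ k in l, ‖meshPoint (a k) (f k) - z₀‖ < η := by
    have := (Metric.tendsto_nhds.1 hf) η hη0
    simpa [dist_eq_norm] using this
  have haη : ∀ᶠ k in l, a k ≤ η / 2 := ha0.eventually (eventually_le_nhds (by positivity))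
  filter_upwards [hMb, hsmall, hfz, haη, hapos, harm] with k h1 h2 h3 h4 h5 h6
  -- compare with the average
  have key : ∀ z ∈ ball z₀ η, |u k (f k) - Φ z₀| ≤ ε / 2 + |emb (a k) (u k) z - Φ z| := by
    intro z hz
    rw [mem_ball, dist_eq_norm] at hz
    have hg : ‖meshPoint (a k) (meshIndex (a k) z) - z₀‖ ≤ 2 * η := by
      have e1 : ‖meshPoint (a k) (meshIndex (a k) z) - z₀‖ ≤
          ‖meshPoint (a k) (meshIndex (a k) z) - z‖ + ‖z - z₀‖ :=
        norm_sub_le_norm_sub_add_norm_sub _ _ _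
      have e2 := norm_mesh_sub h5 z
      linarith
    have e3 := lip_est h5 (by linarith) h6 hM0 h1 (f := f k) (g := meshIndex (a k) z)
      (by linarith) (by linarith)
    have e4 : ‖meshPoint (a k) (f k) - meshPoint (a k) (meshIndex (a k) z)‖ ≤ 4 * η := by
      have e5 : ‖meshPoint (a k) (f k) - meshPoint (a k) (meshIndex (a k) z)‖ ≤
          ‖meshPoint (a k) (f k) - z₀‖ + ‖z₀ - meshPoint (a k) (meshIndex (a k) z)‖ :=
        norm_sub_le_norm_sub_add_norm_sub _ _ _
      rw [norm_sub_rev z₀] at e5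
      linarith
    have e6 : |u k (f k) - emb (a k) (u k) z| ≤ ε / 4 := by
      refine e3.trans ((mul_le_mul_of_nonneg_left e4 hK0).trans hKη)
    have e7 : |Φ z - Φ z₀| ≤ ε / 4 := by
      have := hΦ (x := z) (by rw [dist_eq_norm]; linarith)
      rw [Real.dist_eq] at this
      exact this.le
    calc |u k (f k) - Φ z₀| = |(u k (f k) - emb (a k) (u k) z) + (emb (a k) (u k) z - Φ z) +
          (Φ z - Φ z₀)| := by ring_nf
      _ ≤ |u k (f k) - emb (a k) (u k) z| + |emb (a k) (u k) z - Φ z| + |Φ z - Φ z₀| :=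
          abs_add_three _ _ _
      _ ≤ _ := by linarith
  rw [Real.dist_eq]
  by_contra hcon
  rw [not_lt] at hcon
  have hpt : ∀ z ∈ ball z₀ η, (ε / 2) ^ 2 ≤ (emb (a k) (u k) z - Φ z) ^ 2 := by
    intro z hz
    have := key z hz
    rw [← sq_abs (emb (a k) (u k) z - Φ z)]
    have h7 : ε / 2 ≤ |emb (a k) (u k) z - Φ z| := by linarith
    gcongr
  have h8 : ENNReal.ofReal ((ε / 2) ^ 2 * W) ≤ ENNReal.ofReal ((ε / 4) ^ 2 * W) := by
    calc ENNReal.ofReal ((ε / 2) ^ 2 * W) = ∫⁻ _ in ball z₀ η, ENNReal.ofReal ((ε / 2) ^ 2) := by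
          rw [lintegral_const, Measure.restrict_apply_univ, ENNReal.ofReal_mul (by positivity), hW,
            ENNReal.ofReal_toReal hWfin]
      _ ≤ ∫⁻ z in ball z₀ η, ENNReal.ofReal ((emb (a k) (u k) z - Φ z) ^ 2) :=
          setLIntegral_mono' measurableSet_ball fun z hz => ENNReal.ofReal_le_ofReal (hpt z hz)
      _ ≤ ∫⁻ z in ball z₀ ρ, ENNReal.ofReal ((emb (a k) (u k) z - Φ z) ^ 2) :=
          lintegral_mono_set (ball_subset_ball (by linarith))
      _ ≤ _ := h2
  rw [ENNReal.ofReal_le_ofReal_iff (by positivity)] at h8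
  nlinarith [mul_pos (pow_pos hε 2) hW0]

end Crest.Agent.R165.Upx622
end
end

-- ▼ part R165/Mac0_622

/-!
# Row 165 (S0250), U4/MAC (helper622): definitions, local gauge, harmonicity

* `rays V` : signs of the spin insertions at the vertices `V i` (rays to the right)
* `LatSeq D x a w V` : sequences of plus backgrounds approximating `(D, x)`
* `Om D x = D \ range x`
* `rel x z`, `gz`, `gc` : the rays through the point `z`, lattice and continuum gauge signs near `z`
* `local_gauge` : near `z ∈ Om` the ray signs are `gz f * gz (nb f h)`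
* `rX` : `∏ (x_j - z)^(1/2)`; `gc * rX` is continuous near `z`
-/

set_option autoImplicit false
set_option linter.unusedVariables false
set_option linter.unusedSimpArgs false

noncomputable section

open MeasureTheory Filter Topology Set Metric
open Crest.ProbabilityR.IsingModel
open Crest.Agent.R165.Tr1x40 Crest.Agent.R165.RIfx891 Crest.Agent.R165.Embx622

namespace Crest.Agent.R165.Mac0x622

/-- signs of the insertions at the vertices `V i` -/
def rays {n : ℕ} (V : Fin n → Face) : Fld := fun f h => ∏ i, rayw (V i) f h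

/-- sequences of plus backgrounds approximating the domain `D` with spin insertions at `x` -/
structure LatSeq (D : Set ℂ) {n : ℕ} (x : Fin n → ℂ) (a : ℕ → ℝ) (w : ℕ → Fld)
    (V : ℕ → Fin n → Face) : Prop where
  pos : ∀ k, 0 < a k
  lim : Tendsto a atTop (𝓝 0)
  sym : ∀ k, Sym (w k)
  plus : ∀ k f h, w k f h ^ 2 = xc ^ 2 ∨ w k f h = 0
  tip : ∀ i, Tendsto (fun k => meshPoint (a k) (V k i)) atTop (𝓝 (x i))
  ins : ∀ K : Set ℂ, IsCompact K → K ⊆ D → ∀ᶠ k in atTop, ∀ f, meshPoint (a k) f ∈ K →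
    ∀ h, w k f h = rays (V k) f h * xc
  out : ∀ K : Set ℂ, IsCompact K → Disjoint K (closure D) → ∀ᶠ k in atTop, ∀ f,
    meshPoint (a k) f ∈ K → ∀ h, w k f h = 0
  bdd : ∃ R : ℝ, ∀ k f, R ≤ ‖meshPoint (a k) f‖ → ∀ h, w k f h = 0

/-- the part of the conditions that concerns the punctured domain `Om` only -/
structure OmSeq (Om : Set ℂ) {n : ℕ} (x : Fin n → ℂ) (a : ℕ → ℝ) (w : ℕ → Fld)
    (V : ℕ → Fin n → Face) : Prop where
  pos : ∀ k, 0 < a k
  lim : Tendsto a atTop (𝓝 0)
  sym : ∀ k, Sym (w k)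
  tip : ∀ i, Tendsto (fun k => meshPoint (a k) (V k i)) atTop (𝓝 (x i))
  ins : ∀ K : Set ℂ, IsCompact K → K ⊆ Om → ∀ᶠ k in atTop, ∀ f, meshPoint (a k) f ∈ K →
    ∀ h, w k f h = rays (V k) f h * xc

/-- the punctured domain -/
def Om (D : Set ℂ) {n : ℕ} (x : Fin n → ℂ) : Set ℂ := D \ range x

theorem LatSeq.omSeq {D : Set ℂ} {n : ℕ} {x : Fin n → ℂ} {a : ℕ → ℝ} {w : ℕ → Fld}
    {V : ℕ → Fin n → Face} (H : LatSeq D x a w V) : OmSeq (Om D x) x a w V :=
  ⟨H.pos, H.lim, H.sym, H.tip, fun K hK hKO => H.ins K hK (hKO.trans sdiff_subset)⟩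

theorem OmSeq.comp {O : Set ℂ} {n : ℕ} {x : Fin n → ℂ} {a : ℕ → ℝ} {w : ℕ → Fld}
    {V : ℕ → Fin n → Face} (H : OmSeq O x a w V) {φ : ℕ → ℕ} (hφ : StrictMono φ) :
    OmSeq O x (a ∘ φ) (w ∘ φ) (V ∘ φ) :=
  ⟨fun k => H.pos _, H.lim.comp hφ.tendsto_atTop, fun k => H.sym _,
    fun i => (H.tip i).comp hφ.tendsto_atTop,
    fun K hK hKO => hφ.tendsto_atTop.eventually (H.ins K hK hKO)⟩

theorem LatSeq.comp {D : Set ℂ} {n : ℕ} {x : Fin n → ℂ} {a : ℕ → ℝ} {w : ℕ → Fld}
    {V : ℕ → Fin n → Face} (H : LatSeq D x a w V) {φ : ℕ → ℕ} (hφ : StrictMono φ) :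
    LatSeq D x (a ∘ φ) (w ∘ φ) (V ∘ φ) :=
  ⟨fun k => H.pos _, H.lim.comp hφ.tendsto_atTop, fun k => H.sym _, fun k => H.plus _,
    fun i => (H.tip i).comp hφ.tendsto_atTop,
    fun K hK hKO => hφ.tendsto_atTop.eventually (H.ins K hK hKO),
    fun K hK hKO => hφ.tendsto_atTop.eventually (H.out K hK hKO),
    by obtain ⟨R, hR⟩ := H.bdd; exact ⟨R, fun k => hR _⟩⟩

theorem OmSeq.tendsto_pos {O : Set ℂ} {n : ℕ} {x : Fin n → ℂ} {a : ℕ → ℝ} {w : ℕ → Fld}
    {V : ℕ → Fin n → Face} (H : OmSeq O x a w V) : Tendsto a atTop (𝓝[>] 0) :=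
  tendsto_nhdsWithin_iff.2 ⟨H.lim, Eventually.of_forall H.pos⟩

/-! ### the gauge near a point -/

/-- the ray of `x` passes through `z` -/
def rel (x z : ℂ) : Prop := x.im = z.im ∧ x.re < z.re

/-- lattice gauge near `z` -/
def gz {n : ℕ} (x : Fin n → ℂ) (z : ℂ) (V : Fin n → Face) (f : Face) : ℝ := by
  classical exact ∏ i, if rel (x i) z ∧ (V i).2 ≤ f.2 then -1 else 1

/-- continuum gauge near `z` -/
def gc {n : ℕ} (x : Fin n → ℂ) (z u : ℂ) : ℝ := by
  classical exact ∏ i, if rel (x i) z ∧ (x i).im < u.im then -1 else 1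

theorem prod_sign_sq {n : ℕ} (p : Fin n → Prop) [∀ i, Decidable (p i)] :
    (∏ i, if p i then (-1 : ℝ) else 1) ^ 2 = 1 := by
  rw [← Finset.prod_pow]
  refine Finset.prod_eq_one fun i _ => ?_
  split_ifs <;> norm_num

theorem gz_sq {n : ℕ} (x : Fin n → ℂ) (z : ℂ) (V : Fin n → Face) (f : Face) :
    gz x z V f ^ 2 = 1 := by
  classical
  unfold gz
  exact prod_sign_sq _

theorem gc_sq {n : ℕ} (x : Fin n → ℂ) (z u : ℂ) : gc x z u ^ 2 = 1 := by
  classical
  unfold gc
  exact prod_sign_sq _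


theorem gz_abs {n : ℕ} (x : Fin n → ℂ) (z : ℂ) (V : Fin n → Face) (f : Face) :
    |gz x z V f| = 1 := by
  have := gz_sq x z V f
  rw [← sq_abs] at this
  nlinarith [abs_nonneg (gz x z V f)]

theorem gc_abs {n : ℕ} (x : Fin n → ℂ) (z u : ℂ) : |gc x z u| = 1 := by
  have := gc_sq x z u
  rw [← sq_abs] at this
  nlinarith [abs_nonneg (gc x z u)]

theorem meshPoint_re (a : ℝ) (f : ℤ × ℤ) : (meshPoint a f).re = a * f.1 := rfl
theorem meshPoint_im (a : ℝ) (f : ℤ × ℤ) : (meshPoint a f).im = a * f.2 := rfl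

/-- **local gauge**: near `z ∉ range x` the ray signs are a coboundary -/
theorem local_gauge {n : ℕ} {x : Fin n → ℂ} {a : ℕ → ℝ} (hpos : ∀ k, 0 < a k)
    (hlim : Tendsto a atTop (𝓝 0)) {V : ℕ → Fin n → Face}
    (tip : ∀ i, Tendsto (fun k => meshPoint (a k) (V k i)) atTop (𝓝 (x i)))
    {z : ℂ} (hz : ∀ i, x i ≠ z) :
    ∃ ρ > 0, ∀ᶠ k in atTop, ∀ f : Face, ‖meshPoint (a k) f - z‖ < ρ → ∀ h,
      rays (V k) f h = gz x z (V k) f * gz x z (V k) (nb f h) := by
  classical
  -- one insertion at a time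
  have key : ∀ i, ∃ ρ > 0, ∀ᶠ k in atTop, ∀ f : Face, ‖meshPoint (a k) f - z‖ < ρ → ∀ h,
      rayw (V k i) f h = (if rel (x i) z ∧ (V k i).2 ≤ f.2 then (-1 : ℝ) else 1) *
        (if rel (x i) z ∧ (V k i).2 ≤ (nb f h).2 then -1 else 1) := by
    intro i
    have tr : Tendsto (fun k => a k * ((V k i).1 : ℝ)) atTop (𝓝 (x i).re) :=
      (Complex.continuous_re.tendsto _).comp (tip i)
    have ti : Tendsto (fun k => a k * ((V k i).2 : ℝ)) atTop (𝓝 (x i).im) :=
      (Complex.continuous_im.tendsto _).comp (tip i)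
    by_cases him : (x i).im = z.im
    · rcases lt_trichotomy (x i).re z.re with hre | hre | hre
      · -- the ray passes through `z`
        have hrel : rel (x i) z := ⟨him, hre⟩
        refine ⟨(z.re - (x i).re) / 2, by linarith, ?_⟩
        filter_upwards [tr.eventually (eventually_lt_nhds (show (x i).re <
          ((x i).re + z.re) / 2 by linarith))] with k hk f hf h
        have h1 : a k * (f.1 : ℝ) > ((x i).re + z.re) / 2 := by
          have := (Complex.abs_re_le_norm (meshPoint (a k) f - z)).trans_lt hf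
          rw [Complex.sub_re, meshPoint_re, abs_lt] at this
          linarith
        have h2 : (V k i).1 ≤ f.1 := by
          have h3 : a k * ((V k i).1 : ℝ) < a k * (f.1 : ℝ) := by linarith
          have h4 := lt_of_mul_lt_mul_left h3 (hpos k).le
          have h5 : (V k i).1 < f.1 := by exact_mod_cast h4
          exact h5.le
        unfold rayw
        fin_cases h <;>
          simp only [hrel, h2, and_true, true_and, nb, Fin.zero_eta, Fin.mk_one, Fin.reduceFinMk,
            Fin.isValue, Fin.reduceEq, false_and, or_false, false_or, zero_ne_one, one_ne_zero,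
            if_false, ite_self] <;>
          split_ifs <;> (try norm_num) <;> (try omega)
      · exact absurd (Complex.ext hre him) (hz i)
      · -- the ray starts to the right of `z`
        have hrel : ¬ rel (x i) z := fun h => by have := h.2; linarith
        refine ⟨((x i).re - z.re) / 2, by linarith, ?_⟩
        filter_upwards [tr.eventually (eventually_gt_nhds (show (x i).re >
          ((x i).re + z.re) / 2 by linarith))] with k hk f hf h
        have h1 : a k * (f.1 : ℝ) < ((x i).re + z.re) / 2 := by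
          have := (Complex.abs_re_le_norm (meshPoint (a k) f - z)).trans_lt hf
          rw [Complex.sub_re, meshPoint_re, abs_lt] at this
          linarith
        have h2 : ¬ (V k i).1 ≤ f.1 := by
          have h3 : a k * (f.1 : ℝ) < a k * ((V k i).1 : ℝ) := by linarith
          have h4 := lt_of_mul_lt_mul_left h3 (hpos k).le
          have h5 : f.1 < (V k i).1 := by exact_mod_cast h4
          omega
        simp [rayw, hrel, h2]
    · -- the ray is at a different height
      have hrel : ¬ rel (x i) z := fun h => him h.1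
      set d := |(x i).im - z.im| with hd
      have hd0 : 0 < d := abs_pos.2 (sub_ne_zero.2 him)
      refine ⟨d / 4, by linarith, ?_⟩
      have e1 : ∀ᶠ k in atTop, |a k * ((V k i).2 : ℝ) - (x i).im| < d / 4 := by
        have := (Metric.tendsto_nhds.1 ti) (d / 4) (by linarith)
        simpa [Real.dist_eq] using this
      have e2 : ∀ᶠ k in atTop, a k < d / 4 := hlim.eventually (eventually_lt_nhds (by linarith))
      filter_upwards [e1, e2] with k h1 h2 f hf h
      have h3 : |a k * (f.2 : ℝ) - z.im| < d / 4 := by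
        have := (Complex.abs_im_le_norm (meshPoint (a k) f - z)).trans_lt hf
        rwa [Complex.sub_im, meshPoint_im] at this
      have h4 : f.2 ≠ (V k i).2 := by
        intro hc
        rw [hc] at h3
        have : d ≤ |a k * ((V k i).2 : ℝ) - (x i).im| + |a k * ((V k i).2 : ℝ) - z.im| := by
          rw [hd]
          have e : (x i).im - z.im = -(a k * ((V k i).2 : ℝ) - (x i).im) +
            (a k * ((V k i).2 : ℝ) - z.im) := by ring
          rw [e]
          refine (abs_add_le _ _).trans ?_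
          rw [abs_neg]
        linarith
      have h5 : f.2 + 1 ≠ (V k i).2 := by
        intro hc
        have hc' : ((V k i).2 : ℝ) = (f.2 : ℝ) + 1 := by rw [← hc]; push_cast; ring
        have : d ≤ |a k * ((V k i).2 : ℝ) - (x i).im| + |a k * (f.2 : ℝ) - z.im| + a k := by
          rw [hd]
          have e : (x i).im - z.im = -(a k * ((V k i).2 : ℝ) - (x i).im) +
            (a k * (f.2 : ℝ) - z.im) + a k := by rw [hc']; ring
          rw [e]
          refine (abs_add_le _ _).trans ?_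
          rw [abs_of_pos (hpos k)]
          have := abs_add_le (-(a k * ((V k i).2 : ℝ) - (x i).im)) (a k * (f.2 : ℝ) - z.im)
          rw [abs_neg] at this
          linarith
        linarith
      simp [rayw, hrel, h4, h5]
  choose ρ hρ hk using key
  obtain ⟨r, hr0, hr⟩ : ∃ r > 0, ∀ i, r ≤ ρ i := by
    rcases isEmpty_or_nonempty (Fin n) with he | he
    · exact ⟨1, one_pos, fun i => (he.false i).elim⟩
    · refine ⟨Finset.univ.inf' Finset.univ_nonempty ρ, ?_, fun i =>
        Finset.inf'_le ρ (Finset.mem_univ i)⟩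
      rw [gt_iff_lt, Finset.lt_inf'_iff]
      exact fun i _ => hρ i
  refine ⟨r, hr0, ?_⟩
  filter_upwards [eventually_all.2 hk] with k hk f hf h
  unfold rays gz
  rw [← Finset.prod_mul_distrib]
  exact Finset.prod_congr rfl fun i _ => hk i f (hf.trans_le (hr i)) h

/-! ### the square root -/

/-- `∏ (x_j - z)^(1/2)`, cuts along the rays to the right -/
def rX {n : ℕ} (x : Fin n → ℂ) (z : ℂ) : ℂ := ∏ j, (x j - z) ^ (1 / 2 : ℂ)

theorem rX_ne {n : ℕ} {x : Fin n → ℂ} {z : ℂ} (hz : ∀ i, x i ≠ z) : rX x z ≠ 0 := by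
  unfold rX
  refine Finset.prod_ne_zero_iff.2 fun i _ => ?_
  rw [Ne, Complex.cpow_eq_zero_iff]
  exact fun h => (hz i) (sub_eq_zero.1 h.1)

/-- square root of the opposite -/
theorem cpow_half_neg {v : ℂ} (hv : 0 < v.re) :
    (-v) ^ (1 / 2 : ℂ) = (if v.im ≤ 0 then Complex.I else -Complex.I) * v ^ (1 / 2 : ℂ) := by
  have hv0 : v ≠ 0 := fun h => by rw [h] at hv; simp at hv
  have hnv0 : -v ≠ 0 := neg_ne_zero.2 hv0
  rw [Complex.cpow_def_of_ne_zero hv0, Complex.cpow_def_of_ne_zero hnv0]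
  have harg : Complex.arg (-v) = Complex.arg v + (if v.im ≤ 0 then Real.pi else -Real.pi) := by
    split_ifs with h
    · rcases lt_or_eq_of_le h with h | h
      · rw [Complex.arg_neg_eq_arg_add_pi_of_im_neg h]
      · have e : v = (v.re : ℂ) := Complex.ext rfl (by simp [h])
        rw [e, ← Complex.ofReal_neg, Complex.arg_ofReal_of_neg (by linarith),
          Complex.arg_ofReal_of_nonneg hv.le, zero_add]
    · rw [Complex.arg_neg_eq_arg_sub_pi_of_im_pos (by linarith)]; ring
  have hlog : Complex.log (-v) = Complex.log v + (if v.im ≤ 0 then (Real.pi : ℂ) else -Real.pi) *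
      Complex.I := by
    unfold Complex.log
    rw [harg, norm_neg]
    split_ifs <;> push_cast <;> ring
  rw [hlog, add_mul, Complex.exp_add, mul_comm]
  congr 1
  split_ifs
  · have : (Real.pi : ℂ) * Complex.I * (1 / 2) = Real.pi / 2 * Complex.I := by ring
    rw [this, Complex.exp_pi_div_two_mul_I]
  · have : -(Real.pi : ℂ) * Complex.I * (1 / 2) = -(Real.pi / 2 * Complex.I) := by ring
    rw [this, Complex.exp_neg, Complex.exp_pi_div_two_mul_I, Complex.inv_I]

/-- continuity of one corrected factor -/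
theorem factor_continuousAt {x z : ℂ} (hz : x ≠ z) [Decidable (rel x z)] :
    ContinuousAt (fun u : ℂ => ((if rel x z ∧ x.im < u.im then (-1 : ℝ) else 1 : ℝ) : ℂ) *
      (x - u) ^ (1 / 2 : ℂ)) z := by
  by_cases h : rel x z
  · have e : ∀ᶠ u in 𝓝 z, ((if rel x z ∧ x.im < u.im then (-1 : ℝ) else 1 : ℝ) : ℂ) *
        (x - u) ^ (1 / 2 : ℂ) = Complex.I * (u - x) ^ (1 / 2 : ℂ) := by
      have h1 : ∀ᶠ u in 𝓝 z, x.re < u.re :=
        (Complex.continuous_re.tendsto z).eventually (eventually_gt_nhds h.2)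
      filter_upwards [h1] with u hu
      have h2 := cpow_half_neg (v := u - x) (by rw [Complex.sub_re]; linarith)
      rw [neg_sub] at h2
      rw [h2]
      by_cases h3 : x.im < u.im
      · have h4 : ¬ (u - x).im ≤ 0 := by rw [Complex.sub_im]; linarith
        simp only [h, h3, h4, true_and, if_true, if_false]
        push_cast; ring
      · have h4 : (u - x).im ≤ 0 := by rw [Complex.sub_im]; linarith
        simp only [h, h3, h4, true_and, if_true, if_false]
        push_cast; ring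
    refine ContinuousAt.congr ?_ (e.mono fun _ h => h.symm)
    have h5 : z - x ∈ Complex.slitPlane := by
      left; rw [Complex.sub_re]; linarith [h.2]
    exact continuousAt_const.mul ((continuousAt_id.sub continuousAt_const).cpow
      continuousAt_const h5)
  · have h5 : x - z ∈ Complex.slitPlane := by
      rw [Complex.mem_slitPlane_iff, Complex.sub_re, Complex.sub_im]
      by_cases him : x.im = z.im
      · left
        have : z.re ≤ x.re := not_lt.1 fun hc => h ⟨him, hc⟩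
        rcases lt_or_eq_of_le this with h6 | h6
        · linarith
        · exact absurd (Complex.ext h6.symm him) hz
      · right; exact sub_ne_zero.2 him
    simp only [h, false_and, if_false]
    exact continuousAt_const.mul ((continuousAt_const.sub continuousAt_id).cpow
      continuousAt_const h5)

theorem gc_mul_rX {n : ℕ} {x : Fin n → ℂ} {z : ℂ} (hz : ∀ i, x i ≠ z) :
    ContinuousAt (fun u => (gc x z u : ℂ) * rX x u) z := by
  classical
  have e : (fun u => (gc x z u : ℂ) * rX x u) = fun u => ∏ i,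
      (((if rel (x i) z ∧ (x i).im < u.im then (-1 : ℝ) else 1 : ℝ) : ℂ) *
        (x i - u) ^ (1 / 2 : ℂ)) := by
    funext u
    unfold gc rX
    rw [Finset.prod_mul_distrib]
    push_cast
    rfl
  rw [e]
  exact tendsto_finsetProd _ fun i _ => factor_continuousAt (hz i)

/-- continuity of the gauge corrected field -/
theorem gc_mul_continuousAt {n : ℕ} {x : Fin n → ℂ} {z : ℂ} (hz : ∀ i, x i ≠ z) {F g : ℂ → ℂ}
    (hg : ContinuousAt g z) (hF : ∀ᶠ u in 𝓝 z, F u * rX x u = g u) :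
    ContinuousAt (fun u => (gc x z u : ℂ) * F u) z := by
  have h1 := gc_mul_rX hz
  have hgc1 : ∀ u, (gc x z u : ℂ) ^ 2 = 1 := fun u => by
    have := gc_sq x z u; exact_mod_cast this
  have h2 : (gc x z z : ℂ) * rX x z ≠ 0 := by
    refine mul_ne_zero (fun h => ?_) (rX_ne hz)
    have := hgc1 z
    rw [h] at this; norm_num at this
  have h3 : ∀ᶠ u in 𝓝 z, (gc x z u : ℂ) * rX x u ≠ 0 := h1.eventually_ne h2
  refine (hg.div h1 h2).congr ?_
  filter_upwards [h3, hF] with u hu hFu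
  have hu' : rX x u ≠ 0 := right_ne_zero_of_mul hu
  simp only [Pi.div_apply]
  rw [← hFu, div_eq_iff hu]
  linear_combination (-(F u * rX x u)) * hgc1 u

end Crest.Agent.R165.Mac0x622
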