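import Crest.Agent.R165.LimR_610
import Crest.Agent.R165.MacI_610
import Crest.Agent.R165.Mac1_622
import Crest.Agent.R165.Cl4_722

-- ▼ part R165/LimS_610
section

/-!
# Row 165, blocks R / U4 (helper610): the limit laws for light fields

`Φ h z = lv (F z) h` (amplitude `F`, components `Re (F e^{-3 i θ_h / 2})`).

* `LD.curl` : `∫ (∂₁χ Im F² + ∂₂χ Re F²) = 0`, `LD.div` : `0 ≤ ∫ (∂₁χ Re F² - ∂₂χ Im F²)` for
  `0 ≤ χ`, where the sources vanish on the support of `χ`;
* `LD.hol` : linear law, `∫ χ ⟨lv f, G⟩ = x_c ∫ Im (f F (∂₁χ + i ∂₂χ))`;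
* `CompLim.isSpin` : the limit of `CompLim` is a spinor in the sense of helper719.
-/

set_option autoImplicit false

noncomputable section

open MeasureTheory Filter Topology Set
open Crest.ProbabilityR.IsingModel
open Crest.Agent.R165.Tr1x40 Crest.Agent.R165.LimAx610 Crest.Agent.R165.LimQx610
open Crest.Agent.R165.LimRx610 Crest.Agent.R165.RIfx891 Crest.Agent.R165.Embx622
open Crest.Agent.R165.Mac0x622 Crest.Agent.R165.MacIx610
open scoped ENNReal

namespace Crest.Agent.R165.LimSx610

/-! ### algebra of light vectors -/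

theorem A0_lv (c : ℂ) (h : Fin 4) : A0 (lv c) h = -(xc * sg h * lv c (op h)) := by
  have h2 := sq2
  fin_cases h <;>
    simp only [A0, lv, xc, div_sq2, sg, op]
  · linear_combination (1/2 * (c.im - c.re)) * h2
  · ring
  · linear_combination (1/2 * (c.im + c.re)) * h2
  · ring

theorem light_lv (c : ℂ) (h : Fin 4) : A0 (lv c) h + xc * sg h * lv c (op h) = 0 := by
  rw [A0_lv]; ring

/-- the flux of the second law -/
theorem flux2 (c : ℂ) (p q : ℝ) (d : Fin 4 → ℝ) (h0 : d 0 = -q) (h1 : d 1 = p) (h2 : d 2 = q)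
    (h3 : d 3 = -p) :
    ∑ h, d h * (lv c h * A0 (lv c) h) = xc * (p * (c ^ 2).im + q * (c ^ 2).re) := by
  have hs := sq2
  have hs0 := sq2_pos
  simp only [A0_lv, Fin.sum_univ_four, h0, h1, h2, h3, lv, sg, op, pow_two, Complex.mul_im,
    Complex.mul_re]
  field_simp
  linear_combination (-(xc * q * (c.re * c.re - c.im * c.im))) * hs

/-- the flux of the first law -/
theorem flux1 (c : ℂ) (p q : ℝ) (d : Fin 4 → ℝ) (h0 : d 0 = -q) (h1 : d 1 = p) (h2 : d 2 = q)
    (h3 : d 3 = -p) :
    ∑ h, d h * (lv c h * lv c h) = p * (c ^ 2).re - q * (c ^ 2).im := by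
  have hs := sq2
  have hs0 := sq2_pos
  simp only [Fin.sum_univ_four, h0, h1, h2, h3, lv, pow_two, Complex.mul_im, Complex.mul_re]
  field_simp
  linear_combination (2 * q * c.re * c.im) * hs

/-- the flux of the linear law -/
theorem flux0 (f c : ℂ) (p q : ℝ) (d : Fin 4 → ℝ) (h0 : d 0 = -q) (h1 : d 1 = p) (h2 : d 2 = q)
    (h3 : d 3 = -p) :
    ∑ h, d h * (lv c h * (sg h * lv f (op h))) = -((f * c) * (p + Complex.I * q)).im := by
  have hs := sq2
  have hs0 := sq2_pos
  simp only [Fin.sum_univ_four, h0, h1, h2, h3, lv, sg, op, Complex.mul_im, Complex.mul_re,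
    Complex.add_re, Complex.add_im, Complex.ofReal_re, Complex.ofReal_im, Complex.I_re,
    Complex.I_im]
  field_simp
  linear_combination (q * (c.re * f.re - c.im * f.im)) * hs

/-! ### the laws for light fields -/

variable {ι : Type*} {l : Filter ι} {D B : Set ℂ} {a : ι → ℝ} {w φ : ι → Fld}
  {G : Fin 4 → ℂ → ℝ} {F : ℂ → ℂ}

theorem dχ_flux (χ : ℂ → ℝ) (z : ℂ) : dχ χ 0 z = -(fderiv ℝ χ z Complex.I) ∧
    dχ χ 1 z = fderiv ℝ χ z 1 ∧ dχ χ 2 z = fderiv ℝ χ z Complex.I ∧
    dχ χ 3 z = -(fderiv ℝ χ z 1) :=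
  ⟨dχ_zero χ z, dχ_one χ z, dχ_two χ z, dχ_three χ z⟩

/-- **second law**, light fields, no source on the support of the cut-off -/
theorem curl_law [l.NeBot] (H : LD l D B a w φ (fun h z => lv (F z) h) G) {χ : ℂ → ℝ}
    {C : NNReal} (T : Test D B χ C)
    (h0 : ∀ᵐ z ∂volume.restrict B, χ z ≠ 0 → ∀ h, G h z = 0) :
    ∫ z in B, (fderiv ℝ χ z 1 * (F z ^ 2).im + fderiv ℝ χ z Complex.I * (F z ^ 2).re) = 0 := by
  have h := H.law2 T
  have e1 : ∫ z in B, ∑ h, χ z * (lv (F z) h * G h z) = 0 := by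
    rw [← integral_zero ℂ ℝ (μ := volume.restrict B)]
    refine integral_congr_ae ?_
    filter_upwards [h0] with z hz
    by_cases h : χ z = 0
    · simp [h]
    · simp [hz h]
  rw [e1, mul_zero] at h
  have e2 : ∫ z in B, ∑ h, dχ χ h z * (lv (F z) h * A0c (fun h z => lv (F z) h) h z)
      = xc * ∫ z in B, (fderiv ℝ χ z 1 * (F z ^ 2).im
        + fderiv ℝ χ z Complex.I * (F z ^ 2).re) := by
    rw [← integral_const_mul]
    refine integral_congr_ae (Eventually.of_forall fun z => ?_)
    obtain ⟨d0, d1, d2, d3⟩ := dχ_flux χ z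
    exact flux2 (F z) _ _ (fun h => dχ χ h z) d0 d1 d2 d3
  rw [e2] at h
  exact (mul_eq_zero.1 h).resolve_left xc_pos.ne'

/-- **first law**, light fields -/
theorem div_law [l.NeBot] (H : LD l D B a w φ (fun h z => lv (F z) h) G) {χ : ℂ → ℝ}
    {C : NNReal} (T : Test D B χ C) (hχ : ∀ z, 0 ≤ χ z)
    (h0 : ∀ᵐ z ∂volume.restrict B, χ z ≠ 0 → ∀ h, G h z = 0) :
    0 ≤ ∫ z in B, (fderiv ℝ χ z 1 * (F z ^ 2).re - fderiv ℝ χ z Complex.I * (F z ^ 2).im) := by
  have h := H.law1 T hχ
  have e1 : ∫ z in B, ∑ h, χ z * (A0c (fun h z => lv (F z) h) h z * G h z) = 0 := by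
    rw [← integral_zero ℂ ℝ (μ := volume.restrict B)]
    refine integral_congr_ae ?_
    filter_upwards [h0] with z hz
    by_cases h : χ z = 0
    · simp [h]
    · simp [hz h]
  rw [e1, mul_zero, zero_add] at h
  have e2 : ∫ z in B, ∑ h, dχ χ h z * xc ^ 2 * (lv (F z) h * lv (F z) h)
      = xc ^ 2 * ∫ z in B, (fderiv ℝ χ z 1 * (F z ^ 2).re
        - fderiv ℝ χ z Complex.I * (F z ^ 2).im) := by
    rw [← integral_const_mul]
    refine integral_congr_ae (Eventually.of_forall fun z => ?_)
    obtain ⟨d0, d1, d2, d3⟩ := dχ_flux χ z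
    have := flux1 (F z) _ _ (fun h => dχ χ h z) d0 d1 d2 d3
    simp only
    rw [← this, Finset.mul_sum]
    exact Finset.sum_congr rfl fun h _ => by ring
  rw [e2] at h
  exact nonneg_of_mul_nonneg_right h (by have := xc_pos; positivity)

/-- **linear law**, light fields, plane weights on `B` -/
theorem hol_law [l.NeBot] (H : LD l D B a w φ (fun h z => lv (F z) h) G) {χ : ℂ → ℝ}
    {C : NNReal} (T : Test D B χ C) (hBf : volume B ≠ ⊤)
    (hcr : ∀ᶠ k in l, ∀ z ∈ B, ∀ h, w k (meshIndex (a k) z) h = xc) (f : ℂ) :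
    ∫ z in B, ∑ h, χ z * (lv f h * G h z)
      = xc * ∫ z in B, ((f * F z) * U3x719.db χ z).im := by
  rw [H.law0 T hBf hcr (light_lv f), neg_mul, ← mul_neg, ← integral_neg]
  congr 1
  refine integral_congr_ae (Eventually.of_forall fun z => ?_)
  obtain ⟨d0, d1, d2, d3⟩ := dχ_flux χ z
  have := flux0 f (F z) _ _ (fun h => dχ χ h z) d0 d1 d2 d3
  simp only
  rw [this, neg_neg]
  rfl

end Crest.Agent.R165.LimSx610
end
end

-- ▼ part R165/MacS_610
section

/-!
# Row 165 (S0250), U4/MAC, M3 (helper610): limits are spinors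

`CompLim.ld` : a `CompLim` gives the data `LD` of the limit laws;
`CompLim.isSpin` : the limit (times `e^{-iπ/4}`) is a spinor in the sense of helper719.
-/

set_option autoImplicit false

noncomputable section

open MeasureTheory Filter Topology Set Metric
open Crest.ProbabilityR.IsingModel
open Crest.Agent.R165.Tr1x40 Crest.Agent.R165.LimAx610 Crest.Agent.R165.LimQx610
open Crest.Agent.R165.LimRx610 Crest.Agent.R165.RIfx891 Crest.Agent.R165.Embx622
open Crest.Agent.R165.Mac0x622 Crest.Agent.R165.MacIx610 Crest.Agent.R165.LimSx610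
open scoped ENNReal

namespace Crest.Agent.R165.MacSx610

/-! ### conversions -/

theorem eLpNorm_eq_sq {α : Type*} [MeasurableSpace α] {μ : Measure α} (f : α → ℝ) :
    eLpNorm f 2 μ = (∫⁻ z, ENNReal.ofReal (f z ^ 2) ∂μ) ^ ((2 : ℝ)⁻¹) := by
  rw [eLpNorm_eq_lintegral_rpow_enorm_toReal (by norm_num) (by norm_num)]
  simp only [ENNReal.toReal_ofNat, one_div]
  congr 1
  refine lintegral_congr fun z => ?_
  rw [Real.enorm_eq_ofReal_abs, ← Nat.cast_two (R := ℝ), ENNReal.rpow_natCast,
    ← ENNReal.ofReal_pow (abs_nonneg _), sq_abs]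

theorem tendsto_eLpNorm {ι α : Type*} [MeasurableSpace α] {μ : Measure α} {l : Filter ι}
    {f : ι → α → ℝ} (h : Tendsto (fun k => ∫⁻ z, ENNReal.ofReal (f k z ^ 2) ∂μ) l (𝓝 0)) :
    Tendsto (fun k => eLpNorm (f k) 2 μ) l (𝓝 0) := by
  simp only [eLpNorm_eq_sq]
  have := (ENNReal.continuous_rpow_const (y := (2 : ℝ)⁻¹)).tendsto 0
  rw [ENNReal.zero_rpow_of_pos (by norm_num)] at this
  exact this.comp h

theorem tendsto_lintegral {ι α : Type*} [MeasurableSpace α] {μ : Measure α} {l : Filter ι}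
    {f : ι → α → ℝ} (h : Tendsto (fun k => eLpNorm (f k) 2 μ) l (𝓝 0)) :
    Tendsto (fun k => ∫⁻ z, ENNReal.ofReal (f k z ^ 2) ∂μ) l (𝓝 0) := by
  have h1 := (ENNReal.continuous_pow 2).tendsto 0
  rw [zero_pow (by norm_num)] at h1
  refine (h1.comp h).congr fun k => ?_
  simp only [Function.comp_apply]
  rw [eLpNorm_eq_sq, ← ENNReal.rpow_natCast, ← ENNReal.rpow_mul]
  norm_num

/-- `lv` is bounded by the amplitude -/
theorem abs_lv_le (c : ℂ) (h : Fin 4) : |lv c h| ≤ 2 * ‖c‖ := by
  have h1 := Complex.abs_re_le_norm c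
  have h2 := Complex.abs_im_le_norm c
  have h3 : 1 ≤ Real.sqrt 2 := one_lt_sq2.le
  have key : ∀ t : ℝ, |t| ≤ 2 * ‖c‖ → |t / Real.sqrt 2| ≤ 2 * ‖c‖ := by
    intro t ht
    rw [abs_div, abs_of_pos sq2_pos]
    exact (div_le_self (abs_nonneg _) h3).trans ht
  fin_cases h
  · refine key _ ?_
    rw [abs_neg]
    exact (abs_add_le _ _).trans (by linarith)
  · simp only [lv]
    linarith [abs_nonneg c.re]
  · refine key _ ?_
    exact (abs_sub _ _).trans (by linarith)
  · simp only [lv, abs_neg]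
    linarith [abs_nonneg c.im]

theorem continuous_lv (h : Fin 4) : Continuous fun c => lv c h := by
  fin_cases h
  · simp only [lv]; fun_prop
  · simp only [lv]; fun_prop
  · simp only [lv]; fun_prop
  · simp only [lv]; fun_prop

theorem lv_zero (h : Fin 4) : lv 0 h = 0 := by
  have := abs_lv_le 0 h
  simpa using this


theorem lv_smul (t : ℝ) (c : ℂ) (h : Fin 4) : lv (t * c) h = t * lv c h := by
  fin_cases h <;> simp [lv] <;> ring

theorem memLp_lv {μ : Measure ℂ} {F : ℂ → ℂ} (hF : MemLp F 2 μ) (h : Fin 4) :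
    MemLp (fun z => lv (F z) h) 2 μ := by
  refine MemLp.of_le_mul (c := 2) hF ((continuous_lv h).comp_aestronglyMeasurable hF.1)
    (Eventually.of_forall fun z => ?_)
  rw [Real.norm_eq_abs]
  exact abs_lv_le _ _

/-- the amplitude is recovered from the light vector -/
theorem norm_le_lv (c : ℂ) : ‖c‖ ≤ |lv c 1| + |lv c 3| := by
  simp only [lv, abs_neg]
  exact Complex.norm_le_abs_re_add_abs_im c

/-! ### geometry of the mesh -/

theorem rays_sq {n : ℕ} (V : Fin n → Face) (f : Face) (h : Fin 4) : rays V f h ^ 2 = 1 := by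
  unfold rays
  rw [← Finset.prod_pow]
  exact Finset.prod_eq_one fun i _ => rayw_sq _ _ _

/-- compact neighbourhoods swallow the mesh points of nearby points -/
theorem exists_nbhd {D K : Set ℂ} (hD : IsOpen D) (hK : IsCompact K) (hKD : K ⊆ D) :
    ∃ δ > 0, ∃ K' : Set ℂ, IsCompact K' ∧ K' ⊆ D ∧ ∀ z ∈ K, ∀ u, ‖u - z‖ ≤ δ → u ∈ K' := by
  obtain ⟨δ, hδ, hδD⟩ := hK.exists_cthickening_subset_open hD hKD
  refine ⟨δ, hδ, cthickening δ K, hK.cthickening, hδD, fun z hz u hu => ?_⟩
  exact mem_cthickening_of_dist_le u z δ K hz (by rwa [dist_eq_norm])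

theorem mesh_eventually {ι : Type*} {l : Filter ι} {a : ι → ℝ} (hpos : ∀ k, 0 < a k)
    (hlim : Tendsto a l (𝓝 0)) {δ : ℝ} (hδ : 0 < δ) :
    ∀ᶠ k in l, ∀ z, ‖meshPoint (a k) (meshIndex (a k) z) - z‖ ≤ δ := by
  filter_upwards [hlim.eventually (eventually_lt_nhds (show (0 : ℝ) < δ / 2 by linarith))] with k hk z
  exact (meshPoint_near (hpos k) z).trans (by linarith)

/-! ### the data of the limit laws -/

variable {D : Set ℂ} {n : ℕ} {x : Fin n → ℂ} {K : Set ℂ} {G : ℂ → Fin 4 → ℝ} {a : ℕ → ℝ}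
  {w : ℕ → Fld} {V : ℕ → Fin n → Face} {g φ : ℕ → Fld} {U : Filter ℕ} {F : ℂ → ℂ}

theorem src_eq (hpos : ∀ k, 0 < a k) (S : Srcs K G a w g φ) (k : ℕ) :
    src (a k) (w k) (φ k) = g k := by
  funext f h
  rw [src, S.eqn, ← mul_assoc, inv_mul_cancel₀ (hpos k).ne', one_mul]

theorem ld (hD : IsOpen D) (H : LatSeq D x a w V) (S : Srcs K G a w g φ)
    (hG : ∀ h, MemLp (fun z => G z h) 2) (hU : U ≤ atTop) (L : CompLim D x K U a φ F) :
    LD U D univ a w φ (fun h z => lv (F z) h) (fun h z => G z h) where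
  pos := H.pos
  lim := H.lim.mono_left hU
  sym := H.sym
  plus := H.plus
  opn := hD
  meas := MeasurableSet.univ
  memΦ h := by rw [Measure.restrict_univ]; exact memLp_lv L.l2 h
  memG h := by rw [Measure.restrict_univ]; exact hG h
  zero h := Eventually.of_forall fun z hz => by rw [L.zero z hz, lv_zero]
  crit K' hK' hK'D := by
    obtain ⟨δ, hδ, K2, hK2, hK2D, hnb⟩ := exists_nbhd hD hK' hK'D
    refine hU ?_
    filter_upwards [H.ins K2 hK2 hK2D, mesh_eventually H.pos H.lim hδ] with k h1 h2 z hz h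
    rw [h1 _ (hnb z hz _ (h2 z)) h, mul_pow, rays_sq, one_mul]
  convΦ h := by
    rw [Measure.restrict_univ]
    exact tendsto_eLpNorm (L.conv h)
  convG h := by
    rw [Measure.restrict_univ]
    refine (tendsto_eLpNorm (S.conv h)).mono_left hU |>.congr fun k => ?_
    rw [src_eq H.pos S]
    rfl

/-- the source vanishes off `K` -/
theorem source_zero (hpos : ∀ k, 0 < a k) (hlim : Tendsto a atTop (𝓝 0)) (hK : IsClosed K)
    (S : Srcs K G a w g φ) (hG : ∀ h, MemLp (fun z => G z h) 2) :
    ∀ᵐ z, z ∉ K → ∀ h, G z h = 0 := by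
  have key : ∀ h, ∀ᵐ z, z ∉ K → G z h = 0 := by
    intro h
    have h1 : Tendsto (fun k => eLpNorm (emb (a k) (fun f => g k f h) - fun z => G z h) 2
        (volume : Measure ℂ)) atTop (𝓝 0) := tendsto_eLpNorm (S.conv h)
    have h2 := tendstoInMeasure_of_tendsto_eLpNorm (by norm_num)
      (fun k => (emb_measurable (a k) (fun f => g k f h)).aestronglyMeasurable) (hG h).1 h1
    obtain ⟨ns, hns, hae⟩ := h2.exists_seq_tendsto_ae
    filter_upwards [hae] with z hz hzK
    have h3 : ∀ᶠ j in atTop, emb (a (ns j)) (fun f => g (ns j) f h) z = 0 := by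
      obtain ⟨δ, hδ, hb⟩ := Metric.mem_nhds_iff.1 (hK.isOpen_compl.mem_nhds hzK)
      have h4 := mesh_eventually hpos hlim (half_pos hδ)
      filter_upwards [hns.tendsto_atTop.eventually h4] with j hj
      refine S.supp _ _ ?_ h
      refine hb ?_
      rw [mem_ball, dist_eq_norm]
      exact (hj z).trans_lt (half_lt_self hδ)
    exact tendsto_nhds_unique hz (tendsto_const_nhds.congr' (h3.mono fun _ h => h.symm))
  filter_upwards [ae_all_iff.2 key] with z hz hzK h
  exact hz h hzK

/-- range of the insertions is null -/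
theorem ae_not_range (x : Fin n → ℂ) : ∀ᵐ z : ℂ, z ∉ range x := by
  exact measure_eq_zero_iff_ae_notMem.1 ((finite_range x).measure_zero _)

/-- `e^{-iπ/4}` -/
def om8 : ℂ := Complex.exp (-(Real.pi / 4 * Complex.I))

theorem om8_sq : om8 ^ 2 = -Complex.I := by
  rw [om8, ← Complex.exp_nat_mul]
  have : ((2 : ℕ) : ℂ) * -(Real.pi / 4 * Complex.I) = -(Real.pi / 2 * Complex.I) := by
    push_cast; ring
  rw [this, Complex.exp_neg, Complex.exp_pi_div_two_mul_I, Complex.inv_I]

theorem om8_ne : om8 ≠ 0 := Complex.exp_ne_zero _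

/-- **limits are spinors** -/
theorem isSpin (hD : IsOpen D) (hK : IsCompact K) (H : LatSeq D x a w V)
    (S : Srcs K G a w g φ) (hG : ∀ h, MemLp (fun z => G z h) 2) [U.NeBot] (hU : U ≤ atTop)
    (L : CompLim D x K U a φ F) : U3x719.IsSpin D x K (fun z => om8 * F z) := by
  have hLD := ld hD H S hG hU L
  have hsz := source_zero H.pos H.lim hK.isClosed S hG
  have hdb : ∀ (χ : ℂ → ℝ) z, ((om8 * F z) ^ 2 * U3x719.db χ z).re
      = fderiv ℝ χ z 1 * (F z ^ 2).im + fderiv ℝ χ z Complex.I * (F z ^ 2).re := by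
    intro χ z
    rw [mul_pow, om8_sq, U3x719.db]
    simp only [Complex.mul_re, Complex.mul_im, Complex.neg_re, Complex.neg_im, Complex.I_re,
      Complex.I_im, Complex.add_re, Complex.add_im, Complex.ofReal_re, Complex.ofReal_im]
    ring
  have hdb' : ∀ (χ : ℂ → ℝ) z, ((om8 * F z) ^ 2 * U3x719.db χ z).im
      = -(fderiv ℝ χ z 1 * (F z ^ 2).re - fderiv ℝ χ z Complex.I * (F z ^ 2).im) := by
    intro χ z
    rw [mul_pow, om8_sq, U3x719.db]
    simp only [Complex.mul_re, Complex.mul_im, Complex.neg_re, Complex.neg_im, Complex.I_re,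
      Complex.I_im, Complex.add_re, Complex.add_im, Complex.ofReal_re, Complex.ofReal_im]
    ring
  have hz : ∀ χ : ℂ → ℝ, Disjoint (tsupport χ) K →
      ∀ᵐ z ∂volume.restrict (univ : Set ℂ), χ z ≠ 0 → ∀ h, G z h = 0 := by
    intro χ hχ
    rw [Measure.restrict_univ]
    filter_upwards [hsz] with z hz hχz h
    exact hz (fun hzK => disjoint_left.1 hχ (subset_tsupport χ hχz) hzK) h
  have hnb : ∀ χ : ℂ → ℝ, ∃ δ > 0, Metric.thickening δ (tsupport χ) ⊆ (univ : Set ℂ) :=
    fun χ => ⟨1, one_pos, subset_univ _⟩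
  refine ⟨fun W _ _ => ?_, ?_, ?_, ?_⟩
  · exact (L.l2.const_mul om8).restrict _
  · obtain ⟨gg, h1, h2⟩ := L.hol
    refine ⟨fun z => om8 * gg z, ?_, ?_⟩
    · have e : D \ (range x ∪ K) = Om D x \ K := by
        ext z; simp only [Om, Set.mem_sdiff, mem_union, not_or]; tauto
      rw [e]
      exact h1.const_mul _
    · rw [ae_restrict_iff' (hD.measurableSet.diff hK.isClosed.measurableSet)]
      filter_upwards [ae_not_range x] with z hz hzD
      rw [mul_assoc, h2 z ⟨⟨hzD.1, hz⟩, hzD.2⟩]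
  · rintro χ ⟨C, hC⟩ hc hχ hdis
    have hT := Test.of_contDiffOn hD hC hc (hnb χ) hχ
    have h := curl_law hLD hT (hz χ hdis)
    rw [Measure.restrict_univ] at h
    rw [← h]
    simp only [hdb]
    refine (setIntegral_eq_integral_of_forall_compl_eq_zero fun z hzD => ?_)
    rw [L.zero z hzD]
    simp
  · rintro χ ⟨C, hC⟩ hc hχ hdis hχ0
    have hT := Test.of_contDiffOn hD hC hc (hnb χ) hχ
    have h := div_law hLD hT hχ0 (hz χ hdis)
    rw [Measure.restrict_univ] at h
    simp only [hdb', integral_neg]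
    rw [neg_nonpos]
    refine h.trans (le_of_eq (setIntegral_eq_integral_of_forall_compl_eq_zero fun z hzD => ?_).symm)
    rw [L.zero z hzD]
    simp

end Crest.Agent.R165.MacSx610
end
end

-- ▼ part R165/MacT_610

/-!
# Row 165 (S0250), U4/MAC, M3 (helper610): differences of limits are holomorphic

`diff_hol`: two limits `F₁, F₂` (along two sequences of lattice domains) of the resolvents with the
same sources `G` satisfy `(F₁ - F₂) rX = d` a.e. with `d` holomorphic on `D \ range x`
(linear law in local gauges + Weyl's lemma).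
-/

set_option autoImplicit false

noncomputable section

open MeasureTheory Filter Topology Set Metric
open Crest.ProbabilityR.IsingModel
open Crest.Agent.R165.Tr1x40 Crest.Agent.R165.LimAx610 Crest.Agent.R165.LimQx610
open Crest.Agent.R165.LimRx610 Crest.Agent.R165.RIfx891 Crest.Agent.R165.Embx622
open Crest.Agent.R165.Mac0x622 Crest.Agent.R165.MacIx610 Crest.Agent.R165.LimSx610
open Crest.Agent.R165.MacSx610
open scoped ENNReal ContDiff

namespace Crest.Agent.R165.MacTx610

/-! ### gauge transformations of the limit data -/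

section gauge

variable {ι : Type*} {l : Filter ι} {D B : Set ℂ} {a : ι → ℝ} {w φ : ι → Fld}
  {Φ G : Fin 4 → ℂ → ℝ}

/-- gauge transformed weights -/
def gaw (s : Face → ℝ) (w : Fld) : Fld := fun f h => s f * w f h * s (nb f h)

/-- gauge transformed field -/
def gaf (s : Face → ℝ) (φ : Fld) : Fld := fun f h => s f * φ f h

theorem A_ga {s : Face → ℝ} (hs : ∀ f, s f ^ 2 = 1) (w φ : Fld) (f : Face) (h : Fin 4) :
    A (gaw s w) (gaf s φ) f h = s f * A w φ f h := by
  have e : A0 (gaf s φ f) h = s f * A0 (φ f) h := by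
    fin_cases h <;> simp [A0, gaf] <;> ring
  simp only [A, e, Y, gaw]
  unfold gaf
  linear_combination (sg h * s f * w f h * φ (nb f h) (op h)) * hs (nb f h)

/-- the gauge converges strongly to `σ` -/
def GConv (l : Filter ι) (B : Set ℂ) (a : ι → ℝ) (s : ι → Face → ℝ) (σ : ℂ → ℝ) : Prop :=
  ∀ Ψ : ℂ → ℝ, MemLp Ψ 2 (volume.restrict B) → Tendsto (fun k =>
    eLpNorm (fun z => (s k (meshIndex (a k) z) - σ z) * Ψ z) 2 (volume.restrict B)) l (𝓝 0)

theorem abs_one_of_sq {t : ℝ} (h : t ^ 2 = 1) : |t| = 1 := by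
  rw [← sq_abs] at h
  nlinarith [abs_nonneg t]

theorem gconv_of_ae [l.IsCountablyGenerated] {s : ι → Face → ℝ} (hs : ∀ k f, s k f ^ 2 = 1)
    {σ : ℂ → ℝ} (hσ : ∀ z, σ z ^ 2 = 1) (hσm : Measurable σ)
    (h : ∀ᵐ z ∂volume.restrict B, ∀ᶠ k in l, s k (meshIndex (a k) z) = σ z) :
    GConv l B a s σ := by
  -- measurable representatives suffice
  suffices hmain : ∀ Ψ : ℂ → ℝ, Measurable Ψ → MemLp Ψ 2 (volume.restrict B) → Tendsto (fun k =>
      eLpNorm (fun z => (s k (meshIndex (a k) z) - σ z) * Ψ z) 2 (volume.restrict B)) l (𝓝 0) by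
    intro Ψ hΨ
    refine (hmain (hΨ.1.mk Ψ) hΨ.1.stronglyMeasurable_mk.measurable
      (hΨ.ae_eq hΨ.1.ae_eq_mk)).congr fun k => ?_
    refine eLpNorm_congr_ae ?_
    filter_upwards [hΨ.1.ae_eq_mk] with z hz
    rw [hz]
  intro Ψ hΨm hΨ
  refine tendsto_eLpNorm ?_
  have h0 : (0 : ℝ≥0∞) = ∫⁻ _ in B, (0 : ℝ≥0∞) := by simp
  rw [h0]
  have hsm : ∀ k, Measurable fun z => s k (meshIndex (a k) z) := fun k =>
    (measurable_of_countable _).comp (measurable_meshIndex _)
  refine tendsto_lintegral_filter_of_dominated_convergence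
    (fun z => ENNReal.ofReal (4 * Ψ z ^ 2)) ?_ ?_ ?_ ?_
  · exact Eventually.of_forall fun k =>
      ((((hsm k).sub hσm).mul hΨm).pow_const 2).ennreal_ofReal
  · refine Eventually.of_forall fun k => Eventually.of_forall fun z => ?_
    refine ENNReal.ofReal_le_ofReal ?_
    rw [mul_pow]
    refine mul_le_mul_of_nonneg_right ?_ (sq_nonneg _)
    have h1 := abs_one_of_sq (hs k (meshIndex (a k) z))
    have h2 := abs_one_of_sq (hσ z)
    rw [← sq_abs]
    have h3 := abs_sub (s k (meshIndex (a k) z)) (σ z)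
    have h4 := abs_nonneg (s k (meshIndex (a k) z) - σ z)
    nlinarith
  · have h2 := (hΨ.const_mul 2).2
    rw [eLpNorm_eq_sq] at h2
    intro hc
    have e : ∀ z, ENNReal.ofReal (4 * Ψ z ^ 2) = ENNReal.ofReal ((2 * Ψ z) ^ 2) := fun z => by
      congr 1; ring
    simp only [e] at hc
    rw [hc] at h2
    simp at h2
  · filter_upwards [h] with z hz
    refine tendsto_const_nhds.congr' ?_
    filter_upwards [hz] with k hk
    rw [hk, sub_self, zero_mul]
    simp

theorem conv_gauge {s : ι → Face → ℝ} (hs : ∀ k f, s k f ^ 2 = 1)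
    {σ : ℂ → ℝ} (hc : GConv l B a s σ) (hσm : Measurable σ) {f : ι → ℂ → ℝ} {Ψ : ℂ → ℝ}
    (hf : ∀ k, Measurable (f k)) (hΨ : MemLp Ψ 2 (volume.restrict B))
    (h : Tendsto (fun k => eLpNorm (fun z => f k z - Ψ z) 2 (volume.restrict B)) l (𝓝 0)) :
    Tendsto (fun k => eLpNorm (fun z => s k (meshIndex (a k) z) * f k z - σ z * Ψ z) 2
      (volume.restrict B)) l (𝓝 0) := by
  have hsm : ∀ k, Measurable fun z => s k (meshIndex (a k) z) := fun k =>
    (measurable_of_countable _).comp (measurable_meshIndex _)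
  have hb : ∀ k, eLpNorm (fun z => s k (meshIndex (a k) z) * f k z - σ z * Ψ z) 2
      (volume.restrict B) ≤ eLpNorm (fun z => f k z - Ψ z) 2 (volume.restrict B)
      + eLpNorm (fun z => (s k (meshIndex (a k) z) - σ z) * Ψ z) 2 (volume.restrict B) := by
    intro k
    have e : (fun z => s k (meshIndex (a k) z) * f k z - σ z * Ψ z)
        = (fun z => s k (meshIndex (a k) z) * (f k z - Ψ z))
          + fun z => (s k (meshIndex (a k) z) - σ z) * Ψ z := by
      funext z
      simp only [Pi.add_apply]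
      ring
    rw [e]
    refine (eLpNorm_add_le ((hsm k).aestronglyMeasurable.mul
      ((hf k).aestronglyMeasurable.sub hΨ.1))
      (((hsm k).sub hσm).aestronglyMeasurable.mul hΨ.1) (by norm_num)).trans ?_
    refine add_le_add (le_of_eq (eLpNorm_congr_norm_ae (Eventually.of_forall fun z => ?_))) le_rfl
    show ‖s k (meshIndex (a k) z) * (f k z - Ψ z)‖ = _
    rw [norm_mul, Real.norm_eq_abs (s k _), abs_one_of_sq (hs k _), one_mul]
  have := h.add (hc Ψ hΨ)
  rw [add_zero] at this
  exact tendsto_of_tendsto_of_tendsto_of_le_of_le tendsto_const_nhds this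
    (fun _ => bot_le) hb

theorem LD_gauge (H : LD l D B a w φ Φ G) {s : ι → Face → ℝ} (hs : ∀ k f, s k f ^ 2 = 1)
    {σ : ℂ → ℝ} (hσ : ∀ z, σ z ^ 2 = 1) (hσm : Measurable σ) (hc : GConv l B a s σ) :
    LD l D B a (fun k => gaw (s k) (w k)) (fun k => gaf (s k) (φ k))
      (fun h z => σ z * Φ h z) (fun h z => σ z * G h z) where
  pos := H.pos
  lim := H.lim
  sym k f h := by
    simp only [gaw]
    rw [H.sym k f h, nb_nb_op]
    ring
  plus k f h := by
    simp only [gaw, mul_pow, hs]
    rcases H.plus k f h with h1 | h1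
    · left; rw [h1]; ring
    · right; rw [h1]; ring
  opn := H.opn
  meas := H.meas
  memΦ h := by
    refine MemLp.of_le_mul (c := 1) (H.memΦ h) (hσm.aestronglyMeasurable.mul (H.memΦ h).1)
      (Eventually.of_forall fun z => ?_)
    rw [norm_mul, Real.norm_eq_abs, abs_one_of_sq (hσ z)]
  memG h := by
    refine MemLp.of_le_mul (c := 1) (H.memG h) (hσm.aestronglyMeasurable.mul (H.memG h).1)
      (Eventually.of_forall fun z => ?_)
    rw [norm_mul, Real.norm_eq_abs, abs_one_of_sq (hσ z)]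
  zero h := by
    filter_upwards [H.zero h] with z hz hzD
    rw [hz hzD, mul_zero]
  crit K hK hKD := by
    filter_upwards [H.crit K hK hKD] with k hk z hz h
    simp only [gaw, mul_pow, hs, hk z hz h]
    ring
  convΦ h := conv_gauge hs hc hσm (fun k => measurable_E _ _ _) (H.memΦ h) (H.convΦ h)
  convG h := by
    have e : ∀ k, src (a k) (gaw (s k) (w k)) (gaf (s k) (φ k))
        = fun f h => s k f * src (a k) (w k) (φ k) f h := by
      intro k
      funext f h
      rw [src, A_ga (hs k), src]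
      ring
    simp only [e]
    exact conv_gauge hs hc hσm (fun k => measurable_E (a k) (src (a k) (w k) (φ k)) h)
      (H.memG h) (H.convG h)

end gauge

/-! ### the gauge of `rX` -/

theorem factor_diff {x z : ℂ} (hz : x ≠ z) [Decidable (rel x z)] :
    ∀ᶠ u in 𝓝 z, DifferentiableAt ℂ (fun u : ℂ => ((if rel x z ∧ x.im < u.im then (-1 : ℝ) else 1 : ℝ)
      : ℂ) * (x - u) ^ (1 / 2 : ℂ)) u := by
  by_cases h : rel x z
  · have e : ∀ᶠ u in 𝓝 z, ((if rel x z ∧ x.im < u.im then (-1 : ℝ) else 1 : ℝ) : ℂ) *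
        (x - u) ^ (1 / 2 : ℂ) = Complex.I * (u - x) ^ (1 / 2 : ℂ) := by
      have h1 : ∀ᶠ u in 𝓝 z, x.re < u.re :=
        (Complex.continuous_re.tendsto z).eventually (eventually_gt_nhds h.2)
      filter_upwards [h1] with u hu
      have h2 := cpow_half_neg (v := u - x) (by rw [Complex.sub_re]; linarith)
      rw [neg_sub] at h2
      rw [h2]
      by_cases h3 : x.im < u.im
      · have h4 : ¬ (u - x).im ≤ 0 := by rw [Complex.sub_im]; linarith
        simp only [h, h3, h4, true_and, if_true, if_false]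
        push_cast; ring
      · have h4 : (u - x).im ≤ 0 := by rw [Complex.sub_im]; linarith
        simp only [h, h3, h4, true_and, if_true, if_false]
        push_cast; ring
    have h1 : ∀ᶠ u in 𝓝 z, x.re < u.re :=
      (Complex.continuous_re.tendsto z).eventually (eventually_gt_nhds h.2)
    filter_upwards [e.eventually_nhds, h1] with u hu hu1
    refine DifferentiableAt.congr_of_eventuallyEq ?_ hu
    have h5 : u - x ∈ Complex.slitPlane := by
      left; rw [Complex.sub_re]; linarith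
    exact (DifferentiableAt.cpow (differentiableAt_id.sub_const x)
      (differentiableAt_const _) h5).const_mul _
  · have h5 : x - z ∈ Complex.slitPlane := by
      rw [Complex.mem_slitPlane_iff, Complex.sub_re, Complex.sub_im]
      by_cases him : x.im = z.im
      · left
        have : z.re ≤ x.re := not_lt.1 fun hc => h ⟨him, hc⟩
        rcases lt_or_eq_of_le this with h6 | h6
        · linarith
        · exact absurd (Complex.ext h6.symm him) hz
      · right; exact sub_ne_zero.2 him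
    have h6 : ∀ᶠ u in 𝓝 z, x - u ∈ Complex.slitPlane :=
      (continuousAt_const.sub continuousAt_id).eventually
        (Complex.isOpen_slitPlane.mem_nhds h5)
    filter_upwards [h6] with u hu
    simp only [h, false_and, if_false]
    exact (DifferentiableAt.cpow (differentiableAt_id.const_sub x)
      (differentiableAt_const _) hu).const_mul _

theorem gc_rX_diff {n : ℕ} {x : Fin n → ℂ} {z : ℂ} (hz : ∀ i, x i ≠ z) :
    ∃ r > 0, DifferentiableOn ℂ (fun u => (gc x z u : ℂ) * U3x719.rX x u) (ball z r) := by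
  classical
  have e : (fun u => (gc x z u : ℂ) * U3x719.rX x u) = fun u => ∏ i,
      (((if rel (x i) z ∧ (x i).im < u.im then (-1 : ℝ) else 1 : ℝ) : ℂ) *
        (x i - u) ^ (1 / 2 : ℂ)) := by
    funext u
    unfold gc U3x719.rX
    rw [Finset.prod_mul_distrib]
    push_cast
    rfl
  rw [e]
  have h1 : ∀ᶠ u in 𝓝 z, ∀ i, DifferentiableAt ℂ (fun u : ℂ =>
      ((if rel (x i) z ∧ (x i).im < u.im then (-1 : ℝ) else 1 : ℝ) : ℂ) *
        (x i - u) ^ (1 / 2 : ℂ)) u := eventually_all.2 fun i => factor_diff (hz i)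
  obtain ⟨r, hr, hb⟩ := Metric.eventually_nhds_iff_ball.1 h1
  refine ⟨r, hr, fun u hu => ?_⟩
  exact (DifferentiableAt.fun_finsetProd fun i _ => hb u hu i).differentiableWithinAt

theorem measurable_gc {n : ℕ} (x : Fin n → ℂ) (z : ℂ) : Measurable (gc x z) := by
  classical
  have e : gc x z = fun u => ∏ i, (if rel (x i) z ∧ (x i).im < u.im then (-1 : ℝ) else 1) := by
    funext u; unfold gc; rfl
  rw [e]
  refine Finset.measurable_prod _ fun i _ => ?_
  refine Measurable.ite ?_ measurable_const measurable_const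
  by_cases h : rel (x i) z
  · simp only [h, true_and]
    exact measurableSet_lt measurable_const Complex.measurable_im
  · simp [h]

/-! ### from local to global -/

theorem patch {U : Set ℂ} {u : ℂ → ℂ} (hloc : ∀ c ∈ U, ∃ r > 0, ball c r ⊆ U ∧
    ∃ v : ℂ → ℂ, DifferentiableOn ℂ v (ball c r) ∧ ∀ᵐ z, z ∈ ball c r → u z = v z) :
    ∃ v : ℂ → ℂ, DifferentiableOn ℂ v U ∧ ∀ᵐ z, z ∈ U → u z = v z := by
  have hloc' : ∀ c : ℂ, ∃ p : ℝ × (ℂ → ℂ), c ∈ U → 0 < p.1 ∧ ball c p.1 ⊆ U ∧
      DifferentiableOn ℂ p.2 (ball c p.1) ∧ ∀ᵐ z, z ∈ ball c p.1 → u z = p.2 z := by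
    intro c
    by_cases hc : c ∈ U
    · obtain ⟨r, hr, hrU, v, hv1, hv2⟩ := hloc c hc
      exact ⟨(r, v), fun _ => ⟨hr, hrU, hv1, hv2⟩⟩
    · exact ⟨(1, 0), fun h => absurd h hc⟩
  choose p hp using hloc'
  set v : ℂ → ℂ := fun z => (p z).2 z with hv
  have hagree : ∀ c ∈ U, ∀ z ∈ ball c (p c).1, v z = (p c).2 z := by
    intro c hc z hz
    obtain ⟨c1, c2, c3, c4⟩ := hp c hc
    have hzU : z ∈ U := c2 hz
    obtain ⟨z1, z2, z3, z4⟩ := hp z hzU
    have hopen : IsOpen (ball c (p c).1 ∩ ball z (p z).1) := isOpen_ball.inter isOpen_ball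
    have hae : (p z).2 =ᵐ[volume.restrict (ball c (p c).1 ∩ ball z (p z).1)] (p c).2 := by
      rw [Filter.EventuallyEq, ae_restrict_iff' hopen.measurableSet]
      filter_upwards [c4, z4] with w hw1 hw2 hw
      rw [← hw1 hw.1, ← hw2 hw.2]
    have := Measure.eqOn_open_of_ae_eq hae hopen (z3.continuousOn.mono inter_subset_right)
      (c3.continuousOn.mono inter_subset_left)
    exact this ⟨hz, mem_ball_self z1⟩
  refine ⟨v, ?_, ?_⟩
  · intro c hc
    obtain ⟨c1, c2, c3, c4⟩ := hp c hc
    have h1 : DifferentiableAt ℂ (p c).2 c := c3.differentiableAt (ball_mem_nhds c c1)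
    have h2 : v =ᶠ[𝓝 c] (p c).2 := by
      filter_upwards [ball_mem_nhds c c1] with z hz
      exact hagree c hc z hz
    exact (h2.differentiableAt_iff.mpr h1).differentiableWithinAt
  · have hnull : volume {z | z ∈ U ∧ u z ≠ v z} = 0 := by
      refine measure_null_of_locally_null _ fun c hc => ?_
      obtain ⟨c1, c2, c3, c4⟩ := hp c hc.1
      refine ⟨ball c (p c).1 ∩ {z | z ∈ U ∧ u z ≠ v z}, ?_, ?_⟩
      · exact inter_mem (mem_nhdsWithin_of_mem_nhds (ball_mem_nhds c c1)) self_mem_nhdsWithin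
      · refine measure_mono_null ?_ (ae_iff.mp c4)
        rintro z ⟨hz1, hz2, hz3⟩
        simp only [mem_ofPred_eq, Classical.not_imp]
        refine ⟨hz1, ?_⟩
        rw [← hagree c hc.1 z hz1]; exact hz3
    rw [ae_iff]
    convert hnull using 2
    ext z; simp [Classical.not_imp]

/-! ### the local equation -/

section local_

variable {D : Set ℂ} {n : ℕ} {x : Fin n → ℂ} {K : Set ℂ} {G : ℂ → Fin 4 → ℝ} {a : ℕ → ℝ}
  {w : ℕ → Fld} {V : ℕ → Fin n → Face} {g φ : ℕ → Fld} {U : Filter ℕ} {F : ℂ → ℂ}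

theorem gconv_gz (hpos : ∀ k, 0 < a k) (hlim : Tendsto a atTop (𝓝 0))
    (tip : ∀ i, Tendsto (fun k => meshPoint (a k) (V k i)) atTop (𝓝 (x i))) (z : ℂ) (B : Set ℂ)
    (hU : U ≤ atTop) : GConv U B a (fun k => gz x z (V k)) (gc x z) := by
  have h := gconv_of_ae (l := atTop) (B := B) (a := a) (s := fun k => gz x z (V k))
    (σ := gc x z) (fun k f => gz_sq x z (V k) f) (fun u => gc_sq x z u) (measurable_gc x z) (by
      filter_upwards [Mac1x622.ae_im_ne x B] with u hu
      exact Mac1x622.gz_tendsto hpos hlim tip z hu)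
  intro Ψ hΨ
  exact (h Ψ hΨ).mono_left hU

theorem local_eq (hD : IsOpen D) (H : LatSeq D x a w V)
    (S : Srcs K G a w g φ) (hG : ∀ h, MemLp (fun z => G z h) 2) [U.NeBot] (hU : U ≤ atTop)
    (L : CompLim D x K U a φ F) {z0 : ℂ} (hz0 : z0 ∈ Om D x) :
    ∃ r0 > 0, ∀ r, 0 < r → r < r0 → ∀ (χ : ℂ → ℝ) (C : NNReal), LipschitzWith C χ →
      HasCompactSupport χ → (∃ δ > 0, Metric.thickening δ (tsupport χ) ⊆ ball z0 r) →
      ContDiff ℝ 1 χ → ∀ f : ℂ,
      ∫ z in ball z0 r, ∑ h, χ z * (lv f h * (gc x z0 z * G z h))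
        = xc * ∫ z in ball z0 r, ((f * (gc x z0 z * F z)) * U3x719.db χ z).im := by
  have hz : ∀ i, x i ≠ z0 := fun i h => hz0.2 ⟨i, h⟩
  obtain ⟨r1, hr1, hg1⟩ := local_gauge H.pos H.lim H.tip hz
  obtain ⟨r2, hr2, hb2⟩ := nhds_basis_closedBall.mem_iff.1 (hD.mem_nhds hz0.1)
  refine ⟨min r1 r2 / 2, by positivity, fun r hr hrr χ C hC hc hnb hχ f => ?_⟩
  have hm1 : min r1 r2 ≤ r1 := min_le_left _ _
  have hm2 : min r1 r2 ≤ r2 := min_le_right _ _
  have hLD := (ld hD H S hG hU L).mono (subset_univ (ball z0 r)) measurableSet_ball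
  have hLG := LD_gauge hLD (s := fun k => gz x z0 (V k)) (σ := gc x z0)
    (fun k f => gz_sq x z0 (V k) f) (fun u => gc_sq x z0 u) (measurable_gc x z0)
    (gconv_gz H.pos H.lim H.tip z0 (ball z0 r) hU)
  have eΦ : (fun (h : Fin 4) z => gc x z0 z * lv (F z) h)
      = fun h z => lv ((gc x z0 z : ℂ) * F z) h := by
    funext h z
    rw [lv_smul]
  rw [eΦ] at hLG
  have hT : Test D (ball z0 r) χ C := Test.of_contDiffOn hD hC hc hnb hχ.contDiffOn
  refine hol_law hLG hT measure_ball_lt_top.ne ?_ f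
  refine hU ?_
  have hq : 0 < min r1 r2 / 2 := by positivity
  filter_upwards [hg1, H.ins (closedBall z0 r2) (isCompact_closedBall _ _) hb2,
    mesh_eventually H.pos H.lim (half_pos hq)] with k hk1 hk2 hk3 z hz h
  have h3 := hk3 z
  rw [mem_ball, dist_eq_norm] at hz
  have h4 : ‖meshPoint (a k) (meshIndex (a k) z) - z0‖ < min r1 r2 := by
    have e : meshPoint (a k) (meshIndex (a k) z) - z0
        = (meshPoint (a k) (meshIndex (a k) z) - z) + (z - z0) := by ring
    rw [e]
    have := norm_add_le (meshPoint (a k) (meshIndex (a k) z) - z) (z - z0)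
    linarith
  have h5 := hk1 _ (h4.trans_le hm1) h
  have h6 := hk2 (meshIndex (a k) z) (by
    rw [mem_closedBall, dist_eq_norm]; exact h4.le.trans hm2) h
  simp only [gaw]
  rw [h6, h5]
  have s1 := gz_sq x z0 (V k) (meshIndex (a k) z)
  have s2 := gz_sq x z0 (V k) (nb (meshIndex (a k) z) h)
  linear_combination xc * gz x z0 (V k) (nb (meshIndex (a k) z) h) ^ 2 * s1 + xc * s2

end local_

/-- components of a smooth compactly supported function are test functions -/
theorem comp_test {B : Set ℂ} (hB : IsOpen B) {χ : ℂ → ℂ} (hχ : ContDiff ℝ ∞ χ)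
    (hc : HasCompactSupport χ) (hs : tsupport χ ⊆ B) (L : ℂ →L[ℝ] ℝ) :
    ∃ C : NNReal, LipschitzWith C (fun z => L (χ z)) ∧ HasCompactSupport (fun z => L (χ z)) ∧
      (∃ δ > 0, Metric.thickening δ (tsupport (fun z => L (χ z))) ⊆ B) ∧
      ContDiff ℝ 1 (fun z => L (χ z)) ∧ ∀ z v, fderiv ℝ (fun z => L (χ z)) z v
        = L (fderiv ℝ χ z v) := by
  have h1 : ContDiff ℝ 1 (fun z => L (χ z)) :=
    L.contDiff.comp (hχ.of_le (by exact_mod_cast le_top))
  have h2 : HasCompactSupport (fun z => L (χ z)) := hc.comp_left (g := L) (map_zero L)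
  obtain ⟨C, hC⟩ := ContDiff.lipschitzWith_of_hasCompactSupport h2 h1 one_ne_zero
  have h3 : tsupport (fun z => L (χ z)) ⊆ tsupport χ :=
    closure_mono fun z hz hz' => hz (by
      have : χ z = 0 := hz'
      simp [this])
  obtain ⟨δ, hδ, hδB⟩ := h2.isCompact.exists_thickening_subset_open hB (h3.trans hs)
  refine ⟨C, hC, h2, ⟨δ, hδ, hδB⟩, h1, fun z v => ?_⟩
  have hd : DifferentiableAt ℝ χ z := (hχ.differentiable (by simp)) z
  have := (L.hasFDerivAt.comp z hd.hasFDerivAt).fderiv
  have e : fderiv ℝ (fun z => L (χ z)) z = L.comp (fderiv ℝ χ z) := this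
  rw [e]
  rfl

/-- real test functions suffice -/
theorem wdbar_of_real {B : Set ℂ} (hB : IsOpen B) {u : ℂ → ℂ}
    (hu : IntegrableOn u B) (h : ∀ (χ : ℂ → ℝ) (C : NNReal), LipschitzWith C χ →
      HasCompactSupport χ → (∃ δ > 0, Metric.thickening δ (tsupport χ) ⊆ B) →
      ContDiff ℝ 1 χ → ∫ z in B, u z * U3x719.db χ z = 0) :
    Cl3x722.WDbar B u 0 := by
  intro χ hχ hc hs
  obtain ⟨C1, l1, c1, n1, s1, d1⟩ := comp_test hB hχ hc hs Complex.reCLM
  obtain ⟨C2, l2, c2, n2, s2, d2⟩ := comp_test hB hχ hc hs Complex.imCLM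
  have r1 := h _ C1 l1 c1 n1 s1
  have r2 := h _ C2 l2 c2 n2 s2
  have e : ∀ z, Cl1x722.dbar χ z = (U3x719.db (fun z => Complex.reCLM (χ z)) z
      + Complex.I * U3x719.db (fun z => Complex.imCLM (χ z)) z) / 2 := by
    intro z
    unfold Cl1x722.dbar U3x719.db
    rw [d1, d1, d2, d2]
    simp only [Complex.reCLM_apply, Complex.imCLM_apply]
    apply Complex.ext <;> simp <;> ring
  have bdd : ∀ (f : ℂ → ℝ) (C : NNReal), LipschitzWith C f → ∀ z, ‖U3x719.db f z‖ ≤ 2 * C := by
    intro f C hf z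
    have h1 := (fderiv ℝ f z).le_opNorm 1
    have h2 := (fderiv ℝ f z).le_opNorm Complex.I
    have h3 := norm_fderiv_le_of_lipschitz ℝ hf (x₀ := z)
    rw [norm_one, mul_one] at h1
    rw [Complex.norm_I, mul_one] at h2
    unfold U3x719.db
    refine (norm_add_le _ _).trans ?_
    rw [norm_mul, Complex.norm_I, one_mul, Complex.norm_real, Complex.norm_real]
    linarith
  have meas : ∀ f : ℂ → ℝ, Measurable (U3x719.db f) := by
    intro f
    unfold U3x719.db
    exact (Complex.measurable_ofReal.comp (measurable_fderiv_apply_const ℝ f 1)).add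
      ((Complex.measurable_ofReal.comp (measurable_fderiv_apply_const ℝ f Complex.I)).const_mul _)
  have int : ∀ (f : ℂ → ℝ) (C : NNReal), LipschitzWith C f →
      IntegrableOn (fun z => u z * U3x719.db f z) B := by
    intro f C hf
    have := Integrable.bdd_mul (c := 2 * C) hu (meas f).aestronglyMeasurable
      (Eventually.of_forall fun z => bdd f C hf z)
    refine this.congr (Eventually.of_forall fun z => ?_)
    simp only
    ring
  have i1 := int _ C1 l1
  have i2 := int _ C2 l2
  have hoff : ∀ z, z ∉ B → u z * Cl1x722.dbar χ z + (0 : ℂ → ℂ) z * χ z = 0 := by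
    intro z hz
    have hz' : z ∉ tsupport χ := fun hc => hz (hs hc)
    have : χ =ᶠ[𝓝 z] 0 := notMem_tsupport_iff_eventuallyEq.1 hz'
    have hf : fderiv ℝ χ z = 0 := by
      rw [this.fderiv_eq]
      simp
    simp [Cl1x722.dbar, hf]
  rw [← setIntegral_eq_integral_of_forall_compl_eq_zero hoff]
  calc ∫ z in B, (u z * Cl1x722.dbar χ z + (0 : ℂ → ℂ) z * χ z)
      = ∫ z in B, (2⁻¹ * (u z * U3x719.db (fun z => Complex.reCLM (χ z)) z)
        + (2⁻¹ * Complex.I) * (u z * U3x719.db (fun z => Complex.imCLM (χ z)) z)) := by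
        refine integral_congr_ae (Eventually.of_forall fun z => ?_)
        simp only [e, Pi.zero_apply, zero_mul, add_zero]
        ring
    _ = 0 := by
        rw [integral_add (i1.const_mul _) (i2.const_mul _), integral_const_mul,
          integral_const_mul, r1, r2]
        simp

/-- **differences of limits are holomorphic** -/
theorem diff_hol {D : Set ℂ} (hD : IsOpen D) {n : ℕ} {x : Fin n → ℂ} {K : Set ℂ}
    {G : ℂ → Fin 4 → ℝ} (hG : ∀ h, MemLp (fun z => G z h) 2)
    {a : ℕ → ℝ} {w : ℕ → Fld} {V : ℕ → Fin n → Face} {g φ : ℕ → Fld}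
    (H : LatSeq D x a w V) (S : Srcs K G a w g φ) {U : Filter ℕ} [U.NeBot] (hU : U ≤ atTop)
    {F : ℂ → ℂ} (L : CompLim D x K U a φ F)
    {a' : ℕ → ℝ} {w' : ℕ → Fld} {V' : ℕ → Fin n → Face} {g' φ' : ℕ → Fld}
    (H' : LatSeq D x a' w' V') (S' : Srcs K G a' w' g' φ') {U' : Filter ℕ} [U'.NeBot]
    (hU' : U' ≤ atTop) {F' : ℂ → ℂ} (L' : CompLim D x K U' a' φ' F') :
    ∃ d : ℂ → ℂ, DifferentiableOn ℂ d (Om D x) ∧
      ∀ᵐ z ∂volume.restrict D, (F z - F' z) * U3x719.rX x z = d z := by
  have hOm : IsOpen (Om D x) := hD.sdiff (finite_range x).isClosed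
  obtain ⟨d, hd1, hd2⟩ := patch (U := Om D x)
    (u := fun z => (F z - F' z) * U3x719.rX x z) (by
    intro z0 hz0
    have hz : ∀ i, x i ≠ z0 := fun i h => hz0.2 ⟨i, h⟩
    obtain ⟨r1, hr1, e1⟩ := local_eq hD H S hG hU L hz0
    obtain ⟨r2, hr2, e2⟩ := local_eq hD H' S' hG hU' L' hz0
    obtain ⟨r3, hr3, e3⟩ := gc_rX_diff hz
    obtain ⟨r4, hr4, e4⟩ := Metric.isOpen_iff.1 hOm z0 hz0
    set r := min (min r1 r2) (min r3 r4) / 2 with hr
    have hm : 0 < min (min r1 r2) (min r3 r4) := by positivity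
    have hr0 : 0 < r := by positivity
    have q1 : r < r1 := by
      have := min_le_left (min r1 r2) (min r3 r4)
      have := min_le_left r1 r2
      linarith
    have q2 : r < r2 := by
      have := min_le_left (min r1 r2) (min r3 r4)
      have := min_le_right r1 r2
      linarith
    have q3 : r < r3 := by
      have := min_le_right (min r1 r2) (min r3 r4)
      have := min_le_left r3 r4
      linarith
    have q4 : r < r4 := by
      have := min_le_right (min r1 r2) (min r3 r4)
      have := min_le_right r3 r4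
      linarith
    set B := ball z0 r with hB
    set u : ℂ → ℂ := fun z => gc x z0 z * (F z - F' z) with hu
    have hFi : IntegrableOn F B := by
      have : IsFiniteMeasure (volume.restrict B) := ⟨by
        rw [Measure.restrict_apply_univ]; exact measure_ball_lt_top⟩
      exact (L.l2.restrict B).integrable (by norm_num)
    have hFi' : IntegrableOn F' B := by
      have : IsFiniteMeasure (volume.restrict B) := ⟨by
        rw [Measure.restrict_apply_univ]; exact measure_ball_lt_top⟩
      exact (L'.l2.restrict B).integrable (by norm_num)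
    have hgcm : Measurable fun z => (gc x z0 z : ℂ) :=
      Complex.measurable_ofReal.comp (measurable_gc x z0)
    have hgF : IntegrableOn (fun z => (gc x z0 z : ℂ) * F z) B :=
      hFi.bdd_mul (c := 1) hgcm.aestronglyMeasurable (Eventually.of_forall fun z => by
        rw [Complex.norm_real, Real.norm_eq_abs, gc_abs])
    have hgF' : IntegrableOn (fun z => (gc x z0 z : ℂ) * F' z) B :=
      hFi'.bdd_mul (c := 1) hgcm.aestronglyMeasurable (Eventually.of_forall fun z => by
        rw [Complex.norm_real, Real.norm_eq_abs, gc_abs])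
    have hui : IntegrableOn u B := by
      refine (hgF.sub hgF').congr (Eventually.of_forall fun z => ?_)
      simp only [hu, Pi.sub_apply]
      ring
    have hw : Cl3x722.WDbar B u 0 := by
      refine wdbar_of_real isOpen_ball hui fun χ C hC hc hnb hχ => ?_
      have bdd : ∀ z, ‖U3x719.db χ z‖ ≤ 2 * C := by
        intro z
        have h1 := (fderiv ℝ χ z).le_opNorm 1
        have h2 := (fderiv ℝ χ z).le_opNorm Complex.I
        have h3 := norm_fderiv_le_of_lipschitz ℝ hC (x₀ := z)
        rw [norm_one, mul_one] at h1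
        rw [Complex.norm_I, mul_one] at h2
        unfold U3x719.db
        refine (norm_add_le _ _).trans ?_
        rw [norm_mul, Complex.norm_I, one_mul, Complex.norm_real, Complex.norm_real]
        linarith
      have meas : Measurable (U3x719.db χ) := by
        unfold U3x719.db
        exact (Complex.measurable_ofReal.comp (measurable_fderiv_apply_const ℝ χ 1)).add
          ((Complex.measurable_ofReal.comp
            (measurable_fderiv_apply_const ℝ χ Complex.I)).const_mul _)
      have i1 : IntegrableOn (fun z => ((gc x z0 z : ℂ) * F z) * U3x719.db χ z) B := by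
        refine (Integrable.bdd_mul (c := 2 * C) hgF meas.aestronglyMeasurable
          (Eventually.of_forall fun z => bdd z)).congr (Eventually.of_forall fun z => ?_)
        simp only
        ring
      have i2 : IntegrableOn (fun z => ((gc x z0 z : ℂ) * F' z) * U3x719.db χ z) B := by
        refine (Integrable.bdd_mul (c := 2 * C) hgF' meas.aestronglyMeasurable
          (Eventually.of_forall fun z => bdd z)).congr (Eventually.of_forall fun z => ?_)
        simp only
        ring
      set J : ℂ := ∫ z in B, ((gc x z0 z : ℂ) * F z) * U3x719.db χ z with hJ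
      set J' : ℂ := ∫ z in B, ((gc x z0 z : ℂ) * F' z) * U3x719.db χ z with hJ'
      have key : ∀ f : ℂ, (f * J).im = (f * J').im := by
        intro f
        have k1 := e1 r hr0 q1 χ C hC hc hnb hχ f
        have k2 := e2 r hr0 q2 χ C hC hc hnb hχ f
        have k3 : ∫ z in B, ((f * ((gc x z0 z : ℂ) * F z)) * U3x719.db χ z).im = (f * J).im := by
          rw [hJ, ← integral_const_mul]
          have := integral_im (𝕜 := ℂ) (i1.const_mul f)
          simp only [RCLike.im_to_complex] at this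
          rw [← this]
          refine integral_congr_ae (Eventually.of_forall fun z => ?_)
          simp only [mul_assoc]
        have k4 : ∫ z in B, ((f * ((gc x z0 z : ℂ) * F' z)) * U3x719.db χ z).im
            = (f * J').im := by
          rw [hJ', ← integral_const_mul]
          have := integral_im (𝕜 := ℂ) (i2.const_mul f)
          simp only [RCLike.im_to_complex] at this
          rw [← this]
          refine integral_congr_ae (Eventually.of_forall fun z => ?_)
          simp only [mul_assoc]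
        rw [k3] at k1
        rw [k4] at k2
        rw [k1] at k2
        exact mul_left_cancel₀ xc_pos.ne' k2
      have hJJ : J = J' := by
        have t1 := key 1
        have t2 := key Complex.I
        simp only [one_mul, Complex.mul_im, Complex.I_re, Complex.I_im, zero_mul, zero_add] at t1 t2
        exact Complex.ext t2 t1
      have e : ∫ z in B, u z * U3x719.db χ z = J - J' := by
        rw [hJ, hJ', ← integral_sub i1 i2]
        refine integral_congr_ae (Eventually.of_forall fun z => ?_)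
        simp only [hu]
        ring
      rw [e, hJJ, sub_self]
    obtain ⟨v, hv1, hv2⟩ := Cl4x722.weyl isOpen_ball hui.locallyIntegrableOn hw
    refine ⟨r, hr0, (ball_subset_ball q4.le).trans e4,
      fun z => v z * ((gc x z0 z : ℂ) * U3x719.rX x z),
      hv1.mul (e3.mono (ball_subset_ball q3.le)), ?_⟩
    filter_upwards [hv2] with z hz hzB
    rw [← hz hzB]
    simp only [hu]
    have hg : (gc x z0 z : ℂ) ^ 2 = 1 := by
      have := gc_sq x z0 z; exact_mod_cast this
    linear_combination (-(F z - F' z) * U3x719.rX x z) * hg)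
  refine ⟨d, hd1, ?_⟩
  rw [ae_restrict_iff' hD.measurableSet]
  filter_upwards [hd2, ae_not_range x] with z hz hzx hzD
  exact hz ⟨hzD, hzx⟩

end Crest.Agent.R165.MacTx610
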