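import Crest.Agent.R165.Lim2_943
import Crest.Agent.R165.Emb_622
import Crest.Agent.R165.Tr2_40
import Crest.Agent.R165.PotB_894
import Crest.Agent.R165.Mac1_622
import Crest.Agent.R165.MacNC2_917
import Crest.Agent.R165.Int_811
import Crest.Agent.R165.MacT_610

-- ▼ part R165/Rel1_943
section

/-!
# Row 165 (S0250): Rellich compactness for lattice functions

`N2 u = ∑ u²` (extended).  If `a² N2 (u_k) ≤ M` and `N2 (D_i u_k) ≤ M` then along an ultrafilter
`emb a_k u_k` converges strongly in `L²` on every bounded set (`rellich`).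
-/

set_option autoImplicit false

noncomputable section

namespace Crest.Agent.R165.Relx943

open Filter Topology MeasureTheory
open Crest.ProbabilityR.IsingModel
open Crest.Agent.R165.Lim1x943 (pt flr d1 LocBd LocUnif lim e1 e2)
open Crest.Agent.R165.Lim2x943 (NC sq2 nrm)
open Crest.Agent.R165.Embx622 (emb)

/-- squared `l²` norm -/
def N2 (u : ℤ × ℤ → ℝ) : ENNReal := ∑' f, sq2 (u f)

/-- unscaled forward differences -/
def dif1 (u : ℤ × ℤ → ℝ) (f : ℤ × ℤ) : ℝ := u (f + e1) - u f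
def dif2 (u : ℤ × ℤ → ℝ) (f : ℤ × ℤ) : ℝ := u (f + e2) - u f

theorem N2_shift (u : ℤ × ℤ → ℝ) (τ : ℤ × ℤ) : N2 (fun f => u (f + τ)) = N2 u :=
  (Equiv.addRight τ).tsum_eq fun f => sq2 (u f)

theorem sq2_sum_le {α : Type*} (s : Finset α) (g : α → ℝ) :
    sq2 (∑ i ∈ s, g i) ≤ s.card * ∑ i ∈ s, sq2 (g i) := by
  unfold sq2
  rw [← ENNReal.ofReal_sum_of_nonneg fun _ _ => sq_nonneg _, ← ENNReal.ofReal_natCast,
    ← ENNReal.ofReal_mul (by positivity)]
  apply ENNReal.ofReal_le_ofReal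
  exact sq_sum_le_card_mul_sum_sq

theorem sq2_mul (a b : ℝ) : sq2 (a * b) = sq2 a * sq2 b := by
  unfold sq2
  rw [mul_pow, ENNReal.ofReal_mul (sq_nonneg _)]

theorem sq2_add_le (a b : ℝ) : sq2 (a + b) ≤ 2 * sq2 a + 2 * sq2 b := by
  have := Lim2x943.sq2_sub_le a (-b)
  rwa [sub_neg_eq_add, Lim2x943.sq2_neg] at this

theorem N2_add_le (u v : ℤ × ℤ → ℝ) : N2 (fun f => u f + v f) ≤ 2 * N2 u + 2 * N2 v := by
  unfold N2
  rw [← ENNReal.tsum_mul_left, ← ENNReal.tsum_mul_left, ← ENNReal.tsum_add]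
  exact ENNReal.tsum_le_tsum fun f => sq2_add_le _ _

theorem N2_mul_left (c : ℝ) (u : ℤ × ℤ → ℝ) : N2 (fun f => c * u f) = sq2 c * N2 u := by
  unfold N2
  rw [← ENNReal.tsum_mul_left]
  exact tsum_congr fun f => sq2_mul _ _

theorem N2_sum_le {α : Type*} (s : Finset α) (g : α → ℤ × ℤ → ℝ) {C : ENNReal}
    (h : ∀ i ∈ s, N2 (g i) ≤ C) : N2 (fun f => ∑ i ∈ s, g i f) ≤ (s.card : ENNReal) ^ 2 * C := by
  calc N2 (fun f => ∑ i ∈ s, g i f) ≤ ∑' f, (s.card : ENNReal) * ∑ i ∈ s, sq2 (g i f) :=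
        ENNReal.tsum_le_tsum fun f => sq2_sum_le s _
    _ = s.card * ∑ i ∈ s, N2 (g i) := by
        rw [ENNReal.tsum_mul_left]
        unfold N2
        rw [Summable.tsum_finsetSum fun _ _ => ENNReal.summable]
    _ ≤ s.card * ∑ i ∈ s, C := by gcongr with i hi; exact h i hi
    _ = (s.card : ENNReal) ^ 2 * C := by
        rw [Finset.sum_const, nsmul_eq_mul]; ring

theorem N2_shift1 (u : ℤ × ℤ → ℝ) (s : ℕ) :
    N2 (fun f => u (f + ((s : ℤ), 0)) - u f) ≤ (s : ENNReal) ^ 2 * N2 (dif1 u) := by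
  have h : ∀ f : ℤ × ℤ, u (f + ((s : ℤ), 0)) - u f
      = ∑ j ∈ Finset.range s, dif1 u (f + ((j : ℤ), 0)) := by
    intro f
    induction s with
    | zero => simp [show ((0 : ℤ), (0 : ℤ)) = (0 : ℤ × ℤ) from rfl]
    | succ s ih =>
      rw [Finset.sum_range_succ, ← ih]
      simp only [dif1, e1, add_assoc, Prod.mk_add_mk, add_zero, Nat.cast_add, Nat.cast_one]
      ring
  simp_rw [h]
  refine (N2_sum_le (Finset.range s) (fun j f => dif1 u (f + ((j : ℤ), 0)))
    (C := N2 (dif1 u)) fun j _ => (N2_shift _ _).le).trans (by simp)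

theorem N2_shift2 (u : ℤ × ℤ → ℝ) (s : ℕ) :
    N2 (fun f => u (f + (0, (s : ℤ))) - u f) ≤ (s : ENNReal) ^ 2 * N2 (dif2 u) := by
  have h : ∀ f : ℤ × ℤ, u (f + (0, (s : ℤ))) - u f
      = ∑ j ∈ Finset.range s, dif2 u (f + (0, (j : ℤ))) := by
    intro f
    induction s with
    | zero => simp [show ((0 : ℤ), (0 : ℤ)) = (0 : ℤ × ℤ) from rfl]
    | succ s ih =>
      rw [Finset.sum_range_succ, ← ih]
      simp only [dif2, e2, add_assoc, Prod.mk_add_mk, add_zero, Nat.cast_add, Nat.cast_one]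
      ring
  simp_rw [h]
  refine (N2_sum_le (Finset.range s) (fun j f => dif2 u (f + (0, (j : ℤ))))
    (C := N2 (dif2 u)) fun j _ => (N2_shift _ _).le).trans (by simp)

theorem N2_shift12 (u : ℤ × ℤ → ℝ) {s t m : ℕ} (hs : s ≤ m) (ht : t ≤ m) :
    N2 (fun f => u (f + ((s : ℤ), (t : ℤ))) - u f)
      ≤ 2 * (m : ENNReal) ^ 2 * (N2 (dif1 u) + N2 (dif2 u)) := by
  have h1 := N2_add_le (fun f => u (f + (0, (t : ℤ)) + ((s : ℤ), 0)) - u (f + (0, (t : ℤ))))
    (fun f => u (f + (0, (t : ℤ))) - u f)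
  have h2 : N2 (fun f => u (f + (0, (t : ℤ)) + ((s : ℤ), 0)) - u (f + (0, (t : ℤ))))
      = N2 (fun f => u (f + ((s : ℤ), 0)) - u f) :=
    N2_shift (fun f => u (f + ((s : ℤ), 0)) - u f) (0, (t : ℤ))
  rw [h2] at h1
  have e : (fun f : ℤ × ℤ => u (f + (0, (t : ℤ)) + ((s : ℤ), 0)) - u (f + (0, (t : ℤ)))
      + (u (f + (0, (t : ℤ))) - u f)) = fun f => u (f + ((s : ℤ), (t : ℤ))) - u f := by
    ext f
    simp [add_assoc]
  rw [e] at h1
  refine h1.trans ?_
  have h3 := N2_shift1 u s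
  have h4 := N2_shift2 u t
  have h5 : (s : ENNReal) ≤ m := by exact_mod_cast hs
  have h6 : (t : ENNReal) ≤ m := by exact_mod_cast ht
  calc 2 * N2 (fun f => u (f + ((s : ℤ), 0)) - u f) + 2 * N2 (fun f => u (f + (0, (t : ℤ))) - u f)
      ≤ 2 * ((s : ENNReal) ^ 2 * N2 (dif1 u)) + 2 * ((t : ENNReal) ^ 2 * N2 (dif2 u)) := by
        gcongr
    _ ≤ 2 * ((m : ENNReal) ^ 2 * N2 (dif1 u)) + 2 * ((m : ENNReal) ^ 2 * N2 (dif2 u)) := by
        gcongr
    _ = 2 * (m : ENNReal) ^ 2 * (N2 (dif1 u) + N2 (dif2 u)) := by ring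

/-- average over an `m × m` block -/
def avg (m : ℕ) (u : ℤ × ℤ → ℝ) (f : ℤ × ℤ) : ℝ :=
  (1 / (m : ℝ) ^ 2) * ∑ p ∈ Finset.range m ×ˢ Finset.range m, u (f + ((p.1 : ℤ), (p.2 : ℤ)))

theorem sq2_inv_card (m : ℕ) (hm : 0 < m) :
    sq2 (1 / (m : ℝ) ^ 2) * ((m : ENNReal) ^ 2) ^ 2 = 1 := by
  have hm' : (0 : ℝ) < m := by exact_mod_cast hm
  unfold sq2
  rw [← ENNReal.ofReal_natCast, ← ENNReal.ofReal_pow (by positivity),
    ← ENNReal.ofReal_pow (by positivity), ← ENNReal.ofReal_mul (by positivity)]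
  rw [show (1 / (m : ℝ) ^ 2) ^ 2 * ((m : ℝ) ^ 2) ^ 2 = 1 by field_simp]
  simp

theorem card_block (m : ℕ) :
    ((Finset.range m ×ˢ Finset.range m).card : ENNReal) = (m : ENNReal) ^ 2 := by
  rw [Finset.card_product, Finset.card_range]; push_cast; ring

theorem N2_sub_avg {m : ℕ} (hm : 0 < m) (u : ℤ × ℤ → ℝ) :
    N2 (fun f => avg m u f - u f) ≤ 2 * (m : ENNReal) ^ 2 * (N2 (dif1 u) + N2 (dif2 u)) := by
  have hm' : (0 : ℝ) < m := by exact_mod_cast hm
  have h : ∀ f, avg m u f - u f = (1 / (m : ℝ) ^ 2) *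
      ∑ p ∈ Finset.range m ×ˢ Finset.range m, (u (f + ((p.1 : ℤ), (p.2 : ℤ))) - u f) := by
    intro f
    unfold avg
    rw [Finset.sum_sub_distrib, Finset.sum_const, Finset.card_product, Finset.card_range,
      nsmul_eq_mul]
    push_cast
    field_simp
  simp_rw [h]
  rw [N2_mul_left]
  have h1 := N2_sum_le (Finset.range m ×ˢ Finset.range m)
    (fun p f => u (f + ((p.1 : ℤ), (p.2 : ℤ))) - u f)
    (C := 2 * (m : ENNReal) ^ 2 * (N2 (dif1 u) + N2 (dif2 u))) (fun p hp => by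
      rw [Finset.mem_product, Finset.mem_range, Finset.mem_range] at hp
      exact N2_shift12 u hp.1.le hp.2.le)
  rw [card_block] at h1
  calc sq2 (1 / (m : ℝ) ^ 2) * N2 _ ≤ sq2 (1 / (m : ℝ) ^ 2) * (((m : ENNReal) ^ 2) ^ 2 *
        (2 * (m : ENNReal) ^ 2 * (N2 (dif1 u) + N2 (dif2 u)))) := by gcongr
    _ = (sq2 (1 / (m : ℝ) ^ 2) * ((m : ENNReal) ^ 2) ^ 2) *
        (2 * (m : ENNReal) ^ 2 * (N2 (dif1 u) + N2 (dif2 u))) := by ring
    _ = _ := by rw [sq2_inv_card m hm, one_mul]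

theorem N2_avg_le {m : ℕ} (hm : 0 < m) (u : ℤ × ℤ → ℝ) : N2 (avg m u) ≤ N2 u := by
  have e : avg m u = fun f => (1 / (m : ℝ) ^ 2) *
      ∑ p ∈ Finset.range m ×ˢ Finset.range m, u (f + ((p.1 : ℤ), (p.2 : ℤ))) := rfl
  rw [e, N2_mul_left]
  have h1 := N2_sum_le (Finset.range m ×ˢ Finset.range m)
    (fun p f => u (f + ((p.1 : ℤ), (p.2 : ℤ)))) (C := N2 u) (fun p _ => (N2_shift u _).le)
  rw [card_block] at h1
  calc sq2 (1 / (m : ℝ) ^ 2) * N2 _ ≤ sq2 (1 / (m : ℝ) ^ 2) * (((m : ENNReal) ^ 2) ^ 2 * N2 u) := by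
        gcongr
    _ = (sq2 (1 / (m : ℝ) ^ 2) * ((m : ENNReal) ^ 2) ^ 2) * N2 u := by ring
    _ = _ := by rw [sq2_inv_card m hm, one_mul]

theorem avg_sub (m : ℕ) (u v : ℤ × ℤ → ℝ) (f : ℤ × ℤ) :
    avg m (fun g => u g - v g) f = avg m u f - avg m v f := by
  unfold avg
  rw [Finset.sum_sub_distrib, mul_sub]

/-- double average: `l²` closeness -/
theorem N2_sub_avg2 {m : ℕ} (hm : 0 < m) (u : ℤ × ℤ → ℝ) :
    N2 (fun f => avg m (avg m u) f - u f)
      ≤ 8 * (m : ENNReal) ^ 2 * (N2 (dif1 u) + N2 (dif2 u)) := by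
  have h1 := N2_add_le (avg m fun g => avg m u g - u g) (fun f => avg m u f - u f)
  have e : (fun f => avg m (fun g => avg m u g - u g) f + (avg m u f - u f))
      = fun f => avg m (avg m u) f - u f := by
    ext f
    rw [avg_sub]; ring
  rw [e] at h1
  have h2 := N2_sub_avg hm u
  have h3 := (N2_avg_le hm fun g => avg m u g - u g).trans h2
  calc N2 (fun f => avg m (avg m u) f - u f) ≤ _ := h1
    _ ≤ 2 * (2 * (m : ENNReal) ^ 2 * (N2 (dif1 u) + N2 (dif2 u)))
        + 2 * (2 * (m : ENNReal) ^ 2 * (N2 (dif1 u) + N2 (dif2 u))) := by gcongr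
    _ = _ := by ring


/-- sup bound of the average -/
theorem sq2_avg_le {m : ℕ} (hm : 0 < m) (u : ℤ × ℤ → ℝ) (f : ℤ × ℤ) :
    sq2 (avg m u f) * (m : ENNReal) ^ 2 ≤ N2 u := by
  unfold avg
  rw [sq2_mul]
  have h1 := sq2_sum_le (Finset.range m ×ˢ Finset.range m)
    (fun p => u (f + ((p.1 : ℤ), (p.2 : ℤ))))
  rw [card_block] at h1
  have h2 : ∑ p ∈ Finset.range m ×ˢ Finset.range m, sq2 (u (f + ((p.1 : ℤ), (p.2 : ℤ))))
      ≤ N2 u := by
    have hinj : Set.InjOn (fun p : ℕ × ℕ => f + ((p.1 : ℤ), (p.2 : ℤ)))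
        (Finset.range m ×ˢ Finset.range m : Finset (ℕ × ℕ)) := by
      intro p _ q _ h
      simp only [add_right_inj, Prod.mk.injEq, Nat.cast_inj] at h
      exact Prod.ext h.1 h.2
    rw [← Finset.sum_image (f := fun g => sq2 (u g))
      (g := fun p : ℕ × ℕ => f + ((p.1 : ℤ), (p.2 : ℤ))) hinj]
    exact ENNReal.sum_le_tsum _
  calc sq2 (1 / (m : ℝ) ^ 2) * sq2 (∑ p ∈ Finset.range m ×ˢ Finset.range m,
        u (f + ((p.1 : ℤ), (p.2 : ℤ)))) * (m : ENNReal) ^ 2
      ≤ sq2 (1 / (m : ℝ) ^ 2) * ((m : ENNReal) ^ 2 * N2 u) * (m : ENNReal) ^ 2 := by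
        gcongr
        exact h1.trans (by gcongr)
    _ = (sq2 (1 / (m : ℝ) ^ 2) * ((m : ENNReal) ^ 2) ^ 2) * N2 u := by ring
    _ = N2 u := by rw [sq2_inv_card m hm, one_mul]

/-- Lipschitz bound of the average of a bounded function -/
theorem dif_avg_le {m : ℕ} (hm : 0 < m) (v : ℤ × ℤ → ℝ) {c : ℝ} (hc : ∀ f, |v f| ≤ c)
    (f : ℤ × ℤ) : |avg m v (f + e1) - avg m v f| ≤ 2 * c / m ∧
      |avg m v (f + e2) - avg m v f| ≤ 2 * c / m := by
  have hm' : (0 : ℝ) < m := by exact_mod_cast hm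
  have key : ∀ w : ℕ → ℕ → ℝ, (∀ s t, |w s t| ≤ c) →
      |(1 / (m : ℝ) ^ 2) * (∑ t ∈ Finset.range m, ∑ s ∈ Finset.range m, (w (s + 1) t - w s t))|
        ≤ 2 * c / m := by
    intro w hw
    have h1 : ∀ t, |∑ s ∈ Finset.range m, (w (s + 1) t - w s t)| ≤ 2 * c := by
      intro t
      rw [Finset.sum_range_sub (fun s => w s t) m]
      have h1 := hw m t
      have h2 := hw 0 t
      rw [abs_le] at *
      constructor <;> linarith [h1.1, h1.2, h2.1, h2.2]
    rw [abs_mul, abs_of_pos (by positivity)]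
    calc 1 / (m : ℝ) ^ 2 * |∑ t ∈ Finset.range m, ∑ s ∈ Finset.range m, (w (s + 1) t - w s t)|
        ≤ 1 / (m : ℝ) ^ 2 * ∑ t ∈ Finset.range m, 2 * c := by
          gcongr
          exact (Finset.abs_sum_le_sum_abs _ _).trans (Finset.sum_le_sum fun t _ => h1 t)
      _ = 2 * c / m := by
          rw [Finset.sum_const, Finset.card_range, nsmul_eq_mul]
          field_simp
  constructor
  · have := key (fun s t => v (f + ((s : ℤ), (t : ℤ)))) (fun _ _ => hc _)
    refine le_trans (le_of_eq ?_) this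
    congr 1
    unfold avg
    rw [← mul_sub, ← Finset.sum_sub_distrib, Finset.sum_product_right]
    congr 1
    refine Finset.sum_congr rfl fun t _ => Finset.sum_congr rfl fun s _ => ?_
    congr 2
    simp only [e1, add_assoc, Prod.mk_add_mk, Nat.cast_add, Nat.cast_one, zero_add]
    rw [add_comm (1 : ℤ)]
  · have := key (fun s t => v (f + ((t : ℤ), (s : ℤ)))) (fun _ _ => hc _)
    refine le_trans (le_of_eq ?_) this
    congr 1
    unfold avg
    rw [← mul_sub, ← Finset.sum_sub_distrib, Finset.sum_product]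
    congr 1
    refine Finset.sum_congr rfl fun t _ => Finset.sum_congr rfl fun s _ => ?_
    congr 2
    simp only [e2, add_assoc, Prod.mk_add_mk, Nat.cast_add, Nat.cast_one, zero_add]
    rw [add_comm (1 : ℤ)]

theorem abs_avg_le {m : ℕ} (hm : 0 < m) (v : ℤ × ℤ → ℝ) {c : ℝ} (hc : ∀ f, |v f| ≤ c)
    (f : ℤ × ℤ) : |avg m v f| ≤ c := by
  have hm' : (0 : ℝ) < m := by exact_mod_cast hm
  unfold avg
  rw [abs_mul, abs_of_pos (by positivity)]
  calc 1 / (m : ℝ) ^ 2 * |∑ p ∈ Finset.range m ×ˢ Finset.range m, v (f + ((p.1 : ℤ), (p.2 : ℤ)))|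
      ≤ 1 / (m : ℝ) ^ 2 * ∑ p ∈ Finset.range m ×ˢ Finset.range m, c := by
        gcongr
        exact (Finset.abs_sum_le_sum_abs _ _).trans (Finset.sum_le_sum fun p _ => hc _)
    _ = c := by
        rw [Finset.sum_const, Finset.card_product, Finset.card_range, nsmul_eq_mul]
        push_cast
        field_simp

theorem abs_le_of_sq2_le {x c : ℝ} (hc : 0 ≤ c) (h : sq2 x ≤ ENNReal.ofReal (c ^ 2)) : |x| ≤ c := by
  unfold sq2 at h
  rw [ENNReal.ofReal_le_ofReal_iff (by positivity)] at h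
  exact abs_le_of_sq_le_sq h hc

theorem flr_eq (a : ℝ) (z : ℂ) : flr (1 / a) z = meshIndex a z := by
  unfold flr meshIndex
  rw [one_div_mul_eq_div, one_div_mul_eq_div]

variable {ι : Type*}

theorem tendsto_one_div {U : Filter ι} {a : ι → ℝ} (ha : Tendsto a U (𝓝[>] 0)) :
    Tendsto (fun n => 1 / a n) U atTop := by
  have := ha.inv_tendsto_nhdsGT_zero
  refine this.congr fun n => ?_
  simp

/-- completeness of `L²` -/
theorem exists_L2_lim {U : Filter ι} [U.NeBot] {μ : Measure ℂ} (x : ι → ℂ → ℝ)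
    (hx : ∀ n, MemLp (x n) 2 μ)
    (H : ∀ ε : ℝ, 0 < ε → ∃ y : ℂ → ℝ, MemLp y 2 μ ∧
      ∀ᶠ n in U, eLpNorm (fun z => x n z - y z) 2 μ ≤ ENNReal.ofReal ε) :
    ∃ F : ℂ → ℝ, MemLp F 2 μ ∧ Tendsto (fun n => eLpNorm (fun z => x n z - F z) 2 μ) U (𝓝 0) := by
  have hfact : Fact ((1 : ENNReal) ≤ 2) := ⟨by norm_num⟩
  set X : ι → Lp ℝ 2 μ := fun n => (hx n).toLp _ with hX
  have hC : Cauchy (map X U) := by
    rw [Metric.cauchy_iff]
    refine ⟨inferInstance, fun ε hε => ?_⟩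
    obtain ⟨y, hy, hn⟩ := H (ε / 3) (by positivity)
    refine ⟨Metric.closedBall (hy.toLp _) (ε / 3), ?_, fun p hp q hq => ?_⟩
    · rw [mem_map]
      filter_upwards [hn] with n hn
      rw [Set.mem_preimage, Metric.mem_closedBall, hX, Lp.dist_def,
        eLpNorm_congr_ae ((hx n).coeFn_toLp.sub hy.coeFn_toLp)]
      exact ENNReal.toReal_le_of_le_ofReal (by positivity) hn
    · have h1 := dist_triangle_right p q (hy.toLp _)
      rw [Metric.mem_closedBall] at hp hq
      linarith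
  obtain ⟨F, hF⟩ := CompleteSpace.complete hC
  refine ⟨F, Lp.memLp F, ?_⟩
  have h1 : Tendsto X U (𝓝 F) := hF
  rw [Lp.tendsto_Lp_iff_tendsto_eLpNorm'] at h1
  refine h1.congr fun n => ?_
  exact eLpNorm_congr_ae ((hx n).coeFn_toLp.sub (ae_eq_refl _))

theorem nrm_univ_emb {a : ℝ} (ha : 0 < a) (B : Set ℂ) (g : ℤ × ℤ → ℝ) :
    ∫⁻ z in B, sq2 (g (meshIndex a z)) ≤ ENNReal.ofReal (a ^ 2) * N2 g := by
  refine (setLIntegral_le_lintegral _ _).trans (le_of_eq ?_)
  exact Embx622.lintegral_emb ha fun f => sq2 (g f)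

/-- **Rellich compactness for lattice functions** -/
theorem rellich {U : Ultrafilter ι} {a : ι → ℝ} (ha : Tendsto a U (𝓝[>] 0))
    {u : ι → ℤ × ℤ → ℝ} {M : ℝ} (hM : 0 ≤ M)
    (h0 : ∀ᶠ n in (U : Filter ι), ENNReal.ofReal (a n ^ 2) * N2 (u n) ≤ ENNReal.ofReal M)
    (h1 : ∀ᶠ n in (U : Filter ι), N2 (dif1 (u n)) ≤ ENNReal.ofReal M)
    (h2 : ∀ᶠ n in (U : Filter ι), N2 (dif2 (u n)) ≤ ENNReal.ofReal M)
    {B : Set ℂ} (hB : Bornology.IsBounded B) (hBm : MeasurableSet B)
    (hmem : ∀ n, MemLp (emb (a n) (u n)) 2 (volume.restrict B)) :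
    ∃ F : ℂ → ℝ, MemLp F 2 (volume.restrict B) ∧
      Tendsto (fun n => eLpNorm (fun z => emb (a n) (u n) z - F z) 2 (volume.restrict B)) U
        (𝓝 0) := by
  refine exists_L2_lim _ hmem fun ε hε => ?_
  set r : ι → ℝ := fun n => 1 / a n with hr
  have hrt : Tendsto r U atTop := tendsto_one_div ha
  have hapos : ∀ᶠ n in (U : Filter ι), 0 < a n := ha.eventually self_mem_nhdsWithin
  have ha0 : Tendsto a U (𝓝 0) := ha.mono_right nhdsWithin_le_nhds
  -- choice of the averaging scale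
  set δ : ℝ := ε / (16 * (Real.sqrt M + 1)) with hδ
  have hδ0 : 0 < δ := by positivity
  set m : ι → ℕ := fun n => ⌈δ / a n⌉₊ with hm
  set c : ℝ := Real.sqrt M / δ with hc
  have hc0 : 0 ≤ c := by positivity
  set v : ι → ℤ × ℤ → ℝ := fun n => avg (m n) (avg (m n) (u n)) with hv
  have hmfac : ∀ᶠ n in (U : Filter ι), 0 < a n ∧ 0 < m n ∧ δ ≤ a n * m n ∧ a n * m n ≤ 2 * δ := by
    filter_upwards [hapos, ha0.eventually_le_const hδ0] with n h1 h2
    have h3 : δ / a n ≤ m n := Nat.le_ceil _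
    have h4 : (m n : ℝ) < δ / a n + 1 := Nat.ceil_lt_add_one (by positivity)
    refine ⟨h1, Nat.ceil_pos.2 (by positivity), ?_, ?_⟩
    · rw [div_le_iff₀ h1] at h3; linarith
    · have h5 : a n * m n ≤ a n * (δ / a n + 1) := by gcongr
      rw [mul_add, mul_div_cancel₀ _ h1.ne'] at h5
      linarith
  -- sup bounds
  have hsup : ∀ᶠ n in (U : Filter ι), ∀ f, |avg (m n) (u n) f| ≤ c := by
    filter_upwards [hmfac, h0] with n hn h0 f
    obtain ⟨h1, h2, h3, -⟩ := hn
    refine abs_le_of_sq2_le hc0 ?_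
    have h4 := sq2_avg_le h2 (u n) f
    have h5 : sq2 (avg (m n) (u n) f) * ENNReal.ofReal (δ ^ 2) ≤ ENNReal.ofReal M := by
      calc sq2 (avg (m n) (u n) f) * ENNReal.ofReal (δ ^ 2)
          ≤ sq2 (avg (m n) (u n) f) * ENNReal.ofReal ((a n * m n) ^ 2) := by gcongr
        _ = ENNReal.ofReal (a n ^ 2) * (sq2 (avg (m n) (u n) f) * (m n : ENNReal) ^ 2) := by
            rw [mul_pow, ENNReal.ofReal_mul (by positivity), ENNReal.ofReal_pow (Nat.cast_nonneg _),
              ENNReal.ofReal_natCast]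
            ring
        _ ≤ ENNReal.ofReal (a n ^ 2) * N2 (u n) := by gcongr
        _ ≤ ENNReal.ofReal M := h0
    have hδ2 : (0 : ℝ) < δ ^ 2 := by positivity
    rw [hc, div_pow, Real.sq_sqrt hM, ENNReal.ofReal_div_of_pos hδ2,
      ENNReal.le_div_iff_mul_le (Or.inl (by simp [hδ0.ne'])) (Or.inl ENNReal.ofReal_ne_top)]
    exact h5
  have bd0 : LocBd U r Set.univ v := by
    intro K _ _
    refine ⟨c, ?_⟩
    filter_upwards [hsup, hmfac] with n hn hm f _
    exact abs_avg_le hm.2.1 _ hn f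
  have hdif : ∀ᶠ n in (U : Filter ι), ∀ f, |r n * (v n (f + e1) - v n f)| ≤ 2 * c / δ ∧
      |r n * (v n (f + e2) - v n f)| ≤ 2 * c / δ := by
    filter_upwards [hsup, hmfac] with n hn hm f
    obtain ⟨k1, k2, k3, -⟩ := hm
    have h := dif_avg_le k2 _ hn f
    have hmm : (0 : ℝ) < m n := by exact_mod_cast k2
    have key : r n * (2 * c / m n) ≤ 2 * c / δ := by
      rw [hr]
      calc 1 / a n * (2 * c / m n) = 2 * c / (a n * m n) := by field_simp
        _ ≤ 2 * c / δ := by gcongr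
    have hrn : 0 < r n := by rw [hr]; positivity
    rw [abs_mul, abs_mul, abs_of_pos hrn]
    exact ⟨(mul_le_mul_of_nonneg_left h.1 hrn.le).trans key,
      (mul_le_mul_of_nonneg_left h.2 hrn.le).trans key⟩
  have bd1 : LocBd U r Set.univ fun n => Lim1x943.D1 (r n) (v n) := by
    intro K _ _
    refine ⟨2 * c / δ, ?_⟩
    filter_upwards [hdif] with n hn f _
    exact (hn f).1
  have bd2 : LocBd U r Set.univ fun n => Lim1x943.D2 (r n) (v n) := by
    intro K _ _
    refine ⟨2 * c / δ, ?_⟩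
    filter_upwards [hdif] with n hn f _
    exact (hn f).2
  obtain ⟨hVc, hVu⟩ := Lim1x943.exists_limit hrt isOpen_univ bd0 bd1 bd2
  set V := lim U r v with hVdef
  have hVcont : Continuous V := continuousOn_univ.1 hVc
  -- strong convergence of the averages
  obtain ⟨R, hR⟩ := hB.subset_closedBall (0 : ℂ)
  have hstr := Lim2x943.strong (B := B) (B' := Metric.closedBall 0 (R + 1)) (δ := 1) hrt
    isOpen_univ hB hBm one_pos
    (fun z hz w hw => by
      have k1 := hR hz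
      rw [Metric.mem_closedBall] at k1 ⊢
      have k2 := Lim1x943.dist_le_d1 w z
      have k3 := dist_triangle w z 0
      linarith)
    (v := v) (F := V) (fun η hη => ⟨Metric.closedBall 0 (R + 1), isCompact_closedBall _ _,
      Set.subset_univ _, by
        filter_upwards with n S hS
        have : S = ∅ := by
          rw [Finset.eq_empty_iff_forall_notMem]
          intro f hf
          exact (hS f hf).2 (hS f hf).1
        rw [this, Finset.sum_empty]
        positivity⟩) hVc hVu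
  have hstr2 := Lim2x943.nrm_tendsto_zero hstr
  refine ⟨V, ?_, ?_⟩
  · have hfin : IsFiniteMeasure (volume.restrict B) :=
      ⟨by rw [Measure.restrict_apply_univ]; exact hB.measure_lt_top⟩
    obtain ⟨C, hC⟩ := (isCompact_closedBall (0 : ℂ) R).exists_bound_of_continuousOn
      hVcont.continuousOn
    refine MemLp.of_bound hVcont.aestronglyMeasurable C ?_
    filter_upwards [ae_restrict_mem hBm] with z hz
    exact hC z (hR hz)
  · have hev : ∀ᶠ n in (U : Filter ι), nrm B (fun z => v n (flr (r n) z) - Set.univ.indicator V z)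
        ≤ ENNReal.ofReal (ε / 2) :=
      hstr2.eventually_le_const (by simp [hε])
    filter_upwards [hev, h1, h2, hmfac] with n hn h1 h2 hm
    obtain ⟨k1, k2, -, k4⟩ := hm
    rw [← Lim2x943.nrm_eq_eLpNorm]
    have e : (fun z => emb (a n) (u n) z - V z) = fun z =>
        (emb (a n) (u n) z - emb (a n) (v n) z) + (v n (flr (r n) z) - Set.univ.indicator V z) := by
      ext z
      rw [hr]
      simp only [flr_eq, emb, Set.indicator_univ]
      ring
    rw [e]
    have hmeas1 : Measurable fun z => emb (a n) (u n) z - emb (a n) (v n) z :=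
      (Embx622.emb_measurable _ _).sub (Embx622.emb_measurable _ _)
    have hmeas2 : Measurable fun z => v n (flr (r n) z) - Set.univ.indicator V z := by
      rw [Set.indicator_univ]
      exact (Lim2x943.measurable_comp_flr _ (v n)).sub hVcont.measurable
    refine (Lim2x943.nrm_add_le hmeas1.aemeasurable hmeas2.aemeasurable).trans ?_
    have hfirst : nrm B (fun z => emb (a n) (u n) z - emb (a n) (v n) z)
        ≤ ENNReal.ofReal (ε / 2) := by
      have k5 : ∫⁻ z in B, sq2 (emb (a n) (u n) z - emb (a n) (v n) z)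
          ≤ ENNReal.ofReal ((ε / 2) ^ 2) := by
        have q1 := nrm_univ_emb k1 B (fun f => u n f - v n f)
        refine q1.trans ?_
        have q2 : N2 (fun f => u n f - v n f) = N2 (fun f => v n f - u n f) := by
          unfold N2
          refine tsum_congr fun f => ?_
          rw [← Lim2x943.sq2_neg, neg_sub]
        rw [q2]
        have q3 := N2_sub_avg2 k2 (u n)
        calc ENNReal.ofReal (a n ^ 2) * N2 (fun f => v n f - u n f)
            ≤ ENNReal.ofReal (a n ^ 2) * (8 * (m n : ENNReal) ^ 2 *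
              (ENNReal.ofReal M + ENNReal.ofReal M)) := by
              gcongr
              exact q3.trans (by gcongr)
          _ = ENNReal.ofReal (16 * (a n * m n) ^ 2 * M) := by
              rw [← ENNReal.ofReal_add hM hM, ← ENNReal.ofReal_natCast,
                ← ENNReal.ofReal_pow (Nat.cast_nonneg _),
                show (8 : ENNReal) = ENNReal.ofReal 8 by simp,
                ← ENNReal.ofReal_mul (by norm_num), ← ENNReal.ofReal_mul (by positivity),
                ← ENNReal.ofReal_mul (by positivity)]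
              congr 1
              ring
          _ ≤ ENNReal.ofReal ((ε / 2) ^ 2) := by
              apply ENNReal.ofReal_le_ofReal
              have q4 : 16 * (a n * m n) ^ 2 * M ≤ 16 * (2 * δ) ^ 2 * M := by
                gcongr
              refine q4.trans ?_
              have q5 : 16 * (2 * δ) ^ 2 * M = (8 * δ * Real.sqrt M) ^ 2 := by
                rw [mul_pow (8 * δ), Real.sq_sqrt hM]; ring
              rw [q5]
              have q6 : 8 * δ * Real.sqrt M ≤ ε / 2 := by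
                rw [hδ]
                have : 8 * (ε / (16 * (Real.sqrt M + 1))) * Real.sqrt M
                    = ε / 2 * (Real.sqrt M / (Real.sqrt M + 1)) := by
                  field_simp
                  ring
                rw [this]
                have h6 : Real.sqrt M / (Real.sqrt M + 1) ≤ 1 := by
                  rw [div_le_one (by positivity)]; linarith
                nlinarith
              gcongr
      unfold Lim2x943.nrm
      calc (∫⁻ z in B, sq2 (emb (a n) (u n) z - emb (a n) (v n) z)) ^ (1 / 2 : ℝ)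
          ≤ (ENNReal.ofReal ((ε / 2) ^ 2)) ^ (1 / 2 : ℝ) :=
            ENNReal.rpow_le_rpow k5 (by norm_num)
        _ = ENNReal.ofReal (ε / 2) := by
            rw [ENNReal.ofReal_rpow_of_nonneg (by positivity) (by norm_num), ← Real.sqrt_eq_rpow,
              Real.sqrt_sq (by positivity)]
    refine (add_le_add hfirst hn).trans ?_
    rw [← ENNReal.ofReal_add (by positivity) (by positivity)]
    simp

end Crest.Agent.R165.Relx943
end
end

-- ▼ part R165/MacC1_943
section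

/-!
# Row 165 (S0250), M3: the gradient estimate `|∇Ψ| ≤ C |A Ψ|` in the plane
-/

set_option autoImplicit false

noncomputable section

namespace Crest.Agent.R165.MacC1x943

open Filter Topology MeasureTheory
open Crest.Agent.R165.Tr1x40 hiding sq2
open Crest.Agent.R165.Tr2x40
open Crest.Agent.R165.Lim2x943 (sq2)
open Crest.Agent.R165.Relx943 (N2 dif1 dif2 N2_shift)
open Crest.Agent.R165.PotAx894 (FS lap)

/-- finitely supported field -/
def FSF (Ψ : Fld) : Prop := ∀ h, FS fun f => Ψ f h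

theorem N2_eq {u : ℤ × ℤ → ℝ} (hu : FS u) : N2 u = ENNReal.ofReal (∑' f, u f ^ 2) := by
  unfold N2 sq2
  rw [ENNReal.ofReal_tsum_of_nonneg (fun _ => sq_nonneg _) hu.sq.summable]

theorem N2_unit1 (u : ℤ × ℤ → ℝ) {α : ℤ} (hα : |α| ≤ 1) :
    N2 (fun f => u (f + (α, 0)) - u f) ≤ N2 (dif1 u) := by
  have h : α = -1 ∨ α = 0 ∨ α = 1 := by rw [abs_le] at hα; omega
  rcases h with rfl | rfl | rfl
  · rw [← N2_shift _ (1, 0)]
    have e : (fun f : ℤ × ℤ => u (f + (1, 0) + (-1, 0)) - u (f + (1, 0))) = fun f => -dif1 u f := by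
      ext f
      simp only [dif1, Lim1x943.e1, add_assoc, Prod.mk_add_mk]
      norm_num
      rw [show ((0 : ℤ), (0 : ℤ)) = (0 : ℤ × ℤ) from rfl, add_zero]
    rw [e]
    unfold N2
    simp only [Lim2x943.sq2_neg, le_refl]
  · have e : (fun f : ℤ × ℤ => u (f + (0, 0)) - u f) = fun _ => 0 := by
      ext f
      rw [show ((0 : ℤ), (0 : ℤ)) = (0 : ℤ × ℤ) from rfl, add_zero, sub_self]
    rw [e]
    simp [N2, sq2]
  · exact le_rfl

theorem N2_unit2 (u : ℤ × ℤ → ℝ) {β : ℤ} (hβ : |β| ≤ 1) :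
    N2 (fun f => u (f + (0, β)) - u f) ≤ N2 (dif2 u) := by
  have h : β = -1 ∨ β = 0 ∨ β = 1 := by rw [abs_le] at hβ; omega
  rcases h with rfl | rfl | rfl
  · rw [← N2_shift _ (0, 1)]
    have e : (fun f : ℤ × ℤ => u (f + (0, 1) + (0, -1)) - u (f + (0, 1))) = fun f => -dif2 u f := by
      ext f
      simp only [dif2, Lim1x943.e2, add_assoc, Prod.mk_add_mk]
      norm_num
      rw [show ((0 : ℤ), (0 : ℤ)) = (0 : ℤ × ℤ) from rfl, add_zero]
    rw [e]
    unfold N2
    simp only [Lim2x943.sq2_neg, le_refl]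
  · have e : (fun f : ℤ × ℤ => u (f + (0, 0)) - u f) = fun _ => 0 := by
      ext f
      rw [show ((0 : ℤ), (0 : ℤ)) = (0 : ℤ × ℤ) from rfl, add_zero, sub_self]
    rw [e]
    simp [N2, sq2]
  · exact le_rfl

theorem N2_unit (u : ℤ × ℤ → ℝ) {α β : ℤ} (hα : |α| ≤ 1) (hβ : |β| ≤ 1) :
    N2 (fun f => u (f + (α, β)) - u f) ≤ 2 * (N2 (dif1 u) + N2 (dif2 u)) := by
  have h1 := Relx943.N2_add_le (fun f => u (f + (0, β) + (α, 0)) - u (f + (0, β)))
    (fun f => u (f + (0, β)) - u f)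
  have h2 : N2 (fun f => u (f + (0, β) + (α, 0)) - u (f + (0, β)))
      = N2 (fun f => u (f + (α, 0)) - u f) :=
    N2_shift (fun f => u (f + (α, 0)) - u f) (0, β)
  rw [h2] at h1
  have e : (fun f : ℤ × ℤ => u (f + (0, β) + (α, 0)) - u (f + (0, β))
      + (u (f + (0, β)) - u f)) = fun f => u (f + (α, β)) - u f := by
    ext f
    simp [add_assoc]
  rw [e] at h1
  refine h1.trans ?_
  rw [mul_add]
  gcongr
  · exact N2_unit1 u hα
  · exact N2_unit2 u hβ

/-- the unit offsets -/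
def T : Finset (ℤ × ℤ) := Finset.Icc (-1) 1 ×ˢ Finset.Icc (-1) 1

theorem mem_T {τ : ℤ × ℤ} : τ ∈ T ↔ |τ.1| ≤ 1 ∧ |τ.2| ≤ 1 := by
  simp [T, Finset.mem_product, Finset.mem_Icc, abs_le]

/-- crude bound of the adjugate -/
theorem abs_B_le {ψ : Fld} {f : Face} {m : ℝ}
    (hm : ∀ a b : ℤ, |a| ≤ 1 → |b| ≤ 1 → ∀ k, |ψ (f.1 + a, f.2 + b) k| ≤ m) (h : Fin 4) :
    |B xc ψ f h| ≤ 16 * m := by
  have hx0 : 0 < xc := xc_pos
  have hx1 : xc < 1 / 2 := by
    have := xc_sq
    nlinarith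
  have h00 : ∀ k, |ψ f k| ≤ m := fun k => by simpa using hm 0 0 (by norm_num) (by norm_num) k
  have h10 : ∀ k, |ψ (f.1 + 1, f.2) k| ≤ m := fun k => by
    simpa using hm 1 0 (by norm_num) (by norm_num) k
  have hm0 : ∀ k, |ψ (f.1 - 1, f.2) k| ≤ m := fun k => by
    simpa [sub_eq_add_neg] using hm (-1) 0 (by norm_num) (by norm_num) k
  have h01 : ∀ k, |ψ (f.1, f.2 + 1) k| ≤ m := fun k => by
    simpa using hm 0 1 (by norm_num) (by norm_num) k
  have h0m : ∀ k, |ψ (f.1, f.2 - 1) k| ≤ m := fun k => by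
    simpa [sub_eq_add_neg] using hm 0 (-1) (by norm_num) (by norm_num) k
  have h11 : ∀ k, |ψ (f.1 + 1, f.2 + 1) k| ≤ m := fun k =>
    hm 1 1 (by norm_num) (by norm_num) k
  have h1m : ∀ k, |ψ (f.1 + 1, f.2 - 1) k| ≤ m := fun k => by
    simpa [sub_eq_add_neg] using hm 1 (-1) (by norm_num) (by norm_num) k
  have hm1 : ∀ k, |ψ (f.1 - 1, f.2 + 1) k| ≤ m := fun k => by
    simpa [sub_eq_add_neg] using hm (-1) 1 (by norm_num) (by norm_num) k
  have hmm : ∀ k, |ψ (f.1 - 1, f.2 - 1) k| ≤ m := fun k => by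
    simpa [sub_eq_add_neg] using hm (-1) (-1) (by norm_num) (by norm_num) k
  have hm' : 0 ≤ m := (abs_nonneg _).trans (h00 0)
  have mul : ∀ c t : ℝ, 0 ≤ c → c ≤ 1 → |t| ≤ m → -m ≤ c * t ∧ c * t ≤ m := by
    intro c t h0 h1 ht
    rw [abs_le] at ht
    constructor <;> nlinarith
  have c1 : (0 : ℝ) ≤ xc ∧ xc ≤ 1 := ⟨hx0.le, by linarith⟩
  have c2 : (0 : ℝ) ≤ xc ^ 2 ∧ xc ^ 2 ≤ 1 := ⟨by positivity, by nlinarith⟩
  have c3 : (0 : ℝ) ≤ xc + xc ^ 3 ∧ xc + xc ^ 3 ≤ 1 := by
    constructor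
    · positivity
    · have : xc ^ 3 ≤ 1 / 8 := by
        calc xc ^ 3 ≤ (1 / 2 : ℝ) ^ 3 := by gcongr
          _ = 1 / 8 := by norm_num
      linarith
  have c4 : (0 : ℝ) ≤ 1 - xc ^ 2 ∧ 1 - xc ^ 2 ≤ 1 := ⟨by linarith [c2.2], by linarith [c2.1]⟩
  have key : ∀ τ : Face, (∀ k, |ψ τ k| ≤ m) → ∀ k, (-m ≤ ψ τ k ∧ ψ τ k ≤ m) ∧
      (-m ≤ xc * ψ τ k ∧ xc * ψ τ k ≤ m) ∧ (-m ≤ xc ^ 2 * ψ τ k ∧ xc ^ 2 * ψ τ k ≤ m) ∧
      (-m ≤ (xc + xc ^ 3) * ψ τ k ∧ (xc + xc ^ 3) * ψ τ k ≤ m) ∧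
      (-m ≤ (1 - xc ^ 2) * ψ τ k ∧ (1 - xc ^ 2) * ψ τ k ≤ m) := by
    intro τ hτ k
    exact ⟨abs_le.1 (hτ k), mul _ _ c1.1 c1.2 (hτ k), mul _ _ c2.1 c2.2 (hτ k),
      mul _ _ c3.1 c3.2 (hτ k), mul _ _ c4.1 c4.2 (hτ k)⟩
  have k00 := key _ h00
  have k10 := key _ h10
  have km0 := key _ hm0
  have k01 := key _ h01
  have k0m := key _ h0m
  have k11 := key _ h11
  have k1m := key _ h1m
  have km1 := key _ hm1
  have kmm := key _ hmm
  rw [abs_le]
  fin_cases h
  · simp only [B]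
    obtain ⟨-, a1, -⟩ := k10 0
    obtain ⟨-, a2, -⟩ := km0 0
    obtain ⟨-, a3, -⟩ := km0 1
    obtain ⟨-, a4, -⟩ := k0m 1
    obtain ⟨-, -, a5, -⟩ := kmm 1
    obtain ⟨a6, -⟩ := k00 1
    obtain ⟨-, -, -, -, a7⟩ := k00 2
    obtain ⟨-, -, -, a8, -⟩ := k0m 2
    obtain ⟨-, -, a9, -⟩ := kmm 2
    obtain ⟨-, -, a10, -⟩ := k1m 2
    obtain ⟨-, a11, -⟩ := k10 3
    obtain ⟨-, a12, -⟩ := k0m 3
    obtain ⟨-, -, a13, -⟩ := k1m 3
    obtain ⟨a14, -⟩ := k00 3
    constructor <;> linarith [a1.1, a1.2, a2.1, a2.2, a3.1, a3.2, a4.1, a4.2, a5.1, a5.2, a6.1,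
      a6.2, a7.1, a7.2, a8.1, a8.2, a9.1, a9.2, a10.1, a10.2, a11.1, a11.2, a12.1, a12.2, a13.1,
      a13.2, a14.1, a14.2]
  · simp only [B]
    obtain ⟨a1, -⟩ := k00 0
    obtain ⟨-, a2, -⟩ := k01 0
    obtain ⟨-, a3, -⟩ := k10 0
    obtain ⟨-, -, a4, -⟩ := k11 0
    obtain ⟨-, a5, -⟩ := k01 1
    obtain ⟨-, a6, -⟩ := k0m 1
    obtain ⟨-, a7, -⟩ := k10 2
    obtain ⟨-, a8, -⟩ := k0m 2
    obtain ⟨-, -, a9, -⟩ := k1m 2
    obtain ⟨a10, -⟩ := k00 2
    obtain ⟨-, -, -, -, a11⟩ := k00 3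
    obtain ⟨-, -, -, a12, -⟩ := k10 3
    obtain ⟨-, -, a13, -⟩ := k11 3
    obtain ⟨-, -, a14, -⟩ := k1m 3
    constructor <;> linarith [a1.1, a1.2, a2.1, a2.2, a3.1, a3.2, a4.1, a4.2, a5.1, a5.2, a6.1,
      a6.2, a7.1, a7.2, a8.1, a8.2, a9.1, a9.2, a10.1, a10.2, a11.1, a11.2, a12.1, a12.2, a13.1,
      a13.2, a14.1, a14.2]
  · simp only [B]
    obtain ⟨-, -, -, -, a1⟩ := k00 0
    obtain ⟨-, -, -, a2, -⟩ := k01 0
    obtain ⟨-, -, a3, -⟩ := km1 0
    obtain ⟨-, -, a4, -⟩ := k11 0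
    obtain ⟨a5, -⟩ := k00 1
    obtain ⟨-, a6, -⟩ := km0 1
    obtain ⟨-, a7, -⟩ := k01 1
    obtain ⟨-, -, a8, -⟩ := km1 1
    obtain ⟨-, a9, -⟩ := km0 2
    obtain ⟨-, a10, -⟩ := k10 2
    obtain ⟨-, a11, -⟩ := k01 3
    obtain ⟨-, a12, -⟩ := k10 3
    obtain ⟨-, -, a13, -⟩ := k11 3
    obtain ⟨a14, -⟩ := k00 3
    constructor <;> linarith [a1.1, a1.2, a2.1, a2.2, a3.1, a3.2, a4.1, a4.2, a5.1, a5.2, a6.1,
      a6.2, a7.1, a7.2, a8.1, a8.2, a9.1, a9.2, a10.1, a10.2, a11.1, a11.2, a12.1, a12.2, a13.1,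
      a13.2, a14.1, a14.2]
  · simp only [B]
    obtain ⟨a1, -⟩ := k00 0
    obtain ⟨-, a2, -⟩ := km0 0
    obtain ⟨-, a3, -⟩ := k01 0
    obtain ⟨-, -, a4, -⟩ := km1 0
    obtain ⟨-, -, -, -, a5⟩ := k00 1
    obtain ⟨-, -, -, a6, -⟩ := km0 1
    obtain ⟨-, -, a7, -⟩ := km1 1
    obtain ⟨-, -, a8, -⟩ := kmm 1
    obtain ⟨a9, -⟩ := k00 2
    obtain ⟨-, a10, -⟩ := km0 2
    obtain ⟨-, a11, -⟩ := k0m 2
    obtain ⟨-, -, a12, -⟩ := kmm 2
    obtain ⟨-, a13, -⟩ := k0m 3
    obtain ⟨-, a14, -⟩ := k01 3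
    constructor <;> linarith [a1.1, a1.2, a2.1, a2.2, a3.1, a3.2, a4.1, a4.2, a5.1, a5.2, a6.1,
      a6.2, a7.1, a7.2, a8.1, a8.2, a9.1, a9.2, a10.1, a10.2, a11.1, a11.2, a12.1, a12.2, a13.1,
      a13.2, a14.1, a14.2]

/-- `B` only sees differences -/
theorem abs_B_le_diff (ψ : Fld) (f : Face) (h : Fin 4) :
    |B xc ψ f h| ≤ 16 * ∑ p ∈ T ×ˢ (Finset.univ : Finset (Fin 4)), |ψ (f + p.1) p.2 - ψ f p.2| := by
  have e : B xc ψ f h = B xc (fun f' k => ψ f' k - ψ f k) f h := by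
    have h1 := B_add xc (fun f' k => ψ f' k - ψ f k) (fun _ => ψ f) f h
    rw [B_const, add_zero] at h1
    rw [← h1]
    congr 1
    ext f' k
    ring
  rw [e]
  refine abs_B_le (fun a b ha hb k => ?_) h
  have := Finset.single_le_sum (f := fun p : (ℤ × ℤ) × Fin 4 => |ψ (f + p.1) p.2 - ψ f p.2|)
    (s := T ×ˢ (Finset.univ : Finset (Fin 4))) (fun _ _ => abs_nonneg _)
    (a := ((a, b), k)) (by simp [mem_T, ha, hb])
  exact this

theorem N2_B_le (ψ : Fld) (h : Fin 4) :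
    N2 (fun f => B xc ψ f h) ≤ 165888 * ∑ k, (N2 (dif1 fun f => ψ f k) + N2 (dif2 fun f => ψ f k)) := by
  have h1 : ∀ f, sq2 (B xc ψ f h) ≤ 256 * (36 * ∑ p ∈ T ×ˢ (Finset.univ : Finset (Fin 4)),
      sq2 (ψ (f + p.1) p.2 - ψ f p.2)) := by
    intro f
    have h2 := abs_B_le_diff ψ f h
    have h3 := Relx943.sq2_sum_le (T ×ˢ (Finset.univ : Finset (Fin 4)))
      fun p => |ψ (f + p.1) p.2 - ψ f p.2|
    have hcard : ((T ×ˢ (Finset.univ : Finset (Fin 4))).card : ENNReal) = 36 := by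
      have : (T ×ˢ (Finset.univ : Finset (Fin 4))).card = 36 := by
        simp [T]
      rw [this]; norm_num
    rw [hcard] at h3
    have h4 : sq2 (B xc ψ f h) ≤ sq2 (16 * ∑ p ∈ T ×ˢ (Finset.univ : Finset (Fin 4)),
        |ψ (f + p.1) p.2 - ψ f p.2|) := Lim2x943.sq2_le_of_abs_le h2
    rw [Relx943.sq2_mul] at h4
    have h5 : sq2 16 = 256 := by
      unfold sq2; norm_num
    rw [h5] at h4
    refine h4.trans ?_
    gcongr
    refine h3.trans ?_
    gcongr with p hp
    unfold sq2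
    rw [sq_abs]
  calc N2 (fun f => B xc ψ f h) ≤ ∑' f, 256 * (36 * ∑ p ∈ T ×ˢ (Finset.univ : Finset (Fin 4)),
        sq2 (ψ (f + p.1) p.2 - ψ f p.2)) := ENNReal.tsum_le_tsum h1
    _ = 256 * (36 * ∑ p ∈ T ×ˢ (Finset.univ : Finset (Fin 4)),
        N2 (fun f => ψ (f + p.1) p.2 - ψ f p.2)) := by
        rw [ENNReal.tsum_mul_left, ENNReal.tsum_mul_left]
        unfold N2
        rw [Summable.tsum_finsetSum fun _ _ => ENNReal.summable]
    _ ≤ 256 * (36 * ∑ p ∈ T ×ˢ (Finset.univ : Finset (Fin 4)),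
        2 * (N2 (dif1 fun f => ψ f p.2) + N2 (dif2 fun f => ψ f p.2))) := by
        gcongr with p hp
        rw [Finset.mem_product, mem_T] at hp
        exact N2_unit (fun f => ψ f p.2) hp.1.1 hp.1.2
    _ = 165888 * ∑ k, (N2 (dif1 fun f => ψ f k) + N2 (dif2 fun f => ψ f k)) := by
        rw [Finset.sum_product]
        have hc : (T.card : ENNReal) = 9 := by
          have : T.card = 9 := by simp [T]
          rw [this]; norm_num
        simp only [Finset.sum_const, nsmul_eq_mul, hc, ← Finset.mul_sum]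
        ring

/-- total energy of a field -/
def EN (ψ : Fld) : ENNReal := ∑ k, (N2 (dif1 fun f => ψ f k) + N2 (dif2 fun f => ψ f k))

theorem exists_Q (S : Finset Face) : ∃ N : ℕ, ∀ f ∈ S, f ∈ PotAx894.Q 0 N := by
  classical
  refine ⟨S.sup fun f => f.1.natAbs + f.2.natAbs, fun f hf => ?_⟩
  have h := Finset.le_sup (f := fun f : Face => f.1.natAbs + f.2.natAbs) hf
  rw [PotAx894.mem_Q]
  simp only [Prod.fst_zero, sub_zero, Prod.snd_zero, Int.abs_eq_natAbs]
  constructor <;> omega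

theorem FSF.exists_Q {Ψ : Fld} (hΨ : FSF Ψ) : ∃ N : ℕ, ∀ f, f ∉ PotAx894.Q 0 N → ∀ h, Ψ f h = 0 := by
  classical
  have hfin : (⋃ h, Function.support fun f => Ψ f h).Finite := Set.finite_iUnion fun h => hΨ h
  obtain ⟨N, hN⟩ := MacC1x943.exists_Q hfin.toFinset
  refine ⟨N, fun f hf h => ?_⟩
  by_contra hc
  exact hf (hN f (by rw [Set.Finite.mem_toFinset]; exact Set.mem_iUnion.2 ⟨h, hc⟩))

theorem Lap_eq (ψ : Fld) (f : Face) (h : Fin 4) : Lap ψ f h = -lap (fun f => ψ f h) f := by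
  obtain ⟨i, j⟩ := f
  simp [Lap, lap, PotAx894.e1, PotAx894.e2]

/-- energy of a finitely supported field, real version -/
def ER (ψ : Fld) : ℝ :=
  ∑ k, ∑' f, (PotAx894.D1 (fun f => ψ f k) f ^ 2 + PotAx894.D2 (fun f => ψ f k) f ^ 2)

theorem EN_eq {ψ : Fld} (hψ : FSF ψ) : EN ψ = ENNReal.ofReal (ER ψ) := by
  unfold EN ER
  rw [ENNReal.ofReal_sum_of_nonneg fun k _ => tsum_nonneg fun f => by positivity]
  refine Finset.sum_congr rfl fun k _ => ?_
  rw [show dif1 (fun f => ψ f k) = PotAx894.D1 (fun f => ψ f k) from rfl,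
    show dif2 (fun f => ψ f k) = PotAx894.D2 (fun f => ψ f k) from rfl, N2_eq (hψ k).D1,
    N2_eq (hψ k).D2, ← ENNReal.ofReal_add (tsum_nonneg fun _ => sq_nonneg _)
      (tsum_nonneg fun _ => sq_nonneg _), ← (hψ k).D1.sq.summable.tsum_add (hψ k).D2.sq.summable]

theorem ER_nonneg (ψ : Fld) : 0 ≤ ER ψ :=
  Finset.sum_nonneg fun _ _ => tsum_nonneg fun _ => by positivity

theorem energy_eq {ψ : Fld} (hψ : FSF ψ) {K : Finset Face} (hK : ∀ f, f ∉ K → ∀ h, ψ f h = 0) :
    ∑ f ∈ K, ∑ h, ψ f h * Lap ψ f h = ER ψ := by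
  rw [Finset.sum_comm]
  unfold ER
  refine Finset.sum_congr rfl fun h _ => ?_
  have h1 := PotAx894.tsum_mul_lap (hψ h) fun f => ψ f h
  rw [tsum_eq_sum (s := K) (fun f hf => by rw [hK f hf h, zero_mul])] at h1
  have h2 : ∑ f ∈ K, ψ f h * Lap ψ f h = -∑ f ∈ K, ψ f h * lap (fun f => ψ f h) f := by
    rw [← Finset.sum_neg_distrib]
    exact Finset.sum_congr rfl fun f _ => by rw [Lap_eq]; ring
  rw [h2, h1, neg_neg]
  exact tsum_congr fun f => by ring

theorem ofReal_sum_sq_le (ψ : Fld) (K : Finset Face) :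
    ENNReal.ofReal (∑ f ∈ K, ∑ h, ψ f h ^ 2) ≤ ∑ h, N2 fun f => ψ f h := by
  rw [Finset.sum_comm, ENNReal.ofReal_sum_of_nonneg fun _ _ => Finset.sum_nonneg fun _ _ =>
    sq_nonneg _]
  refine Finset.sum_le_sum fun h _ => ?_
  rw [ENNReal.ofReal_sum_of_nonneg fun _ _ => sq_nonneg _]
  exact ENNReal.sum_le_tsum (f := fun f => sq2 (ψ f h)) K

/-- the constant of the gradient estimate -/
def CG : ℝ := 663552 / c0 ^ 2

theorem CG_pos : 0 < CG := by unfold CG; have := c0_pos; positivity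

/-- **gradient estimate** in the plane -/
theorem grad_le {Ψ : Fld} (hΨ : FSF Ψ) :
    EN Ψ ≤ ENNReal.ofReal CG * ∑ h, N2 fun f => A (cst xc) Ψ f h := by
  obtain ⟨N, hN⟩ := hΨ.exists_Q
  set K := PotAx894.Q 0 (N + 1) with hK
  have hK0 : ∀ f, f ∉ K → ∀ h, Ψ f h = 0 := fun f hf h =>
    hN f (fun hc => hf (PotAx894.Q_mono (Nat.le_succ N) hc)) h
  have hK1 : ∀ f, f ∉ K → ∀ h, cst xc f h * Ψ (nb f h) (op h) = 0 := by
    intro f hf h
    rw [hN (nb f h) (fun hc => hf ?_), mul_zero]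
    rw [hK]
    rw [PotAx894.mem_Q] at hc ⊢
    simp only [Prod.fst_zero, sub_zero, Prod.snd_zero, abs_le] at hc ⊢
    push_cast
    fin_cases h <;> simp only [nb] at hc <;> constructor <;> constructor <;> omega
  have h1 := A_antisymm (sym_cst xc) Ψ (B xc Ψ) K hK0 hK1
  have h2 : ∑ f ∈ K, ∑ h, Ψ f h * A (cst xc) (B xc Ψ) f h = c0 * ER Ψ := by
    rw [← energy_eq hΨ hK0, Finset.mul_sum]
    refine Finset.sum_congr rfl fun f _ => ?_
    rw [Finset.mul_sum]
    exact Finset.sum_congr rfl fun h _ => by rw [A_B_xc]; ring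
  rw [h2] at h1
  set X : ℝ := ∑ f ∈ K, ∑ h, A (cst xc) Ψ f h ^ 2 with hX
  set Y : ℝ := ∑ f ∈ K, ∑ h, B xc Ψ f h ^ 2 with hY
  have hX0 : 0 ≤ X := Finset.sum_nonneg fun _ _ => Finset.sum_nonneg fun _ _ => sq_nonneg _
  have hY0 : 0 ≤ Y := Finset.sum_nonneg fun _ _ => Finset.sum_nonneg fun _ _ => sq_nonneg _
  have h3 : (c0 * ER Ψ) ^ 2 ≤ X * Y := by
    rw [h1, neg_sq, hX, hY, ← Finset.sum_product', ← Finset.sum_product', ← Finset.sum_product']
    exact Finset.sum_mul_sq_le_sq_mul_sq _ _ _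
  have h4 : Y ≤ 663552 * ER Ψ := by
    have h5 := ofReal_sum_sq_le (B xc Ψ) K
    have h6 : ∑ h, N2 (fun f => B xc Ψ f h) ≤ ENNReal.ofReal (663552 * ER Ψ) := by
      calc ∑ h, N2 (fun f => B xc Ψ f h) ≤ ∑ h : Fin 4, 165888 * EN Ψ :=
            Finset.sum_le_sum fun h _ => N2_B_le Ψ h
        _ = 663552 * EN Ψ := by
            rw [Finset.sum_const, Finset.card_univ, Fintype.card_fin, nsmul_eq_mul]
            norm_num
            rw [← mul_assoc]
            norm_num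
        _ = ENNReal.ofReal (663552 * ER Ψ) := by
            rw [EN_eq hΨ, ENNReal.ofReal_mul (by norm_num)]
            norm_num
    exact (ENNReal.ofReal_le_ofReal_iff (mul_nonneg (by norm_num) (ER_nonneg Ψ))).1 (h5.trans h6)
  have h7 : ER Ψ ≤ CG * X := by
    have hE := ER_nonneg Ψ
    have hc := c0_pos
    rcases hE.eq_or_lt with h0 | h0
    · rw [← h0]; exact mul_nonneg CG_pos.le hX0
    · have h8 : c0 ^ 2 * ER Ψ ^ 2 ≤ X * (663552 * ER Ψ) := by
        calc c0 ^ 2 * ER Ψ ^ 2 = (c0 * ER Ψ) ^ 2 := by ring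
          _ ≤ X * Y := h3
          _ ≤ X * (663552 * ER Ψ) := by gcongr
      have h9 : c0 ^ 2 * ER Ψ ≤ 663552 * X := by
        have : (c0 ^ 2 * ER Ψ) * ER Ψ ≤ (663552 * X) * ER Ψ := by nlinarith
        exact le_of_mul_le_mul_right this h0
      rw [CG, div_mul_eq_mul_div, le_div_iff₀ (by positivity)]
      linarith
  rw [EN_eq hΨ]
  calc ENNReal.ofReal (ER Ψ) ≤ ENNReal.ofReal (CG * X) := ENNReal.ofReal_le_ofReal h7
    _ = ENNReal.ofReal CG * ENNReal.ofReal X := ENNReal.ofReal_mul CG_pos.le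
    _ ≤ _ := by
      gcongr
      exact ofReal_sum_sq_le (A (cst xc) Ψ) K

end Crest.Agent.R165.MacC1x943
end
end

-- ▼ part R165/MacC2_943
section

/-!
# Row 165 (S0250), M3: local strong compactness with sources
-/

set_option autoImplicit false

noncomputable section

namespace Crest.Agent.R165.MacC2x943

open Filter Topology MeasureTheory
open Crest.ProbabilityR.IsingModel
open Crest.Agent.R165.Tr1x40 hiding sq2
open Crest.Agent.R165.Tr2x40
open Crest.Agent.R165.RIfx891 (lv)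
open Crest.Agent.R165.Mac0x622 Crest.Agent.R165.Mac1x622
open Crest.Agent.R165.Lim2x943 (sq2)
open Crest.Agent.R165.Relx943 (N2 dif1 dif2 N2_shift)
open Crest.Agent.R165.PotAx894 (FS lap)
open Crest.Agent.R165.Embx622 (emb)
open Crest.Agent.R165.MacC1x943

theorem N2_le_of_finset {a C : ℝ} {u : Face → ℝ}
    (h : ∀ S : Finset Face, a ^ 2 * ∑ f ∈ S, u f ^ 2 ≤ C) :
    ENNReal.ofReal (a ^ 2) * N2 u ≤ ENNReal.ofReal C := by
  unfold N2
  rw [← ENNReal.tsum_mul_left, ENNReal.tsum_eq_iSup_sum]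
  refine iSup_le fun S => ?_
  rw [← Finset.mul_sum]
  unfold sq2
  rw [← ENNReal.ofReal_sum_of_nonneg fun _ _ => sq_nonneg _, ← ENNReal.ofReal_mul (sq_nonneg a)]
  exact ENNReal.ofReal_le_ofReal (h S)

theorem N2_le_of_nsq {a C : ℝ} {φ : Fld}
    (h : ∀ S : Finset Face, a ^ 2 * ∑ f ∈ S, nsq (φ f) ≤ C) (k : Fin 4) :
    ENNReal.ofReal (a ^ 2) * N2 (fun f => φ f k) ≤ ENNReal.ofReal C := by
  refine N2_le_of_finset fun S => le_trans ?_ (h S)
  gcongr with f hf
  exact Finset.single_le_sum (f := fun b => φ f b ^ 2) (fun _ _ => sq_nonneg _)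
    (Finset.mem_univ k)

/-- offsets of the neighbours -/
def off (h : Fin 4) : ℤ × ℤ :=
  match h with
  | 0 => (0, -1)
  | 1 => (1, 0)
  | 2 => (0, 1)
  | 3 => (-1, 0)

theorem nb_eq (f : Face) (h : Fin 4) : nb f h = f + off h := by
  obtain ⟨i, j⟩ := f
  fin_cases h <;> simp [nb, off, sub_eq_add_neg]

theorem N2_nb (u : Face → ℝ) (h : Fin 4) : N2 (fun f => u (nb f h)) = N2 u := by
  simp_rw [nb_eq]
  exact N2_shift u (off h)

theorem N2_mono {u v : Face → ℝ} (h : ∀ f, |u f| ≤ |v f|) : N2 u ≤ N2 v := by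
  refine ENNReal.tsum_le_tsum fun f => ?_
  have := Lim2x943.sq2_le_of_abs_le (h f)
  unfold sq2 at this ⊢
  rwa [sq_abs] at this

/-- the cut-off -/
def cut (z₀ : ℂ) (ρ : ℝ) (z : ℂ) : ℝ := max 0 (min 1 (2 - 3 * ‖z - z₀‖ / ρ))

theorem cut_nonneg (z₀ : ℂ) (ρ : ℝ) (z : ℂ) : 0 ≤ cut z₀ ρ z := le_max_left _ _

theorem cut_le_one (z₀ : ℂ) (ρ : ℝ) (z : ℂ) : cut z₀ ρ z ≤ 1 :=
  max_le zero_le_one (min_le_left _ _)

theorem cut_one {z₀ : ℂ} {ρ : ℝ} (hρ : 0 < ρ) {z : ℂ} (h : ‖z - z₀‖ ≤ ρ / 3) : cut z₀ ρ z = 1 := by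
  unfold cut
  have : 3 * ‖z - z₀‖ / ρ ≤ 1 := by rw [div_le_one hρ]; linarith
  rw [min_eq_left (by linarith), max_eq_right zero_le_one]

theorem cut_zero {z₀ : ℂ} {ρ : ℝ} (hρ : 0 < ρ) {z : ℂ} (h : 2 * ρ / 3 ≤ ‖z - z₀‖) :
    cut z₀ ρ z = 0 := by
  unfold cut
  have : 2 ≤ 3 * ‖z - z₀‖ / ρ := by rw [le_div_iff₀ hρ]; linarith
  rw [max_eq_left]
  exact (min_le_right _ _).trans (by linarith)

theorem cut_lip {z₀ : ℂ} {ρ : ℝ} (hρ : 0 < ρ) (z w : ℂ) :
    |cut z₀ ρ z - cut z₀ ρ w| ≤ 3 / ρ * ‖z - w‖ := by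
  have h1 : |‖z - z₀‖ - ‖w - z₀‖| ≤ ‖z - w‖ := by
    have := abs_norm_sub_norm_le (z - z₀) (w - z₀)
    rwa [sub_sub_sub_cancel_right] at this
  have h2 : |(2 - 3 * ‖z - z₀‖ / ρ) - (2 - 3 * ‖w - z₀‖ / ρ)| ≤ 3 / ρ * ‖z - w‖ := by
    have : (2 - 3 * ‖z - z₀‖ / ρ) - (2 - 3 * ‖w - z₀‖ / ρ) = -(3 / ρ * (‖z - z₀‖ - ‖w - z₀‖)) := by
      ring
    rw [this, abs_neg, abs_mul, abs_of_pos (by positivity : 0 < 3 / ρ)]
    gcongr
  unfold cut
  refine (abs_max_sub_max_le_max _ _ _ _).trans (max_le ?_ ?_)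
  · simp; positivity
  · refine (abs_min_sub_min_le_max _ _ _ _).trans (max_le ?_ h2)
    simp; positivity

theorem norm_mesh_nb {a : ℝ} (ha : 0 < a) (f : Face) (h : Fin 4) :
    ‖meshPoint a (nb f h) - meshPoint a f‖ ≤ 2 * a := by
  rw [nb_eq]
  fin_cases h
  · exact mesh_add_sub ha f (b := 0) (c := -1) (by norm_num) (by norm_num)
  · exact mesh_add_sub ha f (b := 1) (c := 0) (by norm_num) (by norm_num)
  · exact mesh_add_sub ha f (b := 0) (c := 1) (by norm_num) (by norm_num)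
  · exact mesh_add_sub ha f (b := -1) (c := 0) (by norm_num) (by norm_num)

/-- the localised gauged field -/
def loc {n : ℕ} (x : Fin n → ℂ) (z₀ : ℂ) (ρ a : ℝ) (V : Fin n → Face) (φ : Fld) : Fld :=
  fun f h => cut z₀ ρ (meshPoint a f) * (gz x z₀ V f * φ f h)

theorem abs_loc_le {n : ℕ} (x : Fin n → ℂ) (z₀ : ℂ) (ρ a : ℝ) (V : Fin n → Face) (φ : Fld)
    (f : Face) (h : Fin 4) : |loc x z₀ ρ a V φ f h| ≤ |φ f h| := by
  unfold loc
  rw [abs_mul, abs_mul, gz_abs, one_mul, abs_of_nonneg (cut_nonneg _ _ _)]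
  have := cut_le_one z₀ ρ (meshPoint a f)
  have h2 := abs_nonneg (φ f h)
  nlinarith

/-- pointwise bound of `A` on the localised field -/
theorem A_loc_le {n : ℕ} {x : Fin n → ℂ} {z₀ : ℂ} {ρ a : ℝ} (hρ : 0 < ρ) (ha : 0 < a)
    (haρ : 6 * a ≤ ρ) {V : Fin n → Face} {w φ g : Fld}
    (hw : ∀ f : Face, ‖meshPoint a f - z₀‖ < ρ → ∀ h,
      w f h = xc * (gz x z₀ V f * gz x z₀ V (nb f h)))
    (heq : ∀ f h, A w φ f h = a * g f h) (f : Face) (h : Fin 4) :
    |A (cst xc) (loc x z₀ ρ a V φ) f h| ≤ a * |g f h| + 6 / ρ * a * |φ (nb f h) (op h)| := by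
  have hnb := norm_mesh_nb ha f h
  have hrhs : 0 ≤ a * |g f h| + 6 / ρ * a * |φ (nb f h) (op h)| := by positivity
  have e := A_cut (cst xc) (fun f => cut z₀ ρ (meshPoint a f)) (fun f h => gz x z₀ V f * φ f h) f h
  change A (cst xc) (loc x z₀ ρ a V φ) f h = _ at e
  rw [e]
  by_cases hf : ‖meshPoint a f - z₀‖ < ρ
  · have h1 : A (cst xc) (fun f h => gz x z₀ V f * φ f h) f h = gz x z₀ V f * (a * g f h) := by
      rw [← heq, ← A_gauge (gz x z₀ V) w φ f h (gz_sq _ _ _ _)]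
      apply A_congr
      simp only [cst, gw]
      rw [hw f hf h]
      have h1 := gz_sq x z₀ V f
      have h2 := gz_sq x z₀ V (nb f h)
      linear_combination (-xc * gz x z₀ V (nb f h) ^ 2) * h1 - xc * h2
    rw [h1]
    have h2 : |cut z₀ ρ (meshPoint a f) * (gz x z₀ V f * (a * g f h))| ≤ a * |g f h| := by
      rw [abs_mul, abs_mul, gz_abs, one_mul, abs_mul, abs_of_pos ha,
        abs_of_nonneg (cut_nonneg _ _ _)]
      have := cut_le_one z₀ ρ (meshPoint a f)
      have h2 : 0 ≤ a * |g f h| := by positivity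
      nlinarith
    have h3 : |sg h * cst xc f h * ((cut z₀ ρ (meshPoint a (nb f h)) - cut z₀ ρ (meshPoint a f)) *
        (gz x z₀ V (nb f h) * φ (nb f h) (op h)))| ≤ 6 / ρ * a * |φ (nb f h) (op h)| := by
      rw [abs_mul, abs_mul, abs_mul, abs_mul (gz x z₀ V (nb f h)), gz_abs, one_mul]
      have hs : |sg h| = 1 := by fin_cases h <;> simp [sg]
      have hx : |cst xc f h| ≤ 1 := by
        unfold cst
        rw [abs_of_pos xc_pos]
        have := xc_sq
        have := xc_pos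
        nlinarith
      have hc := cut_lip (z₀ := z₀) hρ (meshPoint a (nb f h)) (meshPoint a f)
      have hc2 : |cut z₀ ρ (meshPoint a (nb f h)) - cut z₀ ρ (meshPoint a f)| ≤ 6 / ρ * a := by
        refine hc.trans ?_
        calc 3 / ρ * ‖meshPoint a (nb f h) - meshPoint a f‖ ≤ 3 / ρ * (2 * a) := by gcongr
          _ = 6 / ρ * a := by ring
      rw [hs, one_mul]
      calc |cst xc f h| * (|cut z₀ ρ (meshPoint a (nb f h)) - cut z₀ ρ (meshPoint a f)| *
            |φ (nb f h) (op h)|)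
          ≤ 1 * (6 / ρ * a * |φ (nb f h) (op h)|) := by gcongr
        _ = _ := one_mul _
    exact (abs_add_le _ _).trans (add_le_add h2 h3)
  · push Not at hf
    have hc1 : cut z₀ ρ (meshPoint a f) = 0 := cut_zero hρ (by linarith)
    have hc2 : cut z₀ ρ (meshPoint a (nb f h)) = 0 := by
      refine cut_zero hρ ?_
      have h1 : ‖meshPoint a f - z₀‖ ≤ ‖meshPoint a (nb f h) - z₀‖
          + ‖meshPoint a (nb f h) - meshPoint a f‖ := by
        have := norm_sub_le (meshPoint a (nb f h) - z₀) (meshPoint a (nb f h) - meshPoint a f)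
        rw [sub_sub_sub_cancel_left] at this
        have e2 : meshPoint a f - z₀ = (meshPoint a (nb f h) - z₀)
          - (meshPoint a (nb f h) - meshPoint a f) := by ring
        rw [e2]
        exact norm_sub_le _ _
      linarith
    rw [hc1, hc2]
    simpa using hrhs

/-- `l²` bound of `A` on the localised field -/
theorem N2_A_loc {n : ℕ} {x : Fin n → ℂ} {z₀ : ℂ} {ρ a : ℝ} (hρ : 0 < ρ) (ha : 0 < a)
    (haρ : 6 * a ≤ ρ) {V : Fin n → Face} {w φ g : Fld}
    (hw : ∀ f : Face, ‖meshPoint a f - z₀‖ < ρ → ∀ h,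
      w f h = xc * (gz x z₀ V f * gz x z₀ V (nb f h)))
    (heq : ∀ f h, A w φ f h = a * g f h) (h : Fin 4) :
    N2 (fun f => A (cst xc) (loc x z₀ ρ a V φ) f h) ≤
      2 * (ENNReal.ofReal (a ^ 2) * N2 fun f => g f h) +
      2 * (ENNReal.ofReal ((6 / ρ) ^ 2) * (ENNReal.ofReal (a ^ 2) * N2 fun f => φ f (op h))) := by
  have h1 : N2 (fun f => A (cst xc) (loc x z₀ ρ a V φ) f h) ≤
      N2 (fun f => a * |g f h| + 6 / ρ * a * |φ (nb f h) (op h)|) := by
    refine N2_mono fun f => ?_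
    rw [abs_of_nonneg (by positivity : 0 ≤ a * |g f h| + 6 / ρ * a * |φ (nb f h) (op h)|)]
    exact A_loc_le hρ ha haρ hw heq f h
  refine h1.trans ((Relx943.N2_add_le _ _).trans ?_)
  have habs : ∀ u : Face → ℝ, N2 (fun f => |u f|) = N2 u := by
    intro u
    unfold N2 sq2
    simp only [sq_abs]
  have e1 : N2 (fun f => a * |g f h|) = ENNReal.ofReal (a ^ 2) * N2 fun f => g f h := by
    rw [Relx943.N2_mul_left, habs fun f => g f h]
    rfl
  have e2 : N2 (fun f => 6 / ρ * a * |φ (nb f h) (op h)|)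
      = ENNReal.ofReal ((6 / ρ) ^ 2) * (ENNReal.ofReal (a ^ 2) * N2 fun f => φ f (op h)) := by
    rw [Relx943.N2_mul_left (6 / ρ * a) fun f => |φ (nb f h) (op h)|,
      habs fun f => φ (nb f h) (op h), N2_nb (fun f => φ f (op h)) h]
    unfold sq2
    rw [mul_pow, ENNReal.ofReal_mul (sq_nonneg _), mul_assoc]
  rw [e1, e2]

end Crest.Agent.R165.MacC2x943
end
private theorem rz_72e2906066 : type_of% @_root_.Crest.Agent.R165.MacC2x943.off.eq_1 := @_root_.Crest.Agent.R165.MacC2x943.off.eq_1 -- L46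
end

-- ▼ part R165/MacC3_943
section

/-!
# Row 165 (S0250), M3: local strong limit

`local_lim` : on a small ball of `O` the fields `emb φ_k` converge strongly in `L²`, along every
ultrafilter.
-/

set_option autoImplicit false

noncomputable section

namespace Crest.Agent.R165.MacC3x943

open Filter Topology MeasureTheory Metric
open Crest.ProbabilityR.IsingModel
open Crest.Agent.R165.Tr1x40 hiding sq2
open Crest.Agent.R165.Tr2x40
open Crest.Agent.R165.RIfx891 (lv)
open Crest.Agent.R165.Mac0x622 Crest.Agent.R165.Mac1x622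
open Crest.Agent.R165.MacIx610 (Bdd)
open Crest.Agent.R165.Lim2x943 (sq2)
open Crest.Agent.R165.Relx943 (N2 dif1 dif2 N2_shift)
open Crest.Agent.R165.PotAx894 (FS lap)
open Crest.Agent.R165.Embx622 (emb)
open Crest.Agent.R165.MacC1x943 Crest.Agent.R165.MacC2x943

/-- `L²` seminorm -/
def E (μ : Measure ℂ) (f : ℂ → ℝ) : ENNReal := eLpNorm f 2 μ

theorem E_sq (μ : Measure ℂ) (f : ℂ → ℝ) : E μ f = (∫⁻ z, sq2 (f z) ∂μ) ^ (1 / 2 : ℝ) := by
  unfold E
  rw [eLpNorm_eq_lintegral_rpow_enorm_toReal (by norm_num) (by norm_num)]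
  simp only [Lim2x943.sq2_eq_enorm, ENNReal.toReal_ofNat]

theorem E_pow (μ : Measure ℂ) (f : ℂ → ℝ) : E μ f ^ 2 = ∫⁻ z, sq2 (f z) ∂μ := by
  rw [E_sq, ← ENNReal.rpow_natCast, ← ENNReal.rpow_mul]
  norm_num

theorem E_tendsto_zero {ι : Type*} {U : Filter ι} {μ : Measure ℂ} {g : ι → ℂ → ℝ} :
    Tendsto (fun n => E μ (g n)) U (𝓝 0) ↔ Tendsto (fun n => ∫⁻ z, sq2 (g n z) ∂μ) U (𝓝 0) := by
  constructor
  · intro h
    have := (ENNReal.continuous_pow 2).tendsto (0 : ENNReal)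
    have h2 := this.comp h
    simp only [ne_eq, OfNat.ofNat_ne_zero, not_false_eq_true, zero_pow] at h2
    refine h2.congr fun n => ?_
    simp only [Function.comp, E_pow]
  · intro h
    have := ((ENNReal.continuous_rpow_const (y := (1 / 2 : ℝ))).tendsto 0).comp h
    rw [ENNReal.zero_rpow_of_pos (by norm_num)] at this
    refine this.congr fun n => ?_
    simp only [Function.comp, E_sq]

theorem memLp_emb {a : ℝ} (ha : 0 < a) {u : Face → ℝ} (hu : FS u) : MemLp (emb a u) 2 := by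
  rw [memLp_two_iff_integrable_sq (Embx622.emb_measurable a u).aestronglyMeasurable]
  have h := Embx622.integrable_emb (F := ℝ) ha (g := fun f => u f ^ 2) (by
    have : Summable fun f => ‖u f ^ 2‖ := by
      refine summable_of_hasFiniteSupport ?_
      refine hu.subset fun f hf => ?_
      simp only [Function.mem_support, ne_eq, norm_eq_zero, pow_eq_zero_iff, OfNat.ofNat_ne_zero,
        not_false_eq_true] at hf ⊢
      exact hf
    exact this)
  exact h

theorem measurable_gc {n : ℕ} (x : Fin n → ℂ) (z : ℂ) : Measurable (gc x z) := by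
  classical
  have e : gc x z = fun u => ∏ i, (if rel (x i) z ∧ (x i).im < u.im then (-1 : ℝ) else 1) := by
    funext u; unfold gc; rfl
  rw [e]
  refine Finset.measurable_prod _ fun i _ => ?_
  refine Measurable.ite ?_ measurable_const measurable_const
  by_cases h : rel (x i) z
  · simp only [h, true_and]
    exact measurableSet_lt measurable_const Complex.measurable_im
  · simp [h]

theorem loc_FSF {n : ℕ} (x : Fin n → ℂ) (z₀ : ℂ) {ρ a : ℝ} (hρ : 0 < ρ) (ha : 0 < a)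
    (V : Fin n → Face) (φ : Fld) : FSF (loc x z₀ ρ a V φ) := by
  intro h
  refine FS.of_finset (MacNCx917.disc a (‖z₀‖ + ρ)) fun f hf => ?_
  rw [MacNCx917.mem_disc ha, not_lt] at hf
  unfold loc
  rw [cut_zero hρ, zero_mul]
  have h1 : ‖meshPoint a f‖ ≤ ‖meshPoint a f - z₀‖ + ‖z₀‖ := by
    have := norm_add_le (meshPoint a f - z₀) z₀
    rwa [sub_add_cancel] at this
  linarith

/-- the gauge error tends to zero -/
theorem gauge_err {n : ℕ} {x : Fin n → ℂ} {a : ℕ → ℝ} (hpos : ∀ k, 0 < a k)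
    (hlim : Tendsto a atTop (𝓝 0)) {V : ℕ → Fin n → Face}
    (tip : ∀ i, Tendsto (fun k => meshPoint (a k) (V k i)) atTop (𝓝 (x i))) (z : ℂ) {B : Set ℂ}
    {F : ℂ → ℝ} (hF : MemLp F 2 (volume.restrict B)) :
    Tendsto (fun k => E (volume.restrict B)
      (fun u => (emb (a k) (gz x z (V k)) u - gc x z u) * F u)) atTop (𝓝 0) := by
  rw [E_tendsto_zero]
  have h0 : (0 : ENNReal) = ∫⁻ u in B, (0 : ENNReal) := by simp
  rw [h0]
  have hFi : (∫⁻ u in B, sq2 (F u)) ≠ ⊤ := by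
    rw [← E_pow]
    exact ENNReal.pow_ne_top hF.2.ne
  refine tendsto_lintegral_of_dominated_convergence' (fun u => sq2 2 * sq2 (F u))
    (fun k => ?_) (fun k => ?_) ?_ ?_
  · have h1 : AEMeasurable F (volume.restrict B) := hF.1.aemeasurable
    exact (((((Embx622.emb_measurable _ _).sub (measurable_gc x z)).aemeasurable).mul h1).pow_const
      2).ennreal_ofReal
  · refine Eventually.of_forall fun u => ?_
    change sq2 ((emb (a k) (gz x z (V k)) u - gc x z u) * F u) ≤ sq2 2 * sq2 (F u)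
    rw [← Relx943.sq2_mul]
    refine Lim2x943.sq2_le_of_abs_le ?_ |>.trans (le_of_eq (?_ : sq2 |2 * F u| = _))
    · rw [abs_mul, abs_mul]
      have h1 : |emb (a k) (gz x z (V k)) u| = 1 := gz_abs _ _ _ _
      have h2 := gc_abs x z u
      have h3 : |emb (a k) (gz x z (V k)) u - gc x z u| ≤ |(2 : ℝ)| := by
        calc |emb (a k) (gz x z (V k)) u - gc x z u|
            ≤ |emb (a k) (gz x z (V k)) u| + |gc x z u| := abs_sub _ _
          _ = |2| := by rw [h1, h2]; norm_num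
      exact mul_le_mul_of_nonneg_right h3 (abs_nonneg _)
    · unfold sq2; rw [sq_abs]
  · rw [lintegral_const_mul']
    · exact ENNReal.mul_ne_top ENNReal.ofReal_ne_top hFi
    · exact ENNReal.ofReal_ne_top
  · filter_upwards [ae_im_ne x B] with u hu
    refine tendsto_const_nhds.congr' ?_
    filter_upwards [gz_tendsto hpos hlim tip z hu] with k hk
    have : emb (a k) (gz x z (V k)) u = gc x z u := hk
    rw [this]; simp [sq2]

/-- **local strong limit** -/
theorem local_lim {O : Set ℂ} {n : ℕ} {x : Fin n → ℂ} {a : ℕ → ℝ} {w : ℕ → Fld}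
    {V : ℕ → Fin n → Face} (H : OmSeq O x a w V) (hO : IsOpen O) (hx : ∀ i, x i ∉ O)
    {g φ : ℕ → Fld} (hg : Bdd a g) (hφ : Bdd a φ)
    (heq : ∀ k f h, A (w k) (φ k) f h = a k * g k f h)
    (U : Ultrafilter ℕ) (hU : (U : Filter ℕ) ≤ atTop) {z₀ : ℂ} (hz : z₀ ∈ O) :
    ∃ ρ > 0, ∀ h, ∃ Φ : ℂ → ℝ, MemLp Φ 2 (volume.restrict (ball z₀ ρ)) ∧
      Tendsto (fun k => E (volume.restrict (ball z₀ ρ))
        (fun z => emb (a k) (fun f => φ k f h) z - Φ z)) U (𝓝 0) := by
  obtain ⟨ρ, hρ, -, hw⟩ := weights_gauge H hO hx hz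
  obtain ⟨Cg, hCg⟩ := hg
  obtain ⟨Cf, hCf⟩ := hφ
  have hCg0 : 0 ≤ Cg := by
    obtain ⟨k, hk⟩ := hCg.exists
    simpa using hk ∅
  have hCf0 : 0 ≤ Cf := by
    obtain ⟨k, hk⟩ := hCf.exists
    simpa using hk ∅
  have hsmall : ∀ᶠ k in atTop, 24 * a k ≤ ρ := by
    have := H.lim.eventually (eventually_le_nhds (show (0 : ℝ) < ρ / 24 by positivity))
    filter_upwards [this] with k hk
    linarith
  refine ⟨ρ / 4, by positivity, fun h => ?_⟩
  set u : ℕ → Face → ℝ := fun k f => loc x z₀ ρ (a k) (V k) (φ k) f h with hu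
  have hFSF : ∀ k, FSF (loc x z₀ ρ (a k) (V k) (φ k)) := fun k => loc_FSF x z₀ hρ (H.pos k) _ _
  set M1 : ℝ := CG * (4 * (2 * Cg + 2 * ((6 / ρ) ^ 2 * Cf))) with hM1
  have hCG := CG_pos
  have hM10 : 0 ≤ M1 := by positivity
  set M : ℝ := max Cf M1 with hM
  have h0 : ∀ᶠ k in atTop, ENNReal.ofReal (a k ^ 2) * N2 (u k) ≤ ENNReal.ofReal M := by
    filter_upwards [hCf] with k hk
    calc ENNReal.ofReal (a k ^ 2) * N2 (u k)
        ≤ ENNReal.ofReal (a k ^ 2) * N2 (fun f => φ k f h) := by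
          gcongr
          exact N2_mono fun f => abs_loc_le _ _ _ _ _ _ _ _
      _ ≤ ENNReal.ofReal Cf := N2_le_of_nsq hk h
      _ ≤ ENNReal.ofReal M := ENNReal.ofReal_le_ofReal (le_max_left _ _)
  have hEN : ∀ᶠ k in atTop, EN (loc x z₀ ρ (a k) (V k) (φ k)) ≤ ENNReal.ofReal M := by
    filter_upwards [hCf, hCg, hsmall, hw] with k hk1 hk2 hk3 hk4
    have ha := H.pos k
    have key : ∀ h', N2 (fun f => A (cst xc) (loc x z₀ ρ (a k) (V k) (φ k)) f h') ≤
        ENNReal.ofReal (2 * Cg + 2 * ((6 / ρ) ^ 2 * Cf)) := by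
      intro h'
      refine (N2_A_loc hρ ha (by linarith) hk4 (heq k) h').trans ?_
      have e1 := N2_le_of_nsq hk2 h'
      have e2 := N2_le_of_nsq hk1 (op h')
      calc _ ≤ 2 * ENNReal.ofReal Cg + 2 * (ENNReal.ofReal ((6 / ρ) ^ 2) * ENNReal.ofReal Cf) := by
            gcongr
        _ = ENNReal.ofReal (2 * Cg + 2 * ((6 / ρ) ^ 2 * Cf)) := by
            have p1 : (0 : ℝ) ≤ (6 / ρ) ^ 2 * Cf := by positivity
            rw [← ENNReal.ofReal_mul (sq_nonneg (6 / ρ)), ENNReal.ofReal_add (by linarith)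
              (by linarith), ENNReal.ofReal_mul (p := 2) (q := Cg) zero_le_two,
              ENNReal.ofReal_mul (p := 2) (q := (6 / ρ) ^ 2 * Cf) zero_le_two,
              ENNReal.ofReal_ofNat]
    calc _ ≤ ENNReal.ofReal CG * ∑ h', N2 fun f =>
            A (cst xc) (loc x z₀ ρ (a k) (V k) (φ k)) f h' := grad_le (hFSF k)
      _ ≤ ENNReal.ofReal CG * ∑ _h' : Fin 4, ENNReal.ofReal (2 * Cg + 2 * ((6 / ρ) ^ 2 * Cf)) := by
          gcongr with h' _
          exact key h'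
      _ = ENNReal.ofReal M1 := by
          rw [Finset.sum_const, Finset.card_univ, Fintype.card_fin, nsmul_eq_mul, hM1,
            ENNReal.ofReal_mul hCG.le, ENNReal.ofReal_mul (by norm_num : (0 : ℝ) ≤ 4),
            ENNReal.ofReal_ofNat, Nat.cast_ofNat]
      _ ≤ ENNReal.ofReal M := ENNReal.ofReal_le_ofReal (le_max_right _ _)
  have h1 : ∀ᶠ k in atTop, N2 (dif1 (u k)) ≤ ENNReal.ofReal M := by
    filter_upwards [hEN] with k hk
    refine le_trans ?_ hk
    unfold EN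
    exact (le_self_add).trans (Finset.single_le_sum
      (f := fun k' => N2 (dif1 fun f => loc x z₀ ρ (a k) (V k) (φ k) f k') +
        N2 (dif2 fun f => loc x z₀ ρ (a k) (V k) (φ k) f k')) (fun _ _ => zero_le)
      (Finset.mem_univ h))
  have h2 : ∀ᶠ k in atTop, N2 (dif2 (u k)) ≤ ENNReal.ofReal M := by
    filter_upwards [hEN] with k hk
    refine le_trans ?_ hk
    unfold EN
    exact (le_add_self).trans (Finset.single_le_sum
      (f := fun k' => N2 (dif1 fun f => loc x z₀ ρ (a k) (V k) (φ k) f k') +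
        N2 (dif2 fun f => loc x z₀ ρ (a k) (V k) (φ k) f k')) (fun _ _ => zero_le)
      (Finset.mem_univ h))
  obtain ⟨F, hF, hlimF⟩ := Relx943.rellich (U := U) (H.tendsto_pos.mono_left hU)
    (hCf0.trans (le_max_left _ _)) (hU h0) (hU h1) (hU h2) (isBounded_ball (x := z₀) (r := ρ / 4))
    measurableSet_ball (fun k => (memLp_emb (H.pos k) (hFSF k h)).restrict _)
  have hFae : AEMeasurable F (volume.restrict (ball z₀ (ρ / 4))) := hF.1.aemeasurable
  refine ⟨fun z => gc x z₀ z * F z, ?_, ?_⟩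
  · refine hF.of_le ((measurable_gc x z₀).aemeasurable.mul hFae).aestronglyMeasurable
      (Eventually.of_forall fun z => ?_)
    rw [norm_mul, Real.norm_eq_abs (gc x z₀ z), gc_abs, one_mul]
  have herr := (gauge_err H.pos H.lim H.tip z₀ hF).mono_left hU
  have hsum := (show Tendsto (fun n => E (volume.restrict (ball z₀ (ρ / 4)))
    (fun z => emb (a n) (u n) z - F z)) U (𝓝 0) from hlimF).add herr
  rw [add_zero] at hsum
  refine tendsto_of_tendsto_of_tendsto_of_le_of_le' tendsto_const_nhds hsum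
    (Eventually.of_forall fun _ => zero_le) ?_
  filter_upwards [hU hsmall] with k hk
  have ha := H.pos k
  have hEE : ∀ z ∈ ball z₀ (ρ / 4), emb (a k) (fun f => φ k f h) z - gc x z₀ z * F z =
      emb (a k) (gz x z₀ (V k)) z * (emb (a k) (u k) z - F z) +
        (emb (a k) (gz x z₀ (V k)) z - gc x z₀ z) * F z := by
    intro z hz
    have hc : cut z₀ ρ (meshPoint (a k) (meshIndex (a k) z)) = 1 := by
      refine cut_one hρ ?_
      have e1 := Upx622.norm_mesh_sub ha z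
      rw [mem_ball, dist_eq_norm] at hz
      have e2 : ‖meshPoint (a k) (meshIndex (a k) z) - z₀‖ ≤
          ‖meshPoint (a k) (meshIndex (a k) z) - z‖ + ‖z - z₀‖ :=
        norm_sub_le_norm_sub_add_norm_sub _ _ _
      linarith
    have hs := gz_sq x z₀ (V k) (meshIndex (a k) z)
    simp only [emb, hu, loc]
    rw [hc]
    linear_combination (-φ k (meshIndex (a k) z) h) * hs
  have hmeas1 : AEMeasurable (fun z => emb (a k) (gz x z₀ (V k)) z * (emb (a k) (u k) z - F z))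
      (volume.restrict (ball z₀ (ρ / 4))) :=
    (Embx622.emb_measurable _ _).aemeasurable.mul
      ((Embx622.emb_measurable _ _).aemeasurable.sub hFae)
  have hmeas2 : AEMeasurable (fun z => (emb (a k) (gz x z₀ (V k)) z - gc x z₀ z) * F z)
      (volume.restrict (ball z₀ (ρ / 4))) :=
    ((Embx622.emb_measurable _ _).sub (measurable_gc x z₀)).aemeasurable.mul hFae
  calc E (volume.restrict (ball z₀ (ρ / 4)))
        (fun z => emb (a k) (fun f => φ k f h) z - gc x z₀ z * F z)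
      = E (volume.restrict (ball z₀ (ρ / 4)))
        (fun z => emb (a k) (gz x z₀ (V k)) z * (emb (a k) (u k) z - F z) +
        (emb (a k) (gz x z₀ (V k)) z - gc x z₀ z) * F z) := by
        refine eLpNorm_congr_ae ?_
        filter_upwards [ae_restrict_mem measurableSet_ball] with z hz
        exact hEE z hz
    _ ≤ E (volume.restrict (ball z₀ (ρ / 4)))
        (fun z => emb (a k) (gz x z₀ (V k)) z * (emb (a k) (u k) z - F z)) +
        E (volume.restrict (ball z₀ (ρ / 4)))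
        (fun z => (emb (a k) (gz x z₀ (V k)) z - gc x z₀ z) * F z) :=
        eLpNorm_add_le hmeas1.aestronglyMeasurable hmeas2.aestronglyMeasurable (by norm_num)
    _ = _ := by
        congr 1
        refine eLpNorm_congr_norm_ae (Eventually.of_forall fun z => ?_)
        rw [norm_mul]
        have : ‖emb (a k) (gz x z₀ (V k)) z‖ = 1 := gz_abs _ _ _ _
        rw [this, one_mul]

end Crest.Agent.R165.MacC3x943
end
end

-- ▼ part R165/MacC4_943
section

/-!
# Row 165 (S0250), M3: global strong limit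

`global_lim` : the fields `emb φ_k` converge strongly in `L²(ℂ)` along every ultrafilter, the limit
vanishes off `O`.
`heavy_lim` : the heavy parts tend to zero.
-/

set_option autoImplicit false

noncomputable section

namespace Crest.Agent.R165.MacC4x943

open Filter Topology MeasureTheory Metric
open Crest.ProbabilityR.IsingModel
open Crest.Agent.R165.Tr1x40 hiding sq2
open Crest.Agent.R165.Tr2x40
open Crest.Agent.R165.RIfx891 (lv)
open Crest.Agent.R165.Mac0x622 Crest.Agent.R165.Mac1x622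
open Crest.Agent.R165.MacIx610 (Bdd NCo)
open Crest.Agent.R165.Lim2x943 (sq2)
open Crest.Agent.R165.Relx943 (N2 dif1 dif2 N2_shift)
open Crest.Agent.R165.PotAx894 (FS lap)
open Crest.Agent.R165.Embx622 (emb)
open Crest.Agent.R165.MacC1x943 Crest.Agent.R165.MacC2x943 Crest.Agent.R165.MacC3x943

/-- strong convergence on `B` -/
def Cv (U : Filter ℕ) (a : ℕ → ℝ) (u : ℕ → Face → ℝ) (B : Set ℂ) : Prop :=
  ∃ Φ : ℂ → ℝ, MemLp Φ 2 (volume.restrict B) ∧
    Tendsto (fun k => E (volume.restrict B) (fun z => emb (a k) (u k) z - Φ z)) U (𝓝 0)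

theorem E_indicator {B : Set ℂ} (hB : MeasurableSet B) (f : ℂ → ℝ) :
    E volume (B.indicator f) = E (volume.restrict B) f := eLpNorm_indicator_eq_eLpNorm_restrict hB

theorem E_add_le {μ : Measure ℂ} {f g : ℂ → ℝ} (hf : AEStronglyMeasurable f μ)
    (hg : AEStronglyMeasurable g μ) : E μ (fun z => f z + g z) ≤ E μ f + E μ g :=
  eLpNorm_add_le hf hg (by norm_num)

theorem E_congr {μ : Measure ℂ} {f g : ℂ → ℝ} (h : f =ᵐ[μ] g) : E μ f = E μ g :=
  eLpNorm_congr_ae h

theorem E_mono_set {B B' : Set ℂ} (h : B ⊆ B') (f : ℂ → ℝ) :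
    E (volume.restrict B) f ≤ E (volume.restrict B') f :=
  eLpNorm_mono_measure _ (Measure.restrict_mono_set _ h)

theorem E_restrict_le (B : Set ℂ) (f : ℂ → ℝ) : E (volume.restrict B) f ≤ E volume f :=
  eLpNorm_mono_measure _ Measure.restrict_le_self

theorem Cv.empty (U : Filter ℕ) (a : ℕ → ℝ) (u : ℕ → Face → ℝ) : Cv U a u ∅ := by
  refine ⟨0, MemLp.zero, ?_⟩
  simp only [E, Measure.restrict_empty, eLpNorm_measure_zero]
  exact tendsto_const_nhds

theorem Cv.union {U : Filter ℕ} {a : ℕ → ℝ} {u : ℕ → Face → ℝ} {B B' : Set ℂ}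
    (hB : MeasurableSet B) (hB' : MeasurableSet B') (h : Cv U a u B) (h' : Cv U a u B') :
    Cv U a u (B ∪ B') := by
  classical
  obtain ⟨Φ, hΦ, hc⟩ := h
  obtain ⟨Φ', hΦ', hc'⟩ := h'
  have hC : MeasurableSet (B' \ B) := hB'.diff hB
  refine ⟨fun z => B.indicator Φ z + (B' \ B).indicator Φ' z, ?_, ?_⟩
  · refine MemLp.restrict _ (MemLp.add ?_ ?_)
    · exact (memLp_indicator_iff_restrict hB).2 hΦ
    · exact (memLp_indicator_iff_restrict hC).2 (hΦ'.mono_measure
        (Measure.restrict_mono_set _ Set.sdiff_subset))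
  · have hs := hc.add hc'
    rw [add_zero] at hs
    refine tendsto_of_tendsto_of_tendsto_of_le_of_le tendsto_const_nhds hs (fun _ => zero_le)
      fun k => ?_
    have hm1 : AEStronglyMeasurable (fun z => emb (a k) (u k) z - Φ z) (volume.restrict B) :=
      (Embx622.emb_measurable _ _).aestronglyMeasurable.sub hΦ.1
    have hm2 : AEStronglyMeasurable (fun z => emb (a k) (u k) z - Φ' z)
        (volume.restrict (B' \ B)) :=
      (Embx622.emb_measurable _ _).aestronglyMeasurable.sub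
        (hΦ'.1.mono_measure (Measure.restrict_mono_set _ Set.sdiff_subset))
    calc E (volume.restrict (B ∪ B'))
          (fun z => emb (a k) (u k) z - (B.indicator Φ z + (B' \ B).indicator Φ' z))
        = E volume ((B ∪ B').indicator
          (fun z => emb (a k) (u k) z - (B.indicator Φ z + (B' \ B).indicator Φ' z))) :=
          (E_indicator (hB.union hB') _).symm
      _ = E volume (fun z => B.indicator (fun z => emb (a k) (u k) z - Φ z) z +
          (B' \ B).indicator (fun z => emb (a k) (u k) z - Φ' z) z) := by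
          congr 1
          funext z
          by_cases h1 : z ∈ B
          · simp [Set.indicator, h1]
          · by_cases h2 : z ∈ B'
            · simp [Set.indicator, h1, h2]
            · simp [Set.indicator, h1, h2]
      _ ≤ E volume (B.indicator fun z => emb (a k) (u k) z - Φ z) +
          E volume ((B' \ B).indicator fun z => emb (a k) (u k) z - Φ' z) :=
          E_add_le ((aestronglyMeasurable_indicator_iff hB).2 hm1)
            ((aestronglyMeasurable_indicator_iff hC).2 hm2)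
      _ ≤ _ := by
          rw [E_indicator hB, E_indicator hC]
          exact add_le_add le_rfl (E_mono_set Set.sdiff_subset _)

/-- mass off a neighbourhood of `L` -/
theorem out_mass {a δ η : ℝ} (ha : 0 < a) (haδ : 2 * a ≤ δ) {L C : Set ℂ}
    (hC : MeasurableSet C) (hL : ∀ z ∈ L, ∀ w, ‖w - z‖ ≤ δ → w ∈ C) {φ : Fld} (hη : 0 ≤ η)
    (h : ∀ S : Finset Face, (∀ f ∈ S, meshPoint a f ∉ L) → a ^ 2 * ∑ f ∈ S, nsq (φ f) ≤ η)
    (k : Fin 4) :
    E (volume.restrict Cᶜ) (emb a fun f => φ f k) ≤ ENNReal.ofReal (Real.sqrt η) := by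
  classical
  have key : (∫⁻ z in Cᶜ, sq2 (emb a (fun f => φ f k) z)) ≤ ENNReal.ofReal η := by
    set v : Face → ℝ := fun f => if meshPoint a f ∈ L then 0 else φ f k with hv
    have h1 : (∫⁻ z in Cᶜ, sq2 (emb a (fun f => φ f k) z)) ≤
        ∫⁻ z in Cᶜ, sq2 (v (meshIndex a z)) := by
      refine setLIntegral_mono' hC.compl fun z hz => le_of_eq ?_
      have h2 : meshPoint a (meshIndex a z) ∉ L := by
        intro hc
        refine hz (hL _ hc z ?_)
        rw [norm_sub_rev]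
        exact (Upx622.norm_mesh_sub ha z).trans haδ
      rw [hv]
      simp only [h2, if_false]
      rfl
    refine h1.trans ((Relx943.nrm_univ_emb ha _ v).trans (N2_le_of_finset fun S => ?_))
    have e : ∑ f ∈ S, v f ^ 2 = ∑ f ∈ S.filter (fun f => meshPoint a f ∉ L), φ f k ^ 2 := by
      rw [Finset.sum_filter]
      refine Finset.sum_congr rfl fun f _ => ?_
      by_cases hf : meshPoint a f ∈ L <;> simp [hv, hf]
    rw [e]
    refine le_trans ?_ (h (S.filter fun f => meshPoint a f ∉ L)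
      fun f hf => (Finset.mem_filter.1 hf).2)
    gcongr with f hf
    exact Finset.single_le_sum (f := fun b => φ f b ^ 2) (fun _ _ => sq_nonneg _)
      (Finset.mem_univ k)
  have h2 : E (volume.restrict Cᶜ) (emb a fun f => φ f k) ^ 2 ≤
      ENNReal.ofReal (Real.sqrt η) ^ 2 := by
    rw [E_pow, ← ENNReal.ofReal_pow (Real.sqrt_nonneg _), Real.sq_sqrt hη]
    exact key
  exact (ENNReal.pow_le_pow_left_iff (by norm_num)).1 h2

/-- **global strong limit** -/
theorem global_lim {O : Set ℂ} {n : ℕ} {x : Fin n → ℂ} {a : ℕ → ℝ} {w : ℕ → Fld}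
    {V : ℕ → Fin n → Face} (H : OmSeq O x a w V) (hO : IsOpen O) (hx : ∀ i, x i ∉ O)
    {g φ : ℕ → Fld} (hg : Bdd a g) (hφ : Bdd a φ) (hNC : NCo O a φ)
    (hfin : ∀ k, FSF (φ k)) (heq : ∀ k f h, A (w k) (φ k) f h = a k * g k f h)
    (U : Ultrafilter ℕ) (hU : (U : Filter ℕ) ≤ atTop) (h : Fin 4) :
    ∃ Φ : ℂ → ℝ, MemLp Φ 2 ∧ (∀ᵐ z, z ∉ O → Φ z = 0) ∧
      Tendsto (fun k => E volume (fun z => emb (a k) (fun f => φ k f h) z - Φ z)) U (𝓝 0) := by
  classical
  set u : ℕ → Face → ℝ := fun k f => φ k f h with hu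
  have hmem : ∀ k, MemLp (emb (a k) (u k)) 2 := fun k => memLp_emb (H.pos k) (hfin k h)
  have hsmall : ∀ δ : ℝ, 0 < δ → ∀ᶠ k in atTop, 2 * a k ≤ δ := by
    intro δ hδ
    have := H.lim.eventually (eventually_le_nhds (show (0 : ℝ) < δ / 2 by positivity))
    filter_upwards [this] with k hk
    linarith
  obtain ⟨Φ, hΦ, hlim⟩ := Relx943.exists_L2_lim (U := (U : Filter ℕ)) (μ := volume)
    (fun k => emb (a k) (u k)) hmem (by
    intro ε hε
    obtain ⟨L, hLc, hLO, hL⟩ := hNC ((ε / 2) ^ 2) (by positivity)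
    obtain ⟨δ, hδ, hsub⟩ := hLc.exists_cthickening_subset_open hO hLO
    set L' := cthickening δ L with hL'
    have hL'c : IsCompact L' := hLc.cthickening
    obtain ⟨B, hBm, hLB, hB⟩ : ∃ B, MeasurableSet B ∧ L' ⊆ B ∧ Cv U a u B := by
      refine hL'c.induction_on (p := fun S => ∃ B, MeasurableSet B ∧ S ⊆ B ∧ Cv U a u B)
        ⟨∅, MeasurableSet.empty, Set.Subset.rfl, Cv.empty _ _ _⟩ ?_ ?_ ?_
      · rintro s t hst ⟨B, h1, h2, h3⟩
        exact ⟨B, h1, hst.trans h2, h3⟩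
      · rintro s t ⟨B, h1, h2, h3⟩ ⟨B', h1', h2', h3'⟩
        exact ⟨B ∪ B', h1.union h1', Set.union_subset_union h2 h2', h3.union h1 h1' h3'⟩
      · intro z hz
        obtain ⟨ρ, hρ, hΦ⟩ := local_lim H hO hx hg hφ heq U hU (hsub hz)
        obtain ⟨Φ, h1, h2⟩ := hΦ h
        exact ⟨ball z ρ, mem_nhdsWithin_of_mem_nhds (ball_mem_nhds z hρ), ball z ρ,
          measurableSet_ball, Set.Subset.rfl, Φ, h1, h2⟩
    obtain ⟨Φ, hΦ, hc⟩ := hB
    refine ⟨B.indicator Φ, (memLp_indicator_iff_restrict hBm).2 hΦ, ?_⟩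
    have hev : ∀ᶠ k in (U : Filter ℕ), E (volume.restrict B)
        (fun z => emb (a k) (u k) z - Φ z) < ENNReal.ofReal (ε / 2) :=
      hc.eventually (eventually_lt_nhds (by rw [ENNReal.ofReal_pos]; positivity))
    filter_upwards [hev, hU hL, hU (hsmall δ hδ)] with k h1 h2 h3
    have h4 : E (volume.restrict Bᶜ) (emb (a k) (u k)) ≤ ENNReal.ofReal (ε / 2) := by
      have := out_mass (H.pos k) h3 hBm (L := L) (fun z hz w hw =>
        hLB (mem_cthickening_of_dist_le w z δ L hz (by rw [dist_eq_norm]; exact hw)))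
        (by positivity) h2 h
      rwa [Real.sqrt_sq (by positivity)] at this
    have hm1 : AEStronglyMeasurable (fun z => emb (a k) (u k) z - Φ z) (volume.restrict B) :=
      (Embx622.emb_measurable _ _).aestronglyMeasurable.sub hΦ.1
    change E volume (fun z => emb (a k) (u k) z - B.indicator Φ z) ≤ _
    calc E volume (fun z => emb (a k) (u k) z - B.indicator Φ z)
        = E volume (fun z => B.indicator (fun z => emb (a k) (u k) z - Φ z) z +
          Bᶜ.indicator (emb (a k) (u k)) z) := by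
          congr 1
          funext z
          by_cases hz : z ∈ B <;> simp [Set.indicator, hz]
      _ ≤ E volume (B.indicator fun z => emb (a k) (u k) z - Φ z) +
          E volume (Bᶜ.indicator (emb (a k) (u k))) :=
          E_add_le ((aestronglyMeasurable_indicator_iff hBm).2 hm1)
            ((Embx622.emb_measurable _ _).indicator hBm.compl).aestronglyMeasurable
      _ ≤ ENNReal.ofReal (ε / 2) + ENNReal.ofReal (ε / 2) := by
          rw [E_indicator hBm, E_indicator hBm.compl]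
          exact add_le_add h1.le h4
      _ = ENNReal.ofReal ε := by
          rw [← ENNReal.ofReal_add (by positivity) (by positivity)]
          congr 1
          ring)
  refine ⟨Φ, hΦ, ?_, hlim⟩
  -- the limit vanishes off `O`
  have hz0 : E (volume.restrict Oᶜ) Φ = 0 := by
    by_contra hne
    obtain ⟨ε, hε, hεlt⟩ : ∃ ε : ℝ, 0 < ε ∧ ENNReal.ofReal ε < E (volume.restrict Oᶜ) Φ := by
      obtain ⟨q, hq0, hq⟩ := ENNReal.lt_iff_exists_nnreal_btwn.1 (pos_iff_ne_zero.2 hne)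
      refine ⟨q, by exact_mod_cast hq0, ?_⟩
      rwa [ENNReal.ofReal_coe_nnreal]
    obtain ⟨L, hLc, hLO, hL⟩ := hNC ((ε / 2) ^ 2) (by positivity)
    obtain ⟨δ, hδ, hsub⟩ := hLc.exists_cthickening_subset_open hO hLO
    have hev : ∀ᶠ k in (U : Filter ℕ), E volume
        (fun z => emb (a k) (u k) z - Φ z) < ENNReal.ofReal (ε / 2) :=
      hlim.eventually (eventually_lt_nhds (by rw [ENNReal.ofReal_pos]; positivity))
    obtain ⟨k, h1, h2, h3⟩ := (hev.and
      ((hL.filter_mono hU).and ((hsmall δ hδ).filter_mono hU))).exists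
    have h4 : E (volume.restrict Oᶜ) (emb (a k) (u k)) ≤ ENNReal.ofReal (ε / 2) := by
      have := out_mass (H.pos k) h3 hO.measurableSet (L := L) (fun z hz w hw =>
        hsub (mem_cthickening_of_dist_le w z δ L hz (by rw [dist_eq_norm]; exact hw)))
        (by positivity) h2 h
      rwa [Real.sqrt_sq (by positivity)] at this
    have h5 : E (volume.restrict Oᶜ) Φ ≤ ENNReal.ofReal ε := by
      calc E (volume.restrict Oᶜ) Φ = E (volume.restrict Oᶜ)
            (fun z => (Φ z - emb (a k) (u k) z) + emb (a k) (u k) z) := by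
            congr 1; funext z; ring
        _ ≤ E (volume.restrict Oᶜ) (fun z => Φ z - emb (a k) (u k) z) +
            E (volume.restrict Oᶜ) (emb (a k) (u k)) :=
            E_add_le ((hΦ.1.sub (Embx622.emb_measurable _ _).aestronglyMeasurable).restrict)
              (Embx622.emb_measurable _ _).aestronglyMeasurable
        _ ≤ ENNReal.ofReal (ε / 2) + ENNReal.ofReal (ε / 2) := by
            refine add_le_add ?_ h4
            refine (E_restrict_le _ _).trans (le_trans (le_of_eq ?_) h1.le)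
            exact eLpNorm_congr_norm_ae (Eventually.of_forall fun z => norm_sub_rev _ _)
        _ = ENNReal.ofReal ε := by
            rw [← ENNReal.ofReal_add (by positivity) (by positivity)]
            congr 1
            ring
    exact absurd h5 (not_le.2 hεlt)
  have h6 := (eLpNorm_eq_zero_iff hΦ.1.restrict (by norm_num)).1 hz0
  exact (ae_restrict_iff' hO.measurableSet.compl).1 h6

/-- the heavy mass is `O(a)` -/
theorem hv_small {a : ℝ} (ha : 0 < a) {w φ g : Fld} (hs : Sym w) (hp : IsPlus w)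
    (hφ : ∃ I : Finset Face, ∀ f, f ∉ I → φ f = 0) (heq : ∀ f h, A w φ f h = a * g f h)
    {Cf Cg : ℝ} (h1 : ∀ S : Finset Face, a ^ 2 * ∑ f ∈ S, nsq (φ f) ≤ Cf)
    (h2 : ∀ S : Finset Face, a ^ 2 * ∑ f ∈ S, nsq (g f) ≤ Cg) (S : Finset Face) :
    a ^ 2 * ∑ f ∈ S, hv (φ f) ≤ 30 * a * (Real.sqrt Cf * Real.sqrt Cg) := by
  obtain ⟨I, hI⟩ := hφ
  have hsp : Sqx54.Supp I φ := fun f hf h => by rw [hI f hf]; rfl
  have ht := Sqx54.trace_tsum hs hp hsp
  have hb : 0 ≤ ∑' f, bd w φ f := tsum_nonneg fun f => bd_nonneg _ _ _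
  have hsum : Summable fun f => hv (φ f) := by
    refine summable_of_ne_finset_zero (s := I) fun f hf => ?_
    rw [hI f hf]
    simp [hv, nsq, cyc]
  have h3 : ∑ f ∈ S, hv (φ f) ≤ ∑' f, hv (φ f) := hsum.sum_le_tsum S fun f _ => hv_nonneg _
  have hQ : a * Real.sqrt (∑' f, nsq (φ f)) ≤ Real.sqrt Cf := by
    refine Real.le_sqrt_of_sq_le ?_
    rw [mul_pow, Real.sq_sqrt (tsum_nonneg fun f => nsq_nonneg _),
      hsp.tsum_nsq (Finset.Subset.refl I)]
    exact h1 I
  have hG : Real.sqrt (∑' f, nsq (A w φ f)) ≤ Real.sqrt Cg := by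
    refine Real.sqrt_le_sqrt ?_
    rw [(hsp.A w).tsum_nsq (Finset.Subset.refl _)]
    refine le_trans (le_of_eq ?_) (h2 (Sqx54.thick I))
    rw [Finset.mul_sum]
    refine Finset.sum_congr rfl fun f _ => ?_
    simp only [nsq, heq, Finset.mul_sum]
    exact Finset.sum_congr rfl fun h _ => by ring
  have hQ0 := Real.sqrt_nonneg (∑' f, nsq (φ f))
  have hG0 := Real.sqrt_nonneg (∑' f, nsq (A w φ f))
  calc a ^ 2 * ∑ f ∈ S, hv (φ f)
      ≤ a ^ 2 * (30 * (Real.sqrt (∑' f, nsq (φ f)) * Real.sqrt (∑' f, nsq (A w φ f)))) := by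
        refine mul_le_mul_of_nonneg_left ?_ (sq_nonneg a)
        linarith
    _ = 30 * a * ((a * Real.sqrt (∑' f, nsq (φ f))) * Real.sqrt (∑' f, nsq (A w φ f))) := by
        ring
    _ ≤ 30 * a * (Real.sqrt Cf * Real.sqrt Cg) := by
        gcongr

/-- **lightness** -/
theorem heavy_lim {a : ℕ → ℝ} {w : ℕ → Fld} (hpos : ∀ k, 0 < a k) (hlim : Tendsto a atTop (𝓝 0))
    (hs : ∀ k, Sym (w k)) (hp : ∀ k, IsPlus (w k)) {g φ : ℕ → Fld} (hg : Bdd a g) (hφ : Bdd a φ)
    (hfin : ∀ k, ∃ I : Finset Face, ∀ f, f ∉ I → φ k f = 0)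
    (heq : ∀ k f h, A (w k) (φ k) f h = a k * g k f h) (h : Fin 4) :
    Tendsto (fun k => E volume (fun z => emb (a k) (fun f => Ph (φ k f) h) z)) atTop (𝓝 0) := by
  rw [E_tendsto_zero]
  obtain ⟨Cg, hCg⟩ := hg
  obtain ⟨Cf, hCf⟩ := hφ
  have ht : Tendsto (fun k => ENNReal.ofReal (30 * a k * (Real.sqrt Cf * Real.sqrt Cg))) atTop
      (𝓝 0) := by
    have h1 : Tendsto (fun k => 30 * a k * (Real.sqrt Cf * Real.sqrt Cg)) atTop (𝓝 0) := by
      have := (hlim.const_mul 30).mul_const (Real.sqrt Cf * Real.sqrt Cg)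
      simpa using this
    have := ENNReal.tendsto_ofReal h1
    simpa using this
  refine tendsto_of_tendsto_of_tendsto_of_le_of_le' tendsto_const_nhds ht
    (Eventually.of_forall fun _ => zero_le) ?_
  filter_upwards [hCf, hCg] with k h1 h2
  have hk := hv_small (hpos k) (hs k) (hp k) (hfin k) (heq k) h1 h2
  have e : (∫⁻ z, sq2 (emb (a k) (fun f => Ph (φ k f) h) z)) =
      ENNReal.ofReal (a k ^ 2) * N2 (fun f => Ph (φ k f) h) :=
    Embx622.lintegral_emb (hpos k) fun f => sq2 (Ph (φ k f) h)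
  rw [e]
  refine N2_le_of_finset fun S => le_trans ?_ (hk S)
  gcongr with f hf
  rw [hv_eq_nsq]
  exact Finset.single_le_sum (f := fun b => Ph (φ k f) b ^ 2) (fun _ _ => sq_nonneg _)
    (Finset.mem_univ h)

end Crest.Agent.R165.MacC4x943
end
end

-- ▼ part R165/Lim3_943
section

/-!
# Row 165 (S0250), block R: limit passage, part 3

Locally uniform limits of exact solutions `A w φ = 0` in a plane gauge (`w = x_c`):
the limit is the light field of a holomorphic function (`exact_limit`), and it is strong in `L²`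
when there is no concentration (`exact_strong`).
-/

set_option autoImplicit false

noncomputable section

namespace Crest.Agent.R165.Lim3x943

open Filter Topology MeasureTheory
open Crest.Agent.R165.Lim1x943 (pt flr d1 LocBd LocUnif LocZero Bds lim)
open Crest.Agent.R165.Lim2x943 (NC sq2)
open Crest.Agent.R165.Tr1x40 (Face Fld A xc Ph nsq)
open Crest.Agent.R165.PotAx894 (Q)
open Crest.Agent.R165.PotBx894 (DL DD Harm)
open Crest.Agent.R165.Intx811 (mass)

/-- light field of the amplitude `c = a + i b`: components `Re (c e^{-3 i θ_h / 2})` -/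
def lc (c : ℂ) (h : Fin 4) : ℝ :=
  match h with
  | 0 => -(c.re + c.im) / Real.sqrt 2
  | 1 => c.re
  | 2 => (c.im - c.re) / Real.sqrt 2
  | 3 => -c.im

@[simp] theorem lc_zero (c : ℂ) : lc c 0 = -(c.re + c.im) / Real.sqrt 2 := rfl
@[simp] theorem lc_one (c : ℂ) : lc c 1 = c.re := rfl
@[simp] theorem lc_two (c : ℂ) : lc c 2 = (c.im - c.re) / Real.sqrt 2 := rfl
@[simp] theorem lc_three (c : ℂ) : lc c 3 = -c.im := rfl

variable {ι : Type*}

/-- shifts -/
theorem shift_mem {r δ : ℝ} (hr : 0 < r) (τ : ℤ × ℤ) (h : (|(τ.1 : ℝ)| + |(τ.2 : ℝ)|) / r ≤ δ)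
    (f : ℤ × ℤ) : d1 (pt r (f + τ)) (pt r f) ≤ δ := by
  refine le_trans (le_of_eq ?_) h
  unfold d1
  simp only [Lim1x943.pt_re, Lim1x943.pt_im, Prod.fst_add, Prod.snd_add]
  push_cast
  rw [← sub_div, ← sub_div, abs_div, abs_div, abs_of_pos hr, ← add_div]
  congr 2 <;> congr 1 <;> ring

theorem eventually_shift {U : Filter ι} {r : ι → ℝ} (hr : Tendsto r U atTop) {δ : ℝ} (hδ : 0 < δ)
    (τ : ℤ × ℤ) : ∀ᶠ n in U, ∀ f, d1 (pt (r n) (f + τ)) (pt (r n) f) ≤ δ := by
  filter_upwards [hr.eventually_gt_atTop 0,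
    hr.eventually_ge_atTop ((|(τ.1 : ℝ)| + |(τ.2 : ℝ)|) / δ)] with n h1 h2 f
  refine shift_mem h1 τ ?_ f
  rw [div_le_iff₀ h1]
  rwa [div_le_iff₀ hδ, mul_comm] at h2

theorem locBd_shift {U : Filter ι} {r : ι → ℝ} (hr : Tendsto r U atTop) {Ω : Set ℂ}
    (hΩ : IsOpen Ω) {w : ι → ℤ × ℤ → ℝ} (h : LocBd U r Ω w) (τ : ℤ × ℤ) :
    LocBd U r Ω fun n f => w n (f + τ) := by
  intro K hK hKΩ
  obtain ⟨δ, hδ, K', hK', hK'Ω, -, hnb⟩ := Lim1x943.exists_nbhd hΩ hK hKΩ
  obtain ⟨M, hM⟩ := h K' hK' hK'Ω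
  refine ⟨M, ?_⟩
  filter_upwards [hM, eventually_shift hr hδ τ] with n hn hs f hf
  exact hn _ (hnb _ hf _ (hs f))

theorem locUnif_shift {U : Filter ι} {r : ι → ℝ} (hr : Tendsto r U atTop) {Ω : Set ℂ}
    (hΩ : IsOpen Ω) {w : ι → ℤ × ℤ → ℝ} {W : ℂ → ℝ} (h : LocUnif U r Ω w W)
    (hW : ContinuousOn W Ω) (τ : ℤ × ℤ) : LocUnif U r Ω (fun n f => w n (f + τ)) W := by
  intro K hK hKΩ η hη
  obtain ⟨δ, hδ, K', hK', hK'Ω, hKK', hnb⟩ := Lim1x943.exists_nbhd hΩ hK hKΩ
  have huc := hK'.uniformContinuousOn_of_continuous (hW.mono hK'Ω)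
  rw [Metric.uniformContinuousOn_iff] at huc
  obtain ⟨δ1, hδ1, huc⟩ := huc (η / 2) (by positivity)
  filter_upwards [h K' hK' hK'Ω (η / 2) (by positivity), eventually_shift hr hδ τ,
    eventually_shift hr (half_pos hδ1) τ] with n hn hs hs1 f hf
  have h1 : pt (r n) (f + τ) ∈ K' := hnb _ hf _ (hs f)
  have h2 := hn _ h1
  have h3 := huc _ h1 _ (hKK' hf) (by
    have := Lim1x943.dist_le_d1 (pt (r n) (f + τ)) (pt (r n) f)
    have := hs1 f
    linarith)
  rw [Real.dist_eq] at h3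
  have h4 := abs_add_le (w n (f + τ) - W (pt (r n) (f + τ)))
    (W (pt (r n) (f + τ)) - W (pt (r n) f))
  rw [sub_add_sub_cancel] at h4
  linarith

theorem locZero_div {U : Filter ι} {r : ι → ℝ} (hr : Tendsto r U atTop) {Ω : Set ℂ}
    {w : ι → ℤ × ℤ → ℝ} (h : LocBd U r Ω w) : LocZero U r Ω fun n f => w n f / r n := by
  intro K hK hKΩ η hη
  obtain ⟨M, hM⟩ := h K hK hKΩ
  filter_upwards [hM, hr.eventually_gt_atTop 0, hr.eventually_ge_atTop (M / η)] with n hn h1 h2 f hf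
  rw [sub_zero, abs_div, abs_of_pos h1, div_le_iff₀ h1]
  rw [div_le_iff₀ hη] at h2
  exact (hn f hf).trans (by linarith)

/-- exact solutions with bounded mass in plane boxes around all points of compacts of `Ω` -/
def ExOn (U : Filter ι) (r : ι → ℝ) (Ω : Set ℂ) (w φ : ι → Fld) : Prop :=
  ∀ K : Set ℂ, IsCompact K → K ⊆ Ω → ∃ ρ : ℝ, 0 < ρ ∧ ∃ M : ℝ, ∀ᶠ n in U, ∀ f,
    pt (r n) f ∈ K → (∀ g ∈ Q f ⌊ρ * r n⌋₊, ∀ h, w n g h = xc) ∧
      (∀ g ∈ Q f ⌊ρ * r n⌋₊, ∀ h, A (w n) (φ n) g h = 0) ∧ mass (φ n) f ⌊ρ * r n⌋₊ ≤ M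

theorem ExOn.locBd_DL {U : Filter ι} {r : ι → ℝ} (hr : Tendsto r U atTop) {Ω : Set ℂ}
    {w φ : ι → Fld} (hex : ExOn U r Ω w φ) (a : Fin 4) (l : List Bool) :
    LocBd U r Ω fun n f => r n ^ (l.length + 1) * DL l (fun g => φ n g a) f := by
  intro K hK hKΩ
  obtain ⟨ρ, hρ, M, hM⟩ := hex K hK hKΩ
  obtain ⟨C, hC, hest⟩ := Intx811.pt_est l
  refine ⟨C * (2 / ρ) ^ (l.length + 1) * Real.sqrt M, ?_⟩
  filter_upwards [hM, hr.eventually_gt_atTop 0,
    hr.eventually_ge_atTop ((4 * (l.length + 1) + 2) / ρ)] with n hn h1 h2 f hf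
  obtain ⟨hw, he, hm⟩ := hn f hf
  rw [div_le_iff₀ hρ, mul_comm (r n)] at h2
  set R := ⌊ρ * r n⌋₊ with hR
  have hR1 : (ρ * r n) < R + 1 := Nat.lt_floor_add_one _
  have hR2 : 4 * (l.length + 1) + 1 ≤ R := by
    have : ((4 * (l.length + 1) + 1 : ℕ) : ℝ) < (R : ℝ) + 1 := by push_cast; linarith
    have h3 : 4 * (l.length + 1) + 1 < R + 1 := by exact_mod_cast this
    omega
  have hharm : Harm (fun g => φ n g a) f (R - 1) :=
    Intx811.harm (w := w n) (r := R - 1) (by rwa [Nat.sub_add_cancel (by omega)])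
      (by rwa [Nat.sub_add_cancel (by omega)]) a
  have h3 := hest (φ n) f R a (by omega) hharm
  have hR0 : (0 : ℝ) < R := by
    have : 0 < R := by omega
    exact_mod_cast this
  have hR3 : ρ * r n / 2 ≤ R := by
    have h5 : (1 : ℝ) ≤ R := by
      have : 1 ≤ R := by omega
      exact_mod_cast this
    linarith
  rw [abs_mul, abs_of_pos (pow_pos h1 _)]
  calc r n ^ (l.length + 1) * |DL l (fun g => φ n g a) f|
      ≤ r n ^ (l.length + 1) * (C / (R : ℝ) ^ (l.length + 1) * Real.sqrt (mass (φ n) f R)) := by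
        gcongr
    _ ≤ r n ^ (l.length + 1) * (C / (ρ * r n / 2) ^ (l.length + 1) * Real.sqrt M) := by
        gcongr
    _ = C * (2 / ρ) ^ (l.length + 1) * Real.sqrt M := by
        rw [div_pow, mul_pow, div_pow]
        field_simp

/-- the normalised component -/
def nc (r : ι → ℝ) (φ : ι → Fld) (a : Fin 4) (n : ι) (f : ℤ × ℤ) : ℝ := r n * φ n f a

theorem ExOn.bds {U : Filter ι} {r : ι → ℝ} (hr : Tendsto r U atTop) {Ω : Set ℂ}
    {w φ : ι → Fld} (hex : ExOn U r Ω w φ) (a : Fin 4) : Bds U r Ω (nc r φ a) := by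
  have h := hex.locBd_DL hr a
  constructor
  · convert h [] using 2
    ext f
    simp [DL, nc]
  · convert h [true] using 3
    simp [DL, DD, nc, Lim1x943.D1, PotAx894.D1, Lim1x943.e1, PotAx894.e1]
    ring
  · convert h [false] using 3
    simp [DL, DD, nc, Lim1x943.D2, PotAx894.D2, Lim1x943.e2, PotAx894.e2]
    ring
  · convert h [true, true] using 3
    simp [DL, DD, nc, Lim1x943.D1, PotAx894.D1, Lim1x943.e1, PotAx894.e1]
    ring
  · convert h [true, false] using 3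
    simp [DL, DD, nc, Lim1x943.D1, PotAx894.D1, Lim1x943.e1, PotAx894.e1,
      Lim1x943.D2, PotAx894.D2, Lim1x943.e2, PotAx894.e2]
    ring
  · convert h [false, true] using 3
    simp [DL, DD, nc, Lim1x943.D1, PotAx894.D1, Lim1x943.e1, PotAx894.e1,
      Lim1x943.D2, PotAx894.D2, Lim1x943.e2, PotAx894.e2]
    ring
  · convert h [false, false] using 3
    simp [DL, DD, nc, Lim1x943.D2, PotAx894.D2, Lim1x943.e2, PotAx894.e2]
    ring

theorem differentiableOn_of_cr {Ω : Set ℂ} {A B A1 A2 B1 B2 : ℂ → ℝ}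
    (ha : ∀ z ∈ Ω, HasFDerivAt A (A1 z • Complex.reCLM + A2 z • Complex.imCLM) z)
    (hb : ∀ z ∈ Ω, HasFDerivAt B (B1 z • Complex.reCLM + B2 z • Complex.imCLM) z)
    (h1 : ∀ z ∈ Ω, B2 z = A1 z) (h2 : ∀ z ∈ Ω, B1 z = -A2 z) :
    DifferentiableOn ℂ (fun z => (⟨A z, B z⟩ : ℂ)) Ω := by
  intro z hz
  refine DifferentiableAt.differentiableWithinAt ?_
  have fa := ha z hz
  have fb := hb z hz
  have hF : HasFDerivAt (𝕜 := ℝ) (fun z => (⟨A z, B z⟩ : ℂ))
      (Complex.ofRealCLM.comp (A1 z • Complex.reCLM + A2 z • Complex.imCLM) +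
        Complex.I • Complex.ofRealCLM.comp (B1 z • Complex.reCLM + B2 z • Complex.imCLM)) z := by
    have h1 := Complex.ofRealCLM.hasFDerivAt.comp z fa
    have h2 := (Complex.ofRealCLM.hasFDerivAt.comp z fb).const_smul Complex.I
    refine (h1.add h2).congr_of_eventuallyEq (Eventually.of_forall fun w => ?_)
    simp only [Function.comp_apply, Complex.ofRealCLM_apply, smul_eq_mul, Pi.add_apply,
      Pi.smul_apply]
    apply Complex.ext <;> simp
  have hC : HasFDerivAt (𝕜 := ℂ) (fun z => (⟨A z, B z⟩ : ℂ))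
      (ContinuousLinearMap.toSpanSingleton ℂ (⟨A1 z, B1 z⟩ : ℂ)) z := by
    refine hasFDerivAt_of_restrictScalars ℝ hF ?_
    rw [h1 z hz, h2 z hz]
    refine ContinuousLinearMap.ext fun w => ?_
    apply Complex.ext
    · simp; ring
    · simp; ring
  exact hC.differentiableAt

/-- the limit component functions -/
def L (U : Ultrafilter ι) (r : ι → ℝ) (φ : ι → Fld) (a : Fin 4) : ℂ → ℝ := lim U r (nc r φ a)
/-- limits of the scaled differences -/
def G1 (U : Ultrafilter ι) (r : ι → ℝ) (φ : ι → Fld) (a : Fin 4) : ℂ → ℝ :=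
  lim U r fun n => Lim1x943.D1 (r n) (nc r φ a n)
/-- limits of the scaled differences -/
def G2 (U : Ultrafilter ι) (r : ι → ℝ) (φ : ι → Fld) (a : Fin 4) : ℂ → ℝ :=
  lim U r fun n => Lim1x943.D2 (r n) (nc r φ a n)

/-- the amplitude of the limit -/
def amp (U : Ultrafilter ι) (r : ι → ℝ) (φ : ι → Fld) (z : ℂ) : ℂ :=
  ⟨L U r φ 1 z, -L U r φ 3 z⟩

section main

variable {U : Ultrafilter ι} {r : ι → ℝ} {Ω : Set ℂ} {w φ : ι → Fld}

theorem L_spec (hr : Tendsto r U atTop) (hΩ : IsOpen Ω) (hex : ExOn U r Ω w φ) (a : Fin 4) :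
    ContinuousOn (L U r φ a) Ω ∧ LocUnif U r Ω (nc r φ a) (L U r φ a) :=
  Lim1x943.exists_limit hr hΩ (hex.bds hr a).b0 (hex.bds hr a).b1 (hex.bds hr a).b2

theorem G1_spec (hr : Tendsto r U atTop) (hΩ : IsOpen Ω) (hex : ExOn U r Ω w φ) (a : Fin 4) :
    ContinuousOn (G1 U r φ a) Ω ∧
      LocUnif U r Ω (fun n => Lim1x943.D1 (r n) (nc r φ a n)) (G1 U r φ a) :=
  Lim1x943.exists_limit hr hΩ (hex.bds hr a).b1 (hex.bds hr a).b11 (hex.bds hr a).b12

theorem G2_spec (hr : Tendsto r U atTop) (hΩ : IsOpen Ω) (hex : ExOn U r Ω w φ) (a : Fin 4) :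
    ContinuousOn (G2 U r φ a) Ω ∧
      LocUnif U r Ω (fun n => Lim1x943.D2 (r n) (nc r φ a n)) (G2 U r φ a) :=
  Lim1x943.exists_limit hr hΩ (hex.bds hr a).b2 (hex.bds hr a).b21 (hex.bds hr a).b22

theorem L_deriv (hr : Tendsto r U atTop) (hΩ : IsOpen Ω) (hex : ExOn U r Ω w φ) (a : Fin 4)
    {z : ℂ} (hz : z ∈ Ω) :
    HasFDerivAt (L U r φ a) (G1 U r φ a z • Complex.reCLM + G2 U r φ a z • Complex.imCLM) z :=
  (hex.bds hr a).hasFDerivAt hr hΩ hz

/-- eventually `w = x_c` and `A w φ = 0` at the face of `z` -/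
theorem ExOn.at (hr : Tendsto r U atTop) (hΩ : IsOpen Ω) (hex : ExOn U r Ω w φ) {z : ℂ}
    (hz : z ∈ Ω) : ∀ᶠ n in (U : Filter ι), (∀ h, w n (flr (r n) z) h = xc) ∧
      (∀ h, A (w n) (φ n) (flr (r n) z) h = 0) := by
  obtain ⟨δ, hδ, K', hK', hK'Ω, -, hnb⟩ := Lim1x943.exists_nbhd hΩ (isCompact_singleton (x := z))
    (Set.singleton_subset_iff.2 hz)
  obtain ⟨ρ, hρ, M, hM⟩ := hex K' hK' hK'Ω
  filter_upwards [hM, Lim1x943.eventually_two_div_le hr hδ] with n hn hrn
  obtain ⟨hrn, hrd⟩ := hrn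
  obtain ⟨h1, h2, -⟩ := hn _ (hnb z rfl _ ((Lim1x943.d1_pt_flr _ hrn z).trans hrd))
  exact ⟨h1 _ (PotAx894.self_mem_Q _ _), h2 _ (PotAx894.self_mem_Q _ _)⟩

/-- unscaled first differences, multiplied by `r`, tend to zero -/
theorem diff_zero (hr : Tendsto r U atTop) (hΩ : IsOpen Ω) (hex : ExOn U r Ω w φ) (a : Fin 4)
    (τ : ℤ × ℤ) {z : ℂ} (hz : z ∈ Ω) :
    Tendsto (fun n => r n * PotAx894.D1 (fun g => φ n g a) (flr (r n) z + τ)) U (𝓝 0) ∧
    Tendsto (fun n => r n * PotAx894.D2 (fun g => φ n g a) (flr (r n) z + τ)) U (𝓝 0) := by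
  constructor
  · have h1 := locZero_div hr (locBd_shift hr hΩ (hex.bds hr a).b1 τ)
    have h2 := h1.tendsto hr hΩ continuousOn_const hz
    refine h2.congr' ?_
    filter_upwards [hr.eventually_gt_atTop 0] with n hn
    simp only [Lim1x943.D1, nc, PotAx894.D1, Lim1x943.e1, PotAx894.e1]
    field_simp
  · have h1 := locZero_div hr (locBd_shift hr hΩ (hex.bds hr a).b2 τ)
    have h2 := h1.tendsto hr hΩ continuousOn_const hz
    refine h2.congr' ?_
    filter_upwards [hr.eventually_gt_atTop 0] with n hn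
    simp only [Lim1x943.D2, nc, PotAx894.D2, Lim1x943.e2, PotAx894.e2]
    field_simp

/-- the heavy part of the limit vanishes -/
theorem heavy_zero (hr : Tendsto r U atTop) (hΩ : IsOpen Ω) (hex : ExOn U r Ω w φ)
    {z : ℂ} (hz : z ∈ Ω) (h : Fin 4) : Ph (fun a => L U r φ a z) h = 0 := by
  have tL : ∀ a, Tendsto (fun n => r n * φ n (flr (r n) z) a) U (𝓝 (L U r φ a z)) := fun a =>
    Lim1x943.lim_tendsto hr hΩ (hex.bds hr a).b0 hz
  have t1 : Tendsto (fun n => r n * Ph (φ n (flr (r n) z)) h) U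
      (𝓝 (Ph (fun a => L U r φ a z) h)) := by
    fin_cases h
    · have := ((tL 0).div_const 2).add (((tL 1).sub (tL 3)).div_const (2 * Real.sqrt 2))
      refine this.congr fun n => ?_
      simp only [Ph]
      ring
    · have := ((tL 1).div_const 2).add (((tL 0).add (tL 2)).div_const (2 * Real.sqrt 2))
      refine this.congr fun n => ?_
      simp only [Ph]
      ring
    · have := ((tL 2).div_const 2).add (((tL 1).add (tL 3)).div_const (2 * Real.sqrt 2))
      refine this.congr fun n => ?_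
      simp only [Ph]
      ring
    · have := ((tL 3).div_const 2).add (((tL 2).sub (tL 0)).div_const (2 * Real.sqrt 2))
      refine this.congr fun n => ?_
      simp only [Ph]
      ring
  have dz : ∀ k, Tendsto (fun n => r n * Intx811.dif (φ n) (flr (r n) z) k) U (𝓝 0) := by
    intro k
    fin_cases k
    · have := (diff_zero hr hΩ hex 2 (-PotAx894.e2) hz).2.neg
      rw [neg_zero] at this
      refine this.congr fun n => ?_
      simp [Intx811.dif, sub_eq_add_neg]
    · have := (diff_zero hr hΩ hex 3 0 hz).1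
      refine this.congr fun n => ?_
      simp [Intx811.dif]
    · have := (diff_zero hr hΩ hex 0 0 hz).2.neg
      rw [neg_zero] at this
      refine this.congr fun n => ?_
      simp [Intx811.dif]
    · have := (diff_zero hr hΩ hex 1 (-PotAx894.e1) hz).1
      refine this.congr fun n => ?_
      simp [Intx811.dif, sub_eq_add_neg]
  have t2 : Tendsto (fun n => r n * Ph (φ n (flr (r n) z)) h) U (𝓝 0) := by
    have key : ∀ p : ι → Fin 4 → ℝ, (∀ k, Tendsto (fun n => r n * p n k) U (𝓝 0)) →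
        Tendsto (fun n => r n * (xc / 8 * Intx811.Az (p n) h)) U (𝓝 0) := by
      intro p hp
      fin_cases h
      · have := (((hp 1).add ((hp 2).const_mul (Real.sqrt 2))).add (hp 3)).const_mul (xc / 8)
        simp only [mul_zero, add_zero] at this
        refine this.congr fun n => ?_
        simp only [Intx811.Az, Fin.zero_eta, Matrix.cons_val_zero]
        ring
      · have := (((hp 0).neg.add (hp 2)).add ((hp 3).const_mul (Real.sqrt 2))).const_mul (xc / 8)
        simp only [mul_zero, add_zero, neg_zero] at this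
        refine this.congr fun n => ?_
        simp only [Intx811.Az, Fin.mk_one, Matrix.cons_val_one, Matrix.cons_val_zero]
        ring
      · have := ((((hp 0).const_mul (Real.sqrt 2)).neg.sub (hp 1)).add (hp 3)).const_mul (xc / 8)
        simp only [mul_zero, add_zero, neg_zero, sub_zero] at this
        refine this.congr fun n => ?_
        simp only [Intx811.Az, Fin.reduceFinMk, Matrix.cons_val]
        ring
      · have := (((hp 0).neg.sub ((hp 1).const_mul (Real.sqrt 2))).sub (hp 2)).const_mul (xc / 8)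
        simp only [mul_zero, neg_zero, sub_zero] at this
        refine this.congr fun n => ?_
        simp only [Intx811.Az, Fin.reduceFinMk, Matrix.cons_val]
        ring
    refine (key _ dz).congr' ?_
    filter_upwards [hex.at hr hΩ hz] with n hn
    rw [Intx811.heavy_eq hn.1 hn.2]
  exact tendsto_nhds_unique t1 t2

theorem L_zero_two (hr : Tendsto r U atTop) (hΩ : IsOpen Ω) (hex : ExOn U r Ω w φ)
    {z : ℂ} (hz : z ∈ Ω) : L U r φ 0 z + L U r φ 2 z = -(Real.sqrt 2 * L U r φ 1 z) ∧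
      L U r φ 2 z - L U r φ 0 z = -(Real.sqrt 2 * L U r φ 3 z) := by
  have h1 := heavy_zero hr hΩ hex hz 1
  have h3 := heavy_zero hr hΩ hex hz 3
  have hs := Tr1x40.sq2_pos
  simp only [Ph] at h1 h3
  field_simp at h1 h3
  constructor <;> linarith

theorem G2_rel (hr : Tendsto r U atTop) (hΩ : IsOpen Ω) (hex : ExOn U r Ω w φ)
    {z : ℂ} (hz : z ∈ Ω) : G2 U r φ 0 z + G2 U r φ 2 z = -(Real.sqrt 2 * G2 U r φ 1 z) ∧
      G2 U r φ 2 z - G2 U r φ 0 z = -(Real.sqrt 2 * G2 U r φ 3 z) := by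
  have d0 := L_deriv hr hΩ hex 0 hz
  have d1 := L_deriv hr hΩ hex 1 hz
  have d2 := L_deriv hr hΩ hex 2 hz
  have d3 := L_deriv hr hΩ hex 3 hz
  have hnhds : Ω ∈ 𝓝 z := hΩ.mem_nhds hz
  constructor
  · have e1 : HasFDerivAt (fun z => L U r φ 0 z + L U r φ 2 z) _ z := d0.add d2
    have e2 : HasFDerivAt (fun z => -(Real.sqrt 2 * L U r φ 1 z)) _ z :=
      (d1.const_mul (Real.sqrt 2)).neg
    have e3 := e1.congr_of_eventuallyEq (f₁ := fun z => -(Real.sqrt 2 * L U r φ 1 z)) (by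
      filter_upwards [hnhds] with y hy
      exact (L_zero_two hr hΩ hex hy).1.symm)
    have e4 := e3.unique e2
    have := congrArg (fun T : ℂ →L[ℝ] ℝ => T Complex.I) e4
    simpa using this
  · have e1 : HasFDerivAt (fun z => L U r φ 2 z - L U r φ 0 z) _ z := d2.sub d0
    have e2 : HasFDerivAt (fun z => -(Real.sqrt 2 * L U r φ 3 z)) _ z :=
      (d3.const_mul (Real.sqrt 2)).neg
    have e3 := e1.congr_of_eventuallyEq (f₁ := fun z => -(Real.sqrt 2 * L U r φ 3 z)) (by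
      filter_upwards [hnhds] with y hy
      exact (L_zero_two hr hΩ hex hy).2.symm)
    have e4 := e3.unique e2
    have := congrArg (fun T : ℂ →L[ℝ] ℝ => T Complex.I) e4
    simpa using this

theorem cr_lim (hr : Tendsto r U atTop) (hΩ : IsOpen Ω) (hex : ExOn U r Ω w φ)
    {z : ℂ} (hz : z ∈ Ω) : G1 U r φ 3 z = G2 U r φ 1 z ∧ G1 U r φ 1 z = -G2 U r φ 3 z := by
  have u1 : ∀ (a : Fin 4) (τ : ℤ × ℤ), Tendsto
      (fun n => r n ^ 2 * PotAx894.D1 (fun g => φ n g a) (flr (r n) z + τ)) U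
      (𝓝 (G1 U r φ a z)) := by
    intro a τ
    have h := G1_spec hr hΩ hex a
    have := (locUnif_shift hr hΩ h.2 h.1 τ).tendsto hr hΩ h.1 hz
    refine this.congr fun n => ?_
    simp only [Lim1x943.D1, nc, PotAx894.D1, Lim1x943.e1, PotAx894.e1]
    ring
  have u2 : ∀ (a : Fin 4) (τ : ℤ × ℤ), Tendsto
      (fun n => r n ^ 2 * PotAx894.D2 (fun g => φ n g a) (flr (r n) z + τ)) U
      (𝓝 (G2 U r φ a z)) := by
    intro a τ
    have h := G2_spec hr hΩ hex a
    have := (locUnif_shift hr hΩ h.2 h.1 τ).tendsto hr hΩ h.1 hz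
    refine this.congr fun n => ?_
    simp only [Lim1x943.D2, nc, PotAx894.D2, Lim1x943.e2, PotAx894.e2]
    ring
  obtain ⟨g1, g2⟩ := G2_rel hr hΩ hex hz
  have hs := Tr1x40.sq2
  have c1 : G1 U r φ 3 z + Real.sqrt 2 / 2 * (G2 U r φ 2 z + G2 U r φ 0 z) = 0 := by
    have t := (u1 3 0).add (((u2 2 (-PotAx894.e2)).add (u2 0 0)).const_mul (Real.sqrt 2 / 2))
    refine tendsto_nhds_unique (t.congr' ?_) (tendsto_const_nhds (x := (0 : ℝ)))
    filter_upwards [hex.at hr hΩ hz] with n hn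
    have := Intx811.cr1 hn.1 hn.2
    rw [sub_eq_add_neg] at this
    rw [add_zero]
    linear_combination r n ^ 2 * this
  have c2 : G1 U r φ 1 z - Real.sqrt 2 / 2 * (G2 U r φ 2 z - G2 U r φ 0 z) = 0 := by
    have t := (u1 1 (-PotAx894.e1)).sub
      (((u2 2 (-PotAx894.e2)).sub (u2 0 0)).const_mul (Real.sqrt 2 / 2))
    refine tendsto_nhds_unique (t.congr' ?_) (tendsto_const_nhds (x := (0 : ℝ)))
    filter_upwards [hex.at hr hΩ hz] with n hn
    have := Intx811.cr2 hn.1 hn.2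
    rw [sub_eq_add_neg (flr (r n) z), sub_eq_add_neg (flr (r n) z)] at this
    rw [add_zero]
    linear_combination r n ^ 2 * this
  constructor
  · linear_combination c1 - Real.sqrt 2 / 2 * g1 + G2 U r φ 1 z / 2 * hs
  · linear_combination c2 + Real.sqrt 2 / 2 * g2 - G2 U r φ 3 z / 2 * hs

theorem amp_differentiableOn (hr : Tendsto r U atTop) (hΩ : IsOpen Ω) (hex : ExOn U r Ω w φ) :
    DifferentiableOn ℂ (amp U r φ) Ω := by
  refine differentiableOn_of_cr (A := L U r φ 1) (B := fun z => -L U r φ 3 z)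
    (A1 := G1 U r φ 1) (A2 := G2 U r φ 1) (B1 := fun z => -G1 U r φ 3 z)
    (B2 := fun z => -G2 U r φ 3 z) (fun z hz => L_deriv hr hΩ hex 1 hz) (fun z hz => ?_)
    (fun z hz => ?_) (fun z hz => ?_)
  · have := (L_deriv hr hΩ hex 3 hz).neg
    have e : (-G1 U r φ 3 z) • Complex.reCLM + (-G2 U r φ 3 z) • Complex.imCLM
        = -(G1 U r φ 3 z • Complex.reCLM + G2 U r φ 3 z • Complex.imCLM) := by
      refine ContinuousLinearMap.ext fun v => ?_
      change -G1 U r φ 3 z * v.re + -G2 U r φ 3 z * v.im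
        = -(G1 U r φ 3 z * v.re + G2 U r φ 3 z * v.im)
      ring
    rw [e]
    exact this
  · rw [(cr_lim hr hΩ hex hz).2]
  · rw [(cr_lim hr hΩ hex hz).1]

theorem L_eq_lc (hr : Tendsto r U atTop) (hΩ : IsOpen Ω) (hex : ExOn U r Ω w φ)
    {z : ℂ} (hz : z ∈ Ω) (h : Fin 4) : L U r φ h z = lc (amp U r φ z) h := by
  obtain ⟨g1, g2⟩ := L_zero_two hr hΩ hex hz
  have hs := Tr1x40.sq2
  have hp := Tr1x40.sq2_pos
  fin_cases h
  · simp only [Fin.zero_eta, lc_zero, amp]
    rw [eq_div_iff hp.ne']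
    linear_combination Real.sqrt 2 / 2 * g1 - Real.sqrt 2 / 2 * g2
      + (-L U r φ 1 z / 2 + L U r φ 3 z / 2) * hs
  · simp [amp]
  · simp only [Fin.reduceFinMk, lc_two, amp]
    rw [eq_div_iff hp.ne']
    linear_combination Real.sqrt 2 / 2 * g1 + Real.sqrt 2 / 2 * g2
      + (-L U r φ 1 z / 2 - L U r φ 3 z / 2) * hs
  · simp [amp]

/-- **Limits of exact solutions**: light fields of holomorphic functions, locally uniformly. -/
theorem exact_limit (hr : Tendsto r U atTop) (hΩ : IsOpen Ω) (hex : ExOn U r Ω w φ) :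
    DifferentiableOn ℂ (amp U r φ) Ω ∧
    (∀ h, LocUnif U r Ω (fun n f => r n * φ n f h) fun z => lc (amp U r φ z) h) ∧
    (∀ z ∈ Ω, ∀ h, Tendsto (fun n => r n * φ n (flr (r n) z) h) U (𝓝 (lc (amp U r φ z) h))) := by
  refine ⟨amp_differentiableOn hr hΩ hex, fun h => ?_, fun z hz h => ?_⟩
  · exact (L_spec hr hΩ hex h).2.congr fun z hz => L_eq_lc hr hΩ hex hz h
  · rw [← L_eq_lc hr hΩ hex hz h]
    exact Lim1x943.lim_tendsto hr hΩ (hex.bds hr h).b0 hz





end main

end Crest.Agent.R165.Lim3x943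
end
end

-- ▼ part R165/MacC5_943
section

/-!
# Row 165 (S0250), M3: the limit is holomorphic off the sources

`gz_near` : comparison of the gauges centred at two close points
`exOn` : near a point off the sources the gauged fields are exact solutions
`F1` : the pointwise limit in the gauge centred at the point
-/

set_option autoImplicit false

noncomputable section

namespace Crest.Agent.R165.MacC5x943

open Filter Topology MeasureTheory Metric
open Crest.ProbabilityR.IsingModel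
open Crest.Agent.R165.Tr1x40 hiding sq2 pt
open Crest.Agent.R165.Tr2x40
open Crest.Agent.R165.RIfx891 (lv)
open Crest.Agent.R165.Mac0x622 Crest.Agent.R165.Mac1x622
open Crest.Agent.R165.MacIx610 (Bdd NCo)
open Crest.Agent.R165.Lim1x943 (pt flr LocUnif)
open Crest.Agent.R165.Lim2x943 (sq2)
open Crest.Agent.R165.Lim3x943 (ExOn lc)
open Crest.Agent.R165.Relx943 (N2 dif1 dif2 N2_shift)
open Crest.Agent.R165.PotAx894 (FS lap Q)
open Crest.Agent.R165.Embx622 (emb)
open Crest.Agent.R165.MacC1x943 Crest.Agent.R165.MacC2x943 Crest.Agent.R165.MacC3x943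
open Crest.Agent.R165.MacC4x943

theorem lc_eq_lv (c : ℂ) (h : Fin 4) : lc c h = lv c h := by
  fin_cases h <;> rfl

theorem pt_eq (a : ℝ) (f : Face) : pt (1 / a) f = meshPoint a f := by
  apply Complex.ext
  · simp only [pt, meshPoint_re]
    rw [div_div_eq_mul_div, div_one, mul_comm]
  · simp only [pt, meshPoint_im]
    rw [div_div_eq_mul_div, div_one, mul_comm]

/-- the height comparison is eventually decided off the horizontal line of the tip -/
theorem height_ev {a : ℕ → ℝ} (hpos : ∀ k, 0 < a k) (hlim : Tendsto a atTop (𝓝 0))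
    {v : ℕ → Face} {y : ℂ} (tip : Tendsto (fun k => meshPoint (a k) (v k)) atTop (𝓝 y)) {u : ℂ}
    (hu : y.im ≠ u.im) : ∀ᶠ k in atTop, ((v k).2 ≤ (meshIndex (a k) u).2 ↔ y.im < u.im) := by
  have ti : Tendsto (fun k => a k * ((v k).2 : ℝ)) atTop (𝓝 y.im) :=
    (Complex.continuous_im.tendsto _).comp tip
  have tu : Tendsto (fun k => a k * ((meshIndex (a k) u).2 : ℝ)) atTop (𝓝 u.im) := by
    have h1 : Tendsto (fun k => meshPoint (a k) (meshIndex (a k) u)) atTop (𝓝 u) := by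
      rw [tendsto_iff_norm_sub_tendsto_zero]
      refine squeeze_zero (fun _ => norm_nonneg _) (fun k => Upx622.norm_mesh_sub (hpos k) u) ?_
      simpa using hlim.const_mul 2
    exact (Complex.continuous_im.tendsto _).comp h1
  rcases lt_or_gt_of_ne hu with h | h
  · have h1 := ti.eventually (eventually_lt_nhds (show y.im < (y.im + u.im) / 2 by linarith))
    have h2 := tu.eventually (eventually_gt_nhds (show u.im > (y.im + u.im) / 2 by linarith))
    filter_upwards [h1, h2] with k h1 h2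
    have h3 : ((v k).2 : ℝ) < ((meshIndex (a k) u).2 : ℝ) :=
      lt_of_mul_lt_mul_left (h1.trans h2) (hpos k).le
    have h4 : (v k).2 < (meshIndex (a k) u).2 := by exact_mod_cast h3
    exact ⟨fun _ => h, fun _ => h4.le⟩
  · have h1 := ti.eventually (eventually_gt_nhds (show y.im > (y.im + u.im) / 2 by linarith))
    have h2 := tu.eventually (eventually_lt_nhds (show u.im < (y.im + u.im) / 2 by linarith))
    filter_upwards [h1, h2] with k h1 h2
    have h3 : ((meshIndex (a k) u).2 : ℝ) < ((v k).2 : ℝ) :=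
      lt_of_mul_lt_mul_left (h2.trans h1) (hpos k).le
    have h4 : (meshIndex (a k) u).2 < (v k).2 := by exact_mod_cast h3
    exact ⟨fun h5 => absurd h5 (not_le.2 h4), fun h5 => absurd h5 (not_lt.2 h.le)⟩

/-- comparison of the gauges centred at close points -/
theorem gz_near {n : ℕ} {x : Fin n → ℂ} {a : ℕ → ℝ} (hpos : ∀ k, 0 < a k)
    (hlim : Tendsto a atTop (𝓝 0)) {V : ℕ → Fin n → Face}
    (tip : ∀ i, Tendsto (fun k => meshPoint (a k) (V k i)) atTop (𝓝 (x i))) {z₁ : ℂ}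
    (hz₁ : ∀ i, x i ≠ z₁) :
    ∃ ρ > 0, ∀ z ∈ ball z₁ ρ, ∀ᶠ k in atTop,
      gz x z (V k) (meshIndex (a k) z) = gc x z₁ z * gz x z₁ (V k) (meshIndex (a k) z) := by
  classical
  have key : ∀ i, ∃ ρ > 0, ∀ z ∈ ball z₁ ρ, ∀ᶠ k in atTop,
      (if rel (x i) z ∧ (V k i).2 ≤ (meshIndex (a k) z).2 then (-1 : ℝ) else 1) =
        (if rel (x i) z₁ ∧ (x i).im < z.im then (-1 : ℝ) else 1) *
          (if rel (x i) z₁ ∧ (V k i).2 ≤ (meshIndex (a k) z).2 then (-1 : ℝ) else 1) := by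
    intro i
    have hre : ∀ {z : ℂ} {ρ : ℝ}, z ∈ ball z₁ ρ → |z.re - z₁.re| < ρ ∧ |z.im - z₁.im| < ρ := by
      intro z ρ hz
      rw [mem_ball, dist_eq_norm] at hz
      have h1 := (Complex.abs_re_le_norm (z - z₁)).trans_lt hz
      have h2 := (Complex.abs_im_le_norm (z - z₁)).trans_lt hz
      rw [Complex.sub_re] at h1
      rw [Complex.sub_im] at h2
      exact ⟨h1, h2⟩
    by_cases hrel : rel (x i) z₁
    · refine ⟨z₁.re - (x i).re, by linarith [hrel.2], fun z hz => ?_⟩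
      have h1 := (abs_lt.1 (hre hz).1).1
      have hlt : (x i).re < z.re := by linarith
      by_cases him : (x i).im = z.im
      · have hrz : rel (x i) z := ⟨him, hlt⟩
        have hnl : ¬ (x i).im < z.im := by rw [him]; exact lt_irrefl _
        refine Eventually.of_forall fun k => ?_
        simp [hrel, hrz, hnl]
      · have hrz : ¬ rel (x i) z := fun hc => him hc.1
        filter_upwards [height_ev hpos hlim (tip i) him] with k hk
        by_cases h3 : (x i).im < z.im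
        · have := hk.2 h3
          simp [hrel, hrz, h3, this]
        · have : ¬ (V k i).2 ≤ (meshIndex (a k) z).2 := fun hc => h3 (hk.1 hc)
          simp [hrz, h3, this]
    · have hrz : ∃ ρ > 0, ∀ z ∈ ball z₁ ρ, ¬ rel (x i) z := by
        by_cases him : (x i).im = z₁.im
        · have h2 : z₁.re < (x i).re := by
            rcases lt_trichotomy (x i).re z₁.re with h | h | h
            · exact absurd ⟨him, h⟩ hrel
            · exact absurd (Complex.ext h him) (hz₁ i)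
            · exact h
          refine ⟨(x i).re - z₁.re, by linarith, fun z hz hc => ?_⟩
          have h3 := (abs_lt.1 (hre hz).1).2
          have := hc.2
          linarith
        · refine ⟨|(x i).im - z₁.im|, abs_pos.2 (sub_ne_zero.2 him), fun z hz hc => ?_⟩
          have h3 := (hre hz).2
          rw [← hc.1] at h3
          exact lt_irrefl _ h3
      obtain ⟨ρ, hρ, hb⟩ := hrz
      refine ⟨ρ, hρ, fun z hz => Eventually.of_forall fun k => ?_⟩
      simp [hrel, hb z hz]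
  choose ρ hρ hk using key
  obtain ⟨r, hr0, hr⟩ : ∃ r > 0, ∀ i, r ≤ ρ i := by
    rcases isEmpty_or_nonempty (Fin n) with he | he
    · exact ⟨1, one_pos, fun i => (he.false i).elim⟩
    · refine ⟨Finset.univ.inf' Finset.univ_nonempty ρ, ?_, fun i =>
        Finset.inf'_le ρ (Finset.mem_univ i)⟩
      rw [gt_iff_lt, Finset.lt_inf'_iff]
      exact fun i _ => hρ i
  refine ⟨r, hr0, fun z hz => ?_⟩
  filter_upwards [eventually_all.2 fun i => hk i z (ball_subset_ball (hr i) hz)] with k hk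
  unfold gz gc
  rw [← Finset.prod_mul_distrib]
  exact Finset.prod_congr rfl fun i _ => hk i

/-- the gauged field, normalised -/
def gf {n : ℕ} (x : Fin n → ℂ) (z₁ : ℂ) (a : ℕ → ℝ) (V : ℕ → Fin n → Face) (φ : ℕ → Fld) :
    ℕ → Fld := fun k f h => a k * (gz x z₁ (V k) f * φ k f h)

/-- the gauged fields are exact near `z₁` -/
theorem exOn {n : ℕ} {x : Fin n → ℂ} {a : ℕ → ℝ} {w φ : ℕ → Fld} {V : ℕ → Fin n → Face}
    (hpos : ∀ k, 0 < a k) (hφ : Bdd a φ) {U : Filter ℕ} (hU : U ≤ atTop) {z₁ : ℂ} {ρ : ℝ}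
    (hρ : 0 < ρ)
    (hw : ∀ᶠ k in atTop, ∀ f : Face, ‖meshPoint (a k) f - z₁‖ < ρ → ∀ h,
      w k f h = xc * (gz x z₁ (V k) f * gz x z₁ (V k) (nb f h)))
    (hex : ∀ᶠ k in atTop, ∀ f : Face, ‖meshPoint (a k) f - z₁‖ < ρ → ∀ h,
      A (w k) (φ k) f h = 0) :
    ExOn U (fun k => 1 / a k) (ball z₁ (ρ / 2)) (fun _ => cst xc) (gf x z₁ a V φ) := by
  intro K _ hKΩ
  obtain ⟨Cf, hCf⟩ := hφ
  refine ⟨ρ / 4, by positivity, Cf, ?_⟩
  filter_upwards [hU hw, hU hex, hU hCf] with k h1 h2 h3 f hf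
  have ha := hpos k
  simp only [pt_eq] at hf
  have hf1 := hKΩ hf
  rw [mem_ball, dist_eq_norm] at hf1
  refine ⟨fun g _ h => rfl, fun g hg h => ?_, ?_⟩
  · have hg1 : ‖meshPoint (a k) g - z₁‖ < ρ := by
      rw [PotAx894.mem_Q] at hg
      have hfl : (⌊ρ / 4 * (1 / a k)⌋₊ : ℝ) ≤ ρ / 4 * (1 / a k) := Nat.floor_le (by positivity)
      have e1 : |((g.1 - f.1 : ℤ) : ℝ)| ≤ ρ / 4 * (1 / a k) := by
        have h4 : |((g.1 - f.1 : ℤ) : ℝ)| ≤ (⌊ρ / 4 * (1 / a k)⌋₊ : ℝ) := by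
          rw [← Int.cast_abs]; exact_mod_cast hg.1
        exact h4.trans hfl
      have e2 : |((g.2 - f.2 : ℤ) : ℝ)| ≤ ρ / 4 * (1 / a k) := by
        have h4 : |((g.2 - f.2 : ℤ) : ℝ)| ≤ (⌊ρ / 4 * (1 / a k)⌋₊ : ℝ) := by
          rw [← Int.cast_abs]; exact_mod_cast hg.2
        exact h4.trans hfl
      have e3 := Upx622.meshPoint_sub (a k) g f
      rw [abs_of_pos ha] at e3
      have e4 : a k * (|((g.1 - f.1 : ℤ) : ℝ)| + |((g.2 - f.2 : ℤ) : ℝ)|) ≤ ρ / 2 := by
        calc a k * (|((g.1 - f.1 : ℤ) : ℝ)| + |((g.2 - f.2 : ℤ) : ℝ)|)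
            ≤ a k * (ρ / 4 * (1 / a k) + ρ / 4 * (1 / a k)) := by gcongr
          _ = ρ / 2 := by field_simp; ring
      have e5 : ‖meshPoint (a k) g - z₁‖ ≤ ‖meshPoint (a k) g - meshPoint (a k) f‖ +
          ‖meshPoint (a k) f - z₁‖ := norm_sub_le_norm_sub_add_norm_sub _ _ _
      linarith
    have e1 : A (cst xc) (fun f h => gz x z₁ (V k) f * φ k f h) g h =
        gz x z₁ (V k) g * A (w k) (φ k) g h := by
      rw [← A_gauge (gz x z₁ (V k)) (w k) (φ k) g h (gz_sq _ _ _ _)]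
      apply A_congr
      simp only [cst, gw]
      rw [h1 g hg1 h]
      have h1 := gz_sq x z₁ (V k) g
      have h2 := gz_sq x z₁ (V k) (nb g h)
      linear_combination (-xc * gz x z₁ (V k) (nb g h) ^ 2) * h1 - xc * h2
    unfold gf
    rw [A_smul, e1, h2 g hg1 h, mul_zero, mul_zero]
  · refine le_trans (le_of_eq ?_) (h3 (Q f ⌊ρ / 4 * (1 / a k)⌋₊))
    unfold Intx811.mass
    rw [Finset.mul_sum]
    refine Finset.sum_congr rfl fun g _ => ?_
    simp only [nsq, gf, Finset.mul_sum]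
    refine Finset.sum_congr rfl fun h _ => ?_
    have := gz_sq x z₁ (V k) g
    rw [mul_pow, mul_pow, this, one_mul]

/-- the pointwise limit in the gauge centred at the point -/
def F1 {n : ℕ} (x : Fin n → ℂ) (a : ℕ → ℝ) (V : ℕ → Fin n → Face) (φ : ℕ → Fld)
    (U : Filter ℕ) (z : ℂ) : ℂ :=
  ⟨limUnder U fun k => gz x z (V k) (meshIndex (a k) z) * φ k (meshIndex (a k) z) 1,
    -limUnder U fun k => gz x z (V k) (meshIndex (a k) z) * φ k (meshIndex (a k) z) 3⟩

/-- local description of `F1` -/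
theorem F1_spec {O : Set ℂ} {n : ℕ} {x : Fin n → ℂ} {a : ℕ → ℝ} {w : ℕ → Fld}
    {V : ℕ → Fin n → Face} (H : OmSeq O x a w V) (hO : IsOpen O) (hx : ∀ i, x i ∉ O)
    {φ : ℕ → Fld} (hφ : Bdd a φ) (U : Ultrafilter ℕ) (hU : (U : Filter ℕ) ≤ atTop) {z₁ : ℂ}
    (hz : z₁ ∈ O) {r : ℝ} (hr : 0 < r)
    (hex : ∀ᶠ k in atTop, ∀ f : Face, ‖meshPoint (a k) f - z₁‖ < r → ∀ h,
      A (w k) (φ k) f h = 0) :
    ∃ s > 0, ∃ f₁ : ℂ → ℂ, DifferentiableOn ℂ f₁ (ball z₁ s) ∧
      (∀ h, LocUnif U (fun k => 1 / a k) (ball z₁ s)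
        (fun k f => gz x z₁ (V k) f * φ k f h) fun z => lv (f₁ z) h) ∧
      ∀ z ∈ ball z₁ s, F1 x a V φ U z = (gc x z₁ z : ℂ) * f₁ z := by
  obtain ⟨ρ₀, hρ₀, -, hw⟩ := weights_gauge H hO hx hz
  obtain ⟨ρ₂, hρ₂, hnear⟩ := gz_near H.pos H.lim H.tip (z₁ := z₁) (fun i hc => hx i (hc ▸ hz))
  set ρ := min ρ₀ r with hρ
  have hρ0 : 0 < ρ := lt_min hρ₀ hr
  have hE := exOn (x := x) (V := V) (φ := φ) (w := w) H.pos hφ hU hρ0
    (hw.mono fun k hk f hf => hk f (hf.trans_le (min_le_left _ _)))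
    (hex.mono fun k hk f hf => hk f (hf.trans_le (min_le_right _ _)))
  have hrt : Tendsto (fun k => 1 / a k) (U : Filter ℕ) atTop :=
    Relx943.tendsto_one_div (H.tendsto_pos.mono_left hU)
  obtain ⟨h1, h2, h3⟩ := Lim3x943.exact_limit hrt isOpen_ball hE
  set f₁ := Lim3x943.amp U (fun k => 1 / a k) (gf x z₁ a V φ) with hf₁
  have hgf : ∀ k f h, 1 / a k * gf x z₁ a V φ k f h = gz x z₁ (V k) f * φ k f h := by
    intro k f h
    have := (H.pos k).ne'
    unfold gf
    field_simp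
  set s := min (ρ / 2) ρ₂ with hs
  have hs0 : 0 < s := lt_min (by positivity) hρ₂
  have hsub1 : ball z₁ s ⊆ ball z₁ (ρ / 2) := ball_subset_ball (min_le_left _ _)
  have hsub2 : ball z₁ s ⊆ ball z₁ ρ₂ := ball_subset_ball (min_le_right _ _)
  refine ⟨s, hs0, f₁, h1.mono hsub1, fun h => ?_, fun z hz => ?_⟩
  · have := (h2 h).mono hsub1
    simp only [hgf, lc_eq_lv] at this
    exact this
  · have key : ∀ h, limUnder (U : Filter ℕ) (fun k => gz x z (V k) (meshIndex (a k) z) *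
        φ k (meshIndex (a k) z) h) = gc x z₁ z * lv (f₁ z) h := by
      intro h
      have h4 := h3 z (hsub1 hz) h
      simp only [hgf, lc_eq_lv, Relx943.flr_eq] at h4
      have h5 := h4.const_mul (gc x z₁ z)
      refine Tendsto.limUnder_eq (h5.congr' ?_)
      filter_upwards [hU (hnear z (hsub2 hz))] with k hk
      rw [hk]
      ring
    unfold F1
    rw [key 1, key 3]
    apply Complex.ext
    · simp [lv]
    · simp [lv]

/-- uniform convergence gives `L²` convergence on bounded sets -/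
theorem E_of_unif {U : Filter ℕ} {B : Set ℂ} (hB : volume B ≠ ⊤) (hBm : MeasurableSet B)
    {g : ℕ → ℂ → ℝ} (h : ∀ η : ℝ, 0 < η → ∀ᶠ k in U, ∀ z ∈ B, |g k z| ≤ η) :
    Tendsto (fun k => E (volume.restrict B) (g k)) U (𝓝 0) := by
  rw [E_tendsto_zero]
  rw [ENNReal.tendsto_nhds_zero]
  intro ε hε
  -- choose `η` with `η² vol ≤ ε`
  have ht : Tendsto (fun η : ℝ => ENNReal.ofReal (η ^ 2) * volume B) (𝓝[>] 0) (𝓝 0) := by
    have h1 : Tendsto (fun η : ℝ => ENNReal.ofReal (η ^ 2)) (𝓝[>] 0) (𝓝 0) := by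
      have h2 : Tendsto (fun η : ℝ => η ^ 2) (𝓝 0) (𝓝 0) := by
        have := (continuous_pow 2).tendsto (0 : ℝ)
        simpa using this
      have := ENNReal.tendsto_ofReal (h2.mono_left (nhdsWithin_le_nhds (s := Set.Ioi (0 : ℝ))))
      simpa using this
    have := ENNReal.Tendsto.mul_const h1 (Or.inr hB)
    simpa using this
  have hev := (ENNReal.tendsto_nhds_zero.1 ht) ε hε
  obtain ⟨η, hη1, hη2⟩ := (hev.and self_mem_nhdsWithin).exists
  filter_upwards [h η hη2] with k hk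
  refine le_trans ?_ hη1
  calc (∫⁻ z in B, sq2 (g k z)) ≤ ∫⁻ _ in B, ENNReal.ofReal (η ^ 2) := by
        refine setLIntegral_mono' hBm fun z hz => ?_
        exact ENNReal.ofReal_le_ofReal (sq_le_sq' (abs_le.1 (hk z hz)).1 (abs_le.1 (hk z hz)).2)
    _ = ENNReal.ofReal (η ^ 2) * volume B := by
        rw [lintegral_const, Measure.restrict_apply_univ]

/-- the strong limit is the light field of `F1` off the sources -/
theorem F1_ae {O : Set ℂ} {n : ℕ} {x : Fin n → ℂ} {a : ℕ → ℝ} {w : ℕ → Fld}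
    {V : ℕ → Fin n → Face} (H : OmSeq O x a w V) (hO : IsOpen O) (hx : ∀ i, x i ∉ O)
    {φ : ℕ → Fld} (hφ : Bdd a φ) (U : Ultrafilter ℕ) (hU : (U : Filter ℕ) ≤ atTop) {z₁ : ℂ}
    (hz : z₁ ∈ O) {r : ℝ} (hr : 0 < r)
    (hex : ∀ᶠ k in atTop, ∀ f : Face, ‖meshPoint (a k) f - z₁‖ < r → ∀ h,
      A (w k) (φ k) f h = 0) {h : Fin 4} {Φ : ℂ → ℝ} (hΦ : MemLp Φ 2)
    (hc : Tendsto (fun k => E volume (fun z => emb (a k) (fun f => φ k f h) z - Φ z)) U (𝓝 0)) :
    ∃ s > 0, ∀ᵐ z ∂(volume.restrict (ball z₁ s)), Φ z = lv (F1 x a V φ U z) h := by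
  obtain ⟨s, hs, f₁, hd, hu, hF⟩ := F1_spec H hO hx hφ U hU hz hr hex
  have hrt : Tendsto (fun k => 1 / a k) (U : Filter ℕ) atTop :=
    Relx943.tendsto_one_div (H.tendsto_pos.mono_left hU)
  refine ⟨s / 2, by positivity, ?_⟩
  set B := ball z₁ (s / 2) with hB
  have hcl : closedBall z₁ (s / 2) ⊆ ball z₁ s := closedBall_subset_ball (by linarith)
  have hBs : B ⊆ ball z₁ s := ball_subset_closedBall.trans hcl
  have hcont : ContinuousOn (fun z => lv (f₁ z) h) (ball z₁ s) :=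
    (lv_continuous h).comp_continuousOn hd.continuousOn
  -- uniform convergence on `B`
  have t2 : Tendsto (fun k => E (volume.restrict B) (fun z =>
      emb (a k) (fun f => gz x z₁ (V k) f * φ k f h) z - lv (f₁ z) h)) U (𝓝 0) := by
    refine E_of_unif measure_ball_lt_top.ne measurableSet_ball fun η hη => ?_
    have := (hu h).unif hrt isOpen_ball hcont (isCompact_closedBall z₁ (s / 2)) hcl hη
    filter_upwards [this] with k hk z hz
    have := hk z (ball_subset_closedBall hz)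
    rwa [Relx943.flr_eq] at this
  -- gauged strong convergence
  have t1 : Tendsto (fun k => E (volume.restrict B) (fun z =>
      gc x z₁ z * Φ z - emb (a k) (fun f => gz x z₁ (V k) f * φ k f h) z)) U (𝓝 0) := by
    have herr := (gauge_err (B := B) H.pos H.lim H.tip z₁ (hΦ.restrict B)).mono_left hU
    have hsum := hc.add herr
    rw [add_zero] at hsum
    refine tendsto_of_tendsto_of_tendsto_of_le_of_le tendsto_const_nhds hsum (fun _ => zero_le)
      fun k => ?_
    have hΦm : AEStronglyMeasurable Φ (volume.restrict B) := hΦ.1.restrict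
    have hm1 : AEStronglyMeasurable (fun z => -(emb (a k) (gz x z₁ (V k)) z *
        (emb (a k) (fun f => φ k f h) z - Φ z))) (volume.restrict B) :=
      (((Embx622.emb_measurable _ _).aestronglyMeasurable).mul
        ((Embx622.emb_measurable _ _).aestronglyMeasurable.sub hΦm)).neg
    have hm2 : AEStronglyMeasurable (fun z => -((emb (a k) (gz x z₁ (V k)) z - gc x z₁ z) * Φ z))
        (volume.restrict B) :=
      (((Embx622.emb_measurable _ _).sub (measurable_gc x z₁)).aestronglyMeasurable.mul hΦm).neg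
    calc E (volume.restrict B) (fun z =>
          gc x z₁ z * Φ z - emb (a k) (fun f => gz x z₁ (V k) f * φ k f h) z)
        = E (volume.restrict B) (fun z => -(emb (a k) (gz x z₁ (V k)) z *
          (emb (a k) (fun f => φ k f h) z - Φ z)) +
            -((emb (a k) (gz x z₁ (V k)) z - gc x z₁ z) * Φ z)) := by
          congr 1
          funext z
          simp only [emb]
          ring
      _ ≤ E (volume.restrict B) (fun z => -(emb (a k) (gz x z₁ (V k)) z *
          (emb (a k) (fun f => φ k f h) z - Φ z))) +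
          E (volume.restrict B) (fun z => -((emb (a k) (gz x z₁ (V k)) z - gc x z₁ z) * Φ z)) :=
          E_add_le hm1 hm2
      _ ≤ _ := by
          refine add_le_add ?_ (le_of_eq ?_)
          · refine le_trans (le_of_eq ?_) (E_restrict_le B _)
            refine eLpNorm_congr_norm_ae (Eventually.of_forall fun z => ?_)
            rw [norm_neg, norm_mul]
            have : ‖emb (a k) (gz x z₁ (V k)) z‖ = 1 := gz_abs _ _ _ _
            rw [this, one_mul]
          · exact eLpNorm_congr_norm_ae (Eventually.of_forall fun z => norm_neg _)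
  have t3 : E (volume.restrict B) (fun z => gc x z₁ z * Φ z - lv (f₁ z) h) = 0 := by
    have hsum := t1.add t2
    rw [add_zero] at hsum
    refine le_antisymm (ge_of_tendsto' hsum fun k => ?_) zero_le
    have hΦm : AEStronglyMeasurable Φ (volume.restrict B) := hΦ.1.restrict
    have hlm : AEStronglyMeasurable (fun z => lv (f₁ z) h) (volume.restrict B) :=
      (hcont.mono hBs).aestronglyMeasurable measurableSet_ball
    calc E (volume.restrict B) (fun z => gc x z₁ z * Φ z - lv (f₁ z) h)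
        = E (volume.restrict B) (fun z => (gc x z₁ z * Φ z -
          emb (a k) (fun f => gz x z₁ (V k) f * φ k f h) z) +
          (emb (a k) (fun f => gz x z₁ (V k) f * φ k f h) z - lv (f₁ z) h)) := by
          congr 1
          funext z
          ring
      _ ≤ _ := E_add_le
          (((measurable_gc x z₁).aestronglyMeasurable.mul hΦm).sub
            (Embx622.emb_measurable _ _).aestronglyMeasurable)
          ((Embx622.emb_measurable _ _).aestronglyMeasurable.sub hlm)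
  have hΦm : AEStronglyMeasurable Φ (volume.restrict B) := hΦ.1.restrict
  have hlm : AEStronglyMeasurable (fun z => lv (f₁ z) h) (volume.restrict B) :=
    (hcont.mono hBs).aestronglyMeasurable measurableSet_ball
  have h6 := (eLpNorm_eq_zero_iff (((measurable_gc x z₁).aestronglyMeasurable.mul hΦm).sub hlm)
    (by norm_num)).1 t3
  filter_upwards [h6, ae_restrict_mem measurableSet_ball] with z hz1 hz2
  have h7 : gc x z₁ z * Φ z - lv (f₁ z) h = 0 := hz1
  rw [hF z (hBs hz2), lv_real_mul]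
  have h8 := gc_sq x z₁ z
  linear_combination (gc x z₁ z) * h7 - Φ z * h8

end Crest.Agent.R165.MacC5x943
end
end

-- ▼ part R165/MacC6_943

/-!
# Row 165 (S0250), M3: **the compactness theorem** `Comp D` of `MacI_610`
-/

set_option autoImplicit false
set_option linter.unusedSimpArgs false
set_option linter.unusedVariables false

noncomputable section

namespace Crest.Agent.R165.MacC6x943

open Filter Topology MeasureTheory Metric
open Crest.ProbabilityR.IsingModel
open Crest.Agent.R165.Tr1x40 hiding sq2 pt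
open Crest.Agent.R165.Tr2x40
open Crest.Agent.R165.RIfx891 (lv lv_amp)
open Crest.Agent.R165.Mac0x622 Crest.Agent.R165.Mac1x622
open Crest.Agent.R165.MacIx610
open Crest.Agent.R165.Lim2x943 (sq2)
open Crest.Agent.R165.PotAx894 (FS)
open Crest.Agent.R165.Embx622 (emb)
open Crest.Agent.R165.MacC1x943 Crest.Agent.R165.MacC2x943 Crest.Agent.R165.MacC3x943
open Crest.Agent.R165.MacC4x943 Crest.Agent.R165.MacC5x943

theorem Pl_sub (p q : Fin 4 → ℝ) (h : Fin 4) : Pl p h - Pl q h = Pl (fun j => p j - q j) h := by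
  fin_cases h <;> simp only [Pl, inv_2sq2] <;> ring

theorem abs_Pl_le (p : Fin 4 → ℝ) (h : Fin 4) : |Pl p h| ≤ ∑ j, |p j| := by
  have h1 : Pl p h ^ 2 ≤ (∑ j, |p j|) ^ 2 := by
    calc Pl p h ^ 2 ≤ nsq (Pl p) := Finset.single_le_sum (f := fun b => Pl p b ^ 2)
          (fun _ _ => sq_nonneg _) (Finset.mem_univ h)
      _ ≤ nsq p := by rw [← lt_eq_nsq]; exact lt_le p
      _ = ∑ j, |p j| ^ 2 := by simp only [nsq, sq_abs]
      _ ≤ (∑ j, |p j|) ^ 2 := by
          simp only [Fin.sum_univ_four]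
          have h0 := abs_nonneg (p 0)
          have h1 := abs_nonneg (p 1)
          have h2 := abs_nonneg (p 2)
          have h3 := abs_nonneg (p 3)
          nlinarith [mul_nonneg h0 h1, mul_nonneg h0 h2, mul_nonneg h0 h3, mul_nonneg h1 h2,
            mul_nonneg h1 h3, mul_nonneg h2 h3]
  exact abs_le_of_sq_le_sq h1 (Finset.sum_nonneg fun _ _ => abs_nonneg _)

theorem Pl_lv (c : ℂ) (h : Fin 4) : Pl (lv c) h = lv c h := by
  have h2 := Tr1x40.sq2
  fin_cases h <;> simp only [Pl, lv, inv_2sq2, div_sq2, Fin.zero_eta, Fin.mk_one,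
    Fin.reduceFinMk]
  · linear_combination (0 : ℝ) * h2
  · linear_combination (c.re / 4) * h2
  · linear_combination (0 : ℝ) * h2
  · linear_combination (-c.im / 4) * h2

theorem continuous_Pl (h : Fin 4) : Continuous fun p : Fin 4 → ℝ => Pl p h := by
  fin_cases h <;> simp only [Pl, Fin.zero_eta, Fin.mk_one, Fin.reduceFinMk] <;> fun_prop

theorem memLp_Pl {Φ : Fin 4 → ℂ → ℝ} (hΦ : ∀ h, MemLp (Φ h) 2) (h : Fin 4) :
    MemLp (fun z => Pl (fun j => Φ j z) h) 2 := by
  have h1 : MemLp (fun z => ∑ j, ‖Φ j z‖) 2 := memLp_finsetSum _ fun j _ => (hΦ j).norm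
  refine h1.of_le ?_ (Eventually.of_forall fun z => ?_)
  · exact ((continuous_Pl h).measurable.comp_aemeasurable
      (aemeasurable_pi_lambda _ fun j => (hΦ j).1.aemeasurable)).aestronglyMeasurable
  · rw [Real.norm_eq_abs, Real.norm_eq_abs,
      abs_of_nonneg (Finset.sum_nonneg fun _ _ => norm_nonneg _)]
    exact abs_Pl_le _ h

theorem E_Pl_le {μ : Measure ℂ} {Φ : Fin 4 → ℂ → ℝ} (hΦ : ∀ h, AEStronglyMeasurable (Φ h) μ)
    (h : Fin 4) : E μ (fun z => Pl (fun j => Φ j z) h) ≤ ∑ j, E μ (Φ j) := by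
  calc E μ (fun z => Pl (fun j => Φ j z) h) ≤ E μ (fun z => ∑ j, ‖Φ j z‖) := by
        refine eLpNorm_mono_real fun z => ?_
        exact abs_Pl_le _ h
    _ ≤ ∑ j, E μ (fun z => ‖Φ j z‖) := by
        have := eLpNorm_sum_le (μ := μ) (p := 2) (s := Finset.univ)
          (f := fun (j : Fin 4) z => ‖Φ j z‖) (fun j _ => (hΦ j).norm) (by norm_num)
        refine le_trans (le_of_eq ?_) this
        unfold E
        congr 1
    _ = ∑ j, E μ (Φ j) := Finset.sum_congr rfl fun j _ => eLpNorm_norm _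

theorem ae_of_local {p : ℂ → Prop} {Ω : Set ℂ} (hΩ : MeasurableSet Ω)
    (h : ∀ z ∈ Ω, ∃ s > 0, ∀ᵐ u ∂(volume.restrict (ball z s)), p u) : ∀ᵐ z, z ∈ Ω → p z := by
  rw [ae_iff]
  refine measure_null_of_locally_null _ fun z hz => ?_
  have hzΩ : z ∈ Ω := by
    by_contra hc
    exact hz fun h => absurd h hc
  obtain ⟨s, hs, hp⟩ := h z hzΩ
  refine ⟨{u | ¬ (u ∈ Ω → p u)} ∩ ball z s,
    Filter.inter_mem self_mem_nhdsWithin (mem_nhdsWithin_of_mem_nhds (ball_mem_nhds z hs)), ?_⟩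
  rw [ae_restrict_iff' measurableSet_ball, ae_iff] at hp
  refine measure_mono_null ?_ hp
  rintro u ⟨hu1, hu2⟩ hc
  exact hu1 fun _ => hc hu2

/-- **COMPACTNESS** for every open `D` with the a priori bounds -/
theorem comp {D : Set ℂ} (hD : IsOpen D) (hBN : BddNC D) : Comp D := by
  classical
  intro n x hx K hK hKO G hG a w V H g φ S U hU
  obtain ⟨hφ, hNC⟩ := hBN n x hx K hK hKO G hG a w V H g φ S
  have HO := H.omSeq
  have hO : IsOpen (Om D x) := hD.sdiff (Set.finite_range x).isClosed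
  have hxO : ∀ i, x i ∉ Om D x := fun i hc => hc.2 ⟨i, rfl⟩
  have hg : Bdd a g := by
    choose C hC0 hC using fun h => MacNC2x917.mass_bd H.pos (hG h) (S.conv h)
    refine ⟨∑ h, C h, ?_⟩
    filter_upwards [eventually_all.2 hC] with k hk T
    simp only [nsq]
    rw [Finset.sum_comm, Finset.mul_sum]
    exact Finset.sum_le_sum fun h _ => hk h T
  have hfin : ∀ k, FSF (φ k) := by
    intro k h
    obtain ⟨I, hI⟩ := S.fin k
    exact FS.of_finset I fun f hf => by rw [hI f hf]; rfl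
  choose Φ hΦ hΦ0 hc using fun h => global_lim HO hO hxO hg hφ hNC hfin S.eqn U hU h
  have hhv := fun h => (heavy_lim H.pos H.lim H.sym (fun k f h => H.plus k f h) hg hφ S.fin S.eqn
    h).mono_left hU
  have hΩ : IsOpen (Om D x \ K) := hO.sdiff hK.isClosed
  have hex : ∀ z₁ ∈ Om D x \ K, ∃ r > 0, ∀ᶠ k in atTop, ∀ f : Face,
      ‖meshPoint (a k) f - z₁‖ < r → ∀ h, A (w k) (φ k) f h = 0 := by
    intro z₁ hz₁
    obtain ⟨r, hr, hb⟩ := Metric.isOpen_iff.1 hK.isClosed.isOpen_compl z₁ hz₁.2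
    refine ⟨r, hr, Eventually.of_forall fun k f hf h => ?_⟩
    rw [S.eqn, S.supp k f (hb (by rwa [mem_ball, dist_eq_norm])) h, mul_zero]
  set F₁ := F1 x a V φ U with hF₁
  set F : ℂ → ℂ := fun z => if z ∈ Om D x \ K then F₁ z else
    if z ∈ D then RIfx891.amp (fun j => Φ j z) else 0 with hF
  -- the light field of `F` is the light part of the limit
  have hF1 : ∀ᵐ z, z ∈ Om D x \ K → ∀ h, Φ h z = lv (F₁ z) h := by
    refine ae_of_local hΩ.measurableSet fun z₁ hz₁ => ?_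
    obtain ⟨r, hr, he⟩ := hex z₁ hz₁
    choose s hs hp using fun h => F1_ae HO hO hxO hφ U hU hz₁.1 hr he (hΦ h) (hc h)
    obtain ⟨t, ht0, ht⟩ : ∃ t > 0, ∀ h, t ≤ s h := by
      refine ⟨Finset.univ.inf' Finset.univ_nonempty s, ?_, fun i =>
        Finset.inf'_le s (Finset.mem_univ i)⟩
      rw [gt_iff_lt, Finset.lt_inf'_iff]
      exact fun i _ => hs i
    refine ⟨t, ht0, ?_⟩
    rw [ae_all_iff]
    exact fun h => ae_restrict_of_ae_restrict_of_subset (ball_subset_ball (ht h)) (hp h)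
  have hae : ∀ᵐ z, ∀ h, lv (F z) h = Pl (fun j => Φ j z) h := by
    filter_upwards [hF1, ae_all_iff.2 hΦ0] with z h1 h2 h
    rw [hF]
    by_cases hz : z ∈ Om D x \ K
    · simp only [hz, if_true]
      have e : (fun j => Φ j z) = lv (F₁ z) := funext fun j => h1 hz j
      rw [e, Pl_lv]
    · by_cases hz' : z ∈ D
      · simp only [hz, hz', if_true, if_false]
        exact lv_amp _ h
      · simp only [hz, hz', if_false]
        have e : (fun j => Φ j z) = fun _ => 0 :=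
          funext fun j => h2 j fun hc => hz' hc.1
        rw [e]
        fin_cases h <;> simp [lv, Pl]
  refine ⟨F, ⟨?_, ?_, fun h => ?_, ?_⟩⟩
  · -- `L²`
    rw [← memLp_re_im_iff]
    constructor
    · refine (memLp_Pl hΦ 1).ae_eq ?_
      filter_upwards [hae] with z hz
      exact (hz 1).symm
    · refine (memLp_Pl hΦ 3).neg.ae_eq ?_
      filter_upwards [hae] with z hz
      have := hz 3
      simp only [lv] at this
      change -Pl (fun j => Φ j z) 3 = (F z).im
      linarith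
  · intro z hz
    have h1 : z ∉ Om D x \ K := fun hc => hz hc.1.1
    simp only [hF, h1, hz, if_false]
  · have hconv : Tendsto (fun k => E volume (fun z => emb (a k) (fun f => φ k f h) z -
        lv (F z) h)) U (𝓝 0) := by
      have hsum : Tendsto (fun k => E volume (fun z => emb (a k) (fun f => Ph (φ k f) h) z) +
          ∑ j, E volume (fun z => emb (a k) (fun f => φ k f j) z - Φ j z)) U (𝓝 (0 + ∑ _j, 0)) :=
        (hhv h).add (tendsto_finsetSum _ fun j _ => hc j)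
      simp only [Finset.sum_const_zero, add_zero] at hsum
      refine tendsto_of_tendsto_of_tendsto_of_le_of_le tendsto_const_nhds hsum (fun _ => zero_le)
        fun k => ?_
      have hm : ∀ j, AEStronglyMeasurable (fun z => emb (a k) (fun f => φ k f j) z - Φ j z)
          volume := fun j =>
        (Embx622.emb_measurable _ _).aestronglyMeasurable.sub (hΦ j).1
      have hmPl : AEStronglyMeasurable (fun z => Pl (fun j =>
          emb (a k) (fun f => φ k f j) z - Φ j z) h) volume :=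
        ((continuous_Pl h).measurable.comp_aemeasurable
          (aemeasurable_pi_lambda _ fun j => (hm j).aemeasurable)).aestronglyMeasurable
      calc E volume (fun z => emb (a k) (fun f => φ k f h) z - lv (F z) h)
          = E volume (fun z => emb (a k) (fun f => Ph (φ k f) h) z +
            Pl (fun j => emb (a k) (fun f => φ k f j) z - Φ j z) h) := by
            refine E_congr ?_
            filter_upwards [hae] with z hz
            rw [hz h, ← Pl_sub]
            have e1 : emb (a k) (fun f => φ k f h) z = Ph (φ k (meshIndex (a k) z)) h +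
                Pl (φ k (meshIndex (a k) z)) h := (Ph_add_Pl _ h).symm
            rw [e1]
            simp only [emb]
            ring
        _ ≤ E volume (fun z => emb (a k) (fun f => Ph (φ k f) h) z) +
            E volume (fun z => Pl (fun j => emb (a k) (fun f => φ k f j) z - Φ j z) h) :=
            E_add_le (Embx622.emb_measurable _ _).aestronglyMeasurable hmPl
        _ ≤ _ := add_le_add le_rfl (E_Pl_le hm h)
    exact E_tendsto_zero.1 hconv
  · refine ⟨fun z => F₁ z * U3x719.rX x z, fun z₁ hz₁ => ?_, fun z hz => ?_⟩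
    · obtain ⟨r, hr, he⟩ := hex z₁ hz₁
      obtain ⟨s, hs, f₁, hd, -, hf⟩ := F1_spec HO hO hxO hφ U hU hz₁.1 hr he
      obtain ⟨t, ht, hd2⟩ := MacTx610.gc_rX_diff (x := x) (z := z₁)
        (fun i hc => hxO i (hc ▸ hz₁.1))
      have h1 : DifferentiableAt ℂ (fun u => f₁ u * ((gc x z₁ u : ℂ) * U3x719.rX x u)) z₁ :=
        (hd.differentiableAt (ball_mem_nhds z₁ hs)).mul
          (hd2.differentiableAt (ball_mem_nhds z₁ ht))
      refine (h1.congr_of_eventuallyEq ?_).differentiableWithinAt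
      filter_upwards [ball_mem_nhds z₁ hs] with u hu
      rw [hF₁, hf u hu]
      ring
    · simp only [hF, hz, if_true]

/-- **COMPACTNESS** for bounded open `D` with null boundary -/
theorem comp' {D : Set ℂ} (hD : IsOpen D) (hb : Bornology.IsBounded D)
    (hfr : volume (frontier D) = 0) : Comp D :=
  comp hD (MacNC2x917.bddNC hD hb hfr)

end Crest.Agent.R165.MacC6x943
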