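import Crest.Agent.R165.MacW_304
import Crest.Agent.R165.UPl_641

/-!
# Row 165 (S0250), plane kernels (helper304): `KerPl` from the limits along the class `PlSeq`

* `PlSeq x a w V` : sequences of plane backgrounds with insertions at `V k → x`
* `Out0 D x CC g` : `MacOut` without the field `ker`; instead: existence of the regular limit
* `kerK_of0`, `kerF_of0` : as in `MacW_304`
* `famIn_plane`, `kerPl_of`
-/

set_option autoImplicit false

noncomputable section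

open MeasureTheory Filter Topology Set Metric
open Crest.ProbabilityR.IsingModel
open Crest.Agent.R165.Tr1x40 Crest.Agent.R165.RIfx891 Crest.Agent.R165.Embx622
open Crest.Agent.R165.Mac0x622 Crest.Agent.R165.MacIx622
open Crest.Agent.R165.Mac2x622 (ud spF ud_zero ud_one ud_two ud_three)
open Crest.Agent.R165.MacOx622
open Crest.Agent.R165.Latx683 (BW HE hp hq wDom wPl ray wX IsCov)
open Crest.Agent.R165.UKerx420 (edir hb kap fpt cB wD KerD tendsto_mesh)
open Crest.Agent.R165.UDomBx420 (ed)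
open Crest.Agent.R165.FrFinx887 (toF cur sym_toF A_toF)
open Crest.Agent.R165.UKerPlx304 Crest.Agent.R165.MacWx304
open Crest.Agent.R165.U3x719 (kerB kerR src IsKer rXa e8)

namespace Crest.Agent.R165.PlOutx304

variable {n : ℕ} {x : Fin n → ℂ} {D : Set ℂ}

/-- sequences of plane backgrounds with insertions -/
structure PlSeq (x : Fin n → ℂ) (a : ℕ → ℝ) (w : ℕ → Fld) (V : ℕ → Fin n → Face) : Prop where
  pos : ∀ k, 0 < a k
  lim : Tendsto a atTop (𝓝 0)
  wt : ∀ k f h, w k f h = rays (V k) f h * xc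
  tip : ∀ i, Tendsto (fun k => meshPoint (a k) (V k i)) atTop (𝓝 (x i))

theorem sym_rays (V : Fin n → Face) : Sym fun f h => rays V f h * xc := by
  have h : (fun f h => rays V f h * xc) = toF (wX (wPl ℤ) V) := by
    funext f h
    obtain ⟨c, j, -, hV⟩ := toF_cases f h
    rw [rays_eq, hV, hV]
    rfl
  rw [h]
  exact sym_toF _

theorem PlSeq.sym {a : ℕ → ℝ} {w : ℕ → Fld} {V : ℕ → Fin n → Face} (H : PlSeq x a w V) (k : ℕ) :
    Sym (w k) := by
  have h : w k = fun f h => rays (V k) f h * xc := by funext f h; exact H.wt k f h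
  rw [h]
  exact sym_rays _

theorem PlSeq.comp {a : ℕ → ℝ} {w : ℕ → Fld} {V : ℕ → Fin n → Face} (H : PlSeq x a w V)
    {φ : ℕ → ℕ} (hφ : StrictMono φ) : PlSeq x (a ∘ φ) (w ∘ φ) (V ∘ φ) :=
  ⟨fun k => H.pos _, H.lim.comp hφ.tendsto_atTop, fun k => H.wt _,
    fun i => (H.tip i).comp hφ.tendsto_atTop⟩

theorem classOK_plSeq (x : Fin n → ℂ) : ClassOK (Om univ x) x (PlSeq x) where
  opn := isOpen_univ.sdiff (finite_range x).isClosed
  tips i h := h.2 (mem_range_self i)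
  seq a w V H := ⟨H.pos, H.lim, H.sym, H.tip, fun K _ _ => Eventually.of_forall
    fun k f _ h => H.wt k f h⟩
  sub a w V H φ hφ := H.comp hφ

/-- `MacOut` without the identification of the kernels -/
structure Out0 (D : Set ℂ) {n : ℕ} (x : Fin n → ℂ)
    (CC : (ℕ → ℝ) → (ℕ → Fld) → (ℕ → Fin n → Face) → Prop) (g : ℂ → ℂ → ℂ → ℂ) : Prop where
  reg : ∀ y ∈ Om D x, ∀ c : ℂ, ∃ l : ℂ,
    Tendsto (fun z => g y c z - src x y c / (z - y)) (𝓝[≠] y) (𝓝 l)
  add : ∀ y ∈ Om D x, ∀ c d z : ℂ, z ∈ D → z ≠ y → g y (c + d) z = g y c z + g y d z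
  smul : ∀ y ∈ Om D x, ∀ (s : ℝ) (c z : ℂ), z ∈ D → z ≠ y → g y (s * c) z = s * g y c z
  /-- two different points -/
  off : ∀ a w V, CC a w V → ∀ S : ℕ → Face × Fin 4 → Face × Fin 4 → ℝ,
    (∀ᶠ k in atTop, Cov40 (w k) (S k)) → ∀ z ∈ Om D x, ∀ z' ∈ Om D x, z ≠ z' →
    ∀ f f' : ℕ → Face, Tendsto (fun k => meshPoint (a k) (f k)) atTop (𝓝 z) →
      Tendsto (fun k => meshPoint (a k) (f' k)) atTop (𝓝 z') → ∀ i i' : Fin 4,
      Tendsto (fun k => (a k)⁻¹ * (kp x z (V k) (f k) * kp x z' (V k) (f' k) *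
        S k (f k, i) (f' k, i'))) atTop
        (𝓝 (kerB x g z z' (ud i) (ud i') / (2 * Real.pi * xc)))
  /-- the regular part -/
  diag : ∀ a w V, CC a w V → ∀ S : ℕ → Face × Fin 4 → Face × Fin 4 → ℝ,
    (∀ᶠ k in atTop, Cov40 (w k) (S k)) → ∀ z ∈ Om D x,
    ∀ f f' : ℕ → Face, Tendsto (fun k => meshPoint (a k) (f k)) atTop (𝓝 z) →
      Tendsto (fun k => meshPoint (a k) (f' k)) atTop (𝓝 z) → ∀ i i' : Fin 4,
      Tendsto (fun k => (a k)⁻¹ * (kp x z (V k) (f k) * kp x z (V k) (f' k) *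
        S k (f k, i) (f' k, i') - spF (f' k, i') (f k) i)) atTop
        (𝓝 (kerR x g z (ud i) (ud i') / (2 * Real.pi * xc)))


theorem linG0 {CC : (ℕ → ℝ) → (ℕ → Fld) → (ℕ → Fin n → Face) → Prop} {g : ℂ → ℂ → ℂ → ℂ}
    (H : Out0 D x CC g) {y : ℂ} (hy : y ∈ Om D x) : LinG D y g where
  add c d z hz hzy := H.add y hy c d z hz hzy
  smul s c z hz hzy := H.smul y hy s c z hz hzy

theorem regL_spec0 {CC : (ℕ → ℝ) → (ℕ → Fld) → (ℕ → Fin n → Face) → Prop} {g : ℂ → ℂ → ℂ → ℂ}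
    (H : Out0 D x CC g) {y : ℂ} (hy : y ∈ Om D x) (c : ℂ) :
    Tendsto (fun z => g y c z - src x y c / (z - y)) (𝓝[≠] y) (𝓝 (regL x g y c)) :=
  tendsto_nhds_limUnder (H.reg y hy c)

theorem bil_kerR0 {CC : (ℕ → ℝ) → (ℕ → Fld) → (ℕ → Fin n → Face) → Prop} {g : ℂ → ℂ → ℂ → ℂ}
    (hD : IsOpen D) (H : Out0 D x CC g) {y : ℂ} (hy : y ∈ Om D x) : Bil (kerR x g y) := by
  have hL := linG0 H hy
  have hadd : ∀ c d, regL x g y (c + d) = regL x g y c + regL x g y d := by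
    intro c d
    refine tendsto_nhds_unique (regL_spec0 H hy (c + d)) ?_
    refine ((regL_spec0 H hy c).add (regL_spec0 H hy d)).congr' ?_
    filter_upwards [self_mem_nhdsWithin, mem_nhdsWithin_of_mem_nhds (hD.mem_nhds hy.1)]
      with z hz hzD
    rw [hL.add c d z hzD hz, src_add]; ring
  have hsmul : ∀ (s : ℝ) c, regL x g y (s * c) = s * regL x g y c := by
    intro s c
    refine tendsto_nhds_unique (regL_spec0 H hy (s * c)) ?_
    refine ((regL_spec0 H hy c).const_mul (s : ℂ)).congr' ?_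
    filter_upwards [self_mem_nhdsWithin, mem_nhdsWithin_of_mem_nhds (hD.mem_nhds hy.1)]
      with z hz hzD
    rw [hL.smul s c z hzD hz, src_smul]; ring
  refine bil_of (fun c d c' => ?_) (fun s c c' => ?_) (fun c c' d' => ?_) (fun s c c' => ?_)
  · simp only [kerR_eq]
    rw [← Complex.add_re]; congr 1; ring
  · simp only [kerR_eq]
    rw [← Complex.re_ofReal_mul]; congr 1; ring
  · simp only [kerR_eq]
    rw [hadd, src_add, ← Complex.add_re]; congr 1; ring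
  · simp only [kerR_eq]
    rw [hsmul, src_smul, ← Complex.re_ofReal_mul]; congr 1; ring

theorem off_of0 {CC : (ℕ → ℝ) → (ℕ → Fld) → (ℕ → Fin n → Face) → Prop} {g : ℂ → ℂ → ℂ → ℂ}
    (H : Out0 D x CC g) {W : ℝ → BW ℤ} {X : ℝ → Fin n → ℤ × ℤ} (hF : FamIn CC W X)
    (S : ℝ → HE ℤ → HE ℤ → ℝ) (hS : ∀ᶠ a in 𝓝[>] (0 : ℝ), IsCov (W a) (S a))
    {z z' : ℂ} (hz : z ∈ D) (hz' : z' ∈ D) (hne : z ≠ z') (hx : ∀ i, x i ≠ z)
    (hx' : ∀ i, x i ≠ z') (i i' : Fin 4) (f f' : ℝ → ℤ × ℤ)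
    (hf : Tendsto (fun a => fpt a (f a)) (𝓝[>] 0) (𝓝 z))
    (hf' : Tendsto (fun a => fpt a (f' a)) (𝓝[>] 0) (𝓝 z')) :
    Tendsto (fun a => a⁻¹ * (kap x (X a) z (f a) * kap x (X a) z' (f' a) *
        S a (f a, i) (f' a, i'))) (𝓝[>] 0) (𝓝 (kB x g z z' (edir i) (edir i'))) := by
  refine tendsto_of_seq_tendsto fun u hu => ?_
  obtain ⟨K, hK⟩ := hF u hu
  rw [← tendsto_add_atTop_iff_nat K]
  have huK : Tendsto (fun k => u (k + K)) atTop (𝓝[>] 0) :=
    hu.comp (tendsto_add_atTop_nat K)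
  have h := H.off _ _ _ hK (fun k => S (u (k + K)))
    ((huK.eventually hS).mono fun k h => cov40_of_isCov h) z (mem_Om hz hx) z' (mem_Om hz' hx') hne
    (fun k => f (u (k + K))) (fun k => f' (u (k + K))) (hf.comp huK) (hf'.comp huK) i i'
  rw [ud_eq, ud_eq] at h
  refine h.congr fun k => ?_
  rw [kp_eq, kp_eq]
  rfl

theorem diag_of0 {CC : (ℕ → ℝ) → (ℕ → Fld) → (ℕ → Fin n → Face) → Prop} {g : ℂ → ℂ → ℂ → ℂ}
    (H : Out0 D x CC g) {W : ℝ → BW ℤ} {X : ℝ → Fin n → ℤ × ℤ} (hF : FamIn CC W X)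
    (S : ℝ → HE ℤ → HE ℤ → ℝ) (hS : ∀ᶠ a in 𝓝[>] (0 : ℝ), IsCov (W a) (S a))
    {z : ℂ} (hz : z ∈ D) (hx : ∀ i, x i ≠ z) (v : ℝ → ℤ × ℤ)
    (hv : Tendsto (fun a => fpt a (v a)) (𝓝[>] 0) (𝓝 z)) (j i i' : Fin 2) :
    Tendsto (fun a => a⁻¹ * (kap x (X a) z (hb (v a) j i).1 * kap x (X a) z (hb (v a) j i').1 *
          S a (hb (v a) j i) (hb (v a) j i') - cB i i')) (𝓝[>] 0)
        (𝓝 (kR x g z (ed j i) (ed j i'))) := by
  refine tendsto_of_seq_tendsto fun u hu => ?_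
  obtain ⟨K, hK⟩ := hF u hu
  rw [← tendsto_add_atTop_iff_nat K]
  have huK : Tendsto (fun k => u (k + K)) atTop (𝓝[>] 0) :=
    hu.comp (tendsto_add_atTop_nat K)
  have hm : ∀ i : Fin 2, Tendsto (fun a => fpt a (hb (v a) j i).1) (𝓝[>] 0) (𝓝 z) := by
    intro i
    obtain ⟨c, hc⟩ := hb_off j i
    simpa only [hc] using mesh_shift hv c
  have h := H.diag _ _ _ hK (fun k => S (u (k + K)))
    ((huK.eventually hS).mono fun k h => cov40_of_isCov h) z (mem_Om hz hx)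
    (fun k => (hb (v (u (k + K))) j i).1) (fun k => (hb (v (u (k + K))) j i').1)
    ((hm i).comp huK) ((hm i').comp huK) (hb 0 j i).2 (hb 0 j i').2
  rw [ud_eq, ud_eq, UKerx420.edir_hb, UKerx420.edir_hb] at h
  refine h.congr fun k => ?_
  rw [kp_eq, kp_eq, spF_eq]
  have e : ∀ i : Fin 2, ((hb (v (u (k + K))) j i).1, (hb 0 j i).2) = hb (v (u (k + K))) j i :=
    fun i => by rw [hb_snd 0 (v (u (k + K))) j i]
  rw [e i, e i', spl_bond]
  rfl


/-- `KerK` -/
theorem kerK_of0 {CC : (ℕ → ℝ) → (ℕ → Fld) → (ℕ → Fin n → Face) → Prop} {g : ℂ → ℂ → ℂ → ℂ}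
    (hD : IsOpen D) (H : Out0 D x CC g) {fr : Bool}
    (hF : FamIn CC (fun a => wD fr D a (fun i => meshIndex a (x i))) fun a i => meshIndex a (x i)) :
    KerK fr D x (kB x g) (kR x g) where
  bil z z' hz hz' hne hx hx' := bil_div (bil_kerB (linG0 H (mem_Om hz' hx')) hz hne) _
  bilr z hz hx := bil_div (bil_kerR0 hD H (mem_Om hz hx)) _
  off S hS z z' hz hz' hne hx hx' i i' f f' hf hf' :=
    off_of0 H hF S hS hz hz' hne hx hx' i i' f f' hf hf'
  diag S hS z hz hx j i i' := diag_of0 H hF S hS hz hx _ (by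
      have h1 := tendsto_mesh z 0
      simp only [add_zero] at h1
      exact h1) j i i'

/-! ### the plane -/

/-- all families of plane backgrounds -/
theorem famIn_plane {X : ℝ → Fin n → ℤ × ℤ} (hX : U5Px422.LApp X x) :
    FamIn (PlSeq x) (fun a => wX (wPl ℤ) (X a)) X := by
  intro u hu
  have e3 : ∀ᶠ a in 𝓝[>] (0 : ℝ), 0 < a := self_mem_nhdsWithin
  obtain ⟨K, hK⟩ := eventually_atTop.1 (hu.eventually e3)
  have huK : Tendsto (fun k => u (k + K)) atTop (𝓝[>] 0) := hu.comp (tendsto_add_atTop_nat K)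
  refine ⟨K, fun k => hK _ (Nat.le_add_left _ _), huK.mono_right nhdsWithin_le_nhds,
    fun k f h => ?_, fun i => (hX i).comp huK⟩
  obtain ⟨c, j, -, hV⟩ := toF_cases f h
  rw [rays_eq, hV, hV]
  rfl

theorem famIn_plane' : FamIn (PlSeq x) (fun a => wD false univ a (fun i => meshIndex a (x i)))
    fun a i => meshIndex a (x i) := by
  have h := famIn_plane (x := x) (U5Px422.lapp_meshIndex x)
  intro u hu
  obtain ⟨K, hK⟩ := h u hu
  refine ⟨K, ?_⟩
  have e : (fun k => toF (wD false univ (u (k + K)) fun i => meshIndex (u (k + K)) (x i))) =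
      fun k => toF (wX (wPl ℤ) fun i => meshIndex (u (k + K)) (x i)) := by
    funext k
    rw [UPlx641.wD_univ]
    rfl
  rw [e]
  exact hK

/-- distinct points have distinct mesh indices -/
theorem eventually_inj (hinj : Function.Injective x) :
    ∀ᶠ a in 𝓝[>] (0 : ℝ), Function.Injective fun i => meshIndex a (x i) := by
  have h1 : ∀ i j, i ≠ j → ∀ᶠ a in 𝓝[>] (0 : ℝ), meshIndex a (x i) ≠ meshIndex a (x j) := by
    intro i j hij
    have h2 := UKerx420.tendsto_mesh (x i) 0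
    have h3 := UKerx420.tendsto_mesh (x j) 0
    have h4 : x i ≠ x j := fun e => hij (hinj e)
    obtain ⟨U, V, hU, hV, hxU, hxV, hUV⟩ := t2_separation h4
    filter_upwards [h2.eventually (hU.mem_nhds hxU), h3.eventually (hV.mem_nhds hxV)]
      with a hu hv e
    simp only [add_zero] at hu hv
    rw [e] at hu
    exact Set.disjoint_left.1 hUV hu hv
  have h5 : ∀ᶠ a in 𝓝[>] (0 : ℝ), ∀ i j, i ≠ j → meshIndex a (x i) ≠ meshIndex a (x j) := by
    rw [eventually_all]; intro i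
    rw [eventually_all]; intro j
    by_cases hij : i = j
    · exact Eventually.of_forall fun _ h => absurd hij h
    · exact (h1 i j hij).mono fun a h _ => h
  filter_upwards [h5] with a ha i j hij
  by_contra h
  exact ha i j h hij

theorem exCov_plane (hEx : UPlx641.ExCovPl) (hn : Even n) (hinj : Function.Injective x) :
    ∀ᶠ a in 𝓝[>] (0 : ℝ), ∃ S, IsCov (wD false univ a (fun i => meshIndex a (x i))) S := by
  filter_upwards [eventually_inj hinj] with a ha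
  rw [UPlx641.wD_univ]
  exact hEx n hn _ ha

/-- **`KerPl` of 641** -/
theorem kerPl_of (hEx : UPlx641.ExCovPl)
    (hM : ∀ n : ℕ, Even n → ∀ x : Fin n → ℂ, Function.Injective x →
      ∃ g, Out0 univ x (PlSeq x) g) : UPlx641.KerPl := by
  intro n hn x hinj
  obtain ⟨g, H⟩ := hM n hn x hinj
  exact ⟨_, _, (kerK_of0 isOpen_univ H famIn_plane').kerD (exCov_plane hEx hn hinj)⟩


end Crest.Agent.R165.PlOutx304
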