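import Crest.Agent.R165.Cl7d_999
import Crest.Agent.R165.ClPl_117
import Crest.Agent.R165.ClAll_117
import Crest.Agent.R165.PlOut_304
import Crest.Agent.R165.MacNC2_917
import Crest.Agent.R165.PlMacB_811
import Crest.Agent.R165.MacT_610
import Crest.Agent.R165.PlMacE_654
import Crest.Agent.R165.MacC6_943

-- ▼ part R165/Cl7e_999
section

/-!
# Row 165, block R, leaf R7, part e: the cluster in the interface of `RIface_891`

* `ClOn w s x R ρ` : cluster background: on the box `bx x ρ` all weights are `± x_c`, and outside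
  `bx x R` they are the plane weights up to the gauge `s`
* `grow_cluster`   : exact solutions grow like `t / r` on the scales `R ≤ t ≤ r ≤ ρ`, ABSOLUTE
  constant
* `regCl`, `regCl_off` : Reg1 at the centre and at every centre, absolute constants
* `regPl` : Reg1 in the plane
-/

set_option autoImplicit false

noncomputable section

namespace Crest.Agent.R165.Cl7x999

open Finset Crest.Agent.R165.Tr1x40 Crest.Agent.R165.Schurx811

/-- cluster background on the box `bx x ρ`: weights `± x_c`, plane (up to the gauge `s`) outside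
`bx x R` -/
structure ClOn (w : Fld) (s : Face → ℝ) (x : Face) (R ρ : ℝ) : Prop where
  sym : Sym w
  gauge : RIfx891.Gauge s
  sq : ∀ f ∈ RIfx891.bx x ρ, ∀ h, w f h ^ 2 = xc ^ 2
  out : ∀ f ∈ RIfx891.bx x ρ, f ∉ RIfx891.bx x R → ∀ h, w f h = s f * s (nb f h) * xc

theorem ClOn.mono {w : Fld} {s : Face → ℝ} {x : Face} {R R' ρ ρ' : ℝ} (hR : R ≤ R') (hρ : ρ' ≤ ρ)
    (H : ClOn w s x R ρ) : ClOn w s x R' ρ' :=
  ⟨H.sym, H.gauge, fun f hf => H.sq f (RIfx891.bx_mono x hρ hf),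
    fun f hf hf' => H.out f (RIfx891.bx_mono x hρ hf) fun h => hf' (RIfx891.bx_mono x hR h)⟩

theorem ClOn.plus {w : Fld} {s : Face → ℝ} {x : Face} {R ρ : ℝ} (H : ClOn w s x R ρ) :
    RIfx891.IsPlusOn w x ρ := fun f hf h => Or.inl (H.sq f hf h)

/-- boxes of real radius are boxes of natural radius -/
theorem mem_rbx {x f : Face} {r : ℝ} (hr : 0 ≤ r) : f ∈ RIfx891.bx x r ↔ dd f x ≤ ⌊r⌋₊ := by
  have e : ((⌊r⌋₊ : ℕ) : ℤ) = ⌊r⌋ := Int.natCast_floor_eq_floor hr
  rw [RIfx891.mem_bx, dd_le_iff, ← e, abs_le, abs_le]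
  constructor
  · rintro ⟨⟨h1, h2⟩, h3, h4⟩
    refine ⟨⟨?_, ?_⟩, ?_, ?_⟩ <;> linarith
  · rintro ⟨⟨h1, h2⟩, h3, h4⟩
    refine ⟨⟨?_, ?_⟩, ?_, ?_⟩ <;> linarith

theorem rbx_eq (x : Face) {r : ℝ} (hr : 0 ≤ r) : RIfx891.bx x r = bx x ⌊r⌋₊ := by
  ext f
  rw [mem_rbx hr, mem_bx]

theorem NB_sq_E2 (x : Face) {r : ℝ} (hr : 0 ≤ r) (φ : Fld) :
    RIfx891.NB x r φ ^ 2 = E2 (bx x ⌊r⌋₊) φ := by
  rw [RIfx891.NB_sq, rbx_eq x hr]; rfl



theorem sq_le_sq_of {a b : ℝ} (hb : 0 ≤ b) (h : a ^ 2 ≤ b ^ 2) : a ≤ b := by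
  nlinarith [sq_nonneg (a - b)]


/-- cluster background seen from any centre `z`: on the box `bx z ρ` all weights are `± x_c`, and
outside `bx x R` they are the plane weights up to the gauge `s` -/
structure ClAt (w : Fld) (s : Face → ℝ) (x : Face) (R : ℝ) (z : Face) (ρ : ℝ) : Prop where
  sym : Sym w
  gauge : RIfx891.Gauge s
  sq : ∀ f ∈ RIfx891.bx z ρ, ∀ h, w f h ^ 2 = xc ^ 2
  out : ∀ f ∈ RIfx891.bx z ρ, f ∉ RIfx891.bx x R → ∀ h, w f h = s f * s (nb f h) * xc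

theorem ClAt.mono {w : Fld} {s : Face → ℝ} {x z : Face} {R R' ρ ρ' : ℝ} (hR : R ≤ R') (hρ : ρ' ≤ ρ)
    (H : ClAt w s x R z ρ) : ClAt w s x R' z ρ' :=
  ⟨H.sym, H.gauge, fun f hf => H.sq f (RIfx891.bx_mono z hρ hf),
    fun f hf hf' => H.out f (RIfx891.bx_mono z hρ hf) fun h => hf' (RIfx891.bx_mono x hR h)⟩

theorem ClAt.plus {w : Fld} {s : Face → ℝ} {x z : Face} {R ρ : ℝ} (H : ClAt w s x R z ρ) :
    RIfx891.IsPlusOn w z ρ := fun f hf h => Or.inl (H.sq f hf h)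

theorem ClAt.sub {w : Fld} {s : Face → ℝ} {x z y : Face} {R ρ r : ℝ} (H : ClAt w s x R z ρ)
    (h : RIfx891.bx y r ⊆ RIfx891.bx z ρ) : ClAt w s x R y r :=
  ⟨H.sym, H.gauge, fun f hf => H.sq f (h hf), fun f hf hf' => H.out f (h hf) hf'⟩










end Crest.Agent.R165.Cl7x999
end
end

-- ▼ part R165/OutB_999
section

/-!
# Row 165, plane clause: outgoing fields around a neutral cluster (helper999)

* `liou`      : a solution of the plane equation vanishing at infinity is zero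
* `ClG`       : global cluster background (weights `± x_c`, plane up to a gauge off `bx x R`)
* `out_bound` : `φ → 0`, `A w φ = 0` off `bx x R` imply `NB x (4R) φ ≤ C R NB x R (A w φ)` and
  `|φ(f)|² ≤ C (R/|f-x|)² NB x R (A w φ)²` for `|f-x| ≥ 8R`, ABSOLUTE constant
-/

set_option autoImplicit false

noncomputable section

namespace Crest.Agent.R165.OutBx999

open Finset Filter Topology Crest.Agent.R165.Tr1x40 Crest.Agent.R165.Schurx811
  Crest.Agent.R165.Cl7x999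

/-- vanishing at infinity, with squares and natural distances -/
def Van (o : Face) (φ : Fld) : Prop :=
  ∀ ε : ℝ, 0 < ε → ∃ N : ℕ, ∀ f, N < dd f o → nsq (φ f) ≤ ε

theorem van_of_tendsto {φ : Fld} (o : Face)
    (h : Tendsto (fun g : Face × Fin 4 => φ g.1 g.2) cofinite (𝓝 0)) : Van o φ := by
  intro ε hε
  have h1 : ∀ᶠ g : Face × Fin 4 in cofinite, |φ g.1 g.2| < Real.sqrt (ε / 4) := by
    have := (tendsto_order.1 h.abs).2 (Real.sqrt (ε / 4)) (by
      rw [abs_zero]; positivity)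
    exact this
  rw [Filter.eventually_cofinite] at h1
  refine ⟨h1.toFinset.sup fun g => dd g.1 o, fun f hf => ?_⟩
  have h2 : ∀ a, φ f a ^ 2 ≤ ε / 4 := by
    intro a
    by_contra hc
    have h3 : (f, a) ∈ h1.toFinset := by
      rw [Set.Finite.mem_toFinset]
      intro h4
      apply hc
      have h5 : |φ f a| ≤ Real.sqrt (ε / 4) := h4.le
      rw [← sq_abs, ← Real.sq_sqrt (by positivity : (0 : ℝ) ≤ ε / 4)]
      exact pow_le_pow_left₀ (abs_nonneg _) h5 2
    have h4 := Finset.le_sup (f := fun g : Face × Fin 4 => dd g.1 o) h3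
    simp only at h4
    omega
  calc nsq (φ f) = ∑ a, φ f a ^ 2 := rfl
    _ ≤ ∑ _a : Fin 4, ε / 4 := sum_le_sum fun a _ => h2 a
    _ = ε := by simp; ring

theorem Van.add {o : Face} {φ ψ : Fld} (h1 : Van o φ) (h2 : Van o ψ) : Van o (φ + ψ) := by
  intro ε hε
  obtain ⟨N1, hN1⟩ := h1 (ε / 4) (by positivity)
  obtain ⟨N2, hN2⟩ := h2 (ε / 4) (by positivity)
  refine ⟨max N1 N2, fun f hf => ?_⟩
  have a1 := hN1 f (lt_of_le_of_lt (le_max_left _ _) hf)
  have a2 := hN2 f (lt_of_le_of_lt (le_max_right _ _) hf)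
  have a3 := nsq_add_le (φ f) (ψ f)
  have e : (φ + ψ) f = φ f + ψ f := rfl
  rw [e]
  linarith

/-- **Liouville**: a solution of the plane equation which vanishes at infinity is zero -/
theorem liou {o : Face} {F : Fld} (hF : A wc F = 0) (hv : Van o F) : F = 0 := by
  set C : ℝ := 102400 * (4000000 : ℝ) ^ 2 + 100 with hC
  have hC0 : 0 < C := by rw [hC]; positivity
  funext f
  show F f = (0 : Fin 4 → ℝ)
  rw [← RIfx891.nsq_eq_zero (p := F f)]
  set s : ℕ := dd f o with hs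
  have hs0 : (0 : ℝ) ≤ s := Nat.cast_nonneg s
  have hf : nsq (F f) ≤ E2 (bx o s) F :=
    single_le_sum (f := fun f => nsq (F f)) (fun _ _ => nsq_nonneg _) (by rw [mem_bx])
  have key : ∀ ε : ℝ, 0 < ε → nsq (F f) ≤ (5 * C * (s + 1) ^ 2) * ε := by
    intro ε hε
    obtain ⟨N, hN⟩ := hv ε hε
    obtain ⟨r0, hr0⟩ := exists_nat_ge (E2 (bx o N) F / ε)
    set r : ℕ := max (max s N) r0 with hr
    have hsr : s ≤ r := (le_max_left _ _).trans (le_max_left _ _)
    have hNr : N ≤ r := (le_max_right _ _).trans (le_max_left _ _)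
    have hr0r : (r0 : ℝ) ≤ r := by exact_mod_cast le_max_right _ _
    have hrp : (0 : ℝ) ≤ r := Nat.cast_nonneg r
    have h1 := interior0 o s r hsr F (fun f _ => by rw [hF]; rfl)
    have h2 : E2 (bx o r) F ≤ 5 * ε * (r + 1) ^ 2 := by
      rw [E2_split (bx_mono o hNr) F]
      have h3 : E2 (bx o r \ bx o N) F ≤ ε * (4 * (r + 1) ^ 2) := by
        calc E2 (bx o r \ bx o N) F ≤ ∑ _f ∈ bx o r \ bx o N, ε := by
              refine sum_le_sum fun f hf => hN f ?_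
              rw [Finset.mem_sdiff, mem_bx, mem_bx] at hf
              omega
          _ ≤ ∑ _f ∈ bx o r, ε :=
              sum_le_sum_of_subset_of_nonneg sdiff_subset fun _ _ _ => hε.le
          _ = (bx o r).card * ε := by rw [sum_const, nsmul_eq_mul]
          _ ≤ ε * (4 * (r + 1) ^ 2) := by
              rw [mul_comm]
              exact mul_le_mul_of_nonneg_left (card_bx o r) hε.le
      have h4 : E2 (bx o N) F ≤ ε * (r + 1) ^ 2 := by
        have h5 : E2 (bx o N) F / ε ≤ r := hr0.trans hr0r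
        rw [div_le_iff₀ hε] at h5
        have h6 : (r : ℝ) ≤ (r + 1) ^ 2 := by nlinarith
        have h7 := mul_le_mul_of_nonneg_left h6 hε.le
        linarith
      linarith
    calc nsq (F f) ≤ C * (((s : ℝ) + 1) / (r + 1)) ^ 2 * E2 (bx o r) F := hf.trans h1
      _ ≤ C * (((s : ℝ) + 1) / (r + 1)) ^ 2 * (5 * ε * (r + 1) ^ 2) := by gcongr
      _ = (5 * C * (s + 1) ^ 2) * ε := by field_simp
  by_contra hne
  have hpos : 0 < nsq (F f) := lt_of_le_of_ne (nsq_nonneg _) (Ne.symm hne)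
  have hK : 0 < 5 * C * ((s : ℝ) + 1) ^ 2 := by positivity
  have := key (nsq (F f) / (2 * (5 * C * (s + 1) ^ 2))) (by positivity)
  have e : (5 * C * ((s : ℝ) + 1) ^ 2) * (nsq (F f) / (2 * (5 * C * (s + 1) ^ 2))) =
      nsq (F f) / 2 := by field_simp
  rw [e] at this
  linarith

theorem van_cv {c : ℝ} (P : PK c) (o : Face) (m : ℕ) (ε : Fld) : Van o (cv P.K (bx o m) ε) := by
  intro δ hδ
  have hE := E2_nonneg (bx o m) ε
  obtain ⟨N, hN⟩ := exists_nat_ge (256 * c ^ 2 * (m + 1) ^ 2 * E2 (bx o m) ε / δ)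
  refine ⟨max N (2 * m), fun f hf => ?_⟩
  have h1 := nsq_cv_far P o m ε f (by
    have := le_max_right N (2 * m); omega)
  refine h1.trans ?_
  have h2 : (N : ℝ) ≤ dd f o := by
    have := le_max_left N (2 * m)
    exact_mod_cast (by omega : N ≤ dd f o)
  have h3 : (0 : ℝ) ≤ dd f o := Nat.cast_nonneg _
  rw [div_mul_eq_mul_div, div_le_iff₀ (by positivity)]
  rw [div_le_iff₀ hδ] at hN
  nlinarith [mul_nonneg hδ.le h3, mul_nonneg hδ.le (mul_nonneg h3 h3)]

theorem Van.congr_far {o : Face} {φ ψ : Fld} (h : Van o φ) (M : ℕ)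
    (he : ∀ f, M < dd f o → ψ f = φ f) : Van o ψ := by
  intro ε hε
  obtain ⟨N, hN⟩ := h ε hε
  refine ⟨max N M, fun f hf => ?_⟩
  rw [he f (lt_of_le_of_lt (le_max_right _ _) hf)]
  exact hN f (lt_of_le_of_lt (le_max_left _ _) hf)

/-- the plane-regular part of an outgoing field is zero -/
theorem freg_eq_zero {c : ℝ} (P : PK c) {w : Fld} {o : Face} {R : ℕ} (hR : 1 ≤ R)
    (hw : Clu w o R) {φ : Fld} (hv : Van o φ) (hA : ∀ f, R < dd f o → A w φ f = 0) :
    Freg P w o R φ = 0 := by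
  apply liou (o := o)
  · rw [A_Freg P hw hR]
    funext f h
    by_cases hf : R < dd f o
    · rw [show sm (ci (chi o R)) (A w φ) f h = ci (chi o R) f * A w φ f h from rfl, hA f hf]
      simp
    · rw [show sm (ci (chi o R)) (A w φ) f h = ci (chi o R) f * A w φ f h from rfl]
      have : chi o R f = 1 := cut_eq_one (by omega) (by omega)
      simp [ci, this]
  · unfold Freg
    refine Van.add (hv.congr_far (4 * R) fun f hf => ?_) (van_cv P o _ _)
    funext h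
    have : chi o R f = 0 := cut_eq_zero (by omega)
    simp [sm, ci, this]

/-- outgoing fields, natural radii -/
theorem out_clu : ∃ C : ℝ, 0 < C ∧ ∀ (w : Fld) (o : Face) (R : ℕ), 1 ≤ R → Clu w o R →
    ∀ φ : Fld, Van o φ → (∀ f, R < dd f o → A w φ f = 0) →
      E2 (bx o (8 * R)) φ ≤ C * (R : ℝ) ^ 2 * E2 (bx o R) (A w φ) ∧
      ∀ f, 8 * R ≤ dd f o →
        nsq (φ f) ≤ C * ((R : ℝ) / dd f o) ^ 2 * E2 (bx o R) (A w φ) := by
  obtain ⟨CK, hCK, hK⟩ := K0
  refine ⟨CK * (1 + 1600 * (4000000 : ℝ) ^ 2), by positivity, ?_⟩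
  intro w o R hR hw φ hv hA
  have hRr : (1 : ℝ) ≤ R := by exact_mod_cast hR
  have hF := freg_eq_zero pk0 hR hw hv hA
  have hE := E2_nonneg (bx o R) (A w φ)
  have e1 : E2 (bx o (8 * R)) (A w φ) = E2 (bx o R) (A w φ) :=
    E2_of_supp (bx_mono o (by omega)) fun f hf => hA f (by rw [mem_bx] at hf; omega)
  have h1 := hK w o R hR hw φ
  rw [hF, e1] at h1
  have e2 : E2 (bx o (8 * R)) (0 : Fld) = 0 := by
    unfold E2
    exact sum_eq_zero fun f _ => nsq_zero
  rw [e2, zero_add] at h1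
  refine ⟨h1.trans ?_, ?_⟩
  · have h2 : 0 ≤ CK * ((R : ℝ) ^ 2 * E2 (bx o R) (A w φ)) := by positivity
    nlinarith
  · intro f hf
    have hdd : (8 : ℝ) * R ≤ dd f o := by exact_mod_cast hf
    have hd0 : (0 : ℝ) < dd f o := by linarith
    have h3 : φ f = -cv (pk0).K (bx o (4 * R)) (eps w o R φ) f := by
      have h4 := congrFun hF f
      have h5 : chi o R f = 0 := cut_eq_zero (by omega)
      funext a
      have h6 := congrFun h4 a
      simp only [Freg, Pi.add_apply, sm, ci, h5, sub_zero, one_mul, Pi.zero_apply] at h6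
      simp only [Pi.neg_apply]
      linarith
    have h4 := nsq_cv_far pk0 o (4 * R) (eps w o R φ) f (by omega)
    have h5 := E2_eps hw hR φ
    have h6 : nsq (φ f) = nsq (cv (pk0).K (bx o (4 * R)) (eps w o R φ) f) := by
      rw [h3]
      unfold nsq
      exact sum_congr rfl fun a _ => by simp
    rw [h6]
    refine h4.trans ?_
    have h7 : E2 (bx o (4 * R)) (eps w o R φ)
        ≤ (1 / (2 * R : ℕ)) ^ 2 * (CK * ((R : ℝ) ^ 2 * E2 (bx o R) (A w φ))) :=
      h5.trans (mul_le_mul_of_nonneg_left h1 (by positivity))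
    have h8 : (((2 * R : ℕ) : ℝ)) = 2 * R := by push_cast; ring
    have h9 : (((4 * R : ℕ) : ℝ)) = 4 * R := by push_cast; ring
    rw [h8] at h7
    rw [h9]
    have h10 : 256 * (4000000 : ℝ) ^ 2 * (4 * R + 1) ^ 2 / ((dd f o : ℝ) + 1) ^ 2
        ≤ 256 * (4000000 : ℝ) ^ 2 * (5 * R) ^ 2 / (dd f o : ℝ) ^ 2 := by
      gcongr
      · linarith
      · linarith
    calc 256 * (4000000 : ℝ) ^ 2 * (4 * R + 1) ^ 2 / ((dd f o : ℝ) + 1) ^ 2
          * E2 (bx o (4 * R)) (eps w o R φ)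
        ≤ 256 * (4000000 : ℝ) ^ 2 * (5 * R) ^ 2 / (dd f o : ℝ) ^ 2 *
          ((1 / (2 * R)) ^ 2 * (CK * ((R : ℝ) ^ 2 * E2 (bx o R) (A w φ)))) :=
          mul_le_mul h10 h7 (E2_nonneg _ _) (by positivity)
      _ = (CK * (1600 * (4000000 : ℝ) ^ 2)) * ((R : ℝ) / dd f o) ^ 2 * E2 (bx o R) (A w φ) := by
          field_simp; ring
      _ ≤ CK * (1 + 1600 * (4000000 : ℝ) ^ 2) * ((R : ℝ) / dd f o) ^ 2 *
          E2 (bx o R) (A w φ) := by
          gcongr; linarith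

/-- global cluster background -/
structure ClG (w : Fld) (s : Face → ℝ) (x : Face) (R : ℝ) : Prop where
  sym : Sym w
  gauge : RIfx891.Gauge s
  sq : ∀ f h, w f h ^ 2 = xc ^ 2
  out : ∀ f, f ∉ RIfx891.bx x R → ∀ h, w f h = s f * s (nb f h) * xc

theorem ClG.mono {w : Fld} {s : Face → ℝ} {x : Face} {R R' : ℝ} (h : R ≤ R')
    (H : ClG w s x R) : ClG w s x R' :=
  ⟨H.sym, H.gauge, H.sq, fun f hf => H.out f fun hc => hf (RIfx891.bx_mono x h hc)⟩


/-- gauge transformed weights -/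
def gt (s : Face → ℝ) (w : Fld) : Fld := fun f h => s f * s (nb f h) * w f h

theorem ClG.clu {w : Fld} {s : Face → ℝ} {x : Face} {R : ℝ} (H : ClG w s x R) (hR : 0 ≤ R) :
    Clu (gt s w) x ⌊R⌋₊ := by
  have hs := H.gauge
  refine ⟨?_, ?_, ?_⟩
  · intro f h
    unfold gt
    rw [nb_nb_op, H.sym f h]; ring
  · intro f h
    unfold gt
    rw [mul_pow, mul_pow, hs f, hs (nb f h), H.sq]; ring
  · intro f h hf
    unfold gt
    rw [H.out f (by rw [mem_rbx hR]; omega) h]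
    linear_combination (s (nb f h) ^ 2 * xc) * hs f + xc * hs (nb f h)

theorem A_gt {w : Fld} {s : Face → ℝ} (hs : RIfx891.Gauge s) (φ : Fld) (f : Face) :
    A (gt s w) (RIfx891.gm s φ) f = fun h => s f * A w φ f h :=
  RIfx891.A_gm (w := gt s w) (w' := w) hs (f := f) (fun _ => rfl) φ

/-- **outgoing fields around a neutral cluster**, absolute constant -/
theorem out_bound : ∃ C : ℝ, 0 < C ∧ ∀ (w : Fld) (s : Face → ℝ) (x : Face) (R : ℝ), 1 ≤ R →
    ClG w s x R → ∀ φ : Fld, Tendsto (fun g : Face × Fin 4 => φ g.1 g.2) cofinite (𝓝 0) →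
      (∀ f, f ∉ RIfx891.bx x R → A w φ f = 0) →
      RIfx891.NB x (4 * R) φ ≤ C * R * RIfx891.NB x R (A w φ) ∧
      ∀ f, 8 * R ≤ dd f x →
        nsq (φ f) ≤ (C * (R / dd f x) * RIfx891.NB x R (A w φ)) ^ 2 := by
  obtain ⟨C, hC, h0⟩ := out_clu
  refine ⟨Real.sqrt C, Real.sqrt_pos.2 hC, ?_⟩
  intro w s x R hR H φ hφ hA
  have hR0 : 0 ≤ R := by linarith
  have hs := H.gauge
  set n : ℕ := ⌊R⌋₊ with hn
  have hn1 : 1 ≤ n := Nat.le_floor (by simpa using hR)
  have hn1' : (1 : ℝ) ≤ n := by exact_mod_cast hn1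
  have hnR : (n : ℝ) ≤ R := Nat.floor_le hR0
  have hRn : R < n + 1 := Nat.lt_floor_add_one R
  have hv : Van x (RIfx891.gm s φ) := by
    intro ε hε
    obtain ⟨N, hN⟩ := van_of_tendsto x hφ ε hε
    exact ⟨N, fun f hf => by rw [RIfx891.nsq_gm hs]; exact hN f hf⟩
  have hA' : ∀ f, n < dd f x → A (gt s w) (RIfx891.gm s φ) f = 0 := by
    intro f hf
    rw [A_gt hs, hA f (by rw [mem_rbx hR0]; omega)]
    funext h; simp
  obtain ⟨h1, h2⟩ := h0 (gt s w) x n hn1 (H.clu hR0) (RIfx891.gm s φ) hv hA'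
  have e1 : ∀ k : ℕ, E2 (bx x k) (RIfx891.gm s φ) = E2 (bx x k) φ := fun k =>
    sum_congr rfl fun f _ => RIfx891.nsq_gm hs φ f
  have e2 : E2 (bx x n) (A (gt s w) (RIfx891.gm s φ)) = E2 (bx x n) (A w φ) := by
    refine sum_congr rfl fun f _ => ?_
    rw [A_gt hs]
    exact RIfx891.nsq_gm hs (A w φ) f
  have hN : 0 ≤ RIfx891.NB x R (A w φ) := apply_nonneg _ _
  have hsq : Real.sqrt C ^ 2 = C := Real.sq_sqrt hC.le
  rw [e1, e2] at h1
  simp only [e2, RIfx891.nsq_gm hs] at h2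
  have e3 : RIfx891.NB x R (A w φ) ^ 2 = E2 (bx x n) (A w φ) := NB_sq_E2 x hR0 _
  rw [← e3] at h1 h2
  constructor
  · apply sq_le_sq_of (by positivity)
    rw [NB_sq_E2 x (by linarith) φ]
    have h3 : ⌊4 * R⌋₊ ≤ 8 * n := by
      have h4 : (⌊4 * R⌋₊ : ℝ) ≤ 4 * R := Nat.floor_le (by linarith)
      have h5 : (⌊4 * R⌋₊ : ℝ) ≤ ((8 * n : ℕ) : ℝ) := by push_cast; linarith
      exact_mod_cast h5
    refine ((E2_mono (bx_mono x h3) φ).trans h1).trans ?_
    rw [mul_pow, mul_pow, hsq]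
    gcongr
  · intro f hf
    have h3 : 8 * n ≤ dd f x := by
      have : ((8 * n : ℕ) : ℝ) ≤ dd f x := by push_cast; linarith
      exact_mod_cast this
    refine (h2 f h3).trans ?_
    rw [mul_pow, mul_pow, hsq]
    gcongr


end Crest.Agent.R165.OutBx999
end
end

-- ▼ part R165/PlMacC_811
section

/-!
# Row 165 (S0250), plane MAC (helper811): a-priori bounds for the class `PlSeq`

* `clG_rays` : an even family of rays is a neutral cluster (`ClG` of `OutB_999`)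
* `PSrc`     : the hypotheses of `MacI_622.ResConv` on the sources and the solutions
* `bounds`   : scaled mass on discs and decay `O(1/|z|)`
* `small_mass`, `no_conc` : small mass on sets of small area, in particular near the insertions
-/

set_option autoImplicit false

noncomputable section

open MeasureTheory Filter Topology Set Metric
open Crest.ProbabilityR.IsingModel
open Crest.Agent.R165.Tr1x40 Crest.Agent.R165.Embx622
open Crest.Agent.R165.Mac0x622 Crest.Agent.R165.MacNCx917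
open Crest.Agent.R165.Schurx811 (dd dd_le_iff)
open Crest.Agent.R165.Cl7x999 (sm cut comm E2)
open Crest.Agent.R165.PlOutx304 (PlSeq)

namespace Crest.Agent.R165.PlCx811

/-! ### the gauge -/

theorem wl_rays {n : ℕ} (V : Fin n → Face) :
    Bridgex386.wl (Latx683.wX (Latx683.wPl ℤ) V) = fun f h => rays V f h * xc := by
  funext f h
  rw [MacWx304.rays_eq]
  have e : Latx683.xc = Tr1x40.xc := rfl
  fin_cases h <;>
    simp [Bridgex386.wl, ofEN, Latx683.yE, Latx683.yN, Latx683.wX, Latx683.wPl,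
      FrFinx887.toF, ClAllx117.pf_int, e]

theorem rays_sq {n : ℕ} (V : Fin n → Face) (f : Face) (h : Fin 4) : rays V f h ^ 2 = 1 := by
  unfold rays
  rw [← Finset.prod_pow]
  exact Finset.prod_eq_one fun i _ => RIfx891.rayw_sq _ _ _

/-- an even family of rays is a neutral cluster -/
theorem clG_rays {n : ℕ} (hn : Even n) {V : Fin n → Face} {x0 : Face} {R : ℝ} (hR : 0 ≤ R)
    (hV : ∀ i, V i ∈ RIfx891.bx x0 R) :
    OutBx999.ClG (fun f h => rays V f h * xc) (ClAllx117.clg x0 V) x0 (R + 1) where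
  sym := PlOutx304.sym_rays V
  gauge := ClAllx117.gauge_clg x0 V
  sq f h := by rw [mul_pow, rays_sq, one_mul]
  out f hf h := by
    have h1 := ClAllx117.wl_wX_clu hn (Latx683.wPl ℤ) hR hV hf h
    rw [wl_rays] at h1
    have h2 : Bridgex386.wl (Latx683.wPl ℤ) f h = xc := by
      have := (ClAllx117.planeOn_wPl f 0).eq f (by rw [RIfx891.mem_bx_real]; simp) h
      simpa using this
    rw [h2] at h1
    exact h1

/-! ### geometry -/

theorem mem_bx_of_norm {a r : ℝ} (ha : 0 < a) {f : Face} (h : ‖meshPoint a f‖ ≤ a * r) :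
    f ∈ RIfx891.bx 0 r := by
  rw [RIfx891.mem_bx_real]
  have h1 := (Complex.abs_re_le_norm (meshPoint a f)).trans h
  have h2 := (Complex.abs_im_le_norm (meshPoint a f)).trans h
  rw [meshPoint_re, abs_mul, abs_of_pos ha] at h1
  rw [meshPoint_im, abs_mul, abs_of_pos ha] at h2
  constructor
  · simpa using le_of_mul_le_mul_left h1 ha
  · simpa using le_of_mul_le_mul_left h2 ha

theorem abs_le_dd (f : Face) : |(f.1 : ℝ)| ≤ dd f 0 ∧ |(f.2 : ℝ)| ≤ dd f 0 := by
  have h := (dd_le_iff (z := f) (w := 0) (t := dd f 0)).1 le_rfl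
  simp only [Prod.fst_zero, Prod.snd_zero, zero_sub, zero_add] at h
  obtain ⟨⟨h1, h2⟩, h3, h4⟩ := h
  have h1' : -((dd f 0 : ℕ) : ℝ) ≤ (f.1 : ℝ) := by exact_mod_cast h1
  have h2' : (f.1 : ℝ) ≤ ((dd f 0 : ℕ) : ℝ) := by exact_mod_cast h2
  have h3' : -((dd f 0 : ℕ) : ℝ) ≤ (f.2 : ℝ) := by exact_mod_cast h3
  have h4' : (f.2 : ℝ) ≤ ((dd f 0 : ℕ) : ℝ) := by exact_mod_cast h4
  exact ⟨abs_le.2 ⟨h1', h2'⟩, abs_le.2 ⟨h3', h4'⟩⟩

theorem norm_le_dd {a : ℝ} (ha : 0 < a) (f : Face) : ‖meshPoint a f‖ ≤ 2 * (a * dd f 0) := by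
  have h := abs_le_dd f
  refine (Complex.norm_le_abs_re_add_abs_im _).trans ?_
  rw [meshPoint_re, meshPoint_im, abs_mul, abs_mul, abs_of_pos ha]
  have h1 := mul_le_mul_of_nonneg_left h.1 ha.le
  have h2 := mul_le_mul_of_nonneg_left h.2 ha.le
  linarith

theorem dd_le_of_norm {a : ℝ} (ha : 0 < a) {f : Face} {m : ℕ} (h : ‖meshPoint a f‖ ≤ a * m) :
    dd f 0 ≤ m := by
  have h1 := mem_bx_of_norm ha h
  rw [Cl7x999.mem_rbx (Nat.cast_nonneg m)] at h1
  simpa using h1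

/-! ### sources -/

/-- sources and solutions, as in `MacI_622.ResConv` -/
structure PSrc (K : Set ℂ) (G : ℂ → Fin 4 → ℝ) (a : ℕ → ℝ) (w g φ : ℕ → Fld) : Prop where
  supp : ∀ᶠ k in atTop, ∀ f h, g k f h ≠ 0 → meshPoint (a k) f ∈ K
  conv : ∀ h, Tendsto (fun k => ∫⁻ z, ENNReal.ofReal
    ((emb (a k) (fun f => g k f h) z - G z h) ^ 2)) atTop (𝓝 0)
  van : ∀ k, Tendsto (fun b : Face × Fin 4 => φ k b.1 b.2) cofinite (𝓝 0)
  eqn : ∀ᶠ k in atTop, ∀ f h, A (w k) (φ k) f h = a k * g k f h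

theorem PSrc.gbd {K : Set ℂ} {G : ℂ → Fin 4 → ℝ} {a : ℕ → ℝ} {w g φ : ℕ → Fld}
    (hpos : ∀ k, 0 < a k) (hG : ∀ h, MemLp (fun z => G z h) 2) (S : PSrc K G a w g φ) :
    ∃ G0 : ℝ, 0 ≤ G0 ∧ ∀ᶠ k in atTop, ∀ E : Finset Face,
      a k ^ 2 * ∑ f ∈ E, nsq (g k f) ≤ G0 ^ 2 := by
  choose C hC0 hC using fun h => MacNC2x917.mass_bd hpos (hG h) (S.conv h)
  refine ⟨Real.sqrt (∑ h, C h), Real.sqrt_nonneg _, ?_⟩
  filter_upwards [eventually_all.2 hC] with k hk E
  rw [Real.sq_sqrt (Finset.sum_nonneg fun h _ => hC0 h)]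
  simp only [nsq]
  rw [Finset.sum_comm, Finset.mul_sum]
  exact Finset.sum_le_sum fun h _ => hk h _


/-- **a-priori bounds** -/
theorem bounds : ∃ C : ℝ, 0 < C ∧ ∀ {n : ℕ} (_ : Even n) {x : Fin n → ℂ} {K : Set ℂ} {T0 : ℝ}
    (_ : 0 < T0) (_ : ∀ i, ‖x i‖ ≤ T0) (_ : ∀ z ∈ K, ‖z‖ ≤ T0) {G : ℂ → Fin 4 → ℝ} {a : ℕ → ℝ}
    {w : ℕ → Fld} {V : ℕ → Fin n → Face} {g φ : ℕ → Fld} (_ : PlSeq x a w V)
    (_ : PSrc K G a w g φ) {G0 : ℝ} (_ : 0 ≤ G0)
    (_ : ∀ᶠ k in atTop, ∀ E : Finset Face, a k ^ 2 * ∑ f ∈ E, nsq (g k f) ≤ G0 ^ 2) (T : ℝ)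
    (_ : T0 ≤ T), ∀ᶠ k in atTop,
      (∀ E : Finset Face, (∀ f ∈ E, ‖meshPoint (a k) f‖ ≤ 8 * T) →
        a k ^ 2 * ∑ f ∈ E, nsq (φ k f) ≤ (C * T * G0) ^ 2) ∧
      ∀ f, 32 * T ≤ ‖meshPoint (a k) f‖ →
        nsq (φ k f) ≤ (C * T * G0 / ‖meshPoint (a k) f‖) ^ 2 := by
  obtain ⟨C, hC, hout⟩ := OutBx999.out_bound
  refine ⟨4 * C, by positivity, ?_⟩
  intro n hn x K T0 hT0 hx hK G a w V g φ H S G0 hG0 hg T hT
  have hT' : 0 < T := lt_of_lt_of_le hT0 hT
  have htip : ∀ᶠ k in atTop, ∀ i, ‖meshPoint (a k) (V k i)‖ < 5 / 4 * T := by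
    rw [eventually_all]
    intro i
    have h1 := (H.tip i).norm
    exact h1.eventually (eventually_lt_nhds (by have := hx i; linarith))
  filter_upwards [htip, S.supp, S.eqn, hg,
    H.lim.eventually (eventually_lt_nhds (show (0 : ℝ) < T / 2 by linarith))]
    with k htip hsupp heqn hg hak
  have ha := H.pos k
  set R : ℝ := 2 * T / a k with hR
  have haR : a k * R = 2 * T := by rw [hR]; field_simp
  have hR4 : 4 ≤ R := by
    rw [hR, le_div_iff₀ ha]; linarith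
  have hw : w k = fun f h => rays (V k) f h * xc := by
    funext f h; exact H.wt k f h
  have hcl : OutBx999.ClG (w k) (ClAllx117.clg 0 (V k)) 0 R := by
    rw [hw]
    have := clG_rays hn (V := V k) (x0 := 0) (R := R - 1) (by linarith) (fun i => by
      refine mem_bx_of_norm ha ((htip i).le.trans ?_)
      rw [mul_sub, haR, mul_one]
      linarith)
    rwa [sub_add_cancel] at this
  have hAw : A (w k) (φ k) = a k • g k := by
    funext f h
    rw [heqn f h]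
    rfl
  have hz : ∀ f, f ∉ RIfx891.bx 0 R → A (w k) (φ k) f = 0 := by
    intro f hf
    rw [hAw]
    funext h
    show a k * g k f h = 0
    by_contra hne
    have h1 := hsupp f h (fun h0 => hne (by rw [h0, mul_zero]))
    refine hf (mem_bx_of_norm ha ((hK _ h1).trans ?_))
    rw [haR]; linarith
  obtain ⟨b1, b2⟩ := hout (w k) (ClAllx117.clg 0 (V k)) 0 R (by linarith) hcl (φ k) (S.van k) hz
  have hNA : RIfx891.NB 0 R (A (w k) (φ k)) ≤ G0 := by
    rw [hAw, map_smul_eq_mul, Real.norm_eq_abs, abs_of_pos ha]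
    have h0 : 0 ≤ RIfx891.NB 0 R (g k) := apply_nonneg _ _
    have h1 : (a k * RIfx891.NB 0 R (g k)) ^ 2 ≤ G0 ^ 2 := by
      rw [mul_pow, RIfx891.NB_sq]
      exact hg _
    exact (abs_le_of_sq_le_sq' h1 hG0).2
  have hNA0 : 0 ≤ RIfx891.NB 0 R (A (w k) (φ k)) := apply_nonneg _ _
  constructor
  · intro E hE
    have hsub : E ⊆ RIfx891.bx 0 (4 * R) := by
      intro f hf
      refine mem_bx_of_norm ha ((hE f hf).trans ?_)
      have : a k * (4 * R) = 4 * (a k * R) := by ring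
      rw [this, haR]; linarith
    have h1 : ∑ f ∈ E, nsq (φ k f) ≤ RIfx891.NB 0 (4 * R) (φ k) ^ 2 := by
      rw [RIfx891.NB_sq]
      exact Finset.sum_le_sum_of_subset_of_nonneg hsub fun f _ _ => nsq_nonneg _
    have h2 : a k * RIfx891.NB 0 (4 * R) (φ k) ≤ 4 * C * T * G0 := by
      calc a k * RIfx891.NB 0 (4 * R) (φ k)
          ≤ a k * (C * R * RIfx891.NB 0 R (A (w k) (φ k))) := mul_le_mul_of_nonneg_left b1 ha.le
        _ = C * (a k * R) * RIfx891.NB 0 R (A (w k) (φ k)) := by ring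
        _ = C * (2 * T) * RIfx891.NB 0 R (A (w k) (φ k)) := by rw [haR]
        _ ≤ C * (2 * T) * G0 := by gcongr
        _ ≤ 4 * C * T * G0 := by nlinarith [mul_nonneg (mul_nonneg hC.le hT'.le) hG0]
    have h3 : 0 ≤ a k * RIfx891.NB 0 (4 * R) (φ k) := mul_nonneg ha.le (apply_nonneg _ _)
    calc a k ^ 2 * ∑ f ∈ E, nsq (φ k f) ≤ a k ^ 2 * RIfx891.NB 0 (4 * R) (φ k) ^ 2 :=
          mul_le_mul_of_nonneg_left h1 (sq_nonneg _)
      _ = (a k * RIfx891.NB 0 (4 * R) (φ k)) ^ 2 := by ring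
      _ ≤ _ := pow_le_pow_left₀ h3 h2 2
  · intro f hf
    have hN0 : 0 < ‖meshPoint (a k) f‖ := by linarith
    have hdd := norm_le_dd ha f
    have hd0 : (0 : ℝ) < dd f 0 := by
      by_contra h
      have : (dd f 0 : ℝ) = 0 := le_antisymm (not_lt.1 h) (Nat.cast_nonneg _)
      rw [this] at hdd
      linarith
    have h8 : 8 * R ≤ dd f 0 := by
      have h1 : a k * (8 * R) ≤ a k * dd f 0 := by
        have : a k * (8 * R) = 8 * (a k * R) := by ring
        rw [this, haR]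
        linarith
      exact le_of_mul_le_mul_left h1 ha
    refine (b2 f h8).trans ?_
    have h1 : R / dd f 0 ≤ 4 * T / ‖meshPoint (a k) f‖ := by
      rw [div_le_div_iff₀ hd0 hN0]
      have h2 : R * ‖meshPoint (a k) f‖ ≤ R * (2 * (a k * dd f 0)) :=
        mul_le_mul_of_nonneg_left hdd (by linarith)
      calc R * ‖meshPoint (a k) f‖ ≤ R * (2 * (a k * dd f 0)) := h2
        _ = 2 * (a k * R) * dd f 0 := by ring
        _ = 4 * T * dd f 0 := by rw [haR]; ring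
    have h2 : 0 ≤ R / dd f 0 := by positivity
    apply pow_le_pow_left₀ (by positivity)
    calc C * (R / dd f 0) * RIfx891.NB 0 R (A (w k) (φ k))
        ≤ C * (4 * T / ‖meshPoint (a k) f‖) * G0 := by gcongr
      _ = 4 * C * T * G0 / ‖meshPoint (a k) f‖ := by ring

/-! ### sets of small area -/

theorem isPlus_plSeq {n : ℕ} {x : Fin n → ℂ} {a : ℕ → ℝ} {w : ℕ → Fld} {V : ℕ → Fin n → Face}
    (H : PlSeq x a w V) (k : ℕ) : IsPlus (w k) := fun f h => Or.inl (by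
  rw [H.wt, mul_pow, rays_sq, one_mul])

theorem w_sq_le {n : ℕ} {x : Fin n → ℂ} {a : ℕ → ℝ} {w : ℕ → Fld} {V : ℕ → Fin n → Face}
    (H : PlSeq x a w V) (k : ℕ) (f : Face) (h : Fin 4) : w k f h ^ 2 ≤ 1 := by
  rw [H.wt, mul_pow, rays_sq, one_mul]
  have h1 := xc_pos
  have h2 := xc_lt_one
  nlinarith

/-- **small mass on sets of small area** -/
theorem small_mass {n : ℕ} (hn : Even n) {x : Fin n → ℂ} {K : Set ℂ} {T0 : ℝ}
    (hT0 : 0 < T0) (hx : ∀ i, ‖x i‖ ≤ T0) (hK : ∀ z ∈ K, ‖z‖ ≤ T0) {G : ℂ → Fin 4 → ℝ} {a : ℕ → ℝ}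
    {w : ℕ → Fld} {V : ℕ → Fin n → Face} {g φ : ℕ → Fld} (H : PlSeq x a w V)
    (S : PSrc K G a w g φ) {G0 : ℝ} (hG0 : 0 ≤ G0)
    (hg : ∀ᶠ k in atTop, ∀ E : Finset Face, a k ^ 2 * ∑ f ∈ E, nsq (g k f) ≤ G0 ^ 2) {T : ℝ}
    (hT : T0 ≤ T) : ∃ M : ℝ, 0 ≤ M ∧ ∀ᶠ k in atTop, ∀ E : Finset Face,
      (∀ f ∈ E, ‖meshPoint (a k) f‖ ≤ T) →
        a k ^ 2 * ∑ f ∈ E, nsq (φ k f) ≤ M * (a k + 5 * (a k * Real.sqrt E.card)) := by
  obtain ⟨C, hC, hb⟩ := bounds
  have hT' : 0 < T := lt_of_lt_of_le hT0 hT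
  refine ⟨6000000000 * (C * T * G0 * Real.sqrt (2 * G0 ^ 2 + 2 * (C * G0) ^ 2)), by positivity, ?_⟩
  filter_upwards [hb hn hT0 hx hK H S hG0 hg T hT, S.eqn, hg,
    H.lim.eventually (eventually_lt_nhds (show (0 : ℝ) < T / 4 by linarith))]
    with k hk heqn hg hak E hE
  have ha := H.pos k
  obtain ⟨hmass, -⟩ := hk
  set m : ℕ := ⌈T / a k⌉₊ with hm
  have hm1 : T / a k ≤ m := Nat.le_ceil _
  have hm2 : (m : ℝ) < T / a k + 1 := Nat.ceil_lt_add_one (by positivity)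
  have hm0' : (0 : ℝ) < m := lt_of_lt_of_le (by positivity) hm1
  have hm0 : 0 < m := by exact_mod_cast hm0'
  have ham1 : T ≤ a k * m := by
    rw [div_le_iff₀ ha] at hm1; linarith
  have ham2 : a k * m ≤ T + a k := by
    have := mul_le_mul_of_nonneg_left hm2.le ha.le
    calc a k * m ≤ a k * (T / a k + 1) := this
      _ = T + a k := by field_simp
  set χ : Face → ℝ := cut 0 m m with hχ
  set ψ : Fld := sm χ (φ k) with hψ
  have hEdd : ∀ f ∈ E, dd f 0 ≤ m := fun f hf => dd_le_of_norm ha ((hE f hf).trans ham1)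
  have hψE : ∀ f ∈ E, nsq (ψ f) = nsq (φ k f) := by
    intro f hf
    rw [hψ, Cl7x999.nsq_sm, hχ, Cl7x999.cut_eq_one hm0 (hEdd f hf)]
    ring
  have hsupp : Sqx54.Supp (Cl7x999.bx 0 (2 * m)) ψ := by
    intro f hf h
    rw [Cl7x999.mem_bx] at hf
    show χ f * φ k f h = 0
    rw [hχ, Cl7x999.cut_eq_zero (by omega), zero_mul]
  have hbxn : ∀ N : ℕ, N ≤ 2 * m + 2 → ∀ f ∈ Cl7x999.bx (0 : Face) N,
      ‖meshPoint (a k) f‖ ≤ 8 * T := by
    intro N hN f hf
    rw [Cl7x999.mem_bx] at hf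
    have h1 := norm_le_dd ha f
    have h2 : (dd f 0 : ℝ) ≤ 2 * m + 2 := by
      have : dd f 0 ≤ 2 * m + 2 := hf.trans hN
      exact_mod_cast this
    have h3 : a k * dd f 0 ≤ a k * (2 * m + 2) := mul_le_mul_of_nonneg_left h2 ha.le
    have h4 : a k * (2 * m + 2) = 2 * (a k * m) + 2 * a k := by ring
    linarith
  -- the norm of `ψ`
  have hP : ∑' f, nsq (ψ f) ≤ (C * T * G0 / a k) ^ 2 := by
    have e : ∑' f, nsq (ψ f) = ∑ f ∈ Cl7x999.bx 0 (2 * m), nsq (ψ f) :=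
      tsum_eq_sum fun f hf => by
        have : ψ f = 0 := funext fun h => hsupp f hf h
        rw [this]; simp [nsq]
    rw [e]
    have h1 : ∑ f ∈ Cl7x999.bx 0 (2 * m), nsq (ψ f) ≤
        ∑ f ∈ Cl7x999.bx 0 (2 * m), nsq (φ k f) := by
      refine Finset.sum_le_sum fun f _ => ?_
      rw [hψ, Cl7x999.nsq_sm]
      have h2 := Cl7x999.cut_sq_le 0 m m f
      have h3 := nsq_nonneg (φ k f)
      nlinarith
    have h2 := hmass (Cl7x999.bx 0 (2 * m)) (hbxn _ (by omega))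
    rw [div_pow, le_div_iff₀ (by positivity)]
    calc (∑ f ∈ Cl7x999.bx 0 (2 * m), nsq (ψ f)) * a k ^ 2
        ≤ (∑ f ∈ Cl7x999.bx 0 (2 * m), nsq (φ k f)) * a k ^ 2 :=
          mul_le_mul_of_nonneg_right h1 (sq_nonneg _)
      _ = a k ^ 2 * ∑ f ∈ Cl7x999.bx 0 (2 * m), nsq (φ k f) := mul_comm _ _
      _ ≤ _ := h2
  -- the norm of `A ψ`
  have hAψ : A (w k) ψ = sm χ (A (w k) (φ k)) + comm (w k) χ (φ k) := Cl7x999.A_sm _ _ _
  have hQ : ∑' f, nsq (A (w k) ψ f) ≤ 2 * G0 ^ 2 + 2 * (C * G0) ^ 2 := by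
    have e : ∑' f, nsq (A (w k) ψ f) = ∑ f ∈ Cl7x999.bx 0 (2 * m + 1), nsq (A (w k) ψ f) := by
      refine tsum_eq_sum fun f hf => ?_
      rw [Cl7x999.mem_bx, not_le] at hf
      have h1 : A (w k) ψ f = 0 := by
        funext h
        have e1 : ψ f = 0 := funext fun h => hsupp f (by rw [Cl7x999.mem_bx]; omega) h
        have e2 : ψ (nb f h) = 0 := funext fun h' => hsupp (nb f h) (by
          rw [Cl7x999.mem_bx]
          have := Cl7x999.dd_le_nb f 0 h
          omega) h'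
        have e3 : A0 (0 : Fin 4 → ℝ) h = 0 := by fin_cases h <;> simp [A0]
        simp only [A, Y, e1, e2, e3, Pi.zero_apply, mul_zero, add_zero]
      rw [h1]; simp [nsq]
    rw [e, hAψ]
    have h1 : ∑ f ∈ Cl7x999.bx 0 (2 * m + 1), nsq ((sm χ (A (w k) (φ k)) +
        comm (w k) χ (φ k)) f) ≤ ∑ f ∈ Cl7x999.bx 0 (2 * m + 1),
          (2 * nsq (sm χ (A (w k) (φ k)) f) + 2 * nsq (comm (w k) χ (φ k) f)) := by
      refine Finset.sum_le_sum fun f _ => ?_
      simp only [nsq, Pi.add_apply, Finset.mul_sum]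
      rw [← Finset.sum_add_distrib]
      refine Finset.sum_le_sum fun h _ => ?_
      nlinarith [sq_nonneg (sm χ (A (w k) (φ k)) f h - comm (w k) χ (φ k) f h)]
    refine h1.trans ?_
    rw [Finset.sum_add_distrib, ← Finset.mul_sum, ← Finset.mul_sum]
    have h2 : ∑ f ∈ Cl7x999.bx 0 (2 * m + 1), nsq (sm χ (A (w k) (φ k)) f) ≤ G0 ^ 2 := by
      refine le_trans (le_of_le_of_eq (Finset.sum_le_sum (g := fun f => a k ^ 2 * nsq (g k f))
        fun f _ => ?_) (Finset.mul_sum _ _ _).symm) (hg (Cl7x999.bx 0 (2 * m + 1)))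
      have e3 : nsq (A (w k) (φ k) f) = a k ^ 2 * nsq (g k f) := by
        simp only [nsq, heqn, Finset.mul_sum]
        exact Finset.sum_congr rfl fun h _ => by ring
      rw [Cl7x999.nsq_sm, e3]
      have h2 := Cl7x999.cut_sq_le 0 m m f
      have h3 : 0 ≤ a k ^ 2 * nsq (g k f) := mul_nonneg (sq_nonneg _) (nsq_nonneg _)
      nlinarith
    have h3 : ∑ f ∈ Cl7x999.bx 0 (2 * m + 1), nsq (comm (w k) χ (φ k) f) ≤ (C * G0) ^ 2 := by
      have h4 := Cl7x999.E2_comm_le (w := w k) (w_sq_le H k) (c := χ) (δ := 1 / m)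
        (Cl7x999.cut_lip 0 m m) (φ k) (Cl7x999.bx 0 (2 * m + 1)) (Cl7x999.bx 0 (2 * m + 2))
        (fun f hf h => by
          rw [Cl7x999.mem_bx] at hf ⊢
          have := Cl7x999.dd_nb_le f 0 h
          omega)
      refine h4.trans ?_
      have h5 := hmass (Cl7x999.bx 0 (2 * m + 2)) (hbxn _ le_rfl)
      have h6 : E2 (Cl7x999.bx 0 (2 * m + 2)) (φ k) ≤ (C * T * G0) ^ 2 / a k ^ 2 := by
        rw [le_div_iff₀ (by positivity)]
        calc E2 (Cl7x999.bx 0 (2 * m + 2)) (φ k) * a k ^ 2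
            = a k ^ 2 * ∑ f ∈ Cl7x999.bx 0 (2 * m + 2), nsq (φ k f) := mul_comm _ _
          _ ≤ _ := h5
      calc (1 / (m : ℝ)) ^ 2 * E2 (Cl7x999.bx 0 (2 * m + 2)) (φ k)
          ≤ (1 / (m : ℝ)) ^ 2 * ((C * T * G0) ^ 2 / a k ^ 2) :=
            mul_le_mul_of_nonneg_left h6 (sq_nonneg _)
        _ = (T / (a k * m)) ^ 2 * (C * G0) ^ 2 := by field_simp
        _ ≤ 1 ^ 2 * (C * G0) ^ 2 := by
            apply mul_le_mul_of_nonneg_right _ (sq_nonneg _)
            apply pow_le_pow_left₀ (by positivity)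
            rw [div_le_one (by positivity)]
            exact ham1
        _ = (C * G0) ^ 2 := by ring
    linarith
  -- the square trick
  have hmain := Sqx54.sq_main (H.sym k) (isPlus_plSeq H k) hsupp E _ (wt_sum_le E)
  rw [Finset.sum_congr rfl hψE] at hmain
  have hs1 : Real.sqrt (∑' f, nsq (ψ f)) ≤ C * T * G0 / a k := by
    rw [← Real.sqrt_sq (show 0 ≤ C * T * G0 / a k by positivity)]
    exact Real.sqrt_le_sqrt hP
  have hs2 : Real.sqrt (∑' f, nsq (A (w k) ψ f)) ≤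
      Real.sqrt (2 * G0 ^ 2 + 2 * (C * G0) ^ 2) := Real.sqrt_le_sqrt hQ
  set s := Real.sqrt (E.card : ℝ) with hs
  have hs0 : 0 ≤ s := Real.sqrt_nonneg _
  calc a k ^ 2 * ∑ f ∈ E, nsq (φ k f)
      ≤ a k ^ 2 * (6000000000 * (1 + 5 * s) * (Real.sqrt (∑' f, nsq (ψ f)) *
          Real.sqrt (∑' f, nsq (A (w k) ψ f)))) := mul_le_mul_of_nonneg_left hmain (sq_nonneg _)
    _ ≤ a k ^ 2 * (6000000000 * (1 + 5 * s) * (C * T * G0 / a k *
          Real.sqrt (2 * G0 ^ 2 + 2 * (C * G0) ^ 2))) := by gcongr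
    _ = 6000000000 * (C * T * G0 * Real.sqrt (2 * G0 ^ 2 + 2 * (C * G0) ^ 2)) *
          (a k + 5 * (a k * s)) := by field_simp

/-- **no concentration near the insertions** -/
theorem no_conc {n : ℕ} (hn : Even n) {x : Fin n → ℂ} {K : Set ℂ} {T0 : ℝ}
    (hT0 : 0 < T0) (hx : ∀ i, ‖x i‖ ≤ T0) (hK : ∀ z ∈ K, ‖z‖ ≤ T0) {G : ℂ → Fin 4 → ℝ} {a : ℕ → ℝ}
    {w : ℕ → Fld} {V : ℕ → Fin n → Face} {g φ : ℕ → Fld} (H : PlSeq x a w V)
    (S : PSrc K G a w g φ) {G0 : ℝ} (hG0 : 0 ≤ G0)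
    (hg : ∀ᶠ k in atTop, ∀ E : Finset Face, a k ^ 2 * ∑ f ∈ E, nsq (g k f) ≤ G0 ^ 2)
    {η : ℝ} (hη : 0 < η) : ∃ δ : ℝ, 0 < δ ∧ ∀ᶠ k in atTop, ∀ E : Finset Face,
      (∀ f ∈ E, meshPoint (a k) f ∈ thickening δ (range x)) →
        a k ^ 2 * ∑ f ∈ E, nsq (φ k f) ≤ η := by
  obtain ⟨M, hM0, hM⟩ := small_mass hn hT0 hx hK H S hG0 hg (T := T0 + 1) (by linarith)
  set v := η / (12 * (M + 1)) with hv
  have hv0 : 0 < v := by positivity
  have hTv : volume (range x) = 0 := (finite_range x).measure_zero _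
  obtain ⟨δ, hδ0, hδ⟩ : ∃ δ : ℝ, 0 < δ ∧ δ ≤ 1 ∧
      volume (cthickening (2 * δ) (range x)) ≤ ENNReal.ofReal (v ^ 2) := by
    have h1 : Tendsto (fun r => volume (cthickening r (range x))) (𝓝 0) (𝓝 0) := by
      have := tendsto_measure_cthickening_of_isClosed (μ := (volume : Measure ℂ)) (s := range x)
        ⟨1, one_pos, ((finite_range x).isBounded.cthickening.measure_lt_top).ne⟩
        (finite_range x).isClosed
      rwa [hTv] at this
    have h2 : ∀ᶠ r in 𝓝 (0 : ℝ), volume (cthickening r (range x)) < ENNReal.ofReal (v ^ 2) :=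
      h1.eventually (eventually_lt_nhds (by rw [ENNReal.ofReal_pos]; positivity))
    obtain ⟨ε, hε, hball⟩ := Metric.eventually_nhds_iff.1 h2
    refine ⟨min (ε / 4) 1, by positivity, min_le_right _ _, (hball ?_).le⟩
    rw [Real.dist_eq, sub_zero, abs_of_pos (by positivity)]
    have := min_le_left (ε / 4) (1 : ℝ)
    linarith
  refine ⟨δ, hδ0, ?_⟩
  filter_upwards [hM, H.lim.eventually (eventually_le_nhds (show (0 : ℝ) < min (δ / 2) v by
    positivity))] with k hk hak E hE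
  have ha := H.pos k
  have hk1 : a k ≤ δ / 2 := hak.trans (min_le_left _ _)
  have hk2 : a k ≤ v := hak.trans (min_le_right _ _)
  have hcard : a k * Real.sqrt E.card ≤ v := by
    refine a_sqrt_card_le ha hv0.le _ (N := cthickening (2 * δ) (range x)) (fun z hz => ?_) hδ.2
    have h1 := hE _ hz
    have h2 := norm_sub_meshPoint ha z
    rw [mem_thickening_iff] at h1
    obtain ⟨y, hy, hyd⟩ := h1
    refine mem_cthickening_of_dist_le z y _ _ hy ?_
    have h3 : dist z y ≤ dist z (meshPoint (a k) (meshIndex (a k) z)) +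
      dist (meshPoint (a k) (meshIndex (a k) z)) y := dist_triangle _ _ _
    have h4 : dist z (meshPoint (a k) (meshIndex (a k) z)) ≤ 2 * a k := by
      rw [dist_comm, dist_eq_norm]; exact h2
    linarith
  have hET : ∀ f ∈ E, ‖meshPoint (a k) f‖ ≤ T0 + 1 := by
    intro f hf
    have h1 := hE f hf
    rw [mem_thickening_iff] at h1
    obtain ⟨y, ⟨i, rfl⟩, hyd⟩ := h1
    rw [dist_eq_norm] at hyd
    have h2 : ‖meshPoint (a k) f‖ ≤ ‖meshPoint (a k) f - x i‖ + ‖x i‖ := by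
      have := norm_add_le (meshPoint (a k) f - x i) (x i)
      rwa [sub_add_cancel] at this
    have := hx i
    have := hδ.1
    linarith
  refine (hk E hET).trans ?_
  calc M * (a k + 5 * (a k * Real.sqrt E.card)) ≤ (M + 1) * (v + 5 * v) := by
        apply mul_le_mul (by linarith) (by linarith) _ (by linarith)
        positivity
    _ = η / 2 := by rw [hv]; field_simp; ring
    _ ≤ η := by linarith

end Crest.Agent.R165.PlCx811
end
end

-- ▼ part R165/PlMacD_811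
section

/-!
# Row 165 (S0250), plane MAC (helper811): strong limits on discs are spinors, uniqueness

* `SLim`     : strong `L²` limit on all discs along a filter, holomorphic off the source
* `ld`       : the data `LD` of the limit laws on `ball 0 T`
* `isSpin`   : the limit is a spinor with sources in `K ∪ {T ≤ |z|}`
* `diff_hol` : differences of two limits are holomorphic off the insertions
* `decay`    : `|F z| ≤ C / |z|`
* `unique`   : two limits with the same sources agree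
-/

set_option autoImplicit false

noncomputable section

open MeasureTheory Filter Topology Set Metric
open Crest.ProbabilityR.IsingModel
open Crest.Agent.R165.Tr1x40 Crest.Agent.R165.LimAx610 Crest.Agent.R165.LimQx610
open Crest.Agent.R165.LimRx610 Crest.Agent.R165.Embx622
open Crest.Agent.R165.RIfx891 (lv)
open Crest.Agent.R165.Mac0x622 Crest.Agent.R165.LimSx610
open Crest.Agent.R165.MacSx610 Crest.Agent.R165.MacTx610
open Crest.Agent.R165.PlOutx304 (PlSeq)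
open Crest.Agent.R165.PlCx811
open scoped ENNReal ContDiff

namespace Crest.Agent.R165.PlDx811

/-- strong limit on all discs -/
structure SLim {n : ℕ} (x : Fin n → ℂ) (K : Set ℂ) (a : ℕ → ℝ) (φ : ℕ → Fld) (U : Filter ℕ)
    (F : ℂ → ℂ) : Prop where
  mem : ∀ T : ℝ, MemLp F 2 (volume.restrict (ball 0 T))
  conv : ∀ (T : ℝ) h, Tendsto (fun k => eLpNorm (fun z => emb (a k) (fun f => φ k f h) z -
    lv (F z) h) 2 (volume.restrict (ball 0 T))) U (𝓝 0)
  hol : ∃ gg : ℂ → ℂ, DifferentiableOn ℂ gg (Om univ x \ K) ∧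
    ∀ z ∈ Om univ x \ K, F z * U3x719.rX x z = gg z

variable {n : ℕ} {x : Fin n → ℂ} {K : Set ℂ} {G : ℂ → Fin 4 → ℝ} {a : ℕ → ℝ}
  {w : ℕ → Fld} {V : ℕ → Fin n → Face} {g φ : ℕ → Fld} {U : Filter ℕ} {F : ℂ → ℂ}

theorem ld (H : PlSeq x a w V) (S : PSrc K G a w g φ)
    (hG : ∀ h, MemLp (fun z => G z h) 2) (hU : U ≤ atTop) (L : SLim x K a φ U F) (T : ℝ) :
    LD U univ (ball 0 T) a w φ (fun h z => lv (F z) h) (fun h z => G z h) where
  pos := H.pos
  lim := H.lim.mono_left hU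
  sym := H.sym
  plus := isPlus_plSeq H
  opn := isOpen_univ
  meas := measurableSet_ball
  memΦ h := memLp_lv (L.mem T) h
  memG h := (hG h).restrict _
  zero h := Eventually.of_forall fun z hz => absurd (mem_univ z) hz
  crit K' _ _ := Eventually.of_forall fun k z _ h => by
    rw [H.wt, mul_pow, PlCx811.rays_sq, one_mul]
  convΦ h := L.conv T h
  convG h := by
    have h1 := (tendsto_eLpNorm (S.conv h)).mono_left hU
    refine tendsto_of_tendsto_of_tendsto_of_le_of_le' tendsto_const_nhds h1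
      (Eventually.of_forall fun _ => bot_le) ?_
    filter_upwards [hU S.eqn] with k hk
    have e : src (a k) (w k) (φ k) = g k := by
      funext f h
      rw [src, hk, ← mul_assoc, inv_mul_cancel₀ (H.pos k).ne', one_mul]
    rw [e]
    exact eLpNorm_mono_measure _ Measure.restrict_le_self

/-- **limits are spinors** -/
theorem isSpin (hK : IsCompact K) (H : PlSeq x a w V) (S : PSrc K G a w g φ)
    (hG : ∀ h, MemLp (fun z => G z h) 2) (hG0 : ∀ z, z ∉ K → ∀ h, G z h = 0) [U.NeBot]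
    (hU : U ≤ atTop) (L : SLim x K a φ U F) (T : ℝ) :
    U3x719.IsSpin univ x (K ∪ {z : ℂ | T ≤ ‖z‖}) (fun z => om8 * F z) := by
  have hLD := ld H S hG hU L T
  have hcl : IsClosed {z : ℂ | T ≤ ‖z‖} := isClosed_le continuous_const continuous_norm
  have hdb : ∀ (χ : ℂ → ℝ) z, ((om8 * F z) ^ 2 * U3x719.db χ z).re
      = fderiv ℝ χ z 1 * (F z ^ 2).im + fderiv ℝ χ z Complex.I * (F z ^ 2).re := by
    intro χ z
    rw [mul_pow, om8_sq, U3x719.db]
    simp only [Complex.mul_re, Complex.mul_im, Complex.neg_re, Complex.neg_im, Complex.I_re,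
      Complex.I_im, Complex.add_re, Complex.add_im, Complex.ofReal_re, Complex.ofReal_im]
    ring
  have hdb' : ∀ (χ : ℂ → ℝ) z, ((om8 * F z) ^ 2 * U3x719.db χ z).im
      = -(fderiv ℝ χ z 1 * (F z ^ 2).re - fderiv ℝ χ z Complex.I * (F z ^ 2).im) := by
    intro χ z
    rw [mul_pow, om8_sq, U3x719.db]
    simp only [Complex.mul_re, Complex.mul_im, Complex.neg_re, Complex.neg_im, Complex.I_re,
      Complex.I_im, Complex.add_re, Complex.add_im, Complex.ofReal_re, Complex.ofReal_im]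
    ring
  have hz : ∀ χ : ℂ → ℝ, Disjoint (tsupport χ) (K ∪ {z : ℂ | T ≤ ‖z‖}) →
      ∀ᵐ z ∂volume.restrict (ball (0 : ℂ) T), χ z ≠ 0 → ∀ h, G z h = 0 := by
    intro χ hχ
    refine Eventually.of_forall fun z hχz h => hG0 z (fun hzK => ?_) h
    exact disjoint_left.1 hχ (subset_tsupport χ hχz) (Or.inl hzK)
  have hsub : ∀ χ : ℂ → ℝ, Disjoint (tsupport χ) (K ∪ {z : ℂ | T ≤ ‖z‖}) →
      tsupport χ ⊆ ball 0 T := by
    intro χ hχ z hz
    rw [mem_ball_zero_iff]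
    by_contra hc
    exact disjoint_left.1 hχ hz (Or.inr (not_lt.1 hc))
  have hnb : ∀ χ : ℂ → ℝ, HasCompactSupport χ → Disjoint (tsupport χ) (K ∪ {z : ℂ | T ≤ ‖z‖}) →
      ∃ δ > 0, Metric.thickening δ (tsupport χ) ⊆ ball (0 : ℂ) T := by
    intro χ hc hχ
    obtain ⟨δ, hδ, h⟩ := hc.isCompact.exists_thickening_subset_open isOpen_ball (hsub χ hχ)
    exact ⟨δ, hδ, h⟩
  have hzero : ∀ (χ : ℂ → ℝ), Disjoint (tsupport χ) (K ∪ {z : ℂ | T ≤ ‖z‖}) →
      ∀ z, z ∉ ball (0 : ℂ) T → fderiv ℝ χ z = 0 := by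
    intro χ hχ z hz
    have hz' : z ∉ tsupport χ := fun hc => hz (hsub χ hχ hc)
    have : χ =ᶠ[𝓝 z] 0 := notMem_tsupport_iff_eventuallyEq.1 hz'
    rw [this.fderiv_eq]
    simp
  refine ⟨fun W hW hKW => ?_, ?_, ?_, ?_⟩
  · refine ((L.mem T).const_mul om8).mono_measure (Measure.restrict_mono ?_ le_rfl)
    rintro z ⟨-, hz⟩
    rw [mem_ball_zero_iff]
    by_contra hc
    exact hz (hKW (Or.inr (not_lt.1 hc)))
  · obtain ⟨gg, h1, h2⟩ := L.hol
    refine ⟨fun z => om8 * gg z, ?_, ?_⟩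
    · refine (h1.mono ?_).const_mul _
      rintro z ⟨-, hz⟩
      exact ⟨⟨mem_univ z, fun h => hz (Or.inl h)⟩, fun h => hz (Or.inr (Or.inl h))⟩
    · rw [ae_restrict_iff' (MeasurableSet.univ.diff (hK.isClosed.union hcl).measurableSet)]
      filter_upwards [ae_not_range x] with z hz hzD
      rw [mul_assoc, h2 z ⟨⟨mem_univ z, hz⟩, fun h => hzD.2 (Or.inl h)⟩]
  · rintro χ ⟨C, hC⟩ hc hχ hdis
    have hT := Test.of_contDiffOn isOpen_univ hC hc (hnb χ hc hdis) hχ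
    have h := curl_law hLD hT (hz χ hdis)
    simp only [hdb, Measure.restrict_univ]
    rw [← h]
    exact (setIntegral_eq_integral_of_forall_compl_eq_zero fun z hzD => by
      rw [hzero χ hdis z hzD]; simp).symm
  · rintro χ ⟨C, hC⟩ hc hχ hdis hχ0
    have hT := Test.of_contDiffOn isOpen_univ hC hc (hnb χ hc hdis) hχ
    have h := div_law hLD hT hχ0 (hz χ hdis)
    simp only [hdb', integral_neg, Measure.restrict_univ]
    rw [neg_nonpos]
    refine h.trans (le_of_eq (setIntegral_eq_integral_of_forall_compl_eq_zero fun z hzD => ?_))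
    rw [hzero χ hdis z hzD]
    simp

/-- spinor without source near the insertions -/
theorem locSpin (hK : IsCompact K) (hKO : K ⊆ Om univ x) (H : PlSeq x a w V)
    (S : PSrc K G a w g φ) (hG : ∀ h, MemLp (fun z => G z h) 2)
    (hG0 : ∀ z, z ∉ K → ∀ h, G z h = 0) [U.NeBot] (hU : U ≤ atTop) (L : SLim x K a φ U F)
    (j : Fin n) : PlBx811.LocSpin x (fun z => om8 * F z) (x j) := by
  have hs := isSpin hK H S hG hG0 hU L (‖x j‖ + 1)
  have hcl : IsClosed (K ∪ {z : ℂ | ‖x j‖ + 1 ≤ ‖z‖}) :=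
    hK.isClosed.union (isClosed_le continuous_const continuous_norm)
  have hj : x j ∈ univ \ (K ∪ {z : ℂ | ‖x j‖ + 1 ≤ ‖z‖}) := by
    refine ⟨mem_univ _, ?_⟩
    rintro (h | h)
    · exact (hKO h).2 (mem_range_self j)
    · have h' : ‖x j‖ + 1 ≤ ‖x j‖ := h
      linarith
  obtain ⟨δ, hδ, hb⟩ := Metric.isOpen_iff.1 (isOpen_univ.sdiff hcl) _ hj
  exact ⟨univ, _, _, δ, isOpen_univ, hcl, hδ, hs, hb, Eventually.of_forall fun z => rfl⟩



/-! ### decay -/

/-- pointwise bounds pass to strong limits -/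
theorem bound_of_strong {B : Set ℂ} (hB : MeasurableSet B) {f : ℕ → ℂ → ℝ} {Φ : ℂ → ℝ}
    {b : ℂ → ℝ} [U.NeBot] (hf : ∀ k, AEStronglyMeasurable (f k) (volume.restrict B))
    (hΦ : AEStronglyMeasurable Φ (volume.restrict B))
    (hb : AEStronglyMeasurable b (volume.restrict B))
    (hc : Tendsto (fun k => eLpNorm (fun z => f k z - Φ z) 2 (volume.restrict B)) U (𝓝 0))
    (hle : ∀ᶠ k in U, ∀ z ∈ B, |f k z| ≤ b z) : ∀ᵐ z ∂volume.restrict B, |Φ z| ≤ b z := by
  set h : ℂ → ℝ := fun z => max (|Φ z| - b z) 0 with hh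
  have hhm : AEStronglyMeasurable h (volume.restrict B) :=
    (hΦ.norm.sub hb).sup aestronglyMeasurable_const
  have h0 : eLpNorm h 2 (volume.restrict B) = 0 := by
    refine le_antisymm (ge_of_tendsto hc ?_) bot_le
    filter_upwards [hle] with k hk
    refine eLpNorm_mono_ae ?_
    filter_upwards [ae_restrict_mem hB] with z hz
    rw [Real.norm_eq_abs, Real.norm_eq_abs, abs_of_nonneg (le_max_right _ _)]
    refine max_le ?_ (abs_nonneg _)
    have h1 := hk z hz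
    have h2 : |Φ z| ≤ |f k z - Φ z| + |f k z| := by
      have := abs_add_le (-(f k z - Φ z)) (f k z)
      rw [abs_neg] at this
      refine le_trans (le_of_eq ?_) this
      congr 1
      ring
    linarith
  rw [eLpNorm_eq_zero_iff hhm (by norm_num)] at h0
  filter_upwards [h0] with z hz
  have h1 : |Φ z| - b z ≤ 0 := by
    have := le_max_left (|Φ z| - b z) 0
    have h2 : max (|Φ z| - b z) 0 = 0 := hz
    rwa [h2] at this
  linarith

/-- **decay of the limit** -/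
theorem decay (hn : Even n) (hK : IsCompact K) (H : PlSeq x a w V) (S : PSrc K G a w g φ)
    (hG : ∀ h, MemLp (fun z => G z h) 2) [U.NeBot] (hU : U ≤ atTop) (L : SLim x K a φ U F) :
    ∃ C T : ℝ, ∀ᵐ z, T ≤ ‖z‖ → ‖F z‖ ≤ C / ‖z‖ := by
  obtain ⟨R1, hR1⟩ := hK.isBounded.exists_norm_le
  obtain ⟨R2, hR2⟩ := (finite_range x).isBounded.exists_norm_le
  set T0 := max (max R1 R2) 1 with hT0
  have hT0' : 0 < T0 := by positivity
  obtain ⟨G0, hG0, hg⟩ := S.gbd H.pos hG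
  obtain ⟨C, hC, hb⟩ := bounds
  have hxT : ∀ i, ‖x i‖ ≤ T0 := fun i =>
    (hR2 _ (mem_range_self i)).trans ((le_max_right _ _).trans (le_max_left _ _))
  have hKT : ∀ z ∈ K, ‖z‖ ≤ T0 := fun z hz =>
    (hR1 z hz).trans ((le_max_left _ _).trans (le_max_left _ _))
  have hbd := hb hn hT0' hxT hKT H S hG0 hg T0 le_rfl
  have key : ∀ N : ℕ, ∀ᵐ z ∂volume.restrict (ball (0 : ℂ) N ∩ {z : ℂ | 64 * T0 ≤ ‖z‖}),
      ‖F z‖ ≤ 4 * C * T0 * G0 / ‖z‖ := by
    intro N
    set B : Set ℂ := ball (0 : ℂ) N ∩ {z : ℂ | 64 * T0 ≤ ‖z‖} with hB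
    have hBm : MeasurableSet B :=
      measurableSet_ball.inter (isClosed_le continuous_const continuous_norm).measurableSet
    have hBs : B ⊆ ball 0 N := inter_subset_left
    have hcomp : ∀ h, ∀ᵐ z ∂volume.restrict B, |lv (F z) h| ≤ 2 * C * T0 * G0 / ‖z‖ := by
      intro h
      refine bound_of_strong (U := U) hBm
        (f := fun k z => emb (a k) (fun f => φ k f h) z)
        (fun k => (emb_measurable (a k) _).aestronglyMeasurable) ?_ ?_ ?_ ?_
      · exact ((memLp_lv (L.mem N) h).mono_measure (Measure.restrict_mono hBs le_rfl)).1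
      · exact (Measurable.aestronglyMeasurable (by fun_prop))
      · refine tendsto_of_tendsto_of_tendsto_of_le_of_le tendsto_const_nhds (L.conv N h)
          (fun _ => bot_le) fun k => eLpNorm_mono_measure _ (Measure.restrict_mono hBs le_rfl)
      · refine hU ?_
        filter_upwards [hbd, mesh_eventually H.pos H.lim hT0'] with k hk hk2 z hz
        have h64 : 64 * T0 ≤ ‖z‖ := hz.2
        have h1 : ‖z‖ / 2 ≤ ‖meshPoint (a k) (meshIndex (a k) z)‖ := by
          have h2 := hk2 z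
          have h3 : ‖z‖ ≤ ‖meshPoint (a k) (meshIndex (a k) z)‖ +
              ‖meshPoint (a k) (meshIndex (a k) z) - z‖ := by
            have := norm_sub_le (meshPoint (a k) (meshIndex (a k) z))
              (meshPoint (a k) (meshIndex (a k) z) - z)
            rwa [sub_sub_cancel] at this
          linarith
        have h2 := hk.2 (meshIndex (a k) z) (by linarith)
        have hz0 : 0 < ‖z‖ := by linarith
        have h3 : C * T0 * G0 / ‖meshPoint (a k) (meshIndex (a k) z)‖ ≤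
            2 * C * T0 * G0 / ‖z‖ := by
          rw [div_le_div_iff₀ (by linarith) hz0]
          have h4 : 0 ≤ C * T0 * G0 := by positivity
          nlinarith
        have h5 : φ k (meshIndex (a k) z) h ^ 2 ≤ nsq (φ k (meshIndex (a k) z)) :=
          Finset.single_le_sum (f := fun b => φ k (meshIndex (a k) z) b ^ 2)
            (fun _ _ => sq_nonneg _) (Finset.mem_univ h)
        have h6 : 0 ≤ 2 * C * T0 * G0 / ‖z‖ := by positivity
        have h7 : φ k (meshIndex (a k) z) h ^ 2 ≤ (2 * C * T0 * G0 / ‖z‖) ^ 2 :=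
          (h5.trans h2).trans (pow_le_pow_left₀ (by positivity) h3 2)
        show |φ k (meshIndex (a k) z) h| ≤ _
        exact abs_le_of_sq_le_sq h7 h6
    filter_upwards [hcomp 1, hcomp 3] with z h1 h3
    refine (norm_le_lv (F z)).trans ?_
    calc |lv (F z) 1| + |lv (F z) 3| ≤ 2 * C * T0 * G0 / ‖z‖ + 2 * C * T0 * G0 / ‖z‖ :=
          add_le_add h1 h3
      _ = 4 * C * T0 * G0 / ‖z‖ := by ring
  refine ⟨4 * C * T0 * G0, 64 * T0, ?_⟩
  have hall : ∀ᵐ z : ℂ, ∀ N : ℕ, z ∈ ball (0 : ℂ) N ∩ {z : ℂ | 64 * T0 ≤ ‖z‖} →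
      ‖F z‖ ≤ 4 * C * T0 * G0 / ‖z‖ := by
    rw [ae_all_iff]
    intro N
    have hBm : MeasurableSet (ball (0 : ℂ) N ∩ {z : ℂ | 64 * T0 ≤ ‖z‖}) :=
      measurableSet_ball.inter (isClosed_le continuous_const continuous_norm).measurableSet
    exact (ae_restrict_iff' hBm).1 (key N)
  filter_upwards [hall] with z hz hzT
  obtain ⟨N, hN⟩ := exists_nat_gt ‖z‖
  exact hz N ⟨by rw [mem_ball_zero_iff]; exact hN, hzT⟩


end Crest.Agent.R165.PlDx811
end
end

-- ▼ part R165/PlMacH_811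

/-!
# Row 165 (S0250), plane MAC (helper811): compactness in the plane

* `pdiff` : `PDiff x` of `PlMacE_654`
* `LocComp` [943], `Glue` [422] : local compactness, gluing
* `pcomp` : `LocComp → Glue → PComp x`
-/

set_option autoImplicit false

noncomputable section

open MeasureTheory Filter Topology Set Metric
open Crest.ProbabilityR.IsingModel
open Crest.Agent.R165.Tr1x40 Crest.Agent.R165.Embx622
open Crest.Agent.R165.RIfx891 (lv)
open Crest.Agent.R165.Mac0x622 Crest.Agent.R165.MacSx610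
open Crest.Agent.R165.PlOutx304 (PlSeq)
open Crest.Agent.R165.PlCx811 Crest.Agent.R165.PlDx811
open Crest.Agent.R165.PlEx654 (PSrcs PLim PComp PDiff)
open scoped ENNReal

namespace Crest.Agent.R165.PlHx811

variable {n : ℕ} {x : Fin n → ℂ}

theorem _root_.Crest.Agent.R165.PlEx654.PSrcs.pSrc {K : Set ℂ} {G : ℂ → Fin 4 → ℝ} {a : ℕ → ℝ}
    {w g φ : ℕ → Fld} (S : PSrcs K G a w g φ) : PSrc K G a w g φ :=
  ⟨Eventually.of_forall fun k f h hne => by
      by_contra hc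
      exact hne (S.supp k f hc h),
    S.conv, S.van, Eventually.of_forall S.eqn⟩


/-- the source vanishes off `K` -/
theorem source_zero {K : Set ℂ} {G : ℂ → Fin 4 → ℝ} {a : ℕ → ℝ} {w g φ : ℕ → Fld}
    (hpos : ∀ k, 0 < a k) (hlim : Tendsto a atTop (𝓝 0)) (hK : IsClosed K)
    (S : PSrc K G a w g φ) (hG : ∀ h, MemLp (fun z => G z h) 2) :
    ∀ᵐ z, z ∉ K → ∀ h, G z h = 0 := by
  have key : ∀ h, ∀ᵐ z, z ∉ K → G z h = 0 := by
    intro h
    have h1 : Tendsto (fun k => eLpNorm (emb (a k) (fun f => g k f h) - fun z => G z h) 2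
        (volume : Measure ℂ)) atTop (𝓝 0) := tendsto_eLpNorm (S.conv h)
    have h2 := tendstoInMeasure_of_tendsto_eLpNorm (by norm_num)
      (fun k => (emb_measurable (a k) (fun f => g k f h)).aestronglyMeasurable) (hG h).1 h1
    obtain ⟨ns, hns, hae⟩ := h2.exists_seq_tendsto_ae
    filter_upwards [hae] with z hz hzK
    have h3 : ∀ᶠ j in atTop, emb (a (ns j)) (fun f => g (ns j) f h) z = 0 := by
      obtain ⟨δ, hδ, hb⟩ := Metric.mem_nhds_iff.1 (hK.isOpen_compl.mem_nhds hzK)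
      have h4 := mesh_eventually hpos hlim (half_pos hδ)
      filter_upwards [hns.tendsto_atTop.eventually h4, hns.tendsto_atTop.eventually S.supp]
        with j hj hj2
      by_contra hne
      refine (hb ?_) (hj2 _ h hne)
      rw [mem_ball, dist_eq_norm]
      exact (hj z).trans_lt (half_lt_self hδ)
    exact tendsto_nhds_unique hz (tendsto_const_nhds.congr' (h3.mono fun _ h => h.symm))
  filter_upwards [ae_all_iff.2 key] with z hz hzK h
  exact hz h hzK

open Classical in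
/-- the source, cut off `K` -/
def GK (K : Set ℂ) (G : ℂ → Fin 4 → ℝ) (z : ℂ) (h : Fin 4) : ℝ := if z ∈ K then G z h else 0

theorem GK_ae {K : Set ℂ} {G : ℂ → Fin 4 → ℝ} (h : ∀ᵐ z, z ∉ K → ∀ h, G z h = 0) :
    ∀ᵐ z, ∀ h, GK K G z h = G z h := by
  filter_upwards [h] with z hz h
  unfold GK
  split_ifs with hK
  · rfl
  · exact (hz hK h).symm

theorem GK_off {K : Set ℂ} {G : ℂ → Fin 4 → ℝ} (z : ℂ) (hz : z ∉ K) (h : Fin 4) :
    GK K G z h = 0 := by
  unfold GK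
  rw [if_neg hz]

theorem GK_mem {K : Set ℂ} {G : ℂ → Fin 4 → ℝ} (hG : ∀ h, MemLp (fun z => G z h) 2)
    (h0 : ∀ᵐ z, z ∉ K → ∀ h, G z h = 0) (h : Fin 4) : MemLp (fun z => GK K G z h) 2 :=
  (hG h).ae_eq (by filter_upwards [GK_ae h0] with z hz using (hz h).symm)

theorem GK_src {K : Set ℂ} {G : ℂ → Fin 4 → ℝ} {a : ℕ → ℝ} {w g φ : ℕ → Fld}
    (S : PSrc K G a w g φ) (h0 : ∀ᵐ z, z ∉ K → ∀ h, G z h = 0) : PSrc K (GK K G) a w g φ :=
  ⟨S.supp, fun h => (S.conv h).congr fun k => lintegral_congr_ae (by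
    filter_upwards [GK_ae h0] with z hz
    rw [hz h]), S.van, S.eqn⟩

/-! ### hypotheses -/

/-- locally bounded scaled mass -/
def BddL (O : Set ℂ) (a : ℕ → ℝ) (φ : ℕ → Fld) : Prop :=
  ∀ L : Set ℂ, IsCompact L → L ⊆ O → ∃ C : ℝ, ∀ᶠ k in atTop, ∀ S : Finset Face,
    (∀ f ∈ S, meshPoint (a k) f ∈ L) → a k ^ 2 * ∑ f ∈ S, nsq (φ k f) ≤ C

/-- local compactness [943] -/
def LocComp : Prop := ∀ {O : Set ℂ} {n : ℕ} {x : Fin n → ℂ} {a : ℕ → ℝ} {w : ℕ → Fld}
  {V : ℕ → Fin n → Face} (_ : OmSeq O x a w V) (_ : IsOpen O) (_ : ∀ i, x i ∉ O) {K : Set ℂ}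
  (_ : IsClosed K) {g φ : ℕ → Fld} (_ : ∀ k f, meshPoint (a k) f ∉ K → ∀ h, g k f h = 0)
  (_ : BddL O a g) (_ : BddL O a φ) (_ : ∀ k f h, A (w k) (φ k) f h = a k * g k f h)
  (U : Ultrafilter ℕ) (_ : (U : Filter ℕ) ≤ atTop), ∃ F : ℂ → ℂ,
    (∀ z0 ∈ O, ∃ ρ > 0, MemLp F 2 (volume.restrict (ball z0 ρ)) ∧
      ∀ h, Tendsto (fun k => ∫⁻ z in ball z0 ρ, ENNReal.ofReal
        ((emb (a k) (fun f => φ k f h) z - lv (F z) h) ^ 2)) U (𝓝 0)) ∧
    ∃ gg : ℂ → ℂ, DifferentiableOn ℂ gg (O \ K) ∧ ∀ z ∈ O \ K, F z * U3x719.rX x z = gg z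

/-- gluing [422] -/
def Glue : Prop := ∀ {U : Filter ℕ} [U.NeBot] (_ : U ≤ atTop) {a : ℕ → ℝ}
  (_ : ∀ k, 0 < a k) (_ : Tendsto a atTop (𝓝 0)) {O : Set ℂ} (_ : IsOpen O) {φ : ℕ → Fld}
  {F : ℂ → ℂ} (_ : ∀ z0 ∈ O, ∃ ρ > 0, MemLp F 2 (volume.restrict (ball z0 ρ)) ∧
    ∀ h, Tendsto (fun k => ∫⁻ z in ball z0 ρ, ENNReal.ofReal
      ((emb (a k) (fun f => φ k f h) z - lv (F z) h) ^ 2)) U (𝓝 0))
  {T : ℝ} (_ : volume (ball (0 : ℂ) (T + 1) \ O) = 0)
  (_ : ∀ η : ℝ, 0 < η → ∃ L : Set ℂ, IsCompact L ∧ L ⊆ O ∧ ∀ᶠ k in U, ∀ S : Finset Face,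
    (∀ f ∈ S, ‖meshPoint (a k) f‖ ≤ T + 1 ∧ meshPoint (a k) f ∉ L) →
      a k ^ 2 * ∑ f ∈ S, nsq (φ k f) ≤ η),
  MemLp F 2 (volume.restrict (ball 0 T)) ∧
    ∀ h, Tendsto (fun k => eLpNorm (fun z => emb (a k) (fun f => φ k f h) z - lv (F z) h) 2
      (volume.restrict (ball 0 T))) U (𝓝 0)

/-- **compactness** : every ultrafilter has a strong limit -/
theorem exists_slim (hL : LocComp) (hGl : Glue) (hn : Even n) {K : Set ℂ} (hK : IsCompact K)
    {G : ℂ → Fin 4 → ℝ} (hG : ∀ h, MemLp (fun z => G z h) 2) {a : ℕ → ℝ} {w : ℕ → Fld}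
    {V : ℕ → Fin n → Face} (H : PlSeq x a w V) {g φ : ℕ → Fld} (S : PSrcs K G a w g φ)
    (U : Ultrafilter ℕ) (hU : (U : Filter ℕ) ≤ atTop) : ∃ F, SLim x K a φ U F := by
  have HO : OmSeq (Om univ x) x a w V := (PlOutx304.classOK_plSeq x).seq a w V H
  have hO : IsOpen (Om univ x) := isOpen_univ.sdiff (finite_range x).isClosed
  have hxO : ∀ i, x i ∉ Om univ x := fun i hc => hc.2 ⟨i, rfl⟩
  have S' := S.pSrc
  obtain ⟨R1, hR1⟩ := hK.isBounded.exists_norm_le
  obtain ⟨R2, hR2⟩ := (finite_range x).isBounded.exists_norm_le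
  set T0 := max (max R1 R2) 1 with hT0
  have hT0' : 0 < T0 := by positivity
  obtain ⟨G0, hG0, hg⟩ := S'.gbd H.pos hG
  obtain ⟨C, hC, hb⟩ := bounds
  have hxT : ∀ i, ‖x i‖ ≤ T0 := fun i =>
    (hR2 _ (mem_range_self i)).trans ((le_max_right _ _).trans (le_max_left _ _))
  have hKT : ∀ z ∈ K, ‖z‖ ≤ T0 := fun z hz =>
    (hR1 z hz).trans ((le_max_left _ _).trans (le_max_left _ _))
  have hbg : BddL (Om univ x) a g := fun L _ _ => ⟨G0 ^ 2, hg.mono fun k hk E _ => hk E⟩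
  have hbφ : BddL (Om univ x) a φ := by
    intro L hLc _
    obtain ⟨R3, hR3⟩ := hLc.isBounded.exists_norm_le
    have h1 := hb hn hT0' hxT hKT H S' hG0 hg (max T0 R3) (le_max_left _ _)
    refine ⟨_, h1.mono fun k hk E hE => hk.1 E fun f hf => ?_⟩
    have h2 := hR3 _ (hE f hf)
    have h3 := le_max_right T0 R3
    have h4 := le_max_left T0 R3
    linarith
  obtain ⟨F, hF1, hF2⟩ := hL HO hO hxO hK.isClosed S.supp hbg hbφ S.eqn U hU
  have hgl : ∀ T : ℝ, MemLp F 2 (volume.restrict (ball 0 T)) ∧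
      ∀ h, Tendsto (fun k => eLpNorm (fun z => emb (a k) (fun f => φ k f h) z - lv (F z) h) 2
        (volume.restrict (ball 0 T))) U (𝓝 0) := by
    intro T
    refine hGl hU H.pos H.lim hO hF1 ?_ ?_
    · refine measure_mono_null ?_ ((finite_range x).measure_zero volume)
      rintro z ⟨-, hz⟩
      by_contra hc
      exact hz ⟨mem_univ z, hc⟩
    · intro η hη
      obtain ⟨δ, hδ, hnc⟩ := no_conc hn hT0' hxT hKT H S' hG0 hg hη
      refine ⟨closedBall 0 (T + 1) \ thickening δ (range x),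
        (isCompact_closedBall 0 (T + 1)).diff isOpen_thickening, ?_, ?_⟩
      · rintro z ⟨-, hz⟩
        exact ⟨mem_univ z, fun hc => hz (self_subset_thickening hδ _ hc)⟩
      · refine hU ?_
        filter_upwards [hnc] with k hk E hE
        refine hk E fun f hf => ?_
        by_contra hc
        exact (hE f hf).2 ⟨by rw [mem_closedBall_zero_iff]; exact (hE f hf).1, hc⟩
  exact ⟨F, fun T => (hgl T).1, fun T => (hgl T).2, hF2⟩

/-- **`PComp` of `PlMacE_654`** -/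
theorem pcomp (hL : LocComp) (hGl : Glue) (hn : Even n) : PComp x := by
  intro K hK hKO G hG a w V H g φ S U hU
  obtain ⟨F, L⟩ := exists_slim hL hGl hn hK hG H S U hU
  have h0 := source_zero H.pos H.lim hK.isClosed S.pSrc hG
  have S2 := GK_src S.pSrc h0
  have hG2 := GK_mem hG h0
  refine ⟨F, L.mem, fun T h => tendsto_lintegral (L.conv T h), ?_, fun j => ?_, ?_⟩
  · obtain ⟨gg, h1, h2⟩ := L.hol
    exact ⟨gg, h1.continuousOn, h2⟩
  · exact locSpin hK hKO H S2 hG2 (fun z hz h => GK_off z hz h) hU L j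
  · exact decay hn hK H S.pSrc hG hU L


end Crest.Agent.R165.PlHx811
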