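import Crest.Agent.R165.PlMacE_654
import Crest.Agent.R165.MacT_610
import Crest.Agent.R165.PlMacH_811
import Crest.Agent.R165.PlOut2_304
import Crest.Agent.R165.Pl4_654
import Crest.Agent.R165.MacC6_943

-- ▼ part R165/PlMacDiff_654
section

/-!
# Row 165 (S0250), plane MAC (helper654): `PDiff`

Differences of limits along two plane sequences with the same source are holomorphic off the tips
(610's `MacT_610` for the class `PlSeq`).
-/

set_option autoImplicit false

noncomputable section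

open MeasureTheory Filter Topology Set Metric
open Crest.ProbabilityR.IsingModel
open Crest.Agent.R165.Tr1x40 Crest.Agent.R165.LimAx610 Crest.Agent.R165.LimQx610
open Crest.Agent.R165.LimRx610 Crest.Agent.R165.RIfx891 Crest.Agent.R165.Embx622
open Crest.Agent.R165.Mac0x622 Crest.Agent.R165.LimSx610

open Crest.Agent.R165.MacSx610 (rays_sq memLp_lv tendsto_eLpNorm lv_smul mesh_eventually
  ae_not_range)
open Crest.Agent.R165.MacTx610
open Crest.Agent.R165.PlOutx304 (PlSeq)
open Crest.Agent.R165.PlEx654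
open scoped ENNReal ContDiff

namespace Crest.Agent.R165.PlDx654

variable {n : ℕ} {x : Fin n → ℂ} {K : Set ℂ} {G : ℂ → Fin 4 → ℝ} {a : ℕ → ℝ}
  {w : ℕ → Fld} {V : ℕ → Fin n → Face} {g φ : ℕ → Fld} {U : Filter ℕ} {F : ℂ → ℂ}

theorem sq_of (H : PlSeq x a w V) (k : ℕ) (f : Face) (h : Fin 4) : w k f h ^ 2 = xc ^ 2 := by
  rw [H.wt, mul_pow, rays_sq, one_mul]

theorem src_eq (H : PlSeq x a w V) (S : PSrcs K G a w g φ) (k : ℕ) :
    LimQx610.src (a k) (w k) (φ k) = g k := by
  funext f h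
  rw [LimQx610.src, S.eqn, ← mul_assoc, inv_mul_cancel₀ (H.pos k).ne', one_mul]

/-- the data of the limit laws on a ball -/
theorem ld (H : PlSeq x a w V) (S : PSrcs K G a w g φ)
    (hG : ∀ h, MemLp (fun z => G z h) 2) (hU : U ≤ atTop) (L : PLim x K U a φ F) {B : Set ℂ}
    (hB : MeasurableSet B) {T : ℝ} (hBT : B ⊆ ball 0 T) :
    LD U univ B a w φ (fun h z => lv (F z) h) (fun h z => G z h) where
  pos := H.pos
  lim := H.lim.mono_left hU
  sym := H.sym
  plus k f h := Or.inl (sq_of H k f h)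
  opn := isOpen_univ
  meas := hB
  memΦ h := memLp_lv ((L.l2 T).mono_measure (Measure.restrict_mono hBT le_rfl)) h
  memG h := (hG h).restrict B
  zero h := Eventually.of_forall fun z hz => absurd (mem_univ z) hz
  crit K' hK' hK'D := Eventually.of_forall fun k z hz h => sq_of H k _ h
  convΦ h := by
    have h1 : Tendsto (fun k => ∫⁻ z in B, ENNReal.ofReal
        ((emb (a k) (fun f => φ k f h) z - lv (F z) h) ^ 2)) U (𝓝 0) :=
      tendsto_of_tendsto_of_tendsto_of_le_of_le tendsto_const_nhds (L.conv T h)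
        (fun _ => bot_le) fun k => lintegral_mono_set hBT
    exact tendsto_eLpNorm h1
  convG h := by
    have h1 : Tendsto (fun k => ∫⁻ z in B, ENNReal.ofReal
        ((emb (a k) (fun f => g k f h) z - G z h) ^ 2)) U (𝓝 0) :=
      tendsto_of_tendsto_of_tendsto_of_le_of_le tendsto_const_nhds ((S.conv h).mono_left hU)
        (fun _ => bot_le) fun k => setLIntegral_le_lintegral _ _
    refine (tendsto_eLpNorm h1).congr fun k => ?_
    rw [src_eq H S]
    rfl

theorem local_eq (H : PlSeq x a w V)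
    (S : PSrcs K G a w g φ) (hG : ∀ h, MemLp (fun z => G z h) 2) [U.NeBot] (hU : U ≤ atTop)
    (L : PLim x K U a φ F) {z0 : ℂ} (hz0 : z0 ∈ Om univ x) :
    ∃ r0 > 0, ∀ r, 0 < r → r < r0 → ∀ (χ : ℂ → ℝ) (C : NNReal), LipschitzWith C χ →
      HasCompactSupport χ → (∃ δ > 0, Metric.thickening δ (tsupport χ) ⊆ ball z0 r) →
      ContDiff ℝ 1 χ → ∀ f : ℂ,
      ∫ z in ball z0 r, ∑ h, χ z * (lv f h * (gc x z0 z * G z h))
        = xc * ∫ z in ball z0 r, ((f * (gc x z0 z * F z)) * U3x719.db χ z).im := by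
  have hz : ∀ i, x i ≠ z0 := fun i h => hz0.2 ⟨i, h⟩
  obtain ⟨r1, hr1, hg1⟩ := local_gauge H.pos H.lim H.tip hz
  refine ⟨r1 / 2, by positivity, fun r hr hrr χ C hC hc hnb hχ f => ?_⟩
  have hBT : ball z0 r ⊆ ball 0 (‖z0‖ + r) := by
    intro z hz
    rw [mem_ball, dist_eq_norm] at hz
    rw [mem_ball_zero_iff]
    have := norm_le_norm_add_norm_sub' z z0
    linarith
  have hLD := ld H S hG hU L (measurableSet_ball (x := z0) (ε := r)) hBT
  have hLG := LD_gauge hLD (s := fun k => gz x z0 (V k)) (σ := gc x z0)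
    (fun k f => gz_sq x z0 (V k) f) (fun u => gc_sq x z0 u) (measurable_gc x z0)
    (gconv_gz H.pos H.lim H.tip z0 (ball z0 r) hU)
  have eΦ : (fun (h : Fin 4) z => gc x z0 z * lv (F z) h)
      = fun h z => lv ((gc x z0 z : ℂ) * F z) h := by
    funext h z
    rw [lv_smul]
  rw [eΦ] at hLG
  have hT : Test univ (ball z0 r) χ C := Test.of_contDiffOn isOpen_univ hC hc hnb hχ.contDiffOn
  refine hol_law hLG hT measure_ball_lt_top.ne ?_ f
  refine hU ?_
  have hq : 0 < r1 / 2 := by positivity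
  filter_upwards [hg1, mesh_eventually H.pos H.lim (half_pos hq)] with k hk1 hk3 z hz h
  have h3 := hk3 z
  rw [mem_ball, dist_eq_norm] at hz
  have h4 : ‖meshPoint (a k) (meshIndex (a k) z) - z0‖ < r1 := by
    have e : meshPoint (a k) (meshIndex (a k) z) - z0
        = (meshPoint (a k) (meshIndex (a k) z) - z) + (z - z0) := by ring
    rw [e]
    have := norm_add_le (meshPoint (a k) (meshIndex (a k) z) - z) (z - z0)
    linarith
  have h5 := hk1 _ h4 h
  simp only [gaw]
  rw [H.wt, h5]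
  have s1 := gz_sq x z0 (V k) (meshIndex (a k) z)
  have s2 := gz_sq x z0 (V k) (nb (meshIndex (a k) z) h)
  linear_combination xc * gz x z0 (V k) (nb (meshIndex (a k) z) h) ^ 2 * s1 + xc * s2

/-- **differences of limits are holomorphic** -/
theorem diff_hol (hG : ∀ h, MemLp (fun z => G z h) 2)
    (H : PlSeq x a w V) (S : PSrcs K G a w g φ) [U.NeBot] (hU : U ≤ atTop)
    (L : PLim x K U a φ F)
    {a' : ℕ → ℝ} {w' : ℕ → Fld} {V' : ℕ → Fin n → Face} {g' φ' : ℕ → Fld}
    (H' : PlSeq x a' w' V') (S' : PSrcs K G a' w' g' φ') {U' : Filter ℕ} [U'.NeBot]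
    (hU' : U' ≤ atTop) {F' : ℂ → ℂ} (L' : PLim x K U' a' φ' F') :
    ∃ d : ℂ → ℂ, DifferentiableOn ℂ d (Om univ x) ∧
      ∀ᵐ z, (F z - F' z) * U3x719.rX x z = d z := by
  have hOm : IsOpen (Om univ x) := isOpen_univ.sdiff (finite_range x).isClosed
  obtain ⟨d, hd1, hd2⟩ := patch (U := Om univ x)
    (u := fun z => (F z - F' z) * U3x719.rX x z) (by
    intro z0 hz0
    have hz : ∀ i, x i ≠ z0 := fun i h => hz0.2 ⟨i, h⟩
    obtain ⟨r1, hr1, e1⟩ := local_eq H S hG hU L hz0
    obtain ⟨r2, hr2, e2⟩ := local_eq H' S' hG hU' L' hz0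
    obtain ⟨r3, hr3, e3⟩ := gc_rX_diff hz
    obtain ⟨r4, hr4, e4⟩ := Metric.isOpen_iff.1 hOm z0 hz0
    set r := min (min r1 r2) (min r3 r4) / 2 with hr
    have hm : 0 < min (min r1 r2) (min r3 r4) := by positivity
    have hr0 : 0 < r := by positivity
    have q1 : r < r1 := by
      have := min_le_left (min r1 r2) (min r3 r4)
      have := min_le_left r1 r2
      linarith
    have q2 : r < r2 := by
      have := min_le_left (min r1 r2) (min r3 r4)
      have := min_le_right r1 r2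
      linarith
    have q3 : r < r3 := by
      have := min_le_right (min r1 r2) (min r3 r4)
      have := min_le_left r3 r4
      linarith
    have q4 : r < r4 := by
      have := min_le_right (min r1 r2) (min r3 r4)
      have := min_le_right r3 r4
      linarith
    set B := ball z0 r with hB
    have hBT : B ⊆ ball 0 (‖z0‖ + r) := by
      intro z hz
      rw [hB, mem_ball, dist_eq_norm] at hz
      rw [mem_ball_zero_iff]
      have := norm_le_norm_add_norm_sub' z z0
      linarith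
    set u : ℂ → ℂ := fun z => gc x z0 z * (F z - F' z) with hu
    have hFi : IntegrableOn F B := by
      have : IsFiniteMeasure (volume.restrict B) := ⟨by
        rw [Measure.restrict_apply_univ]; exact measure_ball_lt_top⟩
      exact ((L.l2 _).mono_measure (Measure.restrict_mono hBT le_rfl)).integrable (by norm_num)
    have hFi' : IntegrableOn F' B := by
      have : IsFiniteMeasure (volume.restrict B) := ⟨by
        rw [Measure.restrict_apply_univ]; exact measure_ball_lt_top⟩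
      exact ((L'.l2 _).mono_measure (Measure.restrict_mono hBT le_rfl)).integrable (by norm_num)
    have hgcm : Measurable fun z => (gc x z0 z : ℂ) :=
      Complex.measurable_ofReal.comp (measurable_gc x z0)
    have hgF : IntegrableOn (fun z => (gc x z0 z : ℂ) * F z) B :=
      hFi.bdd_mul (c := 1) hgcm.aestronglyMeasurable (Eventually.of_forall fun z => by
        rw [Complex.norm_real, Real.norm_eq_abs, gc_abs])
    have hgF' : IntegrableOn (fun z => (gc x z0 z : ℂ) * F' z) B :=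
      hFi'.bdd_mul (c := 1) hgcm.aestronglyMeasurable (Eventually.of_forall fun z => by
        rw [Complex.norm_real, Real.norm_eq_abs, gc_abs])
    have hui : IntegrableOn u B := by
      refine (hgF.sub hgF').congr (Eventually.of_forall fun z => ?_)
      simp only [hu, Pi.sub_apply]
      ring
    have hw : Cl3x722.WDbar B u 0 := by
      refine wdbar_of_real isOpen_ball hui fun χ C hC hc hnb hχ => ?_
      have bdd : ∀ z, ‖U3x719.db χ z‖ ≤ 2 * C := by
        intro z
        have h1 := (fderiv ℝ χ z).le_opNorm 1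
        have h2 := (fderiv ℝ χ z).le_opNorm Complex.I
        have h3 := norm_fderiv_le_of_lipschitz ℝ hC (x₀ := z)
        rw [norm_one, mul_one] at h1
        rw [Complex.norm_I, mul_one] at h2
        unfold U3x719.db
        refine (norm_add_le _ _).trans ?_
        rw [norm_mul, Complex.norm_I, one_mul, Complex.norm_real, Complex.norm_real]
        linarith
      have meas : Measurable (U3x719.db χ) := by
        unfold U3x719.db
        exact (Complex.measurable_ofReal.comp (measurable_fderiv_apply_const ℝ χ 1)).add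
          ((Complex.measurable_ofReal.comp
            (measurable_fderiv_apply_const ℝ χ Complex.I)).const_mul _)
      have i1 : IntegrableOn (fun z => ((gc x z0 z : ℂ) * F z) * U3x719.db χ z) B := by
        refine (Integrable.bdd_mul (c := 2 * C) hgF meas.aestronglyMeasurable
          (Eventually.of_forall fun z => bdd z)).congr (Eventually.of_forall fun z => ?_)
        simp only
        ring
      have i2 : IntegrableOn (fun z => ((gc x z0 z : ℂ) * F' z) * U3x719.db χ z) B := by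
        refine (Integrable.bdd_mul (c := 2 * C) hgF' meas.aestronglyMeasurable
          (Eventually.of_forall fun z => bdd z)).congr (Eventually.of_forall fun z => ?_)
        simp only
        ring
      set J : ℂ := ∫ z in B, ((gc x z0 z : ℂ) * F z) * U3x719.db χ z with hJ
      set J' : ℂ := ∫ z in B, ((gc x z0 z : ℂ) * F' z) * U3x719.db χ z with hJ'
      have key : ∀ f : ℂ, (f * J).im = (f * J').im := by
        intro f
        have k1 := e1 r hr0 q1 χ C hC hc hnb hχ f
        have k2 := e2 r hr0 q2 χ C hC hc hnb hχ f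
        have k3 : ∫ z in B, ((f * ((gc x z0 z : ℂ) * F z)) * U3x719.db χ z).im = (f * J).im := by
          rw [hJ, ← integral_const_mul]
          have := integral_im (𝕜 := ℂ) (i1.const_mul f)
          simp only [RCLike.im_to_complex] at this
          rw [← this]
          refine integral_congr_ae (Eventually.of_forall fun z => ?_)
          simp only [mul_assoc]
        have k4 : ∫ z in B, ((f * ((gc x z0 z : ℂ) * F' z)) * U3x719.db χ z).im
            = (f * J').im := by
          rw [hJ', ← integral_const_mul]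
          have := integral_im (𝕜 := ℂ) (i2.const_mul f)
          simp only [RCLike.im_to_complex] at this
          rw [← this]
          refine integral_congr_ae (Eventually.of_forall fun z => ?_)
          simp only [mul_assoc]
        rw [k3] at k1
        rw [k4] at k2
        rw [k1] at k2
        exact mul_left_cancel₀ xc_pos.ne' k2
      have hJJ : J = J' := by
        have t1 := key 1
        have t2 := key Complex.I
        simp only [one_mul, Complex.mul_im, Complex.I_re, Complex.I_im, zero_mul, zero_add] at t1 t2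
        exact Complex.ext t2 t1
      have e : ∫ z in B, u z * U3x719.db χ z = J - J' := by
        rw [hJ, hJ', ← integral_sub i1 i2]
        refine integral_congr_ae (Eventually.of_forall fun z => ?_)
        simp only [hu]
        ring
      rw [e, hJJ, sub_self]
    obtain ⟨v, hv1, hv2⟩ := Cl4x722.weyl isOpen_ball hui.locallyIntegrableOn hw
    refine ⟨r, hr0, (ball_subset_ball q4.le).trans e4,
      fun z => v z * ((gc x z0 z : ℂ) * U3x719.rX x z),
      hv1.mul (e3.mono (ball_subset_ball q3.le)), ?_⟩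
    filter_upwards [hv2] with z hz hzB
    rw [← hz hzB]
    simp only [hu]
    have hg : (gc x z0 z : ℂ) ^ 2 = 1 := by
      have := gc_sq x z0 z; exact_mod_cast this
    linear_combination (-(F z - F' z) * U3x719.rX x z) * hg)
  refine ⟨d, hd1, ?_⟩
  filter_upwards [hd2, ae_not_range x] with z hz hzx
  exact hz ⟨mem_univ z, hzx⟩

/-- **differences of limits on the plane** -/
theorem pDiff (x : Fin n → ℂ) : PDiff x :=
  fun _ _ _ _ hG _ _ _ H _ _ S _ hU _ L _ _ _ H' _ _ S' _ hU' _ L' =>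
    diff_hol hG H S hU L H' S' hU' L'

/-- resolvent convergence on the plane from compactness -/
theorem resConv_of_comp {x : Fin n → ℂ} (hx : Function.Injective x) (hc : PComp x) :
    MacIx622.ResConv (Om univ x) x (PlSeq x) (fun _ _ => True) :=
  resConv_plane hx hc (pDiff x)

end Crest.Agent.R165.PlDx654
end
end

-- ▼ part R165/PlMacR_654
section

/-!
# Row 165 (S0250), plane MAC (helper654): the leaf `resPl` from 943's local compactness and 422's
gluing lemma
-/

set_option autoImplicit false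

noncomputable section

open MeasureTheory Filter Topology Set Metric
open Crest.ProbabilityR.IsingModel

namespace Crest.Agent.R165.PlRx654

/-- resolvent convergence on the plane -/
theorem resConv (hL : PlHx811.LocComp) (hG : PlHx811.Glue) {n : ℕ} (hn : Even n)
    {x : Fin n → ℂ} (hx : Function.Injective x) :
    MacIx622.ResConv (Mac0x622.Om Set.univ x) x (PlOutx304.PlSeq x) (fun _ _ => True) :=
  PlDx654.resConv_of_comp hx (PlHx811.pcomp hL hG hn)

/-- the leaf `resPl` of `UOpen` -/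
theorem resPl (hL : PlHx811.LocComp) (hG : PlHx811.Glue) :
    ∀ n : ℕ, Even n → ∀ x : Fin n → ℂ, Function.Injective x →
      ∃ Q, MacIx622.ResConv (Mac0x622.Om Set.univ x) x (PlOutx304.PlSeq x) Q :=
  fun _ hn _ hx => ⟨_, resConv hL hG hn hx⟩


end Crest.Agent.R165.PlRx654
end
end

-- ▼ part R165/MacL1_943
section

/-!
# Row 165 (S0250), M3, local version (plane MAC): **local compactness** `comp_loc`

Only local bounds on compacts of the open set `O`; no finite support, no global bound.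
-/

set_option autoImplicit false
set_option linter.unusedSimpArgs false
set_option linter.unusedVariables false

noncomputable section

namespace Crest.Agent.R165.MacL1x943

open Filter Topology MeasureTheory Metric
open Crest.ProbabilityR.IsingModel
open Crest.Agent.R165.Tr1x40 hiding sq2 pt
open Crest.Agent.R165.Tr2x40
open Crest.Agent.R165.RIfx891 (lv lv_amp)
open Crest.Agent.R165.Mac0x622 Crest.Agent.R165.Mac1x622
open Crest.Agent.R165.MacIx610
open Crest.Agent.R165.Lim1x943 (LocUnif)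
open Crest.Agent.R165.Lim2x943 (sq2)
open Crest.Agent.R165.Relx943 (N2 dif1 dif2)
open Crest.Agent.R165.PotAx894 (FS)
open Crest.Agent.R165.Embx622 (emb)
open Crest.Agent.R165.MacC1x943 Crest.Agent.R165.MacC2x943 Crest.Agent.R165.MacC3x943
open Crest.Agent.R165.MacC4x943 Crest.Agent.R165.MacC5x943 Crest.Agent.R165.MacC6x943

/-- bounds on compacts of `O` -/
def BddL (O : Set ℂ) (a : ℕ → ℝ) (φ : ℕ → Fld) : Prop :=
  ∀ L : Set ℂ, IsCompact L → L ⊆ O → ∃ C : ℝ, ∀ᶠ k in atTop, ∀ S : Finset Face,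
    (∀ f ∈ S, meshPoint (a k) f ∈ L) → a k ^ 2 * ∑ f ∈ S, nsq (φ k f) ≤ C

/-- truncation to a ball -/
def tr (z₀ : ℂ) (ρ a : ℝ) (φ : Fld) : Fld := by
  classical exact fun f h => if ‖meshPoint a f - z₀‖ < ρ then φ f h else 0

theorem tr_of_lt {z₀ : ℂ} {ρ a : ℝ} {φ : Fld} {f : Face} (h : ‖meshPoint a f - z₀‖ < ρ) :
    tr z₀ ρ a φ f = φ f := by
  funext k
  unfold tr
  rw [if_pos h]

theorem tr_of_le {z₀ : ℂ} {ρ a : ℝ} {φ : Fld} {f : Face} (h : ρ ≤ ‖meshPoint a f - z₀‖) :
    tr z₀ ρ a φ f = fun _ => 0 := by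
  funext k
  unfold tr
  rw [if_neg (not_lt.2 h)]

theorem tr_bdd {O : Set ℂ} {a : ℕ → ℝ} {φ : ℕ → Fld} (h : BddL O a φ) {z₀ : ℂ} {ρ : ℝ}
    (hρ : closedBall z₀ ρ ⊆ O) : Bdd a fun k => tr z₀ ρ (a k) (φ k) := by
  classical
  obtain ⟨C, hC⟩ := h _ (isCompact_closedBall z₀ ρ) hρ
  refine ⟨C, ?_⟩
  filter_upwards [hC] with k hk S
  refine le_trans (le_of_eq ?_) (hk (S.filter fun f => ‖meshPoint (a k) f - z₀‖ < ρ) ?_)
  · congr 1
    rw [Finset.sum_filter]
    refine Finset.sum_congr rfl fun f _ => ?_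
    split_ifs with hf
    · rw [tr_of_lt hf]
    · rw [tr_of_le (not_lt.1 hf)]
      simp [nsq]
  · intro f hf
    rw [mem_closedBall, dist_eq_norm]
    exact (Finset.mem_filter.1 hf).2.le

theorem A_tr {z₀ : ℂ} {ρ a : ℝ} (ha : 0 < a) (haρ : 4 * a ≤ ρ) (w φ : Fld) {f : Face}
    (hf : ‖meshPoint a f - z₀‖ < ρ / 2) (h : Fin 4) : A w (tr z₀ ρ a φ) f h = A w φ f h := by
  have h1 : ‖meshPoint a (nb f h) - z₀‖ < ρ := by
    have h2 := norm_mesh_nb ha f h
    have h3 : ‖meshPoint a (nb f h) - z₀‖ ≤ ‖meshPoint a (nb f h) - meshPoint a f‖ +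
        ‖meshPoint a f - z₀‖ := norm_sub_le_norm_sub_add_norm_sub _ _ _
    linarith
  have h0 : ‖meshPoint a f - z₀‖ < ρ := by
    have := norm_nonneg (meshPoint a f - z₀)
    linarith
  exact A_congr_field w f h (tr_of_lt h0) (by rw [tr_of_lt h1])

/-! ### the local lemmas with a local equation -/

/-- pointwise bound of `A` on the localised field -/
theorem A_loc_le' {n : ℕ} {x : Fin n → ℂ} {z₀ : ℂ} {ρ a : ℝ} (hρ : 0 < ρ) (ha : 0 < a)
    (haρ : 6 * a ≤ ρ) {V : Fin n → Face} {w φ g : Fld}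
    (hw : ∀ f : Face, ‖meshPoint a f - z₀‖ < ρ → ∀ h,
      w f h = xc * (gz x z₀ V f * gz x z₀ V (nb f h)))
    (heq : ∀ f : Face, ‖meshPoint a f - z₀‖ < ρ → ∀ h, A w φ f h = a * g f h) (f : Face)
    (h : Fin 4) :
    |A (cst xc) (loc x z₀ ρ a V φ) f h| ≤ a * |g f h| + 6 / ρ * a * |φ (nb f h) (op h)| := by
  have hnb := norm_mesh_nb ha f h
  have hrhs : 0 ≤ a * |g f h| + 6 / ρ * a * |φ (nb f h) (op h)| := by positivity
  have e := A_cut (cst xc) (fun f => cut z₀ ρ (meshPoint a f)) (fun f h => gz x z₀ V f * φ f h) f h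
  change A (cst xc) (loc x z₀ ρ a V φ) f h = _ at e
  rw [e]
  by_cases hf : ‖meshPoint a f - z₀‖ < ρ
  · have h1 : A (cst xc) (fun f h => gz x z₀ V f * φ f h) f h = gz x z₀ V f * (a * g f h) := by
      rw [← heq f hf, ← A_gauge (gz x z₀ V) w φ f h (gz_sq _ _ _ _)]
      apply A_congr
      simp only [cst, gw]
      rw [hw f hf h]
      have h1 := gz_sq x z₀ V f
      have h2 := gz_sq x z₀ V (nb f h)
      linear_combination (-xc * gz x z₀ V (nb f h) ^ 2) * h1 - xc * h2
    rw [h1]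
    have h2 : |cut z₀ ρ (meshPoint a f) * (gz x z₀ V f * (a * g f h))| ≤ a * |g f h| := by
      rw [abs_mul, abs_mul, gz_abs, one_mul, abs_mul, abs_of_pos ha,
        abs_of_nonneg (cut_nonneg _ _ _)]
      have := cut_le_one z₀ ρ (meshPoint a f)
      have h2 : 0 ≤ a * |g f h| := by positivity
      nlinarith
    have h3 : |sg h * cst xc f h * ((cut z₀ ρ (meshPoint a (nb f h)) - cut z₀ ρ (meshPoint a f)) *
        (gz x z₀ V (nb f h) * φ (nb f h) (op h)))| ≤ 6 / ρ * a * |φ (nb f h) (op h)| := by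
      rw [abs_mul, abs_mul, abs_mul, abs_mul (gz x z₀ V (nb f h)), gz_abs, one_mul]
      have hs : |sg h| = 1 := by fin_cases h <;> simp [sg]
      have hx : |cst xc f h| ≤ 1 := by
        unfold cst
        rw [abs_of_pos xc_pos]
        have := xc_sq
        have := xc_pos
        nlinarith
      have hc := cut_lip (z₀ := z₀) hρ (meshPoint a (nb f h)) (meshPoint a f)
      have hc2 : |cut z₀ ρ (meshPoint a (nb f h)) - cut z₀ ρ (meshPoint a f)| ≤ 6 / ρ * a := by
        refine hc.trans ?_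
        calc 3 / ρ * ‖meshPoint a (nb f h) - meshPoint a f‖ ≤ 3 / ρ * (2 * a) := by gcongr
          _ = 6 / ρ * a := by ring
      rw [hs, one_mul]
      calc |cst xc f h| * (|cut z₀ ρ (meshPoint a (nb f h)) - cut z₀ ρ (meshPoint a f)| *
            |φ (nb f h) (op h)|)
          ≤ 1 * (6 / ρ * a * |φ (nb f h) (op h)|) := by gcongr
        _ = _ := one_mul _
    exact (abs_add_le _ _).trans (add_le_add h2 h3)
  · push Not at hf
    have hc1 : cut z₀ ρ (meshPoint a f) = 0 := cut_zero hρ (by linarith)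
    have hc2 : cut z₀ ρ (meshPoint a (nb f h)) = 0 := by
      refine cut_zero hρ ?_
      have h1 : ‖meshPoint a f - z₀‖ ≤ ‖meshPoint a f - meshPoint a (nb f h)‖ +
          ‖meshPoint a (nb f h) - z₀‖ := norm_sub_le_norm_sub_add_norm_sub _ _ _
      rw [norm_sub_rev] at hnb
      linarith
    rw [hc1, hc2]
    simpa using hrhs

/-- `l²` bound of `A` on the localised field -/
theorem N2_A_loc' {n : ℕ} {x : Fin n → ℂ} {z₀ : ℂ} {ρ a : ℝ} (hρ : 0 < ρ) (ha : 0 < a)
    (haρ : 6 * a ≤ ρ) {V : Fin n → Face} {w φ g : Fld}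
    (hw : ∀ f : Face, ‖meshPoint a f - z₀‖ < ρ → ∀ h,
      w f h = xc * (gz x z₀ V f * gz x z₀ V (nb f h)))
    (heq : ∀ f : Face, ‖meshPoint a f - z₀‖ < ρ → ∀ h, A w φ f h = a * g f h) (h : Fin 4) :
    N2 (fun f => A (cst xc) (loc x z₀ ρ a V φ) f h) ≤
      2 * (ENNReal.ofReal (a ^ 2) * N2 fun f => g f h) +
      2 * (ENNReal.ofReal ((6 / ρ) ^ 2) * (ENNReal.ofReal (a ^ 2) * N2 fun f => φ f (op h))) := by
  have h1 : N2 (fun f => A (cst xc) (loc x z₀ ρ a V φ) f h) ≤
      N2 (fun f => a * |g f h| + 6 / ρ * a * |φ (nb f h) (op h)|) := by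
    refine N2_mono fun f => ?_
    rw [abs_of_nonneg (by positivity : 0 ≤ a * |g f h| + 6 / ρ * a * |φ (nb f h) (op h)|)]
    exact A_loc_le' hρ ha haρ hw heq f h
  refine h1.trans ((Relx943.N2_add_le _ _).trans ?_)
  have habs : ∀ u : Face → ℝ, N2 (fun f => |u f|) = N2 u := by
    intro u
    unfold N2 sq2
    simp only [sq_abs]
  have e1 : N2 (fun f => a * |g f h|) = ENNReal.ofReal (a ^ 2) * N2 fun f => g f h := by
    rw [Relx943.N2_mul_left, habs fun f => g f h]
    rfl
  have e2 : N2 (fun f => 6 / ρ * a * |φ (nb f h) (op h)|)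
      = ENNReal.ofReal ((6 / ρ) ^ 2) * (ENNReal.ofReal (a ^ 2) * N2 fun f => φ f (op h)) := by
    rw [Relx943.N2_mul_left (6 / ρ * a) fun f => |φ (nb f h) (op h)|,
      habs fun f => φ (nb f h) (op h), N2_nb (fun f => φ f (op h)) h]
    unfold sq2
    rw [mul_pow, ENNReal.ofReal_mul (sq_nonneg _), mul_assoc]
  rw [e1, e2]

/-- local strong limit, local equation -/
theorem local_lim' {O : Set ℂ} {n : ℕ} {x : Fin n → ℂ} {a : ℕ → ℝ} {w : ℕ → Fld}
    {V : ℕ → Fin n → Face} (H : OmSeq O x a w V) (hO : IsOpen O) (hx : ∀ i, x i ∉ O)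
    {g φ : ℕ → Fld} (hg : Bdd a g) (hφ : Bdd a φ) {z₀ : ℂ} (hz : z₀ ∈ O) {r : ℝ} (hr : 0 < r)
    (heq : ∀ᶠ k in atTop, ∀ f : Face, ‖meshPoint (a k) f - z₀‖ < r → ∀ h,
      A (w k) (φ k) f h = a k * g k f h)
    (U : Ultrafilter ℕ) (hU : (U : Filter ℕ) ≤ atTop) :
    ∃ ρ > 0, ∀ h, ∃ Φ : ℂ → ℝ, MemLp Φ 2 (volume.restrict (ball z₀ ρ)) ∧
      Tendsto (fun k => E (volume.restrict (ball z₀ ρ))
        (fun z => emb (a k) (fun f => φ k f h) z - Φ z)) U (𝓝 0) := by
  obtain ⟨ρ₀, hρ₀, -, hw₀⟩ := weights_gauge H hO hx hz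
  set ρ := min ρ₀ r with hρdef
  have hρ : 0 < ρ := lt_min hρ₀ hr
  have hw : ∀ᶠ k in atTop, ∀ f : Face, ‖meshPoint (a k) f - z₀‖ < ρ → ∀ h,
      w k f h = xc * (gz x z₀ (V k) f * gz x z₀ (V k) (nb f h)) :=
    hw₀.mono fun k hk f hf => hk f (hf.trans_le (min_le_left _ _))
  have heq' : ∀ᶠ k in atTop, ∀ f : Face, ‖meshPoint (a k) f - z₀‖ < ρ → ∀ h,
      A (w k) (φ k) f h = a k * g k f h :=
    heq.mono fun k hk f hf => hk f (hf.trans_le (min_le_right _ _))
  obtain ⟨Cg, hCg⟩ := hg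
  obtain ⟨Cf, hCf⟩ := hφ
  have hCg0 : 0 ≤ Cg := by
    obtain ⟨k, hk⟩ := hCg.exists
    simpa using hk ∅
  have hCf0 : 0 ≤ Cf := by
    obtain ⟨k, hk⟩ := hCf.exists
    simpa using hk ∅
  have hsmall : ∀ᶠ k in atTop, 24 * a k ≤ ρ := by
    have := H.lim.eventually (eventually_le_nhds (show (0 : ℝ) < ρ / 24 by positivity))
    filter_upwards [this] with k hk
    linarith
  refine ⟨ρ / 4, by positivity, fun h => ?_⟩
  set u : ℕ → Face → ℝ := fun k f => loc x z₀ ρ (a k) (V k) (φ k) f h with hu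
  have hFSF : ∀ k, FSF (loc x z₀ ρ (a k) (V k) (φ k)) := fun k => loc_FSF x z₀ hρ (H.pos k) _ _
  set M1 : ℝ := CG * (4 * (2 * Cg + 2 * ((6 / ρ) ^ 2 * Cf))) with hM1
  have hCG := CG_pos
  have hM10 : 0 ≤ M1 := by positivity
  set M : ℝ := max Cf M1 with hM
  have h0 : ∀ᶠ k in atTop, ENNReal.ofReal (a k ^ 2) * N2 (u k) ≤ ENNReal.ofReal M := by
    filter_upwards [hCf] with k hk
    calc ENNReal.ofReal (a k ^ 2) * N2 (u k)
        ≤ ENNReal.ofReal (a k ^ 2) * N2 (fun f => φ k f h) := by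
          gcongr
          exact N2_mono fun f => abs_loc_le _ _ _ _ _ _ _ _
      _ ≤ ENNReal.ofReal Cf := N2_le_of_nsq hk h
      _ ≤ ENNReal.ofReal M := ENNReal.ofReal_le_ofReal (le_max_left _ _)
  have hEN : ∀ᶠ k in atTop, EN (loc x z₀ ρ (a k) (V k) (φ k)) ≤ ENNReal.ofReal M := by
    filter_upwards [hCf, hCg, hsmall, hw, heq'] with k hk1 hk2 hk3 hk4 hk5
    have ha := H.pos k
    have key : ∀ h', N2 (fun f => A (cst xc) (loc x z₀ ρ (a k) (V k) (φ k)) f h') ≤
        ENNReal.ofReal (2 * Cg + 2 * ((6 / ρ) ^ 2 * Cf)) := by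
      intro h'
      refine (N2_A_loc' hρ ha (by linarith) hk4 hk5 h').trans ?_
      have e1 := N2_le_of_nsq hk2 h'
      have e2 := N2_le_of_nsq hk1 (op h')
      calc _ ≤ 2 * ENNReal.ofReal Cg + 2 * (ENNReal.ofReal ((6 / ρ) ^ 2) * ENNReal.ofReal Cf) := by
            gcongr
        _ = ENNReal.ofReal (2 * Cg + 2 * ((6 / ρ) ^ 2 * Cf)) := by
            have p1 : (0 : ℝ) ≤ (6 / ρ) ^ 2 * Cf := by positivity
            rw [← ENNReal.ofReal_mul (sq_nonneg (6 / ρ)), ENNReal.ofReal_add (by linarith)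
              (by linarith), ENNReal.ofReal_mul (p := 2) (q := Cg) zero_le_two,
              ENNReal.ofReal_mul (p := 2) (q := (6 / ρ) ^ 2 * Cf) zero_le_two,
              ENNReal.ofReal_ofNat]
    calc _ ≤ ENNReal.ofReal CG * ∑ h', N2 fun f =>
            A (cst xc) (loc x z₀ ρ (a k) (V k) (φ k)) f h' := grad_le (hFSF k)
      _ ≤ ENNReal.ofReal CG * ∑ _h' : Fin 4, ENNReal.ofReal (2 * Cg + 2 * ((6 / ρ) ^ 2 * Cf)) := by
          gcongr with h' _
          exact key h'
      _ = ENNReal.ofReal M1 := by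
          rw [Finset.sum_const, Finset.card_univ, Fintype.card_fin, nsmul_eq_mul, hM1,
            ENNReal.ofReal_mul hCG.le, ENNReal.ofReal_mul (by norm_num : (0 : ℝ) ≤ 4),
            ENNReal.ofReal_ofNat, Nat.cast_ofNat]
      _ ≤ ENNReal.ofReal M := ENNReal.ofReal_le_ofReal (le_max_right _ _)
  have h1 : ∀ᶠ k in atTop, N2 (dif1 (u k)) ≤ ENNReal.ofReal M := by
    filter_upwards [hEN] with k hk
    refine le_trans ?_ hk
    unfold EN
    exact (le_self_add).trans (Finset.single_le_sum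
      (f := fun k' => N2 (dif1 fun f => loc x z₀ ρ (a k) (V k) (φ k) f k') +
        N2 (dif2 fun f => loc x z₀ ρ (a k) (V k) (φ k) f k')) (fun _ _ => zero_le)
      (Finset.mem_univ h))
  have h2 : ∀ᶠ k in atTop, N2 (dif2 (u k)) ≤ ENNReal.ofReal M := by
    filter_upwards [hEN] with k hk
    refine le_trans ?_ hk
    unfold EN
    exact (le_add_self).trans (Finset.single_le_sum
      (f := fun k' => N2 (dif1 fun f => loc x z₀ ρ (a k) (V k) (φ k) f k') +
        N2 (dif2 fun f => loc x z₀ ρ (a k) (V k) (φ k) f k')) (fun _ _ => zero_le)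
      (Finset.mem_univ h))
  obtain ⟨F, hF, hlimF⟩ := Relx943.rellich (U := U) (H.tendsto_pos.mono_left hU)
    (hCf0.trans (le_max_left _ _)) (hU h0) (hU h1) (hU h2) (isBounded_ball (x := z₀) (r := ρ / 4))
    measurableSet_ball (fun k => (memLp_emb (H.pos k) (hFSF k h)).restrict _)
  have hFae : AEMeasurable F (volume.restrict (ball z₀ (ρ / 4))) := hF.1.aemeasurable
  refine ⟨fun z => gc x z₀ z * F z, ?_, ?_⟩
  · refine hF.of_le ((MacC3x943.measurable_gc x z₀).aemeasurable.mul hFae).aestronglyMeasurable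
      (Eventually.of_forall fun z => ?_)
    rw [norm_mul, Real.norm_eq_abs (gc x z₀ z), gc_abs, one_mul]
  have herr := (gauge_err H.pos H.lim H.tip z₀ hF).mono_left hU
  have hsum := (show Tendsto (fun n => E (volume.restrict (ball z₀ (ρ / 4)))
    (fun z => emb (a n) (u n) z - F z)) U (𝓝 0) from hlimF).add herr
  rw [add_zero] at hsum
  refine tendsto_of_tendsto_of_tendsto_of_le_of_le' tendsto_const_nhds hsum
    (Eventually.of_forall fun _ => zero_le) ?_
  filter_upwards [hU hsmall] with k hk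
  have ha := H.pos k
  have hEE : ∀ z ∈ ball z₀ (ρ / 4), emb (a k) (fun f => φ k f h) z - gc x z₀ z * F z =
      emb (a k) (gz x z₀ (V k)) z * (emb (a k) (u k) z - F z) +
        (emb (a k) (gz x z₀ (V k)) z - gc x z₀ z) * F z := by
    intro z hz
    have hc : cut z₀ ρ (meshPoint (a k) (meshIndex (a k) z)) = 1 := by
      refine cut_one hρ ?_
      have e1 := Upx622.norm_mesh_sub ha z
      rw [mem_ball, dist_eq_norm] at hz
      have e2 : ‖meshPoint (a k) (meshIndex (a k) z) - z₀‖ ≤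
          ‖meshPoint (a k) (meshIndex (a k) z) - z‖ + ‖z - z₀‖ :=
        norm_sub_le_norm_sub_add_norm_sub _ _ _
      linarith
    have hs := gz_sq x z₀ (V k) (meshIndex (a k) z)
    simp only [emb, hu, loc]
    rw [hc]
    linear_combination (-φ k (meshIndex (a k) z) h) * hs
  have hmeas1 : AEMeasurable (fun z => emb (a k) (gz x z₀ (V k)) z * (emb (a k) (u k) z - F z))
      (volume.restrict (ball z₀ (ρ / 4))) :=
    (Embx622.emb_measurable _ _).aemeasurable.mul
      ((Embx622.emb_measurable _ _).aemeasurable.sub hFae)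
  have hmeas2 : AEMeasurable (fun z => (emb (a k) (gz x z₀ (V k)) z - gc x z₀ z) * F z)
      (volume.restrict (ball z₀ (ρ / 4))) :=
    ((Embx622.emb_measurable _ _).sub (MacC3x943.measurable_gc x z₀)).aemeasurable.mul hFae
  calc E (volume.restrict (ball z₀ (ρ / 4)))
        (fun z => emb (a k) (fun f => φ k f h) z - gc x z₀ z * F z)
      = E (volume.restrict (ball z₀ (ρ / 4)))
        (fun z => emb (a k) (gz x z₀ (V k)) z * (emb (a k) (u k) z - F z) +
        (emb (a k) (gz x z₀ (V k)) z - gc x z₀ z) * F z) := by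
        refine eLpNorm_congr_ae ?_
        filter_upwards [ae_restrict_mem measurableSet_ball] with z hz
        exact hEE z hz
    _ ≤ E (volume.restrict (ball z₀ (ρ / 4)))
        (fun z => emb (a k) (gz x z₀ (V k)) z * (emb (a k) (u k) z - F z)) +
        E (volume.restrict (ball z₀ (ρ / 4)))
        (fun z => (emb (a k) (gz x z₀ (V k)) z - gc x z₀ z) * F z) :=
        eLpNorm_add_le hmeas1.aestronglyMeasurable hmeas2.aestronglyMeasurable (by norm_num)
    _ = _ := by
        congr 1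
        refine eLpNorm_congr_norm_ae (Eventually.of_forall fun z => ?_)
        rw [norm_mul]
        have : ‖emb (a k) (gz x z₀ (V k)) z‖ = 1 := gz_abs _ _ _ _
        rw [this, one_mul]

/-! ### local lightness -/

/-- mass on a set of faces -/
theorem in_mass {a η : ℝ} (ha : 0 < a) {C : Set ℂ} (hC : MeasurableSet C) {p : Face → Prop}
    (hp : ∀ z ∈ C, p (meshIndex a z)) {u : Face → ℝ}
    (h : ∀ S : Finset Face, (∀ f ∈ S, p f) → a ^ 2 * ∑ f ∈ S, u f ^ 2 ≤ η) :
    (∫⁻ z in C, sq2 (emb a u z)) ≤ ENNReal.ofReal η := by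
  classical
  set v : Face → ℝ := fun f => if p f then u f else 0 with hv
  have h1 : (∫⁻ z in C, sq2 (emb a u z)) ≤ ∫⁻ z in C, sq2 (v (meshIndex a z)) := by
    refine setLIntegral_mono' hC fun z hz => le_of_eq ?_
    rw [hv]
    simp only [hp z hz, if_true]
    rfl
  refine h1.trans ((Relx943.nrm_univ_emb ha _ v).trans (N2_le_of_finset fun S => ?_))
  have e : ∑ f ∈ S, v f ^ 2 = ∑ f ∈ S.filter p, u f ^ 2 := by
    rw [Finset.sum_filter]
    refine Finset.sum_congr rfl fun f _ => ?_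
    by_cases hf : p f <;> simp [hv, hf]
  rw [e]
  exact h (S.filter p) fun f hf => (Finset.mem_filter.1 hf).2

/-- local heavy mass -/
theorem hv_loc {z₀ : ℂ} {ρ a : ℝ} (hρ : 0 < ρ) (ha : 0 < a) (haρ : 6 * a ≤ ρ) {w φ g : Fld}
    (hs : Sym w) (hw : ∀ f : Face, ‖meshPoint a f - z₀‖ < ρ → ∀ h, w f h ^ 2 = xc ^ 2)
    (heq : ∀ f : Face, ‖meshPoint a f - z₀‖ < ρ → ∀ h, A w φ f h = a * g f h) {Cf Cg : ℝ}
    (h1 : ∀ S : Finset Face, a ^ 2 * ∑ f ∈ S, nsq (φ f) ≤ Cf)
    (h2 : ∀ S : Finset Face, a ^ 2 * ∑ f ∈ S, nsq (g f) ≤ Cg) (S : Finset Face)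
    (hS : ∀ f ∈ S, ‖meshPoint a f - z₀‖ ≤ ρ / 3) :
    a ^ 2 * ∑ f ∈ S, hv (φ f) ≤ a * ((6 + 6 / ρ) * Cf + Cg) := by
  classical
  set c : Face → ℝ := fun f => cut z₀ ρ (meshPoint a f) with hc
  set Dk := MacNCx917.disc a (‖z₀‖ + ρ) with hDk
  set K := Sqx54.thick Dk with hK
  have hnorm : ∀ f : Face, ‖meshPoint a f‖ ≤ ‖meshPoint a f - z₀‖ + ‖z₀‖ := fun f => by
    have := norm_add_le (meshPoint a f - z₀) z₀
    rwa [sub_add_cancel] at this
  have hc0 : ∀ f, f ∉ Dk → c f = 0 := by
    intro f hf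
    rw [hDk, MacNCx917.mem_disc ha, not_lt] at hf
    have := hnorm f
    exact cut_zero hρ (by linarith)
  have hT := Tloc w φ hs c K (fun f hf => hc0 f (Sqx54.not_thick hf).1)
    (fun f hf h => hc0 _ ((Sqx54.not_thick hf).2 h))
  have hfar : ∀ f : Face, ¬ ‖meshPoint a f - z₀‖ < ρ → c f = 0 := fun f hf =>
    cut_zero hρ (by push Not at hf; linarith)
  have hfar2 : ∀ f : Face, ¬ ‖meshPoint a f - z₀‖ < ρ → ∀ h, c (nb f h) = 0 := by
    intro f hf h
    push Not at hf
    refine cut_zero hρ ?_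
    have hnb := norm_mesh_nb ha f h
    have h1 : ‖meshPoint a f - z₀‖ ≤ ‖meshPoint a f - meshPoint a (nb f h)‖ +
        ‖meshPoint a (nb f h) - z₀‖ := norm_sub_le_norm_sub_add_norm_sub _ _ _
    rw [norm_sub_rev] at hnb
    linarith
  have hx1 : xc ^ 2 ≤ 1 := by
    have := xc_sq
    have := xc_pos
    nlinarith
  -- left side
  have hL : ∑ f ∈ S, hv (φ f) ≤ ∑ f ∈ K, c f * (4 * Real.sqrt 2 * hv (φ f) +
      ∑ h, (xc ^ 2 - w f h ^ 2) * φ f h ^ 2) := by
    have hsub : S ⊆ K := by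
      intro f hf
      refine Sqx54.subset_thick _ ?_
      rw [hDk, MacNCx917.mem_disc ha]
      have := hS f hf
      have := hnorm f
      linarith
    have hnn : ∀ f, 0 ≤ c f * (4 * Real.sqrt 2 * hv (φ f) +
        ∑ h, (xc ^ 2 - w f h ^ 2) * φ f h ^ 2) := by
      intro f
      by_cases hf : ‖meshPoint a f - z₀‖ < ρ
      · have e : ∑ h, (xc ^ 2 - w f h ^ 2) * φ f h ^ 2 = 0 :=
          Finset.sum_eq_zero fun h _ => by rw [hw f hf h]; ring
        rw [e, add_zero]
        have := hv_nonneg (φ f)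
        have := cut_nonneg z₀ ρ (meshPoint a f)
        positivity
      · rw [hfar f hf, zero_mul]
    refine le_trans (Finset.sum_le_sum fun f hf => ?_)
      (Finset.sum_le_sum_of_subset_of_nonneg hsub fun f _ _ => hnn f)
    have hf1 := hS f hf
    have hf2 : ‖meshPoint a f - z₀‖ < ρ := by linarith
    have e : ∑ h, (xc ^ 2 - w f h ^ 2) * φ f h ^ 2 = 0 :=
      Finset.sum_eq_zero fun h _ => by rw [hw f hf2 h]; ring
    have e2 : c f = 1 := cut_one hρ hf1
    rw [e, e2, add_zero, one_mul]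
    have h3 := hv_nonneg (φ f)
    have h4 : 1 ≤ 4 * Real.sqrt 2 := by
      have : (1 : ℝ) ≤ Real.sqrt 2 := Real.one_le_sqrt.2 (by norm_num)
      linarith
    nlinarith
  -- first term on the right
  have hR1 : ∑ f ∈ K, c f * (2 * ∑ h, A0 (φ f) h * A w φ f h - nsq (A w φ f)) ≤
      ∑ f ∈ K, a * (6 * nsq (φ f) + nsq (g f)) := by
    refine Finset.sum_le_sum fun f _ => ?_
    have hn1 := nsq_nonneg (φ f)
    have hn2 := nsq_nonneg (g f)
    by_cases hf : ‖meshPoint a f - z₀‖ < ρ
    · have e1 : 2 * ∑ h, A0 (φ f) h * A w φ f h ≤ a * (nsq (A0 (φ f)) + nsq (g f)) := by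
        simp only [nsq]
        rw [← Finset.sum_add_distrib, Finset.mul_sum, Finset.mul_sum]
        refine Finset.sum_le_sum fun h _ => ?_
        rw [heq f hf h]
        nlinarith [sq_nonneg (A0 (φ f) h - g f h)]
      have e2 : nsq (A0 (φ f)) ≤ 6 * nsq (φ f) := by
        refine (nsq_A0_le (φ f)).trans ?_
        have : Real.sqrt 2 ≤ 1.5 := by
          rw [Real.sqrt_le_left (by norm_num)]; norm_num
        nlinarith
      have e3 := nsq_nonneg (A w φ f)
      have e4 := cut_nonneg z₀ ρ (meshPoint a f)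
      have e5 := cut_le_one z₀ ρ (meshPoint a f)
      have e6 : 2 * ∑ h, A0 (φ f) h * A w φ f h - nsq (A w φ f) ≤
          a * (6 * nsq (φ f) + nsq (g f)) := by
        have : a * (nsq (A0 (φ f)) + nsq (g f)) ≤ a * (6 * nsq (φ f) + nsq (g f)) := by gcongr
        linarith
      have e7 : 0 ≤ a * (6 * nsq (φ f) + nsq (g f)) := by positivity
      calc c f * (2 * ∑ h, A0 (φ f) h * A w φ f h - nsq (A w φ f))
          ≤ c f * (a * (6 * nsq (φ f) + nsq (g f))) := mul_le_mul_of_nonneg_left e6 e4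
        _ ≤ 1 * (a * (6 * nsq (φ f) + nsq (g f))) := mul_le_mul_of_nonneg_right e5 e7
        _ = _ := one_mul _
    · rw [hfar f hf, zero_mul]
      positivity
  -- second term on the right
  have hR2 : ∑ f ∈ K, ∑ h, (c (nb f h) - c f) * (w f h ^ 2 * φ f h ^ 2) ≤
      ∑ f ∈ K, 6 / ρ * a * nsq (φ f) := by
    refine Finset.sum_le_sum fun f _ => ?_
    simp only [nsq]
    rw [Finset.mul_sum]
    refine Finset.sum_le_sum fun h _ => ?_
    by_cases hf : ‖meshPoint a f - z₀‖ < ρ
    · rw [hw f hf h]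
      have hc1 := cut_lip (z₀ := z₀) hρ (meshPoint a (nb f h)) (meshPoint a f)
      have hc2 : |cut z₀ ρ (meshPoint a (nb f h)) - cut z₀ ρ (meshPoint a f)| ≤ 6 / ρ * a := by
        refine hc1.trans ?_
        calc 3 / ρ * ‖meshPoint a (nb f h) - meshPoint a f‖ ≤ 3 / ρ * (2 * a) := by
              gcongr
              exact norm_mesh_nb ha f h
          _ = 6 / ρ * a := by ring
      have hp1 : 0 ≤ xc ^ 2 * φ f h ^ 2 := by positivity
      have hp2 : xc ^ 2 * φ f h ^ 2 ≤ φ f h ^ 2 := by nlinarith [sq_nonneg (φ f h)]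
      calc (c (nb f h) - c f) * (xc ^ 2 * φ f h ^ 2)
          ≤ |c (nb f h) - c f| * (xc ^ 2 * φ f h ^ 2) :=
            mul_le_mul_of_nonneg_right (le_abs_self _) hp1
        _ ≤ 6 / ρ * a * φ f h ^ 2 := mul_le_mul hc2 hp2 hp1 (by positivity)
    · rw [hfar f hf, hfar2 f hf h]
      simp only [sub_self, zero_mul]
      positivity
  have h3 : ∑ f ∈ S, hv (φ f) ≤ ∑ f ∈ K, a * (6 * nsq (φ f) + nsq (g f)) +
      ∑ f ∈ K, 6 / ρ * a * nsq (φ f) := by
    refine hL.trans ?_
    rw [hT]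
    exact add_le_add hR1 hR2
  have e : ∑ f ∈ K, a * (6 * nsq (φ f) + nsq (g f)) + ∑ f ∈ K, 6 / ρ * a * nsq (φ f) =
      a * ((6 + 6 / ρ) * ∑ f ∈ K, nsq (φ f) + ∑ f ∈ K, nsq (g f)) := by
    rw [← Finset.sum_add_distrib, Finset.mul_sum, ← Finset.sum_add_distrib, Finset.mul_sum]
    exact Finset.sum_congr rfl fun f _ => by ring
  rw [e] at h3
  calc a ^ 2 * ∑ f ∈ S, hv (φ f)
      ≤ a ^ 2 * (a * ((6 + 6 / ρ) * ∑ f ∈ K, nsq (φ f) + ∑ f ∈ K, nsq (g f))) :=
        mul_le_mul_of_nonneg_left h3 (sq_nonneg a)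
    _ = a * ((6 + 6 / ρ) * (a ^ 2 * ∑ f ∈ K, nsq (φ f)) + a ^ 2 * ∑ f ∈ K, nsq (g f)) := by
        ring
    _ ≤ a * ((6 + 6 / ρ) * Cf + Cg) := by
        have := h1 K
        have := h2 K
        gcongr

end Crest.Agent.R165.MacL1x943
end
end

-- ▼ part R165/MacL2_943

/-!
# Row 165 (S0250), M3, local version: **`comp_loc`**
-/

set_option autoImplicit false
set_option linter.unusedSimpArgs false
set_option linter.unusedVariables false

noncomputable section

namespace Crest.Agent.R165.MacL2x943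

open Filter Topology MeasureTheory Metric
open Crest.ProbabilityR.IsingModel
open Crest.Agent.R165.Tr1x40 hiding sq2 pt
open Crest.Agent.R165.Tr2x40
open Crest.Agent.R165.RIfx891 (lv lv_amp)
open Crest.Agent.R165.Mac0x622 Crest.Agent.R165.Mac1x622
open Crest.Agent.R165.MacIx610
open Crest.Agent.R165.Lim1x943 (LocUnif)
open Crest.Agent.R165.Lim2x943 (sq2)
open Crest.Agent.R165.Embx622 (emb)
open Crest.Agent.R165.MacC1x943 Crest.Agent.R165.MacC2x943 Crest.Agent.R165.MacC3x943
open Crest.Agent.R165.MacC4x943 Crest.Agent.R165.MacC5x943 Crest.Agent.R165.MacC6x943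
open Crest.Agent.R165.MacL1x943

variable {O : Set ℂ} {n : ℕ} {x : Fin n → ℂ} {a : ℕ → ℝ} {w : ℕ → Fld} {V : ℕ → Fin n → Face}
  {g φ : ℕ → Fld}

theorem exists_closedBall (hO : IsOpen O) {z₀ : ℂ} (hz : z₀ ∈ O) :
    ∃ r > 0, closedBall z₀ r ⊆ O := by
  obtain ⟨r, hr, hb⟩ := Metric.isOpen_iff.1 hO z₀ hz
  exact ⟨r / 2, by positivity, (closedBall_subset_ball (by linarith)).trans hb⟩

theorem ev_small (H : OmSeq O x a w V) {ε : ℝ} (hε : 0 < ε) : ∀ᶠ k in atTop, a k ≤ ε :=
  H.lim.eventually (eventually_le_nhds hε)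

theorem mesh_lt {a : ℝ} (ha : 0 < a) {z z₀ : ℂ} {r ρ : ℝ} (hz : z ∈ ball z₀ ρ)
    (h : ρ + 2 * a ≤ r) : ‖meshPoint a (meshIndex a z) - z₀‖ < r := by
  rw [mem_ball, dist_eq_norm] at hz
  have e1 := Upx622.norm_mesh_sub ha z
  have e2 : ‖meshPoint a (meshIndex a z) - z₀‖ ≤
      ‖meshPoint a (meshIndex a z) - z‖ + ‖z - z₀‖ := norm_sub_le_norm_sub_add_norm_sub _ _ _
  linarith

/-- the truncated data -/
theorem tr_eqn (H : OmSeq O x a w V) {r : ℝ} (hr : 0 < r) (z₀ : ℂ)
    (heq : ∀ᶠ k in atTop, ∀ f h, A (w k) (φ k) f h = a k * g k f h) :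
    ∀ᶠ k in atTop, ∀ f : Face, ‖meshPoint (a k) f - z₀‖ < r / 2 → ∀ h,
      A (w k) (tr z₀ r (a k) (φ k)) f h = a k * tr z₀ r (a k) (g k) f h := by
  filter_upwards [ev_small H (show 0 < r / 4 by positivity), heq] with k hk he f hf h
  rw [A_tr (H.pos k) (by linarith) (w k) (φ k) hf h, he,
    tr_of_lt (by have := norm_nonneg (meshPoint (a k) f - z₀); linarith)]

/-- local strong limit -/
theorem loc_lim (H : OmSeq O x a w V) (hO : IsOpen O) (hx : ∀ i, x i ∉ O) (hg : BddL O a g)
    (hφ : BddL O a φ) (heq : ∀ᶠ k in atTop, ∀ f h, A (w k) (φ k) f h = a k * g k f h)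
    (U : Ultrafilter ℕ) (hU : (U : Filter ℕ) ≤ atTop) {z₀ : ℂ} (hz : z₀ ∈ O) :
    ∃ ρ > 0, ∀ h, ∃ Φ : ℂ → ℝ, MemLp Φ 2 (volume.restrict (ball z₀ ρ)) ∧
      Tendsto (fun k => E (volume.restrict (ball z₀ ρ))
        (fun z => emb (a k) (fun f => φ k f h) z - Φ z)) U (𝓝 0) := by
  obtain ⟨r, hr, hrO⟩ := exists_closedBall hO hz
  obtain ⟨ρ₁, hρ₁, hΦ⟩ := local_lim' H hO hx (tr_bdd hg hrO) (tr_bdd hφ hrO) hz
    (r := r / 2) (by positivity) (tr_eqn H hr z₀ heq) U hU
  set ρ := min ρ₁ (r / 2) with hρ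
  refine ⟨ρ, lt_min hρ₁ (by positivity), fun h => ?_⟩
  obtain ⟨Φ, h1, h2⟩ := hΦ h
  have hsub : ball z₀ ρ ⊆ ball z₀ ρ₁ := ball_subset_ball (min_le_left _ _)
  refine ⟨Φ, h1.mono_measure (Measure.restrict_mono_set _ hsub), ?_⟩
  refine tendsto_of_tendsto_of_tendsto_of_le_of_le' tendsto_const_nhds h2
    (Eventually.of_forall fun _ => zero_le) ?_
  filter_upwards [hU (ev_small H (show 0 < r / 4 by positivity))] with k hk
  refine le_trans (le_of_eq ?_) (E_mono_set hsub _)
  refine E_congr ?_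
  filter_upwards [ae_restrict_mem measurableSet_ball] with z hz
  have h3 : ‖meshPoint (a k) (meshIndex (a k) z) - z₀‖ < r :=
    mesh_lt (H.pos k) hz (by have := min_le_right ρ₁ (r / 2); linarith)
  have e1 : emb (a k) (fun f => tr z₀ r (a k) (φ k) f h) z = emb (a k) (fun f => φ k f h) z := by
    simp only [emb]
    rw [tr_of_lt h3]
  rw [e1]

/-- local lightness -/
theorem loc_heavy (H : OmSeq O x a w V) (hO : IsOpen O) (hx : ∀ i, x i ∉ O) (hg : BddL O a g)
    (hφ : BddL O a φ) (heq : ∀ᶠ k in atTop, ∀ f h, A (w k) (φ k) f h = a k * g k f h) {z₀ : ℂ}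
    (hz : z₀ ∈ O) : ∃ ρ > 0, ∀ h, Tendsto (fun k => E (volume.restrict (ball z₀ ρ))
      (emb (a k) fun f => Ph (φ k f) h)) atTop (𝓝 0) := by
  obtain ⟨r₀, hr₀, hrO⟩ := exists_closedBall hO hz
  obtain ⟨r₁, hr₁, -, hw⟩ := weights_gauge H hO hx hz
  set r := min (r₀ / 2) r₁ with hrdef
  have hr : 0 < r := lt_min (by positivity) hr₁
  obtain ⟨Cg, hCg⟩ := tr_bdd hg hrO
  obtain ⟨Cf, hCf⟩ := tr_bdd hφ hrO
  have he := tr_eqn H hr₀ z₀ heq
  refine ⟨r / 6, by positivity, fun h => ?_⟩
  rw [E_tendsto_zero]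
  have ht : Tendsto (fun k => ENNReal.ofReal (a k * ((6 + 6 / r) * Cf + Cg))) atTop (𝓝 0) := by
    have h1 := H.lim.mul_const ((6 + 6 / r) * Cf + Cg)
    rw [zero_mul] at h1
    have := ENNReal.tendsto_ofReal h1
    simpa using this
  refine tendsto_of_tendsto_of_tendsto_of_le_of_le' tendsto_const_nhds ht
    (Eventually.of_forall fun _ => zero_le) ?_
  filter_upwards [hw, hCg, hCf, he, ev_small H (show 0 < r / 12 by positivity)]
    with k h1 h2 h3 h4 h5
  have ha := H.pos k
  have hm1 := min_le_left (r₀ / 2) r₁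
  have hm2 := min_le_right (r₀ / 2) r₁
  refine in_mass ha measurableSet_ball
    (p := fun f => ‖meshPoint (a k) f - z₀‖ ≤ r / 3)
    (fun z hz => (mesh_lt ha hz (by linarith)).le) fun S hS => ?_
  refine le_trans ?_ (hv_loc hr ha (by linarith) (H.sym k)
    (φ := tr z₀ r₀ (a k) (φ k)) (g := tr z₀ r₀ (a k) (g k)) (fun f hf h' => ?_)
    (fun f hf h' => h4 f (by linarith) h') h3 h2 S hS)
  · refine mul_le_mul_of_nonneg_left (Finset.sum_le_sum fun f hf => ?_) (sq_nonneg _)
    have h6 := hS f hf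
    rw [tr_of_lt (by linarith), hv_eq_nsq]
    exact Finset.single_le_sum (f := fun b => Ph (φ k f) b ^ 2) (fun _ _ => sq_nonneg _)
      (Finset.mem_univ h)
  · rw [h1 f (by linarith) h']
    have e1 := gz_sq x z₀ (V k) f
    have e2 := gz_sq x z₀ (V k) (nb f h')
    rw [mul_pow, mul_pow, e1, e2, mul_one, mul_one]

theorem limUnder_congr {U : Filter ℕ} {u v : ℕ → ℝ} (h : u =ᶠ[U] v) :
    limUnder U u = limUnder U v := by
  unfold limUnder
  rw [Filter.map_congr h]

/-- local description of `F1` -/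
theorem loc_F1 (H : OmSeq O x a w V) (hO : IsOpen O) (hx : ∀ i, x i ∉ O) (hφ : BddL O a φ)
    (U : Ultrafilter ℕ) (hU : (U : Filter ℕ) ≤ atTop) {z₁ : ℂ} (hz : z₁ ∈ O) {r : ℝ} (hr : 0 < r)
    (hex : ∀ᶠ k in atTop, ∀ f : Face, ‖meshPoint (a k) f - z₁‖ < r → ∀ h,
      A (w k) (φ k) f h = 0) :
    ∃ s > 0, ∃ f₁ : ℂ → ℂ, DifferentiableOn ℂ f₁ (ball z₁ s) ∧
      (∀ h, LocUnif U (fun k => 1 / a k) (ball z₁ s)
        (fun k f => gz x z₁ (V k) f * φ k f h) fun z => lv (f₁ z) h) ∧
      ∀ z ∈ ball z₁ s, F1 x a V φ U z = (gc x z₁ z : ℂ) * f₁ z := by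
  obtain ⟨r₀, hr₀, hrO⟩ := exists_closedBall hO hz
  set r' := min r (r₀ / 2) with hr'
  have hr'0 : 0 < r' := lt_min hr (by positivity)
  obtain ⟨s, hs, f₁, h1, h2, h3⟩ := F1_spec H hO hx (tr_bdd hφ hrO) U hU hz hr'0 (by
    filter_upwards [hex, ev_small H (show 0 < r₀ / 4 by positivity)] with k hk ha f hf h
    have e1 := min_le_left r (r₀ / 2)
    have e2 := min_le_right r (r₀ / 2)
    rw [A_tr (H.pos k) (by linarith) (w k) (φ k) (by linarith) h]
    exact hk f (by linarith) h)
  set t := min s (r₀ / 2) with ht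
  have ht0 : 0 < t := lt_min hs (by positivity)
  have hts : ball z₁ t ⊆ ball z₁ s := ball_subset_ball (min_le_left _ _)
  have htr := min_le_right s (r₀ / 2)
  refine ⟨t, ht0, f₁, h1.mono hts, fun h => ?_, fun z hz => ?_⟩
  · intro K hK hKt η hη
    filter_upwards [(h2 h).mono hts K hK hKt η hη] with k hk f hf
    have h4 := hk f hf
    have h5 := hKt hf
    simp only [pt_eq] at h5
    rw [mem_ball, dist_eq_norm] at h5
    rwa [tr_of_lt (by linarith)] at h4
  · rw [← h3 z (hts hz)]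
    have key : ∀ h, limUnder (U : Filter ℕ) (fun k => gz x z (V k) (meshIndex (a k) z) *
        φ k (meshIndex (a k) z) h) = limUnder (U : Filter ℕ) (fun k =>
        gz x z (V k) (meshIndex (a k) z) * tr z₁ r₀ (a k) (φ k) (meshIndex (a k) z) h) := by
      intro h
      refine limUnder_congr ?_
      filter_upwards [hU (ev_small H (show 0 < r₀ / 4 by positivity))] with k hk
      rw [tr_of_lt (mesh_lt (H.pos k) hz (by linarith))]
    unfold F1
    rw [key 1, key 3]

/-- the strong limit is the light field of `F1` off the sources -/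
theorem loc_F1_ae (H : OmSeq O x a w V) (hO : IsOpen O) (hx : ∀ i, x i ∉ O) (hφ : BddL O a φ)
    (U : Ultrafilter ℕ) (hU : (U : Filter ℕ) ≤ atTop) {z₁ : ℂ} (hz : z₁ ∈ O) {r : ℝ} (hr : 0 < r)
    (hex : ∀ᶠ k in atTop, ∀ f : Face, ‖meshPoint (a k) f - z₁‖ < r → ∀ h,
      A (w k) (φ k) f h = 0) {h : Fin 4} {ρ : ℝ} (hρ : 0 < ρ) {Φ : ℂ → ℝ}
    (hΦ : MemLp Φ 2 (volume.restrict (ball z₁ ρ)))
    (hc : Tendsto (fun k => E (volume.restrict (ball z₁ ρ))
      (fun z => emb (a k) (fun f => φ k f h) z - Φ z)) U (𝓝 0)) :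
    ∃ s > 0, s ≤ ρ ∧ ∀ᵐ z ∂(volume.restrict (ball z₁ s)), Φ z = lv (F1 x a V φ U z) h := by
  obtain ⟨s, hs, f₁, hd, hu, hF⟩ := loc_F1 H hO hx hφ U hU hz hr hex
  have hrt : Tendsto (fun k => 1 / a k) (U : Filter ℕ) atTop :=
    Relx943.tendsto_one_div (H.tendsto_pos.mono_left hU)
  set t := min (s / 2) ρ with ht
  have ht0 : 0 < t := lt_min (by positivity) hρ
  refine ⟨t, ht0, min_le_right _ _, ?_⟩
  set B := ball z₁ t with hB
  have hts := min_le_left (s / 2) ρ
  have hcl : closedBall z₁ t ⊆ ball z₁ s := closedBall_subset_ball (by linarith)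
  have hBs : B ⊆ ball z₁ s := ball_subset_closedBall.trans hcl
  have hBρ : B ⊆ ball z₁ ρ := ball_subset_ball (min_le_right _ _)
  have hcont : ContinuousOn (fun z => lv (f₁ z) h) (ball z₁ s) :=
    (lv_continuous h).comp_continuousOn hd.continuousOn
  have hΦB : MemLp Φ 2 (volume.restrict B) := hΦ.mono_measure (Measure.restrict_mono_set _ hBρ)
  have hΦm : AEStronglyMeasurable Φ (volume.restrict B) := hΦB.1
  have hlm : AEStronglyMeasurable (fun z => lv (f₁ z) h) (volume.restrict B) :=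
    (hcont.mono hBs).aestronglyMeasurable measurableSet_ball
  have t2 : Tendsto (fun k => E (volume.restrict B) (fun z =>
      emb (a k) (fun f => gz x z₁ (V k) f * φ k f h) z - lv (f₁ z) h)) U (𝓝 0) := by
    refine E_of_unif measure_ball_lt_top.ne measurableSet_ball fun η hη => ?_
    have := (hu h).unif hrt isOpen_ball hcont (isCompact_closedBall z₁ t) hcl hη
    filter_upwards [this] with k hk z hz
    have := hk z (ball_subset_closedBall hz)
    rwa [Relx943.flr_eq] at this
  have t1 : Tendsto (fun k => E (volume.restrict B) (fun z =>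
      gc x z₁ z * Φ z - emb (a k) (fun f => gz x z₁ (V k) f * φ k f h) z)) U (𝓝 0) := by
    have herr := (gauge_err (B := B) H.pos H.lim H.tip z₁ hΦB).mono_left hU
    have hsum := hc.add herr
    rw [add_zero] at hsum
    refine tendsto_of_tendsto_of_tendsto_of_le_of_le tendsto_const_nhds hsum (fun _ => zero_le)
      fun k => ?_
    have hm1 : AEStronglyMeasurable (fun z => -(emb (a k) (gz x z₁ (V k)) z *
        (emb (a k) (fun f => φ k f h) z - Φ z))) (volume.restrict B) :=
      (((Embx622.emb_measurable _ _).aestronglyMeasurable).mul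
        ((Embx622.emb_measurable _ _).aestronglyMeasurable.sub hΦm)).neg
    have hm2 : AEStronglyMeasurable (fun z => -((emb (a k) (gz x z₁ (V k)) z - gc x z₁ z) * Φ z))
        (volume.restrict B) :=
      (((Embx622.emb_measurable _ _).sub
        (MacC3x943.measurable_gc x z₁)).aestronglyMeasurable.mul hΦm).neg
    calc E (volume.restrict B) (fun z =>
          gc x z₁ z * Φ z - emb (a k) (fun f => gz x z₁ (V k) f * φ k f h) z)
        = E (volume.restrict B) (fun z => -(emb (a k) (gz x z₁ (V k)) z *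
          (emb (a k) (fun f => φ k f h) z - Φ z)) +
            -((emb (a k) (gz x z₁ (V k)) z - gc x z₁ z) * Φ z)) := by
          congr 1
          funext z
          simp only [emb]
          ring
      _ ≤ E (volume.restrict B) (fun z => -(emb (a k) (gz x z₁ (V k)) z *
          (emb (a k) (fun f => φ k f h) z - Φ z))) +
          E (volume.restrict B) (fun z => -((emb (a k) (gz x z₁ (V k)) z - gc x z₁ z) * Φ z)) :=
          E_add_le hm1 hm2
      _ ≤ _ := by
          refine add_le_add ?_ (le_of_eq ?_)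
          · refine le_trans (le_of_eq ?_) (E_mono_set hBρ _)
            refine eLpNorm_congr_norm_ae (Eventually.of_forall fun z => ?_)
            rw [norm_neg, norm_mul]
            have : ‖emb (a k) (gz x z₁ (V k)) z‖ = 1 := gz_abs _ _ _ _
            rw [this, one_mul]
          · exact eLpNorm_congr_norm_ae (Eventually.of_forall fun z => norm_neg _)
  have t3 : E (volume.restrict B) (fun z => gc x z₁ z * Φ z - lv (f₁ z) h) = 0 := by
    have hsum := t1.add t2
    rw [add_zero] at hsum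
    refine le_antisymm (ge_of_tendsto' hsum fun k => ?_) zero_le
    calc E (volume.restrict B) (fun z => gc x z₁ z * Φ z - lv (f₁ z) h)
        = E (volume.restrict B) (fun z => (gc x z₁ z * Φ z -
          emb (a k) (fun f => gz x z₁ (V k) f * φ k f h) z) +
          (emb (a k) (fun f => gz x z₁ (V k) f * φ k f h) z - lv (f₁ z) h)) := by
          congr 1
          funext z
          ring
      _ ≤ _ := E_add_le
          (((MacC3x943.measurable_gc x z₁).aestronglyMeasurable.mul hΦm).sub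
            (Embx622.emb_measurable _ _).aestronglyMeasurable)
          ((Embx622.emb_measurable _ _).aestronglyMeasurable.sub hlm)
  have h6 := (eLpNorm_eq_zero_iff (((MacC3x943.measurable_gc x z₁).aestronglyMeasurable.mul
    hΦm).sub hlm) (by norm_num)).1 t3
  filter_upwards [h6, ae_restrict_mem measurableSet_ball] with z hz1 hz2
  have h7 : gc x z₁ z * Φ z - lv (f₁ z) h = 0 := hz1
  rw [hF z (hBs hz2), lv_real_mul]
  have h8 := gc_sq x z₁ z
  linear_combination (gc x z₁ z) * h7 - Φ z * h8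

/-- uniqueness of the local limits -/
theorem lim_unique {U : Filter ℕ} [U.NeBot] {u : ℕ → Face → ℝ} {B B' : Set ℂ}
    {Φ Φ' : ℂ → ℝ} (hΦ : MemLp Φ 2 (volume.restrict B)) (hΦ' : MemLp Φ' 2 (volume.restrict B'))
    (h : Tendsto (fun k => E (volume.restrict B) (fun z => emb (a k) (u k) z - Φ z)) U (𝓝 0))
    (h' : Tendsto (fun k => E (volume.restrict B') (fun z => emb (a k) (u k) z - Φ' z)) U (𝓝 0)) :
    ∀ᵐ z ∂(volume.restrict (B ∩ B')), Φ z = Φ' z := by
  have s1 : B ∩ B' ⊆ B := Set.inter_subset_left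
  have s2 : B ∩ B' ⊆ B' := Set.inter_subset_right
  have m1 : AEStronglyMeasurable Φ (volume.restrict (B ∩ B')) :=
    hΦ.1.mono_measure (Measure.restrict_mono_set _ s1)
  have m2 : AEStronglyMeasurable Φ' (volume.restrict (B ∩ B')) :=
    hΦ'.1.mono_measure (Measure.restrict_mono_set _ s2)
  have t3 : E (volume.restrict (B ∩ B')) (fun z => Φ z - Φ' z) = 0 := by
    have hsum := h.add h'
    rw [add_zero] at hsum
    refine le_antisymm (ge_of_tendsto' hsum fun k => ?_) zero_le
    calc E (volume.restrict (B ∩ B')) (fun z => Φ z - Φ' z)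
        = E (volume.restrict (B ∩ B')) (fun z => (Φ z - emb (a k) (u k) z) +
          (emb (a k) (u k) z - Φ' z)) := by
          congr 1
          funext z
          ring
      _ ≤ E (volume.restrict (B ∩ B')) (fun z => Φ z - emb (a k) (u k) z) +
          E (volume.restrict (B ∩ B')) (fun z => emb (a k) (u k) z - Φ' z) := E_add_le
          (m1.sub (Embx622.emb_measurable _ _).aestronglyMeasurable)
          ((Embx622.emb_measurable _ _).aestronglyMeasurable.sub m2)
      _ ≤ _ := by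
          refine add_le_add (le_trans (le_of_eq ?_) (E_mono_set s1 _)) (E_mono_set s2 _)
          exact eLpNorm_congr_norm_ae (Eventually.of_forall fun z => norm_sub_rev _ _)
  have h6 := (eLpNorm_eq_zero_iff (m1.sub m2) (by norm_num)).1 t3
  filter_upwards [h6] with z hz
  exact sub_eq_zero.1 hz

theorem memLp_Pl' {μ : Measure ℂ} {Φ : Fin 4 → ℂ → ℝ} (hΦ : ∀ h, MemLp (Φ h) 2 μ) (h : Fin 4) :
    MemLp (fun z => Pl (fun j => Φ j z) h) 2 μ := by
  have h1 : MemLp (fun z => ∑ j, ‖Φ j z‖) 2 μ := memLp_finsetSum _ fun j _ => (hΦ j).norm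
  refine h1.of_le ?_ (Eventually.of_forall fun z => ?_)
  · exact ((continuous_Pl h).measurable.comp_aemeasurable
      (aemeasurable_pi_lambda _ fun j => (hΦ j).1.aemeasurable)).aestronglyMeasurable
  · rw [Real.norm_eq_abs, Real.norm_eq_abs,
      abs_of_nonneg (Finset.sum_nonneg fun _ _ => norm_nonneg _)]
    exact abs_Pl_le _ h

/-- **LOCAL COMPACTNESS** -/
theorem comp_loc (H : OmSeq O x a w V) (hO : IsOpen O) (hx : ∀ i, x i ∉ O) {K : Set ℂ}
    (hK : IsClosed K)
    (supp : ∀ᶠ k in atTop, ∀ f, meshPoint (a k) f ∉ K → ∀ h, g k f h = 0) (hg : BddL O a g)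
    (hφ : BddL O a φ) (heq : ∀ᶠ k in atTop, ∀ f h, A (w k) (φ k) f h = a k * g k f h)
    (U : Ultrafilter ℕ) (hU : (U : Filter ℕ) ≤ atTop) :
    ∃ F : ℂ → ℂ, (∀ z₀ ∈ O, ∃ ρ > 0, MemLp F 2 (volume.restrict (ball z₀ ρ)) ∧
        ∀ h, Tendsto (fun k => ∫⁻ z in ball z₀ ρ, ENNReal.ofReal
          ((emb (a k) (fun f => φ k f h) z - lv (F z) h) ^ 2)) U (𝓝 0)) ∧
      ∃ gg : ℂ → ℂ, DifferentiableOn ℂ gg (O \ K) ∧
        ∀ z ∈ O \ K, F z * U3x719.rX x z = gg z := by
  classical
  have hΩ : IsOpen (O \ K) := hO.sdiff hK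
  have hex : ∀ z₁ ∈ O \ K, ∃ r > 0, ∀ᶠ k in atTop, ∀ f : Face,
      ‖meshPoint (a k) f - z₁‖ < r → ∀ h, A (w k) (φ k) f h = 0 := by
    intro z₁ hz₁
    obtain ⟨r, hr, hb⟩ := Metric.isOpen_iff.1 hK.isOpen_compl z₁ hz₁.2
    refine ⟨r, hr, ?_⟩
    filter_upwards [supp, heq] with k h1 h2 f hf h
    rw [h2, h1 f (hb (by rwa [mem_ball, dist_eq_norm])) h, mul_zero]
  have hex0 : ∀ z₀ : ℂ, ∃ ρ : ℝ, ∃ Φ : Fin 4 → ℂ → ℝ, z₀ ∈ O → 0 < ρ ∧
      ∀ h, MemLp (Φ h) 2 (volume.restrict (ball z₀ ρ)) ∧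
      Tendsto (fun k => E (volume.restrict (ball z₀ ρ))
        (fun z => emb (a k) (fun f => φ k f h) z - Φ h z)) U (𝓝 0) := by
    intro z₀
    by_cases hz : z₀ ∈ O
    · obtain ⟨ρ, hρ, h1⟩ := loc_lim H hO hx hg hφ heq U hU hz
      choose Φ hΦ using h1
      exact ⟨ρ, Φ, fun _ => ⟨hρ, hΦ⟩⟩
    · exact ⟨0, fun _ _ => 0, fun h => absurd h hz⟩
  choose ρ Φ hρΦ using hex0
  obtain ⟨T, hTO, hTc, hT⟩ := TopologicalSpace.countable_cover_nhdsWithin
    (f := fun z => ball z (ρ z)) (s := O) fun z hz =>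
      mem_nhdsWithin_of_mem_nhds (ball_mem_nhds z (hρΦ z hz).1)
  set ix : ℂ → ℂ := fun z => if h : ∃ t ∈ T, z ∈ ball t (ρ t) then h.choose else 0 with hix
  have hixs : ∀ z ∈ O, ix z ∈ T ∧ z ∈ ball (ix z) (ρ (ix z)) := by
    intro z hz
    have h1 : ∃ t ∈ T, z ∈ ball t (ρ t) := by
      have := hT hz
      simpa only [Set.mem_iUnion, exists_prop] using this
    have e : ix z = h1.choose := by rw [hix]; simp only [h1, dif_pos]
    rw [e]
    exact h1.choose_spec
  set F₁ := F1 x a V φ U with hF₁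
  set F : ℂ → ℂ := fun z => if z ∈ O \ K then F₁ z else
    RIfx891.amp (fun j => Φ (ix z) j z) with hF
  refine ⟨F, fun z₀ hz₀ => ?_, ?_⟩
  · obtain ⟨hρ₀, hΦ₀⟩ := hρΦ z₀ hz₀
    obtain ⟨ρ₁, hρ₁, hhv⟩ := loc_heavy H hO hx hg hφ heq hz₀
    obtain ⟨ρ₂, hρ₂, hbO⟩ := Metric.isOpen_iff.1 hO z₀ hz₀
    set s := min (ρ z₀) (min ρ₁ ρ₂) with hs
    have hs0 : 0 < s := lt_min hρ₀ (lt_min hρ₁ hρ₂)
    have b0 : ball z₀ s ⊆ ball z₀ (ρ z₀) := ball_subset_ball (min_le_left _ _)
    have b1 : ball z₀ s ⊆ ball z₀ ρ₁ :=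
      ball_subset_ball ((min_le_right _ _).trans (min_le_left _ _))
    have b2 : ball z₀ s ⊆ O :=
      (ball_subset_ball ((min_le_right _ _).trans (min_le_right _ _))).trans hbO
    -- comparison with the other local limits
    have hcmp : ∀ᵐ z ∂(volume.restrict (ball z₀ s)), ∀ t ∈ T, z ∈ ball t (ρ t) →
        ∀ j, Φ t j z = Φ z₀ j z := by
      rw [ae_ball_iff hTc]
      intro t ht
      have h1 : ∀ j, ∀ᵐ z ∂(volume.restrict (ball z₀ s)), z ∈ ball t (ρ t) →
          Φ t j z = Φ z₀ j z := by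
        intro j
        have h2 := lim_unique (U := (U : Filter ℕ)) ((hρΦ t (hTO ht)).2 j).1 (hΦ₀ j).1
          ((hρΦ t (hTO ht)).2 j).2 (hΦ₀ j).2
        rw [ae_restrict_iff' (measurableSet_ball.inter measurableSet_ball)] at h2
        refine ae_restrict_of_ae_restrict_of_subset b0 ?_
        rw [ae_restrict_iff' measurableSet_ball]
        filter_upwards [h2] with z hz h3 h4
        exact hz ⟨h4, h3⟩
      filter_upwards [ae_all_iff.2 h1] with z hz h3 j
      exact hz j h3
    have hF1 : ∀ᵐ z, z ∈ (O \ K) ∩ ball z₀ (ρ z₀) → ∀ h, Φ z₀ h z = lv (F₁ z) h := by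
      refine ae_of_local (hΩ.inter isOpen_ball).measurableSet fun z₁ hz₁ => ?_
      obtain ⟨r, hr, he⟩ := hex z₁ hz₁.1
      obtain ⟨ρ', hρ', hb'⟩ := Metric.isOpen_iff.1 isOpen_ball z₁ hz₁.2
      choose t ht htρ hp using fun h => loc_F1_ae H hO hx hφ U hU hz₁.1.1 hr he (h := h) hρ'
        ((hΦ₀ h).1.mono_measure (Measure.restrict_mono_set _ hb'))
        (tendsto_of_tendsto_of_tendsto_of_le_of_le tendsto_const_nhds (hΦ₀ h).2
          (fun _ => zero_le) fun k => E_mono_set hb' _)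
      obtain ⟨t', ht0, ht'⟩ : ∃ t' > 0, ∀ h, t' ≤ t h := by
        refine ⟨Finset.univ.inf' Finset.univ_nonempty t, ?_, fun i =>
          Finset.inf'_le t (Finset.mem_univ i)⟩
        rw [gt_iff_lt, Finset.lt_inf'_iff]
        exact fun i _ => ht i
      refine ⟨t', ht0, ?_⟩
      rw [ae_all_iff]
      exact fun h => ae_restrict_of_ae_restrict_of_subset (ball_subset_ball (ht' h)) (hp h)
    have hae : ∀ᵐ z ∂(volume.restrict (ball z₀ s)), ∀ h,
        lv (F z) h = Pl (fun j => Φ z₀ j z) h := by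
      filter_upwards [hcmp, ae_restrict_of_ae hF1, ae_restrict_mem measurableSet_ball]
        with z h1 h2 hzs h
      rw [hF]
      by_cases hz : z ∈ O \ K
      · simp only [hz, if_true]
        have e : (fun j => Φ z₀ j z) = lv (F₁ z) := funext fun j => h2 ⟨hz, b0 hzs⟩ j
        rw [e, Pl_lv]
      · simp only [hz, if_false]
        obtain ⟨e1, e2⟩ := hixs z (b2 hzs)
        have e : (fun j => Φ (ix z) j z) = fun j => Φ z₀ j z :=
          funext fun j => h1 _ e1 e2 j
        rw [lv_amp, e]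
    have hΦs : ∀ h, MemLp (Φ z₀ h) 2 (volume.restrict (ball z₀ s)) := fun h =>
      (hΦ₀ h).1.mono_measure (Measure.restrict_mono_set _ b0)
    refine ⟨s, hs0, ?_, fun h => ?_⟩
    · rw [← memLp_re_im_iff]
      constructor
      · refine (memLp_Pl' hΦs 1).ae_eq ?_
        filter_upwards [hae] with z hz
        exact (hz 1).symm
      · refine (memLp_Pl' hΦs 3).neg.ae_eq ?_
        filter_upwards [hae] with z hz
        have := hz 3
        simp only [lv] at this
        change -Pl (fun j => Φ z₀ j z) 3 = (F z).im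
        linarith
    · have hconv : Tendsto (fun k => E (volume.restrict (ball z₀ s)) (fun z =>
          emb (a k) (fun f => φ k f h) z - lv (F z) h)) U (𝓝 0) := by
        have hsum : Tendsto (fun k => E (volume.restrict (ball z₀ ρ₁))
            (emb (a k) fun f => Ph (φ k f) h) +
            ∑ j, E (volume.restrict (ball z₀ (ρ z₀)))
              (fun z => emb (a k) (fun f => φ k f j) z - Φ z₀ j z)) U (𝓝 (0 + ∑ _j, 0)) :=
          ((hhv h).mono_left hU).add (tendsto_finsetSum _ fun j _ => (hΦ₀ j).2)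
        simp only [Finset.sum_const_zero, add_zero] at hsum
        refine tendsto_of_tendsto_of_tendsto_of_le_of_le tendsto_const_nhds hsum
          (fun _ => zero_le) fun k => ?_
        have hm : ∀ j, AEStronglyMeasurable (fun z => emb (a k) (fun f => φ k f j) z -
            Φ z₀ j z) (volume.restrict (ball z₀ s)) := fun j =>
          (Embx622.emb_measurable _ _).aestronglyMeasurable.sub (hΦs j).1
        have hmPl : AEStronglyMeasurable (fun z => Pl (fun j =>
            emb (a k) (fun f => φ k f j) z - Φ z₀ j z) h) (volume.restrict (ball z₀ s)) :=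
          ((continuous_Pl h).measurable.comp_aemeasurable
            (aemeasurable_pi_lambda _ fun j => (hm j).aemeasurable)).aestronglyMeasurable
        calc E (volume.restrict (ball z₀ s)) (fun z =>
              emb (a k) (fun f => φ k f h) z - lv (F z) h)
            = E (volume.restrict (ball z₀ s)) (fun z => emb (a k) (fun f => Ph (φ k f) h) z +
              Pl (fun j => emb (a k) (fun f => φ k f j) z - Φ z₀ j z) h) := by
              refine E_congr ?_
              filter_upwards [hae] with z hz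
              rw [hz h, ← Pl_sub]
              have e1 : emb (a k) (fun f => φ k f h) z = Ph (φ k (meshIndex (a k) z)) h +
                  Pl (φ k (meshIndex (a k) z)) h := (Ph_add_Pl _ h).symm
              rw [e1]
              simp only [emb]
              ring
          _ ≤ E (volume.restrict (ball z₀ s)) (fun z => emb (a k) (fun f => Ph (φ k f) h) z) +
              E (volume.restrict (ball z₀ s)) (fun z => Pl (fun j =>
                emb (a k) (fun f => φ k f j) z - Φ z₀ j z) h) :=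
              E_add_le (Embx622.emb_measurable _ _).aestronglyMeasurable hmPl
          _ ≤ _ := by
              refine add_le_add (E_mono_set b1 _) ((E_Pl_le hm h).trans ?_)
              exact Finset.sum_le_sum fun j _ => E_mono_set b0 _
      exact E_tendsto_zero.1 hconv
  · refine ⟨fun z => F₁ z * U3x719.rX x z, fun z₁ hz₁ => ?_, fun z hz => ?_⟩
    · obtain ⟨r, hr, he⟩ := hex z₁ hz₁
      obtain ⟨s, hs, f₁, hd, -, hf⟩ := loc_F1 H hO hx hφ U hU hz₁.1 hr he
      obtain ⟨t, ht, hd2⟩ := MacTx610.gc_rX_diff (x := x) (z := z₁)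
        (fun i hc => hx i (hc ▸ hz₁.1))
      have h1 : DifferentiableAt ℂ (fun u => f₁ u * ((gc x z₁ u : ℂ) * U3x719.rX x u)) z₁ :=
        (hd.differentiableAt (ball_mem_nhds z₁ hs)).mul
          (hd2.differentiableAt (ball_mem_nhds z₁ ht))
      refine (h1.congr_of_eventuallyEq ?_).differentiableWithinAt
      filter_upwards [ball_mem_nhds z₁ hs] with u hu
      rw [hF₁, hf u hu]
      ring
    · simp only [hF, hz, if_true]

end Crest.Agent.R165.MacL2x943
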