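import Crest.Agent.R165.DiscData_892
import Crest.Agent.R165.GSys_387
import Crest.Agent.R165.Bridge_915
import Crest.Agent.R165.DomGeo_900

/-!
# Row 165 (S0250): the scale data of the concrete flow (helper900)

* `gcn` : covering numbers, `gcn_le : gcn .. m ≤ gA .. * 2 ^ m`
* `gScale` : the `ScaleData` of `GSys_387` (`r = rr (k+1)`, `R = nearR`, `R' = Cr rr (k+1)`)
* `SpinData.ofFine` : `SpinData` when all scales are fine (`Kf = K`)
-/

set_option autoImplicit false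

noncomputable section

open Filter Topology
open scoped ENNReal
open Crest.ProbabilityR.IsingModel
open Crest.Agent.R165.Latx683 Crest.Agent.R165.GDefx387 Crest.Agent.R165.GSysx387
open Crest.Agent.R165.Bridgex915 Crest.Agent.R165.Packx915 Crest.Agent.R165.NSumx915
open Crest.Agent.R165.Spinx930 Crest.Agent.R165.Discx892 Crest.Agent.R165.DiscDatax892
open Crest.Agent.R165.Scalex900 Crest.Agent.R165.DomGeox900

namespace Crest.Agent.R165.SDatax900

theorem sq_le_pow (m : ℕ) : (m + 1) ^ 2 ≤ 4 * 2 ^ m := by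
  induction m using Nat.strong_induction_on with
  | _ m ih =>
    match m with
    | 0 => norm_num
    | 1 => norm_num
    | 2 => norm_num
    | m + 3 =>
      have h := ih (m + 2) (by omega)
      have h2 : (m + 3 + 1) ^ 2 ≤ 2 * (m + 2 + 1) ^ 2 := by
        have e1 : (m + 3 + 1) ^ 2 = m ^ 2 + 8 * m + 16 := by ring
        have e2 : 2 * (m + 2 + 1) ^ 2 = 2 * m ^ 2 + 12 * m + 18 := by ring
        rw [e1, e2]
        linarith [Nat.zero_le (m ^ 2), Nat.zero_le m]
      calc (m + 3 + 1) ^ 2 ≤ 2 * (m + 2 + 1) ^ 2 := h2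
        _ ≤ 2 * (4 * 2 ^ (m + 2)) := Nat.mul_le_mul_left _ h
        _ = 4 * 2 ^ (m + 3) := by ring

/-- covering numbers of the scale `k` -/
def gcn (p k0 Cr k m : ℕ) : ℕ :=
  (2 * (((nearR p k0 k + rr p k0 (k + 1) + 1) * m + Cr * rr p k0 (k + 1)) / rr p k0 (k + 1)) + 3) ^ 2

/-- constant of the covering numbers -/
def gA (Cr : ℕ) : ℕ := 4 * (2 * (3 + Cr) + 3) ^ 2

theorem nearR_le (p k0 k : ℕ) : nearR p k0 k ≤ rr p k0 (k + 1) := Nat.div_le_self _ _

theorem gcn_le (p k0 Cr k m : ℕ) : gcn p k0 Cr k m ≤ gA Cr * 2 ^ m := by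
  unfold gcn gA
  have h3 := nearR_le p k0 k
  set r := rr p k0 (k + 1) with hr
  have hr0 : 0 < r := rr_pos _ _ _
  have h1 : ((nearR p k0 k + r + 1) * m + Cr * r) / r ≤ (3 + Cr) * (m + 1) := by
    have h2 : (nearR p k0 k + r + 1) * m + Cr * r ≤ ((3 + Cr) * (m + 1)) * r := by
      have h4 : nearR p k0 k + r + 1 ≤ 3 * r := by omega
      calc (nearR p k0 k + r + 1) * m + Cr * r
          ≤ 3 * r * m + Cr * r := by gcongr
        _ ≤ ((3 + Cr) * (m + 1)) * r := by
            have e : ((3 + Cr) * (m + 1)) * r = 3 * r * m + Cr * r + (Cr * m * r + 3 * r) := by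
              ring
            omega
    calc _ ≤ ((3 + Cr) * (m + 1)) * r / r := Nat.div_le_div_right h2
      _ = _ := Nat.mul_div_cancel _ hr0
  calc (2 * (((nearR p k0 k + r + 1) * m + Cr * r) / r) + 3) ^ 2
      ≤ ((2 * (3 + Cr) + 3) * (m + 1)) ^ 2 := by
        refine Nat.pow_le_pow_left ?_ 2
        nlinarith
    _ = (2 * (3 + Cr) + 3) ^ 2 * (m + 1) ^ 2 := by ring
    _ ≤ (2 * (3 + Cr) + 3) ^ 2 * (4 * 2 ^ m) :=
        Nat.mul_le_mul_left _ (sq_le_pow m)
    _ = _ := by ring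

/-- **the scale data of the concrete flow**; the constants of step `k` are measured at the scale
`rr (k+1)` -/
def gScale {G : Type} [CommRing G] [CN G] [GoodG G] (p k0 Cr : ℕ) {Γ : ℝ≥0∞} (hΓ4 : 4 ≤ Γ)
    (hΓt : Γ ≠ ∞) {E : ℕ → ℝ} (hE0 : ∀ k, 0 ≤ E k) (hE : Summable E) :
    ScaleData (fd : G × G → G × G → ℕ) where
  r k := rr p k0 (k + 1)
  R := nearR p k0
  R' k := Cr * rr p k0 (k + 1)
  cn := gcn p k0 Cr
  A := gA Cr
  Γ := Γ
  E := E
  pd := pd_fd
  Γ4 := hΓ4
  Γt := hΓt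
  hcn := gcn_le p k0 Cr
  hcov k _ := cov_fd (rr_pos p k0 (k + 1)) _
  E0 := hE0
  Es := hE


end Crest.Agent.R165.SDatax900
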