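import Mathlib
import Crest.Agent.R165.TorusGrad_922
import Crest.Agent.R165.SpC_583
import Crest.Agent.R165.Schur_811
import Crest.Agent.R165.TorBr_599
import Crest.Agent.R165.TorusJ2_922
import Crest.Agent.R165.En_599
import Crest.Agent.R165.GeOps_337
import Crest.Agent.R165.Red2_541

-- ▼ part R165/TorusKer_922
section

/-!
# Row 165 (S0250), PL1: convergence of the critical torus kernels to the plane kernel

A twisted periodic field `ψ` with `A ψ = - δ_u + O(n⁻²)` on the period box, `u` near the centre,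
(and orthogonal to the light constants in the doubly periodic sector) satisfies
`|ψ w h - SP h b (w - u)| ≤ C / n` for `w` near the centre.
-/

set_option autoImplicit false
set_option linter.all false

noncomputable section

open Finset

namespace Crest.Agent.R165.TorusKerx922

open Crest.Agent.R165.Tr1x40 Crest.Agent.R165.Tr2x40 Crest.Agent.R165.TorusGradx922
open Crest.Agent.R165.Schurx811 (dd dd_comm dd_triangle dd_self bulk_one)

/-! ### the plane Green field -/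

/-- the plane Green field with pole `(u, b)` -/
def Gk (u : Face) (b : Fin 4) : Fld := fun f h => Spx583.SP h b (f.1 - u.1) (f.2 - u.2)

theorem xc_eq583 : Spx583.xc = xc := rfl

theorem A_Gk (u : Face) (b : Fin 4) (f : Face) (h : Fin 4) :
    A (cst xc) (Gk u b) f h = -(if h = b ∧ f = u then 1 else 0) := by
  have hr := Spx583.row_SP h b (f.1 - u.1) (f.2 - u.2)
  have e1 : f.2 - 1 - u.2 = f.2 - u.2 - 1 := by ring
  have e2 : f.1 + 1 - u.1 = f.1 - u.1 + 1 := by ring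
  have e3 : f.2 + 1 - u.2 = f.2 - u.2 + 1 := by ring
  have e4 : f.1 - 1 - u.1 = f.1 - u.1 - 1 := by ring
  have e : A (cst xc) (Gk u b) f h
      = Spx583.row Spx583.xc (fun c => Spx583.SP c b) h (f.1 - u.1) (f.2 - u.2) := by
    fin_cases h
    · show A (cst xc) (Gk u b) f 0 = _
      rw [A_S]; simp only [Gk, cst, Spx583.row, e1, xc_eq583]
    · show A (cst xc) (Gk u b) f 1 = _
      rw [A_E]; simp only [Gk, cst, Spx583.row, e2, xc_eq583]
    · show A (cst xc) (Gk u b) f 2 = _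
      rw [A_N]; simp only [Gk, cst, Spx583.row, e3, xc_eq583]
    · show A (cst xc) (Gk u b) f 3 = _
      rw [A_W]; simp only [Gk, cst, Spx583.row, e4, xc_eq583]
  rw [e, hr]
  by_cases hh : h = b ∧ f = u
  · obtain ⟨rfl, rfl⟩ := hh
    simp
  · rw [if_neg hh, if_neg, neg_zero]
    rintro ⟨h3, h4, h5⟩
    exact hh ⟨h3, Prod.ext (by linarith) (by linarith)⟩

/-- the constant of the plane kernel bound -/
def K0 : ℝ := 4000000

theorem K0_pos : 0 < K0 := by unfold K0; norm_num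

theorem Gk_le (u : Face) (b : Fin 4) (f : Face) (h : Fin 4) :
    |Gk u b f h| ≤ K0 / ((dd f u : ℝ) + 1) := by
  have h1 := Spx583.SP_le h b (f.1 - u.1) (f.2 - u.2)
  refine h1.trans ?_
  unfold K0
  have h2 : (dd f u : ℝ) ≤ |((f.1 - u.1 : ℤ) : ℝ)| + |((f.2 - u.2 : ℤ) : ℝ)| := by
    rw [← Int.cast_abs, ← Int.cast_abs, Int.abs_eq_natAbs, Int.abs_eq_natAbs, Int.cast_natCast,
      Int.cast_natCast]
    have : dd f u ≤ (f.1 - u.1).natAbs + (f.2 - u.2).natAbs := by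
      unfold dd; omega
    exact_mod_cast this
  apply div_le_div_of_nonneg_left (by norm_num) (by positivity) (by linarith)

/-- inversion formula for finitely supported fields -/
theorem inv_formula (φ : Fld) (K : Finset Face) (h1 : ∀ f, f ∉ K → ∀ h, φ f h = 0)
    (h2 : ∀ f, f ∉ K → ∀ h, φ (nb f h) (op h) = 0) (u : Face) (hu : u ∈ K) (b : Fin 4) :
    φ u b = ∑ f ∈ K, ∑ h, A (cst xc) φ f h * Gk u b f h := by
  have h := A_antisymm (sym_cst xc) φ (Gk u b) K h1 (fun f hf h => by rw [h2 f hf h, mul_zero])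
  have e : ∑ f ∈ K, ∑ h, φ f h * A (cst xc) (Gk u b) f h = -φ u b := by
    rw [sum_eq_single u]
    · rw [sum_eq_single b]
      · rw [A_Gk]; simp
      · intro k _ hk; rw [A_Gk]; simp [hk]
      · intro hb; exact absurd (mem_univ _) hb
    · intro f _ hf
      refine sum_eq_zero fun k _ => ?_
      rw [A_Gk]; simp [hf]
    · intro hh; exact absurd hu hh
  rw [e] at h
  linarith

/-! ### the cut-off -/

theorem dd_nb (f c : Face) (h : Fin 4) : dd (nb f h) c ≤ dd f c + 1 ∧ dd f c ≤ dd (nb f h) c + 1 := by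
  fin_cases h <;> simp only [dd, nb, Fin.zero_eta, Fin.mk_one, Fin.reduceFinMk] <;> omega

/-- the cut-off function -/
def chi (c : Face) (ρ : ℕ) (f : Face) : ℝ := max 0 (min 1 (2 - (dd f c : ℝ) / ρ))

theorem chi_nonneg (c : Face) (ρ : ℕ) (f : Face) : 0 ≤ chi c ρ f := le_max_left _ _

theorem chi_le_one (c : Face) (ρ : ℕ) (f : Face) : chi c ρ f ≤ 1 :=
  max_le (by norm_num) (min_le_left _ _)

theorem chi_one {c : Face} {ρ : ℕ} (hρ : 0 < ρ) {f : Face} (h : dd f c ≤ ρ) : chi c ρ f = 1 := by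
  have h0 : (0 : ℝ) < ρ := by exact_mod_cast hρ
  have h1 : (dd f c : ℝ) / ρ ≤ 1 := by
    rw [div_le_one h0]; exact_mod_cast h
  unfold chi
  rw [min_eq_left (by linarith), max_eq_right (by norm_num)]

theorem chi_zero {c : Face} {ρ : ℕ} (hρ : 0 < ρ) {f : Face} (h : 2 * ρ ≤ dd f c) :
    chi c ρ f = 0 := by
  have h0 : (0 : ℝ) < ρ := by exact_mod_cast hρ
  have h1 : 2 ≤ (dd f c : ℝ) / ρ := by
    rw [le_div_iff₀ h0]; exact_mod_cast h
  unfold chi
  rw [max_eq_left]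
  exact (min_le_right _ _).trans (by linarith)

theorem chi_lip (c : Face) {ρ : ℕ} (hρ : 0 < ρ) (f : Face) (h : Fin 4) :
    |chi c ρ (nb f h) - chi c ρ f| ≤ 1 / ρ := by
  have h0 : (0 : ℝ) < ρ := by exact_mod_cast hρ
  obtain ⟨h1, h2⟩ := dd_nb f c h
  have h1' : (dd (nb f h) c : ℝ) ≤ dd f c + 1 := by exact_mod_cast h1
  have h2' : (dd f c : ℝ) ≤ dd (nb f h) c + 1 := by exact_mod_cast h2
  have h3 : (dd (nb f h) c : ℝ) / ρ ≤ dd f c / ρ + 1 / ρ := by
    rw [← add_div]; gcongr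
  have h4 : (dd f c : ℝ) / ρ ≤ dd (nb f h) c / ρ + 1 / ρ := by
    rw [← add_div]; gcongr
  have h5 : (0 : ℝ) ≤ 1 / ρ := by positivity
  unfold chi
  rw [abs_le]
  generalize (dd (nb f h) c : ℝ) / ρ = x at *
  generalize (dd f c : ℝ) / ρ = y at *
  generalize (1 : ℝ) / ρ = e at *
  constructor
  · have : max 0 (min 1 (2 - y)) ≤ max 0 (min 1 (2 - x)) + e := by
      refine max_le (by have := le_max_left (0 : ℝ) (min 1 (2 - x)); linarith) ?_
      rcases le_total 1 (2 - x) with h | h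
      · rw [min_eq_left h]
        have := le_max_right (0 : ℝ) 1
        have := min_le_left (1 : ℝ) (2 - y)
        linarith
      · rw [min_eq_right h]
        have := le_max_right (0 : ℝ) (2 - x)
        have := min_le_right (1 : ℝ) (2 - y)
        linarith
    linarith
  · have : max 0 (min 1 (2 - x)) ≤ max 0 (min 1 (2 - y)) + e := by
      refine max_le (by have := le_max_left (0 : ℝ) (min 1 (2 - y)); linarith) ?_
      rcases le_total 1 (2 - y) with h | h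
      · rw [min_eq_left h]
        have := le_max_right (0 : ℝ) 1
        have := min_le_left (1 : ℝ) (2 - x)
        linarith
      · rw [min_eq_right h]
        have := le_max_right (0 : ℝ) (2 - y)
        have := min_le_right (1 : ℝ) (2 - x)
        linarith
    linarith

/-! ### twisted periodization -/

/-- power of the twist -/
def tw (ε : ℝ) (k : ℤ) : ℝ := if Even k then 1 else ε

theorem tw_zero (ε : ℝ) : tw ε 0 = 1 := by simp [tw]

theorem tw_add_one {ε : ℝ} (h : ε ^ 2 = 1) (k : ℤ) : tw ε (k + 1) = ε * tw ε k := by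
  unfold tw
  by_cases hk : Even k
  · have : ¬ Even (k + 1) := by rw [Int.even_add_one]; simpa using hk
    simp [hk, this]
  · have : Even (k + 1) := by rw [Int.even_add_one]; exact hk
    simp only [hk, this, if_true, if_false]
    rw [← pow_two, h]


/-- twisted periodization of a field on the period box -/
def pe (n : ℕ) (a b : ℝ) (φ : Fld) : Fld := fun f h =>
  tw a (f.1 / n) * tw b (f.2 / n) * φ (f.1 % n, f.2 % n) h

theorem tw_pe {n : ℕ} (hn : 0 < n) {a b : ℝ} (ha : a ^ 2 = 1) (hb : b ^ 2 = 1) (φ : Fld) :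
    Tw n a b (pe n a b φ) where
  h1 f h := by
    have hn' : (n : ℤ) ≠ 0 := by exact_mod_cast hn.ne'
    simp only [pe]
    rw [Int.add_emod_right, show (f.1 + (n : ℤ)) / n = f.1 / n + 1 from by
      rw [Int.add_ediv_of_dvd_right (dvd_refl _), Int.ediv_self hn'], tw_add_one ha]
    ring
  h2 f h := by
    have hn' : (n : ℤ) ≠ 0 := by exact_mod_cast hn.ne'
    simp only [pe]
    rw [Int.add_emod_right, show (f.2 + (n : ℤ)) / n = f.2 / n + 1 from by
      rw [Int.add_ediv_of_dvd_right (dvd_refl _), Int.ediv_self hn'], tw_add_one hb]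
    ring

theorem pe_bx {n : ℕ} (a b : ℝ) (φ : Fld) {f : Face} (hf : f ∈ bx n) (h : Fin 4) :
    pe n a b φ f h = φ f h := by
  rw [bx, mem_product, mem_Ico, mem_Ico] at hf
  simp only [pe]
  rw [Int.ediv_eq_zero_of_lt hf.1.1 hf.1.2, Int.ediv_eq_zero_of_lt hf.2.1 hf.2.2, tw_zero, tw_zero,
    Int.emod_eq_of_lt hf.1.1 hf.1.2, Int.emod_eq_of_lt hf.2.1 hf.2.2]
  simp

/-- fields supported inside the box -/
def Ins (n : ℕ) (φ : Fld) : Prop :=
  ∀ g : Face, (g.1 ≤ 0 ∨ (n : ℤ) - 1 ≤ g.1 ∨ g.2 ≤ 0 ∨ (n : ℤ) - 1 ≤ g.2) → ∀ h, φ g h = 0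

theorem pe_near {n : ℕ} (hn : 2 ≤ n) (a b : ℝ) {φ : Fld} (hφ : Ins n φ) {f : Face}
    (h1 : -1 ≤ f.1) (h1' : f.1 ≤ n) (h2 : -1 ≤ f.2) (h2' : f.2 ≤ n) (h : Fin 4) :
    pe n a b φ f h = φ f h := by
  by_cases hf : f ∈ bx n
  · exact pe_bx a b φ hf h
  · rw [bx, mem_product, mem_Ico, mem_Ico] at hf
    have hz : φ f h = 0 := by
      refine hφ f ?_ h
      by_contra hc
      rw [not_or, not_or, not_or, not_le, not_le, not_le, not_le] at hc
      exact hf ⟨⟨by omega, by omega⟩, ⟨by omega, by omega⟩⟩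
    rw [hz]
    simp only [pe]
    have hn0 : (0 : ℤ) < n := by omega
    have m1 := Int.emod_nonneg f.1 hn0.ne'
    have m1' := Int.emod_lt_of_pos f.1 hn0
    have m2 := Int.emod_nonneg f.2 hn0.ne'
    have m2' := Int.emod_lt_of_pos f.2 hn0
    have d1 := Int.emod_add_mul_ediv f.1 n
    have d2 := Int.emod_add_mul_ediv f.2 n
    have key : ∀ x : ℤ, -1 ≤ x → x ≤ n → ¬ (0 ≤ x ∧ x < n) → (x % n ≤ 0 ∨ (n : ℤ) - 1 ≤ x % n) := by
      intro x hx hx' hxx
      have : x = -1 ∨ x = n := by omega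
      rcases this with rfl | rfl
      · right
        have e : (-1 : ℤ) % n = n - 1 := by
          rw [← Int.add_emod_right, Int.emod_eq_of_lt (by omega) (by omega)]; ring
        rw [e]
      · left; simp
    have hz' : φ (f.1 % n, f.2 % n) h = 0 := by
      refine hφ _ ?_ h
      by_cases hx : 0 ≤ f.1 ∧ f.1 < n
      · have hy : ¬ (0 ≤ f.2 ∧ f.2 < n) := fun hy => hf ⟨hx, hy⟩
        rcases key f.2 h2 h2' hy with h | h
        · exact Or.inr (Or.inr (Or.inl h))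
        · exact Or.inr (Or.inr (Or.inr h))
      · rcases key f.1 h1 h1' hx with h | h
        · exact Or.inl h
        · exact Or.inr (Or.inl h)
    rw [hz', mul_zero]

theorem A_pe {n : ℕ} (hn : 2 ≤ n) (a b : ℝ) {φ : Fld} (hφ : Ins n φ) {f : Face} (hf : f ∈ bx n)
    (h : Fin 4) : A (cst xc) (pe n a b φ) f h = A (cst xc) φ f h := by
  have hf' := hf
  rw [bx, mem_product, mem_Ico, mem_Ico] at hf'
  refine A_congr_field _ f h ?_ ?_
  · funext k; exact pe_bx a b φ hf k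
  · refine pe_near hn a b hφ ?_ ?_ ?_ ?_ _ <;> fin_cases h <;> simp [nb] <;> omega


/-! ### the estimates -/

/-- centre of the period box -/
def ce (n : ℕ) : Face := ((n : ℤ) / 2, (n : ℤ) / 2)

/-- the truncated Green field -/
def cG (n ρ : ℕ) (u : Face) (b : Fin 4) : Fld := fun f h => chi (ce n) ρ f * Gk u b f h

theorem ins_chi {n ρ : ℕ} (h8 : 8 * ρ ≤ n) (hρ : 8 ≤ ρ) (φ : Fld) :
    Ins n (fun f h => chi (ce n) ρ f * φ f h) := by
  intro g hg h
  have : 2 * ρ ≤ dd g (ce n) := by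
    simp only [dd, ce]; omega
  simp only [chi_zero (by omega : 0 < ρ) this, zero_mul]

theorem mem_bx_of {n ρ : ℕ} (h8 : 8 * ρ ≤ n) (hρ : 8 ≤ ρ) {u : Face} (hu : 4 * dd u (ce n) ≤ ρ) :
    u ∈ bx n := by
  rw [bx, mem_product, mem_Ico, mem_Ico]
  simp only [dd, ce] at hu
  omega

theorem sg_abs (h : Fin 4) : |sg h| = 1 := by fin_cases h <;> simp [sg]

theorem far_le {ρ : ℕ} (hρ : 8 ≤ ρ) {c u f : Face} (hu : 4 * dd u c ≤ ρ) (hf : ρ ≤ dd f c + 1)
    (g : Face) (hg : dd f c ≤ dd g c + 1) (b h : Fin 4) : |Gk u b g h| ≤ 2 * K0 / ρ := by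
  refine (Gk_le u b g h).trans ?_
  have h0 : (0 : ℝ) < ρ := by exact_mod_cast (by omega : 0 < ρ)
  have ht := dd_triangle g u c
  have h1 : ρ ≤ 2 * (dd g u + 1) := by omega
  have h1' : (ρ : ℝ) ≤ 2 * (dd g u + 1) := by exact_mod_cast h1
  rw [div_le_div_iff₀ (by positivity) h0]
  nlinarith [K0_pos]

theorem chi_diff_zero {ρ : ℕ} (hρ : 8 ≤ ρ) {c f : Face} (hf : ¬ ρ ≤ dd f c + 1) (h : Fin 4) :
    chi c ρ (nb f h) - chi c ρ f = 0 := by
  have h1 := (dd_nb f c h).1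
  rw [chi_one (by omega) (by omega : dd (nb f h) c ≤ ρ), chi_one (by omega) (by omega : dd f c ≤ ρ),
    sub_self]

theorem A_cG_le {n ρ : ℕ} (hρ : 8 ≤ ρ) {u : Face} (hu : 4 * dd u (ce n) ≤ ρ) (b : Fin 4)
    (f : Face) (h : Fin 4) :
    |A (cst xc) (cG n ρ u b) f h + (if h = b ∧ f = u then 1 else 0)| ≤ 2 * K0 / (ρ : ℝ) ^ 2 := by
  have h0 : (0 : ℝ) < ρ := by exact_mod_cast (by omega : 0 < ρ)
  unfold cG
  rw [A_cut, A_Gk]
  have e : chi (ce n) ρ f * -(if h = b ∧ f = u then (1 : ℝ) else 0)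
      = -(if h = b ∧ f = u then 1 else 0) := by
    split_ifs with hh
    · rw [hh.2, chi_one (by omega) (by omega : dd u (ce n) ≤ ρ)]; ring
    · simp
  rw [e, show ∀ x y : ℝ, -x + y + x = y from fun x y => by ring]
  by_cases hf : ρ ≤ dd f (ce n) + 1
  · rw [abs_mul, abs_mul, abs_mul, sg_abs]
    have h1 := chi_lip (ce n) (by omega : 0 < ρ) f h
    have h2 := far_le hρ hu hf (nb f h) (dd_nb f (ce n) h).2 b (op h)
    have h3 : |cst xc f h| ≤ 1 := by
      rw [cst, abs_of_pos xc_pos]; exact xc_lt_one.le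
    calc 1 * |cst xc f h| * (|chi (ce n) ρ (nb f h) - chi (ce n) ρ f| * |Gk u b (nb f h) (op h)|)
        ≤ 1 * 1 * (1 / ρ * (2 * K0 / ρ)) := by gcongr
      _ = _ := by field_simp
  · rw [chi_diff_zero hρ hf]
    simp only [zero_mul, mul_zero, abs_zero]
    have := K0_pos
    positivity

theorem sum_inv_le {n ρ : ℕ} (h8 : 8 * ρ ≤ n) (h16 : n ≤ 16 * ρ) (hρ : 8 ≤ ρ) {u : Face}
    (hu : 4 * dd u (ce n) ≤ ρ) : ∑ f ∈ bx n, 1 / ((dd f u : ℝ) + 1) ≤ 256 * ρ := by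
  have h := bulk_one (bx n) u n (fun z hz => by
    have hu' := mem_bx_of h8 hρ hu
    rw [bx, mem_product, mem_Ico, mem_Ico] at hz hu'
    simp only [dd]; omega)
  refine h.trans ?_
  have h1 : (n : ℝ) ≤ 16 * ρ := by exact_mod_cast h16
  have h2 : (8 : ℝ) ≤ ρ := by exact_mod_cast hρ
  linarith

theorem Per.abs {n : ℕ} {a b : ℝ} (ha : a ^ 2 = 1) (hb : b ^ 2 = 1) {ψ : Fld} (hψ : Tw n a b ψ)
    (k : Fin 4) : Per n (fun f => |ψ f k|) := by
  have h1 : |a| = 1 := by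
    have : |a| ^ 2 = 1 := by rw [sq_abs, ha]
    have h0 := abs_nonneg a
    nlinarith
  have h2 : |b| = 1 := by
    have : |b| ^ 2 = 1 := by rw [sq_abs, hb]
    have h0 := abs_nonneg b
    nlinarith
  exact ⟨fun f => by simp only [hψ.h1, abs_mul, h1, one_mul],
    fun f => by simp only [hψ.h2, abs_mul, h2, one_mul]⟩

theorem sum_nb {n : ℕ} (hn : 0 < n) {a b : ℝ} (ha : a ^ 2 = 1) (hb : b ^ 2 = 1) {ψ : Fld}
    (hψ : Tw n a b ψ) :
    ∑ f ∈ bx n, ∑ h, |ψ (nb f h) (op h)| = ∑ f ∈ bx n, ∑ h, |ψ f h| := by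
  have hnZ : (0 : ℤ) < n := by exact_mod_cast hn
  have e0 := Sm_m2 hnZ (Per.abs ha hb hψ 2)
  have e1 := Sm_e1 hnZ (Per.abs ha hb hψ 3)
  have e2 := Sm_e2 hnZ (Per.abs ha hb hψ 0)
  have e3 := Sm_m1 hnZ (Per.abs ha hb hψ 1)
  have L : ∑ f ∈ bx n, ∑ h, |ψ (nb f h) (op h)| = Sm n (fun f => |ψ (f.1, f.2 - 1) 2|)
      + Sm n (fun f => |ψ (f.1 + 1, f.2) 3|) + Sm n (fun f => |ψ (f.1, f.2 + 1) 0|)
      + Sm n (fun f => |ψ (f.1 - 1, f.2) 1|) := by
    simp only [Sm, ← sum_add_distrib, Fin.sum_univ_four, nb_zero, nb_one, nb_two, nb_three,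
      op_zero, op_one, op_two, op_three]
  have R : ∑ f ∈ bx n, ∑ h, |ψ f h| = Sm n (fun f => |ψ f 0|) + Sm n (fun f => |ψ f 1|)
      + Sm n (fun f => |ψ f 2|) + Sm n (fun f => |ψ f 3|) := by
    simp only [Sm, ← sum_add_distrib, Fin.sum_univ_four]
  rw [L, R, e0, e1, e2, e3]
  ring

theorem sum_abs_le {n : ℕ} {ψ : Fld} {E : ℝ} (hE : n2 n ψ ≤ E) :
    ∑ f ∈ bx n, ∑ h, |ψ f h| ≤ 2 * n * Real.sqrt E := by
  have h1 : (∑ x ∈ bx n ×ˢ (univ : Finset (Fin 4)), |ψ x.1 x.2|) ^ 2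
      ≤ (bx n ×ˢ (univ : Finset (Fin 4))).card * ∑ x ∈ bx n ×ˢ (univ : Finset (Fin 4)), |ψ x.1 x.2| ^ 2 :=
    sq_sum_le_card_mul_sum_sq
  rw [sum_product, sum_product, card_product, Nat.cast_mul, card_bx] at h1
  have h2 : ∑ x ∈ bx n, ∑ y, |ψ x y| ^ 2 = n2 n ψ := by
    rw [n2, Sm]; simp only [sq_abs]
  simp only [] at h1
  rw [h2] at h1
  have hE0 : 0 ≤ E := (n2_nonneg n ψ).trans hE
  refine abs_le_of_sq_le_sq' ?_ (by positivity) |>.2
  calc (∑ f ∈ bx n, ∑ h, |ψ f h|) ^ 2 ≤ _ := h1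
    _ ≤ (n : ℝ) ^ 2 * 4 * E := by
      simp only [card_univ, Fintype.card_fin, Nat.cast_ofNat]
      gcongr
    _ = (2 * n * Real.sqrt E) ^ 2 := by
      rw [mul_pow, Real.sq_sqrt hE0]; ring

/-- pointwise bound near the centre from the `L²` bound and the bound of `A f0` -/
theorem point_le {n ρ : ℕ} (h8 : 8 * ρ ≤ n) (h16 : n ≤ 16 * ρ) (hρ : 8 ≤ ρ) {a b : ℝ}
    (ha : a ^ 2 = 1) (hb : b ^ 2 = 1) {f0 : Fld} (hT : Tw n a b f0) {C1 E : ℝ} (hC1 : 0 ≤ C1)
    (hA : ∀ f ∈ bx n, ∀ h, |A (cst xc) f0 f h| ≤ C1 / (ρ : ℝ) ^ 2) (hE : n2 n f0 ≤ E) {w : Face}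
    (hw : 4 * dd w (ce n) ≤ ρ) (k : Fin 4) :
    |f0 w k| ≤ (1024 * C1 * K0 + 64 * K0 * Real.sqrt E) / ρ := by
  have h0 : (0 : ℝ) < ρ := by exact_mod_cast (by omega : 0 < ρ)
  have hK := K0_pos
  set φ : Fld := fun f h => chi (ce n) ρ f * f0 f h with hφ
  have hins : Ins n φ := ins_chi h8 hρ f0
  have hout : ∀ f, f ∉ bx n → ∀ h, φ f h = 0 := by
    intro f hf h
    refine hins f ?_ h
    rw [bx, mem_product, mem_Ico, mem_Ico] at hf
    by_contra hc
    rw [not_or, not_or, not_or, not_le, not_le, not_le, not_le] at hc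
    exact hf ⟨⟨by omega, by omega⟩, ⟨by omega, by omega⟩⟩
  have hout' : ∀ f, f ∉ bx n → ∀ h, φ (nb f h) (op h) = 0 := by
    intro f hf h
    refine hins (nb f h) ?_ (op h)
    rw [bx, mem_product, mem_Ico, mem_Ico] at hf
    by_contra hc
    rw [not_or, not_or, not_or, not_le, not_le, not_le, not_le] at hc
    refine hf ⟨⟨?_, ?_⟩, ⟨?_, ?_⟩⟩ <;> fin_cases h <;> simp [nb] at hc <;> omega
  have hwb := mem_bx_of h8 hρ hw
  have hinv := inv_formula φ (bx n) hout hout' w hwb k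
  have hφw : φ w k = f0 w k := by
    simp only [hφ]
    rw [chi_one (by omega) (by omega : dd w (ce n) ≤ ρ), one_mul]
  rw [hφw] at hinv
  have hterm : ∀ f ∈ bx n, ∀ h, |A (cst xc) φ f h * Gk w k f h|
      ≤ C1 * K0 / (ρ : ℝ) ^ 2 * (1 / ((dd f w : ℝ) + 1)) + 2 * K0 / (ρ : ℝ) ^ 2 * |f0 (nb f h) (op h)| := by
    intro f hf h
    have hAf := hA f hf h
    simp only [hφ]
    rw [A_cut, add_mul]
    refine (abs_add_le _ _).trans (add_le_add ?_ ?_)
    · rw [abs_mul, abs_mul, abs_of_nonneg (chi_nonneg _ _ _)]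
      calc chi (ce n) ρ f * |A (cst xc) f0 f h| * |Gk w k f h|
          ≤ 1 * (C1 / (ρ : ℝ) ^ 2) * (K0 / ((dd f w : ℝ) + 1)) := by
            have := chi_le_one (ce n) ρ f
            have h3 := Gk_le w k f h
            have := chi_nonneg (ce n) ρ f
            gcongr
        _ = _ := by field_simp
    · by_cases hf' : ρ ≤ dd f (ce n) + 1
      · rw [abs_mul, abs_mul, abs_mul, abs_mul, sg_abs]
        have h1 := chi_lip (ce n) (by omega : 0 < ρ) f h
        have h2 := far_le hρ hw hf' f (by omega) k h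
        have h3 : |cst xc f h| ≤ 1 := by
          rw [cst, abs_of_pos xc_pos]; exact xc_lt_one.le
        calc 1 * |cst xc f h| * (|chi (ce n) ρ (nb f h) - chi (ce n) ρ f| * |f0 (nb f h) (op h)|)
              * |Gk w k f h|
            ≤ 1 * 1 * (1 / ρ * |f0 (nb f h) (op h)|) * (2 * K0 / ρ) := by gcongr
          _ = _ := by field_simp
      · rw [chi_diff_zero hρ hf']
        simp only [zero_mul, mul_zero, abs_zero]
        positivity
  rw [hinv]
  calc |∑ f ∈ bx n, ∑ h, A (cst xc) φ f h * Gk w k f h|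
      ≤ ∑ f ∈ bx n, ∑ h, |A (cst xc) φ f h * Gk w k f h| := by
        refine (abs_sum_le_sum_abs _ _).trans (sum_le_sum fun f _ => abs_sum_le_sum_abs _ _)
    _ ≤ ∑ f ∈ bx n, ∑ h : Fin 4, (C1 * K0 / (ρ : ℝ) ^ 2 * (1 / ((dd f w : ℝ) + 1))
          + 2 * K0 / (ρ : ℝ) ^ 2 * |f0 (nb f h) (op h)|) :=
        sum_le_sum fun f hf => sum_le_sum fun h _ => hterm f hf h
    _ = 4 * (C1 * K0 / (ρ : ℝ) ^ 2) * (∑ f ∈ bx n, 1 / ((dd f w : ℝ) + 1))
          + 2 * K0 / (ρ : ℝ) ^ 2 * ∑ f ∈ bx n, ∑ h, |f0 (nb f h) (op h)| := by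
        simp only [sum_add_distrib, sum_const, card_univ, Fintype.card_fin, nsmul_eq_mul,
          ← mul_sum, Nat.cast_ofNat]
        ring
    _ ≤ 4 * (C1 * K0 / (ρ : ℝ) ^ 2) * (256 * ρ)
          + 2 * K0 / (ρ : ℝ) ^ 2 * (2 * n * Real.sqrt E) := by
        have h1 := sum_inv_le h8 h16 hρ hw
        rw [sum_nb (by omega) ha hb hT]
        have h2 := sum_abs_le hE
        gcongr
    _ ≤ 4 * (C1 * K0 / (ρ : ℝ) ^ 2) * (256 * ρ)
          + 2 * K0 / (ρ : ℝ) ^ 2 * (2 * (16 * ρ) * Real.sqrt E) := by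
        have h1 : (n : ℝ) ≤ 16 * ρ := by exact_mod_cast h16
        have := Real.sqrt_nonneg E
        gcongr
    _ = _ := by field_simp; ring

theorem n2_A_le {n : ℕ} {φ : Fld} {q : ℝ} (hq : 0 ≤ q) (h : ∀ f ∈ bx n, ∀ k, |φ f k| ≤ q) :
    n2 n φ ≤ 4 * (n : ℝ) ^ 2 * q ^ 2 := by
  unfold n2 Sm
  calc ∑ f ∈ bx n, ∑ k, φ f k ^ 2 ≤ ∑ f ∈ bx n, ∑ k : Fin 4, q ^ 2 :=
        sum_le_sum fun f hf => sum_le_sum fun k _ => by
          have := h f hf k
          rw [← sq_abs]; gcongr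
    _ = 4 * (n : ℝ) ^ 2 * q ^ 2 := by
        simp only [sum_const, card_univ, Fintype.card_fin, nsmul_eq_mul, card_bx, Nat.cast_ofNat]
        ring

/-- the difference field -/
def df (n ρ : ℕ) (a b : ℝ) (u : Face) (b' : Fin 4) (ψ : Fld) : Fld := fun f h =>
  ψ f h - pe n a b (cG n ρ u b') f h

theorem A_df_le {n ρ : ℕ} (h8 : 8 * ρ ≤ n) (h16 : n ≤ 16 * ρ) (hρ : 8 ≤ ρ) {a b : ℝ} {ψ : Fld}
    {u : Face} {b' : Fin 4} (hu : 4 * dd u (ce n) ≤ ρ) {Ce : ℝ}
    (hA : ∀ f ∈ bx n, ∀ h, |A (cst xc) ψ f h + (if h = b' ∧ f = u then 1 else 0)| ≤ Ce / (ρ : ℝ) ^ 2)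
    (f : Face) (hf : f ∈ bx n) (h : Fin 4) :
    |A (cst xc) (df n ρ a b u b' ψ) f h| ≤ (Ce + 2 * K0) / (ρ : ℝ) ^ 2 := by
  have e : A (cst xc) (df n ρ a b u b' ψ) f h
      = (A (cst xc) ψ f h + (if h = b' ∧ f = u then 1 else 0))
        - (A (cst xc) (cG n ρ u b') f h + (if h = b' ∧ f = u then 1 else 0)) := by
    have e1 : df n ρ a b u b' ψ = fun f h => ψ f h + (-1) * pe n a b (cG n ρ u b') f h := by
      funext f h; simp only [df]; ring
    rw [e1, A_add, A_smul,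
      A_pe (φ := cG n ρ u b') (by omega) a b (ins_chi h8 hρ (Gk u b')) hf h]
    ring
  rw [e]
  refine (abs_sub _ _).trans ?_
  have h1 := hA f hf h
  have h2 := A_cG_le hρ hu b' f h (n := n)
  rw [add_div]
  exact add_le_add h1 h2

theorem tw_df {n ρ : ℕ} (hn : 0 < n) {a b : ℝ} (ha : a ^ 2 = 1) (hb : b ^ 2 = 1) {ψ : Fld}
    (hψ : Tw n a b ψ) (u : Face) (b' : Fin 4) : Tw n a b (df n ρ a b u b' ψ) :=
  hψ.sub (tw_pe hn ha hb _)

theorem df_near {n ρ : ℕ} (h8 : 8 * ρ ≤ n) (hρ : 8 ≤ ρ) {a b : ℝ} {ψ : Fld} {u w : Face}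
    {b' : Fin 4} (hw : 4 * dd w (ce n) ≤ ρ) (h : Fin 4) :
    df n ρ a b u b' ψ w h = ψ w h - Gk u b' w h := by
  simp only [df]
  rw [pe_bx a b _ (mem_bx_of h8 hρ hw), cG, chi_one (by omega) (by omega : dd w (ce n) ≤ ρ), one_mul]

/-- **kernel convergence, sectors with an antiperiodic direction** -/
theorem ker_anti {Ce : ℝ} (hCe : 0 ≤ Ce) : ∃ C : ℝ, 0 ≤ C ∧ ∀ (n ρ : ℕ), 8 * ρ ≤ n → n ≤ 16 * ρ →
    8 ≤ ρ → ∀ (a b : ℝ), a ^ 2 = 1 → b ^ 2 = 1 → (a = -1 ∨ b = -1) → ∀ ψ : Fld, Tw n a b ψ →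
    ∀ (u : Face) (b' : Fin 4), 4 * dd u (ce n) ≤ ρ →
    (∀ f ∈ bx n, ∀ h, |A (cst xc) ψ f h + (if h = b' ∧ f = u then 1 else 0)| ≤ Ce / (ρ : ℝ) ^ 2) →
    ∀ (w : Face) (h : Fin 4), 4 * dd w (ce n) ≤ ρ → |ψ w h - Gk u b' w h| ≤ C / ρ := by
  have hK := K0_pos
  have hKE := KE_pos
  set C1 := Ce + 2 * K0 with hC1
  have hC10 : 0 ≤ C1 := by positivity
  refine ⟨1024 * C1 * K0 + 64 * K0 * Real.sqrt (262144 * KE * C1 ^ 2), by positivity, ?_⟩
  intro n ρ h8 h16 hρ a b ha hb hab ψ hψ u b' hu hA w h hw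
  have h0 : (0 : ℝ) < ρ := by exact_mod_cast (by omega : 0 < ρ)
  have hAd := A_df_le h8 h16 hρ hu hA (a := a) (b := b)
  have hT := tw_df (ρ := ρ) (by omega) ha hb hψ u b'
  have hgap := gap_anti n (by omega) ha hb hT hab
  have hn2 := n2_A_le (q := C1 / (ρ : ℝ) ^ 2) (by positivity) (fun f hf k => hAd f hf k)
  have h16' : (n : ℝ) ≤ 16 * ρ := by exact_mod_cast h16
  have hE : n2 n (df n ρ a b u b' ψ) ≤ 262144 * KE * C1 ^ 2 := by
    refine hgap.trans ?_
    calc (n : ℝ) ^ 2 * KE * n2 n (A (cst xc) (df n ρ a b u b' ψ))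
        ≤ (16 * ρ) ^ 2 * KE * (4 * (16 * ρ) ^ 2 * (C1 / (ρ : ℝ) ^ 2) ^ 2) := by
          have h1 : n2 n (A (cst xc) (df n ρ a b u b' ψ)) ≤ 4 * (16 * ρ) ^ 2 * (C1 / (ρ : ℝ) ^ 2) ^ 2 := by
            refine hn2.trans ?_
            gcongr
          have := n2_nonneg n (A (cst xc) (df n ρ a b u b' ψ))
          gcongr
      _ = _ := by field_simp; ring
  have hp := point_le h8 h16 hρ ha hb hT hC10 hAd hE hw h
  rwa [df_near h8 hρ hw] at hp

theorem light_le {n ρ : ℕ} (h8 : 8 * ρ ≤ n) (h16 : n ≤ 16 * ρ) (hρ : 8 ≤ ρ) {u : Face}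
    (hu : 4 * dd u (ce n) ≤ ρ) (b' : Fin 4) (c : Fin 4 → ℝ) (hc : ∀ k, |c k| ≤ 1) :
    |Sm n (fun f => ∑ k, c k * cG n ρ u b' f k)| ≤ 1024 * K0 * ρ := by
  have hK := K0_pos
  unfold Sm
  refine (abs_sum_le_sum_abs _ _).trans ?_
  calc ∑ f ∈ bx n, |∑ k, c k * cG n ρ u b' f k|
      ≤ ∑ f ∈ bx n, 4 * (K0 * (1 / ((dd f u : ℝ) + 1))) := by
        refine sum_le_sum fun f _ => ?_
        refine (abs_sum_le_sum_abs _ _).trans ?_
        calc ∑ k, |c k * cG n ρ u b' f k| ≤ ∑ k : Fin 4, K0 * (1 / ((dd f u : ℝ) + 1)) := by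
              refine sum_le_sum fun k _ => ?_
              rw [cG, abs_mul, abs_mul, abs_of_nonneg (chi_nonneg _ _ _)]
              have h1 := hc k
              have h2 := chi_le_one (ce n) ρ f
              have h2' := chi_nonneg (ce n) ρ f
              have h3 := Gk_le u b' f k
              calc |c k| * (chi (ce n) ρ f * |Gk u b' f k|) ≤ 1 * (1 * (K0 / ((dd f u : ℝ) + 1))) := by
                    gcongr
                _ = _ := by ring
          _ = _ := by simp only [sum_const, card_univ, Fintype.card_fin, nsmul_eq_mul, Nat.cast_ofNat]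
    _ = 4 * K0 * ∑ f ∈ bx n, 1 / ((dd f u : ℝ) + 1) := by
        rw [mul_sum]; refine sum_congr rfl fun f _ => ?_; ring
    _ ≤ 4 * K0 * (256 * ρ) := by
        have := sum_inv_le h8 h16 hρ hu
        gcongr
    _ = _ := by ring

theorem sqrt2_half_le : Real.sqrt 2 / 2 ≤ 1 := by linarith [sq2_lt]

/-- **kernel convergence, doubly periodic sector** -/
theorem ker_PP {Ce : ℝ} (hCe : 0 ≤ Ce) : ∃ C : ℝ, 0 ≤ C ∧ ∀ (n ρ : ℕ), 8 * ρ ≤ n → n ≤ 16 * ρ →
    8 ≤ ρ → ∀ ψ : Fld, Tw n 1 1 ψ → l1 n ψ = 0 → l2 n ψ = 0 →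
    ∀ (u : Face) (b' : Fin 4), 4 * dd u (ce n) ≤ ρ →
    (∀ f ∈ bx n, ∀ h, |A (cst xc) ψ f h + (if h = b' ∧ f = u then 1 else 0)| ≤ Ce / (ρ : ℝ) ^ 2) →
    ∀ (w : Face) (h : Fin 4), 4 * dd w (ce n) ≤ ρ → |ψ w h - Gk u b' w h| ≤ C / ρ := by
  have hK := K0_pos
  have hKE := KE_pos
  set C1 := Ce + 2 * K0 with hC1
  have hC10 : 0 ≤ C1 := by positivity
  set E : ℝ := 524288 * (KE + 1) * C1 ^ 2 + 65536 * K0 ^ 2 with hEdef
  have hE0 : 0 ≤ E := by positivity
  refine ⟨1024 * C1 * K0 + 64 * K0 * Real.sqrt E, by positivity, ?_⟩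
  intro n ρ h8 h16 hρ ψ hψ hl1 hl2 u b' hu hA w h hw
  have h0 : (0 : ℝ) < ρ := by exact_mod_cast (by omega : 0 < ρ)
  have hAd := A_df_le h8 h16 hρ hu hA (a := 1) (b := 1)
  have hT := tw_df (ρ := ρ) (by omega) (by norm_num) (by norm_num) hψ u b'
  have hgap := gap_PP n (by omega) hT
  have hn2 := n2_A_le (q := C1 / (ρ : ℝ) ^ 2) (by positivity) (fun f hf k => hAd f hf k)
  have h16' : (n : ℝ) ≤ 16 * ρ := by exact_mod_cast h16
  have h8' : 8 * (ρ : ℝ) ≤ n := by exact_mod_cast h8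
  have hs0 : 0 ≤ Real.sqrt 2 / 2 := by positivity
  have L1 : |l1 n (df n ρ 1 1 u b' ψ)| ≤ 1024 * K0 * ρ := by
    have e : l1 n (df n ρ 1 1 u b' ψ) = l1 n ψ
        - Sm n (fun f => ∑ k, (![-(Real.sqrt 2 / 2), 1, -(Real.sqrt 2 / 2), 0] : Fin 4 → ℝ) k
            * cG n ρ u b' f k) := by
      unfold l1
      rw [← Sm_sub]
      unfold Sm
      refine sum_congr rfl fun f hf => ?_
      simp only [df, pe_bx 1 1 _ hf, Fin.sum_univ_four]
      simp
      ring
    rw [e, hl1, zero_sub, abs_neg]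
    refine light_le h8 h16 hρ hu b' _ fun k => ?_
    fin_cases k
    · show |-(Real.sqrt 2 / 2)| ≤ 1
      rw [abs_neg, abs_of_nonneg hs0]; exact sqrt2_half_le
    · show |(1 : ℝ)| ≤ 1
      simp
    · show |-(Real.sqrt 2 / 2)| ≤ 1
      rw [abs_neg, abs_of_nonneg hs0]; exact sqrt2_half_le
    · show |(0 : ℝ)| ≤ 1
      simp
  have L2 : |l2 n (df n ρ 1 1 u b' ψ)| ≤ 1024 * K0 * ρ := by
    have e : l2 n (df n ρ 1 1 u b' ψ) = l2 n ψ
        - Sm n (fun f => ∑ k, (![-(Real.sqrt 2 / 2), 0, Real.sqrt 2 / 2, -1] : Fin 4 → ℝ) k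
            * cG n ρ u b' f k) := by
      unfold l2
      rw [← Sm_sub]
      unfold Sm
      refine sum_congr rfl fun f hf => ?_
      simp only [df, pe_bx 1 1 _ hf, Fin.sum_univ_four]
      simp
      ring
    rw [e, hl2, zero_sub, abs_neg]
    refine light_le h8 h16 hρ hu b' _ fun k => ?_
    fin_cases k
    · show |-(Real.sqrt 2 / 2)| ≤ 1
      rw [abs_neg, abs_of_nonneg hs0]; exact sqrt2_half_le
    · show |(0 : ℝ)| ≤ 1
      simp
    · show |Real.sqrt 2 / 2| ≤ 1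
      rw [abs_of_nonneg hs0]; exact sqrt2_half_le
    · show |(-1 : ℝ)| ≤ 1
      simp
  have hE : n2 n (df n ρ 1 1 u b' ψ) ≤ E := by
    refine hgap.trans ?_
    have h1 : n2 n (A (cst xc) (df n ρ 1 1 u b' ψ)) ≤ 1024 * C1 ^ 2 / (ρ : ℝ) ^ 2 := by
      refine hn2.trans ?_
      calc 4 * (n : ℝ) ^ 2 * (C1 / (ρ : ℝ) ^ 2) ^ 2 ≤ 4 * (16 * ρ) ^ 2 * (C1 / (ρ : ℝ) ^ 2) ^ 2 := by
            gcongr
        _ = _ := by field_simp; ring
    have h2 := n2_nonneg n (A (cst xc) (df n ρ 1 1 u b' ψ))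
    have h3 : 2 * ((n : ℝ) ^ 2 * KE + 1) * n2 n (A (cst xc) (df n ρ 1 1 u b' ψ))
        ≤ 524288 * (KE + 1) * C1 ^ 2 := by
      have hρ1 : (1 : ℝ) ≤ ρ ^ 2 := by
        have : (8 : ℝ) ≤ ρ := by exact_mod_cast hρ
        nlinarith
      calc 2 * ((n : ℝ) ^ 2 * KE + 1) * n2 n (A (cst xc) (df n ρ 1 1 u b' ψ))
          ≤ 2 * ((16 * ρ) ^ 2 * KE + 256 * ρ ^ 2) * (1024 * C1 ^ 2 / (ρ : ℝ) ^ 2) := by
            gcongr
            nlinarith
        _ = _ := by field_simp; ring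
    have h4 : (l1 n (df n ρ 1 1 u b' ψ) ^ 2 + l2 n (df n ρ 1 1 u b' ψ) ^ 2) / (n : ℝ) ^ 2
        ≤ 65536 * K0 ^ 2 := by
      have hn : (0 : ℝ) < n := by linarith
      rw [div_le_iff₀ (by positivity)]
      have q1 : l1 n (df n ρ 1 1 u b' ψ) ^ 2 ≤ (1024 * K0 * ρ) ^ 2 := by
        rw [← sq_abs]; gcongr
      have q2 : l2 n (df n ρ 1 1 u b' ψ) ^ 2 ≤ (1024 * K0 * ρ) ^ 2 := by
        rw [← sq_abs]; gcongr
      have q3 : (8 * (ρ : ℝ)) ^ 2 ≤ (n : ℝ) ^ 2 := by gcongr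
      have q4 : 65536 * K0 ^ 2 * (8 * (ρ : ℝ)) ^ 2 ≤ 65536 * K0 ^ 2 * (n : ℝ) ^ 2 := by gcongr
      nlinarith
    linarith
  have hp := point_le h8 h16 hρ (by norm_num) (by norm_num) hT hC10 hAd hE hw h
  rwa [df_near h8 hρ hw] at hp

end Crest.Agent.R165.TorusKerx922
end
end

-- ▼ part R165/TorusLift_922
section

/-!
# Row 165 (S0250), PL1: the critical torus kernels converge to the plane kernel

Lifts of torus fields to twisted periodic fields of the plane (`A_lift`), and the entries of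
`-(hA)⁻¹` (three sectors) and `-BP` (doubly periodic sector) near the centre of the period box:
`|entry ((w, h), (u, b)) - SP h b (w - u)| ≤ C / ρ`.
-/

set_option autoImplicit false
set_option linter.all false

noncomputable section

open Finset

namespace Crest.Agent.R165.TorusLiftx922

open Crest.Agent.R165.Tr1x40 Crest.Agent.R165.Tr2x40 Crest.Agent.R165.TorusGradx922
open Crest.Agent.R165.TorusKerx922
open Crest.Agent.R165.Schurx811 (dd)
open Crest.Agent.R165.TorDetx599 (hA wS sgn4)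
open Crest.Agent.R165.TorusJ1x922 (sec)
open Matrix

variable (M : ℕ) [NeZero M]

/-- the half-edge type of the torus -/
abbrev HT : Type := (ZMod M × ZMod M) × Fin 4

/-- lift of a torus field -/
def lift (a b : ℝ) (φ : HT M → ℝ) : Fld := fun f h =>
  tw a (f.1 / M) * tw b (f.2 / M) * φ (((f.1 : ZMod M), (f.2 : ZMod M)), h)

theorem succ_ediv (i : ℤ) : (i + 1) / (M : ℤ) = i / M + (if ((i + 1 : ℤ) : ZMod M) = 0 then 1 else 0) := by
  have hM : (0 : ℤ) < M := by exact_mod_cast NeZero.pos M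
  have m1 := Int.emod_nonneg i hM.ne'
  have m2 := Int.emod_lt_of_pos i hM
  have d := Int.emod_add_mul_ediv i M
  split_ifs with h
  · rw [ZMod.intCast_zmod_eq_zero_iff_dvd] at h
    have h' : (M : ℤ) ∣ i % M + 1 := by
      have : i % M + 1 = (i + 1) - M * (i / M) := by linarith
      rw [this]; exact Int.dvd_sub h (Dvd.intro _ rfl)
    have h2 : i % M + 1 = M := by
      have := Int.le_of_dvd (by omega) h'
      omega
    have := (Int.ediv_emod_unique (a := i + 1) (b := M) (q := i / M + 1) (r := 0) hM).2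
      ⟨by linarith, le_refl _, hM⟩
    exact this.1
  · have h2 : i % M + 1 ≠ M := by
      intro h3
      apply h
      rw [ZMod.intCast_zmod_eq_zero_iff_dvd]
      exact ⟨i / M + 1, by linarith⟩
    have := (Int.ediv_emod_unique (a := i + 1) (b := M) (q := i / M) (r := i % M + 1) hM).2
      ⟨by linarith, by omega, by omega⟩
    rw [this.1, add_zero]

/-- seam sign -/
def sn (ε : ℝ) (z : ZMod M) : ℝ := if z = 0 then ε else 1

theorem tw_succ {ε : ℝ} (h : ε ^ 2 = 1) (i : ℤ) :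
    tw ε ((i + 1) / M) = tw ε (i / M) * sn M ε ((i + 1 : ℤ) : ZMod M) := by
  rw [succ_ediv, sn]
  split_ifs with hz
  · rw [tw_add_one h]; ring
  · rw [add_zero, mul_one]

theorem sn_sq {ε : ℝ} (h : ε ^ 2 = 1) (z : ZMod M) : sn M ε z * sn M ε z = 1 := by
  unfold sn; split_ifs
  · rw [← pow_two, h]
  · norm_num

theorem tw_pred {ε : ℝ} (h : ε ^ 2 = 1) (i : ℤ) :
    tw ε ((i - 1) / M) = tw ε (i / M) * sn M ε ((i : ℤ) : ZMod M) := by
  have h1 := tw_succ M h (i - 1)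
  rw [sub_add_cancel] at h1
  rw [h1, mul_assoc, sn_sq M h, mul_one]

theorem tw_lift {a b : ℝ} (ha : a ^ 2 = 1) (hb : b ^ 2 = 1) (φ : HT M → ℝ) :
    Tw M a b (lift M a b φ) where
  h1 f h := by
    have hn' : (M : ℤ) ≠ 0 := by exact_mod_cast NeZero.ne M
    simp only [lift]
    rw [show (f.1 + (M : ℤ)) / M = f.1 / M + 1 from by
      rw [Int.add_ediv_of_dvd_right (dvd_refl _), Int.ediv_self hn'], tw_add_one ha]
    simp only [Int.cast_add, Int.cast_natCast, ZMod.natCast_self, add_zero]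
    ring
  h2 f h := by
    have hn' : (M : ℤ) ≠ 0 := by exact_mod_cast NeZero.ne M
    simp only [lift]
    rw [show (f.2 + (M : ℤ)) / M = f.2 / M + 1 from by
      rw [Int.add_ediv_of_dvd_right (dvd_refl _), Int.ediv_self hn'], tw_add_one hb]
    simp only [Int.cast_add, Int.cast_natCast, ZMod.natCast_self, add_zero]
    ring

theorem wS1 (a b : ℝ) (z : ZMod M × ZMod M) : wS M xc a b z 1 = xc * sn M a z.1 := by
  simp [wS, sn]

theorem wS0 (a b : ℝ) (z : ZMod M × ZMod M) : wS M xc a b z 0 = xc * sn M b z.2 := by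
  simp [wS, sn]

/-- the lift intertwines the operators -/
theorem A_lift {a b : ℝ} (ha : a ^ 2 = 1) (hb : b ^ 2 = 1) (φ : HT M → ℝ) (f : Face) (h : Fin 4) :
    A (cst xc) (lift M a b φ) f h
      = tw a (f.1 / M) * tw b (f.2 / M) * (hA (wS M xc a b) *ᵥ φ) (((f.1 : ZMod M), (f.2 : ZMod M)), h) := by
  obtain ⟨i, j⟩ := f
  rw [TorSecx599.hA_mulVec_face]
  have s1 := tw_succ M ha i
  have s2 := tw_succ M hb j
  have p1 := tw_pred M ha i
  have p2 := tw_pred M hb j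
  simp only [Int.cast_add, Int.cast_one] at s1 s2
  fin_cases h
  · show A (cst xc) (lift M a b φ) (i, j) 0 = _
    rw [A_S]
    simp [lift, cst, sgn4, Fin.sum_univ_four, wS0, wS1, p2]
    ring
  · show A (cst xc) (lift M a b φ) (i, j) 1 = _
    rw [A_E]
    simp [lift, cst, sgn4, Fin.sum_univ_four, wS0, wS1, s1]
    ring
  · show A (cst xc) (lift M a b φ) (i, j) 2 = _
    rw [A_N]
    simp [lift, cst, sgn4, Fin.sum_univ_four, wS0, wS1, s2]
    ring
  · show A (cst xc) (lift M a b φ) (i, j) 3 = _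
    rw [A_W]
    simp [lift, cst, sgn4, Fin.sum_univ_four, wS0, wS1, p1]
    ring

theorem lift_bx (a b : ℝ) (φ : HT M → ℝ) {f : Face} (hf : f ∈ bx M) (h : Fin 4) :
    lift M a b φ f h = φ (((f.1 : ZMod M), (f.2 : ZMod M)), h) := by
  rw [bx, mem_product, mem_Ico, mem_Ico] at hf
  simp only [lift]
  rw [Int.ediv_eq_zero_of_lt hf.1.1 hf.1.2, Int.ediv_eq_zero_of_lt hf.2.1 hf.2.2, tw_zero, tw_zero]
  simp

theorem A_lift_bx {a b : ℝ} (ha : a ^ 2 = 1) (hb : b ^ 2 = 1) (φ : HT M → ℝ) {f : Face}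
    (hf : f ∈ bx M) (h : Fin 4) : A (cst xc) (lift M a b φ) f h
      = (hA (wS M xc a b) *ᵥ φ) (((f.1 : ZMod M), (f.2 : ZMod M)), h) := by
  rw [A_lift M ha hb]
  rw [bx, mem_product, mem_Ico, mem_Ico] at hf
  rw [Int.ediv_eq_zero_of_lt hf.1.1 hf.1.2, Int.ediv_eq_zero_of_lt hf.2.1 hf.2.2, tw_zero, tw_zero]
  simp

/-- the torus half-edge of a plane half-edge -/
def tf (g : Face × Fin 4) : HT M := (((g.1.1 : ZMod M), (g.1.2 : ZMod M)), g.2)

theorem cast_inj {i j : ℤ} (hi : 0 ≤ i ∧ i < M) (hj : 0 ≤ j ∧ j < M)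
    (h : (i : ZMod M) = (j : ZMod M)) : i = j := by
  rw [ZMod.intCast_eq_intCast_iff] at h
  have := h
  rw [Int.ModEq, Int.emod_eq_of_lt hi.1 hi.2, Int.emod_eq_of_lt hj.1 hj.2] at this
  exact this

theorem tf_inj {f u : Face} (hf : f ∈ bx M) (hu : u ∈ bx M) {h b : Fin 4}
    (e : tf M (f, h) = tf M (u, b)) : h = b ∧ f = u := by
  rw [bx, mem_product, mem_Ico, mem_Ico] at hf hu
  simp only [tf, Prod.mk.injEq] at e
  exact ⟨e.2, Prod.ext (cast_inj M hf.1 hu.1 e.1.1) (cast_inj M hf.2 hu.2 e.1.2)⟩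

theorem one_tf {f u : Face} (hf : f ∈ bx M) (hu : u ∈ bx M) (h b : Fin 4) :
    (1 : Matrix (HT M) (HT M) ℝ) (tf M (f, h)) (tf M (u, b)) = if h = b ∧ f = u then 1 else 0 := by
  by_cases hh : h = b ∧ f = u
  · obtain ⟨rfl, rfl⟩ := hh
    simp
  · rw [if_neg hh, Matrix.one_apply_ne]
    intro e
    exact hh (tf_inj M hf hu e)

/-- **the three nonsingular sectors**: kernel convergence -/
theorem tor_ker_anti : ∃ C : ℝ, 0 ≤ C ∧ ∀ (M : ℕ) [NeZero M] (ρ : ℕ), 8 * ρ ≤ M → M ≤ 16 * ρ → 8 ≤ ρ →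
    ∀ s : Fin 2 × Fin 2, s ≠ (0, 0) → ∀ (w u : Face) (h b : Fin 4), 4 * dd w (ce M) ≤ ρ →
    4 * dd u (ce M) ≤ ρ →
    |(-(hA fun (z : ZMod M × ZMod M) (j : Fin 2) => sec s (z, j) * TorSecx599.xc)⁻¹)
      (tf M (w, h)) (tf M (u, b)) - Gk u b w h| ≤ C / ρ := by
  obtain ⟨C, hC, hmain⟩ := ker_anti (le_refl (0 : ℝ))
  refine ⟨C, hC, ?_⟩
  intro M _ ρ h8 h16 hρ s hs w u h b hw hu
  have hdet := TorBrx599.det_sec_ne M s hs
  set W := hA fun (z : ZMod M × ZMod M) (j : Fin 2) => sec s (z, j) * TorSecx599.xc with hW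
  set a1 : ℝ := if s.2 = 0 then 1 else -1 with ha1
  set b1 : ℝ := if s.1 = 0 then 1 else -1 with hb1
  have hWe : W = hA (wS M xc a1 b1) := by
    rw [hW, TorBrx599.sec_eq]; rfl
  have ha : a1 ^ 2 = 1 := by rw [ha1]; split_ifs <;> norm_num
  have hb : b1 ^ 2 = 1 := by rw [hb1]; split_ifs <;> norm_num
  have hab : a1 = -1 ∨ b1 = -1 := by
    by_cases h2 : s.2 = 0
    · right
      have h1 : s.1 ≠ 0 := fun h => hs (Prod.ext h h2)
      rw [hb1, if_neg h1]
    · left; rw [ha1, if_neg h2]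
  have hub := mem_bx_of h8 hρ hu
  have hwb := mem_bx_of h8 hρ hw
  set φ : HT M → ℝ := fun k => (-W⁻¹) k (tf M (u, b)) with hφ
  have hT := tw_lift M ha hb φ
  have hres := hmain M ρ h8 h16 hρ a1 b1 ha hb hab (lift M a1 b1 φ) hT u b hu (fun f hf k => by
    rw [A_lift_bx M ha hb φ hf k, ← hWe]
    have e : (W *ᵥ φ) (((f.1 : ZMod M), (f.2 : ZMod M)), k) = (W * (-W⁻¹)) (tf M (f, k)) (tf M (u, b)) := rfl
    rw [e, Matrix.mul_neg, Matrix.mul_nonsing_inv _ (isUnit_iff_ne_zero.2 hdet), Matrix.neg_apply,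
      one_tf M hf hub]
    simp) w h hw
  rw [lift_bx M a1 b1 φ hwb] at hres
  exact hres

/-! ### the doubly periodic sector -/

theorem sum_bx (F : ZMod M × ZMod M → ℝ) :
    ∑ f ∈ bx M, F ((f.1 : ZMod M), (f.2 : ZMod M)) = ∑ z, F z := by
  refine Finset.sum_nbij' (fun f => ((f.1 : ZMod M), (f.2 : ZMod M)))
    (fun z => ((z.1.val : ℤ), (z.2.val : ℤ))) ?_ ?_ ?_ ?_ ?_
  · intro f _; exact mem_univ _
  · intro z _
    rw [bx, mem_product, mem_Ico, mem_Ico]
    have h1 := ZMod.val_lt z.1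
    have h2 := ZMod.val_lt z.2
    simp only
    omega
  · intro f hf
    rw [bx, mem_product, mem_Ico, mem_Ico] at hf
    have key : ∀ x : ℤ, 0 ≤ x → x < M → (((x : ZMod M)).val : ℤ) = x := by
      intro x h0 h1
      rw [ZMod.val_intCast, Int.emod_eq_of_lt h0 h1]
    exact Prod.ext (key _ hf.1.1 hf.1.2) (key _ hf.2.1 hf.2.2)
  · intro z _
    simp
  · intro f _; rfl

theorem l_lift (c : Fin 4 → ℝ) (φ : HT M → ℝ) :
    Sm M (fun f => ∑ k, c k * lift M 1 1 φ f k) = ∑ k : HT M, c k.2 * φ k := by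
  unfold Sm
  rw [Fintype.sum_prod_type]
  rw [← sum_bx M (fun z => ∑ k, c k * φ (z, k))]
  refine sum_congr rfl fun f hf => sum_congr rfl fun k _ => ?_
  rw [lift_bx M 1 1 φ hf]

/-- **the doubly periodic sector**: kernel convergence -/
theorem tor_ker_PP : ∃ C : ℝ, 0 ≤ C ∧ ∀ (M : ℕ) [NeZero M] (ρ : ℕ), 8 * ρ ≤ M → M ≤ 16 * ρ → 8 ≤ ρ →
    ∀ (w u : Face) (h b : Fin 4), 4 * dd w (ce M) ≤ ρ → 4 * dd u (ce M) ≤ ρ →
    |(-(TorSecx599.BP M)) (tf M (w, h)) (tf M (u, b)) - Gk u b w h| ≤ C / ρ := by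
  obtain ⟨C, hC, hmain⟩ := ker_PP (show (0 : ℝ) ≤ 2 by norm_num)
  refine ⟨C, hC, ?_⟩
  intro M _ ρ h8 h16 hρ w u h b hw hu
  have hK := TorSecx599.ker2_PP M
  have hWe : hA (wS M TorSecx599.xc 1 1) = hA (wS M xc 1 1) := rfl
  rw [hWe] at hK
  have hub := mem_bx_of h8 hρ hu
  have hwb := mem_bx_of h8 hρ hw
  set φ : HT M → ℝ := fun k => (-(TorSecx599.BP M)) k (tf M (u, b)) with hφ
  have hT := tw_lift M (a := 1) (b := 1) (by norm_num) (by norm_num) φ
  have hM : (0 : ℝ) < M := by exact_mod_cast NeZero.pos M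
  have horth : ∀ v : HT M → ℝ, TorSecx599.BP M *ᵥ v = 0 → ∑ k : HT M, v k * φ k = 0 := by
    intro v hv
    have h1 := congrFun hv (tf M (u, b))
    have h2 : ∑ k : HT M, TorSecx599.BP M (tf M (u, b)) k * v k = 0 := h1
    rw [← h2]
    refine sum_congr rfl fun k _ => ?_
    have h3 : TorSecx599.BP M (tf M (u, b)) k = -TorSecx599.BP M k (tf M (u, b)) := by
      have := congrFun (congrFun hK.banti k) (tf M (u, b))
      simpa using this
    simp only [hφ, Matrix.neg_apply, h3]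
    ring
  have hs2 : (0 : ℝ) < Real.sqrt 2 := sq2_pos
  have L1 : l1 M (lift M 1 1 φ) = 0 := by
    have e : l1 M (lift M 1 1 φ)
        = Sm M (fun f => ∑ k, TorSecx599.m1 k * lift M 1 1 φ f k) := by
      unfold l1
      congr 1; funext f
      simp only [Fin.sum_univ_four, TorSecx599.m1]
      simp
      ring
    rw [e, l_lift]
    have h1 := horth _ hK.b1
    have h2 : ∑ k : HT M, TorSecx599.m1 k.2 * φ k = (Real.sqrt 2 * M) * ∑ k : HT M, TorSecx599.u1 M k * φ k := by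
      rw [mul_sum]
      refine sum_congr rfl fun k _ => ?_
      unfold TorSecx599.u1
      field_simp
    rw [h2, h1, mul_zero]
  have L2 : l2 M (lift M 1 1 φ) = 0 := by
    have e : l2 M (lift M 1 1 φ)
        = Sm M (fun f => ∑ k, TorSecx599.m2 k * lift M 1 1 φ f k) := by
      unfold l2
      congr 1; funext f
      simp only [Fin.sum_univ_four, TorSecx599.m2]
      simp
      ring
    rw [e, l_lift]
    have h1 := horth _ hK.b2
    have h2 : ∑ k : HT M, TorSecx599.m2 k.2 * φ k = (Real.sqrt 2 * M) * ∑ k : HT M, TorSecx599.u2 M k * φ k := by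
      rw [mul_sum]
      refine sum_congr rfl fun k _ => ?_
      unfold TorSecx599.u2
      field_simp
    rw [h2, h1, mul_zero]
  have hres := hmain M ρ h8 h16 hρ (lift M 1 1 φ) hT L1 L2 u b hu (fun f hf k => by
    rw [A_lift_bx M (by norm_num) (by norm_num) φ hf k]
    have e : (hA (wS M xc 1 1) *ᵥ φ) (((f.1 : ZMod M), (f.2 : ZMod M)), k)
        = (hA (wS M xc 1 1) * (-(TorSecx599.BP M))) (tf M (f, k)) (tf M (u, b)) := rfl
    rw [e, Matrix.mul_neg, hK.ab, Matrix.neg_apply, Matrix.sub_apply, Matrix.sub_apply,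
      one_tf M hf hub, Matrix.vecMulVec_apply, Matrix.vecMulVec_apply]
    have b1 := TorBrx599.abs_u1_le M (tf M (f, k))
    have b2 := TorBrx599.abs_u1_le M (tf M (u, b))
    have b3 := TorBrx599.abs_u2_le M (tf M (f, k))
    have b4 := TorBrx599.abs_u2_le M (tf M (u, b))
    have hρ0 : (0 : ℝ) < ρ := by exact_mod_cast (by omega : 0 < ρ)
    have hρM : (ρ : ℝ) ≤ M := by exact_mod_cast (by omega : ρ ≤ M)
    have e2 : -((if k = b ∧ f = u then (1 : ℝ) else 0)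
        - TorSecx599.u1 M (tf M (f, k)) * TorSecx599.u1 M (tf M (u, b))
        - TorSecx599.u2 M (tf M (f, k)) * TorSecx599.u2 M (tf M (u, b)))
        + (if k = b ∧ f = u then (1 : ℝ) else 0)
        = TorSecx599.u1 M (tf M (f, k)) * TorSecx599.u1 M (tf M (u, b))
          + TorSecx599.u2 M (tf M (f, k)) * TorSecx599.u2 M (tf M (u, b)) := by ring
    rw [e2]
    refine (abs_add_le _ _).trans ?_
    rw [abs_mul, abs_mul]
    have hd : (1 : ℝ) / M ≤ 1 / ρ := one_div_le_one_div_of_le hρ0 hρM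
    calc |TorSecx599.u1 M (tf M (f, k))| * |TorSecx599.u1 M (tf M (u, b))|
        + |TorSecx599.u2 M (tf M (f, k))| * |TorSecx599.u2 M (tf M (u, b))|
        ≤ 1 / M * (1 / M) + 1 / M * (1 / M) := by gcongr
      _ ≤ 1 / ρ * (1 / ρ) + 1 / ρ * (1 / ρ) := by gcongr
      _ = _ := by field_simp; ring) w h hw
  rw [lift_bx M 1 1 φ hwb] at hres
  exact hres

end Crest.Agent.R165.TorusLiftx922
end
end

-- ▼ part R165/TorusUT_922

/-!
# Row 165 (S0250), PL1: the torus clause at `lam = 0`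

* `tendsto_EE` : continuity of `EE` in the covariance
* `torBonds_tendsto` : `⟨∏_{e ∈ S} ε_e⟩` on the critical torus converges to
  `EE (covOf Spl) (∏_{e ∈ S} (1 - 2 xc b_e))`
* `e0_eq` : the value for one bond is `√2/2`
* `UTb_proof : UTb`
-/

set_option autoImplicit false
set_option linter.all false

noncomputable section

open Finset Filter Topology
open Crest.ProbabilityR.IsingModel

namespace Crest.Agent.R165.TorusUTx922

open Crest.Agent.R165.Gr0x606 Crest.Agent.R165.Gr1x606 Crest.Agent.R165.J1ax606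
open Crest.Agent.R165.Enx599 (fpr fpr_nil fpr_cons pfl EE_fpr_map tendsto_pfl)

/-! ### continuity of `EE` -/

section gen
variable {V : Type*} [AddCommGroup V] [Module ℝ V]

/-- every element is in the span of products of fields -/
theorem span_fpr (X : Gr V) : X ∈ Submodule.span ℝ (Set.range (fun L : List V => fpr L)) := by
  induction X using Gr.induction with
  | h0 r =>
    rw [Algebra.algebraMap_eq_smul_one]
    refine Submodule.smul_mem _ r (Submodule.subset_span ⟨[], rfl⟩)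
  | h1 x a ih =>
    have h : ∀ b ∈ Submodule.span ℝ (Set.range (fun L : List V => fpr L)),
        fi x * b ∈ Submodule.span ℝ (Set.range (fun L : List V => fpr L)) := by
      intro b hb
      induction hb using Submodule.span_induction with
      | mem y hy =>
        obtain ⟨L, rfl⟩ := hy
        exact Submodule.subset_span ⟨x :: L, fpr_cons x L⟩
      | zero => rw [mul_zero]; exact Submodule.zero_mem _
      | add y z _ _ hy hz => rw [mul_add]; exact Submodule.add_mem _ hy hz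
      | smul c y _ hy => rw [mul_smul_comm]; exact Submodule.smul_mem _ c hy
    exact h a ih
  | h2 a b ha hb => exact Submodule.add_mem _ ha hb

/-- continuity of `EE` in the covariance -/
theorem tendsto_EE {α : Type*} {F : Filter α} (S : α → Cov V) (T : Cov V)
    (h : ∀ x y, Tendsto (fun a => (S a).b x y) F (𝓝 (T.b x y))) (X : Gr V) :
    Tendsto (fun a => EE (S a) X) F (𝓝 (EE T X)) := by
  have hX := span_fpr X
  induction hX using Submodule.span_induction with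
  | mem y hy =>
    obtain ⟨L, rfl⟩ := hy
    have e : ∀ C : Cov V, EE C (fpr L) = pfl (fun i j => C.b i j) L.length L := by
      intro C
      have := EE_fpr_map C (id : V → V) L.length L (le_refl _)
      simpa using this
    simp only [e]
    exact tendsto_pfl (fun a i j => (S a).b i j) (fun i j => T.b i j) L.length L
      (fun i _ j _ => h i j)
  | zero => simp only [map_zero]; exact tendsto_const_nhds
  | add y z _ _ hy hz => simp only [map_add]; exact hy.add hz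
  | smul c y _ hy => simp only [map_smul, smul_eq_mul]; exact hy.const_mul c

/-- pull-back of a covariance -/
def pull {W : Type*} [AddCommGroup W] [Module ℝ W] (f : V →ₗ[ℝ] W) (C : Cov W) : Cov V where
  b := C.b.compl₁₂ f f
  alt x := C.alt (f x)

theorem pull_b {W : Type*} [AddCommGroup W] [Module ℝ W] (f : V →ₗ[ℝ] W) (C : Cov W) (x y : V) :
    (pull f C).b x y = C.b (f x) (f y) := rfl

theorem EE_pull {W : Type*} [AddCommGroup W] [Module ℝ W] (f : V →ₗ[ℝ] W) (C : Cov W) (X : Gr V) :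
    EE C (mp f X) = EE (pull f C) X := EE_mp f (pull f C) C (fun _ _ => rfl) X

end gen

/-- convergence of bilinear forms from the entries -/
theorem form_tendsto {ι α : Type*} {F : Filter α} (B : α → LinearMap.BilinForm ℝ (VI ι))
    (B' : LinearMap.BilinForm ℝ (VI ι))
    (h : ∀ i j, Tendsto (fun a => B a (Finsupp.single i 1) (Finsupp.single j 1)) F
      (𝓝 (B' (Finsupp.single i 1) (Finsupp.single j 1)))) (x y : VI ι) :
    Tendsto (fun a => B a x y) F (𝓝 (B' x y)) := by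
  induction x using Finsupp.induction_linear with
  | zero => simp only [map_zero, LinearMap.zero_apply]; exact tendsto_const_nhds
  | add x x' hx hx' => simp only [map_add, LinearMap.add_apply]; exact hx.add hx'
  | single i c =>
    induction y using Finsupp.induction_linear with
    | zero => simp only [map_zero]; exact tendsto_const_nhds
    | add y y' hy hy' => simp only [map_add]; exact hy.add hy'
    | single j d =>
      have e1 : (Finsupp.single i c : VI ι) = c • Finsupp.single i 1 := by simp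
      have e2 : (Finsupp.single j d : VI ι) = d • Finsupp.single j 1 := by simp
      rw [e1, e2]
      simp only [map_smul, LinearMap.smul_apply, smul_eq_mul]
      exact (((h i j).const_mul c)).const_mul d

/-! ### embedding the plane observables near the centre of the torus -/

open Crest.Agent.R165.TorusKerx922 Crest.Agent.R165.TorusLiftx922
open Crest.Agent.R165.TorusCombx922 (Ed Vx tgt)
open Crest.Agent.R165.TorusJ1x922 (sec ZE epsT)
open Crest.Agent.R165.TorusJ2x922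
open Crest.Agent.R165.Schurx811 (dd_self dd_triangle)
open Crest.Agent.R165.Latx683 (xc)

/-- sup distance on the faces -/
abbrev ds (z w : ℤ × ℤ) : ℕ := Crest.Agent.R165.Schurx811.dd z w

/-- half-edges: translation to the centre and projection to the torus -/
def emH (M : ℕ) (h : HE ℤ) : HE (ZMod M) := tf M (h.1 + ce M, h.2)

/-- edges -/
def emE (M : ℕ) (e : EG ℤ) : Ed M := (toTorus M (e.1 + ce M), e.2)

theorem emH_pe (M : ℕ) (e : EG ℤ) : emH M (pe e) = pe (emE M e) := by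
  obtain ⟨⟨i, j⟩, k⟩ := e
  have hk : k = 0 ∨ k = 1 := by omega
  rcases hk with rfl | rfl
  · simp [emH, emE, tf, toTorus, ce]
  · simp [emH, emE, tf, toTorus, ce]
    ring

theorem emH_qe (M : ℕ) (e : EG ℤ) : emH M (qe e) = qe (emE M e) := by
  obtain ⟨⟨i, j⟩, k⟩ := e
  have hk : k = 0 ∨ k = 1 := by omega
  rcases hk with rfl | rfl
  · simp [emH, emE, tf, toTorus, ce]
    ring
  · simp [emH, emE, tf, toTorus, ce]

/-- the map of the fields -/
def fM (M : ℕ) : VI (HE ℤ) →ₗ[ℝ] VI (HE (ZMod M)) := Finsupp.lmapDomain ℝ ℝ (emH M)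

theorem fM_single (M : ℕ) (h : HE ℤ) : fM M (Finsupp.single h 1) = Finsupp.single (emH M h) 1 := by
  simp [fM]

theorem mpG_bb (M : ℕ) (e : EG ℤ) : GeOpsx337.mpG (fM M) (bb e) = bb (emE M e) := by
  unfold bb
  rw [GeOpsx337.mpG_bi, fM_single, fM_single, emH_pe, emH_qe]

/-- the plane observable of a set of bonds -/
def XS (S : Finset (EG ℤ)) : Ge (VI (HE ℤ)) := ∏ e ∈ S, (1 - (2 * xc) • bb e)

theorem mpG_XS (M : ℕ) (S : Finset (EG ℤ)) :
    GeOpsx337.mpG (fM M) (XS S) = ∏ e ∈ S, (1 - (2 * xc) • bb (emE M e)) := by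
  unfold XS
  rw [map_prod]
  refine prod_congr rfl fun e _ => ?_
  rw [map_sub, map_one, map_smul, mpG_bb]

/-! ### convergence of the kernels -/

/-- the radius -/
def rh (L : ℕ) : ℕ := (L + 1) / 8

theorem rh_spec (L : ℕ) (hL : 63 ≤ L) : 8 * rh L ≤ L + 1 ∧ L + 1 ≤ 16 * rh L ∧ 8 ≤ rh L := by
  unfold rh; omega

theorem tendsto_rh : Tendsto (fun L : ℕ => (rh L : ℝ)) atTop atTop := by
  refine tendsto_natCast_atTop_atTop.comp ?_
  refine tendsto_atTop.2 fun b => ?_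
  filter_upwards [eventually_ge_atTop (8 * b)] with L hL
  unfold rh; omega

theorem ds_add (z c : ℤ × ℤ) : ds (z + c) c = ds z 0 := by
  simp only [ds, Crest.Agent.R165.Schurx811.dd, Prod.fst_add, Prod.snd_add, Prod.fst_zero,
    Prod.snd_zero]
  congr 2 <;> ring_nf

theorem ev_near (z : ℤ × ℤ) : ∀ᶠ L : ℕ in atTop, 4 * ds (z + ce (L + 1)) (ce (L + 1)) ≤ rh L := by
  filter_upwards [eventually_ge_atTop (8 * (4 * ds z 0))] with L hL
  rw [ds_add]; unfold rh; omega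

theorem Gk_eq (z w : ℤ × ℤ) (c : ℤ × ℤ) (h b : Fin 4) :
    Gk (w + c) b (z + c) h = Spx583.Spl (z, h) (w, b) := by
  unfold Gk Spx583.Spl
  simp

theorem tendsto_of_le_div {f : ℕ → ℝ} {l C : ℝ}
    (h : ∀ᶠ L in atTop, |f L - l| ≤ C / rh L) : Tendsto f atTop (𝓝 l) := by
  rw [tendsto_iff_norm_sub_tendsto_zero]
  refine squeeze_zero' (Eventually.of_forall fun L => norm_nonneg _) h ?_
  exact tendsto_rh.const_div_atTop C

/-- the covariance of the plane -/
def Cpl : Cov (VI (HE ℤ)) := covOf Spx583.Spl Spx583.Spl_anti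

theorem Cpl_single (h k : HE ℤ) :
    Cpl.b (Finsupp.single h 1) (Finsupp.single k 1) = Spx583.Spl h k := by
  unfold Cpl
  rw [covOf_b, formOf_single]

/-- the torus matrices -/
def Bs (s : Fin 2 × Fin 2) (L : ℕ) : Matrix (HE (ZMod (L + 1))) (HE (ZMod (L + 1))) ℝ :=
  -(TorDetx599.hA fun (z : ZMod (L + 1) × ZMod (L + 1)) (j : Fin 2) => sec s (z, j) * xc)⁻¹

theorem Bs_anti (s : Fin 2 × Fin 2) (L : ℕ) : (Bs s L).transpose = -Bs s L := by
  unfold Bs
  rw [Matrix.transpose_neg, Pfx599.inv_anti (TorDetx599.hA_t _)]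

theorem Bs_tendsto (s : Fin 2 × Fin 2) (hs : s ≠ (0, 0)) (h k : HE ℤ) :
    Tendsto (fun L : ℕ => Bs s L (emH (L + 1) h) (emH (L + 1) k)) atTop
      (𝓝 (Spx583.Spl h k)) := by
  obtain ⟨C, hC, hm⟩ := tor_ker_anti
  refine tendsto_of_le_div (C := C) ?_
  filter_upwards [eventually_ge_atTop 63, ev_near h.1, ev_near k.1] with L hL h1 h2
  obtain ⟨h8, h16, h08⟩ := rh_spec L hL
  have := hm (L + 1) (rh L) h8 h16 h08 s hs (h.1 + ce (L + 1)) (k.1 + ce (L + 1)) h.2 k.2 h1 h2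
  rw [Gk_eq] at this
  exact this

theorem BP_tendsto (h k : HE ℤ) :
    Tendsto (fun L : ℕ => (-(TorSecx599.BP (L + 1))) (emH (L + 1) h) (emH (L + 1) k)) atTop
      (𝓝 (Spx583.Spl h k)) := by
  obtain ⟨C, hC, hm⟩ := tor_ker_PP
  refine tendsto_of_le_div (C := C) ?_
  filter_upwards [eventually_ge_atTop 63, ev_near h.1, ev_near k.1] with L hL h1 h2
  obtain ⟨h8, h16, h08⟩ := rh_spec L hL
  have := hm (L + 1) (rh L) h8 h16 h08 (h.1 + ce (L + 1)) (k.1 + ce (L + 1)) h.2 k.2 h1 h2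
  rw [Gk_eq] at this
  exact this

theorem EE_cF_tendsto (B : ∀ L : ℕ, Matrix (HE (ZMod (L + 1))) (HE (ZMod (L + 1))) ℝ)
    (hB : ∀ L, (B L).transpose = -B L)
    (h : ∀ h k : HE ℤ, Tendsto (fun L : ℕ => B L (emH (L + 1) h) (emH (L + 1) k)) atTop
      (𝓝 (Spx583.Spl h k))) (X : Gr (VI (HE ℤ))) :
    Tendsto (fun L : ℕ => EE (TorBrx599.cF (L + 1) (B L)) (mp (fM (L + 1)) X)) atTop
      (𝓝 (EE Cpl X)) := by
  simp only [EE_pull]
  refine tendsto_EE _ _ (fun x y => form_tendsto (fun L => (pull (fM (L + 1))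
    (TorBrx599.cF (L + 1) (B L))).b) Cpl.b (fun i j => ?_) x y) X
  simp only [pull_b, fM_single, TorBrx599.cF_single _ (hB _), Cpl_single]
  exact h i j


/-! ### the observables -/

open Crest.Agent.R165.Symx541 (torBonds torusExpect_shift)
open Crest.Agent.R165.J4RRx653 (RR)

/-- the element of the eps-algebra of a set of bonds -/
def fs {E : Type*} [DecidableEq E] (T : Finset E) : E →₀ ZMod 2 :=
  Finsupp.onFinset T (fun e => if e ∈ T then 1 else 0) (fun e h => by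
    by_contra hc
    simp [hc] at h)

theorem fs_support {E : Type*} [DecidableEq E] (T : Finset E) : (fs T).support = T := by
  ext e
  simp [fs, Finsupp.mem_support_iff]

theorem TH_fs {E A : Type*} [DecidableEq E] [CommRing A] [Algebra ℝ A] (g : E → A) (T : Finset E) :
    J4RRx653.TH g (J4RRx653.ep (fs T)) = ∏ e ∈ T, g e := by
  rw [J4RRx653.TH_ep, fs_support]

theorem torBonds_shift (L : ℕ) (J lam : ℝ) (R : ℕ) (V : Finset (ℤ × ℤ) → ℝ) (β : ℝ)
    (S : Finset ((ℤ × ℤ) × Fin 2)) (c : ℤ × ℤ) : torBonds L J lam R V β S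
      = torusExpect (L + 1) J lam R V β
          (fun σ => ∏ e ∈ S, epsT σ (toTorus (L + 1) (e.1 + c), e.2)) := by
  unfold torBonds
  rw [← torusExpect_shift (L + 1) J lam R V β
    (fun σ => ∏ e ∈ S, Symx541.ep e fun z => σ (toTorus (L + 1) z)) (toTorus (L + 1) c)]
  congr 1
  funext σ
  refine prod_congr rfl fun e _ => ?_
  obtain ⟨⟨i, j⟩, k⟩ := e
  have hk : k = 0 ∨ k = 1 := by omega
  rcases hk with rfl | rfl
  · simp only [Symx541.ep, Symx541.shiftE, Equiv.coe_fn_mk, epsT, tgt, if_true, unitVec, toTorus,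
      Prod.mk_add_mk, Prod.fst_add, Prod.snd_add]
    congr 3 <;> simp <;> ring
  · simp only [Symx541.ep, Symx541.shiftE, Equiv.coe_fn_mk, epsT, tgt, one_ne_zero, if_false,
      unitVec, toTorus, Prod.mk_add_mk, Prod.fst_add, Prod.snd_add]
    congr 3 <;> simp <;> ring

/-- the weights off the seams -/
theorem sec_one (M : ℕ) [NeZero M] (s : Fin 2 × Fin 2) (z : ZMod M × ZMod M) (j : Fin 2)
    (h1 : z.1 ≠ 0) (h2 : z.2 ≠ 0) : sec s (z, j) = 1 := by
  have h := congrFun (congrFun (TorBrx599.sec_eq M s 1) z) j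
  rw [mul_one] at h
  rw [h, TorDetx599.wS]
  simp [h1, h2]

theorem near_coord {L : ℕ} (hL : 63 ≤ L) {z : ℤ × ℤ}
    (h : 4 * ds (z + ce (L + 1)) (ce (L + 1)) ≤ rh L) :
    (0 < (z + ce (L + 1)).1 ∧ (z + ce (L + 1)).1 < ((L + 1 : ℕ) : ℤ)) ∧
      (0 < (z + ce (L + 1)).2 ∧ (z + ce (L + 1)).2 < ((L + 1 : ℕ) : ℤ)) := by
  obtain ⟨h8, h16, h08⟩ := rh_spec L hL
  simp only [ds, Crest.Agent.R165.Schurx811.dd, ce, Prod.fst_add, Prod.snd_add] at h ⊢
  omega

theorem cast_ne {M : ℕ} [NeZero M] {i : ℤ} (h0 : 0 < i) (h1 : i < M) : (i : ZMod M) ≠ 0 := by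
  intro h
  have h2 : (i : ZMod M) = ((0 : ℤ) : ZMod M) := by rw [h]; simp
  have := cast_inj M ⟨h0.le, h1⟩ ⟨le_refl _, lt_trans h0 h1⟩ h2
  omega

/-- sets near the centre -/
def Near (L : ℕ) (S : Finset (EG ℤ)) : Prop :=
  ∀ e ∈ S, 4 * ds (e.1 + ce (L + 1)) (ce (L + 1)) ≤ rh L

theorem ev_Near (S : Finset (EG ℤ)) : ∀ᶠ L : ℕ in atTop, Near L S := by
  unfold Near
  rw [Finset.eventually_all]
  intro e _
  exact ev_near e.1

theorem emE_injOn {L : ℕ} (hL : 63 ≤ L) {S : Finset (EG ℤ)} (hS : Near L S) :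
    Set.InjOn (emE (L + 1)) (S : Set (EG ℤ)) := by
  intro e he e' he' h
  have n1 := near_coord hL (hS e he)
  have n2 := near_coord hL (hS e' he')
  simp only [emE, toTorus, Prod.mk.injEq] at h
  have i1 := cast_inj (L + 1) ⟨n1.1.1.le, n1.1.2⟩ ⟨n2.1.1.le, n2.1.2⟩ h.1.1
  have i2 := cast_inj (L + 1) ⟨n1.2.1.le, n1.2.2⟩ ⟨n2.2.1.le, n2.2.2⟩ h.1.2
  refine Prod.ext (Prod.ext ?_ ?_) h.2
  · simpa using i1
  · simpa using i2

theorem THG_near {L : ℕ} (hL : 63 ≤ L) {S : Finset (EG ℤ)} (hS : Near L S) (s : Fin 2 × Fin 2) :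
    THG (sy s fun _ => xc) (J4RRx653.ep (fs (S.image (emE (L + 1)))))
      = GeOpsx337.mpG (fM (L + 1)) (XS S) := by
  unfold THG
  rw [TH_fs, prod_image (fun e he e' he' h => emE_injOn hL hS he he' h), mpG_XS]
  refine prod_congr rfl fun e he => ?_
  have n1 := near_coord hL (hS e he)
  have h1 : sec s (emE (L + 1) e) = 1 := by
    refine sec_one (L + 1) s _ _ ?_ ?_
    · exact cast_ne n1.1.1 n1.1.2
    · exact cast_ne n1.2.1 n1.2.2
  simp only [gb, sy, h1, one_mul]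

/-! ### the four sectors -/

theorem ratio_tendsto (q z1 z2 z3 e1 e2 e3 : ℕ → ℝ) (l : ℝ) (h1 : ∀ L, 0 < z1 L)
    (h2 : ∀ L, 0 < z2 L) (h3 : ∀ L, 0 < z3 L) (t1 : Tendsto e1 atTop (𝓝 l))
    (t2 : Tendsto e2 atTop (𝓝 l)) (t3 : Tendsto e3 atTop (𝓝 l))
    (tq : Tendsto (fun L => |q L| / z3 L) atTop (𝓝 0)) :
    Tendsto (fun L => (q L + z1 L * e1 L + z2 L * e2 L + z3 L * e3 L) / (z1 L + z2 L + z3 L))
      atTop (𝓝 l) := by
  rw [tendsto_iff_norm_sub_tendsto_zero]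
  have a1 := (tendsto_iff_norm_sub_tendsto_zero.1 t1)
  have a2 := (tendsto_iff_norm_sub_tendsto_zero.1 t2)
  have a3 := (tendsto_iff_norm_sub_tendsto_zero.1 t3)
  have hs := ((tq.add a1).add a2).add a3
  simp only [add_zero] at hs
  refine squeeze_zero (fun L => norm_nonneg _) (fun L => ?_) hs
  have hz : 0 < z1 L + z2 L + z3 L := by linarith [h1 L, h2 L, h3 L]
  simp only [Real.norm_eq_abs]
  have e : (q L + z1 L * e1 L + z2 L * e2 L + z3 L * e3 L) / (z1 L + z2 L + z3 L) - l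
      = (q L + z1 L * (e1 L - l) + z2 L * (e2 L - l) + z3 L * (e3 L - l))
        / (z1 L + z2 L + z3 L) := by
    field_simp
    ring
  rw [e, abs_div, abs_of_pos hz, div_le_iff₀ hz]
  have b0 := abs_nonneg (q L)
  have b1 := abs_nonneg (e1 L - l)
  have b2 := abs_nonneg (e2 L - l)
  have b3 := abs_nonneg (e3 L - l)
  have c0 : |q L| ≤ |q L| / z3 L * (z1 L + z2 L + z3 L) := by
    have : |q L| = |q L| / z3 L * z3 L := by field_simp [(h3 L).ne']
    calc |q L| = |q L| / z3 L * z3 L := this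
      _ ≤ _ := by
        have := h1 L; have := h2 L; have := h3 L
        gcongr
        linarith
  have c1 : z1 L * |e1 L - l| ≤ |e1 L - l| * (z1 L + z2 L + z3 L) := by
    nlinarith [h1 L, h2 L, h3 L, mul_nonneg b1 (h2 L).le, mul_nonneg b1 (h3 L).le]
  have c2 : z2 L * |e2 L - l| ≤ |e2 L - l| * (z1 L + z2 L + z3 L) := by
    nlinarith [h1 L, h2 L, h3 L, mul_nonneg b2 (h1 L).le, mul_nonneg b2 (h3 L).le]
  have c3 : z3 L * |e3 L - l| ≤ |e3 L - l| * (z1 L + z2 L + z3 L) := by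
    nlinarith [h1 L, h2 L, h3 L, mul_nonneg b3 (h1 L).le, mul_nonneg b3 (h2 L).le]
  calc |q L + z1 L * (e1 L - l) + z2 L * (e2 L - l) + z3 L * (e3 L - l)|
      ≤ |q L| + z1 L * |e1 L - l| + z2 L * |e2 L - l| + z3 L * |e3 L - l| := by
        refine (abs_add_le _ _).trans (add_le_add ((abs_add_le _ _).trans (add_le_add
          ((abs_add_le _ _).trans (add_le_add (le_refl _) ?_)) ?_)) ?_)
        · rw [abs_mul, abs_of_pos (h1 L)]
        · rw [abs_mul, abs_of_pos (h2 L)]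
        · rw [abs_mul, abs_of_pos (h3 L)]
    _ ≤ (|q L| / z3 L + |e1 L - l| + |e2 L - l| + |e3 L - l|) * (z1 L + z2 L + z3 L) := by
        nlinarith

/-- the partition function of a sector -/
def Zs (s : Fin 2 × Fin 2) (L : ℕ) : ℝ := ZE (fun e : Ed (L + 1) => sec s e * xc) 1

theorem Zs_pos (s : Fin 2 × Fin 2) (hs : s ≠ (0, 0)) (L : ℕ) : 0 < Zs s L :=
  TorBrx599.ZE_pos (L + 1) s hs

/-- nonsingular sectors -/
theorem sector (s : Fin 2 × Fin 2) (hs : s ≠ (0, 0)) (L : ℕ) (X : Ge (VI (HE ℤ))) :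
    ZE (sy s fun _ => xc) (GeOpsx337.mpG (fM (L + 1)) X)
      = Zs s L * EE (TorBrx599.cF (L + 1) (Bs s L)) (mp (fM (L + 1)) (X : Gr (VI (HE ℤ)))) :=
  TorBrx599.ZE_sector (L + 1) s hs (GeOpsx337.mpG (fM (L + 1)) X)

/-- first zero mode on the plane -/
def ze1 : Module.Dual ℝ (VI (HE ℤ)) :=
  Finsupp.linearCombination ℝ fun h : HE ℤ => TorSecx599.m1 h.2 / Real.sqrt 2

/-- second zero mode on the plane -/
def ze2 : Module.Dual ℝ (VI (HE ℤ)) :=
  Finsupp.linearCombination ℝ fun h : HE ℤ => TorSecx599.m2 h.2 / Real.sqrt 2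

theorem z1_fM (L : ℕ) : TorBrx599.z1 (L + 1) ∘ₗ fM (L + 1) = (1 / ((L + 1 : ℕ) : ℝ)) • ze1 := by
  refine Finsupp.lhom_ext' fun h => LinearMap.ext_ring ?_
  have h1 : (TorBrx599.z1 (L + 1) ∘ₗ fM (L + 1)) (Finsupp.single h 1)
      = TorSecx599.u1 (L + 1) (emH (L + 1) h) := by
    rw [LinearMap.comp_apply, fM_single]
    exact TorBrx599.z1_single (L + 1) _
  show (TorBrx599.z1 (L + 1) ∘ₗ fM (L + 1)) (Finsupp.single h 1)
    = ((1 / ((L + 1 : ℕ) : ℝ)) • ze1) (Finsupp.single h 1)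
  rw [h1, LinearMap.smul_apply, ze1, Finsupp.linearCombination_single, TorSecx599.u1]
  simp only [emH, tf, smul_eq_mul, one_mul]
  have : (0 : ℝ) < Real.sqrt 2 := by positivity
  field_simp

theorem z2_fM (L : ℕ) : TorBrx599.z2 (L + 1) ∘ₗ fM (L + 1) = (1 / ((L + 1 : ℕ) : ℝ)) • ze2 := by
  refine Finsupp.lhom_ext' fun h => LinearMap.ext_ring ?_
  have h1 : (TorBrx599.z2 (L + 1) ∘ₗ fM (L + 1)) (Finsupp.single h 1)
      = TorSecx599.u2 (L + 1) (emH (L + 1) h) := by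
    rw [LinearMap.comp_apply, fM_single]
    exact TorBrx599.z2_single (L + 1) _
  show (TorBrx599.z2 (L + 1) ∘ₗ fM (L + 1)) (Finsupp.single h 1)
    = ((1 / ((L + 1 : ℕ) : ℝ)) • ze2) (Finsupp.single h 1)
  rw [h1, LinearMap.smul_apply, ze2, Finsupp.linearCombination_single, TorSecx599.u2]
  simp only [emH, tf, smul_eq_mul, one_mul]
  have : (0 : ℝ) < Real.sqrt 2 := by positivity
  field_simp

/-- the doubly periodic sector -/
theorem sectorPP (L : ℕ) (X : Ge (VI (HE ℤ))) :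
    ZE (sy (0, 0) fun _ => xc) (GeOpsx337.mpG (fM (L + 1)) X)
      = TorSecx599.ZP (L + 1) * ((1 / ((L + 1 : ℕ) : ℝ)) * (1 / ((L + 1 : ℕ) : ℝ)) *
        EE (TorBrx599.cF (L + 1) (-(TorSecx599.BP (L + 1))))
          (mp (fM (L + 1)) (dd ze2 (dd ze1 (X : Gr (VI (HE ℤ))))))) := by
  have h := TorBrx599.ZE_PP (L + 1) (GeOpsx337.mpG (fM (L + 1)) X)
  have e : ZE (sy (0, 0) fun _ => xc) (GeOpsx337.mpG (fM (L + 1)) X)
      = ZE (fun e : Ed (L + 1) => sec (0, 0) e * TorSecx599.xc) (GeOpsx337.mpG (fM (L + 1)) X) := rfl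
  rw [e, h, GeOpsx337.coe_mpG, ← mp_dd, z1_fM, ← mp_dd, z2_fM, dd_smul_left, dd_smul_left,
    map_smul, map_smul, map_smul, map_smul, map_smul]
  simp only [smul_eq_mul]
  ring

theorem sectorPP_one (L : ℕ) : ZE (sy (0, 0) fun _ => xc) (1 : Ge (VI (HE (ZMod (L + 1))))) = 0 := by
  have h := sectorPP L (1 : Ge (VI (HE ℤ)))
  rw [map_one] at h
  rw [h]
  simp

theorem PP_tendsto (X : Ge (VI (HE ℤ))) :
    Tendsto (fun L : ℕ => |ZE (sy (0, 0) fun _ => xc) (GeOpsx337.mpG (fM (L + 1)) X)|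
      / Zs (1, 1) L) atTop (𝓝 0) := by
  have hK := fun L => (TorSecx599.ker2_PP (L + 1)).banti
  have ht := EE_cF_tendsto (fun L => -(TorSecx599.BP (L + 1)))
    (fun L => by rw [Matrix.transpose_neg, hK L]) BP_tendsto
    (dd ze2 (dd ze1 (X : Gr (VI (HE ℤ)))))
  have h1 : Tendsto (fun L : ℕ => (1 : ℝ) / ((L + 1 : ℕ) : ℝ)) atTop (𝓝 0) := by
    have := tendsto_one_div_add_atTop_nhds_zero_nat (𝕜 := ℝ)
    refine this.congr fun L => ?_
    push_cast; rfl
  have h2 := (h1.const_mul (2 / xc)).mul ht.abs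
  simp only [mul_zero, zero_mul] at h2
  refine squeeze_zero (fun L => by
    have := Zs_pos (1, 1) (by decide) L
    positivity) (fun L => ?_) h2
  rw [sectorPP]
  have hz := Zs_pos (1, 1) (by decide) L
  have hP : |TorSecx599.ZP (L + 1)| ≤ 2 / xc * ((L + 1 : ℕ) : ℝ) * Zs (1, 1) L :=
    TorBrx599.ZP_le' (L + 1)
  have hM : (0 : ℝ) < ((L + 1 : ℕ) : ℝ) := by positivity
  rw [div_le_iff₀ hz, abs_mul, abs_mul, abs_mul, abs_of_pos (by positivity : (0:ℝ) < 1 / ((L + 1 : ℕ) : ℝ))]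
  have hE := abs_nonneg (EE (TorBrx599.cF (L + 1) (-(TorSecx599.BP (L + 1))))
          (mp (fM (L + 1)) (dd ze2 (dd ze1 (X : Gr (VI (HE ℤ)))))))
  calc |TorSecx599.ZP (L + 1)| * (1 / ((L + 1 : ℕ) : ℝ) * (1 / ((L + 1 : ℕ) : ℝ)) *
        |EE (TorBrx599.cF (L + 1) (-(TorSecx599.BP (L + 1))))
          (mp (fM (L + 1)) (dd ze2 (dd ze1 (X : Gr (VI (HE ℤ))))))|)
      ≤ (2 / xc * ((L + 1 : ℕ) : ℝ) * Zs (1, 1) L) * (1 / ((L + 1 : ℕ) : ℝ) * (1 / ((L + 1 : ℕ) : ℝ)) *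
        |EE (TorBrx599.cF (L + 1) (-(TorSecx599.BP (L + 1))))
          (mp (fM (L + 1)) (dd ze2 (dd ze1 (X : Gr (VI (HE ℤ))))))|) := by gcongr
    _ = _ := by field_simp

/-- **the critical torus bond correlations converge** -/
theorem torBonds_tendsto {J : ℝ} (hJ : J ≠ 0) (R : ℕ) (V : Finset (ℤ × ℤ) → ℝ)
    (S : Finset ((ℤ × ℤ) × Fin 2)) :
    Tendsto (fun L : ℕ => torBonds L J 0 R V (criticalBeta J) S) atTop
      (𝓝 (EE Cpl ((XS S : Ge (VI (HE ℤ))) : Gr (VI (HE ℤ))))) := by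
  set X : Gr (VI (HE ℤ)) := ((XS S : Ge (VI (HE ℤ))) : Gr (VI (HE ℤ))) with hX
  set E : Fin 2 × Fin 2 → ℕ → ℝ := fun s L =>
    EE (TorBrx599.cF (L + 1) (Bs s L)) (mp (fM (L + 1)) X) with hE
  have hEt : ∀ s : Fin 2 × Fin 2, s ≠ (0, 0) → Tendsto (E s) atTop (𝓝 (EE Cpl X)) := fun s hs =>
    EE_cF_tendsto (Bs s) (Bs_anti s) (Bs_tendsto s hs) X
  have hr := ratio_tendsto
    (fun L => ZE (sy (0, 0) fun _ => xc) (GeOpsx337.mpG (fM (L + 1)) (XS S)))
    (Zs (0, 1)) (Zs (1, 0)) (Zs (1, 1)) (E (0, 1)) (E (1, 0)) (E (1, 1)) (EE Cpl X)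
    (Zs_pos _ (by decide)) (Zs_pos _ (by decide)) (Zs_pos _ (by decide))
    (hEt _ (by decide)) (hEt _ (by decide)) (hEt _ (by decide)) (PP_tendsto (XS S))
  refine hr.congr' ?_
  filter_upwards [eventually_ge_atTop 63, ev_Near S] with L hL hN
  rw [torBonds_shift L J 0 R V _ S (ce (L + 1))]
  rw [torusExpect_crit (by omega) hJ R V _
    (J4RRx653.ep (fs (S.image (emE (L + 1))))) (fun σ => by
      unfold evT
      rw [TH_fs, prod_image (fun e he e' he' h => emE_injOn hL hN he he' h)]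
      rfl)]
  have hF : Z4 (J4RRx653.ep (fs (S.image (emE (L + 1))))) =
      ZE (sy (0, 0) fun _ => xc) (GeOpsx337.mpG (fM (L + 1)) (XS S))
      + Zs (0, 1) L * E (0, 1) L + Zs (1, 0) L * E (1, 0) L + Zs (1, 1) L * E (1, 1) L := by
    unfold Z4
    simp only [THG_near hL hN]
    rw [Fintype.sum_prod_type, Fin.sum_univ_two, Fin.sum_univ_two, Fin.sum_univ_two,
      sector (0, 1) (by decide), sector (1, 0) (by decide), sector (1, 1) (by decide)]
    ring
  have h1 : Z4 (1 : RR (Ed (L + 1))) = Zs (0, 1) L + Zs (1, 0) L + Zs (1, 1) L := by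
    unfold Z4 THG
    simp only [J4RRx653.TH_one]
    rw [Fintype.sum_prod_type, Fin.sum_univ_two, Fin.sum_univ_two, Fin.sum_univ_two, sectorPP_one]
    unfold Zs sy
    ring
  rw [hF, h1]

/-! ### the value for one bond -/

theorem pp_zero : Spx583.pp 0 0 = 0 := Pkx583.pk_zero

theorem pp_10 : Spx583.pp 1 0 = 1 / 4 := by
  have h := Pkx583.pk_lap 0 0
  simp only [zero_add, zero_sub, and_self, if_true] at h
  have h1 : Spx583.pp (-1) 0 = Spx583.pp 1 0 := Spx583.pp_neg1 1 0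
  have h2 : Spx583.pp 0 1 = Spx583.pp 1 0 := Spx583.pp_comm 0 1
  have h3 : Spx583.pp 0 (-1) = Spx583.pp 0 1 := Spx583.pp_neg2 0 1
  have h4 := pp_zero
  unfold Spx583.pp at *
  linarith

theorem pp_m10 : Spx583.pp (-1) 0 = 1 / 4 := by rw [Spx583.pp_neg1, pp_10]
theorem pp_01 : Spx583.pp 0 1 = 1 / 4 := by rw [Spx583.pp_comm, pp_10]
theorem pp_0m1 : Spx583.pp 0 (-1) = 1 / 4 := by rw [Spx583.pp_neg2, pp_01]

theorem val_lin (x : ℝ) (hx : x ^ 2 + 2 * x = 1) (hx0 : 0 < x) :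
    1 - 2 * x * (1 / (2 * x ^ 2) * ((1 - 3 * x ^ 2) / 4)) = (1 + x) / 2 := by
  field_simp
  nlinarith [hx, mul_pos hx0 hx0]

theorem Spl_h : Spx583.Spl (pe ((0, 0), 0) : HE ℤ) (qe ((0, 0), 0)) = 1 / (2 * xc ^ 2) * ((1 - 3 * xc ^ 2) / 4) := by
  unfold Spx583.Spl Spx583.SP
  simp only [pe_zero, qe_zero]
  have : Spx583.xc = xc := rfl
  rw [this]
  simp [Spx583.TT, pp_zero, pp_10, pp_m10, pp_01, pp_0m1]
  left
  ring

theorem Spl_v : Spx583.Spl (pe ((0, 0), 1) : HE ℤ) (qe ((0, 0), 1)) = 1 / (2 * xc ^ 2) * ((1 - 3 * xc ^ 2) / 4) := by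
  unfold Spx583.Spl Spx583.SP
  simp only [pe_one, qe_one]
  have : Spx583.xc = xc := rfl
  rw [this]
  simp [Spx583.TT, pp_zero, pp_10, pp_m10, pp_01, pp_0m1]
  left
  ring

theorem EE_XS_single (e : EG ℤ) : EE Cpl ((XS {e} : Ge (VI (HE ℤ))) : Gr (VI (HE ℤ)))
    = 1 - 2 * xc * Spx583.Spl (pe e) (qe e) := by
  unfold XS
  rw [prod_singleton, Ge.coe_sub, Ge.coe_one, Ge.coe_smul, coe_bb, map_sub, map_smul, EE_one]
  unfold ph
  rw [EE_fi_fi, Cpl_single, smul_eq_mul]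

theorem EE_one_bond (j : Fin 2) :
    EE Cpl ((XS {((0, 0), j)} : Ge (VI (HE ℤ))) : Gr (VI (HE ℤ))) = Redx541.e0 := by
  have hx : xc ^ 2 + 2 * xc = 1 := Spx583.xc_rel
  have hx0 : 0 < xc := Spx583.xc_pos
  have hv := val_lin xc hx hx0
  have he : (1 + xc) / 2 = Redx541.e0 := by
    unfold Latx683.xc Redx541.e0; ring
  rw [EE_XS_single]
  have hj : j = 0 ∨ j = 1 := by omega
  rcases hj with rfl | rfl
  · rw [Spl_h, hv, he]
  · rw [Spl_v, hv, he]

/-- **the torus clause at `lam = 0`** -/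
theorem UTb_proof : Red2x541.UTb := by
  refine ⟨fun S => ⟨_, torBonds_tendsto one_ne_zero 0 (fun _ => 0) S⟩, fun j => ?_⟩
  have := torBonds_tendsto (J := 1) one_ne_zero 0 (fun _ => 0) {((0, 0), j)}
  rwa [EE_one_bond] at this

end Crest.Agent.R165.TorusUTx922
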