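import Crest.Agent.R165.PPd_63
import Crest.Agent.R165.Out_683
import Crest.Agent.R165.SData_900
import Crest.Agent.R165.SrcER_441
import Crest.Agent.R165.PinSys_723
import Crest.Agent.R165.EbTor_723
import Crest.Agent.R165.TorusUT_922

-- ▼ part R165/TorFin_63
section

/-!
# Row 165 (S0250), torus clause for `lam ≠ 0` (helper63): the end

* `SecData` : the output of the flow in the four sectors, with and without the marked item `t · F`
* `SecData.tendsto` : the hypotheses of `sector_tendsto`, limit `(exp e - 1) / t`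
* `torBonds_of` : the torus clause
-/

set_option autoImplicit false

noncomputable section

open Filter Topology Finset
open Crest.ProbabilityR.IsingModel

namespace Crest.Agent.R165.TorFinx63

open Crest.Agent.R165.PPdx63

/-- the output of the flow on the tori: `ZG s`, `ZT s` the weights of `G` and `G + t F` in the
sector `s`, `κ` the common normalisation, `z s` the weight of `1` -/
structure SecData (t e : ℝ) (ZG ZT : Fin 2 × Fin 2 → ℕ → ℝ) : Prop where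
  ex : ∃ (κ : ℕ → ℝ) (z E0 Et R0 Rt : Fin 2 × Fin 2 → ℕ → ℝ) (η : ℕ → ℝ),
    (∀ᶠ N in atTop, 0 < κ N) ∧ (∀ s, s ≠ (0, 0) → ∀ᶠ N in atTop, 0 < z s N) ∧
    (∀ s, s ≠ (0, 0) → ∀ᶠ N in atTop, ZG s N = κ N * (z s N * (Real.exp (E0 s N) * R0 s N))) ∧
    (∀ s, s ≠ (0, 0) → ∀ᶠ N in atTop, ZT s N = κ N * (z s N * (Real.exp (Et s N) * Rt s N))) ∧
    (∀ s, s ≠ (0, 0) → Tendsto (R0 s) atTop (𝓝 1)) ∧
    (∀ s, s ≠ (0, 0) → Tendsto (Rt s) atTop (𝓝 1)) ∧
    (∀ s, Tendsto (fun N => Et s N - E0 s N) atTop (𝓝 e)) ∧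
    (Tendsto (fun N => E0 (0, 0) N - E0 (1, 1) N) atTop (𝓝 0)) ∧
    (∀ᶠ N in atTop, |ZG (0, 0) N| ≤ κ N * (z (1, 1) N * (Real.exp (E0 (0, 0) N) * η N))) ∧
    (∀ᶠ N in atTop, |ZT (0, 0) N| ≤ κ N * (z (1, 1) N * (Real.exp (Et (0, 0) N) * η N))) ∧
    Tendsto η atTop (𝓝 0)

variable {t e : ℝ} {ZG ZT : Fin 2 × Fin 2 → ℕ → ℝ}

theorem SecData.pos (h : SecData t e ZG ZT) (s : Fin 2 × Fin 2) (hs : s ≠ (0, 0)) :
    ∀ᶠ N in atTop, 0 < ZG s N := by
  obtain ⟨κ, z, E0, Et, R0, Rt, η, hκ, hz, hG, -, hR, -⟩ := h.ex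
  filter_upwards [hκ, hz s hs, hG s hs, (hR s hs).eventually (lt_mem_nhds zero_lt_one)] with N a b c d
  rw [c]
  positivity

theorem SecData.lim (h : SecData t e ZG ZT) (s : Fin 2 × Fin 2) (hs : s ≠ (0, 0)) :
    Tendsto (fun N => (ZT s N - ZG s N) / t / ZG s N) atTop (𝓝 ((Real.exp e - 1) / t)) := by
  obtain ⟨κ, z, E0, Et, R0, Rt, η, hκ, hz, hG, hT, hR, hRt, hE, -⟩ := h.ex
  have h1 : Tendsto (fun N => (Real.exp (Et s N - E0 s N) * (Rt s N / R0 s N) - 1) / t) atTop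
      (𝓝 ((Real.exp e * (1 / 1) - 1) / t)) :=
    (((Real.continuous_exp.tendsto e).comp (hE s)).mul
      ((hRt s hs).div (hR s hs) one_ne_zero)).sub_const 1 |>.div_const t
  rw [one_div_one, mul_one] at h1
  refine h1.congr' ?_
  filter_upwards [hκ, hz s hs, hG s hs, hT s hs,
    (hR s hs).eventually (lt_mem_nhds zero_lt_one)] with N a b c d f
  rw [c, d, Real.exp_sub]
  have e1 := Real.exp_pos (E0 s N)
  field_simp

theorem SecData.pp (h : SecData t e ZG ZT) :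
    Tendsto (fun N => ZG (0, 0) N / ZG (1, 1) N) atTop (𝓝 0) ∧
      Tendsto (fun N => ZT (0, 0) N / ZG (1, 1) N) atTop (𝓝 0) := by
  obtain ⟨κ, z, E0, Et, R0, Rt, η, hκ, hz, hG, -, hR, -, hE, hE0, hP, hQ, hη⟩ := h.ex
  have hs : ((1, 1) : Fin 2 × Fin 2) ≠ (0, 0) := by decide
  have hRi : Tendsto (fun N => (R0 (1, 1) N)⁻¹) atTop (𝓝 1) := by
    simpa using (hR _ hs).inv₀ one_ne_zero
  constructor
  · have h1 : Tendsto (fun N => Real.exp (E0 (0, 0) N - E0 (1, 1) N) * (η N * (R0 (1, 1) N)⁻¹)) atTop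
        (𝓝 (Real.exp 0 * (0 * 1))) :=
      ((Real.continuous_exp.tendsto 0).comp hE0).mul (hη.mul hRi)
    rw [zero_mul, mul_zero] at h1
    refine squeeze_zero_norm' ?_ h1
    filter_upwards [hκ, hz _ hs, hG _ hs, hP,
      (hR _ hs).eventually (lt_mem_nhds zero_lt_one)] with N a b c d f
    rw [Real.norm_eq_abs, abs_div, c, abs_of_pos (a := κ N * _) (by positivity), div_le_iff₀
      (by positivity)]
    refine d.trans (le_of_eq ?_)
    rw [Real.exp_sub]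
    have e1 := Real.exp_pos (E0 (1, 1) N)
    field_simp
  · have hd : Tendsto (fun N => Et (0, 0) N - E0 (1, 1) N) atTop (𝓝 e) := by
      have := (hE (0, 0)).add hE0
      rw [add_zero] at this
      refine this.congr fun N => by ring
    have h1 : Tendsto (fun N => Real.exp (Et (0, 0) N - E0 (1, 1) N) * (η N * (R0 (1, 1) N)⁻¹)) atTop
        (𝓝 (Real.exp e * (0 * 1))) :=
      ((Real.continuous_exp.tendsto e).comp hd).mul (hη.mul hRi)
    rw [zero_mul, mul_zero] at h1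
    refine squeeze_zero_norm' ?_ h1
    filter_upwards [hκ, hz _ hs, hG _ hs, hQ,
      (hR _ hs).eventually (lt_mem_nhds zero_lt_one)] with N a b c d f
    rw [Real.norm_eq_abs, abs_div, c, abs_of_pos (a := κ N * _) (by positivity), div_le_iff₀
      (by positivity)]
    refine d.trans (le_of_eq ?_)
    rw [Real.exp_sub]
    have e1 := Real.exp_pos (E0 (1, 1) N)
    field_simp

theorem SecData.tendsto (ht : t ≠ 0) (h : SecData t e ZG ZT) :
    (∀ s, s ≠ (0, 0) → ∀ᶠ N in atTop, 0 < ZG s N) ∧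
    (∀ s, s ≠ (0, 0) →
      Tendsto (fun N => (ZT s N - ZG s N) / t / ZG s N) atTop (𝓝 ((Real.exp e - 1) / t))) ∧
    Tendsto (fun N => (ZT (0, 0) N - ZG (0, 0) N) / t / ZG (1, 1) N) atTop (𝓝 0) ∧
    Tendsto (fun N => ZG (0, 0) N / ZG (1, 1) N) atTop (𝓝 0) := by
  refine ⟨h.pos, h.lim, ?_, h.pp.1⟩
  have h1 := (h.pp.2.sub h.pp.1).div_const t
  rw [sub_zero, zero_div] at h1
  refine h1.congr fun N => ?_
  by_cases hg : ZG (1, 1) N = 0
  · simp [hg]
  · field_simp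

open Crest.Agent.R165.TorusCombx922 Crest.Agent.R165.TorusJ1x922 Crest.Agent.R165.TorusJ2x922
open Crest.Agent.R165.J4RRx653 (RR)

theorem ZS_add {L : ℕ} [NeZero L] (s : Fin 2 × Fin 2) (F G : RR (Ed L)) :
    ZS s (F + G) = ZS s F + ZS s G := by
  unfold ZS
  rw [← ZE_add]; congr 1
  exact map_add (J4RRx653.TH _) _ _

theorem ZS_smul {L : ℕ} [NeZero L] (s : Fin 2 × Fin 2) (c : ℝ) (F : RR (Ed L)) :
    ZS s (c • F) = c * ZS s F := by
  unfold ZS
  rw [← ZE_smul]; congr 1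
  exact map_smul (J4RRx653.TH _) _ _

/-- **torus clause from the output of the flow** -/
theorem torBonds_of {J : ℝ} (hJ : 0 < J) {R : ℕ} {V : Finset (ℤ × ℤ) → ℝ}
    (hV : Topx683.VHyp R V) (lam β : ℝ) (S : Finset ((ℤ × ℤ) × Fin 2)) (ht : t ≠ 0)
    (hrep : ∀ᶠ N : ℕ in atTop, ∃ F G : RR (Ed (N + 1)),
      (∀ σ, evT σ F = (∏ e ∈ S, Symx541.ep e fun z => σ (toTorus (N + 1) z)) *
        Real.exp (pertT J lam β R V σ)) ∧
      (∀ σ, evT σ G = Real.exp (pertT J lam β R V σ)) ∧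
      (∀ s, ZG s N = ZS s G) ∧ (∀ s, ZT s N = ZS s (G + t • F)))
    (h : SecData t e ZG ZT) :
    Tendsto (fun N : ℕ => Symx541.torBonds N J lam R V β S) atTop (𝓝 ((Real.exp e - 1) / t)) := by
  obtain ⟨h1, h2, h3, h4⟩ := h.tendsto ht
  refine torBonds_tendsto (f := fun s N => (ZT s N - ZG s N) / t) (g := ZG) hJ hV lam β S ?_ h1 h2 h3 h4
  filter_upwards [hrep] with N hN
  obtain ⟨F, G, hF, hG, hg, hT⟩ := hN
  refine ⟨F, G, 1, one_ne_zero, hF, hG, fun s => ?_, fun s => by rw [hg, one_mul]⟩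
  rw [hg, hT, ZS_add, ZS_smul]
  field_simp
  ring

end Crest.Agent.R165.TorFinx63
end
end

-- ▼ part R165/PTop_386

/-!
# Row 165 (S0250): the universality half from its literal leaves (helper386)

`PFn` : the plane flow is controlled, norm form (amplitude `A0`, rate `1/4`) = field `PF`.

Leaves (all literal, on the concrete names of `Bkg_683`, `Out_683`):
* `P7L`    : shooting
* `ZetaL`  : size of `zetaK`
* `SpDL`, `SpPL` : spin data in domains / large plus discs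
* `EnL`    : energy packs in domains / large plus discs (with functions `Ze`, `eb`)
* `TorL`, `DisL` : torus / disc half of the limit of bond expectations (real source `t`)

`flowOut_of`, `pflow_of_leaves : Leaves → PFlow`.
-/

set_option autoImplicit false
set_option linter.unusedSectionVars false

noncomputable section

open Filter Topology
open scoped ENNReal
open Crest.ProbabilityR.IsingModel
open Crest.Agent.R165.Gr0x606 Crest.Agent.R165.Gr1x606 Crest.Agent.R165.GeOpsx337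
open Crest.Agent.R165.Latx683 Crest.Agent.R165.GDefx387 Crest.Agent.R165.GSysx387
open Crest.Agent.R165.KFlowx337 Crest.Agent.R165.Telx337
open Crest.Agent.R165.Bkgx683 Crest.Agent.R165.PEndx683 Crest.Agent.R165.Outx683
open Crest.Agent.R165.DiscDatax892 Crest.Agent.R165.SrcERx441 Crest.Agent.R165.PinSysx723
open Crest.Agent.R165.Symx541 Crest.Agent.R165.Redx541 Crest.Agent.R165.Red2x541
open Crest.Agent.R165.Centx541 Crest.Agent.R165.Mastx541 Crest.Agent.R165.SRx541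
open Crest.Agent.R165.Topx683 Crest.Agent.R165.Bridgex915

namespace Crest.Agent.R165.PTopx386

variable (J : ℝ) (R : ℕ) (V : Finset (ℤ × ℤ) → ℝ)

/-! ### the controlled plane flow -/


/-- a field `Q` proved for one notion of control holds for a stronger one -/
theorem ForP.congr {J : ℝ} {PF PF' : ℝ → Cst → ℝ → ℝ → ℝ → Prop} {Q : Cst → ℝ → ℝ → ℝ → Prop}
    (h : ForP J PF' Q)
    (hPF : EvC fun c => ∀ C : ℝ, ∃ C' : ℝ, C ≤ C' ∧ ∀ lam β z : ℝ, PF C c lam β z →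
      PF' C' c lam β z) : ForP J PF Q := by
  refine (EvC.and h hPF).mono fun c hc C => ?_
  obtain ⟨C', hCC, hP⟩ := hc.2 C
  obtain ⟨ε, hε, h1⟩ := hc.1 C'
  refine ⟨ε, hε, fun lam β z hl hn hp => h1 lam β z hl ?_ (hP lam β z hp)⟩
  unfold NearP at hn ⊢
  exact hn.trans (mul_le_mul_of_nonneg_right hCC (abs_nonneg _))

/-! ### the leaves -/

/-- **(P7)** shooting -/
def P7L : Prop :=
  EvC fun c => ∃ C : ℝ, ∃ ε > 0, ∃ β z : ℝ → ℝ, ∀ lam : ℝ, |lam| < ε →
    NearP J C lam (β lam) (z lam) ∧ PF J R V C c lam (β lam) (z lam)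

/-- size of the contribution of one branch point -/
def ZetaL : Prop :=
  EvC fun c => ∀ C : ℝ, ∃ ε > 0, ∃ C' : ℝ, ∀ lam β z : ℝ, |lam| < ε → NearP J C lam β z →
    PF J R V C c lam β z → ∀ k, |zetaK c (mpar J lam R V β z) k| ≤ C' * |lam| * (1 / 2) ^ k

/-- **spin data, domains** -/
def SpDL : Prop :=
  ForP J (PF J R V) fun c lam β z =>
    ∀ D : Set ℂ, IsC2JordanDomain D → ∀ (b : BoundaryCondition) (n : ℕ), 1 ≤ n → Rel b n →
      ∀ x : Fin n → ℂ, (∀ i, x i ∈ D) → Function.Injective x →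
        ∃ G : ScaleData (fd : ℤ × ℤ → ℤ × ℤ → ℕ), Nonempty (SpinData G (𝓝[>] (0 : ℝ)) n
          (fun a => spm D a b J lam R V β x / spm0 D a b x) (zetaK c (mpar J lam R V β z)))

/-- **spin data, large plus discs** -/
def SpPL : Prop :=
  ForP J (PF J R V) fun c lam β z =>
    ∀ (n : ℕ), 1 ≤ n → Even n → ∀ x : Fin n → ℂ, Function.Injective x →
        ∃ G : ScaleData (fd : ℤ × ℤ → ℤ × ℤ → ℕ),
          Nonempty (SpinData G ((𝓝[>] (0 : ℝ)).curry (atTop : Filter ℝ)) n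
          (fun p => spm (Metric.ball 0 p.2) p.1 .plus J lam R V β x /
            spm0 (Metric.ball 0 p.2) p.1 .plus x) (zetaK c (mpar J lam R V β z)))

/-- energy packs in domains, for given `Ze`, `eb` -/
def EnD (Ze : Cst → ℝ → ℝ → ℝ → ℝ) (eb : Cst → ℝ → ℝ → ℝ → Fin 2 → ℝ) : Prop :=
  ForP J (PF J R V) fun c lam β z =>
    ∀ D : Set ℂ, IsC2JordanDomain D → ∀ (b : BoundaryCondition) (n m : ℕ), 1 ≤ m → Rel b n →
      ∀ (x : Fin n → ℂ) (y : Fin m → ℂ) (j : Fin m → Fin 2),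
        (∀ i, x i ∈ D) → (∀ k, y k ∈ D) → Function.Injective (Fin.append x y) →
        ∃ C₁ κ : ℝ, 0 ≤ C₁ ∧ 0 < κ ∧ ∀ ε > 0, ∀ᶠ a : ℝ in 𝓝[>] 0,
          ERPack m (domMom D a b J lam R V β x y j (fun k => eb c lam β z (j k)) /
              spm D a b J lam R V β x)
            (D0c D a b x y j / spm0 D a b x) (Ze c lam β z) C₁ κ a ε

/-- energy packs in large plus discs, for given `Ze`, `eb` -/
def EnP (Ze : Cst → ℝ → ℝ → ℝ → ℝ) (eb : Cst → ℝ → ℝ → ℝ → Fin 2 → ℝ) : Prop :=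
  ForP J (PF J R V) fun c lam β z =>
    ∀ (n m : ℕ), 1 ≤ m → Even n → ∀ (x : Fin n → ℂ) (y : Fin m → ℂ) (j : Fin m → Fin 2),
        Function.Injective (Fin.append x y) →
        ∃ C₁ κ : ℝ, 0 ≤ C₁ ∧ 0 < κ ∧ ∀ ε > 0, ∀ᶠ a : ℝ in 𝓝[>] 0, ∀ᶠ B : ℝ in atTop,
          ERPack m (domMom (Metric.ball 0 B) a .plus J lam R V β x y j
                (fun k => eb c lam β z (j k)) /
              spm (Metric.ball 0 B) a .plus J lam R V β x)
            (D0c (Metric.ball 0 B) a .plus x y j / spm0 (Metric.ball 0 B) a .plus x)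
            (Ze c lam β z) C₁ κ a ε

/-- **energy** -/
def EnL : Prop :=
  ∃ (Ze : Cst → ℝ → ℝ → ℝ → ℝ) (eb : Cst → ℝ → ℝ → ℝ → Fin 2 → ℝ),
    OneP J (PF J R V) Ze ∧ EnD J R V Ze eb ∧ EnP J R V Ze eb

/-- the limit exponent of the real source `1 + t ∏_{e ∈ S} eps_e` in the plane -/
def expoT (c : Cst) (P : MPar) (S : Finset ((ℤ × ℤ) × Fin 2)) (t : ℝ) : ℝ :=
  expo (flt c P Bg.pl 0 S t) (flt c P Bg.pl 0 S 0)

open Crest.Agent.R165.TorusCombx922 Crest.Agent.R165.TorusJ1x922 Crest.Agent.R165.TorusJ2x922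
  Crest.Agent.R165.J4RRx653 Crest.Agent.R165.TorFinx63 Crest.Agent.R165.PPdx63 in
/-- **torus half** of the limit of the bond expectations -/
def TorL : Prop :=
  ForP J (PF J R V) fun c lam β z => ∀ S : Finset ((ℤ × ℤ) × Fin 2), ∃ t0 > 0, ∀ t : ℝ, 0 < t →
    t < t0 → ∃ ZG ZT : Fin 2 × Fin 2 → ℕ → ℝ,
      (∀ᶠ N : ℕ in atTop, ∃ F G : RR (Ed (N + 1)),
        (∀ σ, evT σ F = (∏ e ∈ S, Symx541.ep e fun z => σ (toTorus (N + 1) z)) *
          Real.exp (pertT J lam β R V σ)) ∧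
        (∀ σ, evT σ G = Real.exp (pertT J lam β R V σ)) ∧
        (∀ s, ZG s N = ZS s G) ∧ (∀ s, ZT s N = ZS s (G + t • F))) ∧
      SecData t (expoT c (mpar J lam R V β z) S t) ZG ZT

/-- **disc half** of the limit of the bond expectations -/
def DisL : Prop :=
  ForP J (PF J R V) fun c lam β z => ∀ S : Finset ((ℤ × ℤ) × Fin 2), ∃ t0 > 0, ∀ t : ℝ, 0 < t →
    t < t0 → Tendsto (fun B : ℝ => 1 + t * discBonds B J lam R V β S) atTop
      (𝓝 (Real.exp (expoT c (mpar J lam R V β z) S t)))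

/-- **all leaves** -/
structure Leaves : Prop where
  p7 : ∀ J : ℝ, 0 < J → ∀ (R : ℕ) (V : Finset (ℤ × ℤ) → ℝ), VHyp R V → P7L J R V
  zeta : ∀ J : ℝ, 0 < J → ∀ (R : ℕ) (V : Finset (ℤ × ℤ) → ℝ), VHyp R V → ZetaL J R V
  spd : ∀ J : ℝ, 0 < J → ∀ (R : ℕ) (V : Finset (ℤ × ℤ) → ℝ), VHyp R V → SpDL J R V
  spp : ∀ J : ℝ, 0 < J → ∀ (R : ℕ) (V : Finset (ℤ × ℤ) → ℝ), VHyp R V → SpPL J R V
  en : ∀ J : ℝ, 0 < J → ∀ (R : ℕ) (V : Finset (ℤ × ℤ) → ℝ), VHyp R V → EnL J R V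
  tor : ∀ J : ℝ, 0 < J → ∀ (R : ℕ) (V : Finset (ℤ × ℤ) → ℝ), VHyp R V → TorL J R V
  dis : ∀ J : ℝ, 0 < J → ∀ (R : ℕ) (V : Finset (ℤ × ℤ) → ℝ), VHyp R V → DisL J R V

/-! ### the spin renormalisation -/

variable {J R V}

theorem tsum_geo_le {f : ℕ → ℝ} {K : ℝ} (h : ∀ k, |f k| ≤ K * (1 / 2) ^ k) :
    Summable f ∧ |∑' k, f k| ≤ 2 * K := by
  have hs : Summable fun k : ℕ => K * (1 / 2 : ℝ) ^ k :=
    (summable_geometric_of_lt_one (by norm_num) (by norm_num)).mul_left K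
  have h1 : Summable f := Summable.of_norm_bounded hs fun k => by
    rw [Real.norm_eq_abs]; exact h k
  refine ⟨h1, ?_⟩
  have h2 := norm_tsum_le_tsum_norm (f := f) h1.norm
  have h3 : ∑' k, ‖f k‖ ≤ ∑' k : ℕ, K * (1 / 2 : ℝ) ^ k :=
    Summable.tsum_le_tsum (fun k => by rw [Real.norm_eq_abs]; exact h k) h1.norm hs
  rw [tsum_mul_left, tsum_geometric_of_lt_one (by norm_num) (by norm_num)] at h3
  rw [Real.norm_eq_abs] at h2
  calc _ ≤ _ := h2
    _ ≤ _ := h3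
    _ = 2 * K := by norm_num; ring

theorem exp_sub_one_le {x : ℝ} (h : |x| ≤ 1) : |Real.exp x - 1| ≤ 2 * |x| := by
  have h1 := Real.abs_exp_sub_one_sub_id_le h
  have h2 : |Real.exp x - 1| ≤ |Real.exp x - 1 - x| + |x| := by
    have := abs_add_le (Real.exp x - 1 - x) x
    simpa using this
  have h3 : x ^ 2 ≤ |x| := by
    rw [← sq_abs]
    nlinarith [abs_nonneg x]
  linarith

/-- summability of the constants -/
theorem ZetaL.summable (h : ZetaL J R V) :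
    ForP J (PF J R V) fun c lam β z => Summable (zetaK c (mpar J lam R V β z)) := by
  refine h.mono fun c hc C => ?_
  obtain ⟨ε, hε, C', h1⟩ := hc C
  exact ⟨ε, hε, fun lam β z hl hn hp => (tsum_geo_le (h1 lam β z hl hn hp)).1⟩

/-- **the field `zs`** -/
theorem ZetaL.zs (h : ZetaL J R V) : OneP J (PF J R V) (Zs J R V) := by
  refine h.mono fun c hc C => ?_
  obtain ⟨ε, hε, C', h1⟩ := hc C
  have hC : 0 < 2 * |C'| + 1 := by positivity
  refine ⟨min ε (1 / (2 * |C'| + 1)), lt_min hε (by positivity), 4 * |C'|,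
    fun lam β z hl hn hp => ?_⟩
  have h2 := (tsum_geo_le (h1 lam β z (hl.trans_le (min_le_left _ _)) hn hp)).2
  have h3 : 2 * (C' * |lam|) ≤ 2 * |C'| * |lam| := by
    have := mul_le_mul_of_nonneg_right (le_abs_self C') (abs_nonneg lam)
    linarith
  have h4 : |lam| * (2 * |C'| + 1) < 1 := by
    have := hl.trans_le (min_le_right _ _)
    rwa [lt_div_iff₀ hC] at this
  have h5 : |∑' k, zetaK c (mpar J lam R V β z) k| ≤ 1 := by
    nlinarith [abs_nonneg lam]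
  calc |Zs J R V c lam β z - 1| ≤ 2 * |∑' k, zetaK c (mpar J lam R V β z) k| := exp_sub_one_le h5
    _ ≤ 4 * |C'| * |lam| := by linarith

/-! ### the fields `srd`, `srp` -/

theorem srd_of' {lam β : ℝ} {ζ : ℕ → ℝ} (hζ : Summable ζ)
    (h : ∀ D : Set ℂ, IsC2JordanDomain D → ∀ (b : BoundaryCondition) (n : ℕ), 1 ≤ n → Rel b n →
      ∀ x : Fin n → ℂ, (∀ i, x i ∈ D) → Function.Injective x →
        ∃ G : ScaleData (fd : ℤ × ℤ → ℤ × ℤ → ℕ), Nonempty (SpinData G (𝓝[>] (0 : ℝ)) n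
          (fun a => spm D a b J lam R V β x / spm0 D a b x) ζ)) :
    SRD J lam R V β (Real.exp (∑' k, ζ k)) := by
  intro D hD b n hn hR x hx hinj ε hε
  obtain ⟨G, ⟨S⟩⟩ := h D hD b n hn hR x hx hinj
  have h1 := (S.tendsto hζ).eventually (Metric.closedBall_mem_nhds _ hε)
  filter_upwards [h1] with a ha
  rwa [Real.dist_eq] at ha

theorem srp_of' {lam β : ℝ} {ζ : ℕ → ℝ} (hζ : Summable ζ)
    (h : ∀ (n : ℕ), 1 ≤ n → Even n → ∀ x : Fin n → ℂ, Function.Injective x →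
        ∃ G : ScaleData (fd : ℤ × ℤ → ℤ × ℤ → ℕ),
          Nonempty (SpinData G ((𝓝[>] (0 : ℝ)).curry (atTop : Filter ℝ)) n
          (fun p => spm (Metric.ball 0 p.2) p.1 .plus J lam R V β x /
            spm0 (Metric.ball 0 p.2) p.1 .plus x) ζ)) :
    SRP J lam R V β (Real.exp (∑' k, ζ k)) := by
  intro n hn hev x hinj ε hε
  obtain ⟨G, ⟨S⟩⟩ := h n hn hev x hinj
  have h1 := (S.tendsto hζ).eventually (Metric.closedBall_mem_nhds _ hε)
  rw [eventually_curry_iff] at h1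
  refine h1.mono fun a ha => ha.mono fun B hB => ?_
  rwa [Real.dist_eq] at hB

theorem ForP.imp {J : ℝ} {PF : ℝ → Cst → ℝ → ℝ → ℝ → Prop} {Q Q' : Cst → ℝ → ℝ → ℝ → Prop}
    (h : ForP J PF Q) (hQ : ∀ c lam β z, Q c lam β z → Q' c lam β z) : ForP J PF Q' := by
  refine EvC.mono h fun c hc C => ?_
  obtain ⟨ε, hε, h1⟩ := hc C
  exact ⟨ε, hε, fun lam β z hl hn hp => hQ c lam β z (h1 lam β z hl hn hp)⟩

theorem srd (hz : ZetaL J R V) (h : SpDL J R V) :
    ForP J (PF J R V) fun c lam β z => SRD J lam R V β (Zs J R V c lam β z) :=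
  ForP.imp (ForP.and hz.summable h) fun _ _ _ _ h => srd_of' h.1 h.2

theorem srp (hz : ZetaL J R V) (h : SpPL J R V) :
    ForP J (PF J R V) fun c lam β z => SRP J lam R V β (Zs J R V c lam β z) :=
  ForP.imp (ForP.and hz.summable h) fun _ _ _ _ h => srp_of' h.1 h.2

/-! ### the field `dl` -/

theorem dl (hJ : 0 < J) (hV : VHyp R V) (hT : TorL J R V) (hD : DisL J R V) :
    ForP J (PF J R V) fun _ lam β _ => DiscLim J lam R V β := by
  refine ForP.imp (ForP.and hT hD) fun c lam β z h S => ?_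
  obtain ⟨t0, ht0, h1⟩ := h.1 S
  obtain ⟨t1, ht1, h2⟩ := h.2 S
  have hm : 0 < min t0 t1 / 2 := by have := lt_min ht0 ht1; linarith
  set t := min t0 t1 / 2 with ht
  have htlt : t < min t0 t1 := by rw [ht]; linarith
  obtain ⟨ZG, ZT, h3, h4⟩ := h1 t hm (htlt.trans_le (min_le_left _ _))
  refine ⟨_, TorFinx63.torBonds_of hJ hV lam β S hm.ne' h3 h4, ?_⟩
  exact lin_of_ratio hm.ne' (h2 t hm (htlt.trans_le (min_le_right _ _)))
    (Eventually.of_forall fun _ => rfl)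



/-! ### the instance -/



end Crest.Agent.R165.PTopx386
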