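import Crest.Agent.R165.GeoRb_416
import Crest.Agent.R165.GeoP4_67
import Crest.Agent.R165.GeoP5_67
import Crest.Agent.R165.Tp_416

/-!
R165, block GEO, part 10: the Riemann map of a domain with uniform charts is bi-Lipschitz; so is every conformal
bijection between two such domains; extension to the closures.
-/

set_option autoImplicit false

namespace Crest.Agent.R165.Geo

open Complex Set Metric Filter Topology
open Crest.Agent.R165.Tp416 (BiL)
open scoped NNReal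

variable {D D' : Set ℂ} {r M r' M' : ℝ} {z₀ : ℂ} {φ ψ : ℂ → ℂ}

theorem toRMp (R : GeoPx67.RMap D z₀ φ ψ) : RMp D ψ φ :=
  ⟨R.diff', R.diff, R.maps', R.maps, R.right, R.left⟩

/-- any conformal parametrisation by the disc of a domain with charts is bi-Lipschitz -/
theorem CD.biL_of_RMp (h : CD D r M) (R : RMp D ψ φ) : BiL (ball 0 1) D ψ where
  open' := isOpen_ball
  open_ := h.isOpen
  bdd := h.bdd
  ne := h.conn.nonempty
  diff := R.dψ
  bij := ⟨R.mψ, fun a ha b hb hab => by rw [← R.φψ a ha, ← R.φψ b hb, hab],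
    fun z hz => ⟨φ z, R.mφ hz, R.ψφ z hz⟩⟩
  lip := by
    obtain ⟨C, hC, hd⟩ := R.dψ_le h
    refine ⟨C, fun w hw w' hw' => ?_⟩
    exact Convex.norm_image_sub_le_of_norm_deriv_le
      (fun z hz => R.dψ.differentiableAt (isOpen_ball.mem_nhds hz)) (fun z hz => hd z hz)
      (convex_ball _ _) hw' hw
  lip' := by
    obtain ⟨B, hB, hd⟩ := R.dφ_le h
    obtain ⟨C, hC, hl⟩ := GeoPx67.CD.lipC h
    refine ⟨C * B, fun w hw w' hw' => ?_⟩
    have := hl φ B hB.le R.dφ hd (ψ w') (R.mψ hw') (ψ w) (R.mψ hw)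
    rwa [R.φψ w hw, R.φψ w' hw'] at this

theorem CD.biL_disc (h : CD D r M) (R : GeoPx67.RMap D z₀ φ ψ) : BiL (ball 0 1) D ψ := h.biL_of_RMp (toRMp R)

/-- a conformal bijection between two domains with charts is bi-Lipschitz. -/
theorem CD.biL (h : CD D r M) (h' : CD D' r' M') {f : ℂ → ℂ} (hf : DifferentiableOn ℂ f D')
    (hb : BijOn f D' D) : BiL D' D f := by
  obtain ⟨z₀, hz₀⟩ := h'.conn.nonempty
  obtain ⟨φ', ψ', R'⟩ := GeoPx67.CD.exists_rmap h' hz₀
  obtain ⟨g, hg1, -, hg2, hg3, hg4⟩ := Crest.Agent.Lib.exists_holomorphic_inverse h'.isOpen hf hb.injOn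
  rw [hb.image_eq] at hg1 hg2 hg4
  have hgm : MapsTo g D D' := fun z hz => by rw [← hg2]; exact mem_image_of_mem g hz
  have R : RMp D (fun w => f (ψ' w)) (fun z => φ' (g z)) :=
    { dψ := hf.comp R'.diff' R'.maps'
      dφ := R'.diff.comp hg1 hgm
      mψ := fun w hw => hb.mapsTo (R'.maps' hw)
      mφ := fun z hz => R'.maps (hgm hz)
      φψ := fun w hw => by
        show φ' (g (f (ψ' w))) = w
        rw [hg3 _ (R'.maps' hw), R'.right w hw]
      ψφ := fun z hz => by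
        show f (ψ' (φ' (g z))) = z
        rw [R'.left _ (hgm hz), hg4 z hz] }
  have B1 := h.biL_of_RMp R
  have B2 := h'.biL_disc R'
  obtain ⟨C1, hC1⟩ := B1.lip
  obtain ⟨C1', hC1'⟩ := B1.lip'
  obtain ⟨C2, hC2⟩ := B2.lip
  obtain ⟨C2', hC2'⟩ := B2.lip'
  have hw : ∀ z ∈ D', ψ' (φ' z) = z := R'.left
  refine ⟨h'.isOpen, h.isOpen, h.bdd, h.conn.nonempty, hf, hb, ?_, ?_⟩
  · refine ⟨|C1| * C2', fun w hw1 w' hw1' => ?_⟩
    have a1 := hC1 _ (R'.maps hw1) _ (R'.maps hw1')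
    have a2 := hC2' _ (R'.maps hw1) _ (R'.maps hw1')
    simp only [hw w hw1, hw w' hw1'] at a1 a2
    calc ‖f w - f w'‖ ≤ C1 * ‖φ' w - φ' w'‖ := a1
      _ ≤ |C1| * ‖φ' w - φ' w'‖ := mul_le_mul_of_nonneg_right (le_abs_self _) (norm_nonneg _)
      _ ≤ |C1| * (C2' * ‖w - w'‖) := mul_le_mul_of_nonneg_left a2 (abs_nonneg _)
      _ = |C1| * C2' * ‖w - w'‖ := by ring
  · refine ⟨|C2| * C1', fun w hw1 w' hw1' => ?_⟩
    have a1 := hC2 _ (R'.maps hw1) _ (R'.maps hw1')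
    have a2 := hC1' _ (R'.maps hw1) _ (R'.maps hw1')
    simp only [hw w hw1, hw w' hw1'] at a1 a2
    calc ‖w - w'‖ ≤ C2 * ‖φ' w - φ' w'‖ := a1
      _ ≤ |C2| * ‖φ' w - φ' w'‖ := mul_le_mul_of_nonneg_right (le_abs_self _) (norm_nonneg _)
      _ ≤ |C2| * (C1' * ‖f w - f w'‖) := mul_le_mul_of_nonneg_left a2 (abs_nonneg _)
      _ = |C2| * C1' * ‖f w - f w'‖ := by ring


end Crest.Agent.R165.Geo
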