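import Crest.Agent.R165.PotB_894
import Crest.Agent.R165.Tr1_40

/-!
# R165 / LimA (helper894): interior estimates for exact solutions in a plane-gauge box

`ψ` solves the critical plane equation on `Q f 1` ⇒ each component is 5-point harmonic at `f`
(`lap_comp`), the heavy part is a first difference (`Ph_eq`), the light part of the row equation
is the discrete `∂̄` relation (`dbar_rel`).  Consequences: `interior_list`, `ph_bound`.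
-/

set_option autoImplicit false

namespace Crest.Agent.R165.LimAx894

open Finset Crest.Agent.R165.PotAx894 Crest.Agent.R165.PotBx894 Crest.Agent.R165.Tr1x40

private theorem core0 (G : ℤ → ℤ → Fin 4 → ℝ) (x : ℝ) (hx : x ^ 2 + 2 * x - 1 = 0)
    (R0 : ∀ a b : ℤ, |a| ≤ 1 → |b| ≤ 1 → G a b 1 + G a b 2 + G a b 3 + x * G a (b - 1) 2 = 0)
    (R1 : ∀ a b : ℤ, |a| ≤ 1 → |b| ≤ 1 → -G a b 0 + G a b 2 + G a b 3 + x * G (a + 1) b 3 = 0)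
    (R2 : ∀ a b : ℤ, |a| ≤ 1 → |b| ≤ 1 → -G a b 0 - G a b 1 + G a b 3 - x * G a (b + 1) 0 = 0)
    (R3 : ∀ a b : ℤ, |a| ≤ 1 → |b| ≤ 1 → -G a b 0 - G a b 1 - G a b 2 - x * G (a - 1) b 1 = 0) :
    (2 - 4 * x) * (G 1 0 0 + G (-1) 0 0 + G 0 1 0 + G 0 (-1) 0 - 4 * G 0 0 0) = 0 := by
  have r0mz : G (-1) 0 1 + G (-1) 0 2 + G (-1) 0 3 + x * G (-1) (-1) 2 = 0 :=
    R0 (-1) 0 (by norm_num) (by norm_num)
  have r0pz : G 1 0 1 + G 1 0 2 + G 1 0 3 + x * G 1 (-1) 2 = 0 :=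
    R0 1 0 (by norm_num) (by norm_num)
  have r1mm : -G (-1) (-1) 0 + G (-1) (-1) 2 + G (-1) (-1) 3 + x * G 0 (-1) 3 = 0 :=
    R1 (-1) (-1) (by norm_num) (by norm_num)
  have r1mz : -G (-1) 0 0 + G (-1) 0 2 + G (-1) 0 3 + x * G 0 0 3 = 0 :=
    R1 (-1) 0 (by norm_num) (by norm_num)
  have r1zm : -G 0 (-1) 0 + G 0 (-1) 2 + G 0 (-1) 3 + x * G 1 (-1) 3 = 0 :=
    R1 0 (-1) (by norm_num) (by norm_num)
  have r1zz : -G 0 0 0 + G 0 0 2 + G 0 0 3 + x * G 1 0 3 = 0 :=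
    R1 0 0 (by norm_num) (by norm_num)
  have r2mm : -G (-1) (-1) 0 - G (-1) (-1) 1 + G (-1) (-1) 3 - x * G (-1) 0 0 = 0 :=
    R2 (-1) (-1) (by norm_num) (by norm_num)
  have r2pm : -G 1 (-1) 0 - G 1 (-1) 1 + G 1 (-1) 3 - x * G 1 0 0 = 0 :=
    R2 1 (-1) (by norm_num) (by norm_num)
  have r2zm : -G 0 (-1) 0 - G 0 (-1) 1 + G 0 (-1) 3 - x * G 0 0 0 = 0 :=
    R2 0 (-1) (by norm_num) (by norm_num)
  have r2zz : -G 0 0 0 - G 0 0 1 + G 0 0 3 - x * G 0 1 0 = 0 :=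
    R2 0 0 (by norm_num) (by norm_num)
  have r3pm : -G 1 (-1) 0 - G 1 (-1) 1 - G 1 (-1) 2 - x * G 0 (-1) 1 = 0 :=
    R3 1 (-1) (by norm_num) (by norm_num)
  have r3pz : -G 1 0 0 - G 1 0 1 - G 1 0 2 - x * G 0 0 1 = 0 :=
    R3 1 0 (by norm_num) (by norm_num)
  have r3zm : -G 0 (-1) 0 - G 0 (-1) 1 - G 0 (-1) 2 - x * G (-1) (-1) 1 = 0 :=
    R3 0 (-1) (by norm_num) (by norm_num)
  have r3zz : -G 0 0 0 - G 0 0 1 - G 0 0 2 - x * G (-1) 0 1 = 0 :=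
    R3 0 0 (by norm_num) (by norm_num)
  linear_combination - (0 + -1 * x) * r0mz - (0 + 1 * x) * r0pz - (0 + 1 * x) * r1mz - (0 + 1 * x) * r1zm - (1 + -2 * x) * r1mm - (-1 + 0 * x) * r1zz - (0 + 2 * x) * r2zz - (2 + -6 * x) * r2zm - (-1 + 2 * x) * r2mm - (-1 + 2 * x) * r2pm - (0 + 1 * x) * r3pz - (0 + 1 * x) * r3zm - (1 + -2 * x) * r3pm - (-1 + 0 * x) * r3zz + ((-1) * G (-1) (-1) 2 + (1) * G 1 (-1) 2 + (1) * G 0 0 3 + (1) * G 1 (-1) 3 + (-2) * G 0 (-1) 3 + (-2) * G 0 1 0 + (6) * G 0 0 0 + (-2) * G (-1) 0 0 + (-2) * G 1 0 0 + (-1) * G 0 0 1 + (-1) * G (-1) (-1) 1 + (2) * G 0 (-1) 1) * hx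

private theorem core1 (G : ℤ → ℤ → Fin 4 → ℝ) (x : ℝ) (hx : x ^ 2 + 2 * x - 1 = 0)
    (R0 : ∀ a b : ℤ, |a| ≤ 1 → |b| ≤ 1 → G a b 1 + G a b 2 + G a b 3 + x * G a (b - 1) 2 = 0)
    (R1 : ∀ a b : ℤ, |a| ≤ 1 → |b| ≤ 1 → -G a b 0 + G a b 2 + G a b 3 + x * G (a + 1) b 3 = 0)
    (R2 : ∀ a b : ℤ, |a| ≤ 1 → |b| ≤ 1 → -G a b 0 - G a b 1 + G a b 3 - x * G a (b + 1) 0 = 0)
    (R3 : ∀ a b : ℤ, |a| ≤ 1 → |b| ≤ 1 → -G a b 0 - G a b 1 - G a b 2 - x * G (a - 1) b 1 = 0) :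
    (2 - 4 * x) * (G 1 0 1 + G (-1) 0 1 + G 0 1 1 + G 0 (-1) 1 - 4 * G 0 0 1) = 0 := by
  have r0pp : G 1 1 1 + G 1 1 2 + G 1 1 3 + x * G 1 0 2 = 0 :=
    R0 1 1 (by norm_num) (by norm_num)
  have r0pz : G 1 0 1 + G 1 0 2 + G 1 0 3 + x * G 1 (-1) 2 = 0 :=
    R0 1 0 (by norm_num) (by norm_num)
  have r0zp : G 0 1 1 + G 0 1 2 + G 0 1 3 + x * G 0 0 2 = 0 :=
    R0 0 1 (by norm_num) (by norm_num)
  have r0zz : G 0 0 1 + G 0 0 2 + G 0 0 3 + x * G 0 (-1) 2 = 0 :=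
    R0 0 0 (by norm_num) (by norm_num)
  have r1zm : -G 0 (-1) 0 + G 0 (-1) 2 + G 0 (-1) 3 + x * G 1 (-1) 3 = 0 :=
    R1 0 (-1) (by norm_num) (by norm_num)
  have r1zp : -G 0 1 0 + G 0 1 2 + G 0 1 3 + x * G 1 1 3 = 0 :=
    R1 0 1 (by norm_num) (by norm_num)
  have r2pm : -G 1 (-1) 0 - G 1 (-1) 1 + G 1 (-1) 3 - x * G 1 0 0 = 0 :=
    R2 1 (-1) (by norm_num) (by norm_num)
  have r2pz : -G 1 0 0 - G 1 0 1 + G 1 0 3 - x * G 1 1 0 = 0 :=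
    R2 1 0 (by norm_num) (by norm_num)
  have r2zm : -G 0 (-1) 0 - G 0 (-1) 1 + G 0 (-1) 3 - x * G 0 0 0 = 0 :=
    R2 0 (-1) (by norm_num) (by norm_num)
  have r2zz : -G 0 0 0 - G 0 0 1 + G 0 0 3 - x * G 0 1 0 = 0 :=
    R2 0 0 (by norm_num) (by norm_num)
  have r3pm : -G 1 (-1) 0 - G 1 (-1) 1 - G 1 (-1) 2 - x * G 0 (-1) 1 = 0 :=
    R3 1 (-1) (by norm_num) (by norm_num)
  have r3pp : -G 1 1 0 - G 1 1 1 - G 1 1 2 - x * G 0 1 1 = 0 :=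
    R3 1 1 (by norm_num) (by norm_num)
  have r3pz : -G 1 0 0 - G 1 0 1 - G 1 0 2 - x * G 0 0 1 = 0 :=
    R3 1 0 (by norm_num) (by norm_num)
  have r3zz : -G 0 0 0 - G 0 0 1 - G 0 0 2 - x * G (-1) 0 1 = 0 :=
    R3 0 0 (by norm_num) (by norm_num)
  linear_combination - (0 + -1 * x) * r0zp - (0 + -1 * x) * r0pz - (-1 + 2 * x) * r0pp - (1 + 0 * x) * r0zz - (0 + -1 * x) * r1zm - (0 + 1 * x) * r1zp - (0 + 1 * x) * r2pz - (0 + 1 * x) * r2zm - (1 + -2 * x) * r2pm - (-1 + 0 * x) * r2zz - (0 + 2 * x) * r3zz - (2 + -6 * x) * r3pz - (-1 + 2 * x) * r3pp - (-1 + 2 * x) * r3pm + ((-1) * G 0 0 2 + (-1) * G 1 (-1) 2 + (2) * G 1 0 2 + (-1) * G 1 (-1) 3 + (1) * G 1 1 3 + (-1) * G 1 1 0 + (-1) * G 0 0 0 + (2) * G 1 0 0 + (-2) * G (-1) 0 1 + (6) * G 0 0 1 + (-2) * G 0 1 1 + (-2) * G 0 (-1) 1) * hx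

private theorem core2 (G : ℤ → ℤ → Fin 4 → ℝ) (x : ℝ) (hx : x ^ 2 + 2 * x - 1 = 0)
    (R0 : ∀ a b : ℤ, |a| ≤ 1 → |b| ≤ 1 → G a b 1 + G a b 2 + G a b 3 + x * G a (b - 1) 2 = 0)
    (R1 : ∀ a b : ℤ, |a| ≤ 1 → |b| ≤ 1 → -G a b 0 + G a b 2 + G a b 3 + x * G (a + 1) b 3 = 0)
    (R2 : ∀ a b : ℤ, |a| ≤ 1 → |b| ≤ 1 → -G a b 0 - G a b 1 + G a b 3 - x * G a (b + 1) 0 = 0)
    (R3 : ∀ a b : ℤ, |a| ≤ 1 → |b| ≤ 1 → -G a b 0 - G a b 1 - G a b 2 - x * G (a - 1) b 1 = 0) :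
    (2 - 4 * x) * (G 1 0 2 + G (-1) 0 2 + G 0 1 2 + G 0 (-1) 2 - 4 * G 0 0 2) = 0 := by
  have r0mp : G (-1) 1 1 + G (-1) 1 2 + G (-1) 1 3 + x * G (-1) 0 2 = 0 :=
    R0 (-1) 1 (by norm_num) (by norm_num)
  have r0pp : G 1 1 1 + G 1 1 2 + G 1 1 3 + x * G 1 0 2 = 0 :=
    R0 1 1 (by norm_num) (by norm_num)
  have r0zp : G 0 1 1 + G 0 1 2 + G 0 1 3 + x * G 0 0 2 = 0 :=
    R0 0 1 (by norm_num) (by norm_num)
  have r0zz : G 0 0 1 + G 0 0 2 + G 0 0 3 + x * G 0 (-1) 2 = 0 :=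
    R0 0 0 (by norm_num) (by norm_num)
  have r1mp : -G (-1) 1 0 + G (-1) 1 2 + G (-1) 1 3 + x * G 0 1 3 = 0 :=
    R1 (-1) 1 (by norm_num) (by norm_num)
  have r1mz : -G (-1) 0 0 + G (-1) 0 2 + G (-1) 0 3 + x * G 0 0 3 = 0 :=
    R1 (-1) 0 (by norm_num) (by norm_num)
  have r1zp : -G 0 1 0 + G 0 1 2 + G 0 1 3 + x * G 1 1 3 = 0 :=
    R1 0 1 (by norm_num) (by norm_num)
  have r1zz : -G 0 0 0 + G 0 0 2 + G 0 0 3 + x * G 1 0 3 = 0 :=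
    R1 0 0 (by norm_num) (by norm_num)
  have r2mz : -G (-1) 0 0 - G (-1) 0 1 + G (-1) 0 3 - x * G (-1) 1 0 = 0 :=
    R2 (-1) 0 (by norm_num) (by norm_num)
  have r2pz : -G 1 0 0 - G 1 0 1 + G 1 0 3 - x * G 1 1 0 = 0 :=
    R2 1 0 (by norm_num) (by norm_num)
  have r3pp : -G 1 1 0 - G 1 1 1 - G 1 1 2 - x * G 0 1 1 = 0 :=
    R3 1 1 (by norm_num) (by norm_num)
  have r3pz : -G 1 0 0 - G 1 0 1 - G 1 0 2 - x * G 0 0 1 = 0 :=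
    R3 1 0 (by norm_num) (by norm_num)
  have r3zp : -G 0 1 0 - G 0 1 1 - G 0 1 2 - x * G (-1) 1 1 = 0 :=
    R3 0 1 (by norm_num) (by norm_num)
  have r3zz : -G 0 0 0 - G 0 0 1 - G 0 0 2 - x * G (-1) 0 1 = 0 :=
    R3 0 0 (by norm_num) (by norm_num)
  linear_combination - (0 + -2 * x) * r0zz - (-2 + 6 * x) * r0zp - (1 + -2 * x) * r0mp - (1 + -2 * x) * r0pp - (0 + -1 * x) * r1mz - (0 + -1 * x) * r1zp - (-1 + 2 * x) * r1mp - (1 + 0 * x) * r1zz - (0 + -1 * x) * r2pz - (0 + 1 * x) * r2mz - (0 + 1 * x) * r3zp - (0 + 1 * x) * r3pz - (1 + -2 * x) * r3pp - (-1 + 0 * x) * r3zz + ((-2) * G 0 (-1) 2 + (6) * G 0 0 2 + (-2) * G (-1) 0 2 + (-2) * G 1 0 2 + (-1) * G 0 0 3 + (-1) * G 1 1 3 + (2) * G 0 1 3 + (1) * G 1 1 0 + (-1) * G (-1) 1 0 + (-1) * G (-1) 1 1 + (-1) * G 0 0 1 + (2) * G 0 1 1) * hx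

private theorem core3 (G : ℤ → ℤ → Fin 4 → ℝ) (x : ℝ) (hx : x ^ 2 + 2 * x - 1 = 0)
    (R0 : ∀ a b : ℤ, |a| ≤ 1 → |b| ≤ 1 → G a b 1 + G a b 2 + G a b 3 + x * G a (b - 1) 2 = 0)
    (R1 : ∀ a b : ℤ, |a| ≤ 1 → |b| ≤ 1 → -G a b 0 + G a b 2 + G a b 3 + x * G (a + 1) b 3 = 0)
    (R2 : ∀ a b : ℤ, |a| ≤ 1 → |b| ≤ 1 → -G a b 0 - G a b 1 + G a b 3 - x * G a (b + 1) 0 = 0)
    (R3 : ∀ a b : ℤ, |a| ≤ 1 → |b| ≤ 1 → -G a b 0 - G a b 1 - G a b 2 - x * G (a - 1) b 1 = 0) :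
    (2 - 4 * x) * (G 1 0 3 + G (-1) 0 3 + G 0 1 3 + G 0 (-1) 3 - 4 * G 0 0 3) = 0 := by
  have r0mp : G (-1) 1 1 + G (-1) 1 2 + G (-1) 1 3 + x * G (-1) 0 2 = 0 :=
    R0 (-1) 1 (by norm_num) (by norm_num)
  have r0mz : G (-1) 0 1 + G (-1) 0 2 + G (-1) 0 3 + x * G (-1) (-1) 2 = 0 :=
    R0 (-1) 0 (by norm_num) (by norm_num)
  have r0zp : G 0 1 1 + G 0 1 2 + G 0 1 3 + x * G 0 0 2 = 0 :=
    R0 0 1 (by norm_num) (by norm_num)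
  have r0zz : G 0 0 1 + G 0 0 2 + G 0 0 3 + x * G 0 (-1) 2 = 0 :=
    R0 0 0 (by norm_num) (by norm_num)
  have r1mm : -G (-1) (-1) 0 + G (-1) (-1) 2 + G (-1) (-1) 3 + x * G 0 (-1) 3 = 0 :=
    R1 (-1) (-1) (by norm_num) (by norm_num)
  have r1mp : -G (-1) 1 0 + G (-1) 1 2 + G (-1) 1 3 + x * G 0 1 3 = 0 :=
    R1 (-1) 1 (by norm_num) (by norm_num)
  have r1mz : -G (-1) 0 0 + G (-1) 0 2 + G (-1) 0 3 + x * G 0 0 3 = 0 :=
    R1 (-1) 0 (by norm_num) (by norm_num)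
  have r1zz : -G 0 0 0 + G 0 0 2 + G 0 0 3 + x * G 1 0 3 = 0 :=
    R1 0 0 (by norm_num) (by norm_num)
  have r2mm : -G (-1) (-1) 0 - G (-1) (-1) 1 + G (-1) (-1) 3 - x * G (-1) 0 0 = 0 :=
    R2 (-1) (-1) (by norm_num) (by norm_num)
  have r2mz : -G (-1) 0 0 - G (-1) 0 1 + G (-1) 0 3 - x * G (-1) 1 0 = 0 :=
    R2 (-1) 0 (by norm_num) (by norm_num)
  have r2zm : -G 0 (-1) 0 - G 0 (-1) 1 + G 0 (-1) 3 - x * G 0 0 0 = 0 :=
    R2 0 (-1) (by norm_num) (by norm_num)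
  have r2zz : -G 0 0 0 - G 0 0 1 + G 0 0 3 - x * G 0 1 0 = 0 :=
    R2 0 0 (by norm_num) (by norm_num)
  have r3zm : -G 0 (-1) 0 - G 0 (-1) 1 - G 0 (-1) 2 - x * G (-1) (-1) 1 = 0 :=
    R3 0 (-1) (by norm_num) (by norm_num)
  have r3zp : -G 0 1 0 - G 0 1 1 - G 0 1 2 - x * G (-1) 1 1 = 0 :=
    R3 0 1 (by norm_num) (by norm_num)
  linear_combination - (0 + -1 * x) * r0mz - (0 + -1 * x) * r0zp - (-1 + 2 * x) * r0mp - (1 + 0 * x) * r0zz - (0 + -2 * x) * r1zz - (-2 + 6 * x) * r1mz - (1 + -2 * x) * r1mp - (1 + -2 * x) * r1mm - (0 + -1 * x) * r2mz - (0 + -1 * x) * r2zm - (-1 + 2 * x) * r2mm - (1 + 0 * x) * r2zz - (0 + -1 * x) * r3zp - (0 + 1 * x) * r3zm + ((-1) * G (-1) (-1) 2 + (-1) * G 0 0 2 + (2) * G (-1) 0 2 + (-2) * G 1 0 3 + (6) * G 0 0 3 + (-2) * G 0 1 3 + (-2) * G 0 (-1) 3 + (1) * G (-1) 1 0 + (1) * G 0 0 0 + (-2) * G (-1) 0 0 + (1) * G (-1)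 1 1 + (-1) * G (-1) (-1) 1) * hx

/-- each component of an exact solution (critical plane weights on the `3 × 3` block) is harmonic -/
theorem lap_comp {φ : Fld} {f : Face} (h : ∀ g ∈ Q f 1, ∀ k, A (fun _ _ => xc) φ g k = 0)
    (a : Fin 4) : lap (fun g => φ g a) f = 0 := by
  obtain ⟨i, j⟩ := f
  have hx : xc ^ 2 + 2 * xc - 1 = 0 := by linarith [xc_sq]
  have hmem : ∀ a b : ℤ, |a| ≤ 1 → |b| ≤ 1 → (i + a, j + b) ∈ Q (i, j) 1 := by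
    intro a b ha hb
    rw [mem_Q]; simp only [add_sub_cancel_left, Nat.cast_one]; exact ⟨ha, hb⟩
  set G : ℤ → ℤ → Fin 4 → ℝ := fun a b k => φ (i + a, j + b) k with hG
  have R0 : ∀ a b : ℤ, |a| ≤ 1 → |b| ≤ 1 → G a b 1 + G a b 2 + G a b 3 + xc * G a (b - 1) 2 = 0 := by
    intro a b ha hb
    have := h _ (hmem a b ha hb) 0
    rw [A_S] at this
    have e : j + (b - 1) = j + b - 1 := by ring
    simp only [hG, e]; exact this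
  have R1 : ∀ a b : ℤ, |a| ≤ 1 → |b| ≤ 1 → -G a b 0 + G a b 2 + G a b 3 + xc * G (a + 1) b 3 = 0 := by
    intro a b ha hb
    have := h _ (hmem a b ha hb) 1
    rw [A_E] at this
    have e : i + (a + 1) = i + a + 1 := by ring
    simp only [hG, e]; exact this
  have R2 : ∀ a b : ℤ, |a| ≤ 1 → |b| ≤ 1 → -G a b 0 - G a b 1 + G a b 3 - xc * G a (b + 1) 0 = 0 := by
    intro a b ha hb
    have := h _ (hmem a b ha hb) 2
    rw [A_N] at this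
    have e : j + (b + 1) = j + b + 1 := by ring
    simp only [hG, e]; exact this
  have R3 : ∀ a b : ℤ, |a| ≤ 1 → |b| ≤ 1 → -G a b 0 - G a b 1 - G a b 2 - xc * G (a - 1) b 1 = 0 := by
    intro a b ha hb
    have := h _ (hmem a b ha hb) 3
    rw [A_W] at this
    have e : i + (a - 1) = i + a - 1 := by ring
    simp only [hG, e]; exact this
  have hx1 : (2 - 4 * xc) ≠ 0 := by
    have := xc_lt_half
    intro h0; linarith
  have conv : lap (fun g => φ g a) (i, j)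
      = G 1 0 a + G (-1) 0 a + G 0 1 a + G 0 (-1) a - 4 * G 0 0 a := by
    simp only [lap, e1, e2, Prod.mk_add_mk, Prod.neg_mk, hG, sub_eq_add_neg, add_zero, neg_zero]
  rw [conv]
  fin_cases a
  · exact (mul_eq_zero.mp (core0 G xc hx R0 R1 R2 R3)).resolve_left hx1
  · exact (mul_eq_zero.mp (core1 G xc hx R0 R1 R2 R3)).resolve_left hx1
  · exact (mul_eq_zero.mp (core2 G xc hx R0 R1 R2 R3)).resolve_left hx1
  · exact (mul_eq_zero.mp (core3 G xc hx R0 R1 R2 R3)).resolve_left hx1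

/-! ### gauge -/

/-- gauge transformation of a field -/
def gau (s : Face → ℝ) (φ : Fld) : Fld := fun f h => s f * φ f h

theorem A_gau {w φ : Fld} {s : Face → ℝ} {f : Face} (hs : s f ^ 2 = 1)
    (hw : ∀ h, w f h = s f * s (nb f h) * xc) (h : Fin 4) :
    A (fun _ _ => xc) (gau s φ) f h = s f * A w φ f h := by
  have h0 := hw 0
  have h1 := hw 1
  have h2 := hw 2
  have h3 := hw 3
  simp only [nb_zero, nb_one, nb_two, nb_three] at h0 h1 h2 h3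
  fin_cases h
  · show A _ _ f 0 = s f * A w φ f 0
    rw [A_S, A_S, h0]; unfold gau
    linear_combination (-(s (f.1, f.2 - 1) * xc * φ (f.1, f.2 - 1) 2)) * hs
  · show A _ _ f 1 = s f * A w φ f 1
    rw [A_E, A_E, h1]; unfold gau
    linear_combination (-(s (f.1 + 1, f.2) * xc * φ (f.1 + 1, f.2) 3)) * hs
  · show A _ _ f 2 = s f * A w φ f 2
    rw [A_N, A_N, h2]; unfold gau
    linear_combination ((s (f.1, f.2 + 1) * xc * φ (f.1, f.2 + 1) 0)) * hs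
  · show A _ _ f 3 = s f * A w φ f 3
    rw [A_W, A_W, h3]; unfold gau
    linear_combination ((s (f.1 - 1, f.2) * xc * φ (f.1 - 1, f.2) 1)) * hs

theorem nsq_gau {φ : Fld} {s : Face → ℝ} {f : Face} (hs : s f ^ 2 = 1) :
    nsq (gau s φ f) = nsq (φ f) := by
  unfold nsq gau
  refine sum_congr rfl fun h _ => ?_
  rw [mul_pow, hs, one_mul]

/-! ### heavy part and the discrete `∂̄` relation -/

/-- `κ = x_c / (2√2)` -/
noncomputable def kap : ℝ := xc / (2 * Real.sqrt 2)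






section heavy

variable {φ : Fld} {f : Face} (h : ∀ k, A (fun _ _ => xc) φ f k = 0)

include h







end heavy

/-! ### light amplitude -/

/-- real part of the light amplitude `c`: `p_d = Re (c e^{-3iθ_d/2}) + heavy` -/
noncomputable def cr (p : Fin 4 → ℝ) : ℝ := (p 1 - (p 0 + p 2) / Real.sqrt 2) / 2
/-- imaginary part of the light amplitude -/
noncomputable def ci (p : Fin 4 → ℝ) : ℝ := (- p 3 + (p 2 - p 0) / Real.sqrt 2) / 2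









/-! ### pointwise estimates -/

/-- exact on the box of radius `r` (critical plane weights) -/
def Exact (φ : Fld) (c : Face) (r : ℕ) : Prop := ∀ g ∈ Q c r, ∀ k, A (fun _ _ => xc) φ g k = 0

theorem Exact.harm {φ : Fld} {c : Face} {r : ℕ} (h : Exact φ c r) (hr : 0 < r) (a : Fin 4) :
    Harm (fun g => φ g a) c (r - 1) := by
  intro z hz
  apply lap_comp
  intro g hg
  exact h g (Q_sub_Q hz (by omega) hg)

/-- squared `l²` norm on the box -/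
noncomputable def S2 (φ : Fld) (c : Face) (r : ℕ) : ℝ := ∑ f ∈ Q c r, nsq (φ f)

theorem S2_nonneg (φ : Fld) (c : Face) (r : ℕ) : 0 ≤ S2 φ c r :=
  Finset.sum_nonneg fun _ _ => nsq_nonneg _

theorem comp_le_S2 (φ : Fld) (c : Face) (r : ℕ) (a : Fin 4) :
    ∑ f ∈ Q c r, φ f a ^ 2 ≤ S2 φ c r := by
  apply Finset.sum_le_sum
  intro f _
  exact Finset.single_le_sum (f := fun a => φ f a ^ 2) (fun _ _ => sq_nonneg _) (Finset.mem_univ a)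

/-- sup bound for the components -/
theorem comp_sup {φ : Fld} {c : Face} {r : ℕ} (hr : 0 < r) (h : Exact φ c r) (a : Fin 4)
    {z : Face} (hz : z ∈ Q c (r / 4)) : |φ z a| ≤ 338 / r * Real.sqrt (S2 φ c r) := by
  have hr0 : (0 : ℝ) < r := by exact_mod_cast hr
  have h1 := interior_sq hr (h.harm hr a) hz
  have h2 := comp_le_S2 φ c r a
  apply abs_le_of_sq_le_sq _ (by positivity)
  rw [mul_pow, Real.sq_sqrt (S2_nonneg φ c r)]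
  calc φ z a ^ 2 ≤ 113729 / (r : ℝ) ^ 2 * ∑ w ∈ Q c r, φ w a ^ 2 := h1
    _ ≤ 113729 / (r : ℝ) ^ 2 * S2 φ c r := by gcongr
    _ ≤ (338 / (r : ℝ)) ^ 2 * S2 φ c r := by
        apply mul_le_mul_of_nonneg_right _ (S2_nonneg φ c r)
        rw [div_pow]; gcongr; norm_num






/-! ### differences of the light amplitude -/







/-! ### gauge form -/

/-- exactness in a gauge: `w f h = s f * s (nb f h) * xc` on the box -/
theorem exact_gau {w φ : Fld} {s : Face → ℝ} {c : Face} {r : ℕ} (hs : ∀ f ∈ Q c r, s f ^ 2 = 1)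
    (hw : ∀ f ∈ Q c r, ∀ h, w f h = s f * s (nb f h) * xc)
    (hA : ∀ f ∈ Q c r, ∀ h, A w φ f h = 0) : Exact (gau s φ) c r := by
  intro f hf h
  rw [A_gau (hs f hf) (hw f hf), hA f hf h, mul_zero]

theorem S2_gau {φ : Fld} {s : Face → ℝ} {c : Face} {r : ℕ} (hs : ∀ f ∈ Q c r, s f ^ 2 = 1) :
    S2 (gau s φ) c r = S2 φ c r :=
  Finset.sum_congr rfl fun f hf => nsq_gau (hs f hf)

end Crest.Agent.R165.LimAx894
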