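import Crest.Agent.R165.Pl0b_654
import Crest.Agent.R165.SpC_583
import Crest.Agent.R165.Sym_541
import Crest.Agent.R165.LimA_894
import Crest.Agent.R165.J1b_606
import Crest.Agent.R165.UKer_420
import Crest.Agent.R165.Red2_541
import Crest.Agent.R165.UFin_420

-- ▼ part R165/Pl1_654
section

/-!
# Row 165 (S0250), plane clause (helper654): rays, finite cuts, the covariance of the plane

* `gau s w`, `Aop_gau`, `isCov_gau`  : gauge transformations
* `kp N M X`                         : signs of the finite cut set (paths from `X i` to `(N, M)`)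
* `gau_ray`                          : for `n` even the ray background is gauge equivalent to the cut
* `BX`, `prod_BX`                    : `∏_{e ∈ BX} ε_e = ∏_i σ_{X i}`
* `exists_isCov_plane`, `isCov_unique` : existence, uniqueness of the covariance
-/

set_option autoImplicit false

noncomputable section

namespace Crest.Agent.R165.Pl1x654

open Finset Filter Topology
open Crest.ProbabilityR.IsingModel
open Crest.Agent.R165
open Crest.Agent.R165.Latx683 (BW Aop wPl yE yN xc IsCov hp hq ray wX Aop_S Aop_E Aop_N Aop_W)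
open Crest.Agent.R165.J1ax606 (HE EG pe qe bb)
open Crest.Agent.R165.Pl0x654 (Crit uniq_of_bound)
open Crest.Agent.R165.Pl0bx654

/-! ### gauge transformations -/

/-- gauge transform of a background -/
def gau (s : ℤ × ℤ → ℝ) (w : BW ℤ) : BW ℤ := fun z j => s (hp z j).1 * s (hq z j).1 * w z j

theorem gau_gau {s : ℤ × ℤ → ℝ} (hs : ∀ f, s f * s f = 1) (w : BW ℤ) : gau s (gau s w) = w := by
  funext z j
  unfold gau
  linear_combination (w z j * s (hq z j).1 * s (hq z j).1) * hs (hp z j).1 + w z j * hs (hq z j).1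

theorem Aop_gau {s : ℤ × ℤ → ℝ} (hs : ∀ f, s f * s f = 1) (w : BW ℤ) (φ : HE ℤ → ℝ) (g : HE ℤ) :
    Aop (gau s w) (fun h => s h.1 * φ h) g = s g.1 * Aop w φ g := by
  obtain ⟨⟨i, j⟩, d⟩ := g
  fin_cases d
  · simp only [Fin.zero_eta, Aop_S, gau, yN, Latx683.hp_zero, Latx683.hq_zero, sub_add_cancel]
    linear_combination (s (i, j) * w (i, j) 0 * φ ((i, j - 1), 2)) * hs (i, j - 1)
  · simp only [Fin.mk_one, Aop_E, gau, yE, Latx683.hp_one, Latx683.hq_one, add_sub_cancel_right]
    linear_combination (s (i, j) * w (i + 1, j) 1 * φ ((i + 1, j), 3)) * hs (i + 1, j)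
  · simp only [Fin.reduceFinMk, Aop_N, gau, yN, Latx683.hp_zero, Latx683.hq_zero,
      add_sub_cancel_right]
    linear_combination (-(s (i, j) * w (i, j + 1) 0 * φ ((i, j + 1), 0))) * hs (i, j + 1)
  · simp only [Fin.reduceFinMk, Aop_W, gau, yE, Latx683.hp_one, Latx683.hq_one, sub_add_cancel]
    linear_combination (-(s (i, j) * w (i, j) 1 * φ ((i - 1, j), 1))) * hs (i - 1, j)

theorem abs_gau {s : ℤ × ℤ → ℝ} (hs : ∀ f, s f * s f = 1) (f : ℤ × ℤ) : |s f| = 1 := by
  have h := hs f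
  have h2 : |s f| * |s f| = 1 := by rw [← abs_mul, h, abs_one]
  nlinarith [abs_nonneg (s f)]

theorem isCov_gau {s : ℤ × ℤ → ℝ} (hs : ∀ f, s f * s f = 1) {w : BW ℤ} {S : HE ℤ → HE ℤ → ℝ}
    (h : IsCov w S) : IsCov (gau s w) (fun a b => s a.1 * s b.1 * S a b) where
  skew a b := by rw [h.skew a b]; ring
  zero b := by
    have h1 := (h.zero b).abs
    rw [abs_zero] at h1
    refine squeeze_zero_norm (fun a => ?_) h1
    rw [Real.norm_eq_abs, abs_mul, abs_mul, abs_gau hs, abs_gau hs]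
    simp
  inv g b := by
    have e : (fun a => s a.1 * s b.1 * S a b) = s b.1 • fun a : HE ℤ => s a.1 * S a b := by
      funext a
      simp only [Pi.smul_apply, smul_eq_mul]
      ring
    rw [e, map_smul, Pi.smul_apply, Aop_gau hs, h.inv g b, smul_eq_mul]
    by_cases hgb : g = b
    · subst hgb
      rw [Pi.single_eq_same]
      linear_combination -hs g.1
    · rw [Pi.single_eq_of_ne hgb]
      ring

/-! ### the finite cut -/

/-- the bond `(z, j)` lies on the path from `x` to the right to `(N, x.2)`, then up to `(N, M)` -/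
def OnP (N M : ℤ) (x z : ℤ × ℤ) (j : Fin 2) : Prop :=
  (j = 0 ∧ x.2 = z.2 ∧ x.1 ≤ z.1 ∧ z.1 < N) ∨ (j = 1 ∧ z.1 = N ∧ x.2 ≤ z.2 ∧ z.2 < M)

instance (N M : ℤ) (x z : ℤ × ℤ) (j : Fin 2) : Decidable (OnP N M x z j) := by
  unfold OnP; infer_instance

/-- signs of the cut -/
def kp {n : ℕ} (N M : ℤ) (X : Fin n → ℤ × ℤ) : BW ℤ := fun z j =>
  ∏ i, if OnP N M (X i) z j then -1 else 1

/-- the gauge -/
def sgN {n : ℕ} (N : ℤ) (X : Fin n → ℤ × ℤ) (f : ℤ × ℤ) : ℝ :=
  if N ≤ f.1 then ∏ i, (if (X i).2 ≤ f.2 then -1 else 1) else 1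

theorem prod_sign_sq {ι : Type*} (s : Finset ι) (P : ι → Prop) [DecidablePred P] :
    (∏ i ∈ s, (if P i then (-1 : ℝ) else 1)) * (∏ i ∈ s, (if P i then (-1 : ℝ) else 1)) = 1 := by
  rw [← Finset.prod_mul_distrib]
  exact Finset.prod_eq_one fun i _ => by split_ifs <;> norm_num

theorem sgN_sq {n : ℕ} (N : ℤ) (X : Fin n → ℤ × ℤ) (f : ℤ × ℤ) : sgN N X f * sgN N X f = 1 := by
  unfold sgN
  split_ifs
  · exact prod_sign_sq _ _
  · norm_num

theorem kp_sq {n : ℕ} (N M : ℤ) (X : Fin n → ℤ × ℤ) (z : ℤ × ℤ) (j : Fin 2) :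
    kp N M X z j * kp N M X z j = 1 := prod_sign_sq _ _

/-- **for an even number of spins the ray background is gauge equivalent to a finite cut** -/
theorem gau_ray {n : ℕ} (hn : Even n) {N M : ℤ} {X : Fin n → ℤ × ℤ} (hN : ∀ i, (X i).1 ≤ N)
    (hM : ∀ i, (X i).2 ≤ M) :
    gau (sgN N X) (wX (wPl ℤ) X) = fun z j => kp N M X z j * xc := by
  funext z j
  obtain ⟨z1, z2⟩ := z
  unfold gau wX
  show sgN N X _ * sgN N X _ * (ray X (z1, z2) j * xc) = _
  rw [← mul_assoc]
  congr 1
  fin_cases j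
  · simp only [Fin.zero_eta, Latx683.hp_zero, Latx683.hq_zero, ray, true_and, kp, OnP, zero_ne_one,
      false_and, or_false]
    by_cases h : N ≤ z1
    · simp only [sgN, if_pos h]
      rw [← Finset.prod_mul_distrib, ← Finset.prod_mul_distrib]
      refine Finset.prod_congr rfl fun i _ => ?_
      have h1 := hN i
      have h3 : ¬ z1 < N := not_lt.2 h
      have h4 : (X i).1 ≤ z1 := h1.trans h
      rcases lt_trichotomy (X i).2 z2 with h2 | h2 | h2
      · rw [if_pos h2.le, if_pos (by omega), if_neg (by omega), if_neg (by omega)]; norm_num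
      · rw [if_pos h2.le, if_neg (by omega), if_pos ⟨h2, h4⟩, if_neg (by omega)]; norm_num
      · rw [if_neg (by omega), if_neg (by omega), if_neg (by omega), if_neg (by omega)]; norm_num
    · simp only [sgN, if_neg h, one_mul]
      refine Finset.prod_congr rfl fun i _ => ?_
      have h3 : z1 < N := not_le.1 h
      simp only [h3, and_true]
  · simp only [Fin.mk_one, Latx683.hp_one, Latx683.hq_one, ray, one_ne_zero, false_and, kp, OnP,
      false_or, true_and, if_false, Finset.prod_const_one, mul_one]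
    rcases lt_trichotomy z1 N with h | h | h
    · have h1 : ¬ N ≤ z1 - 1 := by omega
      have h2 : ¬ N ≤ z1 := by omega
      simp only [sgN, if_neg h1, if_neg h2, mul_one]
      symm
      refine Finset.prod_eq_one fun i _ => ?_
      rw [if_neg (by omega)]
    · have h1 : ¬ N ≤ z1 - 1 := by omega
      have h2 : N ≤ z1 := by omega
      simp only [sgN, if_neg h1, if_pos h2, one_mul]
      by_cases h3 : z2 < M
      · refine Finset.prod_congr rfl fun i _ => ?_
        simp only [h, h3, and_true, true_and]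
      · have e1 : ∏ i, (if (X i).2 ≤ z2 then (-1 : ℝ) else 1) = ∏ i : Fin n, (-1 : ℝ) :=
          Finset.prod_congr rfl fun i _ => if_pos ((hM i).trans (not_lt.1 h3))
        rw [e1, Finset.prod_const, Finset.card_univ, Fintype.card_fin, hn.neg_one_pow]
        symm
        refine Finset.prod_eq_one fun i _ => ?_
        rw [if_neg (by omega)]
    · have h1 : N ≤ z1 - 1 := by omega
      have h2 : N ≤ z1 := by omega
      simp only [sgN, if_pos h1, if_pos h2]
      rw [prod_sign_sq]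
      symm
      refine Finset.prod_eq_one fun i _ => ?_
      rw [if_neg (by omega)]

/-- the path of `x` as a finite set of bonds -/
def PP (N M : ℤ) (x : ℤ × ℤ) : Finset (EG ℤ) :=
  (Finset.Ico x.1 N).image (fun k => (((k, x.2) : ℤ × ℤ), (0 : Fin 2))) ∪
    (Finset.Ico x.2 M).image (fun l => (((N, l) : ℤ × ℤ), (1 : Fin 2)))

theorem mem_PP {N M : ℤ} {x : ℤ × ℤ} {e : EG ℤ} : e ∈ PP N M x ↔ OnP N M x e.1 e.2 := by
  obtain ⟨⟨z1, z2⟩, j⟩ := e
  unfold PP OnP
  rw [Finset.mem_union, Finset.mem_image, Finset.mem_image]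
  constructor
  · rintro (⟨k, hk, h⟩ | ⟨l, hl, h⟩)
    · left
      rw [Finset.mem_Ico] at hk
      simp only [Prod.mk.injEq] at h
      obtain ⟨⟨rfl, rfl⟩, rfl⟩ := h
      exact ⟨rfl, rfl, hk.1, hk.2⟩
    · right
      rw [Finset.mem_Ico] at hl
      simp only [Prod.mk.injEq] at h
      obtain ⟨⟨rfl, rfl⟩, rfl⟩ := h
      exact ⟨rfl, rfl, hl.1, hl.2⟩
  · rintro (⟨rfl, h1, h2, h3⟩ | ⟨rfl, h1, h2, h3⟩)
    · left
      exact ⟨z1, Finset.mem_Ico.2 ⟨h2, h3⟩, by simp only [h1]⟩
    · right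
      exact ⟨z2, Finset.mem_Ico.2 ⟨h2, h3⟩, by simp only at h1; rw [h1]⟩

open Classical in
/-- the cut set -/
def BX {n : ℕ} (N M : ℤ) (X : Fin n → ℤ × ℤ) : Finset (EG ℤ) :=
  Finset.filter (fun e : EG ℤ => kp N M X e.1 e.2 = -1)
    ((Finset.univ : Finset (Fin n)).biUnion (fun i => PP N M (X i)))

theorem kp_eq {n : ℕ} (N M : ℤ) (X : Fin n → ℤ × ℤ) (z : ℤ × ℤ) (j : Fin 2) :
    kp N M X z j = if ((z, j) : EG ℤ) ∈ BX N M X then -1 else 1 := by
  classical
  unfold BX
  by_cases h : kp N M X z j = -1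
  · rw [if_pos, h]
    rw [Finset.mem_filter, Finset.mem_biUnion]
    refine ⟨?_, h⟩
    by_contra hcon
    push Not at hcon
    have h1 : kp N M X z j = 1 := by
      unfold kp
      refine Finset.prod_eq_one fun i _ => ?_
      rw [if_neg]
      intro h2
      exact hcon i (Finset.mem_univ i) (mem_PP.2 h2)
    rw [h1] at h
    norm_num at h
  · rw [if_neg]
    · have h2 := kp_sq N M X z j
      have h3 : (kp N M X z j - 1) * (kp N M X z j + 1) = 0 := by linear_combination h2
      rcases mul_eq_zero.1 h3 with h4 | h4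
      · linarith
      · exact absurd (by linarith) h
    · rw [Finset.mem_filter]
      exact fun h2 => h h2.2

theorem wcut_BX {n : ℕ} (N M : ℤ) (X : Fin n → ℤ × ℤ) :
    wcut (BX N M X) (fun _ => -2 * xc) = fun z j => kp N M X z j * xc := by
  funext z j
  unfold wcut
  rw [kp_eq]
  split_ifs <;> ring

theorem crit_wcut {n : ℕ} (N M : ℤ) (X : Fin n → ℤ × ℤ) : Crit (wcut (BX N M X) (fun _ => -2 * xc)) := by
  intro z j
  rw [wcut_BX]
  have h2 := kp_sq N M X z j
  show (kp N M X z j * xc) ^ 2 = xc ^ 2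
  linear_combination xc ^ 2 * h2

/-! ### products of bonds -/

theorem spinSign_sq (b : Bool) : spinSign b * spinSign b = 1 := by
  cases b <;> simp [spinSign]

theorem prod_Ico_row (s : ℤ × ℤ → Bool) (y : ℤ) (a : ℤ) (k : ℕ) :
    ∏ i ∈ Finset.Ico a (a + k), Symx541.ep (((i, y) : ℤ × ℤ), (0 : Fin 2)) s =
      spinSign (s (a, y)) * spinSign (s (a + k, y)) := by
  induction k with
  | zero => simp [spinSign_sq]
  | succ k ih =>
    have e : Finset.Ico a (a + ((k + 1 : ℕ) : ℤ)) = insert (a + (k : ℤ)) (Finset.Ico a (a + k)) := by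
      ext t; simp only [Finset.mem_Ico, Finset.mem_insert]; push_cast; omega
    rw [e, Finset.prod_insert (by simp), ih]
    unfold Symx541.ep
    have e2 : ((a + (k : ℤ), y) : ℤ × ℤ) + unitVec 0 = (a + ((k + 1 : ℕ) : ℤ), y) := by
      simp only [unitVec, if_true, Prod.mk_add_mk, add_zero]
      push_cast
      rw [add_assoc]
    simp only
    rw [e2]
    linear_combination (spinSign (s (a, y)) * spinSign (s (a + ((k + 1 : ℕ) : ℤ), y))) *
      spinSign_sq (s (a + k, y))

theorem prod_Ico_col (s : ℤ × ℤ → Bool) (x : ℤ) (a : ℤ) (k : ℕ) :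
    ∏ i ∈ Finset.Ico a (a + k), Symx541.ep (((x, i) : ℤ × ℤ), (1 : Fin 2)) s =
      spinSign (s (x, a)) * spinSign (s (x, a + k)) := by
  induction k with
  | zero => simp [spinSign_sq]
  | succ k ih =>
    have e : Finset.Ico a (a + ((k + 1 : ℕ) : ℤ)) = insert (a + (k : ℤ)) (Finset.Ico a (a + k)) := by
      ext t; simp only [Finset.mem_Ico, Finset.mem_insert]; push_cast; omega
    rw [e, Finset.prod_insert (by simp), ih]
    unfold Symx541.ep
    have e2 : ((x, a + (k : ℤ)) : ℤ × ℤ) + unitVec 1 = (x, a + ((k + 1 : ℕ) : ℤ)) := by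
      simp only [unitVec, one_ne_zero, if_false, Prod.mk_add_mk, add_zero]
      push_cast
      rw [add_assoc]
    simp only
    rw [e2]
    linear_combination (spinSign (s (x, a)) * spinSign (s (x, a + ((k + 1 : ℕ) : ℤ)))) *
      spinSign_sq (s (x, a + k))

theorem prod_PP (s : ℤ × ℤ → Bool) {N M : ℤ} {x : ℤ × ℤ} (h1 : x.1 ≤ N) (h2 : x.2 ≤ M) :
    ∏ e ∈ PP N M x, Symx541.ep e s = spinSign (s x) * spinSign (s (N, M)) := by
  obtain ⟨k, hk⟩ := Int.eq_ofNat_of_zero_le (sub_nonneg.2 h1)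
  obtain ⟨l, hl⟩ := Int.eq_ofNat_of_zero_le (sub_nonneg.2 h2)
  have hN : N = x.1 + k := by linarith
  have hM : M = x.2 + l := by linarith
  unfold PP
  rw [Finset.prod_union, Finset.prod_image, Finset.prod_image]
  · rw [hN, hM, prod_Ico_row s x.2 x.1 k, prod_Ico_col s (x.1 + k) x.2 l]
    linear_combination (spinSign (s (x.1, x.2)) * spinSign (s (x.1 + k, x.2 + l))) *
      spinSign_sq (s (x.1 + k, x.2))
  · intro a _ b _ h
    simpa using h
  · intro a _ b _ h
    simpa using h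
  · rw [Finset.disjoint_left]
    intro e he he'
    rw [Finset.mem_image] at he he'
    obtain ⟨k, -, rfl⟩ := he
    obtain ⟨l, -, h⟩ := he'
    simp only [Prod.mk.injEq] at h
    exact absurd h.2 one_ne_zero

theorem prod_BX (s : ℤ × ℤ → Bool) {n : ℕ} (hn : Even n) {N M : ℤ} {X : Fin n → ℤ × ℤ}
    (hN : ∀ i, (X i).1 ≤ N) (hM : ∀ i, (X i).2 ≤ M) :
    ∏ e ∈ BX N M X, Symx541.ep e s = ∏ i, spinSign (s (X i)) := by
  classical
  have h1 : ∏ i, (∏ e ∈ PP N M (X i), Symx541.ep e s) = ∏ i, spinSign (s (X i)) := by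
    rw [Finset.prod_congr rfl fun i _ => prod_PP s (hN i) (hM i), Finset.prod_mul_distrib,
      Finset.prod_const, Finset.card_univ, Fintype.card_fin]
    have h0 : spinSign (s (N, M)) ^ n = 1 := by
      obtain ⟨m, hm⟩ := hn
      rw [hm, pow_add, ← mul_pow, spinSign_sq, one_pow]
    rw [h0, mul_one]
  rw [← h1]
  set U := (Finset.univ : Finset (Fin n)).biUnion fun i => PP N M (X i) with hU
  have h2 : ∀ i, ∏ e ∈ PP N M (X i), Symx541.ep e s =
      ∏ e ∈ U, if e ∈ PP N M (X i) then Symx541.ep e s else 1 := by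
    intro i
    rw [← Finset.prod_filter]
    congr 1
    ext e
    rw [Finset.mem_filter]
    exact ⟨fun h => ⟨Finset.mem_biUnion.2 ⟨i, Finset.mem_univ i, h⟩, h⟩, fun h => h.2⟩
  rw [Finset.prod_congr rfl fun i _ => h2 i, Finset.prod_comm]
  unfold BX
  rw [Finset.prod_filter]
  refine Finset.prod_congr rfl fun e _ => ?_
  -- one bond: parity
  have key : ∀ T : Finset (Fin n), (∏ i ∈ T, (if e ∈ PP N M (X i) then Symx541.ep e s else 1)) =
      if (∏ i ∈ T, (if OnP N M (X i) e.1 e.2 then (-1 : ℝ) else 1)) = -1 then Symx541.ep e s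
        else 1 := by
    intro T
    induction T using Finset.induction_on with
    | empty => simp; norm_num
    | insert i T hi ih =>
      rw [Finset.prod_insert hi, Finset.prod_insert hi, ih]
      have hsq := prod_sign_sq T (fun i => OnP N M (X i) e.1 e.2)
      set p := ∏ i ∈ T, (if OnP N M (X i) e.1 e.2 then (-1 : ℝ) else 1) with hp
      have hp2 : p = 1 ∨ p = -1 := by
        have h3 : (p - 1) * (p + 1) = 0 := by linear_combination hsq
        rcases mul_eq_zero.1 h3 with h4 | h4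
        · left; linarith
        · right; linarith
      by_cases h4 : e ∈ PP N M (X i)
      · rw [if_pos h4, if_pos (mem_PP.1 h4)]
        rcases hp2 with h5 | h5
        · rw [h5]; norm_num
        · rw [h5]; norm_num; exact Symx541.ep_sq e s
      · rw [if_neg h4, if_neg (fun h => h4 (mem_PP.2 h)), one_mul, one_mul]
  exact (key Finset.univ).symm

/-! ### fields tending to zero -/

/-- harmonic functions tending to `0` at infinity are `≤ 0` -/
theorem harm_le {u : ℤ × ℤ → ℝ} (hu : ∀ z, PotAx894.lap u z = 0)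
    (h0 : Tendsto u cofinite (𝓝 0)) (z0 : ℤ × ℤ) : u z0 ≤ 0 := by
  by_contra hpos
  push Not at hpos
  have hfin : {z | u z0 ≤ u z}.Finite := by
    have h1 : ∀ᶠ z in cofinite, u z < u z0 := h0.eventually (gt_mem_nhds hpos)
    rw [eventually_cofinite] at h1
    exact h1.subset fun z hz => not_lt.2 hz
  obtain ⟨z1, hz1, hmax⟩ := Set.exists_max_image _ u hfin ⟨z0, le_refl (u z0)⟩
  have hall : ∀ z, u z ≤ u z1 := by
    intro z
    by_cases h : u z0 ≤ u z
    · exact hmax z h
    · exact (not_le.1 h).le.trans hz1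
  have hstep : ∀ z, u z = u z1 → u (z + PotAx894.e1) = u z1 := by
    intro z hz
    have h1 := hu z
    unfold PotAx894.lap at h1
    have a1 := hall (z + PotAx894.e1)
    have a2 := hall (z - PotAx894.e1)
    have a3 := hall (z + PotAx894.e2)
    have a4 := hall (z - PotAx894.e2)
    linarith
  have hk : ∀ k : ℕ, u (z1 + k • PotAx894.e1) = u z1 := by
    intro k
    induction k with
    | zero => simp
    | succ k ih =>
      rw [succ_nsmul, ← add_assoc]
      exact hstep _ ih
  have hinj : Function.Injective fun k : ℕ => z1 + k • PotAx894.e1 := by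
    intro a b h
    have h2 := congrArg Prod.fst h
    have h4 : ∀ k : ℕ, (z1 + k • PotAx894.e1).1 = z1.1 + k := fun k => by
      rw [Prod.fst_add, Prod.smul_fst]
      simp [PotAx894.e1]
    have h3 : (a : ℤ) = b := by
      have h5 := (h4 a).symm.trans (h2.trans (h4 b))
      linarith
    exact_mod_cast h3
  have hinf : (Set.range fun k : ℕ => z1 + k • PotAx894.e1).Infinite :=
    Set.infinite_range_of_injective hinj
  refine hinf (hfin.subset ?_)
  rintro _ ⟨k, rfl⟩
  show u z0 ≤ u _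
  rw [hk k]
  exact hz1

theorem harm_eq {u : ℤ × ℤ → ℝ} (hu : ∀ z, PotAx894.lap u z = 0)
    (h0 : Tendsto u cofinite (𝓝 0)) (z0 : ℤ × ℤ) : u z0 = 0 := by
  refine le_antisymm (harm_le hu h0 z0) ?_
  have h1 := harm_le (u := fun z => -u z) (fun z => by
    have := hu z
    unfold PotAx894.lap at this ⊢
    linarith) (by simpa using h0.neg) z0
  linarith

/-- **null vectors of the plane tending to `0` vanish** -/
theorem c0_plane {φ : HE ℤ → ℝ} (h0 : Tendsto φ cofinite (𝓝 0))
    (hA : ∀ g, Aop (wPl ℤ) φ g = 0) : φ = 0 := by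
  funext ⟨f, d⟩
  have hw : Pl0x654.cw (wPl ℤ) = fun _ _ => Tr1x40.xc := by
    funext f h
    unfold Pl0x654.cw Tr1x40.ofEN
    fin_cases h <;> rfl
  refine harm_eq (u := fun f => φ (f, d)) (fun z => ?_) ?_ f
  · refine LimAx894.lap_comp (φ := Pl0x654.cu φ) (fun g _ k => ?_) d
    rw [← hw, Pl0x654.A_cu]
    exact hA _
  · exact h0.comp (Prod.mk_left_injective d).tendsto_cofinite

/-- **null vectors of a finitely cut critical plane tending to `0` vanish** -/
theorem c0_cut {B : Finset (EG ℤ)} {c : EG ℤ → ℝ} (hw : Crit (wcut B c)) {φ : HE ℤ → ℝ}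
    (h0 : Tendsto φ cofinite (𝓝 0)) (hA : ∀ g, Aop (wcut B c) φ g = 0) : φ = 0 := by
  have hdec : ∀ ψ ∈ DecF, Tendsto ψ cofinite (𝓝 0) := by
    rintro ψ ⟨C, hC⟩
    have h1 : Tendsto dec cofinite (𝓝 0) := by
      have := (Spx583.tendsto_dist (0, 0)).inv_tendsto_atTop
      refine this.congr fun h => ?_
      simp [dec]
    have h2 : Tendsto (fun h => C * dec h) cofinite (𝓝 0) := by simpa using h1.const_mul C
    exact squeeze_zero_norm hC h2
  refine fix_zero plKer_SP B c hw φ ?_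
  have h1 : φ - GG Spl B c φ = 0 := by
    refine c0_plane ?_ fun g => ?_
    · have h2 := h0.sub (hdec _ (GG_mem plKer_SP B c φ))
      rw [sub_zero] at h2
      exact h2
    · rw [map_sub, Pi.sub_apply, Aop_GG plKer_SP]
      have := hA g
      rw [Aop_cut] at this
      linarith
  exact (sub_eq_zero.1 h1).symm

/-- **uniqueness of the covariance of the plane with an even number of spins** -/
theorem isCov_unique {n : ℕ} (hn : Even n) (X : Fin n → ℤ × ℤ) {S S' : HE ℤ → HE ℤ → ℝ}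
    (h : IsCov (wX (wPl ℤ) X) S) (h' : IsCov (wX (wPl ℤ) X) S') : S = S' := by
  obtain ⟨N, hN⟩ : ∃ N : ℤ, ∀ i, (X i).1 ≤ N := by
    obtain ⟨N, hN⟩ := (Set.finite_range fun i => (X i).1).bddAbove
    exact ⟨N, fun i => hN ⟨i, rfl⟩⟩
  obtain ⟨M, hM⟩ : ∃ M : ℤ, ∀ i, (X i).2 ≤ M := by
    obtain ⟨M, hM⟩ := (Set.finite_range fun i => (X i).2).bddAbove
    exact ⟨M, fun i => hM ⟨i, rfl⟩⟩
  have hs := sgN_sq N X
  have e := (gau_ray hn hN hM).trans (wcut_BX N M X).symm
  have g := isCov_gau hs h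
  have g' := isCov_gau hs h'
  rw [e] at g g'
  funext a b
  have key : (fun x => sgN N X x.1 * sgN N X b.1 * S x b - sgN N X x.1 * sgN N X b.1 * S' x b) =
      (0 : HE ℤ → ℝ) := by
    refine c0_cut (crit_wcut N M X) ?_ fun k => ?_
    · simpa using (g.zero b).sub (g'.zero b)
    · have e2 : (fun x => sgN N X x.1 * sgN N X b.1 * S x b -
          sgN N X x.1 * sgN N X b.1 * S' x b) = (fun x => sgN N X x.1 * sgN N X b.1 * S x b) -
          fun x => sgN N X x.1 * sgN N X b.1 * S' x b := rfl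
      rw [e2, map_sub, Pi.sub_apply, g.inv k b, g'.inv k b, sub_self]
  have h2 := congrFun key a
  simp only [Pi.zero_apply] at h2
  have h3 := hs a.1
  have h4 := hs b.1
  linear_combination (sgN N X a.1 * sgN N X b.1) * h2 -
    ((S a b - S' a b) * (sgN N X b.1 * sgN N X b.1)) * h3 - (S a b - S' a b) * h4

/-- the data of the plane covariance -/
structure PlDat {n : ℕ} (X : Fin n → ℤ × ℤ) (N M : ℤ) (S' : HE ℤ → HE ℤ → ℝ) : Prop where
  hN : ∀ i, (X i).1 ≤ N
  hM : ∀ i, (X i).2 ≤ M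
  skew : ∀ h h', S' h h' = -S' h' h
  dec : ∀ h', ∃ C, ∀ h, |S' h h'| ≤ C * dec h
  inv : ∀ h' g, Aop (wcut (BX N M X) (fun _ => -2 * xc)) (fun h => S' h h') g =
    -(if g = h' then (1 : ℝ) else 0)
  res : ∀ h h', S' h h' = Spl h h' +
    ∑ e ∈ BX N M X, (-2 * xc) * (S' h (pe e) * Spl (qe e) h' - S' h (qe e) * Spl (pe e) h')
  cov : IsCov (wX (wPl ℤ) X) (fun a b => sgN N X a.1 * sgN N X b.1 * S' a b)

/-- **existence of the covariance of the plane with an even number of spins** -/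
theorem exists_plDat {n : ℕ} (hn : Even n) (X : Fin n → ℤ × ℤ) {N M : ℤ}
    (hN : ∀ i, (X i).1 ≤ N) (hM : ∀ i, (X i).2 ≤ M) : ∃ S' : HE ℤ → HE ℤ → ℝ, PlDat X N M S' := by
  obtain ⟨S', h1, h2, h3, h4⟩ := exists_cov plKer_SP (BX N M X) (fun _ => -2 * xc) (crit_wcut N M X)
  refine ⟨S', hN, hM, h1, h2, h3, h4, ?_⟩
  have hs := sgN_sq N X
  have e := (gau_ray hn hN hM).trans (wcut_BX N M X).symm
  have hc : IsCov (wcut (BX N M X) (fun _ => -2 * xc)) S' := by
    refine ⟨h1, fun h' => ?_, fun g h' => ?_⟩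
    · obtain ⟨C, hC⟩ := h2 h'
      have h5 : Tendsto dec cofinite (𝓝 0) := by
        have := (Spx583.tendsto_dist (0, 0)).inv_tendsto_atTop
        refine this.congr fun h => ?_
        simp [Pl0bx654.dec]
      have h6 : Tendsto (fun h => C * dec h) cofinite (𝓝 0) := by simpa using h5.const_mul C
      exact squeeze_zero_norm hC h6
    · rw [h3 h' g, Pi.single_apply]
  have h5 := isCov_gau hs hc
  rw [← e, gau_gau hs] at h5
  exact h5

theorem exists_isCov_plane {n : ℕ} (hn : Even n) (X : Fin n → ℤ × ℤ) :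
    ∃ S, IsCov (wX (wPl ℤ) X) S := by
  obtain ⟨N, hN⟩ : ∃ N : ℤ, ∀ i, (X i).1 ≤ N := by
    obtain ⟨N, hN⟩ := (Set.finite_range fun i => (X i).1).bddAbove
    exact ⟨N, fun i => hN ⟨i, rfl⟩⟩
  obtain ⟨M, hM⟩ : ∃ M : ℤ, ∀ i, (X i).2 ≤ M := by
    obtain ⟨M, hM⟩ := (Set.finite_range fun i => (X i).2).bddAbove
    exact ⟨M, fun i => hM ⟨i, rfl⟩⟩
  obtain ⟨S', h⟩ := exists_plDat hn X hN hM
  exact ⟨_, h.cov⟩

end Crest.Agent.R165.Pl1x654
end
end

-- ▼ part R165/Pl2_654
section

/-!
# Row 165 (S0250), plane clause (helper654): spins and bonds of the plane as Grassmann integrals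

* `T1`        : convergence of the torus bond products to the plane state (helper922, PL1)
* `P0c_eq`    : `P0c X V j = EE Spl (Γ_X ∏_k (1 - 2 w_k b_k - e0))`
* `bondJ2_plane` : `P0c X V j = P0c X * EE (Cof (wX wPl X)) (bpr ...)`
-/

set_option autoImplicit false

noncomputable section

namespace Crest.Agent.R165.Pl2x654

open Finset Filter Topology
open Crest.ProbabilityR.IsingModel
open Crest.Agent.R165
open Crest.Agent.R165.Latx683 (BW Aop wPl yE yN xc IsCov hp hq ray wX)
open Crest.Agent.R165.J1ax606 (HE EG pe qe bb bb_mul_self)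
open Crest.Agent.R165.Gr0x606 Crest.Agent.R165.Gr1x606
open Crest.Agent.R165.Pl0x654 (Crit)
open Crest.Agent.R165.Pl0bx654
open Crest.Agent.R165.Pl1x654
open Crest.Agent.R165.Symx541 (ep ep_sq torBonds torMom_eq)
open Crest.Agent.R165.Centx541 Crest.Agent.R165.Redx541

/-- the weights of the sign change `ε_e = 1 - 2 x b_e` -/
def c2 : EG ℤ → ℝ := fun _ => -2 * xc

/-- convergence of the torus bonds to the plane state -/
def T1 : Prop := ∀ S : Finset (EG ℤ),
  Tendsto (fun L : ℕ => torBonds L 1 0 0 (fun _ => 0) (criticalBeta 1) S) atTop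
    (𝓝 (EE (covOf Spl Spl_skew) (Gam S c2 : Gr (VI (HE ℤ)))))

/-- one bond variable with the sign of the cut -/
def AA (w : ℝ) (e : EG ℤ) : Ge (VI (HE ℤ)) := 1 - (2 * w) • bb e

theorem AA_mul (w : ℝ) (e : EG ℤ) : AA w e * AA (-w) e = 1 := by
  unfold AA
  have h := bb_mul_self e
  have h2 : ((2 * w) • bb e) * ((2 * -w) • bb e) = 0 := by
    rw [smul_mul_smul_comm, h, smul_zero]
  have h3 : (2 * -w) • bb e = -((2 * w) • bb e) := by rw [← neg_smul]; congr 1; ring
  rw [h3] at h2 ⊢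
  linear_combination h2

theorem Gam_insert {S : Finset (EG ℤ)} {e : EG ℤ} (he : e ∉ S) :
    Gam (insert e S) c2 = AA xc e * Gam S c2 := by
  unfold Gam
  rw [Finset.prod_insert he]
  congr 1
  unfold AA c2
  rw [sub_eq_add_neg, ← neg_smul]
  congr 2
  ring

/-- sign of a bond relative to the cut `B` -/
def kB (B : Finset (EG ℤ)) (e : EG ℤ) : ℝ := if e ∈ B then -1 else 1

theorem setsB (B : Finset (EG ℤ)) {m : ℕ} (e : Fin m → EG ℤ) (he : Function.Injective e)
    (T : Finset (Fin m)) : ∃ S : Finset (EG ℤ),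
      (∀ s, (∏ b ∈ B, ep b s) * ∏ k ∈ T, ep (e k) s = ∏ b ∈ S, ep b s) ∧
      Gam S c2 = Gam B c2 * ∏ k ∈ T, AA (kB B (e k) * xc) (e k) ∧
      ∀ k, k ∉ T → (e k ∈ S ↔ e k ∈ B) := by
  induction T using Finset.induction_on with
  | empty => exact ⟨B, fun s => by simp, by simp, fun k _ => Iff.rfl⟩
  | insert k T hk ih =>
    obtain ⟨S, h1, h2, h3⟩ := ih
    by_cases hkS : e k ∈ S
    · refine ⟨S.erase (e k), fun s => ?_, ?_, fun l hl => ?_⟩
      · rw [Finset.prod_insert hk]
        have h4 : ∏ b ∈ S, ep b s = ep (e k) s * ∏ b ∈ S.erase (e k), ep b s :=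
          (Finset.mul_prod_erase _ _ hkS).symm
        have h5 := h1 s
        rw [h4] at h5
        calc (∏ b ∈ B, ep b s) * (ep (e k) s * ∏ k ∈ T, ep (e k) s)
            = ep (e k) s * ((∏ b ∈ B, ep b s) * ∏ k ∈ T, ep (e k) s) := by ring
          _ = (ep (e k) s * ep (e k) s) * ∏ b ∈ S.erase (e k), ep b s := by rw [h5]; ring
          _ = _ := by rw [ep_sq, one_mul]
      · rw [Finset.prod_insert hk]
        have h4 : Gam S c2 = AA xc (e k) * Gam (S.erase (e k)) c2 := by
          rw [← Gam_insert (Finset.notMem_erase _ _), Finset.insert_erase hkS]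
        have hB : e k ∈ B := (h3 k hk).1 hkS
        have hkap : kB B (e k) * xc = -xc := by unfold kB; rw [if_pos hB]; ring
        rw [hkap]
        calc Gam (S.erase (e k)) c2 = (AA xc (e k) * AA (-xc) (e k)) * Gam (S.erase (e k)) c2 := by
              rw [AA_mul, one_mul]
          _ = AA (-xc) (e k) * (AA xc (e k) * Gam (S.erase (e k)) c2) := by ring
          _ = AA (-xc) (e k) * (Gam B c2 * ∏ k ∈ T, AA (kB B (e k) * xc) (e k)) := by rw [← h4, h2]
          _ = _ := by ring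
      · rw [Finset.mem_insert, not_or] at hl
        rw [Finset.mem_erase, ← h3 l hl.2]
        exact ⟨fun h => h.2, fun h => ⟨fun h' => hl.1 (he h'), h⟩⟩
    · refine ⟨insert (e k) S, fun s => ?_, ?_, fun l hl => ?_⟩
      · rw [Finset.prod_insert hk, Finset.prod_insert hkS, ← h1 s]
        ring
      · rw [Finset.prod_insert hk, Gam_insert hkS, h2]
        have hB : e k ∉ B := fun h => hkS ((h3 k hk).2 h)
        have hkap : kB B (e k) * xc = xc := by unfold kB; rw [if_neg hB]; ring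
        rw [hkap]
        ring
      · rw [Finset.mem_insert, not_or] at hl
        rw [Finset.mem_insert, ← h3 l hl.2]
        exact ⟨fun h => h.resolve_left fun h' => hl.1 (he h'), Or.inr⟩

/-- linear functional on the even algebra -/
def Phi (S : Cov (VI (HE ℤ))) : Ge (VI (HE ℤ)) →ₗ[ℝ] ℝ :=
  (EE S).comp (Subalgebra.val (Ge (VI (HE ℤ)))).toLinearMap

theorem Phi_apply (S : Cov (VI (HE ℤ))) (F : Ge (VI (HE ℤ))) :
    Phi S F = EE S (F : Gr (VI (HE ℤ))) := rfl

/-- **torus moments converge to the Grassmann integral of the plane** -/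
theorem torMom_lim (h : T1) {n m : ℕ} (hn : Even n) {N M : ℤ} (X : Fin n → ℤ × ℤ)
    (hN : ∀ i, (X i).1 ≤ N) (hM : ∀ i, (X i).2 ≤ M) (V : Fin m → ℤ × ℤ) (j : Fin m → Fin 2)
    (hinj : Function.Injective fun k => (V k, j k)) (c : Fin m → ℝ) :
    Tendsto (fun L : ℕ => torMom L 1 0 0 (fun _ => 0) (criticalBeta 1) X V j c) atTop
      (𝓝 (Phi (covOf Spl Spl_skew) (Gam (BX N M X) c2 *
        ∏ k, (AA (kp N M X (V k) (j k) * xc) (V k, j k) - algebraMap ℝ _ (c k))))) := by
  classical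
  have hk : ∀ k, kp N M X (V k) (j k) = kB (BX N M X) (V k, j k) := fun k => kp_eq N M X _ _
  choose S h1 h2 _ using setsB (BX N M X) (fun k => (V k, j k)) hinj
  have e2 : ∀ L : ℕ, torMom L 1 0 0 (fun _ => 0) (criticalBeta 1) X V j c =
      ∑ T : Finset (Fin m), (∏ k ∈ Tᶜ, (-c k)) *
        torBonds L 1 0 0 (fun _ => 0) (criticalBeta 1) (S T) := by
    intro L
    rw [torMom_eq, ← torE_apply]
    have e1 : (fun σ : TorusConfig (L + 1) => obs X V j c fun z => σ (toTorus (L + 1) z)) =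
        ∑ T : Finset (Fin m), (∏ k ∈ Tᶜ, (-c k)) • fun σ : TorusConfig (L + 1) =>
          ∏ e ∈ S T, ep e fun z => σ (toTorus (L + 1) z) := by
      funext σ
      simp only [Finset.sum_apply, Pi.smul_apply, smul_eq_mul, ← h1]
      unfold obs
      simp only [sub_eq_add_neg]
      rw [Finset.prod_add, Finset.powerset_univ, Finset.mul_sum]
      refine Finset.sum_congr rfl fun T _ => ?_
      rw [Finset.compl_eq_univ_sdiff, prod_BX _ hn hN hM]
      unfold ep
      ring
    rw [e1, map_sum]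
    refine Finset.sum_congr rfl fun T _ => ?_
    rw [map_smul, smul_eq_mul, torE_apply]
    rfl
  simp only [e2]
  have e3 : Phi (covOf Spl Spl_skew) (Gam (BX N M X) c2 *
        ∏ k, (AA (kp N M X (V k) (j k) * xc) (V k, j k) - algebraMap ℝ _ (c k))) =
      ∑ T : Finset (Fin m), (∏ k ∈ Tᶜ, (-c k)) *
        EE (covOf Spl Spl_skew) (Gam (S T) c2 : Gr (VI (HE ℤ))) := by
    have e4 : Gam (BX N M X) c2 *
        ∏ k, (AA (kp N M X (V k) (j k) * xc) (V k, j k) - algebraMap ℝ _ (c k)) =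
        ∑ T : Finset (Fin m), (∏ k ∈ Tᶜ, (-c k)) • Gam (S T) c2 := by
      simp only [sub_eq_add_neg, hk]
      rw [Finset.prod_add, Finset.powerset_univ, Finset.mul_sum]
      refine Finset.sum_congr rfl fun T _ => ?_
      rw [h2, ← Finset.compl_eq_univ_sdiff, Algebra.smul_def, map_prod]
      simp only [map_neg]
      ring
    rw [e4, map_sum]
    refine Finset.sum_congr rfl fun T _ => ?_
    rw [map_smul, smul_eq_mul, Phi_apply]
  rw [e3]
  exact tendsto_finsetSum _ fun T _ => (h (S T)).const_mul _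

/-- **plane moments as Grassmann integrals** -/
theorem P0c_eq (h : T1) {n m : ℕ} (hn : Even n) {N M : ℤ} (X : Fin n → ℤ × ℤ)
    (hN : ∀ i, (X i).1 ≤ N) (hM : ∀ i, (X i).2 ≤ M) (V : Fin m → ℤ × ℤ) (j : Fin m → Fin 2)
    (hinj : Function.Injective fun k => (V k, j k)) :
    P0c X V j = EE (covOf Spl Spl_skew) ((Gam (BX N M X) c2 : Gr (VI (HE ℤ))) *
      ((∏ k, (AA (kp N M X (V k) (j k) * xc) (V k, j k) - algebraMap ℝ _ e0) : Ge (VI (HE ℤ))) :
        Gr (VI (HE ℤ)))) :=
  (torMom_lim h hn X hN hM V j hinj fun _ => e0).limUnder_eq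

theorem P0c_spin (h : T1) {n : ℕ} (hn : Even n) {N M : ℤ} (X : Fin n → ℤ × ℤ)
    (hN : ∀ i, (X i).1 ≤ N) (hM : ∀ i, (X i).2 ≤ M) :
    P0c X (![] : Fin 0 → ℤ × ℤ) ![] =
      EE (covOf Spl Spl_skew) (Gam (BX N M X) c2 : Gr (VI (HE ℤ))) := by
  rw [P0c_eq h hn X hN hM ![] ![] (fun k => k.elim0)]
  simp

/-- **factorisation, in the gauge of the finite cut** -/
theorem P0c_fac (h : T1) {n m : ℕ} (hn : Even n) {N M : ℤ} {X : Fin n → ℤ × ℤ}
    {S' : HE ℤ → HE ℤ → ℝ} (hS : PlDat X N M S') (V : Fin m → ℤ × ℤ) (j : Fin m → Fin 2)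
    (hinj : Function.Injective fun k => (V k, j k)) :
    P0c X V j = P0c X (![] : Fin 0 → ℤ × ℤ) ![] * EE (covOf S' hS.skew)
      ((∏ k, (AA (kp N M X (V k) (j k) * xc) (V k, j k) - algebraMap ℝ _ e0) : Ge (VI (HE ℤ))) :
        Gr (VI (HE ℤ))) := by
  rw [P0c_eq h hn X hS.hN hS.hM V j hinj, P0c_spin h hn X hS.hN hS.hM]
  exact EE_cut Spl_skew hS.skew (BX N M X) c2 hS.res _

theorem pe_eq_hb (v : ℤ × ℤ) (j : Fin 2) : UKerx420.hb v j 0 = pe (v, j) := by
  obtain ⟨a, b⟩ := v
  fin_cases j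
  · rfl
  · simp [UKerx420.hb, hp, pe]

theorem qe_eq_hb (v : ℤ × ℤ) (j : Fin 2) : UKerx420.hb v j 1 = qe (v, j) := by
  obtain ⟨a, b⟩ := v
  fin_cases j
  · simp [UKerx420.hb, hq, qe]
  · rfl

theorem hp_eq (v : ℤ × ℤ) (j : Fin 2) : hp v j = pe (v, j) := pe_eq_hb v j

theorem hq_eq (v : ℤ × ℤ) (j : Fin 2) : hq v j = qe (v, j) := qe_eq_hb v j

/-- the covariance of helper683 = the covariance of helper606 -/
theorem covS_eq (S : HE ℤ → HE ℤ → ℝ) (hS : ∀ h h', S h h' = -S h' h) :
    Latx683.covS S hS = covOf S hS := by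
  have h : (Latx683.covS S hS).b = (covOf S hS).b := by
    rw [covOf_b]
    refine J1bx606.form_ext fun i j => ?_
    rw [formOf_single]
    exact Latx683.formS_single S i j
  cases hA : Latx683.covS S hS with
  | mk b alt =>
    cases hB : covOf S hS with
    | mk b' alt' =>
      rw [hA, hB] at h
      simp only at h
      subst h
      rfl

theorem wDom_univ : Latx683.wDom (Set.univ : Set (ℤ × ℤ)) false = wPl ℤ := by
  funext z j
  unfold Latx683.wDom wPl
  simp

theorem domainSites_univ (a : ℝ) : domainSites (Set.univ : Set ℂ) a = Set.univ := by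
  ext z
  simp [domainSites]

/-- the plane as a domain of helper420 -/
theorem wD_univ (a : ℝ) {n : ℕ} (X : Fin n → ℤ × ℤ) :
    UKerx420.wD false Set.univ a X = wX (wPl ℤ) X := by
  unfold UKerx420.wD
  rw [domainSites_univ, wDom_univ]

/-- the chosen covariance of the plane -/
theorem Sof_plane {n : ℕ} (hn : Even n) {N M : ℤ} {X : Fin n → ℤ × ℤ} {S' : HE ℤ → HE ℤ → ℝ}
    (hS : PlDat X N M S') :
    UKerx420.Sof (wX (wPl ℤ) X) = fun a b => sgN N X a.1 * sgN N X b.1 * S' a b :=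
  isCov_unique hn X (UKerx420.Sof_spec ⟨_, hS.cov⟩) hS.cov

/-- **J2 for the plane, in the form of helper420** -/
theorem bondJ2_plane (h : T1) {n m : ℕ} (hn : Even n) (X : Fin n → ℤ × ℤ) (V : Fin m → ℤ × ℤ)
    (j : Fin m → Fin 2) (hinj : Function.Injective fun k => (V k, j k)) :
    P0c X V j = P0c X (![] : Fin 0 → ℤ × ℤ) ![] * EE (UKerx420.Cof (wX (wPl ℤ) X))
      (UDomBx420.bpr (fun k i => (Finsupp.single (UKerx420.hb (V k) (j k) i) 1 : Latx683.Fld ℤ))
        (fun k => wX (wPl ℤ) X (V k) (j k)) (fun _ => e0) (List.finRange m)) := by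
  obtain ⟨N, hN⟩ : ∃ N : ℤ, ∀ i, (X i).1 ≤ N := by
    obtain ⟨N, hN⟩ := (Set.finite_range fun i => (X i).1).bddAbove
    exact ⟨N, fun i => hN ⟨i, rfl⟩⟩
  obtain ⟨M, hM⟩ : ∃ M : ℤ, ∀ i, (X i).2 ≤ M := by
    obtain ⟨M, hM⟩ := (Set.finite_range fun i => (X i).2).bddAbove
    exact ⟨M, fun i => hM ⟨i, rfl⟩⟩
  obtain ⟨S', hS⟩ := exists_plDat hn X hN hM
  rw [P0c_fac h hn hS V j hinj]
  congr 1
  have hSof := Sof_plane hn hS
  have hsk : ∀ a b : HE ℤ, sgN N X a.1 * sgN N X b.1 * S' a b =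
      -(sgN N X b.1 * sgN N X a.1 * S' b a) := fun a b => by rw [hS.skew a b]; ring
  have hCof : UKerx420.Cof (wX (wPl ℤ) X) =
      covOf (fun a b => sgN N X a.1 * sgN N X b.1 * S' a b) hsk := by
    rw [← covS_eq]
    unfold UKerx420.Cof
    congr 1
  rw [hCof]
  set F := UDomBx420.bpr (fun k i => (Finsupp.single (UKerx420.hb (V k) (j k) i) 1 : Latx683.Fld ℤ))
    (fun k => wX (wPl ℤ) X (V k) (j k)) (fun _ => e0) (List.finRange m) with hF
  have e1 := J1bx606.EE_dil S' (fun a b => sgN N X a.1 * sgN N X b.1 * S' a b) hS.skew hsk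
    (fun a => sgN N X a.1) (fun _ _ => rfl) F
  rw [← e1]
  congr 1
  -- the integrands
  have hs := sgN_sq N X
  have hw : ∀ k, sgN N X (pe (V k, j k)).1 * sgN N X (qe (V k, j k)).1 * wX (wPl ℤ) X (V k) (j k) =
      kp N M X (V k) (j k) * xc := by
    intro k
    have h1 := congrFun (congrFun (gau_ray hn hN hM) (V k)) (j k)
    unfold gau at h1
    rw [hp_eq, hq_eq] at h1
    exact h1
  rw [hF]
  unfold UDomBx420.bpr
  rw [map_list_prod, List.map_map]
  have e2 : ((∏ k, (AA (kp N M X (V k) (j k) * xc) (V k, j k) - algebraMap ℝ _ e0) :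
      Ge (VI (HE ℤ))) : Gr (VI (HE ℤ))) = ((List.finRange m).map fun k =>
        ((AA (kp N M X (V k) (j k) * xc) (V k, j k) - algebraMap ℝ _ e0 : Ge (VI (HE ℤ))) :
          Gr (VI (HE ℤ)))).prod := by
    rw [← List.prod_ofFn, List.ofFn_eq_map]
    have := map_list_prod (Subalgebra.val (Ge (VI (HE ℤ)))) ((List.finRange m).map fun k =>
        (AA (kp N M X (V k) (j k) * xc) (V k, j k) - algebraMap ℝ _ e0 : Ge (VI (HE ℤ))))
    rw [List.map_map] at this
    exact this
  rw [e2]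
  congr 1
  refine List.map_congr_left fun k _ => ?_
  rw [Function.comp_apply, map_sub, map_sub, map_one, map_smul, map_mul, mp_fi, mp_fi]
  simp only
  rw [pe_eq_hb, qe_eq_hb, J1bx606.dil_single, J1bx606.dil_single, fi_smul, fi_smul,
    smul_mul_smul_comm, smul_smul, AlgHom.commutes]
  unfold AA
  rw [Ge.coe_sub, Ge.coe_sub, Ge.coe_one, Ge.coe_smul, J1ax606.coe_bb]
  congr 2
  rw [← hw k]
  congr 1
  ring


end Crest.Agent.R165.Pl2x654
end
end

-- ▼ part R165/Pl3_654

/-!
# Row 165 (S0250), plane clause (helper654): final wiring of `UPb`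

`UPb_of : T1 → KerPl → SpinPl → UPb`, where

* `T1` (helper922): torus bond products converge to the plane state
* `KerPl`         : kernel limits of the plane = `KerD false univ` of helper420, `n` even
* `SpinPl`        : scaling limits of the plane spin correlations, `n` even (`n = 0` is trivial)
-/

set_option autoImplicit false

noncomputable section

namespace Crest.Agent.R165.Pl3x654

open Finset Filter Topology
open Crest.ProbabilityR.IsingModel
open Crest.Agent.R165
open Crest.Agent.R165.Gr0x606 Crest.Agent.R165.Enx599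
open Crest.Agent.R165.Topx683 Crest.Agent.R165.Redx541 Crest.Agent.R165.Red2x541
  Crest.Agent.R165.Centx541
open Crest.Agent.R165.Latx683 (BW HE hp hq wDom ray wX IsCov covS formS Fld wPl)
open Crest.Agent.R165.UDomBx420 Crest.Agent.R165.UKerx420
open Crest.Agent.R165.Pl1x654 Crest.Agent.R165.Pl2x654

/-- the limit of centred moments, abstract form of `UDomBx420.domain_limit` -/
theorem abs_limit {n m : ℕ} (W : ℝ → Type) [∀ a, AddCommGroup (W a)] [∀ a, Module ℝ (W a)]
    (S : ∀ a, Cov (W a)) (j : Fin m → Fin 2) (p : ∀ a, Fin m → Fin 2 → W a) (w : ℝ → Fin m → ℝ)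
    (Sl : Cov (Fin m → ℂ)) (F : ℝ) (G G0 : ℝ → ℝ)
    (hJ : ∀ᶠ a in 𝓝[>] (0 : ℝ), G a =
      G0 a * EE (S a) (bpr (p a) (w a) (fun _ => e0) (List.finRange m)))
    (hK : KerLim W S j p w Sl)
    (hS : Tendsto (fun a : ℝ => scl n 0 a * G0 a) (𝓝[>] 0) (𝓝 F)) :
    Tendsto (fun a : ℝ => scl n m a * G a) (𝓝[>] 0) (𝓝 ((-2 * xc) ^ m * Epf Sl j * F)) := by
  obtain ⟨γ, hγ, hlim⟩ := hK
  have h1 : Tendsto (fun a : ℝ => (a⁻¹) ^ (List.finRange m).length *
      EE (S a) (cpr (fun k i => γ a k i • p a k i) (fun _ => cP) (List.finRange m))) (𝓝[>] 0)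
      (𝓝 (pfl (M0 Sl j) (2 * (List.finRange m).length) (idx (List.finRange m)))) := by
    refine tendsto_EE_cpr (F := 𝓝[>] (0:ℝ)) S (fun a k i => γ a k i • p a k i) (fun _ _ => cP)
      (fun a => a) (List.finRange m) (List.nodup_finRange m) (M0 Sl j) ?_
    intro q _ q' _
    refine (hlim q q').congr fun a => ?_
    congr 1
    unfold cmat cBlock
    simp only [map_smul, LinearMap.smul_apply, smul_eq_mul]
    ring
  have h2 : Epf Sl j = pfl (M0 Sl j) (2 * (List.finRange m).length) (idx (List.finRange m)) := by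
    unfold Epf
    rw [EE_cpr Sl _ _ _ (List.nodup_finRange m) _ le_rfl]
    congr 1
    funext q q'
    unfold cmat M0
    simp
  rw [← h2, List.length_finRange] at h1
  have h3 : Tendsto (fun a : ℝ => (-2 * xc) ^ m * ((a⁻¹) ^ m *
      EE (S a) (cpr (fun k i => γ a k i • p a k i) (fun _ => cP) (List.finRange m))) *
      (scl n 0 a * G0 a)) (𝓝[>] 0)
      (𝓝 ((-2 * xc) ^ m * Epf Sl j * F)) := (h1.const_mul _).mul hS
  refine h3.congr' ?_
  filter_upwards [hJ, hγ, self_mem_nhdsWithin] with a ha hγa ha0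
  have ha0' : (0 : ℝ) < a := ha0
  rw [ha, bpr_eq (p a) (w a) (γ a) hγa, List.length_finRange, map_smul, smul_eq_mul,
    scl_add n m ha0']
  ring

/-- kernel limits of the plane, `n` even -/
def KerPl : Prop := ∀ (n : ℕ), Even n → ∀ x : Fin n → ℂ, Function.Injective x →
  ∃ bl rg, KerD false Set.univ x bl rg

/-- plane spin correlations -/
def Psp {n : ℕ} (X : Fin n → ℤ × ℤ) : ℝ := P0c X (![] : Fin 0 → ℤ × ℤ) ![]

/-- spin limits of the plane, `n` even -/
def SpinPl : Prop := ∀ (n : ℕ), 1 ≤ n → Even n → ∀ x : Fin n → ℂ, Function.Injective x →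
  ∃ F : ℝ, Tendsto (fun a : ℝ => scl n 0 a * Psp fun i => meshIndex a (x i)) (𝓝[>] 0) (𝓝 F)

theorem Psp_zero (hT : T1) (X : Fin 0 → ℤ × ℤ) : Psp X = 1 := by
  unfold Psp
  rw [P0c_spin hT (by decide) (N := 0) (M := 0) X (fun i => i.elim0) (fun i => i.elim0)]
  have : BX 0 0 X = ∅ := by
    unfold BX
    simp
  rw [this]
  simp [Pl0bx654.Gam]

/-- for small mesh the bonds at distinct points are distinct -/
theorem eventually_bonds {m : ℕ} (y : Fin m → ℂ) (hy : Function.Injective y) (j : Fin m → Fin 2) :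
    ∀ᶠ a in 𝓝[>] (0 : ℝ), Function.Injective fun k => (meshIndex a (y k), j k) := by
  have h1 : ∀ k l : Fin m, ∀ᶠ a in 𝓝[>] (0 : ℝ), k ≠ l → meshIndex a (y k) ≠ meshIndex a (y l) := by
    intro k l
    by_cases hkl : k = l
    · exact Eventually.of_forall fun a h => absurd hkl h
    · have hne : y k ≠ y l := fun h => hkl (hy h)
      have hd : 0 < dist (y k) (y l) := dist_pos.2 hne
      have h2 : ∀ᶠ a : ℝ in 𝓝[>] 0, a < dist (y k) (y l) / 4 :=
        mem_nhdsWithin_of_mem_nhds (Iio_mem_nhds (by positivity))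
      filter_upwards [h2, self_mem_nhdsWithin] with a ha ha0 _ heq
      have ha0' : (0 : ℝ) < a := ha0
      have d1 := meshPoint_index_dist a ha0' (y k)
      have d2 := meshPoint_index_dist a ha0' (y l)
      rw [heq] at d1
      have := dist_triangle_left (y k) (y l) (meshPoint a (meshIndex a (y l)))
      linarith
  have h2 := eventually_all.2 fun k => eventually_all.2 (h1 k)
  filter_upwards [h2] with a ha k l hkl
  by_contra hne
  exact ha k l hne (congrArg Prod.fst hkl)

/-- **the plane clause of the unperturbed model** -/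
theorem UPb_of (hT : T1) (hK : KerPl) (hS : SpinPl) : UPb := by
  intro n m _ hn x y j hinj
  obtain ⟨hx, hy, hxy⟩ := UFinx420.inj_split hinj
  obtain ⟨bl, rg, K⟩ := hK n hn x hx
  obtain ⟨F, hF⟩ : ∃ F : ℝ, Tendsto (fun a : ℝ => scl n 0 a * Psp fun i => meshIndex a (x i))
      (𝓝[>] 0) (𝓝 F) := by
    rcases Nat.eq_zero_or_pos n with rfl | hn1
    · refine ⟨1, ?_⟩
      simp only [Psp_zero hT, mul_one, scl_zero_zero]
      exact tendsto_const_nhds
    · exact hS n hn1 hn x hx
  have hex : ∀ᶠ a in 𝓝[>] (0 : ℝ), ∃ S, IsCov (wD false Set.univ a (fun i => meshIndex a (x i))) S :=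
    Eventually.of_forall fun a => by rw [wD_univ]; exact exists_isCov_plane hn _
  have hker := kerLim_of isOpen_univ K hex y j (fun _ => Set.mem_univ _) hxy hy
  refine ⟨_, abs_limit (n := n) _ _ j _ _ _ F
    (fun a => P0c (fun i => meshIndex a (x i)) (fun k => meshIndex a (y k)) j)
    (fun a => Psp fun i => meshIndex a (x i)) ?_ hker hF⟩
  filter_upwards [eventually_bonds y hy j] with a ha
  rw [wD_univ]
  exact bondJ2_plane hT hn _ _ j ha

end Crest.Agent.R165.Pl3x654
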