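import Mathlib
import Crest.Agent.R165.PfDet_408

-- ▼ part R165/WuAsy_408
section

/-!
# Row 165 (S0250), block U2-P3, part 1: Wu's diagonal law (helper408)

`Dg n = (2/π)^n ∏_{m=1}^{n-1} (1 - 1/(4m²))^{m-n}` in recursive form:
`Dg 0 = 1`, `Dg (n+1) = Dg n * (W n / (π/2))` with `W` the Wallis product.

* `Dg_asymp : ∃ C > 0, Tendsto (fun n => Dg n * n^(1/4)) atTop (𝓝 C)`, with rate `Dg_rate`
* `det_cauchy` : the Cauchy double alternant in recursive form
* `det_toeplitz` : `det (1/(π (k - j + 1/2)))_{j,k<n} = Dg n`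
-/

set_option autoImplicit false

noncomputable section

open Filter Topology Finset

namespace Crest.Agent.R165.WuAsyx408

open Real.Wallis in
/-- the critical diagonal two-point function of the square lattice Ising model -/
def Dg (n : ℕ) : ℝ := ∏ k ∈ range n, (W k / (Real.pi / 2))

open Real.Wallis

theorem Dg_zero : Dg 0 = 1 := by simp [Dg]

theorem Dg_succ (n : ℕ) : Dg (n + 1) = Dg n * (W n / (Real.pi / 2)) := by
  rw [Dg, prod_range_succ, ← Dg]

theorem Dg_pos (n : ℕ) : 0 < Dg n :=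
  prod_pos fun k _ => div_pos (W_pos k) (by positivity)


/-- `W n * exp (1/(4n+2))` is decreasing -/
theorem anti_aux : Antitone fun n : ℕ => W n * Real.exp (1 / (4 * n + 2)) := by
  refine antitone_nat_of_succ_le fun n => ?_
  rw [W_succ]
  have hn : (0 : ℝ) ≤ n := n.cast_nonneg
  set N : ℝ := (n : ℝ) + 1 with hN
  have hN1 : 1 ≤ N := by rw [hN]; linarith
  have hW := W_pos n
  have h1 : ((2 * (n : ℝ) + 2) / (2 * n + 1) * ((2 * n + 2) / (2 * n + 3)))
      ≤ Real.exp (1 / (4 * n + 2) - 1 / (4 * (n + 1 : ℝ) + 2)) := by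
    have h2 : ((2 * (n : ℝ) + 2) / (2 * n + 1) * ((2 * n + 2) / (2 * n + 3)))
      = (1 / (4 * n + 2) - 1 / (4 * (n + 1 : ℝ) + 2)) + 1 := by
      field_simp
      ring
    rw [h2]
    exact Real.add_one_le_exp _
  have h3 : Real.exp (1 / (4 * (n : ℝ) + 2)) = Real.exp (1 / (4 * n + 2) - 1 / (4 * (n + 1 : ℝ) + 2)) *
      Real.exp (1 / (4 * (n + 1 : ℝ) + 2)) := by
    rw [← Real.exp_add]; congr 1; ring
  rw [h3]
  push_cast
  have h4 := mul_le_mul_of_nonneg_right h1 (mul_nonneg hW.le (Real.exp_pos (1 / (4 * (n + 1 : ℝ) + 2))).le)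
  nlinarith [h4]

/-- `W n * exp (1/(4n+4))` is increasing -/
theorem mono_aux : Monotone fun n : ℕ => W n * Real.exp (1 / (4 * n + 4)) := by
  refine monotone_nat_of_le_succ fun n => ?_
  rw [W_succ]
  have hn : (0 : ℝ) ≤ n := n.cast_nonneg
  have hW := W_pos n
  have h1 : Real.exp (1 / (4 * (n : ℝ) + 4) - 1 / (4 * (n + 1 : ℝ) + 4))
      ≤ ((2 * (n : ℝ) + 2) / (2 * n + 1) * ((2 * n + 2) / (2 * n + 3))) := by
    have hinv : ((2 * (n : ℝ) + 1) / (2 * n + 2) * ((2 * n + 3) / (2 * n + 2)))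
        ≤ Real.exp (-(1 / (4 * (n : ℝ) + 4) - 1 / (4 * (n + 1 : ℝ) + 4))) := by
      have h2 := Real.add_one_le_exp (-(1 / (4 * (n : ℝ) + 4) - 1 / (4 * (n + 1 : ℝ) + 4)))
      refine le_trans ?_ h2
      rw [div_mul_div_comm, div_le_iff₀ (by positivity)]
      have e : (-(1 / (4 * (n : ℝ) + 4) - 1 / (4 * (n + 1 : ℝ) + 4)) + 1) * ((2 * n + 2) * (2 * n + 2))
        = (2 * n + 2) * (2 * n + 2) - (n + 1) / (n + 2) := by
        field_simp
        ring
      rw [e]
      have : ((n : ℝ) + 1) / (n + 2) ≤ 1 := by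
        rw [div_le_one (by positivity)]; linarith
      nlinarith
    rw [Real.exp_neg] at hinv
    have hpos : 0 < Real.exp (1 / (4 * (n : ℝ) + 4) - 1 / (4 * (n + 1 : ℝ) + 4)) := Real.exp_pos _
    have h5 := mul_le_mul_of_nonneg_right hinv hpos.le
    rw [inv_mul_cancel₀ hpos.ne'] at h5
    have h6 : ((2 * (n : ℝ) + 2) / (2 * n + 1) * ((2 * n + 2) / (2 * n + 3))) *
      ((2 * (n : ℝ) + 1) / (2 * n + 2) * ((2 * n + 3) / (2 * n + 2))) = 1 := by
      field_simp
    have h7 : 0 ≤ ((2 * (n : ℝ) + 2) / (2 * n + 1) * ((2 * n + 2) / (2 * n + 3))) := by positivity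
    have h8 := mul_le_mul_of_nonneg_left h5 h7
    rw [← mul_assoc, h6, one_mul, mul_one] at h8
    exact h8
  have h3 : Real.exp (1 / (4 * (n : ℝ) + 4)) = Real.exp (1 / (4 * n + 4) - 1 / (4 * (n + 1 : ℝ) + 4)) *
      Real.exp (1 / (4 * (n + 1 : ℝ) + 4)) := by
    rw [← Real.exp_add]; congr 1; ring
  rw [h3]
  push_cast
  have h4 := mul_le_mul_of_nonneg_right h1 (mul_nonneg hW.le (Real.exp_pos (1 / (4 * (n + 1 : ℝ) + 4))).le)
  nlinarith [h4]

theorem tend_W_exp (c : ℝ) :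
    Tendsto (fun n : ℕ => W n * Real.exp (1 / (4 * n + c))) atTop (𝓝 (Real.pi / 2)) := by
  have h : Tendsto (fun n : ℕ => (1 : ℝ) / (4 * n + c)) atTop (𝓝 0) := by
    refine Tendsto.div_atTop tendsto_const_nhds ?_
    refine tendsto_atTop_add_const_right _ _ ?_
    exact (tendsto_natCast_atTop_atTop (R := ℝ)).const_mul_atTop (by norm_num)
  have h2 := tendsto_W_nhds_pi_div_two.mul ((Real.continuous_exp.tendsto 0).comp h)
  simpa using h2

theorem ratio_ge (n : ℕ) : Real.exp (-(1 / (4 * n + 2))) ≤ W n / (Real.pi / 2) := by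
  have h := anti_aux.le_of_tendsto (tend_W_exp 2) n
  rw [Real.exp_neg, le_div_iff₀ (by positivity), ← div_eq_inv_mul, div_le_iff₀ (Real.exp_pos _)]
  exact h

theorem ratio_le (n : ℕ) : W n / (Real.pi / 2) ≤ Real.exp (-(1 / (4 * n + 4))) := by
  have h := mono_aux.ge_of_tendsto (tend_W_exp 4) n
  rw [Real.exp_neg, div_le_iff₀ (by positivity), ← div_eq_inv_mul, le_div_iff₀ (Real.exp_pos _)]
  exact h

/-- `n^(1/4) Dg n` has consecutive ratios `1 + O(1/n²)`: logarithmic form -/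
theorem log_step (n : ℕ) (hn : 1 ≤ n) :
    |(Real.log (Dg (n + 1)) + 1 / 4 * Real.log (n + 1 : ℕ)) - (Real.log (Dg n) + 1 / 4 * Real.log n)|
      ≤ 1 / (4 * n) - 1 / (4 * (n + 1 : ℕ)) := by
  have hn0 : (0 : ℝ) < n := by exact_mod_cast hn
  have hW : 0 < W n / (Real.pi / 2) := div_pos (W_pos n) (by positivity)
  rw [Dg_succ, Real.log_mul (Dg_pos n).ne' hW.ne']
  have h1 : -(1 / (4 * (n : ℝ) + 2)) ≤ Real.log (W n / (Real.pi / 2)) := by
    have := Real.log_le_log (Real.exp_pos _) (ratio_ge n)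
    rwa [Real.log_exp] at this
  have h2 : Real.log (W n / (Real.pi / 2)) ≤ -(1 / (4 * (n : ℝ) + 4)) := by
    have := Real.log_le_log hW (ratio_le n)
    rwa [Real.log_exp] at this
  have h3 : Real.log (n + 1 : ℕ) - Real.log n ≤ 1 / n := by
    rw [← Real.log_div (by positivity) hn0.ne']
    have := Real.log_le_sub_one_of_pos (x := ((n + 1 : ℕ) : ℝ) / n) (by positivity)
    refine this.trans (le_of_eq ?_)
    push_cast; field_simp; ring
  have h4 : 1 / (n + 1 : ℝ) ≤ Real.log (n + 1 : ℕ) - Real.log n := by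
    rw [← Real.log_div (by positivity) hn0.ne']
    have := Real.log_le_sub_one_of_pos (x := (n : ℝ) / ((n + 1 : ℕ) : ℝ)) (by positivity)
    have e : Real.log (((n + 1 : ℕ) : ℝ) / n) = - Real.log ((n : ℝ) / ((n + 1 : ℕ) : ℝ)) := by
      rw [← Real.log_inv]; congr 1; rw [inv_div]
    rw [e]
    have e2 : (n : ℝ) / ((n + 1 : ℕ) : ℝ) - 1 = -(1 / (n + 1 : ℝ)) := by
      push_cast; field_simp; ring
    rw [e2] at this
    linarith
  have h5 : 1 / (4 * (n : ℝ) + 2) ≤ 1 / (4 * n) := by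
    apply one_div_le_one_div_of_le <;> linarith
  have e4 : 1 / (4 * ((n + 1 : ℕ) : ℝ)) = 1 / (4 * n + 4) := by push_cast; ring_nf
  have e5 : 1 / (4 * (n : ℝ)) = 1 / 4 * (1 / n) := by rw [one_div_mul_one_div]
  have e6 : 1 / (4 * (n : ℝ) + 4) = 1 / 4 * (1 / (n + 1 : ℝ)) := by
    rw [one_div_mul_one_div]; ring_nf
  rw [abs_le, e4]
  constructor <;> nlinarith

theorem log_cauchy_aux (n m : ℕ) (hn : 1 ≤ n) (h : n ≤ m) :
    |(Real.log (Dg m) + 1 / 4 * Real.log m) - (Real.log (Dg n) + 1 / 4 * Real.log n)|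
      ≤ 1 / (4 * n) - 1 / (4 * m) := by
  induction m, h using Nat.le_induction with
  | base => simp
  | succ m hm ih =>
    have h1 := log_step m (hn.trans hm)
    have := abs_sub_le (Real.log (Dg (m + 1)) + 1 / 4 * Real.log (m + 1 : ℕ))
      (Real.log (Dg m) + 1 / 4 * Real.log m) (Real.log (Dg n) + 1 / 4 * Real.log n)
    linarith

theorem exists_log_lim : ∃ c : ℝ, ∀ n : ℕ, 1 ≤ n →
    |c - (Real.log (Dg n) + 1 / 4 * Real.log n)| ≤ 1 / (4 * n) := by
  set u : ℕ → ℝ := fun n => Real.log (Dg n) + 1 / 4 * Real.log n with hu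
  have hc : CauchySeq u := by
    refine Metric.cauchySeq_iff'.2 fun ε hε => ?_
    obtain ⟨N, hN⟩ := exists_nat_gt (1 / ε)
    refine ⟨N + 1, fun m hm => ?_⟩
    have h := log_cauchy_aux (N + 1) m (by omega) hm
    rw [Real.dist_eq]
    have h2 : 1 / (4 * ((N + 1 : ℕ) : ℝ)) < ε := by
      rw [div_lt_iff₀ (by positivity)]
      have : 1 < ε * N := by rwa [div_lt_iff₀' hε] at hN
      push_cast; nlinarith
    have h3 : 0 ≤ 1 / (4 * (m : ℝ)) := by positivity
    simp only [hu]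
    linarith
  obtain ⟨c, hc⟩ := cauchySeq_tendsto_of_complete hc
  refine ⟨c, fun n hn => ?_⟩
  have h1 : Tendsto (fun m => |u m - u n|) atTop (𝓝 |c - u n|) := (hc.sub_const _).abs
  refine le_of_tendsto h1 ?_
  filter_upwards [eventually_ge_atTop n] with m hm
  have h := log_cauchy_aux n m hn hm
  have h3 : 0 ≤ 1 / (4 * (m : ℝ)) := by positivity
  simp only [hu]
  linarith

/-- **Wu's asymptotics** with a rate -/
theorem Dg_rate : ∃ C : ℝ, 0 < C ∧ ∀ n : ℕ, 1 ≤ n →
    |Dg n * (n : ℝ) ^ ((1 : ℝ) / 4) - C| ≤ C / n := by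
  obtain ⟨c, hc⟩ := exists_log_lim
  refine ⟨Real.exp c, Real.exp_pos c, fun n hn => ?_⟩
  have hn0 : (0 : ℝ) < n := by exact_mod_cast hn
  have h := hc n hn
  have e : Dg n * (n : ℝ) ^ ((1 : ℝ) / 4) = Real.exp (Real.log (Dg n) + 1 / 4 * Real.log n) := by
    rw [Real.exp_add, Real.exp_log (Dg_pos n), Real.rpow_def_of_pos hn0, mul_comm (Real.log _)]
  rw [e]
  set t := Real.log (Dg n) + 1 / 4 * Real.log n with ht
  have e2 : Real.exp t - Real.exp c = Real.exp c * (Real.exp (t - c) - 1) := by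
    rw [mul_sub, ← Real.exp_add]; ring_nf
  rw [e2, abs_mul, abs_of_pos (Real.exp_pos c), div_eq_mul_inv]
  refine mul_le_mul_of_nonneg_left ?_ (Real.exp_pos c).le
  have h1 : |t - c| ≤ 1 / (4 * n) := by rwa [abs_sub_comm] at h
  have hn1 : (1 : ℝ) ≤ n := by exact_mod_cast hn
  have h2 : 1 / (4 * (n : ℝ)) ≤ 1 / 4 := by
    apply one_div_le_one_div_of_le <;> linarith
  have h3 := Real.abs_exp_sub_one_le (x := t - c) (by linarith)
  refine h3.trans ?_
  have : 2 * (1 / (4 * (n : ℝ))) ≤ (n : ℝ)⁻¹ := by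
    rw [mul_one_div, div_le_iff₀ (by positivity)]
    field_simp; norm_num
  linarith

theorem Dg_asymp : ∃ C : ℝ, 0 < C ∧
    Tendsto (fun n : ℕ => Dg n * (n : ℝ) ^ ((1 : ℝ) / 4)) atTop (𝓝 C) := by
  obtain ⟨C, hC, h⟩ := Dg_rate
  refine ⟨C, hC, ?_⟩
  rw [tendsto_iff_norm_sub_tendsto_zero]
  refine squeeze_zero' (Eventually.of_forall fun n => norm_nonneg _) ?_
    (tendsto_const_div_atTop_nhds_zero_nat C)
  filter_upwards [eventually_ge_atTop 1] with n hn
  exact h n hn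

end Crest.Agent.R165.WuAsyx408
end
end

-- ▼ part R165/WuDet_408
section

/-!
# Row 165 (S0250), block U2-P3, part 2: the Cauchy determinant (helper408)

* `det_schur` : `det M = M 0 0 * det (M_{i+1,j+1} - M_{i+1,0} M_{0,j+1} / M 0 0)`
* `det_toep`  : `det (1/(π (k - j + 1/2)))_{j,k<n} = Dg n`
-/

set_option autoImplicit false

noncomputable section

open Filter Topology Finset

namespace Crest.Agent.R165.WuDetx408

open WuAsyx408 Real.Wallis

theorem det_schur {K : Type*} [Field K] {n : ℕ} (M : Matrix (Fin (n + 1)) (Fin (n + 1)) K)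
    (h : M 0 0 ≠ 0) :
    M.det = M 0 0 * (Matrix.of fun i j : Fin n =>
      M i.succ j.succ - M i.succ 0 * M 0 j.succ / M 0 0).det := by
  set A : Matrix (Fin (n + 1)) (Fin (n + 1)) K := Matrix.of fun i j =>
    if i = 0 then M 0 j else M i j - M i 0 / M 0 0 * M 0 j with hA
  have h1 : M.det = A.det := by
    refine Matrix.det_eq_of_forall_row_eq_smul_add_const
      (c := fun i => if i = 0 then 0 else M i 0 / M 0 0) (k := 0) (by simp) ?_
    intro i j
    by_cases hi : i = 0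
    · subst hi; simp [hA]
    · simp [hA, hi]
  rw [h1, Matrix.det_succ_column_zero, Fin.sum_univ_succ]
  have h2 : ∀ i : Fin n, A i.succ 0 = 0 := by
    intro i
    simp [hA, Fin.succ_ne_zero, h]
  rw [Finset.sum_eq_zero (fun i _ => by rw [h2]; ring)]
  simp only [Fin.val_zero, pow_zero, one_mul, add_zero]
  have h3 : A 0 0 = M 0 0 := by simp [hA]
  rw [h3]
  congr 2
  ext i j
  simp [hA, Fin.succ_ne_zero]
  ring

/-- the Toeplitz–Cauchy matrix of the critical diagonal correlations -/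
def toep (n : ℕ) : Matrix (Fin n) (Fin n) ℝ :=
  Matrix.of fun j k => 1 / (Real.pi * ((k : ℝ) - (j : ℝ) + 1 / 2))

theorem half_ne (j k : ℕ) : (k : ℝ) - j + 1 / 2 ≠ 0 := by
  intro h
  have h2 : (2 * (k : ℤ) - 2 * j + 1 : ℤ) = 0 := by
    have : (2 * (k : ℝ) - 2 * j + 1) = 0 := by linarith
    exact_mod_cast this
  omega

theorem W_prod (n : ℕ) :
    (∏ k : Fin n, ((k : ℝ) + 1) / ((k : ℝ) + 1 + 1 / 2)) *
      (∏ j : Fin n, ((j : ℝ) + 1) / ((j : ℝ) + 1 - 1 / 2)) = W n := by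
  rw [← Finset.prod_mul_distrib, W, ← Fin.prod_univ_eq_prod_range (fun i : ℕ =>
    (2 * (i : ℝ) + 2) / (2 * i + 1) * ((2 * i + 2) / (2 * i + 3)))]
  refine Finset.prod_congr rfl fun k _ => ?_
  have h1 : (k : ℝ) + 1 + 1 / 2 = (2 * (k : ℝ) + 3) / 2 := by ring
  have h2 : (k : ℝ) + 1 - 1 / 2 = (2 * (k : ℝ) + 1) / 2 := by ring
  rw [h1, h2]
  have h3 : (2 * (k : ℝ) + 3) ≠ 0 := by positivity
  have h4 : (2 * (k : ℝ) + 1) ≠ 0 := by positivity
  field_simp

theorem det_toep (n : ℕ) : (toep n).det = Dg n := by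
  induction n with
  | zero => simp [Dg_zero]
  | succ n ih =>
    have h0 : toep (n + 1) 0 0 = 1 / (Real.pi / 2) := by
      simp [toep]; ring
    have hpi : Real.pi ≠ 0 := Real.pi_ne_zero
    rw [det_schur _ (by rw [h0]; positivity), h0]
    have h1 : (Matrix.of fun i j : Fin n =>
        toep (n + 1) i.succ j.succ - toep (n + 1) i.succ 0 * toep (n + 1) 0 j.succ / (1 / (Real.pi / 2)))
        = Matrix.of fun i j : Fin n => ((i : ℝ) + 1) / ((i : ℝ) + 1 - 1 / 2) *
          (Matrix.of fun i j : Fin n => ((j : ℝ) + 1) / ((j : ℝ) + 1 + 1 / 2) * toep n i j) i j := by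
      ext i j
      simp only [Matrix.of_apply, toep, Fin.val_succ, Fin.val_zero]
      push_cast
      have e1 : (j : ℝ) - i + 1 / 2 ≠ 0 := half_ne i j
      have e4 : (j : ℝ) + 1 - 0 + 1 / 2 ≠ 0 := by
        have : (0 : ℝ) ≤ j := by positivity
        intro h; linarith
      have e5 : (i : ℝ) + 1 - 1 / 2 ≠ 0 := by
        have : (0 : ℝ) ≤ i := by positivity
        intro h; linarith
      have e7 : (0 : ℝ) - ((i : ℝ) + 1) + 1 / 2 = -((i : ℝ) + 1 - 1 / 2) := by ring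
      have e9 : ((j : ℝ) + 1) - (i + 1) + 1 / 2 = (j : ℝ) - i + 1 / 2 := by ring
      have e10 : (j : ℝ) + 1 - 0 + 1 / 2 = (j : ℝ) + 1 + 1 / 2 := by ring
      rw [e10] at e4
      rw [e7, e9, e10]
      obtain ⟨t, ht⟩ : ∃ t, t = (j : ℝ) - i + 1 / 2 := ⟨_, rfl⟩
      obtain ⟨u, hu⟩ : ∃ u, u = (i : ℝ) + 1 - 1 / 2 := ⟨_, rfl⟩
      obtain ⟨v, hv⟩ : ∃ v, v = (j : ℝ) + 1 + 1 / 2 := ⟨_, rfl⟩
      rw [← ht, ← hu, ← hv]
      rw [← ht] at e1
      rw [← hu] at e5
      rw [← hv] at e4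
      have hi' : (i : ℝ) = u - 1 / 2 := by linarith
      have hj' : (j : ℝ) = v - 3 / 2 := by linarith
      have hv' : v = t + u + 1 / 2 := by linarith
      rw [hi', hj']
      field_simp
      rw [hv']
      ring
    rw [h1, Matrix.det_mul_column, Matrix.det_mul_row, ih, Dg_succ, ← W_prod n]
    field_simp

end Crest.Agent.R165.WuDetx408
end
end

-- ▼ part R165/Stair_408

/-!
# Row 165 (S0250): the diagonal staircase (helper408)

Half-edge language. At the face `f = (k,k)`: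
`s = S_f, n' = N_{f-e2}, e = E_f, w = W_{f+e1}, nn = N_f, s' = S_{f+e2}`, the derivations
`dS, dE, dN` are the coordinates `S_f, E_f, N_f`, and the two hypotheses are the corner relations
(differences of the rows `S,E` resp. `E,N` of `A S = -1`).

* `corner2` : `E_S[(1-2y s n')(1-2y e w) G] = - E_S[(s - y n')(nn + y s') G]`
* `stair`   : `E_S[∏_{k<n} ε ε] = (-1)^n det S(P_j,Q_k)`
* `stair_Dg`: if `-S(P_j,Q_k) = 1/(π(k-j+1/2))` the staircase expectation is Wu's `Dg n`
-/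

set_option autoImplicit false

noncomputable section

namespace Crest.Agent.R165.Stairx408

open Gr0x606 PfDetx408

variable {V : Type*} [AddCommGroup V] [Module ℝ V]

theorem fi_sub (x y : V) : fi (x - y) = fi x - fi y := map_sub _ _ _
theorem fi_neg (x : V) : fi (-x) = -fi x := map_neg _ _

/-- product of the two corner forms of an edge -/
theorem corner_mul (y : ℝ) (a b : V) : fi (a - y • b) * fi (a + y • b) = (2 * y) • (fi a * fi b) := by
  rw [fi_sub, fi_add, fi_smul, sub_mul, mul_add, mul_add, fi_mul_self, smul_mul_assoc,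
    smul_mul_assoc, mul_smul_comm, mul_smul_comm, fi_mul_self, fi_anti b a]
  simp only [smul_neg, smul_zero, add_zero, zero_add, sub_neg_eq_add]
  rw [two_mul, add_smul]

/-- **two edges of a face around a corner = two corner fermions** -/
theorem corner2 (S : Cov V) (s n' e w nn s' : V) (dS dE dN : Module.Dual ℝ V) (yb yr yt : ℝ)
    (h1 : S.b (e + s + yb • n' - yr • w) = dE - dS)
    (h2 : S.b (nn + e + yr • w + yt • s') = dN - dE)
    (aS : dS s = 1) (aN : dS n' = 0) (aE : dS e = 0) (aW : dS w = 0)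
    (bS : dE s = 0) (bN : dE n' = 0) (bE : dE e = 1) (bW : dE w = 0)
    (cS : dN s = 0) (cN : dN n' = 0)
    (G : Gr V) (hS : dd dS G = 0) (hE : dd dE G = 0) (hN : dd dN G = 0) :
    EE S ((1 - (2 * yb) • (fi s * fi n')) * (1 - (2 * yr) • (fi e * fi w)) * G)
      = -EE S (fi (s - yb • n') * fi (nn + yt • s') * G) := by
  obtain ⟨p, hp⟩ : ∃ p, p = fi (s - yb • n') := ⟨_, rfl⟩
  obtain ⟨q, hq⟩ : ∃ q, q = fi (s + yb • n') := ⟨_, rfl⟩
  obtain ⟨u, hu⟩ : ∃ u, u = fi (e - yr • w) := ⟨_, rfl⟩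
  obtain ⟨v, hv⟩ : ∃ v, v = fi (e + yr • w) := ⟨_, rfl⟩
  have hpq : p * q = (2 * yb) • (fi s * fi n') := by rw [hp, hq, corner_mul]
  have huv : u * v = (2 * yr) • (fi e * fi w) := by rw [hu, hv, corner_mul]
  rw [← hpq, ← huv, ← hp]
  have hqq : q * q = 0 := by rw [hq, fi_mul_self]
  have hqv : q * v = -(v * q) := by rw [hq, hv, fi_anti]
  have hpv : p * v = -(v * p) := by rw [hp, hv, fi_anti]
  have hevpq : IsEv (1 - p * q) := isEv_one.sub (by rw [hp, hq]; exact isEv_fi_fi _ _)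
  -- integration by parts for `u`
  have hux : ∀ X : Gr V, EE S (u * X) = -EE S (q * X) + EE S (dd dE X) - EE S (dd dS X) := by
    intro X
    have : u = -q + fi (e + s + yb • n' - yr • w) := by
      rw [hu, hq, ← fi_neg, ← fi_add]; congr 1; abel
    rw [this, add_mul, map_add, neg_mul, map_neg, EE_fi_mul, h1]
    have hd : dd (dE - dS) X = dd dE X - dd dS X := by
      rw [sub_eq_add_neg, dd_add_left, dd_neg_left, ← sub_eq_add_neg]
    rw [hd, map_sub]; ring
  have hdS_pq : dd dS (1 - p * q) = p - q := by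
    rw [map_sub, dd_one, hp, dd_fi_mul, ← hp, hq, dd_fi, ← hq]
    simp only [map_sub, map_add, map_smul, aS, aN, smul_zero, sub_zero, add_zero, one_smul,
      map_one, mul_one]
    abel
  have hdE_pq : dd dE (1 - p * q) = 0 := by
    rw [map_sub, dd_one, hp, dd_fi_mul, ← hp, hq, dd_fi, ← hq]
    simp only [map_sub, map_add, map_smul, bS, bN, smul_zero, sub_zero, add_zero, zero_smul,
      map_zero, mul_zero]
  have hY_S : dd dS ((1 - p * q) * G) = (p - q) * G := by
    rw [dd_mul, hdS_pq, hS, mul_zero, add_zero]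
  have hY_E : dd dE ((1 - p * q) * G) = 0 := by
    rw [dd_mul, hdE_pq, hE, mul_zero, add_zero, zero_mul]
  have hX_S : dd dS (v * ((1 - p * q) * G)) = -(v * ((p - q) * G)) := by
    rw [hv, dd_fi_mul, ← hv, hY_S]
    simp only [map_add, map_smul, aE, aW, smul_zero, add_zero, zero_smul, zero_sub]
  have hX_E : dd dE (v * ((1 - p * q) * G)) = (1 - p * q) * G := by
    rw [hv, dd_fi_mul, ← hv, hY_E]
    simp only [map_add, map_smul, bE, bW, smul_zero, add_zero, one_smul, mul_zero, sub_zero]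
  have hqX : q * (v * ((1 - p * q) * G)) = q * v * G := by
    have h3 : q * (v * (p * q * G)) = 0 := by
      have e1 : q * (v * (p * q * G)) = -(v * ((q * (p * q)) * G)) := by
        rw [← mul_assoc, hqv]; noncomm_ring
      have e2 : q * (p * q) = 0 := by
        rw [← mul_assoc]
        have : q * p = -(p * q) := by rw [hq, hp, fi_anti]
        rw [this, neg_mul, mul_assoc, hqq, mul_zero, neg_zero]
      rw [e1, e2]; simp
    rw [sub_mul, one_mul, mul_sub, mul_sub, h3, sub_zero, mul_assoc]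
  have hA : EE S (u * v * ((1 - p * q) * G)) = EE S (v * p * G) + EE S ((1 - p * q) * G) := by
    rw [mul_assoc, hux, hqX, hX_E, hX_S]
    have e1 : v * ((p - q) * G) = v * p * G - v * q * G := by noncomm_ring
    rw [e1, hqv, neg_mul, map_neg, map_neg, map_sub]
    ring
  have hL : EE S ((1 - p * q) * (1 - u * v) * G) = -EE S (v * p * G) := by
    have e1 : (1 - p * q) * (1 - u * v) * G = (1 - p * q) * G - u * v * ((1 - p * q) * G) := by
      rw [mul_sub, mul_one, hevpq.comm (u * v), sub_mul, mul_assoc (u * v)]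
    rw [e1, map_sub, hA]; ring
  rw [hL]
  have hR : EE S (p * fi (nn + yt • s') * G) = -EE S (p * v * G) := by
    have e1 : fi (nn + yt • s') = -v + fi (nn + e + yr • w + yt • s') := by
      rw [hv, ← fi_neg, ← fi_add]; congr 1; abel
    have e2 : p * fi (nn + e + yr • w + yt • s') = -(fi (nn + e + yr • w + yt • s') * p) := by
      rw [hp, fi_anti]
    rw [e1, mul_add, e2, add_mul, map_add, neg_mul, map_neg,
      mul_assoc (fi (nn + e + yr • w + yt • s')) p G, EE_fi_mul, h2]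
    have hd : dd (dN - dE) (p * G) = 0 := by
      rw [sub_eq_add_neg, dd_add_left, dd_neg_left, hp, dd_fi_mul, dd_fi_mul, hN, hE]
      simp [cS, cN, bS, bN]
    rw [hd, map_zero, neg_zero, add_zero, mul_neg, neg_mul, map_neg]
  rw [hR, hpv, neg_mul, map_neg]
  ring

/-- the staircase data: one face for every `k` -/
structure Stair (V : Type*) [AddCommGroup V] [Module ℝ V] (S : Cov V) where
  /-- edge weights: bottom, right, top -/
  yb : ℝ
  yr : ℝ
  yt : ℝ
  s : ℕ → V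
  n' : ℕ → V
  e : ℕ → V
  w : ℕ → V
  nn : ℕ → V
  s' : ℕ → V
  dS : ℕ → Module.Dual ℝ V
  dE : ℕ → Module.Dual ℝ V
  dN : ℕ → Module.Dual ℝ V
  h1 : ∀ k, S.b (e k + s k + yb • n' k - yr • w k) = dE k - dS k
  h2 : ∀ k, S.b (nn k + e k + yr • w k + yt • s' k) = dN k - dE k
  aS : ∀ k, dS k (s k) = 1
  aN : ∀ k, dS k (n' k) = 0
  aE : ∀ k, dS k (e k) = 0
  aW : ∀ k, dS k (w k) = 0
  bS : ∀ k, dE k (s k) = 0
  bN : ∀ k, dE k (n' k) = 0
  bE : ∀ k, dE k (e k) = 1
  bW : ∀ k, dE k (w k) = 0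
  cS : ∀ k, dN k (s k) = 0
  cN : ∀ k, dN k (n' k) = 0
  off : ∀ j k, j ≠ k → ∀ l ∈ ({dS j, dE j, dN j} : Set (Module.Dual ℝ V)),
    l (s k) = 0 ∧ l (n' k) = 0 ∧ l (e k) = 0 ∧ l (w k) = 0 ∧ l (nn k) = 0 ∧ l (s' k) = 0

namespace Stair

variable {S : Cov V} (D : Stair V S)

/-- SW corner fermion of the face `k` -/
def P (k : ℕ) : V := D.s k - D.yb • D.n' k
/-- NE corner fermion of the face `k` -/
def Q (k : ℕ) : V := D.nn k + D.yt • D.s' k
/-- the two bond variables of the staircase at the face `k` -/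
def B (k : ℕ) : Gr V :=
  (1 - (2 * D.yb) • (fi (D.s k) * fi (D.n' k))) * (1 - (2 * D.yr) • (fi (D.e k) * fi (D.w k)))
/-- the staircase product -/
def prB : ℕ → Gr V
  | 0 => 1
  | n + 1 => prB n * D.B n

theorem B_ev (k : ℕ) : IsEv (D.B k) :=
  (isEv_one.sub ((isEv_fi_fi _ _).smul _)).mul (isEv_one.sub ((isEv_fi_fi _ _).smul _))

theorem prB_ev (n : ℕ) : IsEv (D.prB n) := by
  induction n with
  | zero => exact isEv_one
  | succ n ih => exact ih.mul (D.B_ev n)

theorem dd_fi_fi_zero (l : Module.Dual ℝ V) (x y : V) (hx : l x = 0) (hy : l y = 0) (G : Gr V)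
    (hG : dd l G = 0) : dd l (fi x * fi y * G) = 0 := by
  rw [mul_assoc, dd_fi_mul, dd_fi_mul, hG, hx, hy]; simp

theorem dd_B_mul (j k : ℕ) (h : j ≠ k) (l : Module.Dual ℝ V)
    (hl : l ∈ ({D.dS j, D.dE j, D.dN j} : Set (Module.Dual ℝ V))) (G : Gr V) (hG : dd l G = 0) :
    dd l (D.B k * G) = 0 := by
  obtain ⟨h1, h2, h3, h4, -, -⟩ := D.off j k h l hl
  have e1 : D.B k * G = (1 - (2 * D.yb) • (fi (D.s k) * fi (D.n' k))) *
      ((1 - (2 * D.yr) • (fi (D.e k) * fi (D.w k))) * G) := by rw [B, mul_assoc]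
  have key : ∀ (c : ℝ) (x y : V) (X : Gr V), l x = 0 → l y = 0 → dd l X = 0 →
      dd l ((1 - c • (fi x * fi y)) * X) = 0 := by
    intro c x y X hx hy hX
    rw [sub_mul, one_mul, map_sub, hX, smul_mul_assoc, map_smul,
      dd_fi_fi_zero l x y hx hy X hX, smul_zero, sub_zero]
  rw [e1]
  exact key _ _ _ _ h1 h2 (key _ _ _ _ h3 h4 hG)

theorem dd_prB_mul (j n : ℕ) (h : n ≤ j) (l : Module.Dual ℝ V)
    (hl : l ∈ ({D.dS j, D.dE j, D.dN j} : Set (Module.Dual ℝ V))) (G : Gr V) (hG : dd l G = 0) :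
    dd l (D.prB n * G) = 0 := by
  induction n generalizing G with
  | zero => simpa [prB] using hG
  | succ n ih =>
    rw [prB, mul_assoc]
    exact ih (by omega) _ (D.dd_B_mul j n (by omega) l hl G hG)

theorem stair_aux (n : ℕ) (G : Gr V)
    (hG : ∀ k < n, ∀ l ∈ ({D.dS k, D.dE k, D.dN k} : Set (Module.Dual ℝ V)), dd l G = 0) :
    EE S (D.prB n * G) = (-1 : ℝ) ^ n * EE S (inter D.P D.Q n * G) := by
  induction n generalizing G with
  | zero => simp [prB, inter]
  | succ n ih =>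
    have e1 : D.prB (n + 1) * G = D.B n * (D.prB n * G) := by
      rw [prB, mul_assoc, ← mul_assoc, (D.prB_ev n).comm, mul_assoc]
    have hz : ∀ l ∈ ({D.dS n, D.dE n, D.dN n} : Set (Module.Dual ℝ V)), dd l (D.prB n * G) = 0 :=
      fun l hl => D.dd_prB_mul n n le_rfl l hl G (hG n (by omega) l hl)
    rw [e1, B, corner2 S _ _ _ _ _ _ _ _ _ _ _ _ (D.h1 n) (D.h2 n) (D.aS n) (D.aN n) (D.aE n)
      (D.aW n) (D.bS n) (D.bN n) (D.bE n) (D.bW n) (D.cS n) (D.cN n) _ (hz _ (by simp))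
      (hz _ (by simp)) (hz _ (by simp))]
    have e2 : fi (D.s n - D.yb • D.n' n) * fi (D.nn n + D.yt • D.s' n) * (D.prB n * G)
        = D.prB n * (fi (D.P n) * fi (D.Q n) * G) := by
      rw [← mul_assoc, ← (D.prB_ev n).comm, mul_assoc]; rfl
    rw [e2, ih _ ?_]
    · have e3 : inter D.P D.Q (n + 1) * G = inter D.P D.Q n * (fi (D.P n) * fi (D.Q n) * G) := by
        rw [inter, mul_assoc]
      rw [e3, pow_succ]; ring
    · intro k hk l hl
      obtain ⟨h1, h2, -, -, h5, h6⟩ := D.off k n (by omega) l hl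
      refine dd_fi_fi_zero l _ _ ?_ ?_ G (hG k (by omega) l hl)
      · simp [P, h1, h2]
      · simp [Q, h5, h6]

/-- **the staircase theorem** -/
theorem stair (n : ℕ) (h : ∀ i j, S.b (D.P i) (D.P j) = 0) :
    EE S (D.prB n) = (Matrix.of fun j k : Fin n => -S.b (D.P j) (D.Q k)).det := by
  have h1 := D.stair_aux n 1 (by intro k _ l _; simp)
  rw [mul_one, mul_one, EE_inter S _ _ n h] at h1
  have h2 := Matrix.det_neg (Matrix.of fun j k : Fin n => S.b (D.P j) (D.Q k))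
  rw [Fintype.card_fin] at h2
  rw [h1, ← h2]
  rfl

/-- Wu's formula -/
theorem stair_Dg (n : ℕ) (h : ∀ i j, S.b (D.P i) (D.P j) = 0)
    (h' : ∀ j k : ℕ, S.b (D.P j) (D.Q k) = -(1 / (Real.pi * ((k : ℝ) - (j : ℝ) + 1 / 2)))) :
    EE S (D.prB n) = WuAsyx408.Dg n := by
  rw [D.stair n h, ← WuDetx408.det_toep]
  congr 1
  ext j k
  simp [WuDetx408.toep, h']


end Stair

end Crest.Agent.R165.Stairx408
end
private theorem rz_6e9097e729 : type_of% @_root_.Crest.Agent.R165.Stairx408.Stair.prB.eq_def := @_root_.Crest.Agent.R165.Stairx408.Stair.prB.eq_def -- L162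
private theorem rz_e9d5a73760 : type_of% @_root_.Crest.Agent.R165.Stairx408.Stair.prB.eq_1 := @_root_.Crest.Agent.R165.Stairx408.Stair.prB.eq_1 -- L162
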