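import Mathlib
import Crest.Prelude.Def_PerturbedIsing
import Crest.Agent.R165.U5Props_422

-- ▼ part R165/Nm1_697
section

/-!
# Abstract limit lemmas for the normalisation (helper697, R165 block U5)

* `tendsto_of_approx` : approximately constant for every `ε` implies convergent
* `limit_close`       : the limit is close to every approximate constant
* `norm_lemma`        : ratios converge and for every `ε` one configuration is almost normalised,
                        then every configuration is normalised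
* `hom_trivial`       : bounded additive homomorphisms vanish
-/

set_option autoImplicit false
set_option linter.unusedVariables false

open Filter Topology

namespace Crest.Agent.R165.Nm1x697

/-- a function which is `ε`-close to a constant eventually, for every `ε`, converges -/
lemma tendsto_of_approx {α : Type*} {l : Filter α} [NeBot l] {F : α → ℝ}
    (h : ∀ ε > 0, ∃ c : ℝ, ∀ᶠ a in l, |F a - c| ≤ ε) : ∃ L : ℝ, Tendsto F l (𝓝 L) := by
  have hc : Cauchy (map F l) := by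
    rw [Metric.cauchy_iff]
    refine ⟨inferInstance, fun ε hε => ?_⟩
    obtain ⟨c, hc⟩ := h (ε / 3) (by positivity)
    refine ⟨F '' {a | |F a - c| ≤ ε / 3}, image_mem_map hc, ?_⟩
    rintro x ⟨a, ha, rfl⟩ y ⟨b, hb, rfl⟩
    rw [Real.dist_eq]
    have : F a - F b = (F a - c) - (F b - c) := by ring
    rw [this]
    refine (abs_sub _ _).trans_lt ?_
    have ha' : |F a - c| ≤ ε / 3 := ha
    have hb' : |F b - c| ≤ ε / 3 := hb
    linarith
  obtain ⟨L, hL⟩ := cauchy_iff_exists_le_nhds.mp hc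
  exact ⟨L, hL⟩

lemma limit_close {α : Type*} {l : Filter α} [NeBot l] {F : α → ℝ} {L c ε : ℝ}
    (hL : Tendsto F l (𝓝 L)) (h : ∀ᶠ a in l, |F a - c| ≤ ε) : |L - c| ≤ ε :=
  le_of_tendsto ((hL.sub_const c).abs) h

/-- `|log y - log L| ≤ ε` if `L ≤ y ≤ (1 + ε) L` -/
lemma log_close {L y ε : ℝ} (hL : 0 < L) (hε : 0 ≤ ε) (h1 : L ≤ y) (h2 : y ≤ (1 + ε) * L) :
    |Real.log y - Real.log L| ≤ ε := by
  have hy : 0 < y := hL.trans_le h1
  have h3 : Real.log L ≤ Real.log y := Real.log_le_log hL h1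
  rw [abs_of_nonneg (by linarith)]
  have h4 : Real.log y ≤ Real.log (1 + ε) + Real.log L := by
    rw [← Real.log_mul (by positivity) hL.ne']
    exact Real.log_le_log hy h2
  have h5 : Real.log (1 + ε) ≤ ε := by
    have := Real.log_le_sub_one_of_pos (show (0 : ℝ) < 1 + ε by positivity)
    linarith
  linarith

/-- eventual closeness of logarithms from convergence to a positive limit -/
lemma log_eventually {α : Type*} {l : Filter α} {F : α → ℝ} {r : ℝ} (hr : 0 < r)
    (h : Tendsto F l (𝓝 r)) {ε : ℝ} (hε : 0 < ε) :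
    ∀ᶠ a in l, 0 < F a ∧ |Real.log (F a) - Real.log r| ≤ ε := by
  have h1 : Tendsto (fun a => Real.log (F a)) l (𝓝 (Real.log r)) := h.log hr.ne'
  have h2 : ∀ᶠ a in l, |Real.log (F a) - Real.log r| < ε := by
    have := (Metric.tendsto_nhds.mp h1) ε hε
    simpa only [Real.dist_eq] using this
  filter_upwards [h.eventually (lt_mem_nhds hr), h2] with a ha hb
  exact ⟨ha, hb.le⟩

/-- **normalisation lemma** -/
theorem norm_lemma {α X : Type*} {l : Filter α} [NeBot l] (Z : α → X → ℝ) (s : α → ℝ)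
    (Lam : X → ℝ) (hpos : ∀ x, 0 < Lam x)
    (hratio : ∀ x y, Tendsto (fun a => Z a x / Z a y) l (𝓝 (Lam x / Lam y)))
    (happ : ∀ ε > 0, ∃ x, ∃ L > 0, ∀ᶠ a in l, L ≤ s a * Z a x ∧ s a * Z a x ≤ (1 + ε) * L) :
    ∃ c > 0, ∀ x, Tendsto (fun a => s a * Z a x) l (𝓝 (c * Lam x)) := by
  obtain ⟨x₀, L₀, hL₀, h₀⟩ := happ 1 one_pos
  obtain ⟨ℓ, hℓ⟩ : ∃ ℓ, Tendsto (fun a => Real.log (s a * Z a x₀)) l (𝓝 ℓ) := by
    refine tendsto_of_approx fun ε hε => ?_
    obtain ⟨x, L, hL, h⟩ := happ (ε / 2) (by positivity)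
    set r := Lam x₀ / Lam x with hr
    have hr0 : 0 < r := div_pos (hpos _) (hpos _)
    refine ⟨Real.log r + Real.log L, ?_⟩
    filter_upwards [log_eventually hr0 (hratio x₀ x) (half_pos hε), h] with a h1 h2
    have hZx : 0 < s a * Z a x := lt_of_lt_of_le hL h2.1
    have hne : Z a x ≠ 0 := fun h => by rw [h, mul_zero] at hZx; exact lt_irrefl _ hZx
    have e : s a * Z a x₀ = (Z a x₀ / Z a x) * (s a * Z a x) := by field_simp
    rw [e, Real.log_mul h1.1.ne' hZx.ne']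
    have h3 := log_close hL (half_pos hε).le h2.1 h2.2
    have h4 : Real.log (Z a x₀ / Z a x) + Real.log (s a * Z a x) - (Real.log r + Real.log L)
        = (Real.log (Z a x₀ / Z a x) - Real.log r) + (Real.log (s a * Z a x) - Real.log L) := by
      ring
    rw [h4]
    refine (abs_add_le _ _).trans ?_
    linarith [h1.2]
  have hx₀ : Tendsto (fun a => s a * Z a x₀) l (𝓝 (Real.exp ℓ)) := by
    refine (hℓ.rexp).congr' ?_
    filter_upwards [h₀] with a ha
    exact Real.exp_log (hL₀.trans_le ha.1)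
  refine ⟨Real.exp ℓ / Lam x₀, div_pos (Real.exp_pos _) (hpos _), fun x => ?_⟩
  have h1 := (hratio x x₀).mul hx₀
  have h2 : Lam x / Lam x₀ * Real.exp ℓ = Real.exp ℓ / Lam x₀ * Lam x := by ring
  rw [h2] at h1
  refine h1.congr' ?_
  filter_upwards [h₀] with a ha
  have hZx : 0 < s a * Z a x₀ := lt_of_lt_of_le hL₀ ha.1
  have hne : Z a x₀ ≠ 0 := fun h => by rw [h, mul_zero] at hZx; exact lt_irrefl _ hZx
  field_simp


end Crest.Agent.R165.Nm1x697
end

-- ▼ part R165/Nm2_697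
section

/-!
# The plane two-point function (helper697, R165 block U5, step S2)

Everything is stated for abstract families: `P u` is the plane two-point function, `G R a u` the
plus two-point function of the spins at `0` and `u` in the disc of radius `R` at mesh `a`.
-/

set_option autoImplicit false
set_option linter.unusedVariables false

open Filter Topology
open Crest.ProbabilityR.IsingModel
open Crest.Agent.R165.Nm1x697

namespace Crest.Agent.R165.Nm2x697

/-- `u a` approximates the point `w` as the mesh `a` tends to zero -/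
def Ap (u : ℝ → ℤ × ℤ) (w : ℂ) : Prop := Tendsto (fun a => meshPoint a (u a)) (𝓝[>] 0) (𝓝 w)

lemma floor_mul_tendsto (x : ℝ) : Tendsto (fun a : ℝ => a * (⌊x / a⌋ : ℝ)) (𝓝[>] 0) (𝓝 x) := by
  have h1 : ∀ᶠ a : ℝ in 𝓝[>] 0, x - a ≤ a * (⌊x / a⌋ : ℝ) := by
    filter_upwards [self_mem_nhdsWithin] with a ha
    have ha' : (0 : ℝ) < a := ha
    have h := (Int.sub_one_lt_floor (x / a)).le
    have h2 := mul_le_mul_of_nonneg_left h ha'.le
    have h3 : a * (x / a - 1) = x - a := by field_simp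
    linarith
  have h2 : ∀ᶠ a : ℝ in 𝓝[>] 0, a * (⌊x / a⌋ : ℝ) ≤ x := by
    filter_upwards [self_mem_nhdsWithin] with a ha
    have ha' : (0 : ℝ) < a := ha
    have h := Int.floor_le (x / a)
    have h2 := mul_le_mul_of_nonneg_left h ha'.le
    have h3 : a * (x / a) = x := by field_simp
    linarith
  refine tendsto_of_tendsto_of_tendsto_of_le_of_le' (g := fun a => x - a) (h := fun _ => x) ?_
    tendsto_const_nhds h1 h2
  have : Tendsto (fun a : ℝ => x - a) (𝓝 0) (𝓝 (x - 0)) := (continuous_const.sub continuous_id).tendsto 0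
  rw [sub_zero] at this
  exact this.mono_left nhdsWithin_le_nhds

lemma ap_iff (u : ℝ → ℤ × ℤ) (w : ℂ) : Ap u w ↔
    Tendsto (fun a : ℝ => a * ((u a).1 : ℝ)) (𝓝[>] 0) (𝓝 w.re) ∧
    Tendsto (fun a : ℝ => a * ((u a).2 : ℝ)) (𝓝[>] 0) (𝓝 w.im) := by
  unfold Ap
  constructor
  · intro h
    exact ⟨(Complex.continuous_re.tendsto w).comp h, (Complex.continuous_im.tendsto w).comp h⟩
  · rintro ⟨h1, h2⟩
    have h3 : Tendsto (fun a : ℝ => ((a * ((u a).1 : ℝ) : ℝ) : ℂ) + ((a * ((u a).2 : ℝ) : ℝ) : ℂ) * Complex.I)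
        (𝓝[>] 0) (𝓝 ((w.re : ℂ) + (w.im : ℂ) * Complex.I)) :=
      ((Complex.continuous_ofReal.tendsto _).comp h1).add
        (((Complex.continuous_ofReal.tendsto _).comp h2).mul_const _)
    rw [Complex.re_add_im] at h3
    refine h3.congr fun a => ?_
    apply Complex.ext <;> simp [meshPoint]

lemma ap_mesh (w : ℂ) : Ap (fun a => meshIndex a w) w := by
  rw [ap_iff]
  exact ⟨floor_mul_tendsto w.re, floor_mul_tendsto w.im⟩

/-- scaling of an approximating family -/
lemma Ap.scale {u : ℝ → ℤ × ℤ} {w : ℂ} (h : Ap u w) {s : ℝ} (hs : 0 < s) :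
    Ap (fun a => u (a / s)) ((s : ℂ) * w) := by
  rw [ap_iff] at h ⊢
  have hd : Tendsto (fun a : ℝ => a / s) (𝓝[>] 0) (𝓝[>] 0) := by
    refine tendsto_nhdsWithin_of_tendsto_nhds_of_eventually_within _ ?_ ?_
    · have : Tendsto (fun a : ℝ => a / s) (𝓝 0) (𝓝 (0 / s)) := (continuous_id.div_const s).tendsto 0
      rw [zero_div] at this
      exact this.mono_left nhdsWithin_le_nhds
    · filter_upwards [self_mem_nhdsWithin] with a ha
      exact div_pos ha hs
  have h1 := (h.1.comp hd).const_mul s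
  have h2 := (h.2.comp hd).const_mul s
  constructor
  · have e : ((s : ℂ) * w).re = s * w.re := by simp
    rw [e]
    refine h1.congr fun a => ?_
    simp only [Function.comp]
    field_simp
  · have e : ((s : ℂ) * w).im = s * w.im := by simp
    rw [e]
    refine h2.congr fun a => ?_
    simp only [Function.comp]
    field_simp

lemma log_merge {G P ε : ℝ} (hG : 0 < G) (h0 : 0 < ε) (hε : ε ≤ 1 / 2) (h1 : (1 - ε) * G ≤ P)
    (h2 : P ≤ G) : 0 < P ∧ |Real.log P - Real.log G| ≤ 2 * ε := by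
  have hP : 0 < P := lt_of_lt_of_le (mul_pos (by linarith) hG) h1
  refine ⟨hP, ?_⟩
  have h3 := Real.log_le_log hP h2
  rw [abs_sub_comm, abs_of_nonneg (by linarith)]
  have h4 : Real.log G ≤ Real.log (1 + 2 * ε) + Real.log P := by
    rw [← Real.log_mul (by positivity) hP.ne']
    refine Real.log_le_log hG ?_
    have : G ≤ (1 + 2 * ε) * ((1 - ε) * G) := by
      have : (1 + 2 * ε) * ((1 - ε) * G) = G + ε * (1 - 2 * ε) * G := by ring
      rw [this]
      have : 0 ≤ ε * (1 - 2 * ε) * G := by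
        apply mul_nonneg (mul_nonneg h0.le (by linarith)) hG.le
      linarith
    exact this.trans (mul_le_mul_of_nonneg_left h1 (by positivity))
  have h5 : Real.log (1 + 2 * ε) ≤ 2 * ε := by
    have := Real.log_le_sub_one_of_pos (show (0 : ℝ) < 1 + 2 * ε by positivity)
    linarith
  linarith

/-- the input of step S2 -/
structure Inp (P : ℤ × ℤ → ℝ) (G : ℝ → ℝ → ℤ × ℤ → ℝ) (Lam : ℝ → ℂ → ℝ) : Prop where
  nonneg : ∀ R a u, 0 ≤ G R a u
  pos : ∀ R : ℝ, 0 < R → ∀ w : ℂ, w ≠ 0 → ‖w‖ < R → 0 < Lam R w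
  swap : ∀ u : ℤ × ℤ, P u.swap = P u
  ratio : ∀ R : ℝ, 0 < R → ∀ w w' : ℂ, w ≠ 0 → ‖w‖ < R → w' ≠ 0 → ‖w'‖ < R →
    ∀ u u' : ℝ → ℤ × ℤ, Ap u w → Ap u' w' →
      Tendsto (fun a => G R a (u a) / G R a (u' a)) (𝓝[>] 0) (𝓝 (Lam R w / Lam R w'))
  rot : ∀ R : ℝ, 0 < R → ∀ c : ℂ, ‖c‖ = 1 → ∀ w w' : ℂ, w ≠ 0 → ‖w‖ < R → w' ≠ 0 → ‖w'‖ < R →
    Lam R (c * w) / Lam R (c * w') = Lam R w / Lam R w'
  merge : ∀ ε > (0 : ℝ), ∃ t₀ > (0 : ℝ), ∀ R : ℝ, 0 < R → ∀ w : ℂ, w ≠ 0 → ‖w‖ < t₀ * R →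
    ∀ u : ℝ → ℤ × ℤ, Ap u w → ∀ᶠ a in 𝓝[>] (0 : ℝ), (1 - ε) * G R a (u a) ≤ P (u a) ∧
      P (u a) ≤ G R a (u a)
  wu : ∃ C > (0 : ℝ), Tendsto (fun n : ℕ => (n : ℝ) ^ ((1 : ℝ) / 4) * P ((n : ℤ), (n : ℤ))) atTop (𝓝 C)

variable {P : ℤ × ℤ → ℝ} {G : ℝ → ℝ → ℤ × ℤ → ℝ} {Lam : ℝ → ℂ → ℝ}

/-- approximation of the log ratio of the plane function by the disc -/
lemma Inp.approx (h : Inp P G Lam) {ε : ℝ} (hε : 0 < ε) {ρ : ℝ} (hρ : 0 < ρ) :
    ∃ R₀ > 0, ∀ R > R₀, ∀ w w' : ℂ, w ≠ 0 → w' ≠ 0 → ‖w‖ ≤ ρ → ‖w'‖ ≤ ρ →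
      ‖w‖ < R ∧ ‖w'‖ < R ∧ ∀ u u' : ℝ → ℤ × ℤ, Ap u w → Ap u' w' →
      ∀ᶠ a in 𝓝[>] (0 : ℝ), 0 < P (u a) ∧ 0 < P (u' a) ∧
        |(Real.log (P (u a)) - Real.log (P (u' a))) - Real.log (Lam R w / Lam R w')| ≤ ε := by
  set δ := min (ε / 5) (1 / 2) with hδ
  have hδ0 : 0 < δ := lt_min (by positivity) (by norm_num)
  have hδ1 : δ ≤ 1 / 2 := min_le_right _ _
  have hδ2 : δ ≤ ε / 5 := min_le_left _ _
  obtain ⟨t₀, ht₀, hm⟩ := h.merge δ hδ0
  refine ⟨ρ / t₀ + ρ + 1, by positivity, fun R hR w w' hw hw' hwρ hwρ' => ?_⟩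
  have h1 : ρ / t₀ < R := by linarith
  rw [div_lt_iff₀ ht₀] at h1
  have hq : 0 ≤ ρ / t₀ := by positivity
  have hR0 : 0 < R := by linarith
  have hwR : ‖w‖ < R := by linarith
  have hwR' : ‖w'‖ < R := by linarith
  have hwt : ‖w‖ < t₀ * R := by linarith
  have hwt' : ‖w'‖ < t₀ * R := by linarith
  refine ⟨hwR, hwR', fun u u' hu hu' => ?_⟩
  have hr := h.ratio R hR0 w w' hw hwR hw' hwR' u u' hu hu'
  have hr0 : 0 < Lam R w / Lam R w' := div_pos (h.pos R hR0 w hw hwR) (h.pos R hR0 w' hw' hwR')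
  filter_upwards [log_eventually hr0 hr hδ0, hm R hR0 w hw hwt u hu, hm R hR0 w' hw' hwt' u' hu']
    with a h2 h3 h4
  have hg := h.nonneg R a (u a)
  have hg' := h.nonneg R a (u' a)
  have hne : G R a (u a) ≠ 0 := fun h5 => by
    have := h2.1; rw [h5, zero_div] at this; exact lt_irrefl _ this
  have hne' : G R a (u' a) ≠ 0 := fun h5 => by
    have := h2.1; rw [h5, div_zero] at this; exact lt_irrefl _ this
  have hgp : 0 < G R a (u a) := lt_of_le_of_ne hg hne.symm
  have hgp' : 0 < G R a (u' a) := lt_of_le_of_ne hg' hne'.symm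
  obtain ⟨hp, hp2⟩ := log_merge hgp hδ0 hδ1 h3.1 h3.2
  obtain ⟨hp', hp2'⟩ := log_merge hgp' hδ0 hδ1 h4.1 h4.2
  refine ⟨hp, hp', ?_⟩
  have h6 := h2.2
  rw [Real.log_div hne hne'] at h6
  have e : (Real.log (P (u a)) - Real.log (P (u' a))) - Real.log (Lam R w / Lam R w')
      = (Real.log (P (u a)) - Real.log (G R a (u a)))
        - (Real.log (P (u' a)) - Real.log (G R a (u' a)))
        + (Real.log (G R a (u a)) - Real.log (G R a (u' a)) - Real.log (Lam R w / Lam R w')) := by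
    ring
  rw [e]
  refine (abs_add_le _ _).trans ?_
  have h7 := abs_sub (Real.log (P (u a)) - Real.log (G R a (u a)))
    (Real.log (P (u' a)) - Real.log (G R a (u' a)))
  linarith

/-- limits of log ratios -/
lemma Inp.exists_limit (h : Inp P G Lam) :
    ∃ f : ℂ → ℂ → ℝ, (∀ w w' : ℂ, w ≠ 0 → w' ≠ 0 → ∀ u u' : ℝ → ℤ × ℤ, Ap u w → Ap u' w' →
      Tendsto (fun a => Real.log (P (u a)) - Real.log (P (u' a))) (𝓝[>] 0) (𝓝 (f w w'))) ∧
      ∀ ρ > (0 : ℝ), ∀ ε > (0 : ℝ), ∃ R₀ > (0 : ℝ), ∀ R > R₀, ∀ w w' : ℂ, w ≠ 0 → w' ≠ 0 →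
        ‖w‖ ≤ ρ → ‖w'‖ ≤ ρ → ‖w‖ < R ∧ ‖w'‖ < R ∧
        |f w w' - Real.log (Lam R w / Lam R w')| ≤ ε := by
  have key : ∀ w w' : ℂ, w ≠ 0 → w' ≠ 0 → ∃ L : ℝ,
      Tendsto (fun a : ℝ => Real.log (P (meshIndex a w)) - Real.log (P (meshIndex a w')))
        (𝓝[>] 0) (𝓝 L) := by
    intro w w' hw hw'
    refine tendsto_of_approx fun ε hε => ?_
    obtain ⟨R₀, hR₀, hR⟩ := h.approx hε (ρ := ‖w‖ + ‖w'‖) (by positivity)
    obtain ⟨_, _, h3⟩ := hR (R₀ + 1) (by linarith) w w' hw hw' (by simp) (by simp)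
    exact ⟨_, (h3 _ _ (ap_mesh w) (ap_mesh w')).mono fun a ha => ha.2.2⟩
  choose! f hf using key
  have happ : ∀ ρ > (0 : ℝ), ∀ ε > (0 : ℝ), ∃ R₀ > (0 : ℝ), ∀ R > R₀, ∀ w w' : ℂ, w ≠ 0 → w' ≠ 0 →
        ‖w‖ ≤ ρ → ‖w'‖ ≤ ρ → ‖w‖ < R ∧ ‖w'‖ < R ∧
        |f w w' - Real.log (Lam R w / Lam R w')| ≤ ε := by
    intro ρ hρ ε hε
    obtain ⟨R₀, hR₀, hR⟩ := h.approx hε hρ
    refine ⟨R₀, hR₀, fun R hRR w w' hw hw' hwρ hwρ' => ?_⟩
    obtain ⟨h1, h2, h3⟩ := hR R hRR w w' hw hw' hwρ hwρ'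
    exact ⟨h1, h2, limit_close (hf w w' hw hw')
      ((h3 _ _ (ap_mesh w) (ap_mesh w')).mono fun a ha => ha.2.2)⟩
  refine ⟨f, fun w w' hw hw' u u' hu hu' => ?_, happ⟩
  obtain ⟨L, hL⟩ : ∃ L, Tendsto (fun a => Real.log (P (u a)) - Real.log (P (u' a)))
      (𝓝[>] 0) (𝓝 L) := by
    refine tendsto_of_approx fun ε hε => ?_
    obtain ⟨R₀, hR₀, hR⟩ := h.approx hε (ρ := ‖w‖ + ‖w'‖) (by positivity)
    obtain ⟨_, _, h3⟩ := hR (R₀ + 1) (by linarith) w w' hw hw' (by simp) (by simp)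
    exact ⟨_, (h3 _ _ hu hu').mono fun a ha => ha.2.2⟩
  have : L = f w w' := by
    by_contra hne
    have hpos : 0 < |L - f w w'| := abs_pos.mpr (sub_ne_zero.mpr hne)
    obtain ⟨R₀, hR₀, hR⟩ := h.approx (ε := |L - f w w'| / 3) (by positivity)
      (ρ := ‖w‖ + ‖w'‖) (by positivity)
    obtain ⟨R₁, hR₁, hR'⟩ := happ (‖w‖ + ‖w'‖) (by positivity) (|L - f w w'| / 3) (by positivity)
    set R := max R₀ R₁ + 1 with hRd
    obtain ⟨_, _, h3⟩ := hR R (by rw [hRd]; linarith [le_max_left R₀ R₁]) w w' hw hw'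
      (by simp) (by simp)
    obtain ⟨_, _, h4⟩ := hR' R (by rw [hRd]; linarith [le_max_right R₀ R₁]) w w' hw hw'
      (by simp) (by simp)
    have h5 := limit_close hL ((h3 _ _ hu hu').mono fun a ha => ha.2.2)
    have h6 : |L - f w w'| ≤ |L - Real.log (Lam R w / Lam R w')|
        + |f w w' - Real.log (Lam R w / Lam R w')| := by
      have e : L - f w w' = (L - Real.log (Lam R w / Lam R w'))
        - (f w w' - Real.log (Lam R w / Lam R w')) := by ring
      rw [e]; exact abs_sub _ _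
    linarith
  rw [← this]; exact hL

/-- **plane two-point function** -/
theorem plane_two_point (h : Inp P G Lam) :
    ∃ C₀ > (0 : ℝ), ∀ w : ℂ, w ≠ 0 → ∀ u : ℝ → ℤ × ℤ, Ap u w →
      Tendsto (fun a : ℝ => a ^ (-(1 : ℝ) / 4) * P (u a)) (𝓝[>] 0)
        (𝓝 (C₀ * ‖w‖ ^ (-(1 : ℝ) / 4))) := by
  obtain ⟨f, hf, happ⟩ := h.exists_limit
  obtain ⟨C, hC, hwu⟩ := h.wu
  -- the diagonal reference point
  set d : ℂ := ⟨1, 1⟩ with hd
  have hd0 : d ≠ 0 := fun h => by simpa [hd] using congrArg Complex.re h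
  have hfloor : Tendsto (fun a : ℝ => ⌊(1 : ℝ) / a⌋.toNat) (𝓝[>] 0) atTop := by
    have h1 : Tendsto (fun a : ℝ => (1 : ℝ) / a) (𝓝[>] 0) atTop := by
      simpa only [one_div] using tendsto_inv_nhdsGT_zero
    have h2 : Tendsto (fun a : ℝ => ⌊(1 : ℝ) / a⌋) (𝓝[>] 0) atTop := tendsto_floor_atTop.comp h1
    refine tendsto_atTop.mpr fun n => ?_
    filter_upwards [h2.eventually_ge_atTop (n : ℤ)] with a ha
    omega
  have hdiag : Tendsto (fun a : ℝ => a ^ (-(1 : ℝ) / 4) * P (meshIndex a d)) (𝓝[>] 0) (𝓝 C) := by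
    have h1 := hwu.comp hfloor
    have h2 : Tendsto (fun a : ℝ => (a * (⌊(1 : ℝ) / a⌋ : ℝ)) ^ (-(1 : ℝ) / 4)) (𝓝[>] 0) (𝓝 1) := by
      have := (floor_mul_tendsto 1).rpow_const (p := -(1 : ℝ) / 4) (Or.inl one_ne_zero)
      rwa [Real.one_rpow] at this
    have h3 := h2.mul h1
    rw [one_mul] at h3
    refine h3.congr' ?_
    have hev : ∀ᶠ a : ℝ in 𝓝[>] 0, a ≤ 1 := by
      filter_upwards [Ioc_mem_nhdsGT (show (0 : ℝ) < 1 by norm_num)] with a ha
      exact ha.2
    filter_upwards [self_mem_nhdsWithin, hev] with a ha ha1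
    have ha' : (0 : ℝ) < a := ha
    have h4 : (1 : ℤ) ≤ ⌊(1 : ℝ) / a⌋ := by
      rw [Int.le_floor]
      rw [Int.cast_one, le_div_iff₀ ha']
      linarith
    have h5 : ((⌊(1 : ℝ) / a⌋.toNat : ℕ) : ℤ) = ⌊(1 : ℝ) / a⌋ := Int.toNat_of_nonneg (by omega)
    have h6 : ((⌊(1 : ℝ) / a⌋.toNat : ℕ) : ℝ) = (⌊(1 : ℝ) / a⌋ : ℝ) := by
      exact_mod_cast congrArg (Int.cast : ℤ → ℝ) h5
    have h7 : (0 : ℝ) < (⌊(1 : ℝ) / a⌋ : ℝ) := by exact_mod_cast (by omega : (0 : ℤ) < ⌊(1 : ℝ) / a⌋)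
    have h8 : meshIndex a d = (((⌊(1 : ℝ) / a⌋.toNat : ℕ) : ℤ), ((⌊(1 : ℝ) / a⌋.toNat : ℕ) : ℤ)) := by
      rw [h5]; simp [meshIndex, hd]
    simp only [Function.comp]
    rw [h8, h6, Real.mul_rpow ha'.le h7.le]
    have h9 : (⌊(1 : ℝ) / a⌋ : ℝ) ^ (-(1 : ℝ) / 4) * (⌊(1 : ℝ) / a⌋ : ℝ) ^ ((1 : ℝ) / 4) = 1 := by
      rw [← Real.rpow_add h7]; norm_num
    linear_combination (a ^ (-(1 : ℝ) / 4) *
      P (((⌊(1 : ℝ) / a⌋.toNat : ℕ) : ℤ), ((⌊(1 : ℝ) / a⌋.toNat : ℕ) : ℤ))) * h9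
  -- convergence everywhere
  have hconv : ∀ w : ℂ, w ≠ 0 → ∀ u : ℝ → ℤ × ℤ, Ap u w →
      Tendsto (fun a : ℝ => a ^ (-(1 : ℝ) / 4) * P (u a)) (𝓝[>] 0) (𝓝 (C * Real.exp (f w d))) := by
    intro w hw u hu
    have h1 := (hf w d hw hd0 u _ hu (ap_mesh d)).rexp
    have h2 := hdiag.mul h1
    refine h2.congr' ?_
    obtain ⟨R₀, hR₀, hR⟩ := h.approx one_pos (ρ := ‖w‖ + ‖d‖) (by positivity)
    obtain ⟨_, _, h3⟩ := hR (R₀ + 1) (by linarith) w d hw hd0 (by simp) (by simp)
    filter_upwards [h3 _ _ hu (ap_mesh d)] with a ha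
    rw [Real.exp_sub, Real.exp_log ha.1, Real.exp_log ha.2.1]
    have := ha.2.1.ne'
    field_simp
  set p : ℂ → ℝ := fun w => C * Real.exp (f w d) with hp
  have hp0 : ∀ w, 0 < p w := fun w => mul_pos hC (Real.exp_pos _)
  -- scaling
  have hscale : ∀ w : ℂ, w ≠ 0 → ∀ s : ℝ, 0 < s → p ((s : ℂ) * w) = s ^ (-(1 : ℝ) / 4) * p w := by
    intro w hw s hs
    have h1 := hconv _ (mul_ne_zero (Complex.ofReal_ne_zero.mpr hs.ne') hw) _ ((ap_mesh w).scale hs)
    have hd : Tendsto (fun a : ℝ => a / s) (𝓝[>] 0) (𝓝[>] 0) := by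
      refine tendsto_nhdsWithin_of_tendsto_nhds_of_eventually_within _ ?_ ?_
      · have : Tendsto (fun a : ℝ => a / s) (𝓝 0) (𝓝 (0 / s)) :=
          (continuous_id.div_const s).tendsto 0
        rw [zero_div] at this
        exact this.mono_left nhdsWithin_le_nhds
      · filter_upwards [self_mem_nhdsWithin] with a ha
        exact div_pos ha hs
    have h2 := ((hconv w hw _ (ap_mesh w)).comp hd).const_mul (s ^ (-(1 : ℝ) / 4))
    refine tendsto_nhds_unique h1 (h2.congr' ?_)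
    filter_upwards [self_mem_nhdsWithin] with a ha
    have ha' : (0 : ℝ) < a := ha
    simp only [Function.comp]
    rw [Real.div_rpow ha'.le hs.le]
    have : s ^ (-(1 : ℝ) / 4) ≠ 0 := (Real.rpow_pos_of_pos hs _).ne'
    field_simp
  -- cocycle
  have hcoc : ∀ w w' : ℂ, w ≠ 0 → w' ≠ 0 → f w w' = f w d - f w' d := by
    intro w w' hw hw'
    have h1 := hf w w' hw hw' _ _ (ap_mesh w) (ap_mesh w')
    have h2 := (hf w d hw hd0 _ _ (ap_mesh w) (ap_mesh d)).sub
      (hf w' d hw' hd0 _ _ (ap_mesh w') (ap_mesh d))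
    refine tendsto_nhds_unique h1 (h2.congr fun a => ?_)
    ring
  -- rotation
  have hrot : ∀ c : ℂ, ‖c‖ = 1 → ∀ w w' : ℂ, w ≠ 0 → w' ≠ 0 → f (c * w) (c * w') = f w w' := by
    intro c hc w w' hw hw'
    have hc0 : c ≠ 0 := by intro h0; rw [h0, norm_zero] at hc; exact one_ne_zero hc.symm
    by_contra hne
    have hpos : 0 < |f (c * w) (c * w') - f w w'| := abs_pos.mpr (sub_ne_zero.mpr hne)
    obtain ⟨R₀, hR₀, hR⟩ := happ (‖w‖ + ‖w'‖) (by positivity)
      (|f (c * w) (c * w') - f w w'| / 3) (by positivity)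
    set R := R₀ + 1 with hRd
    have hRpos : 0 < R := by rw [hRd]; linarith
    obtain ⟨h1, h2, h3⟩ := hR R (by rw [hRd]; linarith) w w' hw hw' (by simp) (by simp)
    obtain ⟨_, _, h4⟩ := hR R (by rw [hRd]; linarith) (c * w) (c * w') (mul_ne_zero hc0 hw)
      (mul_ne_zero hc0 hw') (by rw [norm_mul, hc, one_mul]; simp)
      (by rw [norm_mul, hc, one_mul]; simp)
    rw [h.rot R hRpos c hc w w' hw h1 hw' h2] at h4
    have h6 : |f (c * w) (c * w') - f w w'| ≤ |f (c * w) (c * w') - Real.log (Lam R w / Lam R w')|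
        + |f w w' - Real.log (Lam R w / Lam R w')| := by
      have e : f (c * w) (c * w') - f w w' = (f (c * w) (c * w') - Real.log (Lam R w / Lam R w'))
        - (f w w' - Real.log (Lam R w / Lam R w')) := by ring
      rw [e]; exact abs_sub _ _
    linarith
  have hunit : ∀ t : ℝ, Complex.exp (t * Complex.I) ≠ 0 := fun t => Complex.exp_ne_zero _
  have hnorm : ∀ t : ℝ, ‖Complex.exp (t * Complex.I)‖ = 1 := fun t => by
    rw [Complex.norm_exp_ofReal_mul_I]
  have hcirc : ∀ t : ℝ, f (Complex.exp (t * Complex.I)) d = f 1 d := by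
    set χ : ℝ → ℝ := fun t => f (Complex.exp (t * Complex.I)) d - f 1 d with hχ
    have hadd : ∀ s t, χ (s + t) = χ s + χ t := by
      intro s t
      have h1 : Complex.exp (((s + t : ℝ) : ℂ) * Complex.I)
          = Complex.exp (s * Complex.I) * Complex.exp (t * Complex.I) := by
        rw [← Complex.exp_add]; congr 1; push_cast; ring
      have h2 := hrot (Complex.exp (s * Complex.I)) (hnorm s) (Complex.exp (t * Complex.I)) 1
        (hunit t) one_ne_zero
      rw [mul_one, hcoc _ _ (mul_ne_zero (hunit s) (hunit t)) (hunit s),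
        hcoc _ _ (hunit t) one_ne_zero, ← h1] at h2
      simp only [hχ]
      linarith
    -- reflection in the diagonal
    have hsw : ∀ t, χ (Real.pi / 2 - t) = χ t := by
      intro t
      have h1 := hf _ d (hunit t) hd0 _ _ (ap_mesh (Complex.exp (t * Complex.I))) (ap_mesh d)
      have h2 : Ap (fun a => (meshIndex a (Complex.exp (t * Complex.I))).swap)
          (Complex.exp (((Real.pi / 2 - t : ℝ) : ℂ) * Complex.I)) := by
        have h3 := (ap_iff _ _).1 (ap_mesh (Complex.exp (t * Complex.I)))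
        rw [ap_iff]
        have e1 : (Complex.exp (((Real.pi / 2 - t : ℝ) : ℂ) * Complex.I)).re
            = (Complex.exp (t * Complex.I)).im := by
          rw [Complex.exp_ofReal_mul_I_re, Complex.exp_ofReal_mul_I_im, Real.cos_pi_div_two_sub]
        have e2 : (Complex.exp (((Real.pi / 2 - t : ℝ) : ℂ) * Complex.I)).im
            = (Complex.exp (t * Complex.I)).re := by
          rw [Complex.exp_ofReal_mul_I_re, Complex.exp_ofReal_mul_I_im, Real.sin_pi_div_two_sub]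
        rw [e1, e2]
        exact ⟨h3.2, h3.1⟩
      have h4 := hf _ d (hunit (Real.pi / 2 - t)) hd0 _ _ h2 (ap_mesh d)
      simp only [h.swap] at h4
      have h5 := tendsto_nhds_unique h4 h1
      simp only [hχ]
      rw [h5]
    intro t
    have h1 := hadd (Real.pi / 2 - t) t
    rw [sub_add_cancel, hsw] at h1
    have h2 := hadd (Real.pi / 2 - 0) 0
    rw [hsw, sub_zero, add_zero] at h2
    have h0 : χ 0 = 0 := by have := hadd 0 0; rw [add_zero] at this; linarith
    have h3 : χ t = 0 := by linarith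
    simp only [hχ] at h3
    linarith
  refine ⟨p 1, hp0 1, fun w hw u hu => ?_⟩
  have h1 := hconv w hw u hu
  have h2 : p w = p 1 * ‖w‖ ^ (-(1 : ℝ) / 4) := by
    have hwn : 0 < ‖w‖ := norm_pos_iff.mpr hw
    have e : w = (‖w‖ : ℂ) * Complex.exp (Complex.arg w * Complex.I) :=
      (Complex.norm_mul_exp_arg_mul_I w).symm
    rw [e, hscale _ (hunit _) _ hwn]
    simp only [hp, hcirc]
    rw [norm_mul, hnorm, mul_one, Complex.norm_real, Real.norm_of_nonneg hwn.le]
    ring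
  have h3 : C * Real.exp (f w d) = p 1 * ‖w‖ ^ (-(1 : ℝ) / 4) := h2
  rw [h3] at h1
  exact h1

end Crest.Agent.R165.Nm2x697
end

-- ▼ part R165/U5a_697
section

/-!
# Row 165 (S0250), block U5: symmetries (helper697)

* `Gt_add`, `Gt_swap` : translation and diagonal reflection on the torus
* `P_add`, `P_swap`   : the same for the plane
* `GB_add`            : translation of a finite site set
* `TT_scale`, `TT_ball_add` : scaling and translation of disc site sets
-/

set_option autoImplicit false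
set_option linter.unusedSectionVars false
set_option linter.unusedVariables false

noncomputable section

open Filter Topology Finset
open Crest.ProbabilityR.IsingModel

namespace Crest.Agent.R165.U5ax697

open Crest.Agent.R165.Gk0x422
open Crest.Agent.R165.Gk1x422
open Crest.Agent.R165.U5Px422

/-! ### torus -/

theorem image_univ_equiv {α : Type*} [Fintype α] [DecidableEq α] (φ : α → α)
    (h : Function.Surjective φ) : (univ : Finset α).image φ = univ :=
  Finset.image_univ_of_surjective h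

theorem sp_image {V W : Type*} [DecidableEq V] [DecidableEq W] {n : ℕ} (φ : V → W)
    (hφ : Function.Injective φ) (u : Fin n → V) (A : Finset V) :
    sp u (minusOn A) = sp (fun i => φ (u i)) (minusOn (A.image φ)) := by
  unfold sp
  refine Finset.prod_congr rfl fun i _ => ?_
  congr 1
  unfold minusOn
  simp [hφ.eq_iff]

theorem Gt_add (L : ℕ) [NeZero L] (K : ℝ) {n : ℕ} (u : Fin n → ℤ × ℤ) (v : ℤ × ℤ) :
    Gt L K (fun i => u i + v) = Gt L K u := by
  unfold Gt
  have hinj : Function.Injective fun z : ZMod L × ZMod L => z + toTorus L v :=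
    add_left_injective _
  have hinj2 : Function.Injective
      fun e : (ZMod L × ZMod L) × Fin 2 => (e.1 + toTorus L v, e.2) := by
    rintro ⟨z, j⟩ ⟨z', j'⟩ h
    simp only [Prod.mk.injEq, add_left_inj] at h
    rw [h.1, h.2]
  have h := EX_transfer (K := K) (p₁ := tp L) (q₁ := tq L) (p₂ := tp L) (q₂ := tq L)
    (fun z : ZMod L × ZMod L => z + toTorus L v)
    (fun e : (ZMod L × ZMod L) × Fin 2 => (e.1 + toTorus L v, e.2))
    (T := univ) (E := univ) (F₁ := sp fun i => toTorus L (u i))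
    (F₂ := sp fun i => toTorus L (u i + v))
    (hinj2.injOn) (fun e _ => rfl) (fun e _ => by unfold tq; simp only; abel) (hinj.injOn)
    (fun e _ w _ h => hinj h) (fun e _ w _ h => hinj h)
    (fun A _ => by
      rw [sp_image _ hinj]
      unfold sp
      refine Finset.prod_congr rfl fun i _ => ?_
      simp only [toTorus_add])
  rw [h, image_univ_equiv _ (add_right_surjective _), image_univ_equiv]
  rintro ⟨z, j⟩
  exact ⟨(z - toTorus L v, j), by simp⟩

theorem Gt_swap (L : ℕ) [NeZero L] (K : ℝ) {n : ℕ} (u : Fin n → ℤ × ℤ) :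
    Gt L K (fun i => (u i).swap) = Gt L K u := by
  unfold Gt
  have hinj : Function.Injective fun z : ZMod L × ZMod L => z.swap := Prod.swap_injective
  have hinj2 : Function.Injective
      fun e : (ZMod L × ZMod L) × Fin 2 => (e.1.swap, Equiv.swap (0 : Fin 2) 1 e.2) := by
    rintro ⟨z, j⟩ ⟨z', j'⟩ h
    simp only [Prod.mk.injEq, EmbeddingLike.apply_eq_iff_eq] at h
    rw [Prod.swap_injective h.1, h.2]
  have h := EX_transfer (K := K) (p₁ := tp L) (q₁ := tq L) (p₂ := tp L) (q₂ := tq L)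
    (fun z : ZMod L × ZMod L => z.swap)
    (fun e : (ZMod L × ZMod L) × Fin 2 => (e.1.swap, Equiv.swap (0 : Fin 2) 1 e.2))
    (T := univ) (E := univ) (F₁ := sp fun i => toTorus L (u i))
    (F₂ := sp fun i => toTorus L (u i).swap)
    (hinj2.injOn) (fun e _ => rfl) (fun e _ => by
      obtain ⟨⟨x, y⟩, j⟩ := e
      unfold tq
      fin_cases j <;> simp [toTorus, unitVec]) (hinj.injOn)
    (fun e _ w _ h => hinj h) (fun e _ w _ h => hinj h)
    (fun A _ => by
      rw [sp_image _ hinj]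
      unfold sp
      refine Finset.prod_congr rfl fun i _ => ?_
      rfl)
  rw [h, image_univ_equiv _ Prod.swap_surjective, image_univ_equiv]
  rintro ⟨z, j⟩
  exact ⟨(z.swap, Equiv.swap (0 : Fin 2) 1 j), by simp⟩

theorem P_add {P : {n : ℕ} → (Fin n → ℤ × ℤ) → ℝ} (hP : PlaneLim P) {n : ℕ}
    (u : Fin n → ℤ × ℤ) (v : ℤ × ℤ) : P (fun i => u i + v) = P u := by
  refine tendsto_nhds_unique (hP n _) ((hP n u).congr fun L => ?_)
  rw [Gt_add]

theorem P_swap {P : {n : ℕ} → (Fin n → ℤ × ℤ) → ℝ} (hP : PlaneLim P) {n : ℕ}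
    (u : Fin n → ℤ × ℤ) : P (fun i => (u i).swap) = P u := by
  refine tendsto_nhds_unique (hP n _) ((hP n u).congr fun L => ?_)
  rw [Gt_swap]

/-! ### translation of finite site sets -/

theorem Gp_add (K : ℝ) (T : Finset (ℤ × ℤ)) {n : ℕ} (u : Fin n → ℤ × ℤ) (v : ℤ × ℤ) :
    Gp K (T.image (· + v)) (fun i => u i + v) = Gp K T u := by
  unfold Gp
  have hinj : Function.Injective fun z : ℤ × ℤ => z + v := add_left_injective _
  have hinj2 : Function.Injective fun e : ZB => (e.1 + v, e.2) := by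
    rintro ⟨z, j⟩ ⟨z', j'⟩ h
    simp only [Prod.mk.injEq, add_left_inj] at h
    rw [h.1, h.2]
  have h := EX_transfer (K := K) (p₁ := zp) (q₁ := zq) (p₂ := zp) (q₂ := zq)
    (fun z : ℤ × ℤ => z + v) (fun e : ZB => (e.1 + v, e.2))
    (T := T) (E := plusE T) (F₁ := sp u) (F₂ := sp fun i => u i + v)
    (hinj2.injOn) (fun e _ => rfl) (fun e _ => by unfold zq; simp only; abel) (hinj.injOn)
    (fun e _ w _ h => hinj h) (fun e _ w _ h => hinj h)
    (fun A _ => sp_image _ hinj u A)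
  rw [h]
  congr 1
  ext ⟨z, j⟩
  constructor
  · intro h
    rw [mem_plusE] at h
    refine mem_image.2 ⟨(z - v, j), ?_, by simp⟩
    rw [mem_plusE]
    rcases h with h | h
    · left
      obtain ⟨w, hw, hw2⟩ := mem_image.1 h
      have : z - v = w := by rw [← (show w + v = z from hw2)]; simp
      unfold zp; simp only; rw [this]; exact hw
    · right
      obtain ⟨w, hw, hw2⟩ := mem_image.1 h
      have h3 : w + v = z + unitVec j := hw2
      have : z - v + unitVec j = w := by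
        have : w = z + unitVec j - v := by rw [← h3]; simp
        rw [this]; abel
      unfold zq; simp only; rw [this]; exact hw
  · intro h
    obtain ⟨⟨z', j'⟩, h', h2⟩ := mem_image.1 h
    simp only [Prod.mk.injEq] at h2
    obtain ⟨rfl, rfl⟩ := h2
    rw [mem_plusE] at h'
    rw [mem_plusE]
    rcases h' with h | h
    · left
      exact mem_image.2 ⟨_, h, rfl⟩
    · right
      refine mem_image.2 ⟨_, h, ?_⟩
      unfold zq; simp only; abel

theorem Gf_add (K : ℝ) (T : Finset (ℤ × ℤ)) {n : ℕ} (u : Fin n → ℤ × ℤ) (v : ℤ × ℤ) :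
    Gf K (T.image (· + v)) (fun i => u i + v) = Gf K T u := by
  unfold Gf
  have hinj : Function.Injective fun z : ℤ × ℤ => z + v := add_left_injective _
  have hinj2 : Function.Injective fun e : ZB => (e.1 + v, e.2) := by
    rintro ⟨z, j⟩ ⟨z', j'⟩ h
    simp only [Prod.mk.injEq, add_left_inj] at h
    rw [h.1, h.2]
  have h := EX_transfer (K := K) (p₁ := zp) (q₁ := zq) (p₂ := zp) (q₂ := zq)
    (fun z : ℤ × ℤ => z + v) (fun e : ZB => (e.1 + v, e.2))
    (T := T) (E := freeE T) (F₁ := sp u) (F₂ := sp fun i => u i + v)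
    (hinj2.injOn) (fun e _ => rfl) (fun e _ => by unfold zq; simp only; abel) (hinj.injOn)
    (fun e _ w _ h => hinj h) (fun e _ w _ h => hinj h)
    (fun A _ => sp_image _ hinj u A)
  rw [h]
  congr 1
  have hm : ∀ z, z ∈ T.image (· + v) ↔ z - v ∈ T := by
    intro z
    rw [mem_image]
    constructor
    · rintro ⟨w, hw, rfl⟩; simpa using hw
    · intro h; exact ⟨_, h, by simp⟩
  ext ⟨z, j⟩
  constructor
  · intro h
    obtain ⟨h1, h2⟩ := mem_freeE.1 h
    refine mem_image.2 ⟨(z - v, j), ?_, by simp⟩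
    rw [mem_freeE]
    refine ⟨(hm _).1 h1, ?_⟩
    have := (hm _).1 h2
    unfold zq at this ⊢
    simp only at this ⊢
    have e : z - v + unitVec j = z + unitVec j - v := by abel
    rw [e]; exact this
  · intro h
    obtain ⟨⟨z', j'⟩, h', h2⟩ := mem_image.1 h
    simp only [Prod.mk.injEq] at h2
    obtain ⟨rfl, rfl⟩ := h2
    rw [mem_freeE] at h'
    refine mem_freeE.2 ⟨(hm _).2 (by
      have h1 : z' ∈ T := h'.1
      unfold zp; simpa using h1), (hm _).2 ?_⟩
    have := h'.2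
    unfold zq at this ⊢
    simp only at this ⊢
    have e : z' + v + unitVec j' - v = z' + unitVec j' := by abel
    rw [e]; exact this

theorem GB_plus_add (T : Finset (ℤ × ℤ)) {n : ℕ} (u : Fin n → ℤ × ℤ) (v : ℤ × ℤ) :
    GB .plus (T.image (· + v)) (fun i => u i + v) = GB .plus T u := Gp_add _ T u v

theorem GB_free_add (T : Finset (ℤ × ℤ)) {n : ℕ} (u : Fin n → ℤ × ℤ) (v : ℤ × ℤ) :
    GB .free (T.image (· + v)) (fun i => u i + v) = GB .free T u := Gf_add _ T u v

/-! ### site sets of discs -/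

theorem meshPoint_add (a : ℝ) (z w : ℤ × ℤ) :
    meshPoint a (z + w) = meshPoint a z + meshPoint a w := by
  apply Complex.ext <;> simp [meshPoint, mul_add]

theorem meshPoint_scale (a s : ℝ) (z : ℤ × ℤ) : meshPoint (a * s) z = (s : ℂ) * meshPoint a z := by
  apply Complex.ext <;> simp [meshPoint] <;> ring

theorem TT_ball_scale {a R : ℝ} (ha : 0 < a) (hR : 0 < R) :
    TT (Metric.ball (0 : ℂ) R) a = TT (Metric.ball (0 : ℂ) 1) (a / R) := by
  ext z
  rw [mem_TT Metric.isBounded_ball ha, mem_TT Metric.isBounded_ball (div_pos ha hR),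
    mem_ball_zero_iff, mem_ball_zero_iff]
  have h : meshPoint a z = (R : ℂ) * meshPoint (a / R) z := by
    rw [← meshPoint_scale, div_mul_cancel₀ _ hR.ne']
  rw [h, norm_mul, Complex.norm_real, Real.norm_of_nonneg hR.le]
  constructor
  · intro h; nlinarith
  · intro h; nlinarith

/-- a translated disc of smaller radius -/
theorem TT_ball_add {c z : ℂ} {r ρ a : ℝ} (ha : 0 < a) (h : ρ + ‖z - c‖ + 2 * a ≤ r) :
    (TT (Metric.ball (0 : ℂ) ρ) a).image (· + meshIndex a z) ⊆ TT (Metric.ball c r) a := by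
  intro w hw
  obtain ⟨y, hy, rfl⟩ := mem_image.1 hw
  rw [mem_TT Metric.isBounded_ball ha, mem_ball_zero_iff] at hy
  rw [mem_TT Metric.isBounded_ball ha, mem_ball_iff_norm, meshPoint_add]
  have e : meshPoint a y + meshPoint a (meshIndex a z) - c
      = meshPoint a y + ((meshPoint a (meshIndex a z) - z) + (z - c)) := by ring
  rw [e]
  have h1 := norm_add_le (meshPoint a y) ((meshPoint a (meshIndex a z) - z) + (z - c))
  have h2 := norm_add_le (meshPoint a (meshIndex a z) - z) (z - c)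
  have h3 := meshPoint_meshIndex ha z
  linarith

end Crest.Agent.R165.U5ax697
end
end

-- ▼ part R165/U5b_697

/-!
# Row 165 (S0250), block U5, step S1: merging (helper697)

* `dualB`, `FT T`, `dE T` : dual bonds (the face with lower left corner `z` is indexed by `z`)
* `muT T f g`  : free dual two-point function of the faces `f`, `g`
* `MuIn B`     : input (I3): `muT / GB .plus → B` in the unit disc, `B → 1` at merging
* `merge_of_mu : PlaneLim P → MuIn B → Merge P`
-/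

set_option autoImplicit false
set_option linter.unusedSectionVars false
set_option linter.unusedVariables false

noncomputable section

open Filter Topology Finset
open Crest.ProbabilityR.IsingModel

namespace Crest.Agent.R165.U5bx697

open Crest.Agent.R165.Gk0x422
open Crest.Agent.R165.Gk1x422
open Crest.Agent.R165.U5Px422
open Crest.Agent.R165.U5ax697

/-- the other direction -/
def od (j : Fin 2) : Fin 2 := Equiv.swap 0 1 j

/-- the dual bond of `{z, z + e_j}` joins the faces `z - e_{1-j}` and `z` -/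
def dualB (e : ZB) : ZB := (e.1 - unitVec (od e.2), od e.2)

/-- the dual bonds of the bonds touching `T` -/
def dE (T : Finset (ℤ × ℤ)) : Finset ZB := (plusE T).image dualB

/-- the faces touching `T` -/
def FT (T : Finset (ℤ × ℤ)) : Finset (ℤ × ℤ) :=
  (dE T).image zp ∪ (dE T).image zq

/-- free dual two-point function of the faces `f`, `g` -/
def muT (T : Finset (ℤ × ℤ)) (f g : ℤ × ℤ) : ℝ := EX Kc zp zq (FT T) (dE T) (sp ![f, g])

theorem dE_subset (T : Finset (ℤ × ℤ)) : dE T ⊆ freeE (FT T) := fun e he =>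
  mem_freeE.2 ⟨mem_union_left _ (mem_image_of_mem _ he), mem_union_right _ (mem_image_of_mem _ he)⟩

theorem unitVec_norm (a : ℝ) (j : Fin 2) : ‖meshPoint a (unitVec j)‖ = |a| := by
  fin_cases j
  · have : meshPoint a (unitVec 0) = (a : ℂ) := by
      apply Complex.ext <;> simp [meshPoint, unitVec]
    simp only [Fin.zero_eta]
    rw [this, Complex.norm_real, Real.norm_eq_abs]
  · have : meshPoint a (unitVec 1) = (a : ℂ) * Complex.I := by
      apply Complex.ext <;> simp [meshPoint, unitVec]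
    simp only [Fin.mk_one]
    rw [this, norm_mul, Complex.norm_I, mul_one, Complex.norm_real, Real.norm_eq_abs]

theorem meshPoint_sub (a : ℝ) (z w : ℤ × ℤ) :
    meshPoint a (z - w) = meshPoint a z - meshPoint a w := by
  apply Complex.ext <;> simp [meshPoint, mul_sub]

/-- end points of dual bonds are close to `T` -/
theorem dE_near {T : Finset (ℤ × ℤ)} {a : ℝ} (ha : 0 < a) {e : ZB} (he : e ∈ dE T) :
    ∃ z ∈ T, ‖meshPoint a (zp e) - meshPoint a z‖ ≤ 2 * a ∧
      ‖meshPoint a (zq e) - meshPoint a z‖ ≤ 2 * a := by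
  obtain ⟨⟨z, j⟩, hb, rfl⟩ := mem_image.1 he
  have h1 : meshPoint a (zp (dualB (z, j))) = meshPoint a z - meshPoint a (unitVec (od j)) := by
    rw [← meshPoint_sub]; rfl
  have h2 : meshPoint a (zq (dualB (z, j))) = meshPoint a z := by
    have : zq (dualB (z, j)) = z := by
      unfold zq dualB; simp
    rw [this]
  have n1 := unitVec_norm a (od j)
  have n2 := unitVec_norm a j
  rw [abs_of_pos ha] at n1 n2
  rcases mem_plusE.1 hb with h | h
  · refine ⟨z, h, ?_, ?_⟩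
    · rw [h1]
      have : meshPoint a z - meshPoint a (unitVec (od j)) - meshPoint a z
        = -meshPoint a (unitVec (od j)) := by ring
      rw [this, norm_neg, n1]; linarith
    · rw [h2, sub_self, norm_zero]; linarith
  · refine ⟨z + unitVec j, h, ?_, ?_⟩
    · rw [h1, meshPoint_add]
      have : meshPoint a z - meshPoint a (unitVec (od j)) - (meshPoint a z + meshPoint a (unitVec j))
        = -(meshPoint a (unitVec (od j)) + meshPoint a (unitVec j)) := by ring
      rw [this, norm_neg]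
      refine (norm_add_le _ _).trans ?_
      rw [n1, n2]; linarith
    · rw [h2, meshPoint_add]
      have : meshPoint a z - (meshPoint a z + meshPoint a (unitVec j)) = -meshPoint a (unitVec j) := by
        ring
      rw [this, norm_neg, n2]; linarith

theorem FT_near {T : Finset (ℤ × ℤ)} {a : ℝ} (ha : 0 < a) {f : ℤ × ℤ} (hf : f ∈ FT T) :
    ∃ z ∈ T, ‖meshPoint a f - meshPoint a z‖ ≤ 2 * a := by
  rcases mem_union.1 hf with h | h
  · obtain ⟨e, he, rfl⟩ := mem_image.1 h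
    obtain ⟨z, hz, h1, -⟩ := dE_near ha he
    exact ⟨z, hz, h1⟩
  · obtain ⟨e, he, rfl⟩ := mem_image.1 h
    obtain ⟨z, hz, -, h1⟩ := dE_near ha he
    exact ⟨z, hz, h1⟩

/-- the face with lower left corner in `T` touches `T` -/
theorem mem_FT {T : Finset (ℤ × ℤ)} {z : ℤ × ℤ} (hz : z ∈ T) : z ∈ FT T := by
  refine mem_union_right _ (mem_image.2 ⟨dualB (z, 0), mem_image_of_mem _ ?_, ?_⟩)
  · exact mem_plusE.2 (Or.inl hz)
  · unfold zq dualB; simp

/-- input (I3) -/
structure MuIn (B : ℂ → ℂ → ℝ) : Prop where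
  lim : ∀ x ∈ Conf (Metric.ball (0 : ℂ) 1) 2, ∀ u : ℝ → Fin 2 → ℤ × ℤ, LApp u x →
    Tendsto (fun a : ℝ => muT (TT (Metric.ball (0 : ℂ) 1) a) (u a 0) (u a 1) /
      GB .plus (TT (Metric.ball (0 : ℂ) 1) a) (u a)) (𝓝[>] 0) (𝓝 (B (x 0) (x 1)))
  one : ∀ ε > (0 : ℝ), ∃ δ > (0 : ℝ), ∀ x y : ℂ, x ≠ y → ‖x‖ < δ → ‖y‖ < δ → 1 - ε < B x y

theorem muT_nonneg (T : Finset (ℤ × ℤ)) (f g : ℤ × ℤ) : 0 ≤ muT T f g :=
  EX_nonneg Kc_nonneg (sp_pos _)

theorem muT_le_plane {P : {n : ℕ} → (Fin n → ℤ × ℤ) → ℝ} (hP : PlaneLim P)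
    {T : Finset (ℤ × ℤ)} {u : Fin 2 → ℤ × ℤ} (hu : ∀ i, u i ∈ T) :
    muT T (u 0) (u 1) ≤ P u := by
  have e : (![u 0, u 1] : Fin 2 → ℤ × ℤ) = u := by funext i; fin_cases i <;> rfl
  unfold muT
  rw [e]
  exact free_le_plane hP (dE_subset T) fun i => mem_FT (hu i)

theorem muT_le_free {T T' : Finset (ℤ × ℤ)} (h : FT T ⊆ T') {u : Fin 2 → ℤ × ℤ}
    (hu : ∀ i, u i ∈ T) : muT T (u 0) (u 1) ≤ GB .free T' u := by
  have e : (![u 0, u 1] : Fin 2 → ℤ × ℤ) = u := by funext i; fin_cases i <;> rfl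
  unfold muT
  rw [e]
  exact free_sub_le Kc_nonneg h (dE_subset T) fun i => mem_FT (hu i)

theorem FT_ball {a : ℝ} (ha : 0 < a) (ha2 : a ≤ 1 / 2) :
    FT (TT (Metric.ball (0 : ℂ) 1) a) ⊆ TT (Metric.ball (0 : ℂ) 2) a := by
  intro f hf
  obtain ⟨z, hz, h⟩ := FT_near ha hf
  rw [mem_TT Metric.isBounded_ball ha, mem_ball_zero_iff] at hz ⊢
  have : meshPoint a f = (meshPoint a f - meshPoint a z) + meshPoint a z := by ring
  rw [this]
  refine (norm_add_le _ _).trans_lt ?_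
  linarith

theorem tendsto_div_pos {s : ℝ} (hs : 0 < s) : Tendsto (fun a : ℝ => a / s) (𝓝[>] 0) (𝓝[>] 0) := by
  refine tendsto_nhdsWithin_of_tendsto_nhds_of_eventually_within _ ?_ ?_
  · have : Tendsto (fun a : ℝ => a / s) (𝓝 0) (𝓝 (0 / s)) := (continuous_id.div_const s).tendsto 0
    rw [zero_div] at this
    exact this.mono_left nhdsWithin_le_nhds
  · filter_upwards [self_mem_nhdsWithin] with a ha
    exact div_pos ha hs

theorem tendsto_mul_pos {s : ℝ} (hs : 0 < s) : Tendsto (fun a : ℝ => a * s) (𝓝[>] 0) (𝓝[>] 0) := by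
  have := tendsto_div_pos (inv_pos.2 hs)
  simpa [div_inv_eq_mul] using this

theorem eventually_lt_nhdsGT {s : ℝ} (hs : 0 < s) : ∀ᶠ a : ℝ in 𝓝[>] 0, a < s := by
  filter_upwards [Ioo_mem_nhdsGT hs] with a ha
  exact ha.2

/-- merging in the unit disc -/
theorem merge_unit {P : {n : ℕ} → (Fin n → ℤ × ℤ) → ℝ} (hP : PlaneLim P) {B : ℂ → ℂ → ℝ}
    (hB : MuIn B) {ε : ℝ} (hε : 0 < ε) : ∃ δ > (0 : ℝ), ∀ x : Fin 2 → ℂ, x 0 ≠ x 1 →
      ‖x 0‖ < δ → ‖x 1‖ < δ → ∀ u, LApp u x → ∀ᶠ a in 𝓝[>] (0 : ℝ), 0 < P (u a) ∧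
        GB .plus (TT (Metric.ball (0 : ℂ) 1) a) (u a) ≤ (1 + ε) * P (u a) ∧
        (1 - ε) * P (u a) ≤ GB .free (TT (Metric.ball (0 : ℂ) 2) a) (u a) := by
  set η := min (ε / (2 * (1 + ε))) (1 / 2) with hη
  have hη0 : 0 < η := lt_min (by positivity) (by norm_num)
  have hη1 : η ≤ 1 / 2 := min_le_right _ _
  have hη2 : 2 * η * (1 + ε) ≤ ε := by
    have : η ≤ ε / (2 * (1 + ε)) := min_le_left _ _
    rw [le_div_iff₀ (by positivity)] at this
    linarith
  obtain ⟨δ, hδ, hone⟩ := hB.one η hη0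
  refine ⟨min δ 1, lt_min hδ one_pos, fun x hx h0 h1 u hu => ?_⟩
  have h0' : ‖x 0‖ < δ := h0.trans_le (min_le_left _ _)
  have h1' : ‖x 1‖ < δ := h1.trans_le (min_le_left _ _)
  have hmem : ∀ i, x i ∈ Metric.ball (0 : ℂ) 1 := by
    intro i
    rw [mem_ball_zero_iff]
    fin_cases i
    · exact h0.trans_le (min_le_right _ _)
    · exact h1.trans_le (min_le_right _ _)
  have hinj : Function.Injective x := by
    intro i j hij
    fin_cases i <;> fin_cases j
    · rfl
    · exact absurd hij hx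
    · exact absurd hij.symm hx
    · rfl
  have hlim := hB.lim x ⟨hmem, hinj⟩ u hu
  have hBx : 1 - 2 * η < B (x 0) (x 1) := by
    have := hone (x 0) (x 1) hx h0' h1'
    linarith
  have hpos : 0 ≤ 1 - 2 * η := by linarith
  filter_upwards [hlim.eventually (lt_mem_nhds hBx), self_mem_nhdsWithin,
    hu.mem Metric.isBounded_ball Metric.isOpen_ball hmem, eventually_lt_nhdsGT (s := 1 / 2) (by norm_num)]
    with a h2 ha h3 h4
  have ha' : (0 : ℝ) < a := ha
  set T := TT (Metric.ball (0 : ℂ) 1) a with hT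
  set g := GB .plus T (u a) with hg
  set m := muT T (u a 0) (u a 1) with hm
  have hg0 : 0 ≤ g := GB_nonneg (by decide) _ _
  have hm0 : 0 ≤ m := muT_nonneg _ _ _
  have hratio : 0 < m / g := hpos.trans_lt h2
  have hgne : g ≠ 0 := fun h => by rw [h, div_zero] at hratio; exact lt_irrefl _ hratio
  have hgp : 0 < g := lt_of_le_of_ne hg0 hgne.symm
  have h5 : (1 - 2 * η) * g < m := by rwa [lt_div_iff₀ hgp] at h2
  have h6 : m ≤ P (u a) := muT_le_plane hP h3
  have h7 : m ≤ GB .free (TT (Metric.ball (0 : ℂ) 2) a) (u a) :=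
    muT_le_free (FT_ball ha' h4.le) h3
  have h8 : P (u a) ≤ g := plane_le_plus hP h3
  have hmp : 0 < m := by
    rw [div_pos_iff] at hratio
    rcases hratio with h | h
    · exact h.1
    · exact absurd h.2 (not_lt.2 hg0)
  refine ⟨hmp.trans_le h6, ?_, ?_⟩
  · -- `g ≤ (1 + ε) m`
    have h9 : g ≤ (1 + ε) * m := by
      have : (1 + ε) * ((1 - 2 * η) * g) ≤ (1 + ε) * m :=
        mul_le_mul_of_nonneg_left h5.le (by positivity)
      have h10 : g ≤ (1 + ε) * ((1 - 2 * η) * g) := by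
        have : (1 + ε) * ((1 - 2 * η) * g) = g + (ε - 2 * η * (1 + ε)) * g := by ring
        rw [this]
        have : 0 ≤ (ε - 2 * η * (1 + ε)) * g := mul_nonneg (by linarith) hg0
        linarith
      linarith
    exact h9.trans (mul_le_mul_of_nonneg_left h6 (by positivity))
  · have h9 : (1 - ε) * P (u a) ≤ (1 - 2 * η) * P (u a) := by
      refine mul_le_mul_of_nonneg_right ?_ (hmp.le.trans h6)
      nlinarith
    have h10 : (1 - 2 * η) * P (u a) ≤ (1 - 2 * η) * g := mul_le_mul_of_nonneg_left h8 hpos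
    linarith

/-- **S1** -/
theorem merge_of_mu {P : {n : ℕ} → (Fin n → ℤ × ℤ) → ℝ} (hP : PlaneLim P) {B : ℂ → ℂ → ℝ}
    (hB : MuIn B) : Merge P := by
  intro c r hr z hz ε hε
  rw [mem_ball_iff_norm] at hz
  obtain ⟨δ', hδ', hδ2'⟩ := merge_unit hP hB hε
  obtain ⟨δ, hδ, hδ1, hδ2⟩ : ∃ δ > (0 : ℝ), δ ≤ 1 ∧ ∀ x : Fin 2 → ℂ, x 0 ≠ x 1 →
      ‖x 0‖ < δ → ‖x 1‖ < δ → ∀ u, LApp u x → ∀ᶠ a in 𝓝[>] (0 : ℝ), 0 < P (u a) ∧
        GB .plus (TT (Metric.ball (0 : ℂ) 1) a) (u a) ≤ (1 + ε) * P (u a) ∧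
        (1 - ε) * P (u a) ≤ GB .free (TT (Metric.ball (0 : ℂ) 2) a) (u a) :=
    ⟨min δ' 1, lt_min hδ' one_pos, min_le_right _ _, fun x hx h0 h1 =>
      hδ2' x hx (h0.trans_le (min_le_left _ _)) (h1.trans_le (min_le_left _ _))⟩
  set ρ := (r - ‖z - c‖) / 4 with hρ
  have hρ0 : 0 < ρ := by rw [hρ]; linarith
  refine ⟨δ * ρ, by positivity, fun x hx h0 h1 u hu => ?_⟩
  -- the rescaled approximation
  set y : Fin 2 → ℂ := fun i => (x i - z) / (ρ : ℂ) with hy
  set v : ℝ → Fin 2 → ℤ × ℤ := fun a i => u (a * ρ) i - meshIndex (a * ρ) z with hv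
  have hvy : LApp v y := by
    intro i
    have h2 := (hu i).comp (tendsto_mul_pos hρ0)
    have h3 := (lapp_meshIndex (fun _ : Fin 1 => z) 0).comp (tendsto_mul_pos hρ0)
    have h4 := ((h2.sub h3).div_const (ρ : ℂ))
    refine h4.congr fun a => ?_
    simp only [Function.comp, hv]
    rw [← meshPoint_sub, meshPoint_scale]
    have : (ρ : ℂ) ≠ 0 := Complex.ofReal_ne_zero.2 hρ0.ne'
    field_simp
  have hny : ∀ i, ‖y i‖ = ‖x i - z‖ / ρ := fun i => by
    simp only [hy]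
    rw [norm_div, Complex.norm_real, Real.norm_of_nonneg hρ0.le]
  have hyne : y 0 ≠ y 1 := by
    intro h
    apply hx
    have hne : (ρ : ℂ) ≠ 0 := Complex.ofReal_ne_zero.2 hρ0.ne'
    simp only [hy] at h
    have := (div_left_inj' hne).1 h
    exact sub_left_injective this
  have hev := hδ2 y hyne (by rw [hny, div_lt_iff₀ hρ0]; exact h0)
    (by rw [hny, div_lt_iff₀ hρ0]; exact h1) v hvy
  have hev2 := (tendsto_div_pos hρ0).eventually hev
  have hny2 : ∀ i, y i ∈ Metric.ball (0 : ℂ) 2 := by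
    intro i
    rw [mem_ball_zero_iff, hny, div_lt_iff₀ hρ0]
    fin_cases i
    · exact h0.trans_le (by nlinarith)
    · exact h1.trans_le (by nlinarith)
  filter_upwards [hev2, self_mem_nhdsWithin, eventually_lt_nhdsGT (s := ρ / 2) (by positivity),
    (tendsto_div_pos hρ0).eventually (hvy.mem Metric.isBounded_ball Metric.isOpen_ball hny2)]
    with a h2 ha h3 h4
  have ha' : (0 : ℝ) < a := ha
  have e1 : ∀ i, u a i = v (a / ρ) i + meshIndex a z := by
    intro i
    simp only [hv]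
    rw [div_mul_cancel₀ _ hρ0.ne', sub_add_cancel]
  have e2 : u a = fun i => v (a / ρ) i + meshIndex a z := funext e1
  have hPe : P (u a) = P (v (a / ρ)) := by rw [e2, P_add hP]
  have s1 : TT (Metric.ball (0 : ℂ) ρ) a = TT (Metric.ball (0 : ℂ) 1) (a / ρ) :=
    TT_ball_scale ha' hρ0
  have s2 : TT (Metric.ball (0 : ℂ) (2 * ρ)) a = TT (Metric.ball (0 : ℂ) 2) (a / ρ) := by
    rw [TT_ball_scale ha' (by positivity : 0 < 2 * ρ), TT_ball_scale (div_pos ha' hρ0) two_pos]
    congr 1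
    field_simp
  rw [hPe]
  refine ⟨h2.1, ?_, ?_⟩
  · refine le_trans ?_ h2.2.1
    have hsub : (TT (Metric.ball (0 : ℂ) ρ) a).image (· + meshIndex a z) ⊆
        TT (Metric.ball c r) a := TT_ball_add ha' (by rw [hρ] at h3 ⊢; linarith)
    rw [e2, ← s1, ← GB_plus_add (TT (Metric.ball (0 : ℂ) ρ) a) (v (a / ρ)) (meshIndex a z)]
    exact GB_plus_anti hsub _
  · refine h2.2.2.trans ?_
    have hsub : (TT (Metric.ball (0 : ℂ) (2 * ρ)) a).image (· + meshIndex a z) ⊆
        TT (Metric.ball c r) a := TT_ball_add ha' (by rw [hρ] at h3 ⊢; linarith)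
    rw [e2, ← s2, ← GB_free_add (TT (Metric.ball (0 : ℂ) (2 * ρ)) a) (v (a / ρ)) (meshIndex a z)]
    refine GB_free_mono hsub fun i => mem_image_of_mem _ ?_
    rw [s2]
    exact h4 i

end Crest.Agent.R165.U5bx697
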