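import Crest.Agent.R165.Kw7_871
import Crest.Agent.R165.Cov1_359
import Crest.Agent.R165.U5b_697
import Mathlib
import Crest.Agent.R165.NoHole_65
import Crest.Agent.R165.Nm1_422
import Crest.Agent.R165.Cov2_359

-- ▼ part R165/Kw8_871
section

/-!
# Row 165 (S0250), block J/U (helper871): Kramers-Wannier in the names of 422 / 697 / 683

Corners `(X i, 3)`: the south-west corner of the face with lower left corner `X i`, i.e. at the site
`X i`; the corner field is `S + E + N + W`.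

* `tot S f g = ∑_{i,j} S (f,i) (g,j)`
* `gE_eq_EX`, `GB_plus_eq`, `GB_free_eq`, `muT_eq`
* `mu_main` : `muT T (u 0) (u 1) = |tot S (u 0) (u 1)| * GB .plus T u`
* `plus_ne` : `GB .plus T X ≠ 0` whenever the branched background has a covariance
* `free_main` : `GB .free T' X = |EE (covS S) (∏ φ(l_{X i}))| * GB .plus (starT T') X`
* `free_det` : `(GB .free T' X)² = det (tot S (X i) (X j)) * (GB .plus (starT T') X)²`
-/

set_option autoImplicit false
set_option linter.unusedSimpArgs false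
set_option linter.unusedSectionVars false

noncomputable section

open Filter Topology
open Crest.ProbabilityR.IsingModel

namespace Crest.Agent.R165.Kw8x871

open Crest.Agent.R165.Gr0x606 Crest.Agent.R165.Gr1x606 Crest.Agent.R165.J1ax606
  Crest.Agent.R165.J1bx606 Crest.Agent.R165.J1cx606 Crest.Agent.R165.Kw1x871
  Crest.Agent.R165.Kw2x871 Crest.Agent.R165.Kw3x871 Crest.Agent.R165.Kw4x871
  Crest.Agent.R165.Kw5x871 Crest.Agent.R165.Kw6x871 Crest.Agent.R165.Kw7x871
open KwHix408 KwLox408 J4Defx653 J2ax606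
open Gk0x422 Gk1x422 U5Px422 U5bx697
open Latx683 (IsCov wX wDom BW ray)

/-! ### expectations -/


theorem wt_eq (E : Finset (EG ℤ)) (s : ℤ × ℤ → Bool) :
    wt Kc zp zq E s = Real.cosh (criticalBeta 1) ^ E.card * ∏ e ∈ E, (1 + KwHix408.xc * epsE s e) := by
  unfold wt
  rw [← Finset.prod_const, ← Finset.prod_mul_distrib]
  refine Finset.prod_congr rfl fun e _ => ?_
  rw [← exp_sign _ (epsE_sign s e)]
  rfl

theorem gE_eq_EX (T : Finset (ℤ × ℤ)) (b : BoundaryCondition) (hb : b.exterior = true)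
    (E : Finset (EG ℤ)) (hE : E ⊆ J4Defx653.EE T b) (F : (ℤ × ℤ → Bool) → ℝ) :
    gE T b (fun e => if e ∈ E then KwHix408.xc else 0) F = EX Kc zp zq T E F := by
  have hp : ∀ s : ℤ × ℤ → Bool,
      ∏ e ∈ J4Defx653.EE T b, (1 + (if e ∈ E then KwHix408.xc else 0) * epsE s e) =
        ∏ e ∈ E, (1 + KwHix408.xc * epsE s e) := by
    intro s
    rw [← Finset.prod_subset hE]
    · exact Finset.prod_congr rfl fun e he => by rw [if_pos he]
    · intro e _ he
      rw [if_neg he]; simp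
  have hc : Real.cosh (criticalBeta 1) ^ E.card ≠ 0 := pow_ne_zero _ (Real.cosh_pos _).ne'
  have h1 : ∀ F : (ℤ × ℤ → Bool) → ℝ, ZZ Kc zp zq T E F =
      Real.cosh (criticalBeta 1) ^ E.card * ∑ σ : T → Bool, F (extendConfig T b σ) *
        ∏ e ∈ J4Defx653.EE T b, (1 + (if e ∈ E then KwHix408.xc else 0) * epsE (extendConfig T b σ) e) := by
    intro F
    rw [sum_extendConfig T b hb (fun s => F s *
      ∏ e ∈ J4Defx653.EE T b, (1 + (if e ∈ E then KwHix408.xc else 0) * epsE s e)), ZZ, Finset.mul_sum]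
    refine Finset.sum_congr rfl fun A _ => ?_
    rw [hp, wt_eq]; ring
  have h2 := h1 (fun _ => 1)
  simp only [one_mul] at h2
  unfold gE EX
  rw [h1 F, h2, mul_div_mul_left _ _ hc]

theorem plusE_eq (T : Finset (ℤ × ℤ)) : plusE T = J4Defx653.EE T .plus := by
  ext e
  rw [mem_plusE, mem_EE]
  simp only [reduceCtorEq, false_imp_iff, true_and]
  rfl

theorem freeE_eq (T : Finset (ℤ × ℤ)) : freeE T = J4Defx653.EE T .free := by
  ext e
  rw [mem_freeE, mem_EE]
  unfold zp zq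
  tauto

theorem plusE_touch (T : Finset (ℤ × ℤ)) : plusE T = touch T := by
  rw [plusE_eq, EE_plus]

theorem GB_plus_eq (T : Finset (ℤ × ℤ)) {n : ℕ} (u : Fin n → ℤ × ℤ) :
    GB .plus T u = gE T .plus (fun _ => KwHix408.xc) (sp u) := by
  have h := gE_eq_EX T .plus rfl (plusE T) (plusE_eq T).le (sp u)
  rw [gE_congr (w' := fun _ => KwHix408.xc)] at h
  · exact h.symm
  · intro e he
    rw [if_pos]
    rw [plusE_eq]; exact he

theorem GB_free_eq (T : Finset (ℤ × ℤ)) {n : ℕ} (u : Fin n → ℤ × ℤ) :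
    GB .free T u = gE T .free (fun _ => KwHix408.xc) (sp u) := by
  have h := gE_eq_EX T .free rfl (freeE T) (freeE_eq T).le (sp u)
  rw [gE_congr (w' := fun _ => KwHix408.xc)] at h
  · exact h.symm
  · intro e he
    rw [if_pos]
    rw [freeE_eq]; exact he

theorem dualB_eq (e : EG ℤ) : dualB e = dI e := by
  obtain ⟨z, j⟩ := e
  fin_cases j <;> simp [dualB, od, dI, unitVec]

theorem mem_dE (T : Finset (ℤ × ℤ)) (e : EG ℤ) : e ∈ U5bx697.dE T ↔ Kw5x871.dE e ∈ touch T := by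
  unfold U5bx697.dE
  rw [Finset.mem_image]
  constructor
  · rintro ⟨b, hb, rfl⟩
    rw [dualB_eq, dE_dI, ← plusE_touch]; exact hb
  · intro h
    exact ⟨_, (plusE_touch T).symm ▸ h, by rw [dualB_eq, dI_dE]⟩

theorem muT_eq (T : Finset (ℤ × ℤ)) (f g : ℤ × ℤ) :
    muT T f g = gE (FT T) .free (wB (touch T) fun _ => KwHix408.xc) (sp ![f, g]) := by
  unfold muT
  rw [← gE_eq_EX (FT T) .free rfl (U5bx697.dE T) ((dE_subset T).trans (freeE_eq _).le)]
  refine gE_congr (fun e _ => ?_) _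
  unfold wB
  simp only [mem_dE]

/-! ### corners -/

/-- the south-west corners of the faces `X i` -/
def cX {n : ℕ} (X : Fin n → ℤ × ℤ) : List (HE ℤ) := List.ofFn fun i => ((X i, 3) : HE ℤ)

theorem cv_three (f : ℤ × ℤ) : cv ((f, 3) : HE ℤ) = f := by
  unfold cv
  ext <;> simp

theorem cX_fst {n : ℕ} (X : Fin n → ℤ × ℤ) : (cX X).map Prod.fst = List.ofFn X := by
  unfold cX
  rw [List.map_ofFn]
  rfl

theorem cX_cv {n : ℕ} (X : Fin n → ℤ × ℤ) : (cX X).map cv = List.ofFn X := by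
  unfold cX
  rw [List.map_ofFn]
  congr 1
  funext i
  exact cv_three _

theorem cX_nodup {n : ℕ} {X : Fin n → ℤ × ℤ} (hX : Function.Injective X) :
    ((cX X).map Prod.fst).Nodup := by
  rw [cX_fst]
  exact List.nodup_ofFn.2 hX

theorem rayS_eq {n : ℕ} (X : Fin n → ℤ × ℤ) (e : EG ℤ) :
    rayS (List.ofFn X) e = ray X e.1 e.2 := by
  unfold rayS ray
  rw [List.map_ofFn, List.prod_ofFn]
  refine Finset.prod_congr rfl fun i _ => ?_
  simp only [Function.comp]
  by_cases h : e.2 = 0 ∧ (X i).2 = e.1.2 ∧ (X i).1 ≤ e.1.1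
  · rw [if_pos h, if_pos ⟨h.1, h.2.1.symm, h.2.2⟩]
  · rw [if_neg h, if_neg]
    rintro ⟨h1, h2, h3⟩
    exact h ⟨h1, h2.symm, h3⟩

theorem sp_cv {n : ℕ} (X : Fin n → ℤ × ℤ) (σ : ℤ × ℤ → Bool) :
    ((cX X).map fun h => spinSign (σ (cv h))).prod = sp X σ := by
  have : ((cX X).map fun h => spinSign (σ (cv h))) = ((cX X).map cv).map fun v => spinSign (σ v) := by
    rw [List.map_map]; rfl
  rw [this, cX_cv, List.map_ofFn, List.prod_ofFn]
  rfl

theorem sB_cX {n : ℕ} {X : Fin n → ℤ × ℤ} (hX : Function.Injective X) (σ : ℤ × ℤ → Bool) :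
    sB σ ((cX X).map Prod.fst).toFinset = sp X σ := by
  rw [cX_fst]
  have h : (List.ofFn X).toFinset = Finset.univ.image X := by
    ext v
    rw [List.mem_toFinset, List.mem_ofFn, Finset.mem_image]
    simp
  rw [h, sB, Finset.prod_image fun a _ b _ h => hX h]
  rfl

theorem cX_mem {n : ℕ} {X : Fin n → ℤ × ℤ} {T : Finset (ℤ × ℤ)} (hX : ∀ i, X i ∈ T) :
    ∀ c ∈ cX X, c.1 ∈ T := by
  intro c hc
  unfold cX at hc
  rw [List.mem_ofFn] at hc
  obtain ⟨i, rfl⟩ := hc
  exact hX i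

/-- total of the kernel between two faces -/
def tot (S : HE ℤ → HE ℤ → ℝ) (f g : ℤ × ℤ) : ℝ := ∑ i : Fin 4, ∑ j : Fin 4, S (f, i) (g, j)

theorem b_lf_three {S : HE ℤ → HE ℤ → ℝ} (hS : ∀ i j, S i j = -S j i) (f g : ℤ × ℤ) :
    (covOf S hS).b (lf ((f, 3) : HE ℤ)) (lf ((g, 3) : HE ℤ)) = tot S f g := by
  rw [b_lf]
  unfold tot
  refine Finset.sum_congr rfl fun i _ => Finset.sum_congr rfl fun j _ => ?_
  have h1 : i ≤ (3 : Fin 4) := Fin.le_last i
  have h2 : j ≤ (3 : Fin 4) := Fin.le_last j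
  rw [if_pos h1, if_pos h2]
  ring

/-! ### weights -/

theorem wX_weights {n : ℕ} (w : BW ℤ) (X : Fin n → ℤ × ℤ) (B : Finset (EG ℤ))
    (hw : ∀ e : EG ℤ, w e.1 e.2 = if e ∈ B then KwHix408.xc else 0) :
    (∀ e, e ∉ B → Covx359.un (wX w X) e = 0) ∧
      ∀ e ∈ B, Covx359.un (wX w X) e = rayS ((cX X).map cv) e * KwHix408.xc := by
  constructor
  · intro e he
    obtain ⟨z, j⟩ := e
    rw [Covx359.un_apply, wX, hw (z, j), if_neg he, mul_zero]
  · intro e he
    obtain ⟨z, j⟩ := e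
    rw [Covx359.un_apply, wX, cX_cv, rayS_eq, hw (z, j), if_pos he]

theorem wDom_weights (T : Finset (ℤ × ℤ)) (e : EG ℤ) :
    wDom (T : Set (ℤ × ℤ)) false e.1 e.2 = if e ∈ touch T then KwHix408.xc else 0 :=
  Covx359.wDom_plus_eq T e

/-! ### plus background -/

/-- the spin correlation is not zero if the branched background has a covariance -/
theorem plus_ne {T : Finset (ℤ × ℤ)} (hT : NoHole T) {n : ℕ} {X : Fin n → ℤ × ℤ}
    {S : HE ℤ → HE ℤ → ℝ} (hS : IsCov (wX (wDom (T : Set (ℤ × ℤ)) false) X) S) :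
    GB .plus T X ≠ 0 := by
  have hw := wX_weights (wDom (T : Set (ℤ × ℤ)) false) X (touch T) (wDom_weights T)
  have hI := Covx359.isInv_of_isCov hS
  have h1 := Z_ne_zero_of_inv hI (touch T) hw.1
  have h2 : PP (Covx359.un (wX (wDom (T : Set (ℤ × ℤ)) false) X)) (touch T) =
      ∏ e ∈ touch T, (1 + (rayS ((cX X).map cv) e * KwHix408.xc) • bb e) := by
    unfold PP
    exact Finset.prod_congr rfl fun e he => by rw [hw.2 e he]
  rw [h2, KW_den (sg_rayS _) (flux_ray (cX X)) (fills_touch hT)] at h1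
  rw [GB_plus_eq, gE_plus]
  have h3 : ∀ N : Finset (ℤ × ℤ), sp X (sN N) = spns N (cX X) := by
    intro N
    rw [← spin_list, sp_cv]
  simp only [h3]
  simp only [Finset.prod_const] at h1
  refine div_ne_zero h1 (ne_of_gt ?_)
  refine Finset.sum_pos (fun N _ => pow_pos KwHix408.xc_pos _) ⟨∅, by simp⟩

/-- **the ratio of the dual free and the plus two-point function is a covariance** -/
theorem mu_main {T : Finset (ℤ × ℤ)} (hT : NoHole T) {u : Fin 2 → ℤ × ℤ} (hu : u 0 ≠ u 1)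
    (huT : ∀ i, u i ∈ T) {S : HE ℤ → HE ℤ → ℝ}
    (hS : IsCov (wX (wDom (T : Set (ℤ × ℤ)) false) u) S) :
    muT T (u 0) (u 1) = |tot S (u 0) (u 1)| * GB .plus T u := by
  have hinj : Function.Injective u := by
    intro i j hij
    fin_cases i <;> fin_cases j
    · rfl
    · exact absurd hij hu
    · exact absurd hij.symm hu
    · rfl
  have hw := wX_weights (wDom (T : Set (ℤ × ℤ)) false) u (touch T) (wDom_weights T)
  have hI := Covx359.isInv_of_isCov hS
  have hTT : ∀ e, Kw5x871.dE e ∈ touch T → e ∈ J4Defx653.EE (FT T) .free := by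
    intro e he
    rw [← freeE_eq]
    exact dE_subset T ((mem_dE T e).2 he)
  have h := KW_touch_inv (cX_nodup hinj) (sg_rayS _) (flux_ray (cX u)) hT
    (cX_mem fun i => mem_FT (huT i)) hTT hI hw.1 hw.2
  simp only [sB_cX hinj, sp_cv] at h
  have e2 : (![u 0, u 1] : Fin 2 → ℤ × ℤ) = u := by funext i; fin_cases i <;> rfl
  have h3 : Gr0x606.EE (covOf S hI.anti) (lfs (cX u)) = tot S (u 0) (u 1) := by
    have h4 : lfs (cX u) = fi (lf ((u 0, 3) : HE ℤ)) * fi (lf ((u 1, 3) : HE ℤ)) := by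
      unfold cX
      rw [List.ofFn_succ, List.ofFn_succ, List.ofFn_zero, lfs_cons, lfs_cons, lfs_nil, mul_one]
      rfl
    rw [h4, EE_fi_fi, b_lf_three]
  rw [h3] at h
  have h5 : gE (FT T) .free (wB (touch T) fun _ => KwHix408.xc) (fun σ => sp u σ) =
      muT T (u 0) (u 1) := by rw [muT_eq, e2]
  have h6 : gE T .plus (fun _ => KwHix408.xc) (fun σ => sp u σ) = GB .plus T u := by rw [GB_plus_eq]
  rw [h5, h6, abs_of_nonneg (muT_nonneg _ _ _), abs_of_nonneg (GB_nonneg (by decide) _ _)] at h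
  exact h

/-! ### free background -/

/-- **free correlations of `n` spins**: `w` = the weights of the half-edge system on the nodes,
`xc` on the duals of the bonds inside `T'`, `0` elsewhere -/
theorem free_main {T' : Finset (ℤ × ℤ)} (hT : NoHole T') {n : ℕ} {X : Fin n → ℤ × ℤ}
    (hinj : Function.Injective X) (hX : ∀ i, X i ∈ T') {w : BW ℤ}
    (hw : ∀ e : EG ℤ, w e.1 e.2 =
      if e ∈ (J4Defx653.EE T' .free).image Kw5x871.dE then KwHix408.xc else 0)
    {S : HE ℤ → HE ℤ → ℝ} (hS : IsCov (wX w X) S) (hanti : ∀ i j, S i j = -S j i) :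
    GB .free T' X = |Gr0x606.EE (covOf S hanti) (lfs (cX X))| * GB .plus (starT T') X := by
  have hw2 := wX_weights w X _ hw
  have hI := Covx359.isInv_of_isCov hS
  have h := KW_free_inv (cX_nodup hinj) (sg_rayS _) (flux_ray (cX X)) hT (cX_mem hX) hI hw2.1 hw2.2
  simp only [sB_cX hinj, sp_cv] at h
  have h5 : gE T' .free (fun _ => KwHix408.xc) (fun σ => sp X σ) = GB .free T' X := by
    rw [GB_free_eq]
  have h6 : gE (starT T') .plus (fun _ => KwHix408.xc) (fun σ => sp X σ) =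
      GB .plus (starT T') X := by rw [GB_plus_eq]
  rw [h5, h6, abs_of_nonneg (GB_nonneg (by decide) _ _),
    abs_of_nonneg (GB_nonneg (by decide) _ _)] at h
  exact h

/-- the matrix of the corner kernels -/
def Mt {n : ℕ} (S : HE ℤ → HE ℤ → ℝ) (X : Fin n → ℤ × ℤ) : Matrix (Fin n) (Fin n) ℝ :=
  Matrix.of fun i j => tot S (X i) (X j)

theorem lfs_cX {n : ℕ} (X : Fin n → ℤ × ℤ) :
    lfs (cX X) = PfDetx408.pr fun i => lf ((X i, 3) : HE ℤ) := by
  unfold cX
  induction n with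
  | zero => simp [lfs]
  | succ n ih =>
    rw [List.ofFn_succ, lfs_cons, PfDetx408.pr_succ, ih (fun i => X i.succ)]

theorem EE_lfs_sq {S : HE ℤ → HE ℤ → ℝ} (hS : ∀ i j, S i j = -S j i) {n : ℕ} (X : Fin n → ℤ × ℤ) :
    (Gr0x606.EE (covOf S hS) (lfs (cX X))) ^ 2 = (Mt S X).det := by
  rw [lfs_cX, EE_pr_sq]
  congr 1
  ext i j
  exact b_lf_three hS _ _

/-- **free correlations of `n` spins, determinant form** -/
theorem free_det {T' : Finset (ℤ × ℤ)} (hT : NoHole T') {n : ℕ} {X : Fin n → ℤ × ℤ}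
    (hinj : Function.Injective X) (hX : ∀ i, X i ∈ T') {w : BW ℤ}
    (hw : ∀ e : EG ℤ, w e.1 e.2 =
      if e ∈ (J4Defx653.EE T' .free).image Kw5x871.dE then KwHix408.xc else 0)
    {S : HE ℤ → HE ℤ → ℝ} (hS : IsCov (wX w X) S) :
    (GB .free T' X) ^ 2 = (Mt S X).det * (GB .plus (starT T') X) ^ 2 := by
  have hanti := hS.skew
  rw [free_main hT hinj hX hw hS hanti, mul_pow, sq_abs, EE_lfs_sq]

/-- membership in the dual bonds inside `T'` -/
theorem mem_in {T' : Finset (ℤ × ℤ)} (z : ℤ × ℤ) :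
    (((z, 0) : EG ℤ) ∈ (J4Defx653.EE T' .free).image Kw5x871.dE ↔ z - (0, 1) ∈ T' ∧ z ∈ T') ∧
    (((z, 1) : EG ℤ) ∈ (J4Defx653.EE T' .free).image Kw5x871.dE ↔ z - (1, 0) ∈ T' ∧ z ∈ T') := by
  constructor
  · rw [mem_image_dE, mem_EE]
    simp only [dI, if_true, unitVec, one_ne_zero, if_false, sub_add_cancel]
    tauto
  · rw [mem_image_dE, mem_EE]
    simp only [dI, one_ne_zero, if_false, unitVec, if_true, sub_add_cancel]
    tauto

end Crest.Agent.R165.Kw8x871
end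
end

-- ▼ part R165/U3E_576
section

/-!
# Row 165 (S0250), block U, part U3-(E) (helper576)

The spinor with one source on the unit disc with two branch points `x, y`, in reduced form.

* `circ_class` : `G` holomorphic in the disc, continuous up to the circle, with the real-line
  condition `G z = -i z conj (G z)` on the circle is `G w = G 0 - i w conj (G 0)`.
* `two_branch` : if `i z g²/((z-x)(z-y)) ≥ 0` on the circle and `g x ^ 2 = -i (x - y)`, then
  `g y ^ 2 = i * kap2 x y * (y - x)`, `kap2 x y = (|1 - x̄ y| - |y - x|)/(|1 - x̄ y| + |y - x|)`.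
* `exists_two_branch` : such a `g` exists.
* `kap2_tendsto` : `kap2 x y → 1` when `x` and `y` merge; `0 < kap2 x y < 1`.
-/

set_option autoImplicit false

noncomputable section

open Filter Topology Metric Complex ComplexConjugate

namespace Crest.Agent.R165.U3Ex576

/-- `v ↦ -i v̄` -/
def Lc : ℂ →L[ℝ] ℂ := (ContinuousLinearMap.mul ℝ ℂ (-I)).comp (conjCLE : ℂ →L[ℝ] ℂ)

theorem Lc_apply (v : ℂ) : Lc v = -I * conj v := rfl

theorem mem_sph {z : ℂ} (hz : z ∈ sphere (0 : ℂ) |(1 : ℝ)|) : z * conj z = 1 ∧ z ≠ 0 := by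
  have h : ‖z‖ = 1 := by simpa using hz
  refine ⟨?_, fun h0 => by simp [h0] at h⟩
  rw [mul_conj, normSq_eq_norm_sq, h]; norm_num

theorem dcc_div {G : ℂ → ℂ} (hG : DiffContOnCl ℂ G (ball 0 1)) {w : ℂ} (hw : w ∈ ball (0 : ℂ) 1) :
    DiffContOnCl ℂ (fun z => G z / (1 - conj w * z)) (ball 0 1) := by
  have hw' : ‖w‖ < 1 := by simpa using hw
  have hne : ∀ z ∈ closedBall (0 : ℂ) 1, (1 - conj w * z) ≠ 0 := by
    intro z hz h
    have hz' : ‖z‖ ≤ 1 := by simpa using hz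
    have h1 : conj w * z = 1 := (sub_eq_zero.1 h).symm
    have h2 : ‖w‖ * ‖z‖ = 1 := by rw [← Complex.norm_conj w, ← norm_mul, h1, norm_one]
    nlinarith [norm_nonneg w, norm_nonneg z]
  refine ⟨?_, ?_⟩
  · refine hG.differentiableOn.div ?_ fun z hz => hne z (ball_subset_closedBall hz)
    fun_prop
  · rw [closure_ball _ one_ne_zero]
    have h1 : ContinuousOn G (closedBall 0 1) := by
      have := hG.continuousOn
      rwa [closure_ball _ one_ne_zero] at this
    refine h1.div ?_ hne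
    fun_prop

theorem circ_class {G : ℂ → ℂ} (hG : DiffContOnCl ℂ G (ball 0 1))
    (hc : ∀ z : ℂ, ‖z‖ = 1 → G z = -I * z * conj (G z)) {w : ℂ} (hw : w ∈ ball (0 : ℂ) 1) :
    G w = G 0 - I * w * conj (G 0) := by
  have hGc : ContinuousOn G (closedBall 0 1) := by
    have := hG.continuousOn
    rwa [closure_ball _ one_ne_zero] at this
  have hsub : sphere (0 : ℂ) |(1 : ℝ)| ⊆ closedBall 0 1 := by
    rw [abs_one]; exact sphere_subset_closedBall
  set A : ℂ := Real.circleAverage (fun z => z⁻¹ * G z) 0 1 with hA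
  have ci1 : CircleIntegrable (fun z => z⁻¹ * G z) 0 1 := by
    refine ContinuousOn.circleIntegrable' ?_
    refine ContinuousOn.mul ?_ (hGc.mono hsub)
    exact continuousOn_inv₀.mono fun z hz => (mem_sph hz).2
  have key : ∀ v ∈ ball (0 : ℂ) 1, G v = -I * conj (A + conj v * G 0) := by
    intro v hv
    have h1 := DiffContOnCl.circleAverage_smul_div (f := G) (c := 0) (R := 1) (w := v)
      (by rw [abs_one]; exact hG) (by rw [abs_one]; exact hv)
    have hd := dcc_div hG hv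
    have hdc : ContinuousOn (fun z => G z / (1 - conj v * z)) (closedBall 0 1) := by
      have := hd.continuousOn
      rwa [closure_ball _ one_ne_zero] at this
    have ci2 : CircleIntegrable (fun z => conj v * (G z / (1 - conj v * z))) 0 1 := by
      refine ContinuousOn.circleIntegrable' ?_
      exact (continuousOn_const.mul hdc).mono hsub
    have h2 : Real.circleAverage (fun z => ((z - 0) / (z - v)) • G z) 0 1 =
        Real.circleAverage (Lc ∘ (fun z => z⁻¹ * G z + conj v * (G z / (1 - conj v * z)))) 0 1 := by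
      refine Real.circleAverage_congr_sphere fun z hz => ?_
      obtain ⟨hz1, hz0⟩ := mem_sph hz
      have hzn : ‖z‖ = 1 := by simpa using hz
      have hv' : ‖v‖ < 1 := by simpa using hv
      have hzv : z - v ≠ 0 := by
        intro h
        rw [sub_eq_zero] at h
        rw [h] at hzn
        linarith
      have h3 := hc z hzn
      have hcz : conj z = z⁻¹ := by
        field_simp
        rw [mul_comm]; exact hz1
      have hden : 1 - v * z⁻¹ ≠ 0 := by
        intro h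
        apply hzv
        have h' : z * (1 - v * z⁻¹) = 0 := by rw [h, mul_zero]
        rw [mul_sub, mul_one, mul_comm v, ← mul_assoc, mul_inv_cancel₀ hz0, one_mul] at h'
        exact h'
      simp only [Function.comp, Lc_apply, sub_zero, smul_eq_mul, map_add, map_mul, map_div₀,
        map_sub, map_one, map_inv₀, Complex.conj_conj, hcz, inv_inv]
      have h4 : z - v = z * (1 - v * z⁻¹) := by field_simp
      rw [h4]
      conv_lhs => rw [h3]
      field_simp
      ring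
    have ci3 : CircleIntegrable (fun z => z⁻¹ * G z + conj v * (G z / (1 - conj v * z))) 0 1 :=
      ci1.add ci2
    rw [h2, Lc.circleAverage_comp_comm ci3, Real.circleAverage_fun_add ci1 ci2, Lc_apply] at h1
    have h5 : Real.circleAverage (fun z => conj v * (G z / (1 - conj v * z))) 0 1 =
        conj v * G 0 := by
      have h6 : DiffContOnCl ℂ (fun z => conj v * (G z / (1 - conj v * z))) (ball 0 |(1 : ℝ)|) := by
        rw [abs_one]
        exact (diffContOnCl_const (c := conj v)).smul hd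
      rw [DiffContOnCl.circleAverage h6]
      simp
    rw [h5] at h1
    exact h1.symm
  have h0 := key 0 (by simp)
  have hw1 := key w hw
  simp only [map_zero, zero_mul, add_zero] at h0
  rw [hw1, map_add, map_mul, Complex.conj_conj, mul_add, ← h0]
  ring

/-- the Gram factor `(1 - x̄ z)(1 - ȳ z)` has a holomorphic square root on the closed disc -/
def sst (x y z : ℂ) : ℂ := (1 - conj x * z) ^ (1 / 2 : ℂ) * (1 - conj y * z) ^ (1 / 2 : ℂ)

theorem re_pos_of {x z : ℂ} (hx : ‖x‖ < 1) (hz : ‖z‖ ≤ 1) : 0 < (1 - conj x * z).re := by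
  have h1 : (conj x * z).re ≤ ‖conj x * z‖ := re_le_norm _
  rw [norm_mul, Complex.norm_conj] at h1
  have h2 : ‖x‖ * ‖z‖ < 1 := by nlinarith [norm_nonneg x, norm_nonneg z]
  rw [sub_re, one_re]
  linarith

theorem cpow_half_sq (u : ℂ) : (u ^ (1 / 2 : ℂ)) ^ 2 = u := by
  rw [← Complex.cpow_nat_mul]
  norm_num

theorem sst_sq (x y z : ℂ) : sst x y z ^ 2 = (1 - conj x * z) * (1 - conj y * z) := by
  rw [sst, mul_pow, cpow_half_sq, cpow_half_sq]

theorem dcc_sst {x y : ℂ} (hx : ‖x‖ < 1) (hy : ‖y‖ < 1) :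
    DiffContOnCl ℂ (sst x y) (ball 0 1) := by
  have h : ∀ u : ℂ, ‖u‖ < 1 → ∀ z : ℂ, ‖z‖ ≤ 1 →
      DifferentiableAt ℂ (fun z => (1 - conj u * z) ^ (1 / 2 : ℂ)) z := by
    intro u hu z hz
    refine DifferentiableAt.cpow (by fun_prop) (by fun_prop) ?_
    exact Or.inl (re_pos_of hu hz)
  have h2 : ∀ z : ℂ, ‖z‖ ≤ 1 → DifferentiableAt ℂ (sst x y) z := fun z hz =>
    (h x hx z hz).mul (h y hy z hz)
  refine ⟨fun z hz => (h2 z (by simpa using (ball_subset_closedBall hz))).differentiableWithinAt,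
    ?_⟩
  rw [closure_ball _ one_ne_zero]
  exact fun z hz => (h2 z (by simpa using hz)).continuousAt.continuousWithinAt

/-- the value `κ² = B²` of the squared source-free coefficient at the second branch point -/
def kap2 (x y : ℂ) : ℝ := (‖1 - conj x * y‖ - ‖y - x‖) / (‖1 - conj x * y‖ + ‖y - x‖)

theorem norm_sq_id (x y : ℂ) :
    ‖1 - conj x * y‖ ^ 2 - ‖y - x‖ ^ 2 = (1 - ‖x‖ ^ 2) * (1 - ‖y‖ ^ 2) := by
  simp only [← normSq_eq_norm_sq, normSq_apply, sub_re, sub_im, mul_re, mul_im, one_re, one_im,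
    conj_re, conj_im]
  ring

theorem norm_lt_of {x y : ℂ} (hx : ‖x‖ < 1) (hy : ‖y‖ < 1) : ‖y - x‖ < ‖1 - conj x * y‖ := by
  have h := norm_sq_id x y
  have h1 : 0 < (1 - ‖x‖ ^ 2) * (1 - ‖y‖ ^ 2) := by
    apply mul_pos <;> nlinarith [norm_nonneg x, norm_nonneg y]
  nlinarith [norm_nonneg (y - x), norm_nonneg (1 - conj x * y)]

theorem kap2_pos {x y : ℂ} (hx : ‖x‖ < 1) (hy : ‖y‖ < 1) : 0 < kap2 x y := by
  have h := norm_lt_of hx hy
  have h1 := norm_nonneg (y - x)
  exact div_pos (by linarith) (by linarith)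


/-- merging -/
theorem kap2_tendsto {w : ℂ} (hw : ‖w‖ < 1) :
    Tendsto (fun p : ℂ × ℂ => kap2 p.1 p.2) (𝓝 (w, w)) (𝓝 1) := by
  have h : ContinuousAt (fun p : ℂ × ℂ => kap2 p.1 p.2) (w, w) := by
    unfold kap2
    refine ContinuousAt.div (by fun_prop) (by fun_prop) ?_
    have := norm_lt_of hw hw
    simp only [sub_self, norm_zero, add_zero] at this ⊢
    exact this.ne'
  have h2 : kap2 w w = 1 := by
    unfold kap2
    have := norm_lt_of hw hw
    simp only [sub_self, norm_zero, add_zero, sub_zero] at this ⊢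
    exact div_self this.ne'
  have h3 := h.tendsto
  simp only at h3
  rwa [h2] at h3

/-- the linear form of the boundary condition -/
theorem line_of {x y z g : ℂ} (hz : ‖z‖ = 1)
    (h : ∃ t : ℝ, 0 ≤ t ∧ I * z * g ^ 2 = t * ((z - x) * (z - y))) :
    g * sst x y z = -I * z * conj (g * sst x y z) := by
  obtain ⟨t, ht, h⟩ := h
  have hzz : z * conj z = 1 := by rw [mul_conj, normSq_eq_norm_sq, hz]; norm_num
  have hz0 : z ≠ 0 := fun h0 => by simp [h0] at hz
  set G := g * sst x y z with hG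
  by_cases hG0 : G = 0
  · rw [hG0]; simp
  have h1 : G ^ 2 = g ^ 2 * ((1 - conj x * z) * (1 - conj y * z)) := by
    rw [hG, mul_pow, sst_sq]
  -- `s = z² conj s*`
  have h2 : (z - x) * (z - y) = z ^ 2 * conj ((1 - conj x * z) * (1 - conj y * z)) := by
    simp only [map_mul, map_sub, map_one, Complex.conj_conj]
    have e1 : z * (1 - x * conj z) = z - x := by
      rw [mul_sub, mul_one, mul_comm x, ← mul_assoc, hzz, one_mul]
    have e2 : z * (1 - y * conj z) = z - y := by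
      rw [mul_sub, mul_one, mul_comm y, ← mul_assoc, hzz, one_mul]
    rw [← e1, ← e2]; ring
  set S := (1 - conj x * z) * (1 - conj y * z) with hS
  have h3 : I * z * G ^ 2 = (t * normSq S : ℝ) * z ^ 2 := by
    rw [h1, ← mul_assoc, h, h2]
    push_cast
    rw [← mul_conj S]
    ring
  have h4 : I * conj z * G ^ 2 = ((t * normSq S : ℝ) : ℂ) := by
    have : I * conj z * G ^ 2 * z ^ 2 = ((t * normSq S : ℝ) : ℂ) * z ^ 2 := by
      rw [← h3]
      linear_combination (I * z * G ^ 2) * hzz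
    exact mul_right_cancel₀ (pow_ne_zero 2 hz0) this
  have hτ : (0 : ℝ) ≤ t * normSq S := mul_nonneg ht (normSq_nonneg S)
  have h5 : ((t * normSq S : ℝ) : ℂ) = G * conj G := by
    rw [mul_conj, normSq_eq_norm_sq G]
    have h6 : ‖I * conj z * G ^ 2‖ = ‖G‖ ^ 2 := by
      rw [norm_mul, norm_mul, norm_I, Complex.norm_conj, hz, norm_pow]; ring
    rw [h4, norm_real, Real.norm_eq_abs, abs_of_nonneg hτ] at h6
    rw [h6]
  rw [h5] at h4
  have h7 : I * conj z * G = conj G := by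
    have : G * (I * conj z * G) = G * conj G := by rw [← h4]; ring
    exact mul_left_cancel₀ hG0 this
  rw [← h7]
  linear_combination (I * I * G) * hzz + G * I_sq

theorem dcc_G {x y : ℂ} (hx : ‖x‖ < 1) (hy : ‖y‖ < 1) {g : ℂ → ℂ}
    (hg : DiffContOnCl ℂ g (ball 0 1)) :
    DiffContOnCl ℂ (fun z => g z * sst x y z) (ball 0 1) :=
  hg.smul (dcc_sst hx hy)

/-- **(E), uniqueness**: the squared coefficient at the second branch point is `kap2` -/
theorem two_branch {x y : ℂ} (hx : ‖x‖ < 1) (hy : ‖y‖ < 1) (hxy : x ≠ y) {g : ℂ → ℂ}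
    (hg : DiffContOnCl ℂ g (ball 0 1))
    (hc : ∀ z : ℂ, ‖z‖ = 1 → ∃ t : ℝ, 0 ≤ t ∧ I * z * g z ^ 2 = t * ((z - x) * (z - y)))
    (hs : g x ^ 2 = -I * (x - y)) :
    g y ^ 2 = I * kap2 x y * (y - x) := by
  set G : ℂ → ℂ := fun z => g z * sst x y z with hGdef
  have hG := dcc_G hx hy hg
  have hline : ∀ z : ℂ, ‖z‖ = 1 → G z = -I * z * conj (G z) := fun z hz => line_of hz (hc z hz)
  have hxb : x ∈ ball (0 : ℂ) 1 := by simpa using hx
  have hyb : y ∈ ball (0 : ℂ) 1 := by simpa using hy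
  have hGx : G x = G 0 - I * x * conj (G 0) := circ_class hG hline hxb
  have hGy : G y = G 0 - I * y * conj (G 0) := circ_class hG hline hyb
  set a := G 0 with ha
  have hcx : conj (G x) = conj a + I * conj x * a := by
    rw [hGx]; simp only [map_sub, map_mul, conj_I, Complex.conj_conj]; ring
  set p : ℂ := 1 - conj x * y with hp
  set q : ℂ := y - x with hq
  -- `G y (1 - |x|²) = G x p - i conj (G x) q`
  have hX : (1 - x * conj x) ≠ 0 := by
    rw [mul_conj, normSq_eq_norm_sq]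
    intro h
    have : (1 - ‖x‖ ^ 2 : ℝ) = 0 := by exact_mod_cast h
    nlinarith [norm_nonneg x]
  have e1 : G y * (1 - x * conj x) = G x * p - I * conj (G x) * q := by
    rw [hcx, hGx, hGy, hp, hq]
    linear_combination (a * conj x * (y - x)) * I_sq
  have hGx2 : G x ^ 2 = I * q * (1 - x * conj x) * conj p := by
    have h1 : G x ^ 2 = g x ^ 2 * ((1 - conj x * x) * (1 - conj y * x)) := by
      rw [hGdef]; simp only [mul_pow, sst_sq]
    rw [h1, hs, hp, hq]
    simp only [map_sub, map_mul, map_one, Complex.conj_conj]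
    ring
  have hGy2 : G y ^ 2 = g y ^ 2 * (p * (1 - y * conj y)) := by
    have h1 : G y ^ 2 = g y ^ 2 * ((1 - conj x * y) * (1 - conj y * y)) := by
      rw [hGdef]; simp only [mul_pow, sst_sq]
    rw [h1, hp]; ring
  -- real numbers
  have hpq := norm_lt_of hx hy
  rw [← hp, ← hq] at hpq
  have hq0 : q ≠ 0 := sub_ne_zero.2 hxy.symm
  have hqn : 0 < ‖q‖ := norm_pos_iff.2 hq0
  have hpn : 0 < ‖p‖ := hqn.trans hpq
  have hp0 : p ≠ 0 := norm_pos_iff.1 hpn
  have hnX : (0 : ℝ) < 1 - ‖x‖ ^ 2 := by nlinarith [norm_nonneg x]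
  have hnY : (0 : ℝ) < 1 - ‖y‖ ^ 2 := by nlinarith [norm_nonneg y]
  have exx : (1 - x * conj x : ℂ) = ((1 - ‖x‖ ^ 2 : ℝ) : ℂ) := by
    rw [mul_conj, normSq_eq_norm_sq]; push_cast; ring
  have eyy : (1 - y * conj y : ℂ) = ((1 - ‖y‖ ^ 2 : ℝ) : ℂ) := by
    rw [mul_conj, normSq_eq_norm_sq]; push_cast; ring
  have hpp : p * conj p = ((‖p‖ ^ 2 : ℝ) : ℂ) := by
    rw [mul_conj, normSq_eq_norm_sq]
  have hGxn : ((‖G x‖ ^ 2 : ℝ) : ℂ) = ((‖q‖ * (1 - ‖x‖ ^ 2) * ‖p‖ : ℝ) : ℂ) := by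
    have h1 : ‖G x‖ ^ 2 = ‖G x ^ 2‖ := by rw [norm_pow]
    rw [h1, hGx2, exx, norm_mul, norm_mul, norm_mul, norm_I, Complex.norm_conj, norm_real,
      Real.norm_eq_abs, abs_of_pos hnX]
    push_cast; ring
  have hGxc : G x * conj (G x) = ((‖q‖ * (1 - ‖x‖ ^ 2) * ‖p‖ : ℝ) : ℂ) := by
    rw [mul_conj, normSq_eq_norm_sq, hGxn]
  -- `G x * G y = i q |p| (|p| - |q|)`
  have hX' : ((1 - ‖x‖ ^ 2 : ℝ) : ℂ) ≠ 0 := by exact_mod_cast hnX.ne'
  have e2 : G x * G y = I * q * ((‖p‖ * (‖p‖ - ‖q‖) : ℝ) : ℂ) := by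
    have h1 : G x * G y * ((1 - ‖x‖ ^ 2 : ℝ) : ℂ) =
        I * q * ((‖p‖ * (‖p‖ - ‖q‖) : ℝ) : ℂ) * ((1 - ‖x‖ ^ 2 : ℝ) : ℂ) := by
      rw [exx] at e1 hGx2
      have h2 : G x * G y * ((1 - ‖x‖ ^ 2 : ℝ) : ℂ) =
          G x ^ 2 * p - I * (G x * conj (G x)) * q := by
        linear_combination (G x) * e1
      rw [h2, hGx2, hGxc]
      push_cast at hpp ⊢
      linear_combination (I * q * (1 - (‖x‖ : ℂ) ^ 2)) * hpp
    exact mul_right_cancel₀ hX' h1
  have e3 : G x ^ 2 * G y ^ 2 = (I * q * ((‖p‖ * (‖p‖ - ‖q‖) : ℝ) : ℂ)) ^ 2 := by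
    rw [← e2]; ring
  rw [hGx2, hGy2, exx, eyy] at e3
  -- cancel
  have hcp0 : conj p ≠ 0 := (map_ne_zero _).2 hp0
  have key : g y ^ 2 * ((1 - ‖x‖ ^ 2 : ℝ) * (1 - ‖y‖ ^ 2 : ℝ) : ℂ) =
      I * q * (((‖p‖ - ‖q‖) ^ 2 : ℝ) : ℂ) := by
    have h1 : (I * q * (p * conj p)) * (g y ^ 2 * ((1 - ‖x‖ ^ 2 : ℝ) * (1 - ‖y‖ ^ 2 : ℝ) : ℂ)) =
        (I * q * (p * conj p)) * (I * q * (((‖p‖ - ‖q‖) ^ 2 : ℝ) : ℂ)) := by
      have h2 : (I * q * (p * conj p)) *
          (g y ^ 2 * ((1 - ‖x‖ ^ 2 : ℝ) * (1 - ‖y‖ ^ 2 : ℝ) : ℂ)) =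
          I * q * ((1 - ‖x‖ ^ 2 : ℝ) : ℂ) * conj p *
            (g y ^ 2 * (p * ((1 - ‖y‖ ^ 2 : ℝ) : ℂ))) := by ring
      rw [h2, e3, hpp]
      push_cast
      ring
    refine mul_left_cancel₀ ?_ h1
    exact mul_ne_zero (mul_ne_zero I_ne_zero hq0) (mul_ne_zero hp0 hcp0)
  have hid := norm_sq_id x y
  rw [← hp, ← hq] at hid
  have hk : (kap2 x y : ℝ) * ((1 - ‖x‖ ^ 2) * (1 - ‖y‖ ^ 2)) = (‖p‖ - ‖q‖) ^ 2 := by
    rw [← hid, kap2, ← hp, ← hq]
    have : ‖p‖ + ‖q‖ ≠ 0 := by positivity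
    field_simp
    ring
  have hne : ((1 - ‖x‖ ^ 2 : ℝ) * (1 - ‖y‖ ^ 2 : ℝ) : ℂ) ≠ 0 := by
    exact_mod_cast (mul_pos hnX hnY).ne'
  refine mul_right_cancel₀ hne ?_
  rw [key, ← hk]
  push_cast
  ring

end Crest.Agent.R165.U3Ex576
end
end

-- ▼ part R165/Kw9_871

/-!
# Row 165 (S0250), block U (helper871): the input (I3) of U5 from the kernel limit at two branch points

* `BrLim B` : in the unit disc with plus boundary conditions, the covariance between the two branch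
  points (`tot S (u 0) (u 1)`) tends in absolute value to `B (x 0) (x 1)` (B3 (c) of the chart of block U)
* `muIn_of` : `BrLim B → (B → 1 at merging) → MuIn B`
* `kapB x y = √(kap2 x y)`, `muIn_kapB : BrLim kapB → MuIn kapB`
* `merge_kapB : BrLim kapB → PlaneLim P → Merge P`
-/

set_option autoImplicit false
set_option linter.unusedSimpArgs false
set_option linter.unusedSectionVars false

noncomputable section

open Filter Topology
open Crest.ProbabilityR.IsingModel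

namespace Crest.Agent.R165.Kw9x871

open Crest.Agent.R165.Kw8x871
open U5Px422 U5bx697
open Latx683 (IsCov wX wDom BW ray HE)

/-- the site set as a finset -/
theorem coe_TT {D : Set ℂ} (hD : Bornology.IsBounded D) {a : ℝ} (ha : 0 < a) :
    ((TT D a : Finset (ℤ × ℤ)) : Set (ℤ × ℤ)) = domainSites D a := by
  ext z
  rw [Finset.mem_coe, mem_TT hD ha]
  rfl

/-- the site sets of a `C²` Jordan domain have no holes -/
theorem noHole_TT {D : Set ℂ} (hD : IsC2JordanDomain D) :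
    ∀ᶠ a in 𝓝[>] (0 : ℝ), J1cx606.NoHole (TT D a) := by
  have hb : Bornology.IsBounded D := Redx541.bounded_of_C2 hD
  filter_upwards [NoHolex65.eventually_noHole_toFinset hD, self_mem_nhdsWithin] with a h ha
  have hf := Redx541.domainSites_finite hb ha
  have hT : TT D a = hf.toFinset := by unfold TT; rw [dif_pos hf]
  rw [hT]
  exact h hf

/-- **both ends at branch points**: kernel limit in the unit disc -/
def BrLim (B : ℂ → ℂ → ℝ) : Prop :=
  ∀ x ∈ Conf (Metric.ball (0 : ℂ) 1) 2, ∀ u : ℝ → Fin 2 → ℤ × ℤ, LApp u x →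
    ∀ S : ℝ → HE ℤ → HE ℤ → ℝ,
    (∀ᶠ a in 𝓝[>] (0 : ℝ),
      IsCov (wX (wDom (domainSites (Metric.ball (0 : ℂ) 1) a) false) (u a)) (S a)) →
    Tendsto (fun a : ℝ => |tot (S a) (u a 0) (u a 1)|) (𝓝[>] 0) (𝓝 (B (x 0) (x 1)))

theorem ne_of_lapp {u : ℝ → Fin 2 → ℤ × ℤ} {x : Fin 2 → ℂ} (h : LApp u x) (hx : x 0 ≠ x 1) :
    ∀ᶠ a in 𝓝[>] (0 : ℝ), u a 0 ≠ u a 1 := by
  obtain ⟨U, V, hU, hV, h0, h1, hd⟩ := t2_separation hx
  filter_upwards [(h 0).eventually (hU.mem_nhds h0), (h 1).eventually (hV.mem_nhds h1)] with a h2 h3 h4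
  rw [← h4] at h3
  exact Set.disjoint_left.1 hd h2 h3

/-- **(I3)** from the kernel limit -/
theorem muIn_of {B : ℂ → ℂ → ℝ} (hB : BrLim B)
    (h1 : ∀ ε > (0 : ℝ), ∃ δ > (0 : ℝ), ∀ x y : ℂ, x ≠ y → ‖x‖ < δ → ‖y‖ < δ → 1 - ε < B x y) :
    MuIn B := by
  refine ⟨fun x hx u hu => ?_, h1⟩
  have hex : ∀ a : ℝ, ∃ S : HE ℤ → HE ℤ → ℝ,
      IsCov (wX (wDom ((TT (Metric.ball (0 : ℂ) 1) a : Finset (ℤ × ℤ)) : Set (ℤ × ℤ)) false) (u a)) S := by
    intro a
    obtain ⟨S, hS, -⟩ := Covx359.exists_isCov_plus (TT (Metric.ball (0 : ℂ) 1) a) (u a)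
    exact ⟨S, hS⟩
  choose S hS using hex
  have hbd : Bornology.IsBounded (Metric.ball (0 : ℂ) 1) := Metric.isBounded_ball
  have hcov : ∀ᶠ a in 𝓝[>] (0 : ℝ),
      IsCov (wX (wDom (domainSites (Metric.ball (0 : ℂ) 1) a) false) (u a)) (S a) := by
    filter_upwards [self_mem_nhdsWithin] with a ha
    rw [← coe_TT hbd ha]
    exact hS a
  have hlim := hB x hx u hu S hcov
  have hxne : x 0 ≠ x 1 := fun h => absurd (hx.2 h) (by decide)
  refine hlim.congr' ?_
  filter_upwards [noHole_TT (Nm1x422.isC2_ball 0 one_pos), ne_of_lapp hu hxne,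
    hu.mem hbd Metric.isOpen_ball hx.1] with a hT hne hmem
  have h2 := mu_main hT hne hmem (hS a)
  have h3 := plus_ne hT (hS a)
  rw [h2, mul_div_assoc, div_self h3, mul_one]

/-! ### the explicit function -/

/-- `B(x,y) = √((|1 - x̄ y| - |x - y|) / (|1 - x̄ y| + |x - y|))` -/
def kapB (x y : ℂ) : ℝ := Real.sqrt (U3Ex576.kap2 x y)

theorem kapB_one (ε : ℝ) (hε : 0 < ε) :
    ∃ δ > (0 : ℝ), ∀ x y : ℂ, x ≠ y → ‖x‖ < δ → ‖y‖ < δ → 1 - ε < kapB x y := by
  have h := U3Ex576.kap2_tendsto (w := (0 : ℂ)) (by simp)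
  have h2 : Tendsto (fun p : ℂ × ℂ => Real.sqrt (U3Ex576.kap2 p.1 p.2)) (𝓝 (0, 0)) (𝓝 1) := by
    have h5 := (Real.continuous_sqrt.tendsto (1 : ℝ)).comp h
    rw [Real.sqrt_one] at h5
    exact h5
  have h3 := h2.eventually (lt_mem_nhds (by linarith : 1 - ε < 1))
  rw [Metric.eventually_nhds_iff] at h3
  obtain ⟨δ, hδ, h4⟩ := h3
  refine ⟨δ, hδ, fun x y _ hx hy => ?_⟩
  have := @h4 (x, y) (by
    rw [Prod.dist_eq, dist_zero_right, dist_zero_right]
    exact max_lt hx hy)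
  exact this

/-- **(I3)** with the explicit function -/
theorem muIn_kapB (h : BrLim kapB) : MuIn kapB := muIn_of h kapB_one


end Crest.Agent.R165.Kw9x871
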