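import Crest.Agent.R165.UB3_641
import Crest.Agent.R165.Kw9_871

/-!
# Row 165 (S0250), block U: merging from the branch limits (helper641)

* `DiscTwo` : coefficient at the second branch point, unit disc (719 (5), 576)
* `brLim_of : BrLeaf → DiscTwo → BrLim kapB`
* `merge_of : BrLeaf → DiscTwo → PlaneLim P → Merge P`
-/

set_option autoImplicit false

noncomputable section

open Filter Topology Set
open Crest.ProbabilityR.IsingModel

namespace Crest.Agent.R165.UBrLx641

open Crest.Agent.R165.ConfTopx641 Crest.Agent.R165.UB3x641 Crest.Agent.R165.U3x719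
open Crest.Agent.R165.Kw9x871 Crest.Agent.R165.Kw8x871

/-- the coefficient at the second branch point in the unit disc (719, 576) -/
def DiscTwo : Prop :=
  ∀ x : Fin 2 → ℂ, x ∈ Conf 2 (Metric.ball (0 : ℂ) 1) → ∀ (i j : Fin 2) (g : ℂ → ℂ), i ≠ j →
    IsBr (Metric.ball (0 : ℂ) 1) x i g →
      g (x j) ^ 2 = -Complex.I * U3Ex576.kap2 (x i) (x j) * U3x719.wX x j

theorem kap2_symm (x y : ℂ) : U3Ex576.kap2 x y = U3Ex576.kap2 y x := by
  unfold U3Ex576.kap2
  have h1 : ‖1 - (starRingEnd ℂ) x * y‖ = ‖1 - (starRingEnd ℂ) y * x‖ := by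
    rw [← Complex.norm_conj]
    simp only [map_sub, map_mul, map_one, Complex.conj_conj]
    rw [mul_comm]
  rw [h1, norm_sub_rev y x]

theorem cSS_eq_tot (S : Latx683.HE ℤ → Latx683.HE ℤ → ℝ) (v v' : ℤ × ℤ) :
    cSS S v v' = tot S v v' := rfl

theorem kap_abs {n : ℕ} (x : Fin n → ℂ) (X : Fin n → ℤ × ℤ) (z : ℂ) (f : ℤ × ℤ) :
    |UKerx420.kap x X z f| = 1 := by
  have h := UKerx420.kap_sq x X z f
  rw [← abs_mul_abs_self] at h
  have h0 := abs_nonneg (UKerx420.kap x X z f)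
  nlinarith

theorem brLim_of (hB : BrLeaf) (hT : DiscTwo) : BrLim kapB := by
  intro x hx u hu S hS
  obtain ⟨c1, c2, -, hc2, h⟩ := hB
  obtain ⟨g, hg, hF⟩ := h _ (Nm1x422.isC2_ball 0 one_pos) 2 x hx
  have h1 := (hF _ u (bgFam_dom (Nm1x422.isC2_ball 0 one_pos)) hu).cor S hS 1 0 (by decide)
  have h2 := h1.abs
  have e1 : |c2 * (g 1 (x 0) / (Complex.I * gsrc x 0)).re| = kapB (x 0) (x 1) := by
    have hbr := hT x hx 1 0 (g 1) (by decide) (hg 1).br
    set ζ := g 1 (x 0) / (Complex.I * gsrc x 0) with hζ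
    have hx01 : x 0 ≠ x 1 := fun h => absurd (hx.2 h) (by decide)
    have hw : U3x719.wX x 0 ≠ 0 := by
      unfold U3x719.wX
      rw [Finset.prod_ne_zero_iff]
      intro i hi
      rw [Finset.mem_erase] at hi
      exact sub_ne_zero.2 fun h => hi.1 (hx.2 h)
    have hn0 : ‖x 0‖ < 1 := by simpa using hx.1 0
    have hn1 : ‖x 1‖ < 1 := by simpa using hx.1 1
    have hk := U3Ex576.kap2_pos hn0 hn1
    have hsq : ζ ^ 2 = ((U3Ex576.kap2 (x 0) (x 1) : ℝ) : ℂ) := by
      rw [hζ, div_pow, mul_pow, gsrc_sq, hbr, kap2_symm (x 1) (x 0), Complex.I_sq]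
      have hI : Complex.I ≠ 0 := Complex.I_ne_zero
      field_simp
    have hre : ζ.re ^ 2 = U3Ex576.kap2 (x 0) (x 1) := by
      have h3 := congrArg Complex.re hsq
      have h4 := congrArg Complex.im hsq
      rw [pow_two, Complex.mul_re, Complex.ofReal_re] at h3
      rw [pow_two, Complex.mul_im, Complex.ofReal_im] at h4
      have h5 : ζ.re * ζ.im = 0 := by linarith
      rcases mul_eq_zero.1 h5 with h6 | h6
      · rw [h6] at h3
        nlinarith [sq_nonneg ζ.im]
      · rw [h6] at h3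
        nlinarith
    have hc : |c2| = 1 := by
      have h5 := abs_nonneg c2
      have h6 : |c2| ^ 2 = 1 := by rw [sq_abs]; exact hc2
      nlinarith
    rw [abs_mul, hc, one_mul]
    show |ζ.re| = Real.sqrt (U3Ex576.kap2 (x 0) (x 1))
    rw [← hre, Real.sqrt_sq_eq_abs]
  rw [e1] at h2
  refine h2.congr fun a => ?_
  unfold kapX
  rw [abs_mul, abs_mul, kap_abs, kap_abs, one_mul, one_mul, cSS_eq_tot]


end Crest.Agent.R165.UBrLx641
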