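import Mathlib
import Crest.Agent.R165.U3Cov3_67
import Crest.Agent.R165.U5b_697
import Crest.Agent.R165.USpin_641
import Crest.Agent.R165.UPl_641
import Crest.Agent.R165.Nm1_422
import Crest.Agent.R165.SpE_583
import Crest.Agent.R165.UBrL_641
import Crest.Agent.R165.UJ4_420
import Crest.Agent.R165.UKerPl_304
import Crest.Agent.R165.GeoRc_416
import Crest.Agent.R165.Nm7_422
import Crest.Agent.R165.Pl3_654

-- ▼ part R165/U3Cov4_67
section

/-!
R165, block U3 (4) (helper67), part 4: covariance of the kernels `kerB`, `kerR`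
(the content of `KerCov` of `UKer_420`).
-/

set_option autoImplicit false

open Complex Set Metric Filter Topology MeasureTheory
open scoped ComplexConjugate

namespace Crest.Agent.R165.U3Covx67

open Crest.Agent.R165.U3x719
open Crest.Agent.R165.Geo (CD)
open Crest.Agent.R165.Tp416 (BiL)

variable {n : ℕ}

/-- a family of solutions with one source in the bulk -/
def KerFam (D : Set ℂ) (x : Fin n → ℂ) (g : ℂ → ℂ → ℂ → ℂ) : Prop :=
  ∀ y ∈ D, (∀ j, x j ≠ y) → ∀ c, IsKer D x y (src x y c) (g y c)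

/-- the local square root of `φ'` -/
noncomputable def rr (φ : ℂ → ℂ) (x : Fin n → ℂ) (q : ℂ → ℂ) (z : ℂ) : ℂ :=
  q z * rXa (fun j => φ (x j)) (φ z) / rXa x z

theorem rr_sq {D : Set ℂ} {φ : ℂ → ℂ} {x : Fin n → ℂ} {q : ℂ → ℂ} (hq : IsQ D φ x q)
    (hD : IsOpen D) (hφ : DifferentiableOn ℂ φ D) (hinj : InjOn φ D) (hx : ∀ j, x j ∈ D)
    {z : ℂ} (hz : z ∈ D) (hxz : ∀ j, x j ≠ z) : rr φ x q z ^ 2 = deriv φ z := by
  have hrel := hq.rel hD hφ hinj hx hz
  have h1 : PX x z ≠ 0 := PX_ne hxz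
  unfold rr
  rw [div_pow, mul_pow, rXa_sq, rXa_sq, hrel, mul_div_assoc, div_self h1, mul_one]

/-- the residue of the transported kernel -/
theorem src_cov {D : Set ℂ} {φ : ℂ → ℂ} {x : Fin n → ℂ} {q : ℂ → ℂ} (hq : IsQ D φ x q)
    (hD : IsOpen D) (hφ : DifferentiableOn ℂ φ D) (hinj : InjOn φ D) (hx : ∀ j, x j ∈ D)
    {y : ℂ} (hy : y ∈ D) (hxy : ∀ j, x j ≠ y) (c : ℂ) :
    q y * src (fun j => φ (x j)) (φ y) (rr φ x q y * c) / deriv φ y = src x y c := by
  have hrel := hq.rel hD hφ hinj hx hy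
  have h1 : deriv φ y ≠ 0 := Crest.Agent.Lib.deriv_ne_zero_of_injOn hD hφ hinj hy
  have h2 : rXa x y ≠ 0 := rXa_ne hxy
  unfold src rr
  rw [div_eq_iff h1]
  have h3 := rXa_sq x y
  have h4 := rXa_sq (fun j => φ (x j)) (φ y)
  rw [← h3, ← h4] at hrel
  field_simp
  linear_combination (e8 * c) * hrel

/-- logarithmic derivative of `PX` -/
theorem hasDerivAt_PX {x : Fin n → ℂ} {y : ℂ} (hxy : ∀ j, x j ≠ y) :
    HasDerivAt (PX x) (PX x y * ∑ j, 1 / (y - x j)) y := by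
  unfold PX
  have h1 : ∀ j ∈ (Finset.univ : Finset (Fin n)), HasDerivAt (fun z => x j - z) (-1) y :=
    fun j _ => by simpa using (hasDerivAt_id y).const_sub (x j)
  have h2 := HasDerivAt.fun_finsetProd h1
  refine h2.congr_deriv ?_
  rw [Finset.mul_sum]
  refine Finset.sum_congr rfl (fun j _ => ?_)
  have h3 : x j - y ≠ 0 := sub_ne_zero.2 (hxy j)
  have h4 : y - x j ≠ 0 := sub_ne_zero.2 (hxy j).symm
  rw [← Finset.mul_prod_erase _ _ (Finset.mem_univ j), smul_eq_mul]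
  field_simp
  ring

/-- logarithmic derivative of `q` -/
theorem deriv_q {D : Set ℂ} {φ : ℂ → ℂ} {x : Fin n → ℂ} {q : ℂ → ℂ} (hq : IsQ D φ x q)
    (hD : IsOpen D) (hφ : DifferentiableOn ℂ φ D) (hinj : InjOn φ D) (hx : ∀ j, x j ∈ D)
    {y : ℂ} (hy : y ∈ D) (hxy : ∀ j, x j ≠ y) :
    deriv q y = q y * (deriv (deriv φ) y / (2 * deriv φ y) + ∑ j, 1 / (2 * (y - x j)) -
      deriv φ y * ∑ j, 1 / (2 * (φ y - φ (x j)))) := by
  have hφy : HasDerivAt φ (deriv φ y) y := (hφ.differentiableAt (hD.mem_nhds hy)).hasDerivAt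
  have hφ'y : HasDerivAt (deriv φ) (deriv (deriv φ) y) y :=
    ((hφ.deriv hD).differentiableAt (hD.mem_nhds hy)).hasDerivAt
  have hqy : HasDerivAt q (deriv q y) y := (hq.diff.differentiableAt (hD.mem_nhds hy)).hasDerivAt
  have hxy' : ∀ j, φ (x j) ≠ φ y := fun j he => hxy j (hinj (hx j) hy he)
  have h1 : HasDerivAt (fun z => PX (fun j => φ (x j)) (φ z))
      (PX (fun j => φ (x j)) (φ y) * ∑ j, 1 / (φ y - φ (x j)) * deriv φ y) y := by
    have := (hasDerivAt_PX hxy').comp y hφy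
    refine this.congr_deriv ?_
    rw [mul_assoc, Finset.sum_mul]
  have h2 := (hqy.fun_pow 2).mul h1
  have h3 := hφ'y.mul (hasDerivAt_PX hxy)
  have hev : (fun z => deriv φ z * PX x z) =ᶠ[𝓝 y]
      (fun z => q z ^ 2 * PX (fun j => φ (x j)) (φ z)) := by
    filter_upwards [hD.mem_nhds hy] with z hz
    exact (hq.rel hD hφ hinj hx hz).symm
  have h4 := (HasDerivAt.congr_of_eventuallyEq h2 hev).unique h3
  have hrel := hq.rel hD hφ hinj hx hy
  have hP : PX x y ≠ 0 := PX_ne hxy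
  have hP' : PX (fun j => φ (x j)) (φ y) ≠ 0 := PX_ne hxy'
  have hd1 : deriv φ y ≠ 0 := Crest.Agent.Lib.deriv_ne_zero_of_injOn hD hφ hinj hy
  have hq0 : q y ≠ 0 := hq.ne y hy
  set S := ∑ j, 1 / (y - x j) with hS
  set S' := ∑ j, 1 / (φ y - φ (x j)) with hS'
  have e1 : ∑ j, 1 / (2 * (y - x j)) = S / 2 := by
    rw [hS, Finset.sum_div]
    exact Finset.sum_congr rfl (fun j _ => by rw [div_div, mul_comm (2:ℂ)])
  have e2 : ∑ j, 1 / (2 * (φ y - φ (x j))) = S' / 2 := by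
    rw [hS', Finset.sum_div]
    exact Finset.sum_congr rfl (fun j _ => by rw [div_div, mul_comm (2:ℂ)])
  have e3 : ∑ j, 1 / (φ y - φ (x j)) * deriv φ y = S' * deriv φ y := by
    rw [hS', Finset.sum_mul]
  rw [e1, e2]
  rw [e3] at h4
  simp only [Nat.cast_ofNat, Nat.add_one_sub_one, pow_one] at h4
  -- 2 q q' PX' + q² PX' S' φ' = φ'' PX + φ' PX S, with q² PX' = φ' PX
  set A := PX (fun j => φ (x j)) (φ y) with hA
  set B := PX x y with hB
  set p := deriv φ y with hp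
  have h5 : 2 * q y * deriv q y * A = deriv (deriv φ) y * B + p * B * S - p * B * S' * p := by
    linear_combination h4 - S' * p * hrel
  have h6 : B = q y ^ 2 * A / p := by
    rw [eq_div_iff hd1]; linear_combination -hrel
  rw [h6] at h5
  have h7 : 2 * q y * A ≠ 0 := mul_ne_zero (mul_ne_zero two_ne_zero hq0) hP'
  apply mul_left_cancel₀ h7
  field_simp at h5 ⊢
  linear_combination h5

/-- the transported family -/
theorem ker_unique_pull (hU : Uniq) {D E : Set ℂ} {r M : ℝ} (hD : CD D r M) {φ : ℂ → ℂ}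
    (h : BiL D E φ) {x : Fin n → ℂ} (hxi : Function.Injective x) (hx : ∀ j, x j ∈ D)
    {q : ℂ → ℂ} (hq : IsQ D φ x q) {g g' : ℂ → ℂ → ℂ → ℂ} (hg : KerFam D x g)
    (hg' : KerFam E (fun j => φ (x j)) g') {y : ℂ} (hy : y ∈ D) (hxy : ∀ j, x j ≠ y) (c : ℂ) :
    ∀ z ∈ D, z ≠ y → g y c z = q z * g' (φ y) (rr φ x q y * c) (φ z) := by
  have hinj := h.bij.injOn
  have hxy' : ∀ j, φ (x j) ≠ φ y := fun j he => hxy j (hinj (hx j) hy he)
  have h1 := (ker_pull h hx hq hy (hg' (φ y) (h.bij.mapsTo hy) hxy' (rr φ x q y * c))).1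
  rw [src_cov hq hD.isOpen h.diff hinj hx hy hxy] at h1
  exact IsKer.unique hU hD hxi hx hy hxy (hg y hy hxy c) h1

/-- **covariance of the kernel** -/
theorem kerB_cov (hU : Uniq) {D E : Set ℂ} {r M : ℝ} (hD : CD D r M) {φ : ℂ → ℂ}
    (h : BiL D E φ) {x : Fin n → ℂ} (hxi : Function.Injective x) (hx : ∀ j, x j ∈ D)
    {q : ℂ → ℂ} (hq : IsQ D φ x q) {g g' : ℂ → ℂ → ℂ → ℂ} (hg : KerFam D x g)
    (hg' : KerFam E (fun j => φ (x j)) g') {z y : ℂ} (hz : z ∈ D) (hy : y ∈ D) (hzy : z ≠ y)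
    (hxz : ∀ j, x j ≠ z) (hxy : ∀ j, x j ≠ y) (c c' : ℂ) :
    kerB x g z y c c' =
      kerB (fun j => φ (x j)) g' (φ z) (φ y) (rr φ x q z * c) (rr φ x q y * c') := by
  have hinj := h.bij.injOn
  have hxz' : ∀ j, φ (x j) ≠ φ z := fun j he => hxz j (hinj (hx j) hz he)
  unfold kerB
  rw [ker_unique_pull hU hD h hxi hx hq hg hg' hy hxy c' z hz hzy]
  congr 1
  have h1 : rXa x z ≠ 0 := rXa_ne hxz
  have h2 : rXa (fun j => φ (x j)) (φ z) ≠ 0 := rXa_ne hxz'
  unfold rr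
  field_simp

theorem limUnder_ker {D : Set ℂ} (hD : IsOpen D) {y η : ℂ} (hy : y ∈ D) {f k : ℂ → ℂ}
    (hk : DifferentiableOn ℂ k D) (he : ∀ z ∈ D, z ≠ y → f z = η / (z - y) + k z) :
    limUnder (𝓝[≠] y) (fun z => f z - η / (z - y)) = k y := by
  refine Tendsto.limUnder_eq ?_
  have h1 : Tendsto k (𝓝[≠] y) (𝓝 (k y)) :=
    ((hk.differentiableAt (hD.mem_nhds hy)).continuousAt).tendsto.mono_left nhdsWithin_le_nhds
  refine h1.congr' ?_
  filter_upwards [self_mem_nhdsWithin, nhdsWithin_le_nhds (hD.mem_nhds hy)] with z hz hzD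
  rw [he z hzD hz]; ring

/-- **covariance of the regular part** -/
theorem kerR_cov (hU : Uniq) {D E : Set ℂ} {r M : ℝ} (hD : CD D r M) {φ : ℂ → ℂ}
    (h : BiL D E φ) {x : Fin n → ℂ} (hxi : Function.Injective x) (hx : ∀ j, x j ∈ D)
    {q : ℂ → ℂ} (hq : IsQ D φ x q) {g g' : ℂ → ℂ → ℂ → ℂ} (hg : KerFam D x g)
    (hg' : KerFam E (fun j => φ (x j)) g') {y : ℂ} (hy : y ∈ D)
    (hxy : ∀ j, x j ≠ y) (c c' : ℂ) :
    kerR x g y c c' =
      kerR (fun j => φ (x j)) g' (φ y) (rr φ x q y * c) (rr φ x q y * c') := by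
  have hinj := h.bij.injOn
  have hDo := hD.isOpen
  have hxy' : ∀ j, φ (x j) ≠ φ y := fun j he => hxy j (hinj (hx j) hy he)
  have hd1 : deriv φ y ≠ 0 := Crest.Agent.Lib.deriv_ne_zero_of_injOn hDo h.diff hinj hy
  set η' := src (fun j => φ (x j)) (φ y) (rr φ x q y * c') with hη'
  set η := src x y c' with hη
  have hηη : q y * η' / deriv φ y = η := src_cov hq hDo h.diff hinj hx hy hxy c'
  obtain ⟨k', hk', he'⟩ := (hg' (φ y) (h.bij.mapsTo hy) hxy' (rr φ x q y * c')).pole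
  obtain ⟨-, hkey⟩ := ker_pull h hx hq hy (hg' (φ y) (h.bij.mapsTo hy) hxy' (rr φ x q y * c'))
  have hds : ∀ z ∈ D, dslope φ y z ≠ 0 := fun z hz => dslope_ne_zero' hDo h.diff hinj hy hz
  set s : ℂ → ℂ := fun z => q z / dslope φ y z with hs
  have hsd : DifferentiableOn ℂ s D := hq.diff.div (differentiableOn_dslope' hDo h.diff hy) hds
  set k : ℂ → ℂ := fun z => η' * dslope s y z + q z * k' (φ z) with hk
  have hkd : DifferentiableOn ℂ k D :=
    ((differentiableOn_dslope' hDo hsd hy).const_mul η').add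
      (hq.diff.mul (hk'.comp h.diff h.bij.mapsTo))
  have he : ∀ z ∈ D, z ≠ y → g y c' z = η / (z - y) + k z := by
    intro z hz hne
    rw [ker_unique_pull hU hD h hxi hx hq hg hg' hy hxy c' z hz hne,
      hkey k' hk' he' z hz hne, hηη]
  unfold kerR
  rw [limUnder_ker hDo hy hkd he, limUnder_ker h.open_ (h.bij.mapsTo hy) hk' he']
  congr 1
  -- derivative of `s`
  have hφan : AnalyticAt ℂ φ y := h.diff.analyticAt (hDo.mem_nhds hy)
  have hqy : HasDerivAt q (deriv q y) y := (hq.diff.differentiableAt (hDo.mem_nhds hy)).hasDerivAt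
  have hsder : deriv s y = (deriv q y * deriv φ y - q y * (deriv (deriv φ) y / 2)) /
      deriv φ y ^ 2 := by
    have := hqy.fun_div (hasDerivAt_dslope hφan) (hds y hy)
    rw [dslope_same] at this
    exact this.deriv
  have hky : k y = η' * deriv s y + q y * k' (φ y) := by
    rw [hk]; simp only [dslope_same]
  rw [hky, hsder, deriv_q hq hDo h.diff hinj hx hy hxy]
  set S := ∑ j, 1 / (2 * (y - x j)) with hS
  set S' := ∑ j, 1 / (2 * (φ y - φ (x j))) with hS'
  have h1 : rXa x y ≠ 0 := rXa_ne hxy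
  have h2 : rXa (fun j => φ (x j)) (φ y) ≠ 0 := rXa_ne hxy'
  rw [← hη, ← hη', ← hηη]
  have h3 : rr φ x q y = q y * rXa (fun j => φ (x j)) (φ y) / rXa x y := rfl
  rw [h3]
  field_simp
  ring

/-- **KerCov** (the covariance clause of `UKer_420`, in terms of the real functions) -/
theorem ker_cov (hU : Uniq) {D E : Set ℂ} {r M : ℝ} (hD : CD D r M) {φ : ℂ → ℂ}
    (h : BiL D E φ) {x : Fin n → ℂ} (hxi : Function.Injective x) (hx : ∀ j, x j ∈ D)
    {g g' : ℂ → ℂ → ℂ → ℂ} (hg : KerFam D x g) (hg' : KerFam E (fun j => φ (x j)) g') :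
    ∃ ρ : ℂ → ℂ, (∀ z ∈ D, (∀ i, x i ≠ z) → ρ z ^ 2 = deriv φ z) ∧
      (∀ z z', z ∈ D → z' ∈ D → z ≠ z' → (∀ i, x i ≠ z) → (∀ i, x i ≠ z') → ∀ c c',
        kerB x g z z' c c' =
          kerB (fun j => φ (x j)) g' (φ z) (φ z') (ρ z * c) (ρ z' * c')) ∧
      ∀ z, z ∈ D → (∀ i, x i ≠ z) → ∀ c c',
        kerR x g z c c' = kerR (fun j => φ (x j)) g' (φ z) (ρ z * c) (ρ z * c') := by
  obtain ⟨q, hq⟩ := exists_q hD h.diff h.bij.injOn x hx
  refine ⟨rr φ x q, fun z hz hxz => rr_sq hq hD.isOpen h.diff h.bij.injOn hx hz hxz, ?_, ?_⟩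
  · intro z z' hz hz' hne hxz hxz' c c'
    exact kerB_cov hU hD h hxi hx hq hg hg' hz hz' hne hxz hxz' c c'
  · intro z hz hxz c c'
    exact kerR_cov hU hD h hxi hx hq hg hg' hz hxz c c'

end Crest.Agent.R165.U3Covx67
end

-- ▼ part R165/U5c_697
section

/-!
# Row 165 (S0250), block U5, step S2: two-point functions (helper697)

* `Wu P`      : the diagonal two-point function (input)
* `plane2`    : `a^{-1/4} P ![u₀, u₁] → C₀ |x - y|^{-1/4}` for all lattice approximations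
* `exists_twoPt` : the two-point functions of discs, with the merging asymptotics `C₀ |x - y|^{-1/4}`
-/

set_option autoImplicit false
set_option linter.unusedSectionVars false
set_option linter.unusedVariables false

noncomputable section

open Filter Topology Finset
open Crest.ProbabilityR.IsingModel

namespace Crest.Agent.R165.U5cx697

open Crest.Agent.R165.Gk0x422
open Crest.Agent.R165.Gk1x422
open Crest.Agent.R165.U5Px422
open Crest.Agent.R165.U5ax697
open Crest.Agent.R165.U5bx697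
open Crest.Agent.R165.Nm1x697
open Crest.Agent.R165.Nm2x697
open Crest.Agent.R165.USpinx641 (SpinInB)

/-- discs are `C²` Jordan domains -/
def BallC2 : Prop := ∀ (c : ℂ) (r : ℝ), 0 < r → IsC2JordanDomain (Metric.ball c r)

/-- Wu's law on the diagonal -/
def Wu (P : {n : ℕ} → (Fin n → ℤ × ℤ) → ℝ) : Prop :=
  ∃ C > (0 : ℝ), Tendsto (fun n : ℕ => (n : ℝ) ^ ((1 : ℝ) / 4) *
    P (n := 2) ![(0, 0), ((n : ℤ), (n : ℤ))]) atTop (𝓝 C)

variable {P : {n : ℕ} → (Fin n → ℤ × ℤ) → ℝ}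
  {Lam : (n : ℕ) → Set ℂ → (Fin n → ℂ) → ℝ}

theorem conf_ball {R : ℝ} {w : ℂ} (hw : w ≠ 0) (hR : ‖w‖ < R) :
    (![0, w] : Fin 2 → ℂ) ∈ Conf (Metric.ball (0 : ℂ) R) 2 := by
  have hR0 : 0 < R := (norm_nonneg w).trans_lt hR
  refine ⟨fun i => ?_, fun i j hij => ?_⟩
  · rw [mem_ball_zero_iff]
    fin_cases i
    · simpa using hR0
    · simpa using hR
  · fin_cases i <;> fin_cases j
    · rfl
    · exact absurd hij.symm hw
    · exact absurd hij hw
    · rfl

theorem lapp_pair {u : ℝ → ℤ × ℤ} {w : ℂ} (h : Ap u w) :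
    LApp (fun a => ![(0, 0), u a]) (![0, w] : Fin 2 → ℂ) := by
  intro i
  fin_cases i
  · have : ∀ a : ℝ, meshPoint a (0, 0) = 0 := fun a => by
      apply Complex.ext <;> simp [meshPoint]
    simp [this]
  · exact h

theorem inp (hP : PlaneLim P) (hL : SpinInB .plus Lam) (hb : BallC2) (hM : Merge P) (hW : Wu P) :
    Inp (fun u => P (n := 2) ![(0, 0), u])
      (fun R a u => GB .plus (TT (Metric.ball (0 : ℂ) R) a) ![(0, 0), u])
      (fun R w => Lam 2 (Metric.ball (0 : ℂ) R) ![0, w]) where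
  nonneg R a u := GB_nonneg (by decide) _ _
  pos R hR w hw hwR := hL.pos 2 _ (Or.inl rfl) (hb _ _ hR) _ (conf_ball hw hwR)
  swap u := by
    have h := P_swap hP (n := 2) ![(0, 0), u]
    rw [← h]
    congr 1
    funext i
    fin_cases i <;> rfl
  ratio R hR w w' hw hwR hw' hwR' u u' hu hu' :=
    hL.ratio 2 _ (Or.inl rfl) (hb _ _ hR) _ (conf_ball hw hwR) _ (conf_ball hw' hwR')
      _ _ (lapp_pair hu) (lapp_pair hu')
  rot R hR c hc w w' hw hwR hw' hwR' := by
    have hc0 : c ≠ 0 := by intro h0; rw [h0, norm_zero] at hc; exact one_ne_zero hc.symm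
    have hbij : Set.BijOn (fun z : ℂ => c * z) (Metric.ball (0 : ℂ) R) (Metric.ball (0 : ℂ) R) := by
      refine ⟨fun z hz => ?_, fun z _ z' _ h => mul_left_cancel₀ hc0 h, fun z hz => ?_⟩
      · rw [mem_ball_zero_iff] at hz ⊢
        simp only
        rw [norm_mul, hc, one_mul]; exact hz
      · refine ⟨c⁻¹ * z, ?_, ?_⟩
        · rw [mem_ball_zero_iff] at hz ⊢
          rw [norm_mul, norm_inv, hc, inv_one, one_mul]; exact hz
        · simp only
          rw [← mul_assoc, mul_inv_cancel₀ hc0, one_mul]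
    obtain ⟨k, hk, hk2⟩ := hL.cov 2 _ _ (Or.inl rfl) (hb 0 R hR) (hb 0 R hR)
      (fun z => c * z) ((differentiable_id.const_mul c).differentiableOn) hbij
    have hd : ∀ z : ℂ, ‖deriv (fun z : ℂ => c * z) z‖ = 1 := by
      intro z
      rw [deriv_const_mul_field, deriv_id'', mul_one, hc]
    have key : ∀ w : ℂ, w ≠ 0 → ‖w‖ < R → Lam 2 (Metric.ball (0 : ℂ) R) ![0, c * w]
        = k * Lam 2 (Metric.ball (0 : ℂ) R) ![0, w] := by
      intro w hw hwR
      have h := hk2 _ (conf_ball hw hwR)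
      rw [← h]
      simp only [hd, Real.one_rpow, Finset.prod_const_one, mul_one]
      congr 1
      funext i
      fin_cases i <;> simp
    rw [key w hw hwR, key w' hw' hwR', mul_div_mul_left _ _ hk.ne']
  merge ε hε := by
    obtain ⟨δ, hδ, hδ2⟩ := hM 0 1 one_pos 0 (by simp) ε hε
    refine ⟨min δ 1, lt_min hδ one_pos, fun R hR w hw hwR u hu => ?_⟩
    have hwn : ‖w / (R : ℂ)‖ = ‖w‖ / R := by
      rw [norm_div, Complex.norm_real, Real.norm_of_nonneg hR.le]
    have h1 : ‖w / (R : ℂ)‖ < δ := by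
      rw [hwn, div_lt_iff₀ hR]
      exact hwR.trans_le (mul_le_mul_of_nonneg_right (min_le_left _ _) hR.le)
    have h2 : ‖w / (R : ℂ)‖ < 1 := by
      rw [hwn, div_lt_iff₀ hR]
      exact hwR.trans_le (mul_le_mul_of_nonneg_right (min_le_right _ _) hR.le)
    have hne : w / (R : ℂ) ≠ 0 := div_ne_zero hw (Complex.ofReal_ne_zero.2 hR.ne')
    have hu2 : Ap (fun a => u (a / R⁻¹)) (((R⁻¹ : ℝ) : ℂ) * w) := hu.scale (inv_pos.2 hR)
    have e : (((R⁻¹ : ℝ) : ℂ) * w) = w / (R : ℂ) := by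
      rw [Complex.ofReal_inv, div_eq_inv_mul]
    rw [e] at hu2
    have h3 := hδ2 ![0, w / (R : ℂ)] (by simpa using hne.symm) (by simpa using hδ)
      (by simpa using h1) _ (lapp_pair hu2)
    have h4 := (lapp_pair hu2).mem Metric.isBounded_ball Metric.isOpen_ball
      (conf_ball hne h2).1
    have h5 := (tendsto_div_pos hR).eventually (h3.and h4)
    filter_upwards [h5, self_mem_nhdsWithin] with a ha ha0
    have ha' : (0 : ℝ) < a := ha0
    obtain ⟨⟨p0, p1, -⟩, p2⟩ := ha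
    have e2 : a / R / R⁻¹ = a := by field_simp
    rw [e2] at p0 p1 p2
    rw [← TT_ball_scale ha' hR] at p1 p2
    refine ⟨?_, plane_le_plus hP p2⟩
    have hG : 0 ≤ GB .plus (TT (Metric.ball (0 : ℂ) R) a) ![(0, 0), u a] := GB_nonneg (by decide) _ _
    by_cases hε1 : ε ≤ 1
    · have := mul_le_mul_of_nonneg_left p1 (show 0 ≤ 1 - ε by linarith)
      refine this.trans ?_
      have : (1 - ε) * ((1 + ε) * P (n := 2) ![(0, 0), u a])
          = P (n := 2) ![(0, 0), u a] - ε ^ 2 * P (n := 2) ![(0, 0), u a] := by ring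
      rw [this]
      have : 0 ≤ ε ^ 2 * P (n := 2) ![(0, 0), u a] := mul_nonneg (sq_nonneg _) p0.le
      linarith
    · push Not at hε1
      have : (1 - ε) * GB .plus (TT (Metric.ball (0 : ℂ) R) a) ![(0, 0), u a] ≤ 0 :=
        mul_nonpos_of_nonpos_of_nonneg (by linarith) hG
      linarith
  wu := hW

theorem lapp_sub {u : ℝ → Fin 2 → ℤ × ℤ} {x : Fin 2 → ℂ} (h : LApp u x) :
    Ap (fun a => u a 1 - u a 0) (x 1 - x 0) := by
  refine ((h 1).sub (h 0)).congr fun a => ?_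
  rw [meshPoint_sub]

/-- **plane two-point function** -/
theorem plane2 (hP : PlaneLim P) (hL : SpinInB .plus Lam) (hb : BallC2) (hM : Merge P) (hW : Wu P) :
    ∃ C₀ > (0 : ℝ), ∀ x : Fin 2 → ℂ, x 0 ≠ x 1 → ∀ u : ℝ → Fin 2 → ℤ × ℤ, LApp u x →
      Tendsto (fun a : ℝ => a ^ (-(1 : ℝ) / 4) * P (u a)) (𝓝[>] 0)
        (𝓝 (C₀ * ‖x 0 - x 1‖ ^ (-(1 : ℝ) / 4))) := by
  obtain ⟨C₀, hC, h⟩ := plane_two_point (inp hP hL hb hM hW)
  refine ⟨C₀, hC, fun x hx u hu => ?_⟩
  have h1 := h (x 1 - x 0) (sub_ne_zero.2 hx.symm) _ (lapp_sub hu)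
  rw [norm_sub_rev] at h1
  refine h1.congr fun a => ?_
  congr 1
  have h2 := P_add hP (n := 2) ![(0, 0), u a 1 - u a 0] (u a 0)
  rw [← h2]
  congr 1
  funext i
  fin_cases i
  · simp
  · simp

end Crest.Agent.R165.U5cx697
end
end

-- ▼ part R165/U5d_697
section

/-!
# Row 165 (S0250), block U5: pairs of spins in arbitrary domains (helper697)

* `slim_of_happ` : one almost normalised configuration for every `ε` gives all scaling limits
* `PairAs C₀ b D` : merging asymptotics of the rescaled lattice two-point function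
* `pairAs` : holds for plus and free in every bounded open set
* `cov_two` : conformal covariance of the two-point function (constant `1`)
* `exists_twoPt` : `TwoPt g`
-/

set_option autoImplicit false
set_option linter.unusedSectionVars false
set_option linter.unusedVariables false

noncomputable section

open Filter Topology Finset
open Crest.ProbabilityR.IsingModel

namespace Crest.Agent.R165.U5dx697

open Crest.Agent.R165.Gk0x422
open Crest.Agent.R165.Gk1x422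
open Crest.Agent.R165.U5Px422
open Crest.Agent.R165.U5ax697
open Crest.Agent.R165.U5bx697
open Crest.Agent.R165.U5cx697
open Crest.Agent.R165.Nm1x697
open Crest.Agent.R165.Nm2x697
open Crest.Agent.R165.USpinx641 (SpinInB)

variable {P : {n : ℕ} → (Fin n → ℤ × ℤ) → ℝ}
  {Lam : (n : ℕ) → Set ℂ → (Fin n → ℂ) → ℝ}

/-- scaling limits from one almost normalised configuration for every `ε` -/
theorem slim_of_happ {b : BoundaryCondition} (hL : SpinInB b Lam) {n : ℕ} {D : Set ℂ}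
    (hA : Allow b n) (hD : IsC2JordanDomain D)
    (happ : ∀ ε > (0 : ℝ), ∃ x ∈ Conf D n, ∃ L > (0 : ℝ), ∀ u, LApp u x →
      ∀ᶠ a in 𝓝[>] (0 : ℝ), L ≤ a ^ (-((n : ℝ) / 8)) * GB b (TT D a) (u a) ∧
        a ^ (-((n : ℝ) / 8)) * GB b (TT D a) (u a) ≤ (1 + ε) * L) :
    ∃ c > (0 : ℝ), ∀ x ∈ Conf D n, SLim b D x (c * Lam n D x) := by
  obtain ⟨c, hc, h⟩ := norm_lemma (l := 𝓝[>] (0 : ℝ)) (X := {x : Fin n → ℂ // x ∈ Conf D n})
    (fun a x => GB b (TT D a) fun i => meshIndex a (x.1 i))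
    (fun a => a ^ (-((n : ℝ) / 8))) (fun x => Lam n D x.1)
    (fun x => hL.pos n D hA hD x.1 x.2)
    (fun x y => hL.ratio n D hA hD x.1 x.2 y.1 y.2 _ _ (lapp_meshIndex x.1) (lapp_meshIndex y.1))
    (fun ε hε => by
      obtain ⟨x, hx, L, hL0, h⟩ := happ ε hε
      exact ⟨⟨x, hx⟩, L, hL0, h _ (lapp_meshIndex x)⟩)
  refine ⟨c, hc, fun x hx u hu => ?_⟩
  have h1 := hL.ratio n D hA hD x hx x hx u _ hu (lapp_meshIndex x)
  have hne : Lam n D x ≠ 0 := (hL.pos n D hA hD x hx).ne'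
  rw [div_self hne] at h1
  have h2 := h1.mul (h ⟨x, hx⟩)
  rw [one_mul] at h2
  refine h2.congr' ?_
  filter_upwards [h1.eventually (lt_mem_nhds one_half_lt_one)] with a ha
  have hne2 : GB b (TT D a) (fun i => meshIndex a (x i)) ≠ 0 := fun h0 => by
    rw [h0, div_zero] at ha
    norm_num at ha
  field_simp

/-- the rescaled lattice two-point function is close to `C₀ |x - y|^{-1/4}` at merging -/
def PairAs (C₀ : ℝ) (b : BoundaryCondition) (D : Set ℂ) : Prop :=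
  ∀ z ∈ D, ∀ ε > (0 : ℝ), ∃ δ > (0 : ℝ), ∀ x : Fin 2 → ℂ, x 0 ≠ x 1 → ‖x 0 - z‖ < δ →
    ‖x 1 - z‖ < δ → ∀ u, LApp u x → ∀ᶠ a in 𝓝[>] (0 : ℝ),
      (1 - ε) * (C₀ * ‖x 0 - x 1‖ ^ (-(1 : ℝ) / 4)) ≤ a ^ (-(1 : ℝ) / 4) * GB b (TT D a) (u a) ∧
      a ^ (-(1 : ℝ) / 4) * GB b (TT D a) (u a) ≤ (1 + ε) * (C₀ * ‖x 0 - x 1‖ ^ (-(1 : ℝ) / 4))

/-- plane asymptotics (output of S2) -/
def Plane2 (P : {n : ℕ} → (Fin n → ℤ × ℤ) → ℝ) (C₀ : ℝ) : Prop :=
  ∀ x : Fin 2 → ℂ, x 0 ≠ x 1 → ∀ u : ℝ → Fin 2 → ℤ × ℤ, LApp u x →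
      Tendsto (fun a : ℝ => a ^ (-(1 : ℝ) / 4) * P (u a)) (𝓝[>] 0)
        (𝓝 (C₀ * ‖x 0 - x 1‖ ^ (-(1 : ℝ) / 4)))

theorem pairAs (hP : PlaneLim P) (hM : Merge P) {C₀ : ℝ} (hC : 0 < C₀) (h2 : Plane2 P C₀)
    {b : BoundaryCondition} (hb : b ≠ .minus) {D : Set ℂ} (hDb : Bornology.IsBounded D)
    (hDo : IsOpen D) : PairAs C₀ b D := by
  intro z hz ε hε
  obtain ⟨r, hr, hrD⟩ := Metric.isOpen_iff.1 hDo z hz
  set η := min (ε / 3) 1 with hη
  have hη0 : 0 < η := lt_min (by positivity) one_pos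
  have hη1 : η ≤ 1 := min_le_right _ _
  have hη2 : η ≤ ε / 3 := min_le_left _ _
  obtain ⟨δ, hδ, hm⟩ := hM z r hr z (by simpa using hr) η hη0
  refine ⟨min δ r, lt_min hδ hr, fun x hx h0 h1 u hu => ?_⟩
  have hmem : ∀ i, x i ∈ Metric.ball z r := by
    intro i
    rw [mem_ball_iff_norm]
    fin_cases i
    · exact h0.trans_le (min_le_right _ _)
    · exact h1.trans_le (min_le_right _ _)
  set p := C₀ * ‖x 0 - x 1‖ ^ (-(1 : ℝ) / 4) with hp
  have hp0 : 0 < p := mul_pos hC (Real.rpow_pos_of_pos (norm_pos_iff.2 (sub_ne_zero.2 hx)) _)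
  have h3 := h2 x hx u hu
  have hlo : (1 - η) * p < p := by nlinarith
  have hhi : p < (1 + η) * p := by nlinarith
  filter_upwards [hm x hx (h0.trans_le (min_le_left _ _)) (h1.trans_le (min_le_left _ _)) u hu,
    self_mem_nhdsWithin, h3.eventually (Ioo_mem_nhds hlo hhi),
    hu.mem Metric.isBounded_ball Metric.isOpen_ball hmem] with a h4 ha h5 h6
  have ha' : (0 : ℝ) < a := ha
  obtain ⟨q0, q1, q2⟩ := h4
  have hs : 0 < a ^ (-(1 : ℝ) / 4) := Real.rpow_pos_of_pos ha' _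
  have hsub : TT (Metric.ball z r) a ⊆ TT D a := TT_mono hDb hrD ha'
  -- upper and lower bounds for `b`
  have hup : GB b (TT D a) (u a) ≤ GB .plus (TT (Metric.ball z r) a) (u a) := by
    refine le_trans ?_ (GB_plus_anti hsub _)
    cases b with
    | plus => exact le_rfl
    | free => exact Gf_le_Gp Kc_nonneg _ _
    | minus => exact absurd rfl hb
  have hlow : GB .free (TT (Metric.ball z r) a) (u a) ≤ GB b (TT D a) (u a) := by
    refine (GB_free_mono hsub h6).trans ?_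
    cases b with
    | plus => exact Gf_le_Gp Kc_nonneg _ _
    | free => exact le_rfl
    | minus => exact absurd rfl hb
  have hPs : 0 < a ^ (-(1 : ℝ) / 4) * P (u a) := mul_pos hs q0
  constructor
  · have e1 : (1 - η) * ((1 - η) * p) ≤ (1 - η) * (a ^ (-(1 : ℝ) / 4) * P (u a)) :=
      mul_le_mul_of_nonneg_left h5.1.le (by linarith)
    have e2 : (1 - η) * (a ^ (-(1 : ℝ) / 4) * P (u a)) ≤ a ^ (-(1 : ℝ) / 4) * GB b (TT D a) (u a) := by
      calc (1 - η) * (a ^ (-(1 : ℝ) / 4) * P (u a)) = a ^ (-(1 : ℝ) / 4) * ((1 - η) * P (u a)) := by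
            ring
        _ ≤ _ := mul_le_mul_of_nonneg_left (q2.trans hlow) hs.le
    have e3 : (1 - ε) * p ≤ (1 - η) * ((1 - η) * p) := by
      have : (1 - η) * ((1 - η) * p) = (1 - 2 * η + η ^ 2) * p := by ring
      rw [this]
      refine mul_le_mul_of_nonneg_right ?_ hp0.le
      nlinarith
    linarith
  · have e1 : (1 + η) * (a ^ (-(1 : ℝ) / 4) * P (u a)) ≤ (1 + η) * ((1 + η) * p) :=
      mul_le_mul_of_nonneg_left h5.2.le (by linarith)
    have e2 : a ^ (-(1 : ℝ) / 4) * GB b (TT D a) (u a) ≤ (1 + η) * (a ^ (-(1 : ℝ) / 4) * P (u a)) := by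
      calc _ ≤ a ^ (-(1 : ℝ) / 4) * ((1 + η) * P (u a)) :=
            mul_le_mul_of_nonneg_left (hup.trans q1) hs.le
        _ = _ := by ring
    have e3 : (1 + η) * ((1 + η) * p) ≤ (1 + ε) * p := by
      have : (1 + η) * ((1 + η) * p) = (1 + 2 * η + η ^ 2) * p := by ring
      rw [this]
      refine mul_le_mul_of_nonneg_right ?_ hp0.le
      nlinarith
    linarith

/-- the pair `z - t`, `z + t` -/
def pr (z : ℂ) (t : ℝ) : Fin 2 → ℂ := ![z - t, z + t]

theorem pr_ne {z : ℂ} {t : ℝ} (ht : 0 < t) : pr z t 0 ≠ pr z t 1 := by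
  simp only [pr, Matrix.cons_val_zero, Matrix.cons_val_one]
  intro h
  have h1 : (t : ℂ) = 0 := by linear_combination (1 / 2 : ℂ) * (-h)
  rw [Complex.ofReal_eq_zero] at h1
  exact ht.ne' h1

theorem pr_norm (z : ℂ) {t : ℝ} (ht : 0 < t) (i : Fin 2) : ‖pr z t i - z‖ = t := by
  fin_cases i
  · simp [pr, abs_of_pos ht]
  · simp [pr, abs_of_pos ht]

theorem pr_conf {D : Set ℂ} {z : ℂ} {t r : ℝ} (ht : 0 < t) (htr : t < r)
    (h : Metric.ball z r ⊆ D) : pr z t ∈ Conf D 2 := by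
  refine ⟨fun i => h ?_, fun i j hij => ?_⟩
  · rw [mem_ball_iff_norm, pr_norm z ht]; exact htr
  · fin_cases i <;> fin_cases j
    · rfl
    · exact absurd hij (pr_ne ht)
    · exact absurd hij.symm (pr_ne ht)
    · rfl

/-- scaling limits of pairs -/
theorem slim_two {b : BoundaryCondition} (hL : SpinInB b Lam) {C₀ : ℝ} (hC : 0 < C₀)
    (hA : Allow b 2) {D : Set ℂ} (hD : IsC2JordanDomain D) (hDo : IsOpen D)
    (h : PairAs C₀ b D) : ∃ c > (0 : ℝ), ∀ x ∈ Conf D 2, SLim b D x (c * Lam 2 D x) := by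
  by_cases hne : D.Nonempty
  swap
  · refine ⟨1, one_pos, fun x hx => ?_⟩
    exact absurd ⟨x 0, hx.1 0⟩ hne
  obtain ⟨z, hz⟩ := hne
  obtain ⟨r, hr, hrD⟩ := Metric.isOpen_iff.1 hDo z hz
  refine slim_of_happ hL hA hD fun ε hε => ?_
  set η := min (ε / (2 + ε)) (1 / 2) with hη
  have hη0 : 0 < η := lt_min (by positivity) (by norm_num)
  have hη1 : η ≤ 1 / 2 := min_le_right _ _
  have hη2 : η * (2 + ε) ≤ ε := by
    have : η ≤ ε / (2 + ε) := min_le_left _ _
    rwa [le_div_iff₀ (by positivity)] at this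
  obtain ⟨δ, hδ, hδ2⟩ := h z hz η hη0
  set t := min δ r / 2 with ht
  have ht0 : 0 < t := by have := lt_min hδ hr; positivity
  have htδ : t < δ := by have := min_le_left δ r; rw [ht]; linarith [lt_min hδ hr]
  have htr : t < r := by have := min_le_right δ r; rw [ht]; linarith [lt_min hδ hr]
  set p := C₀ * ‖pr z t 0 - pr z t 1‖ ^ (-(1 : ℝ) / 4) with hp
  have hp0 : 0 < p := mul_pos hC (Real.rpow_pos_of_pos
    (norm_pos_iff.2 (sub_ne_zero.2 (pr_ne ht0))) _)
  refine ⟨pr z t, pr_conf ht0 htr hrD, (1 - η) * p, mul_pos (by linarith) hp0, fun u hu => ?_⟩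
  have e : (-(((2 : ℕ) : ℝ) / 8)) = -(1 : ℝ) / 4 := by norm_num
  rw [e]
  filter_upwards [hδ2 (pr z t) (pr_ne ht0) (by rw [pr_norm z ht0]; exact htδ)
    (by rw [pr_norm z ht0]; exact htδ) u hu] with a ha
  refine ⟨ha.1, ha.2.trans ?_⟩
  have e2 : (1 + ε) * ((1 - η) * p) = ((1 + ε) * (1 - η)) * p := by ring
  rw [e2]
  refine mul_le_mul_of_nonneg_right ?_ hp0.le
  nlinarith

/-- asymptotics of the limits of pairs -/
theorem limit_as {C₀ : ℝ} {b : BoundaryCondition} {D : Set ℂ} (h : PairAs C₀ b D)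
    {F : (Fin 2 → ℂ) → ℝ} (hF : ∀ x ∈ Conf D 2, SLim b D x (F x)) {z : ℂ} (hz : z ∈ D)
    {ε : ℝ} (hε : 0 < ε) : ∃ δ > (0 : ℝ), ∀ x ∈ Conf D 2, ‖x 0 - z‖ < δ → ‖x 1 - z‖ < δ →
      (1 - ε) * (C₀ * ‖x 0 - x 1‖ ^ (-(1 : ℝ) / 4)) ≤ F x ∧
        F x ≤ (1 + ε) * (C₀ * ‖x 0 - x 1‖ ^ (-(1 : ℝ) / 4)) := by
  obtain ⟨δ, hδ, hδ2⟩ := h z hz ε hε
  refine ⟨δ, hδ, fun x hx h0 h1 => ?_⟩
  have h01 : x 0 ≠ x 1 := fun h => by simpa using hx.2 h
  have h3 := hδ2 x h01 h0 h1 _ (lapp_meshIndex x)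
  have h4 := hF x hx _ (lapp_meshIndex x)
  have e : (-(((2 : ℕ) : ℝ) / 8)) = -(1 : ℝ) / 4 := by norm_num
  rw [e] at h4
  exact ⟨ge_of_tendsto h4 (h3.mono fun a ha => ha.1), le_of_tendsto h4 (h3.mono fun a ha => ha.2)⟩

/-- the derivative of the map does not vanish (from the covariance) -/
theorem deriv_ne {b : BoundaryCondition} (hL : SpinInB b Lam) (hA : Allow b 2) {D D' : Set ℂ}
    (hD : IsC2JordanDomain D) (hD' : IsC2JordanDomain D') (hDo : IsOpen D)
    {φ : ℂ → ℂ} (hφ : DifferentiableOn ℂ φ D) (hbij : Set.BijOn φ D D') {z : ℂ} (hz : z ∈ D) :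
    deriv φ z ≠ 0 := by
  obtain ⟨k, hk, h⟩ := hL.cov 2 D D' hA hD hD' φ hφ hbij
  obtain ⟨r, hr, hrD⟩ := Metric.isOpen_iff.1 hDo z hz
  have hx : (![z, z + (r / 2 : ℝ)] : Fin 2 → ℂ) ∈ Conf D 2 := by
    refine ⟨fun i => ?_, fun i j hij => ?_⟩
    · fin_cases i
      · exact hz
      · refine hrD ?_
        rw [mem_ball_iff_norm]
        simp [abs_of_pos hr]
        linarith
    · have hne : z ≠ z + (r / 2 : ℝ) := by
        intro h
        have h1 : ((r / 2 : ℝ) : ℂ) = 0 := by linear_combination -h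
        rw [Complex.ofReal_eq_zero] at h1
        linarith
      fin_cases i <;> fin_cases j
      · rfl
      · exact absurd hij hne
      · exact absurd hij.symm hne
      · rfl
  intro h0
  have h1 := h _ hx
  have h2 := hL.pos 2 D hA hD _ hx
  have h3 : ∏ i, ‖deriv φ ((![z, z + (r / 2 : ℝ)] : Fin 2 → ℂ) i)‖ ^ ((1 : ℝ) / 8) = 0 := by
    refine Finset.prod_eq_zero (mem_univ 0) ?_
    simp [h0]
  rw [h3, mul_zero] at h1
  have := mul_pos hk h2
  linarith

/-- **covariance of the two-point function** -/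
theorem cov_two {b : BoundaryCondition} (hL : SpinInB b Lam) {C₀ : ℝ} (hC : 0 < C₀)
    (hA : Allow b 2) {D D' : Set ℂ} (hD : IsC2JordanDomain D) (hD' : IsC2JordanDomain D')
    (hDo : IsOpen D) (hDo' : IsOpen D') (h : PairAs C₀ b D) (h' : PairAs C₀ b D')
    {F F' : (Fin 2 → ℂ) → ℝ} {c c' : ℝ} (hc : 0 < c) (hc' : 0 < c')
    (hF : ∀ x ∈ Conf D 2, SLim b D x (F x)) (hF' : ∀ x ∈ Conf D' 2, SLim b D' x (F' x))
    (hFc : ∀ x, F x = c * Lam 2 D x) (hFc' : ∀ x, F' x = c' * Lam 2 D' x)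
    {φ : ℂ → ℂ} (hφ : DifferentiableOn ℂ φ D) (hbij : Set.BijOn φ D D') :
    ∀ x ∈ Conf D 2, F x = (∏ i, ‖deriv φ (x i)‖ ^ ((1 : ℝ) / 8)) * F' (fun i => φ (x i)) := by
  by_cases hne : D.Nonempty
  swap
  · intro x hx
    exact absurd ⟨x 0, hx.1 0⟩ hne
  obtain ⟨k₀, hk₀, hk⟩ := hL.cov 2 D D' hA hD hD' φ hφ hbij
  set k := c' * k₀ / c with hkd
  have hk0 : 0 < k := by positivity
  have hcov : ∀ x ∈ Conf D 2,
      (∏ i, ‖deriv φ (x i)‖ ^ ((1 : ℝ) / 8)) * F' (fun i => φ (x i)) = k * F x := by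
    intro x hx
    have := hk x hx
    rw [hFc, hFc', hkd]
    field_simp
    linear_combination this
  suffices hk1 : k = 1 by
    intro x hx
    rw [hcov x hx, hk1, one_mul]
  obtain ⟨z, hz⟩ := hne
  obtain ⟨r, hr, hrD⟩ := Metric.isOpen_iff.1 hDo z hz
  have hz' : φ z ∈ D' := hbij.mapsTo hz
  have hdz : deriv φ z ≠ 0 := deriv_ne hL hA hD hD' hDo hφ hbij hz
  have hder : HasDerivAt φ (deriv φ z) z := (hφ.differentiableAt (hDo.mem_nhds hz)).hasDerivAt
  have hcont : ContinuousAt φ z := hder.continuousAt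
  have hdcont : ContinuousAt (deriv φ) z :=
    ((hφ.analyticAt (hDo.mem_nhds hz)).deriv).continuousAt
  -- limits along pairs
  have hpm : Tendsto (fun t : ℝ => z - t) (𝓝[>] 0) (𝓝 z) := by
    have : Tendsto (fun t : ℝ => z - (t : ℂ)) (𝓝 0) (𝓝 (z - ((0 : ℝ) : ℂ))) :=
      (continuous_const.sub Complex.continuous_ofReal).tendsto 0
    rw [Complex.ofReal_zero, sub_zero] at this
    exact this.mono_left nhdsWithin_le_nhds
  have hpp : Tendsto (fun t : ℝ => z + t) (𝓝[>] 0) (𝓝 z) := by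
    have : Tendsto (fun t : ℝ => z + (t : ℂ)) (𝓝 0) (𝓝 (z + ((0 : ℝ) : ℂ))) :=
      (continuous_const.add Complex.continuous_ofReal).tendsto 0
    rw [Complex.ofReal_zero, add_zero] at this
    exact this.mono_left nhdsWithin_le_nhds
  -- the difference quotient
  set d := ‖deriv φ z‖ with hd
  have hd0 : 0 < d := norm_pos_iff.2 hdz
  have hquot : Tendsto (fun t : ℝ => ‖φ (z - t) - φ (z + t)‖ / (2 * t)) (𝓝[>] 0) (𝓝 d) := by
    have g1 : HasDerivAt (fun t : ℝ => φ (z + (t : ℂ))) (deriv φ z * 1) 0 := by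
      have h0 : HasDerivAt φ (deriv φ z) (z + ((0 : ℝ) : ℂ)) := by simpa using hder
      exact HasDerivAt.comp_ofReal (e := fun w : ℂ => φ (z + w)) (by
        have := h0
        rw [Complex.ofReal_zero] at this ⊢
        exact this.comp (0 : ℂ) ((hasDerivAt_id (0 : ℂ)).const_add z)) 
    have g2 : HasDerivAt (fun t : ℝ => φ (z - (t : ℂ))) (deriv φ z * (-1)) 0 := by
      have h0 : HasDerivAt φ (deriv φ z) (z - ((0 : ℝ) : ℂ)) := by simpa using hder
      exact HasDerivAt.comp_ofReal (e := fun w : ℂ => φ (z - w)) (by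
        have := h0
        rw [Complex.ofReal_zero] at this ⊢
        exact this.comp (0 : ℂ) ((hasDerivAt_id (0 : ℂ)).const_sub z))
    have g3 := (g2.sub g1).tendsto_slope_zero
    have g4 : Tendsto (fun t : ℝ => t⁻¹ • ((φ (z - (t : ℂ)) - φ (z + (t : ℂ))))) (𝓝[>] 0)
        (𝓝 (deriv φ z * (-1) - deriv φ z * 1)) := by
      refine (g3.mono_left (nhdsWithin_mono _ fun t ht => ne_of_gt ht)).congr fun t => ?_
      simp
    have g5 := g4.norm
    have g6 := g5.div_const 2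
    have e1 : ‖deriv φ z * (-1) - deriv φ z * 1‖ / 2 = d := by
      have : deriv φ z * (-1) - deriv φ z * 1 = (-2 : ℂ) * deriv φ z := by ring
      rw [this, norm_mul, hd]
      norm_num
    rw [e1] at g6
    refine g6.congr' ?_
    filter_upwards [self_mem_nhdsWithin] with t ht
    have ht' : (0 : ℝ) < t := ht
    rw [norm_smul, norm_inv, Real.norm_of_nonneg ht'.le]
    field_simp
  have hQ : Tendsto (fun t : ℝ => (∏ i, ‖deriv φ (pr z t i)‖ ^ ((1 : ℝ) / 8)) *
      (‖φ (z - t) - φ (z + t)‖ / (2 * t)) ^ (-(1 : ℝ) / 4)) (𝓝[>] 0) (𝓝 1) := by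
    have g1 : Tendsto (fun t : ℝ => ‖deriv φ (z - t)‖ ^ ((1 : ℝ) / 8)) (𝓝[>] 0)
        (𝓝 (d ^ ((1 : ℝ) / 8))) :=
      ((hdcont.tendsto.comp hpm).norm).rpow_const (Or.inl hd0.ne')
    have g2 : Tendsto (fun t : ℝ => ‖deriv φ (z + t)‖ ^ ((1 : ℝ) / 8)) (𝓝[>] 0)
        (𝓝 (d ^ ((1 : ℝ) / 8))) :=
      ((hdcont.tendsto.comp hpp).norm).rpow_const (Or.inl hd0.ne')
    have g3 := hquot.rpow_const (p := -(1 : ℝ) / 4) (Or.inl hd0.ne')
    have g4 := (g1.mul g2).mul g3
    have e1 : d ^ ((1 : ℝ) / 8) * d ^ ((1 : ℝ) / 8) * d ^ (-(1 : ℝ) / 4) = 1 := by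
      rw [← Real.rpow_add hd0, ← Real.rpow_add hd0]
      norm_num
    rw [e1] at g4
    refine g4.congr fun t => ?_
    simp [pr, Fin.prod_univ_two]
  -- two-sided bounds for `k`
  have key : ∀ ε : ℝ, 0 < ε → ε < 1 → k * (1 - ε) ≤ 1 + ε ∧ 1 - ε ≤ k * (1 + ε) := by
    intro ε hε hε1
    obtain ⟨δ, hδ, h1⟩ := limit_as h hF hz hε
    obtain ⟨δ', hδ', h2⟩ := limit_as h' hF' hz' hε
    have hb1 : ∀ᶠ t : ℝ in 𝓝[>] 0, ‖φ (z - t) - φ z‖ < δ' := by
      have := (hcont.tendsto.comp hpm)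
      have h3 := (tendsto_iff_norm_sub_tendsto_zero.1 this).eventually (gt_mem_nhds hδ')
      exact h3
    have hb2 : ∀ᶠ t : ℝ in 𝓝[>] 0, ‖φ (z + t) - φ z‖ < δ' := by
      have := (hcont.tendsto.comp hpp)
      have h3 := (tendsto_iff_norm_sub_tendsto_zero.1 this).eventually (gt_mem_nhds hδ')
      exact h3
    have hev : ∀ᶠ t : ℝ in 𝓝[>] 0, k * (1 - ε) ≤ (1 + ε) * ((∏ i, ‖deriv φ (pr z t i)‖ ^ ((1 : ℝ) / 8)) *
          (‖φ (z - t) - φ (z + t)‖ / (2 * t)) ^ (-(1 : ℝ) / 4)) ∧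
        (1 - ε) * ((∏ i, ‖deriv φ (pr z t i)‖ ^ ((1 : ℝ) / 8)) *
          (‖φ (z - t) - φ (z + t)‖ / (2 * t)) ^ (-(1 : ℝ) / 4)) ≤ k * (1 + ε) := by
      filter_upwards [self_mem_nhdsWithin, eventually_lt_nhdsGT (lt_min hδ hr), hb1, hb2]
        with t ht htm hb1 hb2
      have ht' : (0 : ℝ) < t := ht
      have htδ : t < δ := htm.trans_le (min_le_left _ _)
      have htr : t < r := htm.trans_le (min_le_right _ _)
      have hx : pr z t ∈ Conf D 2 := pr_conf ht' htr hrD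
      have hx' : (fun i => φ (pr z t i)) ∈ Conf D' 2 :=
        ⟨fun i => hbij.mapsTo (hx.1 i), fun i j hij => hx.2 (hbij.injOn (hx.1 i) (hx.1 j) hij)⟩
      have q1 := h1 _ hx (by rw [pr_norm z ht']; exact htδ) (by rw [pr_norm z ht']; exact htδ)
      have q2 := h2 _ hx' (by simpa [pr] using hb1) (by simpa [pr] using hb2)
      have q3 := hcov _ hx
      have n1 : ‖pr z t 0 - pr z t 1‖ = 2 * t := by
        have : pr z t 0 - pr z t 1 = ((-(2 * t) : ℝ) : ℂ) := by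
          simp only [pr, Matrix.cons_val_zero, Matrix.cons_val_one]
          push_cast; ring
        rw [this, Complex.norm_real, norm_neg, Real.norm_of_nonneg (by positivity)]
      have n2 : ‖φ (pr z t 0) - φ (pr z t 1)‖ = ‖φ (z - t) - φ (z + t)‖ := by simp [pr]
      simp only [n1] at q1
      simp only [n2] at q2
      set Pr := ∏ i, ‖deriv φ (pr z t i)‖ ^ ((1 : ℝ) / 8) with hPr
      have hPr0 : 0 ≤ Pr := Finset.prod_nonneg fun i _ => Real.rpow_nonneg (norm_nonneg _) _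
      set N := ‖φ (z - t) - φ (z + t)‖ with hN
      have hN0 : 0 ≤ N := norm_nonneg _
      have h2t : 0 < (2 * t) ^ (-(1 : ℝ) / 4) := Real.rpow_pos_of_pos (by positivity) _
      have hdiv : (N / (2 * t)) ^ (-(1 : ℝ) / 4) = N ^ (-(1 : ℝ) / 4) / (2 * t) ^ (-(1 : ℝ) / 4) :=
        Real.div_rpow hN0 (by positivity) _
      rw [hdiv]
      constructor
      · have s1 : k * ((1 - ε) * (C₀ * (2 * t) ^ (-(1 : ℝ) / 4))) ≤
            Pr * ((1 + ε) * (C₀ * N ^ (-(1 : ℝ) / 4))) := by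
          refine (mul_le_mul_of_nonneg_left q1.1 hk0.le).trans ?_
          rw [← q3]
          exact mul_le_mul_of_nonneg_left q2.2 hPr0
        have s2 : k * (1 - ε) * (C₀ * (2 * t) ^ (-(1 : ℝ) / 4)) ≤
            ((1 + ε) * (Pr * (N ^ (-(1 : ℝ) / 4) / (2 * t) ^ (-(1 : ℝ) / 4)))) *
              (C₀ * (2 * t) ^ (-(1 : ℝ) / 4)) := by
          have : ((1 + ε) * (Pr * (N ^ (-(1 : ℝ) / 4) / (2 * t) ^ (-(1 : ℝ) / 4)))) *
              (C₀ * (2 * t) ^ (-(1 : ℝ) / 4)) = Pr * ((1 + ε) * (C₀ * N ^ (-(1 : ℝ) / 4))) := by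
            field_simp
          rw [this]; linarith
        exact le_of_mul_le_mul_right s2 (mul_pos hC h2t)
      · have s1 : Pr * ((1 - ε) * (C₀ * N ^ (-(1 : ℝ) / 4))) ≤
            k * ((1 + ε) * (C₀ * (2 * t) ^ (-(1 : ℝ) / 4))) := by
          refine (mul_le_mul_of_nonneg_left q2.1 hPr0).trans ?_
          rw [q3]
          exact mul_le_mul_of_nonneg_left q1.2 hk0.le
        have s2 : ((1 - ε) * (Pr * (N ^ (-(1 : ℝ) / 4) / (2 * t) ^ (-(1 : ℝ) / 4)))) *
              (C₀ * (2 * t) ^ (-(1 : ℝ) / 4)) ≤ k * (1 + ε) * (C₀ * (2 * t) ^ (-(1 : ℝ) / 4)) := by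
          have : ((1 - ε) * (Pr * (N ^ (-(1 : ℝ) / 4) / (2 * t) ^ (-(1 : ℝ) / 4)))) *
              (C₀ * (2 * t) ^ (-(1 : ℝ) / 4)) = Pr * ((1 - ε) * (C₀ * N ^ (-(1 : ℝ) / 4))) := by
            field_simp
          rw [this]; linarith
        exact le_of_mul_le_mul_right s2 (mul_pos hC h2t)
    have l1 := ge_of_tendsto (hQ.const_mul (1 + ε)) (hev.mono fun t ht => ht.1)
    have l2 := le_of_tendsto (hQ.const_mul (1 - ε)) (hev.mono fun t ht => ht.2)
    rw [mul_one] at l1 l2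
    exact ⟨l1, l2⟩
  -- let `ε → 0`
  refine le_antisymm ?_ ?_
  · have hT : Tendsto (fun ε : ℝ => (1 + ε) - k * (1 - ε)) (𝓝[>] 0) (𝓝 ((1 + 0) - k * (1 - 0))) := by
      have : Continuous fun ε : ℝ => (1 + ε) - k * (1 - ε) := by fun_prop
      exact (this.tendsto 0).mono_left nhdsWithin_le_nhds
    have := ge_of_tendsto hT (b := 0) (by
      filter_upwards [self_mem_nhdsWithin, eventually_lt_nhdsGT one_pos] with ε h1 h2
      have := (key ε h1 h2).1
      linarith)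
    linarith
  · have hT : Tendsto (fun ε : ℝ => k * (1 + ε) - (1 - ε)) (𝓝[>] 0) (𝓝 (k * (1 + 0) - (1 - 0))) := by
      have : Continuous fun ε : ℝ => k * (1 + ε) - (1 - ε) := by fun_prop
      exact (this.tendsto 0).mono_left nhdsWithin_le_nhds
    have := ge_of_tendsto hT (b := 0) (by
      filter_upwards [self_mem_nhdsWithin, eventually_lt_nhdsGT one_pos] with ε h1 h2
      have := (key ε h1 h2).2
      linarith)
    linarith

end Crest.Agent.R165.U5dx697
end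
end

-- ▼ part R165/U5e_697
section

/-!
# Row 165 (S0250), block U5: many spins (helper697)

* `exists_twoPt` : `TwoPt g`
* `Hn C₀ n`      : in every disc and for every `ε` there are configurations for which the free and
                   the plus correlations agree up to `ε` after rescaling (`n` even)
* `hn_even`      : `Hn` for all even `n`
-/

set_option autoImplicit false
set_option linter.unusedSectionVars false
set_option linter.unusedVariables false

noncomputable section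

open Filter Topology Finset
open Crest.ProbabilityR.IsingModel

namespace Crest.Agent.R165.U5ex697

open Crest.Agent.R165.Gk0x422
open Crest.Agent.R165.Gk1x422
open Crest.Agent.R165.U5Px422
open Crest.Agent.R165.U5ax697
open Crest.Agent.R165.U5bx697
open Crest.Agent.R165.U5cx697
open Crest.Agent.R165.U5dx697
open Crest.Agent.R165.Nm1x697
open Crest.Agent.R165.Nm2x697
open Crest.Agent.R165.USpinx641 (SpinInB)

variable {P : {n : ℕ} → (Fin n → ℤ × ℤ) → ℝ}
  {Lam : (n : ℕ) → Set ℂ → (Fin n → ℂ) → ℝ}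

/-- **TwoPt** -/
theorem exists_twoPt (hP : PlaneLim P) (hL : SpinInB .plus Lam) (hb : BallC2) (hM : Merge P)
    {C₀ : ℝ} (hC : 0 < C₀) (h2 : Plane2 P C₀) : ∃ g, TwoPt g := by
  have hA : Allow .plus 2 := Or.inl rfl
  have hpair : ∀ (c : ℂ) (r : ℝ), PairAs C₀ .plus (Metric.ball c r) := fun c r =>
    pairAs hP hM hC h2 (by decide) Metric.isBounded_ball Metric.isOpen_ball
  have hex : ∀ (c : ℂ) (r : ℝ), 0 < r → ∃ k > (0 : ℝ), ∀ x ∈ Conf (Metric.ball c r) 2,
      SLim .plus (Metric.ball c r) x (k * Lam 2 (Metric.ball c r) x) := fun c r hr =>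
    slim_two hL hC hA (hb c r hr) Metric.isOpen_ball (hpair c r)
  choose! k hk hk2 using hex
  refine ⟨fun c r x => k c r * Lam 2 (Metric.ball c r) x, ?_, hk2, ?_⟩
  · intro c r hr x hx
    exact mul_pos (hk c r hr) (hL.pos 2 _ hA (hb c r hr) x hx)
  · intro c r hr x hx
    have hr0 : (r : ℂ) ≠ 0 := Complex.ofReal_ne_zero.2 hr.ne'
    have hbij : Set.BijOn (fun z : ℂ => c + r * z) (Metric.ball (0 : ℂ) 1) (Metric.ball c r) := by
      refine ⟨fun z hz => ?_, fun z _ z' _ h => ?_, fun z hz => ?_⟩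
      · rw [mem_ball_zero_iff] at hz
        rw [mem_ball_iff_norm]
        simp only [add_sub_cancel_left]
        rw [norm_mul, Complex.norm_real, Real.norm_of_nonneg hr.le]
        nlinarith
      · have : (r : ℂ) * z = r * z' := add_left_cancel h
        exact mul_left_cancel₀ hr0 this
      · rw [mem_ball_iff_norm] at hz
        refine ⟨(z - c) / r, ?_, ?_⟩
        · rw [mem_ball_zero_iff, norm_div, Complex.norm_real, Real.norm_of_nonneg hr.le,
            div_lt_one hr]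
          exact hz
        · simp only
          rw [mul_div_cancel₀ _ hr0]
          ring
    have hd : ∀ z : ℂ, ‖deriv (fun z : ℂ => c + r * z) z‖ = r := by
      intro z
      rw [deriv_const_add, deriv_const_mul_field, deriv_id'', mul_one, Complex.norm_real,
        Real.norm_of_nonneg hr.le]
    have h := cov_two hL hC hA (hb 0 1 one_pos) (hb c r hr) Metric.isOpen_ball Metric.isOpen_ball
      (hpair 0 1) (hpair c r) (hk 0 1 one_pos) (hk c r hr) (hk2 0 1 one_pos) (hk2 c r hr)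
      (fun _ => rfl) (fun _ => rfl)
      (φ := fun z => c + r * z)
      (((differentiable_id.const_mul (r : ℂ)).const_add c).differentiableOn) hbij x hx
    simp only [hd, Fin.prod_univ_two] at h
    rw [h, ← mul_assoc, ← mul_assoc, ← Real.rpow_add hr, ← Real.rpow_add hr]
    norm_num

/-- free and plus agree up to `ε` for suitable configurations in every disc -/
def Hn (n : ℕ) : Prop :=
  ∀ (z : ℂ) (ρ : ℝ), 0 < ρ → ∀ ε > (0 : ℝ), ∃ x ∈ Conf (Metric.ball z ρ) n, ∃ L > (0 : ℝ),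
    ∀ u, LApp u x → ∀ᶠ a in 𝓝[>] (0 : ℝ),
      L ≤ a ^ (-((n : ℝ) / 8)) * GB .free (TT (Metric.ball z ρ) a) (u a) ∧
      a ^ (-((n : ℝ) / 8)) * GB .plus (TT (Metric.ball z ρ) a) (u a) ≤ (1 + ε) * L

theorem sp_zero {V : Type*} (u : Fin 0 → V) : sp u = fun _ => (1 : ℝ) := by
  funext s; simp [sp]

theorem GB_zero {b : BoundaryCondition} (hb : b ≠ .minus) (T : Finset (ℤ × ℤ))
    (u : Fin 0 → ℤ × ℤ) : GB b T u = 1 := by
  have h : ∀ E : Finset ZB, EX Kc zp zq T E (fun _ => (1 : ℝ)) = 1 := fun E =>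
    div_self ZZ_one_pos.ne'
  cases b with
  | plus => show Gp Kc T u = 1; unfold Gp; rw [sp_zero]; exact h _
  | free => show Gf Kc T u = 1; unfold Gf; rw [sp_zero]; exact h _
  | minus => exact absurd rfl hb

theorem hn_zero : Hn 0 := by
  intro z ρ hρ ε hε
  refine ⟨fun i => i.elim0, ⟨fun i => i.elim0, fun i => i.elim0⟩, 1, one_pos, fun u hu => ?_⟩
  filter_upwards [self_mem_nhdsWithin] with a ha
  rw [GB_zero (by decide), GB_zero (by decide)]
  norm_num
  linarith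

theorem hn_two (hP : PlaneLim P) (hM : Merge P) {C₀ : ℝ} (hC : 0 < C₀) (h2 : Plane2 P C₀) :
    Hn 2 := by
  intro z ρ hρ ε hε
  set η := min (ε / (2 + ε)) (1 / 2) with hη
  have hη0 : 0 < η := lt_min (by positivity) (by norm_num)
  have hη1 : η ≤ 1 / 2 := min_le_right _ _
  have hη2 : η * (2 + ε) ≤ ε := by
    have : η ≤ ε / (2 + ε) := min_le_left _ _
    rwa [le_div_iff₀ (by positivity)] at this
  have hz : z ∈ Metric.ball z ρ := by simpa using hρ
  obtain ⟨δ₁, hδ₁, g1⟩ := pairAs hP hM hC h2 (b := .plus) (by decide)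
    (D := Metric.ball z ρ) Metric.isBounded_ball Metric.isOpen_ball z hz η hη0
  obtain ⟨δ₂, hδ₂, g2⟩ := pairAs hP hM hC h2 (b := .free) (by decide)
    (D := Metric.ball z ρ) Metric.isBounded_ball Metric.isOpen_ball z hz η hη0
  set t := min (min δ₁ δ₂) ρ / 2 with ht
  have hm : 0 < min (min δ₁ δ₂) ρ := lt_min (lt_min hδ₁ hδ₂) hρ
  have ht0 : 0 < t := by positivity
  have ht1 : t < δ₁ := by
    have := (min_le_left (min δ₁ δ₂) ρ).trans (min_le_left _ _); rw [ht]; linarith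
  have ht2 : t < δ₂ := by
    have := (min_le_left (min δ₁ δ₂) ρ).trans (min_le_right _ _); rw [ht]; linarith
  have ht3 : t < ρ := by have := min_le_right (min δ₁ δ₂) ρ; rw [ht]; linarith
  set p := C₀ * ‖pr z t 0 - pr z t 1‖ ^ (-(1 : ℝ) / 4) with hp
  have hp0 : 0 < p := mul_pos hC (Real.rpow_pos_of_pos
    (norm_pos_iff.2 (sub_ne_zero.2 (pr_ne ht0))) _)
  refine ⟨pr z t, pr_conf ht0 ht3 (Set.Subset.refl _), (1 - η) * p,
    mul_pos (by linarith) hp0, fun u hu => ?_⟩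
  have e : (-(((2 : ℕ) : ℝ) / 8)) = -(1 : ℝ) / 4 := by norm_num
  rw [e]
  filter_upwards [g1 (pr z t) (pr_ne ht0) (by rw [pr_norm z ht0]; exact ht1)
    (by rw [pr_norm z ht0]; exact ht1) u hu, g2 (pr z t) (pr_ne ht0)
    (by rw [pr_norm z ht0]; exact ht2) (by rw [pr_norm z ht0]; exact ht2) u hu] with a h1 h2
  refine ⟨h2.1, h1.2.trans ?_⟩
  have e2 : (1 + ε) * ((1 - η) * p) = ((1 + ε) * (1 - η)) * p := by ring
  rw [e2]
  refine mul_le_mul_of_nonneg_right ?_ hp0.le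
  nlinarith

/-! ### two separated discs -/

theorem lapp_append {n m : ℕ} {x : Fin n → ℂ} {y : Fin m → ℂ} {u : ℝ → Fin (n + m) → ℤ × ℤ}
    (h : LApp u (Fin.append x y)) :
    LApp (fun a i => u a (Fin.castAdd m i)) x ∧ LApp (fun a i => u a (Fin.natAdd n i)) y := by
  refine ⟨fun i => ?_, fun i => ?_⟩
  · have := h (Fin.castAdd m i)
    rwa [Fin.append_left] at this
  · have := h (Fin.natAdd n i)
    rwa [Fin.append_right] at this

theorem append_eq {n m : ℕ} {α : Type*} (u : Fin (n + m) → α) :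
    Fin.append (fun i => u (Fin.castAdd m i)) (fun i => u (Fin.natAdd n i)) = u :=
  Fin.append_castAdd_natAdd

theorem nonTouch_balls {z₁ z₂ : ℂ} {r₁ r₂ a : ℝ} (ha : 0 < a)
    (h : r₁ + r₂ + a ≤ ‖z₁ - z₂‖) :
    NonTouch (TT (Metric.ball z₁ r₁) a) (TT (Metric.ball z₂ r₂) a) := by
  have key : ∀ z w : ℤ × ℤ, z ∈ TT (Metric.ball z₁ r₁) a → w ∈ TT (Metric.ball z₂ r₂) a →
      a < ‖meshPoint a z - meshPoint a w‖ := by
    intro z w hz hw
    rw [mem_TT Metric.isBounded_ball ha, mem_ball_iff_norm] at hz hw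
    have e : z₁ - z₂ = -(meshPoint a z - z₁) + (meshPoint a z - meshPoint a w)
      + (meshPoint a w - z₂) := by ring
    have h1 := norm_add_le (-(meshPoint a z - z₁) + (meshPoint a z - meshPoint a w))
      (meshPoint a w - z₂)
    have h2 := norm_add_le (-(meshPoint a z - z₁)) (meshPoint a z - meshPoint a w)
    rw [← e] at h1
    rw [norm_neg] at h2
    linarith
  refine ⟨?_, fun e => ⟨fun h => ?_, fun h => ?_⟩⟩
  · rw [Finset.disjoint_left]
    intro z h1 h2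
    have := key z z h1 h2
    rw [sub_self, norm_zero] at this
    linarith
  · have := key _ _ h.1 h.2
    have e1 : meshPoint a (zp e) - meshPoint a (zq e) = -meshPoint a (unitVec e.2) := by
      unfold zp zq
      rw [meshPoint_add]; ring
    rw [e1, norm_neg, unitVec_norm, abs_of_pos ha] at this
    exact lt_irrefl _ this
  · have := key _ _ h.2 h.1
    have e1 : meshPoint a (zq e) - meshPoint a (zp e) = meshPoint a (unitVec e.2) := by
      unfold zp zq
      rw [meshPoint_add]; ring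
    rw [e1, unitVec_norm, abs_of_pos ha] at this
    exact lt_irrefl _ this

/-- lower and upper product bounds for two separated discs -/
theorem two_discs {D : Set ℂ} (hD : Bornology.IsBounded D) {z₁ z₂ : ℂ} {r₁ r₂ : ℝ}
    (h1 : Metric.ball z₁ r₁ ⊆ D) (h2 : Metric.ball z₂ r₂ ⊆ D) (h12 : r₁ + r₂ < ‖z₁ - z₂‖)
    {n m : ℕ} {x : Fin n → ℂ} {y : Fin m → ℂ} (hx : x ∈ Conf (Metric.ball z₁ r₁) n)
    (hy : y ∈ Conf (Metric.ball z₂ r₂) m) {u : ℝ → Fin (n + m) → ℤ × ℤ}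
    (hu : LApp u (Fin.append x y)) : ∀ᶠ a in 𝓝[>] (0 : ℝ),
      GB .free (TT (Metric.ball z₁ r₁) a) (fun i => u a (Fin.castAdd m i)) *
        GB .free (TT (Metric.ball z₂ r₂) a) (fun i => u a (Fin.natAdd n i))
          ≤ GB .free (TT D a) (u a) ∧
      GB .plus (TT D a) (u a) ≤
        GB .plus (TT (Metric.ball z₁ r₁) a) (fun i => u a (Fin.castAdd m i)) *
        GB .plus (TT (Metric.ball z₂ r₂) a) (fun i => u a (Fin.natAdd n i)) := by
  obtain ⟨hu1, hu2⟩ := lapp_append hu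
  filter_upwards [self_mem_nhdsWithin, hu1.mem Metric.isBounded_ball Metric.isOpen_ball hx.1,
    hu2.mem Metric.isBounded_ball Metric.isOpen_ball hy.1,
    eventually_lt_nhdsGT (sub_pos.2 h12)] with a ha m1 m2 hsm
  have ha' : (0 : ℝ) < a := ha
  have s1 : TT (Metric.ball z₁ r₁) a ⊆ TT D a := TT_mono hD h1 ha'
  have s2 : TT (Metric.ball z₂ r₂) a ⊆ TT D a := TT_mono hD h2 ha'
  constructor
  · have g := GB_free_mul_le (TT D a) (fun i => u a (Fin.castAdd m i))
      (fun i => u a (Fin.natAdd n i))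
    rw [append_eq (u a)] at g
    refine le_trans ?_ g
    exact mul_le_mul (GB_free_mono s1 m1) (GB_free_mono s2 m2)
      (GB_nonneg (by decide) _ _) (GB_nonneg (by decide) _ _)
  · have g := Gp_split (K := Kc) Kc_nonneg (T := TT D a)
      (nonTouch_balls (z₁ := z₁) (z₂ := z₂) (r₁ := r₁) (r₂ := r₂) ha' (by linarith))
      (union_subset s1 s2) m1 m2
    rw [append_eq (u a)] at g
    exact g

theorem conf_append {D : Set ℂ} {z₁ z₂ : ℂ} {r₁ r₂ : ℝ}
    (h1 : Metric.ball z₁ r₁ ⊆ D) (h2 : Metric.ball z₂ r₂ ⊆ D) (h12 : r₁ + r₂ < ‖z₁ - z₂‖)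
    {n m : ℕ} {x : Fin n → ℂ} {y : Fin m → ℂ} (hx : x ∈ Conf (Metric.ball z₁ r₁) n)
    (hy : y ∈ Conf (Metric.ball z₂ r₂) m) : Fin.append x y ∈ Conf D (n + m) := by
  have hne : ∀ i j, x i ≠ y j := by
    intro i j h
    have a1 := hx.1 i
    have a2 := hy.1 j
    rw [mem_ball_iff_norm] at a1 a2
    rw [← h] at a2
    have e : z₁ - z₂ = -(x i - z₁) + (x i - z₂) := by ring
    have := norm_add_le (-(x i - z₁)) (x i - z₂)
    rw [← e, norm_neg] at this
    linarith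
  refine ⟨fun i => ?_, fun i j hij => ?_⟩
  · refine Fin.addCases (fun i => ?_) (fun i => ?_) i
    · rw [Fin.append_left]; exact h1 (hx.1 i)
    · rw [Fin.append_right]; exact h2 (hy.1 i)
  · revert hij
    refine Fin.addCases (fun i => ?_) (fun i => ?_) i <;>
      refine Fin.addCases (fun j => ?_) (fun j => ?_) j <;>
      intro hij <;> simp only [Fin.append_left, Fin.append_right] at hij
    · rw [hx.2 hij]
    · exact absurd hij (hne i j)
    · exact absurd hij.symm (hne j i)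
    · rw [hy.2 hij]

/-- separated subdiscs of a disc -/
theorem subdiscs (z : ℂ) {ρ : ℝ} (hρ : 0 < ρ) :
    Metric.ball (z - (ρ / 2 : ℝ)) (ρ / 4) ⊆ Metric.ball z ρ ∧
    Metric.ball (z + (ρ / 2 : ℝ)) (ρ / 4) ⊆ Metric.ball z ρ ∧
    ρ / 4 + ρ / 4 < ‖(z - (ρ / 2 : ℝ)) - (z + (ρ / 2 : ℝ))‖ := by
  refine ⟨?_, ?_, ?_⟩
  · refine Metric.ball_subset_ball' ?_
    rw [dist_eq_norm]
    have : z - ((ρ / 2 : ℝ) : ℂ) - z = ((-(ρ / 2) : ℝ) : ℂ) := by push_cast; ring
    rw [this, Complex.norm_real, norm_neg, Real.norm_of_nonneg (by positivity)]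
    linarith
  · refine Metric.ball_subset_ball' ?_
    rw [dist_eq_norm]
    have : z + ((ρ / 2 : ℝ) : ℂ) - z = ((ρ / 2 : ℝ) : ℂ) := by ring
    rw [this, Complex.norm_real, Real.norm_of_nonneg (by positivity)]
    linarith
  · have : z - ((ρ / 2 : ℝ) : ℂ) - (z + ((ρ / 2 : ℝ) : ℂ)) = ((-ρ : ℝ) : ℂ) := by push_cast; ring
    rw [this, Complex.norm_real, norm_neg, Real.norm_of_nonneg hρ.le]
    linarith

theorem hn_add {n m : ℕ} (hn : Hn n) (hm : Hn m) : Hn (n + m) := by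
  intro z ρ hρ ε hε
  set η := min (ε / 3) 1 with hη
  have hη0 : 0 < η := lt_min (by positivity) one_pos
  have hη1 : η ≤ 1 := min_le_right _ _
  have hη2 : η ≤ ε / 3 := min_le_left _ _
  obtain ⟨h1, h2, h12⟩ := subdiscs z hρ
  obtain ⟨x, hx, L₁, hL₁, g1⟩ := hn (z - (ρ / 2 : ℝ)) (ρ / 4) (by positivity) η hη0
  obtain ⟨y, hy, L₂, hL₂, g2⟩ := hm (z + (ρ / 2 : ℝ)) (ρ / 4) (by positivity) η hη0
  refine ⟨Fin.append x y, conf_append h1 h2 h12 hx hy, L₁ * L₂, mul_pos hL₁ hL₂, fun u hu => ?_⟩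
  obtain ⟨hu1, hu2⟩ := lapp_append hu
  filter_upwards [self_mem_nhdsWithin, g1 _ hu1, g2 _ hu2,
    two_discs Metric.isBounded_ball h1 h2 h12 hx hy hu] with a ha q1 q2 q3
  have ha' : (0 : ℝ) < a := ha
  have e : a ^ (-(((n + m : ℕ) : ℝ) / 8)) = a ^ (-((n : ℝ) / 8)) * a ^ (-((m : ℝ) / 8)) := by
    rw [← Real.rpow_add ha']
    congr 1
    push_cast; ring
  have s1 : 0 < a ^ (-((n : ℝ) / 8)) := Real.rpow_pos_of_pos ha' _
  have s2 : 0 < a ^ (-((m : ℝ) / 8)) := Real.rpow_pos_of_pos ha' _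
  rw [e]
  constructor
  · refine (mul_le_mul q1.1 q2.1 hL₂.le (mul_nonneg s1.le (GB_nonneg (by decide) _ _))).trans ?_
    have := mul_le_mul_of_nonneg_left q3.1 (mul_pos s1 s2).le
    linarith
  · have := mul_le_mul_of_nonneg_left q3.2 (mul_pos s1 s2).le
    refine this.trans ?_
    have g3 := mul_le_mul q1.2 q2.2 (mul_nonneg s2.le (GB_nonneg (by decide) _ _))
      (by positivity)
    have g4 : (1 + η) * L₁ * ((1 + η) * L₂) ≤ (1 + ε) * (L₁ * L₂) := by
      have e2 : (1 + η) * L₁ * ((1 + η) * L₂) = (1 + 2 * η + η ^ 2) * (L₁ * L₂) := by ring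
      rw [e2]
      refine mul_le_mul_of_nonneg_right ?_ (mul_pos hL₁ hL₂).le
      nlinarith
    linarith

/-- `Hn` for all even `n` -/
theorem hn_even (hP : PlaneLim P) (hM : Merge P) {C₀ : ℝ} (hC : 0 < C₀) (h2 : Plane2 P C₀)
    {n : ℕ} (hn : Even n) : Hn n := by
  obtain ⟨m, rfl⟩ := hn
  induction m with
  | zero => exact hn_zero
  | succ m ih =>
    have e : m + 1 + (m + 1) = (m + m) + 2 := by ring
    rw [e]
    exact hn_add ih (hn_two hP hM hC h2)

end Crest.Agent.R165.U5ex697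
end
end

-- ▼ part R165/U5f_697
section

/-!
# Row 165 (S0250), block U5, step S6: free boundary conditions (helper697)

* `Fam n F` : scaling limits of the free `n`-point functions with covariance up to a constant
* `cov_add` : the constant is one for `n + m` points if it is one for `n` and for `m` points
* `spinOut_free` : `SpinOut .free n` for even `n`
-/

set_option autoImplicit false
set_option linter.unusedSectionVars false
set_option linter.unusedVariables false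

noncomputable section

open Filter Topology Finset
open Crest.ProbabilityR.IsingModel

namespace Crest.Agent.R165.U5fx697

open Crest.Agent.R165.Gk0x422
open Crest.Agent.R165.Gk1x422
open Crest.Agent.R165.U5Px422
open Crest.Agent.R165.U5ax697
open Crest.Agent.R165.U5bx697
open Crest.Agent.R165.U5cx697
open Crest.Agent.R165.U5dx697
open Crest.Agent.R165.U5ex697
open Crest.Agent.R165.Nm1x697
open Crest.Agent.R165.Nm2x697
open Crest.Agent.R165.USpinx641 (SpinInB)

variable {P : {n : ℕ} → (Fin n → ℤ × ℤ) → ℝ}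
  {Lam : (n : ℕ) → Set ℂ → (Fin n → ℂ) → ℝ}

/-- scaling limits of the free `n`-point functions -/
structure Fam (n : ℕ) (F : Set ℂ → (Fin n → ℂ) → ℝ) : Prop where
  pos : ∀ D, IsC2JordanDomain D → ∀ x ∈ Conf D n, 0 < F D x
  lim : ∀ D, IsC2JordanDomain D → ∀ x ∈ Conf D n, SLim .free D x (F D x)
  cov : ∀ D D', IsC2JordanDomain D → IsC2JordanDomain D' → ∀ φ : ℂ → ℂ,
    DifferentiableOn ℂ φ D → Set.BijOn φ D D' → ∃ k : ℝ, 0 < k ∧ ∀ x ∈ Conf D n,
      (∏ i, ‖deriv φ (x i)‖ ^ ((1 : ℝ) / 8)) * F D' (fun i => φ (x i)) = k * F D x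

/-- covariance with constant one -/
def Cov1 {n : ℕ} (F : Set ℂ → (Fin n → ℂ) → ℝ) : Prop :=
  ∀ D D', IsC2JordanDomain D → IsC2JordanDomain D' → ∀ φ : ℂ → ℂ,
    DifferentiableOn ℂ φ D → Set.BijOn φ D D' → ∀ x ∈ Conf D n,
      F D x = (∏ i, ‖deriv φ (x i)‖ ^ ((1 : ℝ) / 8)) * F D' (fun i => φ (x i))

/-- existence of the free limits -/
theorem exists_fam (hP : PlaneLim P) (hL : SpinInB .free Lam) (hM : Merge P)
    {C₀ : ℝ} (hC : 0 < C₀) (h2 : Plane2 P C₀) {n : ℕ} (hn : Even n) :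
    ∃ c : Set ℂ → ℝ, (∀ D, 0 < c D) ∧ Fam n fun D x => c D * Lam n D x := by
  have hA : Allow .free n := Or.inr ⟨rfl, hn⟩
  have hex : ∀ D : Set ℂ, ∃ c > (0 : ℝ), IsC2JordanDomain D → ∀ x ∈ Conf D n,
      SLim .free D x (c * Lam n D x) := by
    intro D
    by_cases hD : IsC2JordanDomain D
    swap
    · exact ⟨1, one_pos, fun h => absurd h hD⟩
    have hDo : IsOpen D := Red2x541.isOpen_of_C2 hD
    have hDb : Bornology.IsBounded D := Redx541.bounded_of_C2 hD
    by_cases hne : D.Nonempty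
    swap
    · rcases Nat.eq_zero_or_pos n with h0 | h0
      · subst h0
        refine ⟨(Lam 0 D fun i => i.elim0)⁻¹, inv_pos.2 (hL.pos 0 D hA hD _
          ⟨fun i => i.elim0, fun i => i.elim0⟩), fun _ x hx u hu => ?_⟩
        have e : x = fun i => i.elim0 := funext fun i => i.elim0
        rw [e, inv_mul_cancel₀ (hL.pos 0 D hA hD _ ⟨fun i => i.elim0, fun i => i.elim0⟩).ne']
        refine tendsto_const_nhds.congr' ?_
        filter_upwards [self_mem_nhdsWithin] with a ha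
        rw [GB_zero (by decide)]; norm_num
      · exact ⟨1, one_pos, fun _ x hx => absurd ⟨x ⟨0, h0⟩, hx.1 _⟩ hne⟩
    obtain ⟨z, hz⟩ := hne
    obtain ⟨r, hr, hrD⟩ := Metric.isOpen_iff.1 hDo z hz
    obtain ⟨c, hc, h⟩ := slim_of_happ hL hA hD fun ε hε => by
      obtain ⟨x, hx, L, hL0, g⟩ := hn_even hP hM hC h2 hn z r hr ε hε
      refine ⟨x, ⟨fun i => hrD (hx.1 i), hx.2⟩, L, hL0, fun u hu => ?_⟩
      filter_upwards [g u hu, self_mem_nhdsWithin,
        hu.mem Metric.isBounded_ball Metric.isOpen_ball hx.1] with a g1 ha m1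
      have ha' : (0 : ℝ) < a := ha
      have hs : 0 < a ^ (-((n : ℝ) / 8)) := Real.rpow_pos_of_pos ha' _
      have hsub : TT (Metric.ball z r) a ⊆ TT D a := TT_mono hDb hrD ha'
      refine ⟨g1.1.trans (mul_le_mul_of_nonneg_left (GB_free_mono hsub m1) hs.le),
        le_trans (mul_le_mul_of_nonneg_left ?_ hs.le) g1.2⟩
      exact (Gf_le_Gp Kc_nonneg _ _).trans (GB_plus_anti hsub _)
    exact ⟨c, hc, fun _ => h⟩
  choose c hc hc2 using hex
  refine ⟨c, hc, fun D hD x hx => mul_pos (hc D) (hL.pos n D hA hD x hx), fun D hD => hc2 D hD, ?_⟩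
  intro D D' hD hD' φ hφ hbij
  obtain ⟨k, hk, hk2⟩ := hL.cov n D D' hA hD hD' φ hφ hbij
  refine ⟨c D' * k / c D, div_pos (mul_pos (hc D') hk) (hc D), fun x hx => ?_⟩
  have := hk2 x hx
  have h0 := (hc D).ne'
  have e : c D' * k / c D * (c D * Lam n D x) = c D' * (k * Lam n D x) := by field_simp
  rw [e]
  linear_combination (c D') * this

theorem fam_zero {F : Set ℂ → (Fin 0 → ℂ) → ℝ} (h : Fam 0 F) {D : Set ℂ}
    (hD : IsC2JordanDomain D) (x : Fin 0 → ℂ) : F D x = 1 := by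
  have hx : x ∈ Conf D 0 := ⟨fun i => i.elim0, fun i => i.elim0⟩
  have h1 := h.lim D hD x hx _ (lapp_meshIndex x)
  refine tendsto_nhds_unique h1 (tendsto_const_nhds.congr' ?_)
  filter_upwards [self_mem_nhdsWithin] with a ha
  rw [GB_zero (by decide)]; norm_num

theorem cov1_zero {F : Set ℂ → (Fin 0 → ℂ) → ℝ} (h : Fam 0 F) : Cov1 F := by
  intro D D' hD hD' φ hφ hbij x hx
  rw [fam_zero h hD, fam_zero h hD']
  simp

/-- Griffiths II for the limits -/
theorem lim_mul_le {n m : ℕ} {F : Set ℂ → (Fin n → ℂ) → ℝ} {G : Set ℂ → (Fin m → ℂ) → ℝ}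
    {H : Set ℂ → (Fin (n + m) → ℂ) → ℝ} (hF : Fam n F) (hG : Fam m G) (hH : Fam (n + m) H)
    {D : Set ℂ} (hD : IsC2JordanDomain D) {x : Fin n → ℂ} {y : Fin m → ℂ} (hx : x ∈ Conf D n)
    (hy : y ∈ Conf D m) (hxy : Fin.append x y ∈ Conf D (n + m)) :
    F D x * G D y ≤ H D (Fin.append x y) := by
  have hu := lapp_meshIndex (Fin.append x y)
  obtain ⟨hu1, hu2⟩ := lapp_append hu
  refine le_of_tendsto_of_tendsto ((hF.lim D hD x hx _ hu1).mul (hG.lim D hD y hy _ hu2))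
    (hH.lim D hD _ hxy _ hu) ?_
  filter_upwards [self_mem_nhdsWithin] with a ha
  have ha' : (0 : ℝ) < a := ha
  have e : a ^ (-(((n + m : ℕ) : ℝ) / 8)) = a ^ (-((n : ℝ) / 8)) * a ^ (-((m : ℝ) / 8)) := by
    rw [← Real.rpow_add ha']
    congr 1
    push_cast; ring
  have s1 : 0 < a ^ (-((n : ℝ) / 8)) := Real.rpow_pos_of_pos ha' _
  have s2 : 0 < a ^ (-((m : ℝ) / 8)) := Real.rpow_pos_of_pos ha' _
  have g := GB_free_mul_le (TT D a)
    (fun i => (fun i => meshIndex a (Fin.append x y i)) (Fin.castAdd m i))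
    (fun i => (fun i => meshIndex a (Fin.append x y i)) (Fin.natAdd n i))
  rw [append_eq (fun i => meshIndex a (Fin.append x y i))] at g
  rw [e]
  have := mul_le_mul_of_nonneg_left g (mul_pos s1 s2).le
  linarith

/-- near equality for suitable points -/
theorem near_eq {n m : ℕ} (hn : Hn n) (hm : Hn m) {F : Set ℂ → (Fin n → ℂ) → ℝ}
    {G : Set ℂ → (Fin m → ℂ) → ℝ} {H : Set ℂ → (Fin (n + m) → ℂ) → ℝ} (hF : Fam n F)
    (hG : Fam m G) (hH : Fam (n + m) H) {D : Set ℂ} (hD : IsC2JordanDomain D)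
    (hne : D.Nonempty) {ε : ℝ} (hε : 0 < ε) : ∃ x ∈ Conf D n, ∃ y ∈ Conf D m,
      Fin.append x y ∈ Conf D (n + m) ∧
        H D (Fin.append x y) ≤ ((1 + ε) * F D x) * ((1 + ε) * G D y) := by
  have hDo : IsOpen D := Red2x541.isOpen_of_C2 hD
  have hDb : Bornology.IsBounded D := Redx541.bounded_of_C2 hD
  obtain ⟨z, hz⟩ := hne
  obtain ⟨ρ, hρ, hrD⟩ := Metric.isOpen_iff.1 hDo z hz
  obtain ⟨h1, h2, h12⟩ := subdiscs z hρ
  obtain ⟨x, hx, L₁, hL₁, g1⟩ := hn (z - (ρ / 2 : ℝ)) (ρ / 4) (by positivity) ε hε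
  obtain ⟨y, hy, L₂, hL₂, g2⟩ := hm (z + (ρ / 2 : ℝ)) (ρ / 4) (by positivity) ε hε
  have hx' : x ∈ Conf D n := ⟨fun i => hrD (h1 (hx.1 i)), hx.2⟩
  have hy' : y ∈ Conf D m := ⟨fun i => hrD (h2 (hy.1 i)), hy.2⟩
  have hxy : Fin.append x y ∈ Conf D (n + m) :=
    conf_append (h1.trans hrD) (h2.trans hrD) h12 hx hy
  refine ⟨x, hx', y, hy', hxy, ?_⟩
  have hu := lapp_meshIndex (Fin.append x y)
  obtain ⟨hu1, hu2⟩ := lapp_append hu
  -- lower bounds for `F` and `G`
  have hF1 : L₁ ≤ F D x := by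
    refine ge_of_tendsto (hF.lim D hD x hx' _ hu1) ?_
    filter_upwards [g1 _ hu1, self_mem_nhdsWithin,
      hu1.mem Metric.isBounded_ball Metric.isOpen_ball hx.1] with a q ha m1
    have ha' : (0 : ℝ) < a := ha
    exact q.1.trans (mul_le_mul_of_nonneg_left
      (GB_free_mono (TT_mono hDb (h1.trans hrD) ha') m1) (Real.rpow_nonneg ha'.le _))
  have hG1 : L₂ ≤ G D y := by
    refine ge_of_tendsto (hG.lim D hD y hy' _ hu2) ?_
    filter_upwards [g2 _ hu2, self_mem_nhdsWithin,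
      hu2.mem Metric.isBounded_ball Metric.isOpen_ball hy.1] with a q ha m1
    have ha' : (0 : ℝ) < a := ha
    exact q.1.trans (mul_le_mul_of_nonneg_left
      (GB_free_mono (TT_mono hDb (h2.trans hrD) ha') m1) (Real.rpow_nonneg ha'.le _))
  have hH1 : H D (Fin.append x y) ≤ ((1 + ε) * L₁) * ((1 + ε) * L₂) := by
    refine le_of_tendsto (hH.lim D hD _ hxy _ hu) ?_
    filter_upwards [g1 _ hu1, g2 _ hu2, self_mem_nhdsWithin,
      two_discs hDb (h1.trans hrD) (h2.trans hrD) h12 hx hy hu] with a q1 q2 ha q3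
    have ha' : (0 : ℝ) < a := ha
    have e : a ^ (-(((n + m : ℕ) : ℝ) / 8)) = a ^ (-((n : ℝ) / 8)) * a ^ (-((m : ℝ) / 8)) := by
      rw [← Real.rpow_add ha']
      congr 1
      push_cast; ring
    have s1 : 0 < a ^ (-((n : ℝ) / 8)) := Real.rpow_pos_of_pos ha' _
    have s2 : 0 < a ^ (-((m : ℝ) / 8)) := Real.rpow_pos_of_pos ha' _
    rw [e]
    have g0 : GB .free (TT D a) (fun i => meshIndex a (Fin.append x y i)) ≤
        GB .plus (TT D a) (fun i => meshIndex a (Fin.append x y i)) := Gf_le_Gp Kc_nonneg _ _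
    have := mul_le_mul_of_nonneg_left (g0.trans q3.2) (mul_pos s1 s2).le
    refine this.trans ?_
    have g3 := mul_le_mul q1.2 q2.2 (mul_nonneg s2.le (GB_nonneg (by decide) _ _))
      (by positivity)
    linarith
  refine hH1.trans ?_
  exact mul_le_mul (mul_le_mul_of_nonneg_left hF1 (by positivity))
    (mul_le_mul_of_nonneg_left hG1 (by positivity)) (by positivity)
    (mul_nonneg (by positivity) (hL₁.le.trans hF1))

theorem append_map {n m : ℕ} (φ : ℂ → ℂ) (x : Fin n → ℂ) (y : Fin m → ℂ) :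
    (fun i => φ (Fin.append x y i)) = Fin.append (fun i => φ (x i)) (fun i => φ (y i)) := by
  funext i
  refine Fin.addCases (fun i => ?_) (fun i => ?_) i <;> simp

theorem conf_map {n : ℕ} {D D' : Set ℂ} {φ : ℂ → ℂ} (hbij : Set.BijOn φ D D') {x : Fin n → ℂ}
    (hx : x ∈ Conf D n) : (fun i => φ (x i)) ∈ Conf D' n :=
  ⟨fun i => hbij.mapsTo (hx.1 i), fun i j hij => hx.2 (hbij.injOn (hx.1 i) (hx.1 j) hij)⟩

theorem conf_pull {n : ℕ} {D D' : Set ℂ} {φ : ℂ → ℂ} (hbij : Set.BijOn φ D D') {y : Fin n → ℂ}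
    (hy : y ∈ Conf D' n) : ∃ x ∈ Conf D n, (fun i => φ (x i)) = y := by
  choose x hx hx2 using fun i => hbij.surjOn (hy.1 i)
  refine ⟨x, ⟨hx, fun i j hij => hy.2 ?_⟩, funext hx2⟩
  rw [← hx2 i, ← hx2 j, hij]

/-- **the constant for `n + m` points is one** -/
theorem cov_add {n m : ℕ} (hn : Hn n) (hm : Hn m) {F : Set ℂ → (Fin n → ℂ) → ℝ}
    {G : Set ℂ → (Fin m → ℂ) → ℝ} {H : Set ℂ → (Fin (n + m) → ℂ) → ℝ} (hF : Fam n F)
    (hG : Fam m G) (hH : Fam (n + m) H) (cF : Cov1 F) (cG : Cov1 G) : Cov1 H := by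
  intro D D' hD hD' φ hφ hbij
  by_cases hne : D.Nonempty
  swap
  · intro v hv
    rcases Nat.eq_zero_or_pos (n + m) with h0 | h0
    · have hn0 : n = 0 := by omega
      have hm0 : m = 0 := by omega
      subst hn0; subst hm0
      exact cov1_zero hH D D' hD hD' φ hφ hbij v hv
    · exact absurd ⟨v ⟨0, h0⟩, hv.1 _⟩ hne
  obtain ⟨k, hk, hk2⟩ := hH.cov D D' hD hD' φ hφ hbij
  have hne' : D'.Nonempty := by
    obtain ⟨z, hz⟩ := hne
    exact ⟨φ z, hbij.mapsTo hz⟩
  suffices h1 : k = 1 by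
    intro v hv
    rw [hk2 v hv, h1, one_mul]
  -- product formula for the derivative factors
  have hprod : ∀ (x : Fin n → ℂ) (y : Fin m → ℂ),
      (∏ i, ‖deriv φ (Fin.append x y i)‖ ^ ((1 : ℝ) / 8)) =
        (∏ i, ‖deriv φ (x i)‖ ^ ((1 : ℝ) / 8)) * ∏ i, ‖deriv φ (y i)‖ ^ ((1 : ℝ) / 8) := by
    intro x y
    rw [Fin.prod_univ_add]
    simp
  have hPi0 : ∀ {l : ℕ} (x : Fin l → ℂ), 0 ≤ ∏ i, ‖deriv φ (x i)‖ ^ ((1 : ℝ) / 8) := fun x =>
    Finset.prod_nonneg fun i _ => Real.rpow_nonneg (norm_nonneg _) _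
  have key : ∀ ε : ℝ, 0 < ε → 1 ≤ k * ((1 + ε) * (1 + ε)) ∧ k ≤ (1 + ε) * (1 + ε) := by
    intro ε hε
    constructor
    · obtain ⟨x, hx, y, hy, hxy, hle⟩ := near_eq hn hm hF hG hH hD hne hε
      have q1 := hk2 _ hxy
      have q2 := lim_mul_le hF hG hH hD' (conf_map hbij hx) (conf_map hbij hy)
        (by rw [← append_map]; exact conf_map hbij hxy)
      rw [← append_map] at q2
      have q3 := mul_le_mul_of_nonneg_left q2 (hPi0 (Fin.append x y))
      rw [q1, hprod] at q3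
      have q4 : (∏ i, ‖deriv φ (x i)‖ ^ ((1 : ℝ) / 8)) * (∏ i, ‖deriv φ (y i)‖ ^ ((1 : ℝ) / 8)) *
          ((F D' fun i => φ (x i)) * G D' fun i => φ (y i)) = F D x * G D y := by
        rw [cF D D' hD hD' φ hφ hbij x hx, cG D D' hD hD' φ hφ hbij y hy]
        ring
      rw [q4] at q3
      have hH0 := hH.pos D hD _ hxy
      have q5 : H D (Fin.append x y) ≤ (k * ((1 + ε) * (1 + ε))) * H D (Fin.append x y) := by
        refine hle.trans ?_
        have : (1 + ε) * F D x * ((1 + ε) * G D y) = ((1 + ε) * (1 + ε)) * (F D x * G D y) := by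
          ring
        rw [this]
        refine (mul_le_mul_of_nonneg_left q3 (by positivity)).trans (le_of_eq ?_)
        ring
      by_contra hlt
      push Not at hlt
      have := mul_lt_mul_of_pos_right hlt hH0
      linarith
    · obtain ⟨x', hx', y', hy', hxy', hle⟩ := near_eq hn hm hF hG hH hD' hne' hε
      obtain ⟨x, hx, rfl⟩ := conf_pull hbij hx'
      obtain ⟨y, hy, rfl⟩ := conf_pull hbij hy'
      have hxy : Fin.append x y ∈ Conf D (n + m) := by
        refine ⟨fun i => ?_, fun i j hij => hxy'.2 ?_⟩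
        · refine Fin.addCases (fun i => ?_) (fun i => ?_) i
          · rw [Fin.append_left]; exact hx.1 i
          · rw [Fin.append_right]; exact hy.1 i
        · rw [← append_map]; simp only [hij]
      have q1 := hk2 _ hxy
      rw [append_map] at q1
      have q3 := mul_le_mul_of_nonneg_left hle (hPi0 (Fin.append x y))
      rw [q1, hprod] at q3
      have q4 : (∏ i, ‖deriv φ (x i)‖ ^ ((1 : ℝ) / 8)) * (∏ i, ‖deriv φ (y i)‖ ^ ((1 : ℝ) / 8)) *
          (((1 + ε) * F D' fun i => φ (x i)) * ((1 + ε) * G D' fun i => φ (y i)))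
            = ((1 + ε) * (1 + ε)) * (F D x * G D y) := by
        rw [cF D D' hD hD' φ hφ hbij x hx, cG D D' hD hD' φ hφ hbij y hy]
        ring
      rw [q4] at q3
      have q5 := lim_mul_le hF hG hH hD hx hy hxy
      have hH0 := hH.pos D hD _ hxy
      have q6 : k * H D (Fin.append x y) ≤ ((1 + ε) * (1 + ε)) * H D (Fin.append x y) :=
        q3.trans (mul_le_mul_of_nonneg_left q5 (by positivity))
      exact le_of_mul_le_mul_right q6 hH0
  refine le_antisymm ?_ ?_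
  · have hT : Tendsto (fun ε : ℝ => (1 + ε) * (1 + ε)) (𝓝[>] 0) (𝓝 ((1 + 0) * (1 + 0))) := by
      have : Continuous fun ε : ℝ => (1 + ε) * (1 + ε) := by fun_prop
      exact (this.tendsto 0).mono_left nhdsWithin_le_nhds
    have := ge_of_tendsto hT (b := k) (by
      filter_upwards [self_mem_nhdsWithin] with ε h1
      exact (key ε h1).2)
    linarith
  · have hT : Tendsto (fun ε : ℝ => k * ((1 + ε) * (1 + ε))) (𝓝[>] 0)
        (𝓝 (k * ((1 + 0) * (1 + 0)))) := by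
      have : Continuous fun ε : ℝ => k * ((1 + ε) * (1 + ε)) := by fun_prop
      exact (this.tendsto 0).mono_left nhdsWithin_le_nhds
    have := ge_of_tendsto hT (b := 1) (by
      filter_upwards [self_mem_nhdsWithin] with ε h1
      exact (key ε h1).1)
    linarith

/-- the two-point function is covariant -/
theorem cov1_two (hP : PlaneLim P) (hL : SpinInB .free Lam) (hM : Merge P)
    {C₀ : ℝ} (hC : 0 < C₀) (h2 : Plane2 P C₀) {c : Set ℂ → ℝ} (hc : ∀ D, 0 < c D)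
    (hF : Fam 2 fun D x => c D * Lam 2 D x) : Cov1 (n := 2) fun D x => c D * Lam 2 D x := by
  intro D D' hD hD' φ hφ hbij
  have hDo := Red2x541.isOpen_of_C2 hD
  have hDo' := Red2x541.isOpen_of_C2 hD'
  have hDb : Bornology.IsBounded D := Redx541.bounded_of_C2 hD
  have hDb' : Bornology.IsBounded D' := Redx541.bounded_of_C2 hD'
  exact cov_two hL hC (Or.inr ⟨rfl, even_two⟩) hD hD' hDo hDo'
    (pairAs hP hM hC h2 (by decide) hDb hDo) (pairAs hP hM hC h2 (by decide) hDb' hDo')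
    (hc D) (hc D') (hF.lim D hD) (hF.lim D' hD') (fun _ => rfl) (fun _ => rfl) hφ hbij

/-- **S6** -/
theorem spinOut_free (hP : PlaneLim P) (hL : SpinInB .free Lam) (hM : Merge P)
    {C₀ : ℝ} (hC : 0 < C₀) (h2 : Plane2 P C₀) {n : ℕ} (hn : Even n) : SpinOut .free n := by
  have hall : ∀ m : ℕ, ∃ F : Set ℂ → (Fin (m + m) → ℂ) → ℝ, Fam (m + m) F ∧ Cov1 F := by
    intro m
    induction m with
    | zero =>
      obtain ⟨c, hc, hF⟩ := exists_fam hP hL hM hC h2 (n := 0) Even.zero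
      exact ⟨_, hF, cov1_zero hF⟩
    | succ m ih =>
      have e : m + 1 + (m + 1) = (m + m) + 2 := by ring
      rw [e]
      obtain ⟨F, hF, cF⟩ := ih
      obtain ⟨c, hc, hG⟩ := exists_fam hP hL hM hC h2 (n := 2) even_two
      obtain ⟨d, hd, hH⟩ := exists_fam hP hL hM hC h2 (n := m + m + 2)
        ((Even.add_self m).add even_two)
      exact ⟨_, hH, cov_add (hn_even hP hM hC h2 (Even.add_self m)) (hn_two hP hM hC h2) hF hG hH
        cF (cov1_two hP hL hM hC h2 hc hG)⟩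
  obtain ⟨m, rfl⟩ := hn
  obtain ⟨F, hF, cF⟩ := hall m
  exact ⟨F, fun D hD x hx => ⟨hF.pos D hD x hx, hF.lim D hD x hx⟩, cF⟩

end Crest.Agent.R165.U5fx697
end
end

-- ▼ part R165/U5g_697
section

/-!
# Row 165 (S0250), block U5, step S7 and wiring (helper697)

* `PlIn P LamP` : ratio limits of the plane correlations (input, `n` even)
* `plane_lim`   : scaling limits of the plane correlations
* `ballC2`, `merge`, `plane2'`, `twoPt`, `u2c`, `spinOut_free'`, `spPl` : final statements from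
  `UTb`, `SpinInB`, `MuIn`, `Wu`, `PlIn`
-/

set_option autoImplicit false
set_option linter.unusedSectionVars false
set_option linter.unusedVariables false

noncomputable section

open Filter Topology Finset
open Crest.ProbabilityR.IsingModel

namespace Crest.Agent.R165.U5gx697

open Crest.Agent.R165.Gk0x422
open Crest.Agent.R165.Gk1x422
open Crest.Agent.R165.U5Px422
open Crest.Agent.R165.U5ax697
open Crest.Agent.R165.U5bx697
open Crest.Agent.R165.U5cx697
open Crest.Agent.R165.U5dx697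
open Crest.Agent.R165.U5ex697
open Crest.Agent.R165.U5fx697
open Crest.Agent.R165.Nm1x697
open Crest.Agent.R165.Nm2x697
open Crest.Agent.R165.USpinx641 (SpinInB)
open Crest.Agent.R165.UPlx641
open Crest.Agent.R165.Topx683 Crest.Agent.R165.Redx541 Crest.Agent.R165.Red2x541

variable {P : {n : ℕ} → (Fin n → ℤ × ℤ) → ℝ}
  {Lam Lamf : (n : ℕ) → Set ℂ → (Fin n → ℂ) → ℝ} {LamP : (n : ℕ) → (Fin n → ℂ) → ℝ}

/-- ratio limits in the plane -/
structure PlIn (P : {n : ℕ} → (Fin n → ℤ × ℤ) → ℝ) (LamP : (n : ℕ) → (Fin n → ℂ) → ℝ) : Prop where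
  pos : ∀ n, Even n → ∀ x : Fin n → ℂ, Function.Injective x → 0 < LamP n x
  ratio : ∀ n, Even n → ∀ x x' : Fin n → ℂ, Function.Injective x → Function.Injective x' →
    ∀ u u' : ℝ → Fin n → ℤ × ℤ, LApp u x → LApp u' x' →
      Tendsto (fun a : ℝ => P (u a) / P (u' a)) (𝓝[>] 0) (𝓝 (LamP n x / LamP n x'))

/-- **S7** -/
theorem plane_lim (hP : PlaneLim P) (hM : Merge P) {C₀ : ℝ} (hC : 0 < C₀) (h2 : Plane2 P C₀)
    (hL : PlIn P LamP) {n : ℕ} (hn : Even n) :
    ∃ c > (0 : ℝ), ∀ x : Fin n → ℂ, Function.Injective x → ∀ u, LApp u x →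
      Tendsto (fun a : ℝ => a ^ (-((n : ℝ) / 8)) * P (u a)) (𝓝[>] 0) (𝓝 (c * LamP n x)) := by
  obtain ⟨c, hc, h⟩ := norm_lemma (l := 𝓝[>] (0 : ℝ)) (X := {x : Fin n → ℂ // Function.Injective x})
    (fun a x => P fun i => meshIndex a (x.1 i))
    (fun a => a ^ (-((n : ℝ) / 8))) (fun x => LamP n x.1)
    (fun x => hL.pos n hn x.1 x.2)
    (fun x y => hL.ratio n hn x.1 y.1 x.2 y.2 _ _ (lapp_meshIndex x.1) (lapp_meshIndex y.1))
    (fun ε hε => by
      obtain ⟨x, hx, L, hL0, g⟩ := hn_even hP hM hC h2 hn 0 1 one_pos ε hε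
      refine ⟨⟨x, hx.2⟩, L, hL0, ?_⟩
      filter_upwards [g _ (lapp_meshIndex x), self_mem_nhdsWithin,
        (lapp_meshIndex x).mem Metric.isBounded_ball Metric.isOpen_ball hx.1] with a g1 ha m1
      have ha' : (0 : ℝ) < a := ha
      have hs : 0 < a ^ (-((n : ℝ) / 8)) := Real.rpow_pos_of_pos ha' _
      exact ⟨g1.1.trans (mul_le_mul_of_nonneg_left
          (free_le_plane hP (Finset.Subset.refl _) m1) hs.le),
        (mul_le_mul_of_nonneg_left (plane_le_plus hP m1) hs.le).trans g1.2⟩)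
  refine ⟨c, hc, fun x hx u hu => ?_⟩
  have h1 := hL.ratio n hn x x hx hx u _ hu (lapp_meshIndex x)
  have hne : LamP n x ≠ 0 := (hL.pos n hn x hx).ne'
  rw [div_self hne] at h1
  have h2 := h1.mul (h ⟨x, hx⟩)
  rw [one_mul] at h2
  refine h2.congr' ?_
  filter_upwards [h1.eventually (lt_mem_nhds one_half_lt_one)] with a ha
  have hne2 : P (fun i => meshIndex a (x i)) ≠ 0 := fun h0 => by
    rw [h0, div_zero] at ha
    norm_num at ha
  field_simp

/-! ### wiring -/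

theorem ballC2 : BallC2 := fun c _ hr => Nm1x422.isC2_ball c hr

/-- inputs of the wiring: torus clause, plus ratio limits, the dual two-point function, Wu's law -/
structure In5 (Lam : (n : ℕ) → Set ℂ → (Fin n → ℂ) → ℝ) (B : ℂ → ℂ → ℝ) : Prop where
  ut : UTb
  spin : SpinInB .plus Lam
  mu : MuIn B
  wu : Wu @Pc

variable {B : ℂ → ℂ → ℝ}

theorem In5.lim (h : In5 Lam B) : PlaneLim @Pc := planeLim_Pc h.ut

theorem In5.merge (h : In5 Lam B) : Merge @Pc := merge_of_mu h.lim h.mu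

theorem In5.plane2 (h : In5 Lam B) : ∃ C₀ > (0 : ℝ), Plane2 @Pc C₀ :=
  U5cx697.plane2 h.lim h.spin ballC2 h.merge h.wu

theorem In5.twoPt (h : In5 Lam B) : ∃ g, TwoPt g := by
  obtain ⟨C₀, hC, h2⟩ := h.plane2
  exact exists_twoPt h.lim h.spin ballC2 h.merge hC h2

/-- **clause U2** -/
theorem In5.u2c (h : In5 Lam B) : U2c := by
  obtain ⟨C₀, hC, h2⟩ := h.plane2
  refine ⟨C₀, hC.ne', fun x y hxy => ?_⟩
  have := h2 ![x, y] (by simpa using hxy) _ (lapp_meshIndex ![x, y])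
  simp only [Matrix.cons_val_zero, Matrix.cons_val_one] at this
  refine this.congr fun a => ?_
  have e : (fun i => meshIndex a ((![x, y] : Fin 2 → ℂ) i)) = ![meshIndex a x, meshIndex a y] := by
    funext i
    fin_cases i <;> rfl
  rw [e]
  rfl

/-- **free boundary conditions** -/
theorem In5.spinOut_free (h : In5 Lam B) (hf : SpinInB .free Lamf) {n : ℕ} (hn : Even n) :
    SpinOut .free n := by
  obtain ⟨C₀, hC, h2⟩ := h.plane2
  exact U5fx697.spinOut_free h.lim hf h.merge hC h2 hn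

/-- **plane spin limits** -/
theorem In5.spPl (h : In5 Lam B) (hp : PlIn @Pc LamP) : SpPl := by
  intro n hn1 hn x hx
  obtain ⟨C₀, hC, h2⟩ := h.plane2
  obtain ⟨c, hc, hlim⟩ := plane_lim h.lim h.merge hC h2 hp hn
  refine ⟨c * LamP n x, (hlim x hx _ (lapp_meshIndex x)).congr fun a => ?_⟩
  unfold scl
  simp

end Crest.Agent.R165.U5gx697
end
end

-- ▼ part R165/SpF_583
section

/-!
Row 165, block U2 (helper583): `TorPl → Wu Pc` (697's input for `U2c`).
-/

set_option autoImplicit false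

open Filter Topology

namespace Crest.Agent.R165.Spx583

/-- **Wu's law on the diagonal**, in the form of helper697 -/
theorem wu_Pc (h : TorPl) : U5cx697.Wu @UPlx641.Pc := by
  obtain ⟨C, hC, hl⟩ := WuAsyx408.Dg_asymp
  refine ⟨C, hC, hl.congr fun n => ?_⟩
  have := P0c_diag h (0, 0) n
  simp only [zero_add] at this
  unfold UPlx641.Pc
  rw [this, mul_comm]

end Crest.Agent.R165.Spx583
end

-- ▼ part R165/UAsm_641

/-!
# Row 165 (S0250): ASSEMBLY OF BLOCK U (helper641)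

`ulimB` : the unperturbed scaling limits `ULimB` (Red2_541) from the remaining leaves

* `TorPl` (922): torus bond expectations
* `MacLeaf` (622, 610): kernel limits, plus families
* `BrLeaf` (644, 813): branch limits, plus families
* `LdLeaf` (813): logarithmic derivatives, plus families
* `Uniq`, `DiscTwo` (719): uniqueness, two branch points in the disc
* `KerAll .free` (802): kernels, free
* `SpinInB .free` (422): ratio limits, free
* `KerPl`, `PlLd` (654, 304): kernels and logarithmic derivatives of the plane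
-/

set_option autoImplicit false

noncomputable section

open Filter Topology Set
open Crest.ProbabilityR.IsingModel

namespace Crest.Agent.R165.UAsmx641

open Crest.Agent.R165.Latx683 (IsCov)
open Crest.Agent.R165.ConfTopx641 Crest.Agent.R165.USpinx641 Crest.Agent.R165.UB3x641
  Crest.Agent.R165.UBrLx641 Crest.Agent.R165.UPlx641
open Crest.Agent.R165.PathGlx641 Crest.Agent.R165.PathSeqx641 Crest.Agent.R165.PathIntx641
open Crest.Agent.R165.U3x719 Crest.Agent.R165.U3Covx67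
open Crest.Agent.R165.UKerPlx304 Crest.Agent.R165.UFinx420
open Crest.Agent.R165.UKerx420 (fpt KerCov KerD)
open Crest.Agent.R165.Red2x541 Crest.Agent.R165.Redx541
open Crest.Agent.R165.U5Px422 (SpinOut LApp)
open Crest.Agent.R165.U5gx697

/-! ### covariance of the logarithmic derivatives -/

theorem biL_of {D D' : Set ℂ} (hD : IsC2JordanDomain D) (hD' : IsC2JordanDomain D')
    (hne : D.Nonempty) {φ : ℂ → ℂ} (hφ : DifferentiableOn ℂ φ D) (hb : BijOn φ D D') :
    ∃ r M, Geo.CD D r M ∧ Tp416.BiL D D' φ := by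
  obtain ⟨r, M, h⟩ := GeoCx65.exists_CD hD hne
  have hne' : D'.Nonempty := by
    obtain ⟨z, hz⟩ := hne
    exact ⟨φ z, hb.mapsTo hz⟩
  obtain ⟨r', M', h'⟩ := GeoCx65.exists_CD hD' hne'
  exact ⟨r, M, h, Geo.CD.biL h' h hφ hb⟩

theorem aiCov (hU : Uniq) : AiCov := by
  intro D D' hD hD' φ hφ hbij n x hx i g g' hg hg'
  obtain ⟨r, M, h, hbl⟩ := biL_of hD hD' ⟨x i, hx.1 i⟩ hφ hbij
  rw [Ai_cov hU h hbl hx.2 hx.1 hg hg']
  congr 1
  push_cast
  rw [div_mul_eq_div_div_swap]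
  ring

/-! ### kernels, plus -/

theorem kerAll_plus (hM : MacLeaf) (hU : Uniq) : KerAll .plus := by
  classical
  intro n _
  have key : ∀ (D : Set ℂ) (x : Fin n → ℂ), ∃ g : ℂ → ℂ → ℂ → ℂ,
      IsC2JordanDomain D → x ∈ Conf n D → KerFam D x g ∧
      ∃ (bl : ℂ → ℂ → LinearMap.BilinForm ℝ ℂ) (rg : ℂ → LinearMap.BilinForm ℝ ℂ),
      (∀ z ∈ D, ∀ y ∈ D, z ≠ y → (∀ i, x i ≠ z) → (∀ i, x i ≠ y) → ∀ c c',
        bl z y c c' = kerB x g z y c c' / (2 * Real.pi * Latx683.xc)) ∧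
      (∀ y ∈ D, (∀ i, x i ≠ y) → ∀ c c',
        rg y c c' = kerR x g y c c' / (2 * Real.pi * Latx683.xc)) ∧
      ∀ (w : ℝ → Latx683.BW ℤ) (X : ℝ → Fin n → ℤ × ℤ), BgFam D w → LApp X x →
        KerF D x w X bl rg := by
    intro D x
    by_cases h : IsC2JordanDomain D ∧ x ∈ Conf n D
    · obtain ⟨bl, rg, g, h1, h2, h3, -, -, h6⟩ := hM D h.1 n x h.2
      exact ⟨g, fun _ _ => ⟨h1, bl, rg, h2, h3, h6⟩⟩
    · exact ⟨fun _ _ _ => 0, fun h1 h2 => absurd ⟨h1, h2⟩ h⟩
  choose g hg using key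
  refine ⟨fun D x z z' c c' => kerB x (g D x) z z' c c' / (2 * Real.pi * Latx683.xc),
    fun D x z c c' => kerR x (g D x) z c c' / (2 * Real.pi * Latx683.xc), ?_, ?_⟩
  · intro D hD x hx hinj
    obtain ⟨-, bl, rg, h2, h3, h6⟩ := hg D x hD ⟨hx, hinj⟩
    have hK := h6 _ _ (bgFam_dom hD) (U5Px422.lapp_meshIndex x)
    refine ⟨fun z z' hz hz' hne hxz hxz' => ⟨bl z z', fun c c' =>
        (h2 z hz z' hz' hne hxz hxz' c c').symm⟩,
      fun z hz hxz => ⟨rg z, fun c c' => (h3 z hz hxz c c').symm⟩, ?_, ?_⟩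
    · intro S hS z z' hz hz' hne hxz hxz' i i' f f' hf hf'
      have h := hK.off S hS z z' hz hz' hne hxz hxz' i i' f f' hf hf'
      rw [h2 z hz z' hz' hne hxz hxz'] at h
      exact h
    · intro S hS z hz hxz j i i'
      have h := hK.diag S hS z hz hxz (fun a => meshIndex a z) (mesh_self z) j i i'
      rw [h3 z hz hxz] at h
      exact h
  · intro D D' hD hD' φ hφ hbij x hx hinj
    rcases D.eq_empty_or_nonempty with rfl | hne
    · exact ⟨fun _ => 0, fun z hz => absurd hz (Set.notMem_empty z),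
        fun z _ hz => absurd hz (Set.notMem_empty z), fun z hz => absurd hz (Set.notMem_empty z)⟩
    obtain ⟨r, M, h, hbl⟩ := biL_of hD hD' hne hφ hbij
    have hx' : (fun k => φ (x k)) ∈ Conf n D' :=
      ⟨fun i => hbij.mapsTo (hx i), fun i j hij => hinj (hbij.injOn (hx i) (hx j) hij)⟩
    obtain ⟨ρ, h1, h2, h3⟩ := ker_cov hU h hbl hinj hx (hg D x hD ⟨hx, hinj⟩).1
      (hg D' _ hD' hx').1
    refine ⟨ρ, h1, fun z z' hz hz' hne hxz hxz' c c' => ?_, fun z hz hxz c c' => ?_⟩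
    · show _ / _ = _ / _
      rw [h2 z z' hz hz' hne hxz hxz' c c']
    · show _ / _ = _ / _
      rw [h3 z hz hxz c c']

/-! ### the plane -/

/-- **logarithmic derivatives of the plane** (654, 813) -/
def PlLd : Prop :=
  ∃ A : (n : ℕ) → Fin n → (Fin n → ℂ) → ℂ, ∀ n : ℕ, Even n →
    LDD n Set.univ (fun _ u => Pc u) (gOf (A n))

theorem conf_univ_nonempty (n : ℕ) : (Conf n (Set.univ : Set ℂ)).Nonempty :=
  ⟨fun i => ((i : ℕ) : ℂ), fun _ => Set.mem_univ _, fun i j h => by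
    have h' : ((i : ℕ) : ℂ) = ((j : ℕ) : ℂ) := h
    exact Fin.ext (by exact_mod_cast h')⟩

theorem plIn_of (h : PlLd) : ∃ LamP, PlIn @Pc LamP := by
  obtain ⟨A, hA⟩ := h
  choose x0 hx0 using conf_univ_nonempty
  refine ⟨fun n x => Gl (fun _ u => Pc u) (x0 n) x, ?_, ?_⟩
  · intro n hn x hx
    exact (hA n hn).gl_pos (hx0 n) ⟨fun _ => Set.mem_univ _, hx⟩
  · intro n hn x x' hx hx' u u' hu hu'
    have hxc : x ∈ Conf n Set.univ := ⟨fun _ => Set.mem_univ _, hx⟩
    have hxc' : x' ∈ Conf n Set.univ := ⟨fun _ => Set.mem_univ _, hx'⟩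
    have L := hA n hn
    have h1 := L.rel_gl hxc' hxc _ le_rfl _ _ (lapp_mc hu') (lapp_mc hu)
    have e : Gl (fun _ u => Pc u) (x0 n) x / Gl (fun _ u => Pc u) (x0 n) x' =
        Gl (fun (_ : ℝ) (u : Fin n → ℤ × ℤ) => Pc u) x' x := by
      rw [div_eq_iff (L.gl_pos (hx0 n) hxc').ne', mul_comm, L.gl_mul (hx0 n) hxc' hxc]
    rw [e]
    exact h1

/-! ### assembly -/

/-- the remaining leaves of block U -/
structure ULeaves : Prop where
  tor : Spx583.TorPl
  mac : MacLeaf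
  br : BrLeaf
  ld : LdLeaf
  uniq : Uniq
  disc : DiscTwo
  kerFree : KerAll .free
  spFree : ∃ Lf, SpinInB .free Lf
  kerPl : UPlx641.KerPl
  plLd : PlLd
  exPl : UPlx641.ExCovPl
  j2Pl : UPlx641.J2Pl

theorem ldf_dom (h : LdLeaf) {D : Set ℂ} (hD : IsC2JordanDomain D) : LDF AAf D (U5Px422.TT D) :=
  h D hD _ (latApp_TT hD) (Kw9x871.noHole_TT hD)

theorem spinInB (H : ULeaves) : SpinInB .plus Lam :=
  spinInB_plus (fun _ hD => ldf_dom H.ld hD) (covA_of (aiCov H.uniq) H.br)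

theorem in5 (H : ULeaves) : In5 Lam Kw9x871.kapB where
  ut := Spx583.UTb_of H.tor
  spin := spinInB H
  mu := Kw9x871.muIn_kapB (brLim_of H.br H.disc)
  wu := Spx583.wu_Pc H.tor

theorem spinLeaf (H : ULeaves) : SpinLeaf := by
  intro b n hn hR
  rcases hR with rfl | ⟨rfl, he⟩
  · obtain ⟨g, hg⟩ := (in5 H).twoPt
    exact Nm7x422.spinOut_plus' (spinInB H) hg n
  · obtain ⟨Lf, hf⟩ := H.spFree
    exact (in5 H).spinOut_free hf he


end Crest.Agent.R165.UAsmx641
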