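import Crest.Agent.R165.UKer_420
import Crest.Agent.R165.GeoDefs_416
import Crest.Agent.R165.UAsm_641
import Crest.Agent.R165.J2b_606
import Crest.Agent.R165.Cov2_359
import Crest.Agent.R165.Red2_541
import Crest.Agent.R165.UFin_420

-- ▼ part R165/FrI_802
section

/-!
# Row 165 (S0250), leaf FREE TRANSFER, interface (helper802)

What the plus side delivers about the half-edge kernels, for ARBITRARY plus type backgrounds
approximating `D` (needed for the Kramers–Wannier dual of the free background of `D`), all in the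
conventions of `Lat_683` (ray gauge, `wX`) and `UKer_420` (`kap`, `edir`, `cB`).

* `LatB D x a y V` : moduli `y k ∈ {xc, 0}` approximating `D`, insertions (vertices) `V k → x`
* `PlusIn D x bl rg η B` : for all covariances `S k` of `wX (y k) (V k)`
  - `off` : `a⁻¹ κ_z(f) κ_z'(f') S((f,i),(f',i')) → bl z z' (e_i, e_i')`
  - `diag` : the same for the two half-edges of an arbitrary bond tending to `z`, plane value subtracted
  - `eta` : `a^{-1/2} κ_z(f) κ_j S((f,i), l_j) → η_j z (e_i)`, `l_j = (1,1,1,1)` at the block `V_j`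
    (north-east of the vertex `V_j`), `κ_j = kap x V (x_j) (V_j)`
  - `bb` : `κ_i κ_j S(l_i, l_j) → B i j`
* `PlusCov` : conformal covariance of `(bl, rg, η, B)`.
-/

set_option autoImplicit false

noncomputable section

open Filter Topology Finset
open Crest.ProbabilityR.IsingModel

namespace Crest.Agent.R165.FrIx802

open Crest.Agent.R165.Latx683 (BW HE wX IsCov)
open Crest.Agent.R165.UDomBx420 (ed)
open Crest.Agent.R165.UKerx420 (kap edir hb cB)

/-- plus type moduli approximating the domain `D`, insertions `V` -/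
structure LatB (D : Set ℂ) {n : ℕ} (x : Fin n → ℂ) (a : ℕ → ℝ) (y : ℕ → BW ℤ)
    (V : ℕ → Fin n → ℤ × ℤ) : Prop where
  pos : ∀ k, 0 < a k
  lim : Tendsto a atTop (𝓝 0)
  val : ∀ k z j, y k z j = Latx683.xc ∨ y k z j = 0
  tip : ∀ i, Tendsto (fun k => meshPoint (a k) (V k i)) atTop (𝓝 (x i))
  ins : ∀ K : Set ℂ, IsCompact K → K ⊆ D → ∀ᶠ k in atTop, ∀ z, meshPoint (a k) z ∈ K →
    ∀ j, y k z j = Latx683.xc
  out : ∀ K : Set ℂ, IsCompact K → Disjoint K (closure D) → ∀ᶠ k in atTop, ∀ z,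
    meshPoint (a k) z ∈ K → ∀ j, y k z j = 0
  bdd : ∃ R : ℝ, ∀ k z, R ≤ ‖meshPoint (a k) z‖ → ∀ j, y k z j = 0

/-- sign of the block `V_j` in the gauge which is trivial near `x_j` -/
def kb {n : ℕ} (x : Fin n → ℂ) (V : Fin n → ℤ × ℤ) (j : Fin n) : ℝ := kap x V (x j) (V j)

/-- **plus inputs** -/
structure PlusIn (D : Set ℂ) {n : ℕ} (x : Fin n → ℂ) (bl : ℂ → ℂ → LinearMap.BilinForm ℝ ℂ)
    (rg : ℂ → LinearMap.BilinForm ℝ ℂ) (η : Fin n → ℂ → ℂ →ₗ[ℝ] ℝ)
    (B : Matrix (Fin n) (Fin n) ℝ) : Prop where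
  /-- two different points -/
  off : ∀ (a : ℕ → ℝ) (y : ℕ → BW ℤ) (V : ℕ → Fin n → ℤ × ℤ), LatB D x a y V →
    ∀ S : ℕ → HE ℤ → HE ℤ → ℝ, (∀ k, IsCov (wX (y k) (V k)) (S k)) →
    ∀ z z' : ℂ, z ∈ D → z' ∈ D → z ≠ z' → (∀ i, x i ≠ z) → (∀ i, x i ≠ z') →
    ∀ (i i' : Fin 4) (f f' : ℕ → ℤ × ℤ), Tendsto (fun k => meshPoint (a k) (f k)) atTop (𝓝 z) →
      Tendsto (fun k => meshPoint (a k) (f' k)) atTop (𝓝 z') →
      Tendsto (fun k => (a k)⁻¹ * (kap x (V k) z (f k) * kap x (V k) z' (f' k) *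
        S k (f k, i) (f' k, i'))) atTop (𝓝 (bl z z' (edir i) (edir i')))
  /-- regular part at a bond -/
  diag : ∀ (a : ℕ → ℝ) (y : ℕ → BW ℤ) (V : ℕ → Fin n → ℤ × ℤ), LatB D x a y V →
    ∀ S : ℕ → HE ℤ → HE ℤ → ℝ, (∀ k, IsCov (wX (y k) (V k)) (S k)) →
    ∀ z : ℂ, z ∈ D → (∀ i, x i ≠ z) → ∀ (j i i' : Fin 2) (f : ℕ → ℤ × ℤ),
      Tendsto (fun k => meshPoint (a k) (f k)) atTop (𝓝 z) →
      Tendsto (fun k => (a k)⁻¹ * (kap x (V k) z (hb (f k) j i).1 *
        kap x (V k) z (hb (f k) j i').1 * S k (hb (f k) j i) (hb (f k) j i') - cB i i')) atTop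
        (𝓝 (rg z (ed j i) (ed j i')))
  /-- skew -/
  skew : ∀ z z', z ∈ D → z' ∈ D → z ≠ z' → (∀ i, x i ≠ z) → (∀ i, x i ≠ z') →
    ∀ c c', bl z z' c c' = -bl z' z c' c
  /-- alternating -/
  alt : ∀ z, z ∈ D → (∀ i, x i ≠ z) → ∀ c, rg z c c = 0
  /-- one end at a branch point -/
  eta : ∀ (a : ℕ → ℝ) (y : ℕ → BW ℤ) (V : ℕ → Fin n → ℤ × ℤ), LatB D x a y V →
    ∀ S : ℕ → HE ℤ → HE ℤ → ℝ, (∀ k, IsCov (wX (y k) (V k)) (S k)) →
    ∀ z : ℂ, z ∈ D → (∀ i, x i ≠ z) → ∀ (j : Fin n) (i : Fin 4) (f : ℕ → ℤ × ℤ),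
      Tendsto (fun k => meshPoint (a k) (f k)) atTop (𝓝 z) →
      Tendsto (fun k => (Real.sqrt (a k))⁻¹ * (kap x (V k) z (f k) * kb x (V k) j *
        ∑ b, S k (f k, i) (V k j, b))) atTop (𝓝 (η j z (edir i)))
  /-- both ends at branch points -/
  bb : ∀ (a : ℕ → ℝ) (y : ℕ → BW ℤ) (V : ℕ → Fin n → ℤ × ℤ), LatB D x a y V →
    ∀ S : ℕ → HE ℤ → HE ℤ → ℝ, (∀ k, IsCov (wX (y k) (V k)) (S k)) → ∀ i j : Fin n,
      Tendsto (fun k => kb x (V k) i * kb x (V k) j * ∑ b, ∑ b', S k (V k i, b) (V k j, b')) atTop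
        (𝓝 (B i j))

/-- covariance of the plus data under `φ : D → D'` (data of `D'` at `φ ∘ x` primed) -/
def PlusCov (D : Set ℂ) {n : ℕ} (x : Fin n → ℂ) (φ : ℂ → ℂ)
    (bl bl' : ℂ → ℂ → LinearMap.BilinForm ℝ ℂ) (rg rg' : ℂ → LinearMap.BilinForm ℝ ℂ)
    (η η' : Fin n → ℂ → ℂ →ₗ[ℝ] ℝ) (B B' : Matrix (Fin n) (Fin n) ℝ) : Prop :=
  ∃ (r : ℂ → ℂ) (ε : Fin n → ℝ),
    (∀ i, ε i ^ 2 = 1) ∧
    (∀ z ∈ D, (∀ i, x i ≠ z) → r z ^ 2 = deriv φ z) ∧
    (∀ z z', z ∈ D → z' ∈ D → z ≠ z' → (∀ i, x i ≠ z) → (∀ i, x i ≠ z') → ∀ c c',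
      bl z z' c c' = bl' (φ z) (φ z') (r z * c) (r z' * c')) ∧
    (∀ z, z ∈ D → (∀ i, x i ≠ z) → ∀ c c', rg z c c' = rg' (φ z) (r z * c) (r z * c')) ∧
    (∀ j z, z ∈ D → (∀ i, x i ≠ z) → ∀ c, η j z c = ε j * η' j (φ z) (r z * c)) ∧
    ∀ i j, B i j = ε i * ε j * B' i j

end Crest.Agent.R165.FrIx802
end
end

-- ▼ part R165/UPlusIn_641
section

/-!
# Row 165 (S0250), block U: `PlusIn`, `PlusCov` of helper802 from `MacLeaf`, `BrLeaf`, `Uniq` (helper641)

* `seq_of_fam` : limits along families `a ↓ 0` imply limits along sequences (splicing)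
* `Dat`, `plusIn`, `plusCov`
-/

set_option autoImplicit false

noncomputable section

open Filter Topology Set
open Crest.ProbabilityR.IsingModel

namespace Crest.Agent.R165.UPlusInx641

open Crest.Agent.R165.Latx683 (BW HE wDom wX IsCov)
open Crest.Agent.R165.UDomBx420 (ed)
open Crest.Agent.R165.UKerx420 (kap edir hb cB fpt Sof Sof_spec wD)
open Crest.Agent.R165.ConfTopx641 Crest.Agent.R165.USpinx641 Crest.Agent.R165.UB3x641
open Crest.Agent.R165.U3x719 Crest.Agent.R165.U3Covx67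
open Crest.Agent.R165.UAsmx641
open Crest.Agent.R165.FrIx802
open Crest.Agent.R165.U5Px422 (LApp)

/-! ### splicing -/

section splice

variable {α : Type*}

/-- the sequence `e` on the points `b k`, the family `d0` elsewhere -/
def spl (b : ℕ → ℝ) (e : ℕ → α) (d0 : ℝ → α) (t : ℝ) : α := by
  classical exact if h : ∃ k, b k = t then e h.choose else d0 t

theorem spl_apply {b : ℕ → ℝ} (hb : Function.Injective b) (e : ℕ → α) (d0 : ℝ → α) (k : ℕ) :
    spl b e d0 (b k) = e k := by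
  have h : ∃ m, b m = b k := ⟨k, rfl⟩
  unfold spl
  rw [dif_pos h, hb h.choose_spec]

theorem ev_spl {b : ℕ → ℝ} (hb : StrictAnti b) (hpos : ∀ k, 0 < b k) {P : ℝ → α → Prop}
    {e : ℕ → α} {d0 : ℝ → α} (he : ∀ᶠ k in atTop, P (b k) (e k))
    (hd : ∀ᶠ t in 𝓝[>] (0 : ℝ), P t (d0 t)) : ∀ᶠ t in 𝓝[>] (0 : ℝ), P t (spl b e d0 t) := by
  obtain ⟨N, hN⟩ := eventually_atTop.1 he
  have h1 : ∀ᶠ t in 𝓝[>] (0 : ℝ), t < b N := mem_nhdsWithin_of_mem_nhds (Iio_mem_nhds (hpos N))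
  filter_upwards [h1, hd] with t ht hdt
  by_cases h : ∃ k, b k = t
  · obtain ⟨k, rfl⟩ := h
    rw [spl_apply hb.injective]
    exact hN k (hb.lt_iff_gt.1 ht).le
  · unfold spl
    rw [dif_neg h]
    exact hdt

/-- limits along families imply limits along sequences -/
theorem seq_of_fam (F : ℝ → α → ℝ) {L : ℝ} (d0 : ℝ → α) (a : ℕ → ℝ) (hpos : ∀ k, 0 < a k)
    (hlim : Tendsto a atTop (𝓝 0)) (e : ℕ → α)
    (hfam : ∀ d : ℝ → α, (∀ P : ℝ → α → Prop, (∀ᶠ k in atTop, P (a k) (e k)) →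
      (∀ᶠ t in 𝓝[>] (0 : ℝ), P t (d0 t)) → ∀ᶠ t in 𝓝[>] (0 : ℝ), P t (d t)) →
      Tendsto (fun t => F t (d t)) (𝓝[>] 0) (𝓝 L)) :
    Tendsto (fun k => F (a k) (e k)) atTop (𝓝 L) := by
  refine tendsto_of_subseq_tendsto fun ns hns => ?_
  have h1 : Tendsto (fun k => (a (ns k))⁻¹) atTop atTop := by
    refine tendsto_inv_nhdsGT_zero.comp ?_
    exact tendsto_nhdsWithin_iff.2 ⟨hlim.comp hns, Eventually.of_forall fun k => hpos _⟩
  obtain ⟨φ, hφ, hφ2⟩ := strictMono_subseq_of_tendsto_atTop h1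
  refine ⟨φ, ?_⟩
  set b : ℕ → ℝ := fun k => a (ns (φ k)) with hbdef
  have hb : StrictAnti b := by
    intro i j hij
    have h2 := hφ2 hij
    exact (inv_lt_inv₀ (hpos _) (hpos _)).1 h2
  have hsub : Tendsto (fun k => ns (φ k)) atTop atTop := hns.comp hφ.tendsto_atTop
  have hbl : Tendsto b atTop (𝓝[>] 0) :=
    tendsto_nhdsWithin_iff.2 ⟨hlim.comp hsub, Eventually.of_forall fun k => hpos _⟩
  have h3 := (hfam (spl b (fun k => e (ns (φ k))) d0) fun P h4 h5 =>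
    ev_spl hb (fun k => hpos _) (hsub.eventually h4) h5).comp hbl
  refine h3.congr fun k => ?_
  show F (b k) (spl b (fun k => e (ns (φ k))) d0 (b k)) = _
  rw [spl_apply hb.injective]

end splice

/-! ### the data of one lattice -/

/-- background, insertions, covariance, two faces -/
structure LD5 (n : ℕ) where
  w : BW ℤ
  X : Fin n → ℤ × ℤ
  S : HE ℤ → HE ℤ → ℝ
  f : ℤ × ℤ
  f' : ℤ × ℤ

variable {n : ℕ}

/-- default family -/
def dflt (D : Set ℂ) (x : Fin n → ℂ) (z z' : ℂ) (t : ℝ) : LD5 n where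
  w := wDom (domainSites D t) false
  X := fun i => meshIndex t (x i)
  S := Sof (wX (wDom (domainSites D t) false) fun i => meshIndex t (x i))
  f := meshIndex t z
  f' := meshIndex t z'

/-- a family good in the sense of `seq_of_fam` -/
structure GoodFam (D : Set ℂ) (x : Fin n → ℂ) (z z' : ℂ) (d : ℝ → LD5 n) : Prop where
  bg : BgFam D fun t => (d t).w
  app : LApp (fun t => (d t).X) x
  cov : ∀ᶠ t in 𝓝[>] (0 : ℝ), IsCov (wX (d t).w (d t).X) (d t).S
  lf : Tendsto (fun t => fpt t (d t).f) (𝓝[>] 0) (𝓝 z)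
  lf' : Tendsto (fun t => fpt t (d t).f') (𝓝[>] 0) (𝓝 z')

theorem tendsto_of_ev {ι : Type*} {l : Filter ι} {u : ι → ℂ} {z : ℂ}
    (h : ∀ ε > (0 : ℝ), ∀ᶠ k in l, dist (u k) z < ε) : Tendsto u l (𝓝 z) :=
  Metric.tendsto_nhds.2 h

theorem good_of {D : Set ℂ} (hD : IsC2JordanDomain D) {x : Fin n → ℂ} (hx : x ∈ Conf n D)
    {a : ℕ → ℝ} {y : ℕ → BW ℤ} {V : ℕ → Fin n → ℤ × ℤ} (H : LatB D x a y V)
    {S : ℕ → HE ℤ → HE ℤ → ℝ} (hS : ∀ k, IsCov (wX (y k) (V k)) (S k)) {z z' : ℂ}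
    {f f' : ℕ → ℤ × ℤ} (hf : Tendsto (fun k => meshPoint (a k) (f k)) atTop (𝓝 z))
    (hf' : Tendsto (fun k => meshPoint (a k) (f' k)) atTop (𝓝 z')) {d : ℝ → LD5 n}
    (hd : ∀ P : ℝ → LD5 n → Prop,
      (∀ᶠ k in atTop, P (a k) ⟨y k, V k, S k, f k, f' k⟩) →
      (∀ᶠ t in 𝓝[>] (0 : ℝ), P t (dflt D x z z' t)) → ∀ᶠ t in 𝓝[>] (0 : ℝ), P t (d t)) :
    GoodFam D x z z' d where
  bg := by
    have h0 := bgFam_dom hD
    refine ⟨?_, fun K hK hKD => ?_, fun K hK hKD => ?_⟩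
    · exact hd (fun _ e => ∀ z j, e.w z j = 0 ∨ e.w z j = Latx683.xc)
        (Eventually.of_forall fun k z j => (H.val k z j).symm) h0.val
    · exact hd (fun t e => ∀ z j, meshPoint t z ∈ K → e.w z j = Latx683.xc)
        ((H.ins K hK hKD).mono fun k h z j hz => h z hz j) (h0.inn K hK hKD)
    · refine hd (fun t e => ∀ z j, meshPoint t z ∈ K → e.w z j = 0) ?_ (h0.out K hK hKD)
      obtain ⟨R, hR⟩ := H.bdd
      have h1 := H.out (K ∩ Metric.closedBall 0 R) ((isCompact_closedBall _ _).inter_left hK)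
        (hKD.mono_left inter_subset_left)
      filter_upwards [h1] with k h z j hz
      by_cases hc : meshPoint (a k) z ∈ Metric.closedBall 0 R
      · exact h z ⟨hz, hc⟩ j
      · refine hR k z ?_ j
        rw [mem_closedBall_zero_iff, not_le] at hc
        exact hc.le
  app := fun i => tendsto_of_ev fun ε hε =>
    hd (fun t e => dist (meshPoint t (e.X i)) (x i) < ε)
      (Metric.tendsto_nhds.1 (H.tip i) ε hε)
      (Metric.tendsto_nhds.1 (U5Px422.lapp_meshIndex x i) ε hε)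
  cov := by
    refine hd (fun _ e => IsCov (wX e.w e.X) e.S) (Eventually.of_forall hS) ?_
    filter_upwards [UJ4x420.exCov .plus n (Or.inl rfl) D hD x hx.1 hx.2] with t ht
    exact Sof_spec ht
  lf := tendsto_of_ev fun ε hε =>
    hd (fun t e => dist (fpt t e.f) z < ε) (Metric.tendsto_nhds.1 hf ε hε)
      (Metric.tendsto_nhds.1 (UKerPlx304.mesh_self z) ε hε)
  lf' := tendsto_of_ev fun ε hε =>
    hd (fun t e => dist (fpt t e.f') z' < ε) (Metric.tendsto_nhds.1 hf' ε hε)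
      (Metric.tendsto_nhds.1 (UKerPlx304.mesh_self z') ε hε)

/-! ### `PlusIn` -/

/-- the linear form of a source at `x_j` -/
def etaOf (c1 : ℝ) (x : Fin n → ℂ) (g : Fin n → ℂ → ℂ) (j : Fin n) (z : ℂ) : ℂ →ₗ[ℝ] ℝ where
  toFun c := c1 * (c * e8 * (g j z / rXa x z)).re
  map_add' c c' := by
    rw [← mul_add, ← Complex.add_re]
    congr 2
    ring
  map_smul' t c := by
    simp only [RingHom.id_apply, smul_eq_mul, Complex.real_smul]
    rw [mul_assoc (t : ℂ), mul_assoc (t : ℂ), Complex.re_ofReal_mul]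
    ring

/-- the matrix of the branch limits -/
def bOf (c2 : ℝ) (x : Fin n → ℂ) (g : Fin n → ℂ → ℂ) : Matrix (Fin n) (Fin n) ℝ := fun i j =>
  if i = j then 0 else c2 * (g j (x i) / (Complex.I * gsrc x i)).re

theorem sqrt_inv_eq {t : ℝ} (ht : 0 < t) : (Real.sqrt t)⁻¹ = t ^ (-(1 : ℝ) / 2) := by
  rw [Real.sqrt_eq_rpow, ← Real.rpow_neg ht.le]
  congr 1
  norm_num

theorem cSS_self {S : HE ℤ → HE ℤ → ℝ} (hS : ∀ h h', S h h' = -S h' h) (v : ℤ × ℤ) :
    ∑ b, ∑ b', S (v, b) (v, b') = 0 := by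
  have h1 : ∑ b : Fin 4, ∑ b' : Fin 4, S (v, b) (v, b') =
      -∑ b : Fin 4, ∑ b' : Fin 4, S (v, b) (v, b') := by
    conv_lhs => rw [Finset.sum_comm]
    rw [← Finset.sum_neg_distrib]
    refine Finset.sum_congr rfl fun b _ => ?_
    rw [← Finset.sum_neg_distrib]
    exact Finset.sum_congr rfl fun b' _ => hS _ _
  linarith

/-- **`PlusIn`** from the family limits -/
theorem plusIn {D : Set ℂ} (hD : IsC2JordanDomain D) {x : Fin n → ℂ} (hx : x ∈ Conf n D)
    {bl : ℂ → ℂ → LinearMap.BilinForm ℝ ℂ} {rg : ℂ → LinearMap.BilinForm ℝ ℂ}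
    (skew : ∀ z z', z ∈ D → z' ∈ D → z ≠ z' → ∀ c c', bl z z' c c' = -bl z' z c' c)
    (alt : ∀ z, z ∈ D → ∀ c, rg z c c = 0)
    (hK : ∀ (w : ℝ → BW ℤ) (X : ℝ → Fin n → ℤ × ℤ), BgFam D w → LApp X x → KerF D x w X bl rg)
    {c1 c2 : ℝ} {g : Fin n → ℂ → ℂ}
    (hB : ∀ (w : ℝ → BW ℤ) (X : ℝ → Fin n → ℤ × ℤ), BgFam D w → LApp X x →
      BrF c1 c2 D x w X g) :
    PlusIn D x bl rg (etaOf c1 x g) (bOf c2 x g) where
  off a y V H S hS z z' hz hz' hne hxz hxz' i i' f f' hf hf' := by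
    refine seq_of_fam (α := LD5 n) (fun t e => t⁻¹ * (kap x e.X z e.f * kap x e.X z' e.f' *
      e.S (e.f, i) (e.f', i'))) (dflt D x z z') a H.pos H.lim
      (fun k => ⟨y k, V k, S k, f k, f' k⟩) fun d hd => ?_
    have G := good_of hD hx H hS hf hf' hd
    exact (hK _ _ G.bg G.app).off _ G.cov z z' hz hz' hne hxz hxz' i i' _ _ G.lf G.lf'
  diag a y V H S hS z hz hxz j i i' f hf := by
    refine seq_of_fam (α := LD5 n) (fun t e => t⁻¹ * (kap x e.X z (hb e.f j i).1 *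
      kap x e.X z (hb e.f j i').1 * e.S (hb e.f j i) (hb e.f j i') - cB i i'))
      (dflt D x z z) a H.pos H.lim (fun k => ⟨y k, V k, S k, f k, f k⟩) fun d hd => ?_
    have G := good_of hD hx H hS hf hf hd
    exact (hK _ _ G.bg G.app).diag _ G.cov z hz hxz _ G.lf j i i'
  skew z z' hz hz' hne _ _ c c' := skew z z' hz hz' hne c c'
  alt z hz _ c := alt z hz c
  eta a y V H S hS z hz hxz j i f hf := by
    have h := seq_of_fam (α := LD5 n) (fun t e => t ^ (-(1 : ℝ) / 2) *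
      (kap x e.X z e.f * kapX x e.X j * cS e.S (e.f, i) (e.X j)))
      (dflt D x z z) a H.pos H.lim (fun k => ⟨y k, V k, S k, f k, f k⟩)
      (L := etaOf c1 x g j z (edir i)) (fun d hd => by
        have G := good_of hD hx H hS hf hf hd
        exact (hB _ _ G.bg G.app).eta _ G.cov z hz hxz j i _ G.lf)
    refine h.congr fun k => ?_
    rw [sqrt_inv_eq (H.pos k)]
    rfl
  bb a y V H S hS i j := by
    by_cases hij : i = j
    · subst hij
      have e : bOf c2 x g i i = 0 := by unfold bOf; rw [if_pos rfl]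
      rw [e]
      refine tendsto_const_nhds.congr fun k => ?_
      rw [cSS_self (hS k).skew, mul_zero]
    · have h := seq_of_fam (α := LD5 n) (fun t e =>
        kapX x e.X i * kapX x e.X j * cSS e.S (e.X i) (e.X j))
        (dflt D x (x i) (x i)) a H.pos H.lim (fun k => ⟨y k, V k, S k, V k i, V k i⟩)
        (L := c2 * (g j (x i) / (Complex.I * gsrc x i)).re) (fun d hd => by
          have G := good_of hD hx H hS (H.tip i) (H.tip i) hd
          exact (hB _ _ G.bg G.app).cor _ G.cov j i (Ne.symm hij))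
      have e : bOf c2 x g i j = c2 * (g j (x i) / (Complex.I * gsrc x i)).re := by
        unfold bOf; rw [if_neg hij]
      rw [e]
      exact h

/-! ### covariance -/

/-- relation of the normalised spinors under a conformal map -/
theorem br_rel (hU : Uniq) {D E : Set ℂ} {r M : ℝ} (hD : Geo.CD D r M) {φ : ℂ → ℂ}
    (h : Tp416.BiL D E φ) {x : Fin n → ℂ} (hx : x ∈ Conf n D) {q : ℂ → ℂ} (hq : IsQ D φ x q)
    {g g' : Fin n → ℂ → ℂ} (hg : ∀ i, IsBrN D x i (g i))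
    (hg' : ∀ i, IsBrN E (fun k => φ (x k)) i (g' i)) :
    ∃ ε : Fin n → ℝ, (∀ i, ε i ^ 2 = 1) ∧ (∀ i, ∀ z ∈ D, g i z = ε i * (q z * g' i (φ z))) ∧
      ∀ i, gsrc x i = ε i * (q (x i) * gsrc (fun k => φ (x k)) i) := by
  have key : ∀ i, ∃ s : ℝ, s ^ 2 = 1 ∧ ∀ z ∈ D, g i z = s * (q z * g' i (φ z)) := by
    intro i
    rcases IsBr.unique hU hD hx.2 hx.1 (hg i).br (br_pull h hx.1 hq (hg' i).br) with he | he
    · exact ⟨1, by norm_num, fun z hz => by rw [he hz]; push_cast; ring⟩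
    · exact ⟨-1, by norm_num, fun z hz => by rw [he hz]; push_cast; ring⟩
  choose ε hε h1 using key
  refine ⟨ε, hε, h1, fun i => ?_⟩
  rw [← (hg i).nrm, h1 i (x i) (hx.1 i), ← (hg' i).nrm]

/-- **`PlusCov`** -/
theorem plusCov (hU : Uniq) {D D' : Set ℂ} (hD : IsC2JordanDomain D) (hD' : IsC2JordanDomain D')
    {φ : ℂ → ℂ} (hφ : DifferentiableOn ℂ φ D) (hbij : BijOn φ D D') {x : Fin n → ℂ}
    (hx : x ∈ Conf n D) (hne : D.Nonempty) {bl bl' : ℂ → ℂ → LinearMap.BilinForm ℝ ℂ}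
    {rg rg' : ℂ → LinearMap.BilinForm ℝ ℂ} {G G' : ℂ → ℂ → ℂ → ℂ}
    (hG : KerFam D x G) (hG' : KerFam D' (fun k => φ (x k)) G')
    (hbl : ∀ z ∈ D, ∀ y ∈ D, z ≠ y → (∀ i, x i ≠ z) → (∀ i, x i ≠ y) → ∀ c c',
        bl z y c c' = kerB x G z y c c' / (2 * Real.pi * Latx683.xc))
    (hrg : ∀ y ∈ D, (∀ i, x i ≠ y) → ∀ c c',
        rg y c c' = kerR x G y c c' / (2 * Real.pi * Latx683.xc))
    (hbl' : ∀ z ∈ D', ∀ y ∈ D', z ≠ y → (∀ i, φ (x i) ≠ z) → (∀ i, φ (x i) ≠ y) → ∀ c c',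
        bl' z y c c' = kerB (fun k => φ (x k)) G' z y c c' / (2 * Real.pi * Latx683.xc))
    (hrg' : ∀ y ∈ D', (∀ i, φ (x i) ≠ y) → ∀ c c',
        rg' y c c' = kerR (fun k => φ (x k)) G' y c c' / (2 * Real.pi * Latx683.xc))
    {g g' : Fin n → ℂ → ℂ} (hg : ∀ i, IsBrN D x i (g i))
    (hg' : ∀ i, IsBrN D' (fun k => φ (x k)) i (g' i)) (c1 c2 : ℝ) :
    PlusCov D x φ bl bl' rg rg' (etaOf c1 x g) (etaOf c1 (fun k => φ (x k)) g') (bOf c2 x g)
      (bOf c2 (fun k => φ (x k)) g') := by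
  obtain ⟨r, M, h, hb⟩ := biL_of hD hD' hne hφ hbij
  obtain ⟨q, hq⟩ := exists_q h hφ hbij.injOn x hx.1
  obtain ⟨ε, hε, h1, h2⟩ := br_rel hU h hb hx hq hg hg'
  have hne' : ∀ z ∈ D, (∀ i, x i ≠ z) → ∀ i, φ (x i) ≠ φ z := fun z hz hxz i e =>
    hxz i (hbij.injOn (hx.1 i) hz e)
  refine ⟨rr φ x q, ε, hε, fun z hz hxz => rr_sq hq h.isOpen hφ hbij.injOn hx.1 hz hxz,
    ?_, ?_, ?_, ?_⟩
  · intro z z' hz hz' hzz hxz hxz' c c'
    rw [hbl z hz z' hz' hzz hxz hxz', hbl' (φ z) (hbij.mapsTo hz) (φ z') (hbij.mapsTo hz')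
      (fun e => hzz (hbij.injOn hz hz' e)) (hne' z hz hxz) (hne' z' hz' hxz'),
      kerB_cov hU h hb hx.2 hx.1 hq hG hG' hz hz' hzz hxz hxz']
  · intro z hz hxz c c'
    rw [hrg z hz hxz, hrg' (φ z) (hbij.mapsTo hz) (hne' z hz hxz),
      kerR_cov hU h hb hx.2 hx.1 hq hG hG' hz hxz]
  · intro j z hz hxz c
    have ha : rXa x z ≠ 0 := rXa_ne hxz
    have hb' : rXa (fun k => φ (x k)) (φ z) ≠ 0 := rXa_ne (hne' z hz hxz)
    show c1 * (c * e8 * (g j z / rXa x z)).re =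
      ε j * (c1 * (rr φ x q z * c * e8 * (g' j (φ z) / rXa (fun k => φ (x k)) (φ z))).re)
    have e : c * e8 * (g j z / rXa x z) =
        (ε j : ℂ) * (rr φ x q z * c * e8 * (g' j (φ z) / rXa (fun k => φ (x k)) (φ z))) := by
      rw [h1 j z hz]
      unfold rr
      field_simp
    rw [e, Complex.re_ofReal_mul]
    ring
  · intro i j
    by_cases hij : i = j
    · unfold bOf
      rw [if_pos hij, if_pos hij, mul_zero]
    · have hq0 : q (x i) ≠ 0 := hq.ne _ (hx.1 i)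
      have hgs : gsrc (fun k => φ (x k)) i ≠ 0 := by
        have hw : U3x719.wX (fun k => φ (x k)) i ≠ 0 := by
          refine U3Covx67.wX_ne ?_ i
          intro a b hab
          exact hx.2 (hbij.injOn (hx.1 a) (hx.1 b) hab)
        intro h0
        have := gsrc_sq (fun k => φ (x k)) i
        rw [h0] at this
        have h3 : Complex.I * U3x719.wX (fun k => φ (x k)) i ≠ 0 :=
          mul_ne_zero Complex.I_ne_zero hw
        exact h3 (by rw [← this]; ring)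
      have hεi : (ε i : ℂ) ≠ 0 := by
        intro h0
        have h3 : ε i = 0 := by exact_mod_cast h0
        have := hε i
        rw [h3] at this
        norm_num at this
      have hεi2 : (ε i : ℂ) * (ε i : ℂ) = 1 := by
        have := hε i
        rw [pow_two] at this
        exact_mod_cast this
      have e : g j (x i) / (Complex.I * gsrc x i) =
          ((ε i * ε j : ℝ) : ℂ) * (g' j (φ (x i)) / (Complex.I * gsrc (fun k => φ (x k)) i)) := by
        rw [h1 j (x i) (hx.1 i), h2 i]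
        have hI := Complex.I_ne_zero
        push_cast
        field_simp
        linear_combination (-(ε j : ℂ) * g' j (φ (x i))) * hεi2
      unfold bOf
      rw [if_neg hij, if_neg hij, e, Complex.re_ofReal_mul]
      ring

end Crest.Agent.R165.UPlusInx641
end
end

-- ▼ part R165/Fr1_802
section

/-!
# Row 165 (S0250), leaf FREE TRANSFER, part 1 (helper802): the free / plus duality with spins

Kramers–Wannier duality at the level of the half-edge operator, with spin insertions.  Primal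
background: weights `s z * y z 0` on the horizontal bonds, `y z 1` on the vertical bonds
(`s = ±1` arbitrary: in the ray gauge `s z = -1` to the right of the insertions).
Blocks of the dual system are the primal sites `v`, the dual vertex `v` is the lower left corner of
the block `v`.

* `wd y s` : dual background, weights `(1-y)/(1+y)`, the same signs;
* `du y s φ` : dual field;
* `Aop_du` : `Aop (wd y s) (du y s φ)` in terms of `Aop (wp y s) φ`; at the sites where the sign of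
  the horizontal bonds changes ONE corner relation (south-west) is flipped;
* `inv_S` ... : inversion, `nsq_hor`, `nsq_ver` : norms.
-/

set_option autoImplicit false

noncomputable section

namespace Crest.Agent.R165.Fr1x802

open Crest.Agent.R165.J1ax606 (HE EG)
open Crest.Agent.R165.J2ax606 (bar ed sg a4)

/-- signed weights of the primal bonds `(z, j) = {z, z + e_j}` (as in `Lat_683`) -/
abbrev BW : Type := ℤ × ℤ → Fin 2 → ℝ

/-- the weights as a function on edges (as in `J2a_606`) -/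
def cw (w : BW) : EG ℤ → ℝ := fun e => w e.1 e.2

/-- the half-edge operator of `J2a_606` -/
def Aop (w : BW) (φ : HE ℤ → ℝ) (h : HE ℤ) : ℝ := J2ax606.Aop (cw w) φ h

/-- weight of the vertical bond between the faces `f` and `f + e₁` -/
def yE (w : BW) (f : ℤ × ℤ) : ℝ := w (f.1 + 1, f.2) 1

/-- weight of the horizontal bond between the faces `f` and `f + e₂` -/
def yN (w : BW) (f : ℤ × ℤ) : ℝ := w (f.1, f.2 + 1) 0

theorem Aop_S (w : BW) (φ : HE ℤ → ℝ) (f : ℤ × ℤ) : Aop w φ (f, 0) =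
    φ (f, 1) + φ (f, 2) + φ (f, 3) + yN w (f.1, f.2 - 1) * φ ((f.1, f.2 - 1), 2) := by
  have e : f - (0, 1) = (f.1, f.2 - 1) := by ext <;> simp
  simp [Aop, J2ax606.Aop, Fin.sum_univ_four, a4, bar, ed, sg, cw, yN, e]

theorem Aop_E (w : BW) (φ : HE ℤ → ℝ) (f : ℤ × ℤ) : Aop w φ (f, 1) =
    -φ (f, 0) + φ (f, 2) + φ (f, 3) + yE w f * φ ((f.1 + 1, f.2), 3) := by
  have e : f + (1, 0) = (f.1 + 1, f.2) := by ext <;> simp
  simp [Aop, J2ax606.Aop, Fin.sum_univ_four, a4, bar, ed, sg, cw, yE, e]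

theorem Aop_N (w : BW) (φ : HE ℤ → ℝ) (f : ℤ × ℤ) : Aop w φ (f, 2) =
    -φ (f, 0) - φ (f, 1) + φ (f, 3) - yN w f * φ ((f.1, f.2 + 1), 0) := by
  have e : f + (0, 1) = (f.1, f.2 + 1) := by ext <;> simp
  simp [Aop, J2ax606.Aop, Fin.sum_univ_four, a4, bar, ed, sg, cw, yN, e]
  ring

theorem Aop_W (w : BW) (φ : HE ℤ → ℝ) (f : ℤ × ℤ) : Aop w φ (f, 3) =
    -φ (f, 0) - φ (f, 1) - φ (f, 2) - yE w (f.1 - 1, f.2) * φ ((f.1 - 1, f.2), 1) := by
  have e : f - (1, 0) = (f.1 - 1, f.2) := by ext <;> simp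
  simp [Aop, J2ax606.Aop, Fin.sum_univ_four, a4, bar, ed, sg, cw, yE, e]
  ring

/-- primal background: signs on the horizontal bonds -/
def wp (y : BW) (s : ℤ × ℤ → ℝ) : BW := fun z j => if j = 0 then s z * y z 0 else y z 1

/-- dual weight -/
def st (t : ℝ) : ℝ := (1 - t) / (1 + t)

/-- dual moduli (bonds indexed in the dual system: the block `v` of the dual system is the
primal site `v`, its lower left corner is the dual vertex `v`) -/
def ys (y : BW) : BW := fun z j => if j = 0 then st (y (z.1, z.2 - 1) 1) else st (y (z.1 - 1, z.2) 0)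

/-- dual background: the same signs -/
def wd (y : BW) (s : ℤ × ℤ → ℝ) : BW := wp (ys y) s

/-- dual field -/
def du (y : BW) (s : ℤ × ℤ → ℝ) (φ : HE ℤ → ℝ) : HE ℤ → ℝ := fun h =>
  let v := h.1
  match h.2 with
  | 0 => -(s v * ((1 + y (v.1, v.2 - 1) 1) / 2) *
      (φ ((v.1 - 1, v.2 - 1), 1) + φ ((v.1, v.2 - 1), 3)))
  | 1 => ((1 + y v 0) / 2) * (φ (v, 0) - s v * φ ((v.1, v.2 - 1), 2))
  | 2 => -(((1 + y v 1) / 2) * (φ (v, 3) - φ ((v.1 - 1, v.2), 1)))
  | 3 => ((1 + y (v.1 - 1, v.2) 0) / 2) *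
      (s (v.1 - 1, v.2) * φ ((v.1 - 1, v.2 - 1), 2) + φ ((v.1 - 1, v.2), 0))

section eqs
variable (y : BW) (s : ℤ × ℤ → ℝ) (φ : HE ℤ → ℝ) (v : ℤ × ℤ)

theorem du_S : du y s φ (v, 0) = -(s v * ((1 + y (v.1, v.2 - 1) 1) / 2) *
      (φ ((v.1 - 1, v.2 - 1), 1) + φ ((v.1, v.2 - 1), 3))) := rfl
theorem du_E : du y s φ (v, 1) = ((1 + y v 0) / 2) * (φ (v, 0) - s v * φ ((v.1, v.2 - 1), 2)) := rfl
theorem du_N : du y s φ (v, 2) = -(((1 + y v 1) / 2) * (φ (v, 3) - φ ((v.1 - 1, v.2), 1))) := rfl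
theorem du_W : du y s φ (v, 3) = ((1 + y (v.1 - 1, v.2) 0) / 2) *
      (s (v.1 - 1, v.2) * φ ((v.1 - 1, v.2 - 1), 2) + φ ((v.1 - 1, v.2), 0)) := rfl

theorem yE_wp (f : ℤ × ℤ) : yE (wp y s) f = y (f.1 + 1, f.2) 1 := by simp [yE, wp]
theorem yN_wp (f : ℤ × ℤ) : yN (wp y s) f = s (f.1, f.2 + 1) * y (f.1, f.2 + 1) 0 := by
  simp [yN, wp]
theorem yE_wd (f : ℤ × ℤ) : yE (wd y s) f = st (y f 0) := by simp [yE, wd, wp, ys]
theorem yN_wd (f : ℤ × ℤ) : yN (wd y s) f = s (f.1, f.2 + 1) * st (y f 1) := by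
  simp [yN, wd, wp, ys]

end eqs

/-- the four corner residues of the dual block `v`, from `g = A φ` -/
def r1 (g : HE ℤ → ℝ) (v : ℤ × ℤ) : ℝ := g (v, 0) + g (v, 3)
def r2 (g : HE ℤ → ℝ) (v : ℤ × ℤ) : ℝ := g ((v.1 - 1, v.2), 0) - g ((v.1 - 1, v.2), 1)
def r3 (g : HE ℤ → ℝ) (v : ℤ × ℤ) : ℝ := g ((v.1 - 1, v.2 - 1), 1) - g ((v.1 - 1, v.2 - 1), 2)
def r4 (g : HE ℤ → ℝ) (v : ℤ × ℤ) : ℝ := g ((v.1, v.2 - 1), 2) - g ((v.1, v.2 - 1), 3)

/-- the two values of the south-west corner of a block -/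
def dS (w : BW) (ψ : HE ℤ → ℝ) (v : ℤ × ℤ) : ℝ :=
  ψ (v, 0) - yN w (v.1, v.2 - 1) * ψ ((v.1, v.2 - 1), 2)
def dW (w : BW) (ψ : HE ℤ → ℝ) (v : ℤ × ℤ) : ℝ :=
  ψ (v, 3) - yE w (v.1 - 1, v.2) * ψ ((v.1 - 1, v.2), 1)

theorem st_mul {t : ℝ} (h : 1 + t ≠ 0) : st t * (1 + t) = 1 - t := by
  unfold st; field_simp

section main
variable (y : BW) (s : ℤ × ℤ → ℝ) (φ : HE ℤ → ℝ) (v : ℤ × ℤ)

/-- north-east corner of the block `v` -/
theorem corner_NE (hR : 1 + y v 0 ≠ 0) (hU : 1 + y v 1 ≠ 0) (hs' : s (v.1, v.2 + 1) ^ 2 = 1) :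
    (du y s φ (v, 1) + yE (wd y s) v * du y s φ ((v.1 + 1, v.2), 3)) +
    (du y s φ (v, 2) + yN (wd y s) v * du y s φ ((v.1, v.2 + 1), 0))
      = -r1 (Aop (wp y s) φ) v := by
  have e1 := st_mul hR
  have e2 := st_mul hU
  simp only [du_E, du_W, du_N, du_S, yE_wd, yN_wd, r1, Aop_S, Aop_W, yE_wp, yN_wp,
    add_sub_cancel_right, sub_add_cancel]
  linear_combination ((s v * φ ((v.1, v.2 - 1), 2) + φ (v, 0)) / 2) * e1
    - ((φ ((v.1 - 1, v.2), 1) + φ (v, 3)) / 2) * e2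
    - (st (y v 1) * (1 + y v 1) / 2 * (φ ((v.1 - 1, v.2), 1) + φ (v, 3))) * hs'

/-- north-west corner of the block `v` -/
theorem corner_NW (hL : 1 + y (v.1 - 1, v.2) 0 ≠ 0) (hU : 1 + y v 1 ≠ 0)
    (hs' : s (v.1, v.2 + 1) ^ 2 = 1) :
    (du y s φ (v, 2) - yN (wd y s) v * du y s φ ((v.1, v.2 + 1), 0)) +
    (du y s φ (v, 3) + yE (wd y s) (v.1 - 1, v.2) * du y s φ ((v.1 - 1, v.2), 1))
      = r2 (Aop (wp y s) φ) v := by
  have e1 := st_mul hL
  have e2 := st_mul hU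
  simp only [du_E, du_W, du_N, du_S, yE_wd, yN_wd, r2, Aop_S, Aop_E, yE_wp, yN_wp,
    add_sub_cancel_right, sub_add_cancel]
  linear_combination ((φ ((v.1 - 1, v.2), 0) - s (v.1 - 1, v.2) * φ ((v.1 - 1, v.2 - 1), 2)) / 2) * e1
    + ((φ ((v.1 - 1, v.2), 1) + φ (v, 3)) / 2) * e2
    + (st (y v 1) * (1 + y v 1) / 2 * (φ ((v.1 - 1, v.2), 1) + φ (v, 3))) * hs'

/-- south-west corner of the block `v`: here the sign of the horizontal bonds matters -/
theorem corner_SW (hL : 1 + y (v.1 - 1, v.2) 0 ≠ 0) (hD : 1 + y (v.1, v.2 - 1) 1 ≠ 0)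
    (hs : s (v.1 - 1, v.2) ^ 2 = 1) (hs' : s v ^ 2 = 1) :
    dW (wd y s) (du y s φ) v - s (v.1 - 1, v.2) * s v * dS (wd y s) (du y s φ) v
      = s (v.1 - 1, v.2) * r3 (Aop (wp y s) φ) v := by
  have e1 := st_mul hL
  have e2 := st_mul hD
  simp only [dS, dW, du_E, du_W, du_N, du_S, yE_wd, yN_wd, r3, Aop_N, Aop_E, yE_wp, yN_wp,
    sub_add_cancel]
  linear_combination (-(φ ((v.1 - 1, v.2), 0) - s (v.1 - 1, v.2) * φ ((v.1 - 1, v.2 - 1), 2)) / 2) * e1
    - (s (v.1 - 1, v.2) * (φ ((v.1, v.2 - 1), 3) - φ ((v.1 - 1, v.2 - 1), 1)) / 2) * e2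
    - (y (v.1 - 1, v.2) 0 * φ ((v.1 - 1, v.2), 0)) * hs
    + (s (v.1 - 1, v.2) * (((1 + y (v.1, v.2 - 1) 1) / 2) *
        (φ ((v.1 - 1, v.2 - 1), 1) + φ ((v.1, v.2 - 1), 3))
      - st (y (v.1, v.2 - 1) 1) * ((1 + y (v.1, v.2 - 1) 1) / 2) *
        (φ ((v.1, v.2 - 1), 3) - φ ((v.1 - 1, v.2 - 1), 1)))) * hs'

/-- south-east corner of the block `v` -/
theorem corner_SE (hR : 1 + y v 0 ≠ 0) (hD : 1 + y (v.1, v.2 - 1) 1 ≠ 0)
    (hs' : s v ^ 2 = 1) :
    (du y s φ (v, 0) + yN (wd y s) (v.1, v.2 - 1) * du y s φ ((v.1, v.2 - 1), 2)) +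
    (du y s φ (v, 1) - yE (wd y s) v * du y s φ ((v.1 + 1, v.2), 3))
      = -(s v * r4 (Aop (wp y s) φ) v) := by
  have e1 := st_mul hR
  have e2 := st_mul hD
  simp only [du_E, du_W, du_N, du_S, yE_wd, yN_wd, r4, Aop_N, Aop_W, yE_wp, yN_wp,
    add_sub_cancel_right, sub_add_cancel]
  linear_combination (-((s v * φ ((v.1, v.2 - 1), 2) + φ (v, 0))) / 2) * e1
    - (s v * (φ ((v.1, v.2 - 1), 3) - φ ((v.1 - 1, v.2 - 1), 1)) / 2) * e2
    - (y v 0 * φ (v, 0)) * hs'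

/-- the transformed source -/
def Gd (s : ℤ × ℤ → ℝ) (g : HE ℤ → ℝ) : HE ℤ → ℝ := fun h =>
  let v := h.1
  match h.2 with
  | 0 => (-(s v * r4 g v) - r1 g v + r2 g v + s (v.1 - 1, v.2) * r3 g v) / 2
  | 1 => (s v * r4 g v - r1 g v + r2 g v + s (v.1 - 1, v.2) * r3 g v) / 2
  | 2 => (s v * r4 g v + r1 g v + r2 g v + s (v.1 - 1, v.2) * r3 g v) / 2
  | 3 => (s v * r4 g v + r1 g v - r2 g v + s (v.1 - 1, v.2) * r3 g v) / 2

theorem Gd_S (g : HE ℤ → ℝ) : Gd s g (v, 0) =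
    (-(s v * r4 g v) - r1 g v + r2 g v + s (v.1 - 1, v.2) * r3 g v) / 2 := rfl
theorem Gd_E (g : HE ℤ → ℝ) : Gd s g (v, 1) =
    (s v * r4 g v - r1 g v + r2 g v + s (v.1 - 1, v.2) * r3 g v) / 2 := rfl
theorem Gd_N (g : HE ℤ → ℝ) : Gd s g (v, 2) =
    (s v * r4 g v + r1 g v + r2 g v + s (v.1 - 1, v.2) * r3 g v) / 2 := rfl
theorem Gd_W (g : HE ℤ → ℝ) : Gd s g (v, 3) =
    (s v * r4 g v + r1 g v - r2 g v + s (v.1 - 1, v.2) * r3 g v) / 2 := rfl

/-- hypotheses on the background: weights `≠ -1`, signs -/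
structure OK (y : BW) (s : ℤ × ℤ → ℝ) : Prop where
  ne : ∀ z j, 1 + y z j ≠ 0
  sg : ∀ z, s z ^ 2 = 1

/-- **duality of the half-edge operators, with spin insertions** -/
theorem Aop_du (h : OK y s) (v : ℤ × ℤ) (i : Fin 4) :
    Aop (wd y s) (du y s φ) (v, i) = Gd s (Aop (wp y s) φ) (v, i)
      - (1 - s (v.1 - 1, v.2) * s v) * dS (wd y s) (du y s φ) v / 2 := by
  have hNE := corner_NE y s φ v (h.ne _ _) (h.ne _ _) (h.sg _)
  have hNW := corner_NW y s φ v (h.ne _ _) (h.ne _ _) (h.sg _)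
  have hSW := corner_SW y s φ v (h.ne _ _) (h.ne _ _) (h.sg _) (h.sg _)
  have hSE := corner_SE y s φ v (h.ne _ _) (h.ne _ _) (h.sg _)
  fin_cases i
  · show Aop (wd y s) (du y s φ) (v, 0) = Gd s (Aop (wp y s) φ) (v, 0) - _
    rw [Aop_S, Gd_S]
    simp only [dS, dW] at hSW ⊢
    linear_combination (hSE + hNE + hNW + hSW) / 2
  · show Aop (wd y s) (du y s φ) (v, 1) = Gd s (Aop (wp y s) φ) (v, 1) - _
    rw [Aop_E, Gd_E]
    simp only [dS, dW] at hSW ⊢
    linear_combination (-hSE + hNE + hNW + hSW) / 2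
  · show Aop (wd y s) (du y s φ) (v, 2) = Gd s (Aop (wp y s) φ) (v, 2) - _
    rw [Aop_N, Gd_N]
    simp only [dS, dW] at hSW ⊢
    linear_combination (-hSE - hNE + hNW + hSW) / 2
  · show Aop (wd y s) (du y s φ) (v, 3) = Gd s (Aop (wp y s) φ) (v, 3) - _
    rw [Aop_W, Gd_W]
    simp only [dS, dW] at hSW ⊢
    linear_combination (-hSE - hNE - hNW + hSW) / 2

/-- at a flipped corner the average corner value is given by the source -/
theorem flip_avg (h : OK y s) (v : ℤ × ℤ) (hv : s (v.1 - 1, v.2) * s v = -1) :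
    dW (wd y s) (du y s φ) v + dS (wd y s) (du y s φ) v
      = s (v.1 - 1, v.2) * r3 (Aop (wp y s) φ) v := by
  have hSW := corner_SW y s φ v (h.ne _ _) (h.ne _ _) (h.sg _) (h.sg _)
  rw [hv] at hSW
  linear_combination hSW

/-! ### inversion -/

theorem inv_S : (1 + y v 0) * φ (v, 0)
    = du y s φ (v, 1) + du y s φ ((v.1 + 1, v.2), 3) := by
  simp only [du_E, du_W, add_sub_cancel_right]; ring

theorem inv_N (h : OK y s) : (1 + y v 0) * φ ((v.1, v.2 - 1), 2)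
    = s v * (du y s φ ((v.1 + 1, v.2), 3) - du y s φ (v, 1)) := by
  simp only [du_E, du_W, add_sub_cancel_right]
  linear_combination (-(1 + y v 0) * φ ((v.1, v.2 - 1), 2)) * h.sg v

theorem inv_W (h : OK y s) : (1 + y v 1) * φ (v, 3)
    = -(du y s φ (v, 2) + s (v.1, v.2 + 1) * du y s φ ((v.1, v.2 + 1), 0)) := by
  simp only [du_N, du_S, add_sub_cancel_right]
  linear_combination (-(1 + y v 1) / 2 * (φ ((v.1 - 1, v.2), 1) + φ (v, 3))) * h.sg (v.1, v.2 + 1)

theorem inv_E (h : OK y s) : (1 + y v 1) * φ ((v.1 - 1, v.2), 1)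
    = du y s φ (v, 2) - s (v.1, v.2 + 1) * du y s φ ((v.1, v.2 + 1), 0) := by
  simp only [du_N, du_S, add_sub_cancel_right]
  linear_combination (-(1 + y v 1) / 2 * (φ ((v.1 - 1, v.2), 1) + φ (v, 3))) * h.sg (v.1, v.2 + 1)



end main

end Crest.Agent.R165.Fr1x802
end
end

-- ▼ part R165/Fr2_802
section

/-!
# Row 165 (S0250), leaf FREE TRANSFER, part 2 (helper802): the exact kernel formula

`S` inverse kernel of the (free) background `wp y s` branched at the sites `X`, `Sd` inverse kernel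
with finite columns of the dual (plus type) background `wd y s`, branched at the same vertices `X`.
Corner fields `l_x = (1,1,1,1)` at the block `x`.
* `KL Sd x k = Sd (k, l_x)`, `NN Sd x x' = Sd (l_x, l_x')`
* `psi_eq` : `du (S ·,h') = Sd G_{h'} + ∑ c_i KL (X i)`, `Lc_psi` : the equation for `c`
* `SX` bordered kernel, `psi_SX` : `du (S ·,h') k = ∑ SX k h * G_{h'} h` for `h'` away from `X`.
-/

set_option autoImplicit false
set_option linter.unusedSimpArgs false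

noncomputable section

open Finset

namespace Crest.Agent.R165.Fr2x802

open Crest.Agent.R165.J1ax606 (HE EG)
open Crest.Agent.R165.J2ax606 (IsInv)
open Crest.Agent.R165.J2bx606 (FInv)
open Crest.Agent.R165.Fr1x802

/-- corner value `l_x` -/
def lc (ψ : HE ℤ → ℝ) (x : ℤ × ℤ) : ℝ := ∑ b, ψ (x, b)

/-- `Sd (k, l_x)` -/
def KL (Sd : HE ℤ → HE ℤ → ℝ) (x : ℤ × ℤ) (k : HE ℤ) : ℝ := ∑ b, Sd k (x, b)

/-- `Sd (l_x, l_x')` -/
def NN (Sd : HE ℤ → HE ℤ → ℝ) (x x' : ℤ × ℤ) : ℝ := ∑ b, KL Sd x' (x, b)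

theorem NN_eq (Sd : HE ℤ → HE ℤ → ℝ) (x x' : ℤ × ℤ) :
    NN Sd x x' = ∑ b, ∑ b', Sd (x, b) (x', b') := rfl

theorem NN_anti {Sd : HE ℤ → HE ℤ → ℝ} (h : ∀ a b, Sd a b = -Sd b a) (x x' : ℤ × ℤ) :
    NN Sd x x' = -NN Sd x' x := by
  rw [NN_eq, NN_eq, sum_comm, ← sum_neg_distrib]
  refine sum_congr rfl fun b _ => ?_
  rw [← sum_neg_distrib]
  exact sum_congr rfl fun b' _ => h _ _

/-- backgrounds with insertions: the horizontal sign changes exactly at `X` -/
structure FS (y : BW) (s : ℤ × ℤ → ℝ) {n : ℕ} (X : Fin n → ℤ × ℤ) : Prop extends OK y s where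
  inj : Function.Injective X
  flip : ∀ i, s ((X i).1 - 1, (X i).2) * s (X i) = -1
  noflip : ∀ v, (∀ i, X i ≠ v) → s (v.1 - 1, v.2) * s v = 1

/-- the four corners of a face -/
def Vs (f : ℤ × ℤ) : Finset (ℤ × ℤ) :=
  {f, (f.1 + 1, f.2), (f.1, f.2 + 1), (f.1 + 1, f.2 + 1)}

/-- the transformed source of a half-edge -/
def Gh (s : ℤ × ℤ → ℝ) (h' : HE ℤ) : HE ℤ → ℝ := Gd s (fun h => if h = h' then 1 else 0)

theorem Gd_neg (s : ℤ × ℤ → ℝ) (g : HE ℤ → ℝ) (k : HE ℤ) : Gd s (fun h => -g h) k = -Gd s g k := by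
  obtain ⟨v, i⟩ := k
  fin_cases i
  · show Gd s (fun h => -g h) (v, 0) = -Gd s g (v, 0)
    rw [Gd_S, Gd_S]; simp only [r1, r2, r3, r4]; ring
  · show Gd s (fun h => -g h) (v, 1) = -Gd s g (v, 1)
    rw [Gd_E, Gd_E]; simp only [r1, r2, r3, r4]; ring
  · show Gd s (fun h => -g h) (v, 2) = -Gd s g (v, 2)
    rw [Gd_N, Gd_N]; simp only [r1, r2, r3, r4]; ring
  · show Gd s (fun h => -g h) (v, 3) = -Gd s g (v, 3)
    rw [Gd_W, Gd_W]; simp only [r1, r2, r3, r4]; ring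

theorem r_zero {g : HE ℤ → ℝ} {f v : ℤ × ℤ} (hg : ∀ h, h.1 ≠ f → g h = 0) (hv : v ∉ Vs f) :
    r1 g v = 0 ∧ r2 g v = 0 ∧ r3 g v = 0 ∧ r4 g v = 0 := by
  simp only [Vs, mem_insert, mem_singleton, not_or] at hv
  obtain ⟨h1, h2, h3, h4⟩ := hv
  have e1 : v ≠ f := h1
  have e2 : ((v.1 - 1, v.2) : ℤ × ℤ) ≠ f := fun e => h2 (by rw [← e]; ext <;> simp)
  have e3 : ((v.1 - 1, v.2 - 1) : ℤ × ℤ) ≠ f := fun e => h4 (by rw [← e]; ext <;> simp)
  have e4 : ((v.1, v.2 - 1) : ℤ × ℤ) ≠ f := fun e => h3 (by rw [← e]; ext <;> simp)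
  refine ⟨?_, ?_, ?_, ?_⟩
  · rw [r1, hg _ e1, hg _ e1]; simp
  · rw [r2, hg _ e2, hg _ e2]; simp
  · rw [r3, hg _ e3, hg _ e3]; simp
  · rw [r4, hg _ e4, hg _ e4]; simp

theorem Gd_zero {s : ℤ × ℤ → ℝ} {g : HE ℤ → ℝ} {f v : ℤ × ℤ} (hg : ∀ h, h.1 ≠ f → g h = 0)
    (hv : v ∉ Vs f) (i : Fin 4) : Gd s g (v, i) = 0 := by
  obtain ⟨h1, h2, h3, h4⟩ := r_zero hg hv
  fin_cases i
  · show Gd s g (v, 0) = 0
    rw [Gd_S, h1, h2, h3, h4]; simp
  · show Gd s g (v, 1) = 0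
    rw [Gd_E, h1, h2, h3, h4]; simp
  · show Gd s g (v, 2) = 0
    rw [Gd_N, h1, h2, h3, h4]; simp
  · show Gd s g (v, 3) = 0
    rw [Gd_W, h1, h2, h3, h4]; simp

theorem Gh_zero {s : ℤ × ℤ → ℝ} {h' : HE ℤ} {v : ℤ × ℤ} (hv : v ∉ Vs h'.1) (i : Fin 4) :
    Gh s h' (v, i) = 0 := by
  refine Gd_zero (f := h'.1) (fun h hh => if_neg fun e => hh (by rw [e])) hv i

theorem sum_four {α β : Type*} {n : ℕ} (A : Finset α) (B : Finset β) (f : α → β → Fin n → Fin n → ℝ) :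
    ∑ v ∈ A, ∑ a ∈ B, ∑ i, ∑ j, f v a i j = ∑ i, ∑ j, ∑ v ∈ A, ∑ a ∈ B, f v a i j := by
  have h1 : ∀ v ∈ A, ∑ a ∈ B, ∑ i, ∑ j, f v a i j = ∑ i, ∑ j, ∑ a ∈ B, f v a i j := by
    intro v _
    rw [sum_comm]
    exact sum_congr rfl fun i _ => sum_comm
  rw [sum_congr rfl h1, sum_comm]
  exact sum_congr rfl fun i _ => sum_comm

theorem lc_eq (w : BW) (ψ : HE ℤ → ℝ) (x : ℤ × ℤ) :
    dW w ψ x + dS w ψ x = 2 * lc ψ x + (Aop w ψ (x, 3) - Aop w ψ (x, 0)) := by
  rw [Aop_W, Aop_S, lc, Fin.sum_univ_four, dW, dS]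
  ring

section main
variable {y : BW} {s : ℤ × ℤ → ℝ} {n : ℕ} {X : Fin n → ℤ × ℤ} {S Sd : HE ℤ → HE ℤ → ℝ}

/-- `(Sd G_{h'})(k)` -/
def SG (Sd : HE ℤ → HE ℤ → ℝ) (s : ℤ × ℤ → ℝ) (h' k : HE ℤ) : ℝ :=
  ∑ v ∈ Vs h'.1, ∑ i, Sd k (v, i) * Gh s h' (v, i)

/-- the coefficients -/
def cc (y : BW) (s : ℤ × ℤ → ℝ) (X : Fin n → ℤ × ℤ) (S : HE ℤ → HE ℤ → ℝ) (h' : HE ℤ)
    (i : Fin n) : ℝ := dS (wd y s) (du y s (fun h => S h h')) (X i)

theorem hrow (hF : OK y s) (hS : IsInv (cw (wp y s)) S) (h' : HE ℤ) (v : ℤ × ℤ) (i : Fin 4) :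
    Aop (wd y s) (du y s (fun h => S h h')) (v, i) = -Gh s h' (v, i)
      - (1 - s (v.1 - 1, v.2) * s v) * dS (wd y s) (du y s (fun h => S h h')) v / 2 := by
  rw [Aop_du y s _ hF v i]
  congr 1
  rw [Gh, ← Gd_neg]
  congr 1
  funext h
  have := hS.inv h h'
  change Aop (wp y s) (fun j => S j h') h = _ at this
  rw [this]
  split_ifs <;> simp

/-- **kernel formula, first form** -/
theorem psi_eq (hF : FS y s X) (hd : FInv (cw (wd y s)) Sd) (hS : IsInv (cw (wp y s)) S)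
    (h' k : HE ℤ) :
    du y s (fun h => S h h') k = SG Sd s h' k + ∑ i, cc y s X S h' i * KL Sd (X i) k := by
  classical
  set ψ := du y s (fun h => S h h') with hψ
  set B : Finset (ℤ × ℤ) := (hd.row k).image Prod.fst ∪ (Vs h'.1 ∪ univ.image X) with hB
  have hleft := hd.left ψ k (B ×ˢ (univ : Finset (Fin 4))) (by
    intro h hh
    apply hd.row_spec
    intro hr
    apply hh
    rw [mem_product]
    exact ⟨mem_union_left _ (mem_image_of_mem _ hr), mem_univ _⟩)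
  change ∑ h ∈ B ×ˢ (univ : Finset (Fin 4)), Sd k h * Aop (wd y s) ψ h = -ψ k at hleft
  rw [sum_product] at hleft
  have e1 : ∀ v ∈ B, ∑ i, Sd k (v, i) * Aop (wd y s) ψ (v, i) =
      -(∑ i, Sd k (v, i) * Gh s h' (v, i)) +
        -((1 - s (v.1 - 1, v.2) * s v) * dS (wd y s) ψ v / 2 * KL Sd v k) := by
    intro v _
    have : ∀ i, Aop (wd y s) ψ (v, i) = _ := fun i => hrow hF.toOK hS h' v i
    simp only [this, KL, Fin.sum_univ_four]
    ring
  rw [sum_congr rfl e1, sum_add_distrib, sum_neg_distrib] at hleft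
  have e2 : ∑ v ∈ B, ∑ i, Sd k (v, i) * Gh s h' (v, i) = SG Sd s h' k := by
    symm
    apply sum_subset
    · rw [hB]
      exact subset_union_left.trans subset_union_right
    · intro v _ hv
      refine sum_eq_zero fun i _ => ?_
      rw [Gh_zero hv, mul_zero]
  have e3 : ∑ v ∈ B, -((1 - s (v.1 - 1, v.2) * s v) * dS (wd y s) ψ v / 2 * KL Sd v k) =
      ∑ i, -(cc y s X S h' i * KL Sd (X i) k) := by
    have e4 : ∑ v ∈ B, -((1 - s (v.1 - 1, v.2) * s v) * dS (wd y s) ψ v / 2 * KL Sd v k) =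
        ∑ v ∈ univ.image X, -((1 - s (v.1 - 1, v.2) * s v) * dS (wd y s) ψ v / 2 * KL Sd v k) := by
      symm
      apply sum_subset
      · rw [hB]
        exact subset_union_right.trans subset_union_right
      · intro v _ hv
        rw [hF.noflip v (fun i e => hv (by rw [← e]; exact mem_image_of_mem _ (mem_univ _)))]
        simp
    rw [e4, sum_image (fun i _ j _ h => hF.inj h)]
    refine sum_congr rfl fun i _ => ?_
    rw [hF.flip i]
    unfold cc
    ring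
  rw [e2, e3, sum_neg_distrib] at hleft
  linarith

/-- the corner value at an insertion -/
theorem lc_du (hF : FS y s X) (hS : IsInv (cw (wp y s)) S) (h' : HE ℤ) (j : Fin n)
    (hX : X j ∉ Vs h'.1) : lc (du y s (fun h => S h h')) (X j) = 0 := by
  have h1 := lc_eq (wd y s) (du y s (fun h => S h h')) (X j)
  rw [flip_avg y s _ hF.toOK (X j) (hF.flip j), hrow hF.toOK hS, hrow hF.toOK hS, Gh_zero hX,
    Gh_zero hX] at h1
  have h2 : r3 (Aop (wp y s) (fun h => S h h')) (X j) = 0 := by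
    have e : Aop (wp y s) (fun h => S h h') = fun h => if h = h' then (-1 : ℝ) else 0 :=
      funext fun h => hS.inv h h'
    rw [e]
    exact (r_zero (f := h'.1) (fun h hh => if_neg fun e => hh (by rw [e])) hX).2.2.1
  rw [h2] at h1
  linarith

/-- the equation for the coefficients -/
theorem lc_psi (hF : FS y s X) (hd : FInv (cw (wd y s)) Sd) (hS : IsInv (cw (wp y s)) S)
    (h' : HE ℤ) (j : Fin n) (hX : X j ∉ Vs h'.1) :
    ∑ i, NN Sd (X j) (X i) * cc y s X S h' i =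
      ∑ v ∈ Vs h'.1, ∑ i, KL Sd (X j) (v, i) * Gh s h' (v, i) := by
  have h1 := lc_du hF hS h' j hX
  rw [lc] at h1
  simp only [psi_eq hF hd hS h'] at h1
  rw [sum_add_distrib] at h1
  have h2 : ∑ b, SG Sd s h' (X j, b) = -∑ v ∈ Vs h'.1, ∑ i, KL Sd (X j) (v, i) * Gh s h' (v, i) := by
    unfold SG KL
    rw [sum_comm, ← sum_neg_distrib]
    refine sum_congr rfl fun v _ => ?_
    rw [sum_comm, ← sum_neg_distrib]
    refine sum_congr rfl fun i _ => ?_
    rw [sum_mul, ← sum_neg_distrib]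
    refine sum_congr rfl fun b _ => ?_
    rw [hd.anti (X j, b) (v, i)]
    ring
  have h3 : ∑ b, ∑ i, cc y s X S h' i * KL Sd (X i) (X j, b) =
      ∑ i, NN Sd (X j) (X i) * cc y s X S h' i := by
    rw [sum_comm]
    refine sum_congr rfl fun i _ => ?_
    rw [← mul_sum, mul_comm]
    rfl
  rw [h2, h3] at h1
  linarith

/-- the matrix of the branch points -/
def BM (Sd : HE ℤ → HE ℤ → ℝ) (X : Fin n → ℤ × ℤ) : Matrix (Fin n) (Fin n) ℝ :=
  Matrix.of fun i j => NN Sd (X i) (X j)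

/-- the bordered kernel -/
def SX (Sd : HE ℤ → HE ℤ → ℝ) (X : Fin n → ℤ × ℤ) (k h : HE ℤ) : ℝ :=
  Sd k h + ∑ i, ∑ j, KL Sd (X i) k * (BM Sd X)⁻¹ i j * KL Sd (X j) h

/-- **kernel formula**: sources away from `X` -/
theorem psi_SX (hF : FS y s X) (hd : FInv (cw (wd y s)) Sd) (hS : IsInv (cw (wp y s)) S)
    (hdet : IsUnit (BM Sd X).det) (h' k : HE ℤ) (hX' : ∀ i, (X i) ∉ Vs h'.1) :
    du y s (fun h => S h h') k =
      ∑ v ∈ Vs h'.1, ∑ i, SX Sd X k (v, i) * Gh s h' (v, i) := by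
  classical
  have hc : cc y s X S h' = (BM Sd X)⁻¹.mulVec fun j =>
      ∑ v ∈ Vs h'.1, ∑ i, KL Sd (X j) (v, i) * Gh s h' (v, i) := by
    have h1 : (BM Sd X).mulVec (cc y s X S h') = fun j =>
        ∑ v ∈ Vs h'.1, ∑ i, KL Sd (X j) (v, i) * Gh s h' (v, i) := by
      funext j
      rw [← lc_psi hF hd hS h' j (hX' j)]
      rfl
    rw [← h1, Matrix.mulVec_mulVec, Matrix.nonsing_inv_mul _ hdet, Matrix.one_mulVec]
  rw [psi_eq hF hd hS h' k]
  simp only [SX, add_mul, sum_add_distrib]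
  congr 1
  rw [hc]
  simp only [Matrix.mulVec, dotProduct]
  simp only [Finset.sum_mul, Finset.mul_sum]
  rw [sum_four]
  refine sum_congr rfl fun i _ => sum_congr rfl fun j _ => sum_congr rfl fun v _ =>
    sum_congr rfl fun a _ => ?_
  ring

end main

/-! ### symmetry of the bordered kernel, its rows -/

section bord
variable {n : ℕ} {X : Fin n → ℤ × ℤ} {Sd : HE ℤ → HE ℤ → ℝ}

theorem BM_transpose (h : ∀ a b, Sd a b = -Sd b a) : (BM Sd X).transpose = -BM Sd X := by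
  ext i j
  simp only [BM, Matrix.transpose_apply, Matrix.of_apply, Matrix.neg_apply]
  exact NN_anti h _ _

theorem BMi_anti (h : ∀ a b, Sd a b = -Sd b a) (i j : Fin n) :
    (BM Sd X)⁻¹ i j = -(BM Sd X)⁻¹ j i := by
  have h1 : ((BM Sd X)⁻¹).transpose = -(BM Sd X)⁻¹ := by
    rw [Matrix.transpose_nonsing_inv, BM_transpose h]
    by_cases hu : IsUnit (BM Sd X).det
    · apply Matrix.inv_eq_left_inv
      rw [neg_mul_neg, Matrix.nonsing_inv_mul _ hu]
    · have hu' : ¬IsUnit (-BM Sd X).det := by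
        rw [Matrix.det_neg]
        intro hc
        exact hu (isUnit_of_mul_isUnit_right hc)
      rw [Matrix.nonsing_inv_apply_not_isUnit _ hu', Matrix.nonsing_inv_apply_not_isUnit _ hu,
        neg_zero]
  have h2 := congrFun (congrFun h1 j) i
  rw [Matrix.transpose_apply, Matrix.neg_apply] at h2
  exact h2

theorem SX_anti (h : ∀ a b, Sd a b = -Sd b a) (k k' : HE ℤ) : SX Sd X k k' = -SX Sd X k' k := by
  unfold SX
  rw [neg_add, ← h, sum_comm, ← sum_neg_distrib]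
  congr 1
  refine sum_congr rfl fun i _ => ?_
  rw [← sum_neg_distrib]
  refine sum_congr rfl fun j _ => ?_
  rw [BMi_anti h j i]
  ring

end bord

end Crest.Agent.R165.Fr2x802
end
end

-- ▼ part R165/Fr3_802
section

/-!
# Row 165 (S0250), leaf FREE TRANSFER, part 3 (helper802): rows of the bordered kernel, one bond

* `SX_row` : `A* SX(·,h) = -δ_h` away from the insertions
* `Gh_*` : the transformed sources
* `bond_h`, `bond_v` : the two half-edges of one bond, exactly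
-/

set_option autoImplicit false
set_option linter.unusedSimpArgs false

noncomputable section

open Finset

namespace Crest.Agent.R165.Fr3x802

open Crest.Agent.R165.J1ax606 (HE EG)
open Crest.Agent.R165.J2ax606 (IsInv)
open Crest.Agent.R165.J2bx606 (FInv)
open Crest.Agent.R165.Fr1x802 Crest.Agent.R165.Fr2x802

theorem Aop_add (w : BW) (φ ψ : HE ℤ → ℝ) (h : HE ℤ) :
    Aop w (fun k => φ k + ψ k) h = Aop w φ h + Aop w ψ h := by
  obtain ⟨v, i⟩ := h
  fin_cases i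
  · show Aop w (fun k => φ k + ψ k) (v, 0) = Aop w φ (v, 0) + Aop w ψ (v, 0)
    simp only [Aop_S]; ring
  · show Aop w (fun k => φ k + ψ k) (v, 1) = Aop w φ (v, 1) + Aop w ψ (v, 1)
    simp only [Aop_E]; ring
  · show Aop w (fun k => φ k + ψ k) (v, 2) = Aop w φ (v, 2) + Aop w ψ (v, 2)
    simp only [Aop_N]; ring
  · show Aop w (fun k => φ k + ψ k) (v, 3) = Aop w φ (v, 3) + Aop w ψ (v, 3)
    simp only [Aop_W]; ring

theorem Aop_smul (w : BW) (c : ℝ) (φ : HE ℤ → ℝ) (h : HE ℤ) :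
    Aop w (fun k => c * φ k) h = c * Aop w φ h := by
  obtain ⟨v, i⟩ := h
  fin_cases i
  · show Aop w (fun k => c * φ k) (v, 0) = c * Aop w φ (v, 0)
    simp only [Aop_S]; ring
  · show Aop w (fun k => c * φ k) (v, 1) = c * Aop w φ (v, 1)
    simp only [Aop_E]; ring
  · show Aop w (fun k => c * φ k) (v, 2) = c * Aop w φ (v, 2)
    simp only [Aop_N]; ring
  · show Aop w (fun k => c * φ k) (v, 3) = c * Aop w φ (v, 3)
    simp only [Aop_W]; ring

theorem Aop_sum {ι : Type*} (w : BW) (A : Finset ι) (φ : ι → HE ℤ → ℝ) (h : HE ℤ) :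
    Aop w (fun k => ∑ i ∈ A, φ i k) h = ∑ i ∈ A, Aop w (φ i) h := by
  classical
  induction A using Finset.induction_on with
  | empty =>
    simp only [sum_empty]
    have := Aop_smul w 0 (fun _ => 0) h
    simpa using this
  | insert a A ha ih =>
    simp only [sum_insert ha]
    rw [Aop_add, ih]

section bord
variable {w : BW} {n : ℕ} {X : Fin n → ℤ × ℤ} {Sd : HE ℤ → HE ℤ → ℝ}

theorem KL_row (hd : IsInv (cw w) Sd) (x : ℤ × ℤ) (h : HE ℤ) :
    Aop w (KL Sd x) h = if h.1 = x then -1 else 0 := by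
  have e : (KL Sd x) = fun k => ∑ b, Sd k (x, b) := rfl
  rw [e, Aop_sum]
  have h1 : ∀ b : Fin 4, Aop w (fun k => Sd k (x, b)) h = if h = (x, b) then -1 else 0 :=
    fun b => hd.inv h (x, b)
  rw [sum_congr rfl fun b _ => h1 b]
  obtain ⟨v, i⟩ := h
  by_cases hv : v = x
  · subst hv
    simp
  · rw [if_neg hv]
    refine sum_eq_zero fun b _ => if_neg fun e => hv (Prod.mk.inj e).1

/-- rows of the bordered kernel away from the insertions -/
theorem SX_row (hd : IsInv (cw w) Sd) {h : HE ℤ} (hX : ∀ i, X i ≠ h.1) (k : HE ℤ) :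
    Aop w (fun j => SX Sd X j k) h = if h = k then -1 else 0 := by
  have e : (fun j => SX Sd X j k) = fun j => Sd j k +
      ∑ i, ∑ j', ((BM Sd X)⁻¹ i j' * KL Sd (X j') k) * KL Sd (X i) j := by
    funext j
    unfold SX
    congr 1
    refine sum_congr rfl fun i _ => sum_congr rfl fun j' _ => ?_
    ring
  rw [e, Aop_add]
  have h1 : Aop w (fun j => Sd j k) h = if h = k then -1 else 0 := hd.inv h k
  rw [h1, Aop_sum]
  rw [sum_eq_zero, add_zero]
  intro i _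
  rw [Aop_sum]
  refine sum_eq_zero fun j' _ => ?_
  rw [Aop_smul, KL_row hd, if_neg (fun e => hX i e.symm), mul_zero]

end bord

/-! ### the transformed sources -/

section src
variable (s : ℤ × ℤ → ℝ) (f : ℤ × ℤ)


/-- the sum against a transformed source, direction `S` -/
theorem sum_Gh0 (F : HE ℤ → ℝ) : ∑ v ∈ Vs f, ∑ i, F (v, i) * Gh s (f, 0) (v, i) =
    (-F (f, 0) - F (f, 1) + F (f, 2) + F (f, 3)) / 2 +
    (F ((f.1 + 1, f.2), 0) + F ((f.1 + 1, f.2), 1) + F ((f.1 + 1, f.2), 2)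
      - F ((f.1 + 1, f.2), 3)) / 2 := by
  obtain ⟨p, q⟩ := f
  unfold Vs
  rw [sum_insert (by simp), sum_insert (by simp), sum_insert (by simp), sum_singleton]
  simp only [Fin.sum_univ_four, Gh, Gd_S, Gd_E, Gd_N, Gd_W, r1, r2, r3, r4, Prod.mk.injEq,
    add_sub_cancel_right]
  simp
  ring

/-- direction `E` -/
theorem sum_Gh1 (F : HE ℤ → ℝ) : ∑ v ∈ Vs f, ∑ i, F (v, i) * Gh s (f, 1) (v, i) =
    -(F ((f.1 + 1, f.2), 0) + F ((f.1 + 1, f.2), 1) + F ((f.1 + 1, f.2), 2)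
      - F ((f.1 + 1, f.2), 3)) / 2 +
    s (f.1, f.2 + 1) * (F ((f.1 + 1, f.2 + 1), 0) + F ((f.1 + 1, f.2 + 1), 1)
      + F ((f.1 + 1, f.2 + 1), 2) + F ((f.1 + 1, f.2 + 1), 3)) / 2 := by
  obtain ⟨p, q⟩ := f
  unfold Vs
  rw [sum_insert (by simp), sum_insert (by simp), sum_insert (by simp), sum_singleton]
  simp only [Fin.sum_univ_four, Gh, Gd_S, Gd_E, Gd_N, Gd_W, r1, r2, r3, r4, Prod.mk.injEq,
    add_sub_cancel_right]
  simp
  ring

/-- direction `N` -/
theorem sum_Gh2 (F : HE ℤ → ℝ) : ∑ v ∈ Vs f, ∑ i, F (v, i) * Gh s (f, 2) (v, i) =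
    s (f.1, f.2 + 1) * (-F ((f.1, f.2 + 1), 0) + F ((f.1, f.2 + 1), 1) + F ((f.1, f.2 + 1), 2)
      + F ((f.1, f.2 + 1), 3)) / 2 -
    s (f.1, f.2 + 1) * (F ((f.1 + 1, f.2 + 1), 0) + F ((f.1 + 1, f.2 + 1), 1)
      + F ((f.1 + 1, f.2 + 1), 2) + F ((f.1 + 1, f.2 + 1), 3)) / 2 := by
  obtain ⟨p, q⟩ := f
  unfold Vs
  rw [sum_insert (by simp), sum_insert (by simp), sum_insert (by simp), sum_singleton]
  simp only [Fin.sum_univ_four, Gh, Gd_S, Gd_E, Gd_N, Gd_W, r1, r2, r3, r4, Prod.mk.injEq,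
    add_sub_cancel_right]
  simp
  ring

/-- direction `W` -/
theorem sum_Gh3 (F : HE ℤ → ℝ) : ∑ v ∈ Vs f, ∑ i, F (v, i) * Gh s (f, 3) (v, i) =
    (-F (f, 0) - F (f, 1) + F (f, 2) + F (f, 3)) / 2 -
    s (f.1, f.2 + 1) * (-F ((f.1, f.2 + 1), 0) + F ((f.1, f.2 + 1), 1) + F ((f.1, f.2 + 1), 2)
      + F ((f.1, f.2 + 1), 3)) / 2 := by
  obtain ⟨p, q⟩ := f
  unfold Vs
  rw [sum_insert (by simp), sum_insert (by simp), sum_insert (by simp), sum_singleton]
  simp only [Fin.sum_univ_four, Gh, Gd_S, Gd_E, Gd_N, Gd_W, r1, r2, r3, r4, Prod.mk.injEq,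
    add_sub_cancel_right]
  simp
  ring

end src

/-! ### one bond -/

section bond
variable {y : BW} {s : ℤ × ℤ → ℝ} {n : ℕ} {X : Fin n → ℤ × ℤ} {S Sd : HE ℤ → HE ℤ → ℝ}

/-- the horizontal bond `(v, 0)` -/
theorem bond_h (hF : FS y s X) (hd : FInv (cw (wd y s)) Sd) (hS : IsInv (cw (wp y s)) S)
    (hdet : IsUnit (BM Sd X).det) (v : ℤ × ℤ) (hX : ∀ i, X i ∉ Vs (v.1, v.2 - 1)) :
    (1 + y v 0) * S (v, 0) ((v.1, v.2 - 1), 2) =
      s v * (1 - (1 + st (y v 0)) * SX Sd X (v, 1) ((v.1 + 1, v.2), 3)) := by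
  set h' : HE ℤ := ((v.1, v.2 - 1), 2) with hh'
  have hpsi := fun k => psi_SX hF hd hS hdet h' k hX
  have e0 := inv_S y s (fun h => S h h') v
  rw [e0, hpsi, hpsi]
  simp only [hh']
  rw [sum_Gh2, sum_Gh2]
  simp only [sub_add_cancel, Prod.mk.eta]
  have hXv : ∀ i, X i ≠ v := fun i e => hX i (by rw [e]; simp [Vs])
  have hXv1 : ∀ i, X i ≠ (v.1 + 1, v.2) := fun i e => hX i (by rw [e]; simp [Vs])
  have a1 := fun k => SX_row hd.toIsInv (h := (v, 1)) hXv k
  have a2 := fun k => SX_row hd.toIsInv (h := ((v.1 + 1, v.2), 3)) hXv1 k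
  have b1 := a1 (v, 1)
  have b2 := a1 ((v.1 + 1, v.2), 3)
  have b3 := a2 (v, 1)
  have b4 := a2 ((v.1 + 1, v.2), 3)
  simp only [Aop_E, Aop_W, yE_wd, add_sub_cancel_right, Prod.mk.eta] at b1 b2 b3 b4
  have n1 : ¬((v, (1 : Fin 4)) = ((v.1 + 1, v.2), (3 : Fin 4))) := by
    intro e; exact absurd (Prod.mk.inj e).2 (by decide)
  have n2 : ¬(((v.1 + 1, v.2), (3 : Fin 4)) = (v, (1 : Fin 4))) := fun e => n1 e.symm
  rw [if_true] at b1 b4
  rw [if_neg n1] at b2
  rw [if_neg n2] at b3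
  have c := fun a b => SX_anti (X := X) hd.anti a b
  have d1 : SX Sd X (v, 1) (v, 1) = 0 := by linarith [c (v, 1) (v, 1)]
  have d2 : SX Sd X ((v.1 + 1, v.2), 3) ((v.1 + 1, v.2), 3) = 0 := by
    linarith [c ((v.1 + 1, v.2), 3) ((v.1 + 1, v.2), 3)]
  rw [c (v, 0) (v, 1), c (v, 2) (v, 1), c (v, 3) (v, 1), c ((v.1 + 1, v.2), 3) (v, 1)] at b1
  rw [c (v, 0) ((v.1 + 1, v.2), 3), c (v, 2) ((v.1 + 1, v.2), 3), c (v, 3) ((v.1 + 1, v.2), 3),
    d2] at b2
  rw [c ((v.1 + 1, v.2), 0) (v, 1), c ((v.1 + 1, v.2), 1) (v, 1), c ((v.1 + 1, v.2), 2) (v, 1),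
    d1] at b3
  rw [c ((v.1 + 1, v.2), 0) ((v.1 + 1, v.2), 3), c ((v.1 + 1, v.2), 1) ((v.1 + 1, v.2), 3),
    c ((v.1 + 1, v.2), 2) ((v.1 + 1, v.2), 3)] at b4
  rw [d1, d2, c ((v.1 + 1, v.2), 3) (v, 1)]
  linear_combination (-s v / 2) * (b1 + b2 + b3 + b4)

/-- the vertical bond `(v, 1)` -/
theorem bond_v (hF : FS y s X) (hd : FInv (cw (wd y s)) Sd) (hS : IsInv (cw (wp y s)) S)
    (hdet : IsUnit (BM Sd X).det) (v : ℤ × ℤ) (hX : ∀ i, X i ∉ Vs v) :
    (1 + y v 1) * S ((v.1 - 1, v.2), 1) (v, 3) =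
      1 - (1 + st (y v 1)) * (s (v.1, v.2 + 1) * SX Sd X ((v.1, v.2 + 1), 0) (v, 2)) := by
  set h' : HE ℤ := (v, 3) with hh'
  have hpsi := fun k => psi_SX hF hd hS hdet h' k hX
  have e0 := inv_E y s (fun h => S h h') v hF.toOK
  rw [e0, hpsi, hpsi]
  simp only [hh']
  rw [sum_Gh3, sum_Gh3]
  have hXv : ∀ i, X i ≠ v := fun i e => hX i (by rw [e]; simp [Vs])
  have hXv1 : ∀ i, X i ≠ (v.1, v.2 + 1) := fun i e => hX i (by rw [e]; simp [Vs])
  have a1 := fun k => SX_row hd.toIsInv (h := (v, 2)) hXv k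
  have a2 := fun k => SX_row hd.toIsInv (h := ((v.1, v.2 + 1), 0)) hXv1 k
  have b1 := a1 (v, 2)
  have b2 := a1 ((v.1, v.2 + 1), 0)
  have b3 := a2 (v, 2)
  have b4 := a2 ((v.1, v.2 + 1), 0)
  simp only [Aop_S, Aop_N, yN_wd, add_sub_cancel_right, Prod.mk.eta] at b1 b2 b3 b4
  have n1 : ¬((v, (2 : Fin 4)) = ((v.1, v.2 + 1), (0 : Fin 4))) := by
    intro e; exact absurd (Prod.mk.inj e).2 (by decide)
  have n2 : ¬(((v.1, v.2 + 1), (0 : Fin 4)) = (v, (2 : Fin 4))) := fun e => n1 e.symm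
  rw [if_true] at b1 b4
  rw [if_neg n1] at b2
  rw [if_neg n2] at b3
  have c := fun a b => SX_anti (X := X) hd.anti a b
  have hs := hF.sg (v.1, v.2 + 1)
  have d1 : SX Sd X (v, 2) (v, 2) = 0 := by linarith [c (v, 2) (v, 2)]
  have d2 : SX Sd X ((v.1, v.2 + 1), 0) ((v.1, v.2 + 1), 0) = 0 := by
    linarith [c ((v.1, v.2 + 1), 0) ((v.1, v.2 + 1), 0)]
  rw [c (v, 0) (v, 2), c (v, 1) (v, 2), c (v, 3) (v, 2), c ((v.1, v.2 + 1), 0) (v, 2)] at b1
  rw [c (v, 0) ((v.1, v.2 + 1), 0), c (v, 1) ((v.1, v.2 + 1), 0), c (v, 3) ((v.1, v.2 + 1), 0),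
    d2] at b2
  rw [c ((v.1, v.2 + 1), 1) (v, 2), c ((v.1, v.2 + 1), 2) (v, 2), c ((v.1, v.2 + 1), 3) (v, 2),
    d1] at b3
  rw [c ((v.1, v.2 + 1), 1) ((v.1, v.2 + 1), 0), c ((v.1, v.2 + 1), 2) ((v.1, v.2 + 1), 0),
    c ((v.1, v.2 + 1), 3) ((v.1, v.2 + 1), 0)] at b4
  rw [d1, d2, c ((v.1, v.2 + 1), 0) (v, 2)]
  linear_combination (-1 / 2) * b1 + (s (v.1, v.2 + 1) / 2) * (b2 + b3) -
    (s (v.1, v.2 + 1) ^ 2 / 2) * b4 +
    ((1 + s (v.1, v.2 + 1) * st (y v 1) * SX Sd X (v, 2) ((v.1, v.2 + 1), 0)) / 2) * hs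

end bond

end Crest.Agent.R165.Fr3x802
end
end

-- ▼ part R165/Fr4_802
section

/-!
# Row 165 (S0250), leaf FREE TRANSFER, part 4 (helper802): domain backgrounds

* `yS T` : dual moduli of the free background of the site set `T`
* `wX_free`, `wX_dual` : both backgrounds in the form of `Fr1_802`, `fs_free` : hypotheses
* `isCov_dual` : existence of the dual covariance
* `latB_dual` : the dual of the free background of `D` is a plus type background approximating `D`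
* `ray_kap` : gauge signs near a point; `kb_mesh`
-/

set_option autoImplicit false
set_option linter.unusedSimpArgs false

noncomputable section

open Filter Topology Finset
open Crest.ProbabilityR.IsingModel

namespace Crest.Agent.R165.Fr4x802

open Crest.Agent.R165.Latx683 (BW HE wX wDom ray IsCov)
open Crest.Agent.R165.UKerx420 (kap)
open Crest.Agent.R165.FrIx802
open Crest.Agent.R165.Fr1x802 (wp wd ys st OK cw)
open Crest.Agent.R165.Fr2x802 (FS BM KL NN SX Vs)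

/-- dual moduli of the free background of the site set `T` -/
def yS (T : Set (ℤ × ℤ)) : BW ℤ := ys (wDom T true)

/-- horizontal signs of the rays -/
def rs {n : ℕ} (X : Fin n → ℤ × ℤ) : ℤ × ℤ → ℝ := fun z => ray X z 0

theorem xc_pos : 0 < Latx683.xc := Covx359.xc_pos

theorem xc_sq : (1 + Latx683.xc) * (1 + Latx683.xc) = 2 := by
  unfold Latx683.xc
  have h : Real.sqrt 2 * Real.sqrt 2 = 2 := Real.mul_self_sqrt (by norm_num)
  linear_combination h

theorem st_xc : st Latx683.xc = Latx683.xc := by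
  unfold st
  have h := xc_sq
  have h1 := xc_pos
  rw [div_eq_iff (by linarith)]
  linear_combination -h

theorem st_one : st 1 = 0 := by unfold st; norm_num

theorem wDom_free (T : Set (ℤ × ℤ)) [DecidablePred (· ∈ T)] (z : ℤ × ℤ) (j : Fin 2) :
    wDom T true z j = if z ∈ T ∧ z + unitVec j ∈ T then Latx683.xc else 1 := by
  unfold wDom
  simp only [if_true]
  congr

theorem wDom_free_in {T : Set (ℤ × ℤ)} {z : ℤ × ℤ} {j : Fin 2} (h : z ∈ T)
    (h' : z + unitVec j ∈ T) : wDom T true z j = Latx683.xc := by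
  classical
  rw [wDom_free, if_pos ⟨h, h'⟩]

theorem wDom_free_cases (T : Set (ℤ × ℤ)) (z : ℤ × ℤ) (j : Fin 2) :
    (z ∈ T ∧ z + unitVec j ∈ T ∧ wDom T true z j = Latx683.xc) ∨ wDom T true z j = 1 := by
  classical
  rw [wDom_free]
  by_cases h : z ∈ T ∧ z + unitVec j ∈ T
  · rw [if_pos h]; exact Or.inl ⟨h.1, h.2, rfl⟩
  · rw [if_neg h]; exact Or.inr rfl

theorem yS_zero (T : Set (ℤ × ℤ)) [DecidablePred (· ∈ T)] (z : ℤ × ℤ) :
    yS T z 0 = if (z.1, z.2 - 1) ∈ T ∧ z ∈ T then Latx683.xc else 0 := by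
  have e : ((z.1, z.2 - 1) : ℤ × ℤ) + unitVec 1 = z := by
    ext <;> simp [unitVec]
  unfold yS ys
  rw [if_pos rfl, wDom_free, e]
  split_ifs
  · exact st_xc
  · exact st_one

theorem yS_one (T : Set (ℤ × ℤ)) [DecidablePred (· ∈ T)] (z : ℤ × ℤ) :
    yS T z 1 = if (z.1 - 1, z.2) ∈ T ∧ z ∈ T then Latx683.xc else 0 := by
  have e : ((z.1 - 1, z.2) : ℤ × ℤ) + unitVec 0 = z := by
    ext <;> simp [unitVec]
  unfold yS ys
  rw [if_neg (by decide), wDom_free, e]
  split_ifs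
  · exact st_xc
  · exact st_one

theorem yS_out {T : Set (ℤ × ℤ)} {z : ℤ × ℤ} (h : z ∉ T) (j : Fin 2) : yS T z j = 0 := by
  classical
  fin_cases j
  · show yS T z 0 = 0
    rw [yS_zero, if_neg (fun hh => h hh.2)]
  · show yS T z 1 = 0
    rw [yS_one, if_neg (fun hh => h hh.2)]

theorem yS_val (T : Set (ℤ × ℤ)) (z : ℤ × ℤ) (j : Fin 2) : yS T z j = Latx683.xc ∨ yS T z j = 0 := by
  classical
  fin_cases j
  · show yS T z 0 = _ ∨ yS T z 0 = _
    rw [yS_zero]; split_ifs <;> simp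
  · show yS T z 1 = _ ∨ yS T z 1 = _
    rw [yS_one]; split_ifs <;> simp

theorem yS_in {T : Set (ℤ × ℤ)} {z : ℤ × ℤ} (h : z ∈ T) (h1 : (z.1 - 1, z.2) ∈ T)
    (h2 : (z.1, z.2 - 1) ∈ T) (j : Fin 2) : yS T z j = Latx683.xc := by
  classical
  fin_cases j
  · show yS T z 0 = _
    rw [yS_zero, if_pos ⟨h2, h⟩]
  · show yS T z 1 = _
    rw [yS_one, if_pos ⟨h1, h⟩]

/-! ### rays -/

section rays
variable {n : ℕ} (X : Fin n → ℤ × ℤ)

theorem ray_one (z : ℤ × ℤ) : ray X z 1 = 1 := by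
  unfold ray
  exact Finset.prod_eq_one fun i _ => if_neg fun h => absurd h.1 (by decide)

theorem rs_eq (z : ℤ × ℤ) : rs X z = ∏ i, if (X i).2 = z.2 ∧ (X i).1 ≤ z.1 then (-1 : ℝ) else 1 := by
  unfold rs ray
  exact Finset.prod_congr rfl fun i _ => by simp

theorem rs_sq (z : ℤ × ℤ) : rs X z ^ 2 = 1 := by
  rw [rs_eq, ← Finset.prod_pow]
  exact Finset.prod_eq_one fun i _ => by split_ifs <;> norm_num

theorem rs_mul (v : ℤ × ℤ) : rs X (v.1 - 1, v.2) * rs X v = ∏ i, if X i = v then (-1 : ℝ) else 1 := by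
  rw [rs_eq, rs_eq, ← Finset.prod_mul_distrib]
  refine Finset.prod_congr rfl fun i _ => ?_
  by_cases h : X i = v
  · rw [if_pos h, if_neg, if_pos]
    · norm_num
    · rw [h]; exact ⟨rfl, le_rfl⟩
    · rw [h]; rintro ⟨_, h2⟩; simp at h2
  · rw [if_neg h]
    by_cases h2 : (X i).2 = v.2
    · have h1 : (X i).1 ≠ v.1 := fun e => h (Prod.ext e h2)
      by_cases h3 : (X i).1 ≤ v.1
      · rw [if_pos (show (X i).2 = ((v.1 - 1, v.2) : ℤ × ℤ).2 ∧
          (X i).1 ≤ ((v.1 - 1, v.2) : ℤ × ℤ).1 from ⟨h2, by simp only; omega⟩), if_pos ⟨h2, h3⟩]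
        norm_num
      · rw [if_neg (fun hh => h3 (le_trans hh.2 (by simp))), if_neg (fun hh => h3 hh.2)]
        norm_num
    · rw [if_neg (fun hh => h2 hh.1), if_neg (fun hh => h2 hh.1)]
      norm_num

variable {X}

theorem rs_flip (hX : Function.Injective X) (i : Fin n) :
    rs X ((X i).1 - 1, (X i).2) * rs X (X i) = -1 := by
  rw [rs_mul, Finset.prod_eq_single i]
  · simp
  · intro j _ hj
    exact if_neg fun e => hj (hX e)
  · intro h; exact absurd (Finset.mem_univ _) h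

theorem rs_noflip (v : ℤ × ℤ) (h : ∀ i, X i ≠ v) : rs X (v.1 - 1, v.2) * rs X v = 1 := by
  rw [rs_mul]
  exact Finset.prod_eq_one fun i _ => if_neg (h i)

end rays

theorem wX_eq (y : BW ℤ) {n : ℕ} (X : Fin n → ℤ × ℤ) : wX y X = wp y (rs X) := by
  funext z j
  unfold wX wp
  fin_cases j
  · show ray X z 0 * y z 0 = _
    rw [if_pos (by decide)]; rfl
  · show ray X z 1 * y z 1 = _
    rw [ray_one, one_mul, if_neg (by decide)]

theorem wX_dual (T : Set (ℤ × ℤ)) {n : ℕ} (X : Fin n → ℤ × ℤ) :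
    wX (yS T) X = wd (wDom T true) (rs X) := wX_eq _ _

theorem ok_free (T : Set (ℤ × ℤ)) {n : ℕ} (X : Fin n → ℤ × ℤ) : OK (wDom T true) (rs X) where
  ne z j := by
    have h := xc_pos
    rcases wDom_free_cases T z j with h1 | h1
    · rw [h1.2.2]; linarith
    · rw [h1]; norm_num
  sg := rs_sq X

theorem fs_free (T : Set (ℤ × ℤ)) {n : ℕ} {X : Fin n → ℤ × ℤ} (hX : Function.Injective X) :
    FS (wDom T true) (rs X) X where
  toOK := ok_free T X
  inj := hX
  flip := rs_flip hX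
  noflip := rs_noflip

theorem isInv_free {T : Set (ℤ × ℤ)} {n : ℕ} {X : Fin n → ℤ × ℤ} {S : HE ℤ → HE ℤ → ℝ}
    (hS : IsCov (wX (wDom T true) X) S) : J2ax606.IsInv (cw (wp (wDom T true) (rs X))) S := by
  rw [← wX_eq]
  exact Covx359.isInv_of_isCov hS

/-- support of the dual weights -/
theorem dual_supp {T : Set (ℤ × ℤ)} (hT : T.Finite) {n : ℕ} (X : Fin n → ℤ × ℤ)
    (e : J1ax606.EG ℤ) (he : e ∉ hT.toFinset ×ˢ (univ : Finset (Fin 2))) :
    cw (wX (yS T) X) e = 0 := by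
  obtain ⟨z, j⟩ := e
  rw [mem_product, Set.Finite.mem_toFinset] at he
  have h : z ∉ T := fun h => he ⟨h, mem_univ _⟩
  show ray X z j * yS T z j = 0
  rw [yS_out h, mul_zero]

theorem finv_dual {T : Set (ℤ × ℤ)} (hT : T.Finite) {n : ℕ} {X : Fin n → ℤ × ℤ}
    {S : HE ℤ → HE ℤ → ℝ} (hS : IsCov (wX (yS T) X) S) :
    J2bx606.FInv (cw (wd (wDom T true) (rs X))) S := by
  rw [← wX_dual]
  exact Covx359.finv_of_isInv _ (dual_supp hT X) (Covx359.isInv_of_isCov hS)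

theorem xc_lt_one : Latx683.xc < 1 := Covx359.xc_lt_one

theorem abs_ray {n : ℕ} (X : Fin n → ℤ × ℤ) (z : ℤ × ℤ) (j : Fin 2) : |ray X z j| = 1 := by
  unfold ray
  rw [Finset.abs_prod]
  exact Finset.prod_eq_one fun i _ => by split_ifs <;> simp

/-- existence of the dual covariance -/
theorem isCov_dual {T : Set (ℤ × ℤ)} (hT : T.Finite) {n : ℕ} (X : Fin n → ℤ × ℤ) :
    ∃ S, IsCov (wX (yS T) X) S := by
  obtain ⟨S, hS⟩ := Covx359.exists_finv_of_lt (w := cw (wX (yS T) X))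
    (hT.toFinset ×ˢ (univ : Finset (Fin 2))) (dual_supp hT X) (by
      intro e _
      obtain ⟨z, j⟩ := e
      show |ray X z j * yS T z j| < 1
      rw [abs_mul, abs_ray, one_mul]
      rcases yS_val T z j with h | h
      · rw [h, abs_of_pos xc_pos]; exact xc_lt_one
      · rw [h]; simp)
  exact ⟨S, Covx359.isCov_of_finv hS⟩

/-! ### the dual background approximates the domain -/

theorem mesh_dist (a : ℝ) (z w : ℤ × ℤ) : ‖meshPoint a z - meshPoint a w‖ ≤
    |a| * (|((z.1 - w.1 : ℤ) : ℝ)| + |((z.2 - w.2 : ℤ) : ℝ)|) := by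
  refine (Complex.norm_le_abs_re_add_abs_im _).trans (le_of_eq ?_)
  have e1 : (meshPoint a z - meshPoint a w).re = a * ((z.1 - w.1 : ℤ) : ℝ) := by
    simp [meshPoint]; ring
  have e2 : (meshPoint a z - meshPoint a w).im = a * ((z.2 - w.2 : ℤ) : ℝ) := by
    simp [meshPoint]; ring
  rw [e1, e2, abs_mul, abs_mul]
  ring

theorem latB_dual {D : Set ℂ} (hD : IsOpen D) (hb : Bornology.IsBounded D) {n : ℕ} {x : Fin n → ℂ}
    {a : ℕ → ℝ} (pos : ∀ k, 0 < a k) (lim : Tendsto a atTop (𝓝 0)) {V : ℕ → Fin n → ℤ × ℤ}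
    (tip : ∀ i, Tendsto (fun k => meshPoint (a k) (V k i)) atTop (𝓝 (x i))) :
    LatB D x a (fun k => yS (domainSites D (a k))) V where
  pos := pos
  lim := lim
  val k z j := yS_val _ z j
  tip := tip
  ins K hK hKD := by
    obtain ⟨δ, hδ, hsub⟩ := hK.exists_thickening_subset_open hD hKD
    filter_upwards [lim.eventually (eventually_lt_nhds hδ)] with k hk z hz j
    have ha := pos k
    have key : ∀ w : ℤ × ℤ, |((z.1 - w.1 : ℤ) : ℝ)| + |((z.2 - w.2 : ℤ) : ℝ)| ≤ 1 →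
        w ∈ domainSites D (a k) := by
      intro w hw
      apply hsub
      rw [Metric.mem_thickening_iff]
      refine ⟨_, hz, ?_⟩
      rw [dist_comm, dist_eq_norm]
      refine (mesh_dist _ _ _).trans_lt ?_
      rw [abs_of_pos ha]
      nlinarith
    apply yS_in
    · exact key z (by simp)
    · exact key _ (by simp)
    · exact key _ (by simp)
  out K _ hKD := by
    filter_upwards with k z hz j
    apply yS_out
    intro h
    exact Set.disjoint_left.1 hKD hz (subset_closure h)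
  bdd := by
    obtain ⟨R, hR⟩ := hb.subset_ball 0
    refine ⟨R, fun k z hz j => yS_out (fun h => ?_) j⟩
    have := hR h
    rw [Metric.mem_ball, dist_zero_right] at this
    linarith

/-! ### gauge signs near a point -/

section gauge
variable {n : ℕ} {x : Fin n → ℂ} {a : ℕ → ℝ} {V : ℕ → Fin n → ℤ × ℤ}

theorem tip_re {p : ℕ → ℤ × ℤ} {z : ℂ} (h : Tendsto (fun k => meshPoint (a k) (p k)) atTop (𝓝 z)) :
    Tendsto (fun k => a k * ((p k).1 : ℝ)) atTop (𝓝 z.re) :=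
  (Complex.continuous_re.tendsto _).comp h

theorem tip_im {p : ℕ → ℤ × ℤ} {z : ℂ} (h : Tendsto (fun k => meshPoint (a k) (p k)) atTop (𝓝 z)) :
    Tendsto (fun k => a k * ((p k).2 : ℝ)) atTop (𝓝 z.im) :=
  (Complex.continuous_im.tendsto _).comp h

theorem ev_lt (pos : ∀ k, 0 < a k) {p q : ℕ → ℤ} {s t : ℝ}
    (h : Tendsto (fun k => a k * (p k : ℝ)) atTop (𝓝 s))
    (h' : Tendsto (fun k => a k * (q k : ℝ)) atTop (𝓝 t)) (hst : s < t) : ∀ᶠ k in atTop, p k < q k := by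
  filter_upwards [h.eventually_lt h' hst] with k hk
  have := lt_of_mul_lt_mul_left hk (pos k).le
  exact_mod_cast this

/-- the ray sign near `z`, for arbitrary sites tending to `z` -/
theorem ray_kap (pos : ∀ k, 0 < a k)
    (tip : ∀ i, Tendsto (fun k => meshPoint (a k) (V k i)) atTop (𝓝 (x i)))
    {z : ℂ} (hz : ∀ i, x i ≠ z) {f : ℕ → ℤ × ℤ}
    (hf : Tendsto (fun k => meshPoint (a k) (f k)) atTop (𝓝 z)) :
    ∀ᶠ k in atTop, rs (V k) (f k) = kap x (V k) z (f k) * kap x (V k) z ((f k).1, (f k).2 - 1) := by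
  classical
  have key : ∀ i, ∀ᶠ k in atTop, (((V k i).2 = (f k).2 ∧ (V k i).1 ≤ (f k).1) ↔
      ((x i).im = z.im ∧ (x i).re < z.re ∧ (V k i).2 = (f k).2)) := by
    intro i
    by_cases him : (x i).im = z.im
    · have hre : (x i).re ≠ z.re := fun h => hz i (Complex.ext h him)
      rcases lt_or_gt_of_ne hre with h | h
      · filter_upwards [ev_lt pos (tip_re (tip i)) (tip_re hf) h] with k hk
        exact ⟨fun hh => ⟨him, h, hh.1⟩, fun hh => ⟨hh.2.2, hk.le⟩⟩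
      · filter_upwards [ev_lt pos (tip_re hf) (tip_re (tip i)) h] with k hk
        exact ⟨fun hh => absurd hh.2 (not_le.2 hk), fun hh => absurd hh.2.1 (not_lt.2 h.le)⟩
    · rcases lt_or_gt_of_ne him with h | h
      · filter_upwards [ev_lt pos (tip_im (tip i)) (tip_im hf) h] with k hk
        exact ⟨fun hh => absurd hh.1 hk.ne, fun hh => absurd hh.1 him⟩
      · filter_upwards [ev_lt pos (tip_im hf) (tip_im (tip i)) h] with k hk
        exact ⟨fun hh => absurd hh.1 hk.ne', fun hh => absurd hh.1 him⟩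
  filter_upwards [eventually_all.2 key] with k hk
  rw [rs_eq]
  unfold kap
  rw [← Finset.prod_mul_distrib]
  refine Finset.prod_congr rfl fun i _ => ?_
  have hi := hk i
  by_cases hr : (x i).im = z.im ∧ (x i).re < z.re
  · by_cases h2 : (V k i).2 = (f k).2
    · rw [if_pos (hi.2 ⟨hr.1, hr.2, h2⟩), if_neg (fun h => by have := h.2.2; omega),
        if_pos ⟨hr.1, hr.2, by simp only; omega⟩]
      norm_num
    · rw [if_neg (fun h => h2 h.1)]
      by_cases h3 : (f k).2 < (V k i).2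
      · rw [if_pos ⟨hr.1, hr.2, h3⟩, if_pos ⟨hr.1, hr.2, by simp only; omega⟩]
        norm_num
      · rw [if_neg (fun h => h3 h.2.2), if_neg (fun h => by have := h.2.2; simp only at this; omega)]
        norm_num
  · rw [if_neg (fun h => hr ⟨(hi.1 h).1, (hi.1 h).2.1⟩), if_neg (fun h => hr ⟨h.1, h.2.1⟩),
      if_neg (fun h => hr ⟨h.1, h.2.1⟩)]
    norm_num

/-- `kap` depends on the row only -/
theorem kap_row (x : Fin n → ℂ) (V : Fin n → ℤ × ℤ) (z : ℂ) {f g : ℤ × ℤ} (h : f.2 = g.2) :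
    kap x V z f = kap x V z g := by
  unfold kap
  simp only [h]

theorem kb_mesh (x : Fin n → ℂ) (a : ℝ) (j : Fin n) : kb x (fun i => meshIndex a (x i)) j = 1 := by
  unfold kb kap
  refine Finset.prod_eq_one fun i _ => ?_
  rw [if_neg]
  rintro ⟨h1, -, h3⟩
  simp only [meshIndex, h1] at h3
  exact lt_irrefl _ h3

end gauge

end Crest.Agent.R165.Fr4x802
end
end

-- ▼ part R165/Fr5_802
section

/-!
# Row 165 (S0250), leaf FREE TRANSFER, part 5 (helper802): kernel limits, two points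

* `cor η B z z'` : the correction form `∑ η_i(z) (B⁻¹)_ij η_j(z')`
* `tw b` : `b(-i·, i·)`
* `lim_SX`, `lim_psi`, `lim_S` : limits of the bordered kernel, of the dual field of the free
  covariance, of the free covariance
-/

set_option autoImplicit false
set_option linter.unusedSimpArgs false
set_option linter.unusedSectionVars false

noncomputable section

open Filter Topology Finset
open Crest.ProbabilityR.IsingModel

namespace Crest.Agent.R165.Fr5x802

open Crest.Agent.R165.Latx683 (BW HE wX wDom ray IsCov)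
open Crest.Agent.R165.UKerx420 (kap edir hb cB kap_sq)
open Crest.Agent.R165.FrIx802
open Crest.Agent.R165.Fr1x802 (wp wd ys st OK cw du)
open Crest.Agent.R165.Fr2x802 (FS BM KL NN SX Vs Gh psi_SX)
open Crest.Agent.R165.Fr3x802 Crest.Agent.R165.Fr4x802

/-! ### forms -/

section forms
variable {n : ℕ}

/-- the correction form -/
def cor (η : Fin n → ℂ → ℂ →ₗ[ℝ] ℝ) (B : Matrix (Fin n) (Fin n) ℝ) (z z' : ℂ) :
    LinearMap.BilinForm ℝ ℂ :=
  ∑ i, ∑ j, (B⁻¹ i j) • (η i z).smulRight (η j z')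

theorem cor_apply (η : Fin n → ℂ → ℂ →ₗ[ℝ] ℝ) (B : Matrix (Fin n) (Fin n) ℝ) (z z' c c' : ℂ) :
    cor η B z z' c c' = ∑ i, ∑ j, η i z c * B⁻¹ i j * η j z' c' := by
  unfold cor
  simp only [LinearMap.sum_apply, LinearMap.smul_apply, LinearMap.smulRight_apply, smul_eq_mul]
  exact sum_congr rfl fun i _ => sum_congr rfl fun j _ => by ring

/-- the twist `b(-i·, i·)` -/
def tw (b : LinearMap.BilinForm ℝ ℂ) : LinearMap.BilinForm ℝ ℂ :=
  b.compl₁₂ (LinearMap.mulLeft ℝ (-Complex.I)) (LinearMap.mulLeft ℝ Complex.I)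

theorem tw_apply (b : LinearMap.BilinForm ℝ ℂ) (c c' : ℂ) :
    tw b c c' = b (-Complex.I * c) (Complex.I * c') := rfl

end forms

theorem edir0 : edir 0 = ⟨-(Real.sqrt 2 / 2), Real.sqrt 2 / 2⟩ := rfl
theorem edir1 : edir 1 = 1 := rfl
theorem edir2 : edir 2 = ⟨-(Real.sqrt 2 / 2), -(Real.sqrt 2 / 2)⟩ := rfl
theorem edir3 : edir 3 = Complex.I := rfl

theorem I_edir0 : Complex.I * edir 0 = edir 2 := by
  rw [edir0, edir2]; apply Complex.ext <;> simp
theorem I_edir1 : Complex.I * edir 1 = edir 3 := by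
  rw [edir1, edir3]; simp
theorem I_edir2 : Complex.I * edir 2 = -edir 0 := by
  rw [edir0, edir2]; apply Complex.ext <;> simp
theorem I_edir3 : Complex.I * edir 3 = -edir 1 := by
  rw [edir1, edir3]; simp

theorem sq2 : Real.sqrt 2 * Real.sqrt 2 = 2 := Real.mul_self_sqrt (by norm_num)
theorem sq2_ne : Real.sqrt 2 ≠ 0 := (Real.sqrt_pos.2 (by norm_num)).ne'
theorem sq2_pow : Real.sqrt 2 ^ 2 = 2 := by rw [sq]; exact sq2

theorem nI_edir0 : -Complex.I * edir 0 = (Real.sqrt 2)⁻¹ • (edir 1 + edir 3) := by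
  have h := sq2_ne
  rw [edir0, edir1, edir3]; apply Complex.ext <;> simp
theorem nI_edir2 : -Complex.I * edir 2 = (Real.sqrt 2)⁻¹ • (edir 3 - edir 1) := by
  have h := sq2_ne
  rw [edir2, edir1, edir3]; apply Complex.ext <;> simp
theorem nI_edir3 : -Complex.I * edir 3 = (Real.sqrt 2)⁻¹ • (-(edir 2 + edir 0)) := by
  have h := sq2_ne
  rw [edir0, edir2, edir3]; apply Complex.ext <;> simp
  field_simp
  rw [sq2_pow]; norm_num
theorem nI_edir1 : -Complex.I * edir 1 = (Real.sqrt 2)⁻¹ • (edir 2 - edir 0) := by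
  have h := sq2_ne
  rw [edir0, edir2, edir1]; apply Complex.ext <;> simp
  field_simp
  rw [sq2_pow]; norm_num

/-! ### faces tending to a point -/

theorem mesh_shift {a : ℕ → ℝ} (lim : Tendsto a atTop (𝓝 0)) {p : ℕ → ℤ × ℤ} {z : ℂ}
    (h : Tendsto (fun k => meshPoint (a k) (p k)) atTop (𝓝 z)) (c d : ℤ) :
    Tendsto (fun k => meshPoint (a k) ((p k).1 + c, (p k).2 + d)) atTop (𝓝 z) := by
  have h1 : Tendsto (fun k => meshPoint (a k) (p k) + ((a k : ℝ) : ℂ) * ((c : ℂ) + (d : ℂ) * Complex.I))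
      atTop (𝓝 (z + ((0 : ℝ) : ℂ) * ((c : ℂ) + (d : ℂ) * Complex.I))) :=
    h.add (((Complex.continuous_ofReal.tendsto _).comp lim).mul_const _)
  rw [Complex.ofReal_zero, zero_mul, add_zero] at h1
  refine h1.congr fun k => ?_
  apply Complex.ext
  · simp [meshPoint]; ring
  · simp [meshPoint]; ring

theorem ev_ne {a : ℕ → ℝ} {p q : ℕ → ℤ × ℤ} {z z' : ℂ} (hzz : z ≠ z')
    (h : Tendsto (fun k => meshPoint (a k) (p k)) atTop (𝓝 z))
    (h' : Tendsto (fun k => meshPoint (a k) (q k)) atTop (𝓝 z')) : ∀ᶠ k in atTop, p k ≠ q k := by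
  have h1 := (h.sub h').eventually_ne (sub_ne_zero.2 hzz)
  filter_upwards [h1] with k hk e
  apply hk
  rw [e, sub_self]

theorem ev_notin {a : ℕ → ℝ} (lim : Tendsto a atTop (𝓝 0)) {p q : ℕ → ℤ × ℤ} {z z' : ℂ}
    (hzz : z ≠ z') (h : Tendsto (fun k => meshPoint (a k) (p k)) atTop (𝓝 z))
    (h' : Tendsto (fun k => meshPoint (a k) (q k)) atTop (𝓝 z')) :
    ∀ᶠ k in atTop, p k ∉ Vs (q k) := by
  have h0 := ev_ne hzz h h'
  have h1 := ev_ne hzz h (mesh_shift lim h' 1 0)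
  have h2 := ev_ne hzz h (mesh_shift lim h' 0 1)
  have h3 := ev_ne hzz h (mesh_shift lim h' 1 1)
  filter_upwards [h0, h1, h2, h3] with k h0 h1 h2 h3
  unfold Vs
  simp only [mem_insert, mem_singleton, not_or]
  simp only [add_zero] at h1 h2
  exact ⟨h0, h1, h2, h3⟩

/-! ### the situation -/

/-- a sequence of meshes, with dual covariances -/
structure Sit (D : Set ℂ) {n : ℕ} (x : Fin n → ℂ) (bl : ℂ → ℂ → LinearMap.BilinForm ℝ ℂ)
    (rg : ℂ → LinearMap.BilinForm ℝ ℂ) (η : Fin n → ℂ → ℂ →ₗ[ℝ] ℝ)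
    (B : Matrix (Fin n) (Fin n) ℝ) (a : ℕ → ℝ) (Sd : ℕ → HE ℤ → HE ℤ → ℝ) : Prop where
  op : IsOpen D
  bd : Bornology.IsBounded D
  mem : ∀ i, x i ∈ D
  inj : Function.Injective x
  H : PlusIn D x bl rg η B
  det : IsUnit B.det
  pos : ∀ k, 0 < a k
  lim : Tendsto a atTop (𝓝 0)
  cov : ∀ k, IsCov (wX (yS (domainSites D (a k))) (fun i => meshIndex (a k) (x i))) (Sd k)

/-- the insertions -/
def VV {n : ℕ} (x : Fin n → ℂ) (a : ℝ) : Fin n → ℤ × ℤ := fun i => meshIndex a (x i)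

section sit
variable {D : Set ℂ} {n : ℕ} {x : Fin n → ℂ} {bl : ℂ → ℂ → LinearMap.BilinForm ℝ ℂ}
  {rg : ℂ → LinearMap.BilinForm ℝ ℂ} {η : Fin n → ℂ → ℂ →ₗ[ℝ] ℝ} {B : Matrix (Fin n) (Fin n) ℝ}
  {a : ℕ → ℝ} {Sd : ℕ → HE ℤ → HE ℤ → ℝ}

theorem Sit.tip (h : Sit D x bl rg η B a Sd) (i : Fin n) :
    Tendsto (fun k => meshPoint (a k) (VV x (a k) i)) atTop (𝓝 (x i)) := by
  have h1 := (UKerx420.tendsto_mesh (x i) 0).comp
    (tendsto_nhdsWithin_iff.2 ⟨h.lim, Eventually.of_forall h.pos⟩)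
  refine h1.congr fun k => ?_
  simp [VV]

theorem Sit.latB (h : Sit D x bl rg η B a Sd) :
    LatB D x a (fun k => yS (domainSites D (a k))) (fun k => VV x (a k)) :=
  latB_dual h.op h.bd h.pos h.lim h.tip

theorem Sit.lim_BM (h : Sit D x bl rg η B a Sd) (i j : Fin n) :
    Tendsto (fun k => BM (Sd k) (VV x (a k)) i j) atTop (𝓝 (B i j)) := by
  refine (h.H.bb a _ _ h.latB Sd h.cov i j).congr fun k => ?_
  have e1 : kb x (VV x (a k)) i = 1 := kb_mesh x (a k) i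
  have e2 : kb x (VV x (a k)) j = 1 := kb_mesh x (a k) j
  rw [e1, e2, one_mul, one_mul]
  rfl

theorem Sit.lim_mat (h : Sit D x bl rg η B a Sd) :
    Tendsto (fun k => BM (Sd k) (VV x (a k))) atTop (𝓝 B) := by
  exact tendsto_pi_nhds.2 fun i => tendsto_pi_nhds.2 fun j => h.lim_BM i j

theorem Sit.ev_det (h : Sit D x bl rg η B a Sd) :
    ∀ᶠ k in atTop, IsUnit (BM (Sd k) (VV x (a k))).det := by
  have h1 : Tendsto (fun k => (BM (Sd k) (VV x (a k))).det) atTop (𝓝 B.det) :=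
    ((continuous_id.matrix_det).tendsto B).comp h.lim_mat
  filter_upwards [h1.eventually_ne h.det.ne_zero] with k hk
  exact isUnit_iff_ne_zero.2 hk

theorem Sit.lim_BMi (h : Sit D x bl rg η B a Sd) (i j : Fin n) :
    Tendsto (fun k => (BM (Sd k) (VV x (a k)))⁻¹ i j) atTop (𝓝 (B⁻¹ i j)) := by
  have h1 : Tendsto (fun k => (BM (Sd k) (VV x (a k))).det) atTop (𝓝 B.det) :=
    ((continuous_id.matrix_det).tendsto B).comp h.lim_mat
  have h2 : Tendsto (fun k => (BM (Sd k) (VV x (a k))).adjugate) atTop (𝓝 B.adjugate) :=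
    ((continuous_id.matrix_adjugate).tendsto B).comp h.lim_mat
  have h3 : Tendsto (fun k => (BM (Sd k) (VV x (a k))).adjugate i j) atTop (𝓝 (B.adjugate i j)) :=
    (tendsto_pi_nhds.1 (tendsto_pi_nhds.1 h2 i)) j
  have h4 := (h1.inv₀ h.det.ne_zero).mul h3
  simp only [Matrix.inv_def, Ring.inverse_eq_inv', Matrix.smul_apply, smul_eq_mul]
  exact h4

theorem Sit.lim_KL (h : Sit D x bl rg η B a Sd) {z : ℂ} (hz : z ∈ D) (hx : ∀ i, x i ≠ z)
    (j : Fin n) (b : Fin 4) {p : ℕ → ℤ × ℤ}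
    (hp : Tendsto (fun k => meshPoint (a k) (p k)) atTop (𝓝 z)) :
    Tendsto (fun k => (Real.sqrt (a k))⁻¹ * (kap x (VV x (a k)) z (p k) *
      KL (Sd k) (VV x (a k) j) (p k, b))) atTop (𝓝 (η j z (edir b))) := by
  refine (h.H.eta a _ _ h.latB Sd h.cov z hz hx j b p hp).congr fun k => ?_
  have e2 : kb x (VV x (a k)) j = 1 := kb_mesh x (a k) j
  rw [e2, mul_one]
  rfl

/-- limit of the bordered kernel -/
theorem Sit.lim_SX (h : Sit D x bl rg η B a Sd) {z z' : ℂ} (hz : z ∈ D) (hz' : z' ∈ D)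
    (hzz : z ≠ z') (hx : ∀ i, x i ≠ z) (hx' : ∀ i, x i ≠ z') (b b' : Fin 4) {p q : ℕ → ℤ × ℤ}
    (hp : Tendsto (fun k => meshPoint (a k) (p k)) atTop (𝓝 z))
    (hq : Tendsto (fun k => meshPoint (a k) (q k)) atTop (𝓝 z')) :
    Tendsto (fun k => (a k)⁻¹ * (kap x (VV x (a k)) z (p k) * kap x (VV x (a k)) z' (q k) *
      SX (Sd k) (VV x (a k)) (p k, b) (q k, b'))) atTop
      (𝓝 ((bl z z' + cor η B z z') (edir b) (edir b'))) := by
  have h1 := h.H.off a _ _ h.latB Sd h.cov z z' hz hz' hzz hx hx' b b' p q hp hq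
  have h2 := tendsto_finsetSum (univ : Finset (Fin n)) fun i _ =>
    tendsto_finsetSum (univ : Finset (Fin n)) fun j _ =>
      ((h.lim_KL hz hx i b hp).mul (h.lim_BMi i j)).mul (h.lim_KL hz' hx' j b' hq)
  rw [LinearMap.add_apply, LinearMap.add_apply, cor_apply]
  refine (h1.add h2).congr fun k => ?_
  have e : (a k)⁻¹ = (Real.sqrt (a k))⁻¹ * (Real.sqrt (a k))⁻¹ := by
    rw [← mul_inv, Real.mul_self_sqrt (h.pos k).le]
  unfold SX
  rw [mul_add, mul_add]
  congr 1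
  simp only [Finset.mul_sum]
  refine sum_congr rfl fun i _ => sum_congr rfl fun j _ => ?_
  rw [e]
  ring

end sit

end Crest.Agent.R165.Fr5x802
end
end

-- ▼ part R165/Fr6_802
section

/-!
# Row 165 (S0250), leaf FREE TRANSFER, part 6 (helper802): kernel limits of the free covariance

* `Sit.lim_psi` : limit of the dual field of a column of the free covariance
* `Sit.lim_S` : `a⁻¹ κ κ' S^free((f,i),(f',i')) → (bl + cor) (-i e_i) (i e_i')`
* `Sit.lim_diag` : one bond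
-/

set_option autoImplicit false
set_option linter.unusedSimpArgs false
set_option linter.unusedSectionVars false

noncomputable section

open Filter Topology Finset
open Crest.ProbabilityR.IsingModel

namespace Crest.Agent.R165.Fr6x802

open Crest.Agent.R165.Latx683 (BW HE wX wDom ray IsCov)
open Crest.Agent.R165.UKerx420 (kap edir hb cB kap_sq)
open Crest.Agent.R165.FrIx802
open Crest.Agent.R165.Fr1x802 (wp wd ys st OK cw du inv_S inv_N inv_W inv_E)
open Crest.Agent.R165.Fr2x802 (FS BM KL NN SX Vs Gh psi_SX SX_anti)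
open Crest.Agent.R165.Fr3x802 Crest.Agent.R165.Fr4x802 Crest.Agent.R165.Fr5x802

section sit
variable {D : Set ℂ} {n : ℕ} {x : Fin n → ℂ} {bl : ℂ → ℂ → LinearMap.BilinForm ℝ ℂ}
  {rg : ℂ → LinearMap.BilinForm ℝ ℂ} {η : Fin n → ℂ → ℂ →ₗ[ℝ] ℝ} {B : Matrix (Fin n) (Fin n) ℝ}
  {a : ℕ → ℝ} {Sd S : ℕ → HE ℤ → HE ℤ → ℝ}

theorem ev_sign (h : Sit D x bl rg η B a Sd) {z : ℂ} (hx : ∀ i, x i ≠ z) {f : ℕ → ℤ × ℤ}
    (hf : Tendsto (fun k => meshPoint (a k) (f k)) atTop (𝓝 z)) :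
    ∀ᶠ k in atTop, kap x (VV x (a k)) z ((f k).1, (f k).2 + 1) =
      kap x (VV x (a k)) z (f k) * rs (VV x (a k)) ((f k).1, (f k).2 + 1) := by
  have h1 := ray_kap h.pos h.tip hx (mesh_shift h.lim hf 0 1)
  filter_upwards [h1] with k hk
  simp only [add_zero, add_sub_cancel_right, Prod.mk.eta] at hk
  rw [hk]
  linear_combination (-kap x (VV x (a k)) z ((f k).1, (f k).2 + 1)) * kap_sq x (VV x (a k)) z (f k)

/-- the dual field -/
def Ps (D : Set ℂ) (x : Fin n → ℂ) (a : ℝ) (S : HE ℤ → HE ℤ → ℝ) (h' k : HE ℤ) : ℝ :=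
  du (wDom (domainSites D a) true) (rs (VV x a)) (fun h => S h h') k

theorem fs_VV (h : Sit D x bl rg η B a Sd) :
    ∀ᶠ k in atTop, Function.Injective (VV x (a k)) := by
  have key : ∀ i j, i ≠ j → ∀ᶠ k in atTop, VV x (a k) i ≠ VV x (a k) j := fun i j hij =>
    ev_ne (fun e => hij (h.inj e)) (h.tip i) (h.tip j)
  have h1 : ∀ᶠ k in atTop, ∀ i j, i ≠ j → VV x (a k) i ≠ VV x (a k) j := by
    rw [eventually_all]; intro i
    rw [eventually_all]; intro j
    by_cases hij : i = j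
    · exact Eventually.of_forall fun k hne => absurd hij hne
    · exact (key i j hij).mono fun k hk _ => hk
  filter_upwards [h1] with k hk i j e
  by_contra hij
  exact hk i j hij e

theorem fin_T (h : Sit D x bl rg η B a Sd) (k : ℕ) : (domainSites D (a k)).Finite :=
  Redx541.domainSites_finite h.bd (h.pos k)

/-- the exact formula, eventually -/
theorem ev_psi (h : Sit D x bl rg η B a Sd)
    (hS : ∀ k, IsCov (wX (wDom (domainSites D (a k)) true) (VV x (a k))) (S k))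
    {z' : ℂ} (hx' : ∀ i, x i ≠ z') {q : ℕ → ℤ × ℤ}
    (hq : Tendsto (fun k => meshPoint (a k) (q k)) atTop (𝓝 z')) :
    ∀ᶠ k in atTop, ∀ (i' : Fin 4) (k' : HE ℤ), Ps D x (a k) (S k) (q k, i') k' =
      ∑ v ∈ Vs (q k), ∑ i, SX (Sd k) (VV x (a k)) k' (v, i) *
        Gh (rs (VV x (a k))) (q k, i') (v, i) := by
  have h1 : ∀ᶠ k in atTop, ∀ i, VV x (a k) i ∉ Vs (q k) := by
    rw [eventually_all]
    exact fun i => ev_notin h.lim (hx' i) (h.tip i) hq
  filter_upwards [h1, h.ev_det, fs_VV h] with k h1 h2 h3 i' k'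
  exact psi_SX (fs_free _ h3) (finv_dual (fin_T h k) (h.cov k)) (isInv_free (hS k)) h2 (q k, i') k' h1

/-- limit of the dual field -/
theorem lim_psi (h : Sit D x bl rg η B a Sd)
    (hS : ∀ k, IsCov (wX (wDom (domainSites D (a k)) true) (VV x (a k))) (S k))
    {z z' : ℂ} (hz : z ∈ D) (hz' : z' ∈ D) (hzz : z ≠ z') (hx : ∀ i, x i ≠ z) (hx' : ∀ i, x i ≠ z')
    (b i' : Fin 4) {p q : ℕ → ℤ × ℤ}
    (hp : Tendsto (fun k => meshPoint (a k) (p k)) atTop (𝓝 z))
    (hq : Tendsto (fun k => meshPoint (a k) (q k)) atTop (𝓝 z')) :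
    Tendsto (fun k => (a k)⁻¹ * (kap x (VV x (a k)) z (p k) * kap x (VV x (a k)) z' (q k) *
      Ps D x (a k) (S k) (q k, i') (p k, b))) atTop
      (𝓝 ((bl z z' + cor η B z z') (edir b) (Complex.I * edir i'))) := by
  have L := fun (c d : ℤ) (j : Fin 4) =>
    h.lim_SX hz hz' hzz hx hx' b j hp (mesh_shift h.lim hq c d)
  have L0 := fun (j : Fin 4) => h.lim_SX hz hz' hzz hx hx' b j hp hq
  have hps := ev_psi h hS hx' hq
  have hsg := ev_sign h hx' hq
  set β := bl z z' + cor η B z z' with hβ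
  fin_cases i'
  · show Tendsto (fun k => (a k)⁻¹ * (kap x (VV x (a k)) z (p k) * kap x (VV x (a k)) z' (q k) *
      Ps D x (a k) (S k) (q k, 0) (p k, b))) atTop (𝓝 (β (edir b) (Complex.I * edir 0)))
    have e : β (edir b) (Complex.I * edir 0) =
        (-β (edir b) (edir 0) - β (edir b) (edir 1) + β (edir b) (edir 2) + β (edir b) (edir 3)) / 2 +
        (β (edir b) (edir 0) + β (edir b) (edir 1) + β (edir b) (edir 2) - β (edir b) (edir 3)) / 2 := by
      rw [I_edir0]; ring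
    rw [e]
    refine Tendsto.congr' ?_ ((((((L0 0).neg.sub (L0 1)).add (L0 2)).add (L0 3)).div_const 2).add
      ((((((L 1 0 0).add (L 1 0 1)).add (L 1 0 2)).sub (L 1 0 3)).div_const 2)))
    filter_upwards [hps] with k hk
    rw [hk 0, sum_Gh0]
    have e1 : kap x (VV x (a k)) z' ((q k).1 + 1, (q k).2 + 0) = kap x (VV x (a k)) z' (q k) :=
      kap_row _ _ _ (by simp)
    rw [e1]
    simp only [add_zero]
    ring
  · show Tendsto (fun k => (a k)⁻¹ * (kap x (VV x (a k)) z (p k) * kap x (VV x (a k)) z' (q k) *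
      Ps D x (a k) (S k) (q k, 1) (p k, b))) atTop (𝓝 (β (edir b) (Complex.I * edir 1)))
    have e : β (edir b) (Complex.I * edir 1) =
        -(β (edir b) (edir 0) + β (edir b) (edir 1) + β (edir b) (edir 2) - β (edir b) (edir 3)) / 2 +
        (β (edir b) (edir 0) + β (edir b) (edir 1) + β (edir b) (edir 2) + β (edir b) (edir 3)) / 2 := by
      rw [I_edir1]; ring
    rw [e]
    refine Tendsto.congr' ?_ (((((((L 1 0 0).add (L 1 0 1)).add (L 1 0 2)).sub
      (L 1 0 3)).neg.div_const 2)).add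
      ((((((L 1 1 0).add (L 1 1 1)).add (L 1 1 2)).add (L 1 1 3)).div_const 2)))
    filter_upwards [hps, hsg] with k hk hs
    rw [hk 1, sum_Gh1]
    have e1 : kap x (VV x (a k)) z' ((q k).1 + 1, (q k).2 + 0) = kap x (VV x (a k)) z' (q k) :=
      kap_row _ _ _ (by simp)
    have e2 : kap x (VV x (a k)) z' ((q k).1 + 1, (q k).2 + 1) =
        kap x (VV x (a k)) z' (q k) * rs (VV x (a k)) ((q k).1, (q k).2 + 1) :=
      (kap_row _ _ _ rfl).trans hs
    rw [e1, e2]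
    simp only [add_zero]
    ring
  · show Tendsto (fun k => (a k)⁻¹ * (kap x (VV x (a k)) z (p k) * kap x (VV x (a k)) z' (q k) *
      Ps D x (a k) (S k) (q k, 2) (p k, b))) atTop (𝓝 (β (edir b) (Complex.I * edir 2)))
    have e : β (edir b) (Complex.I * edir 2) =
        (-β (edir b) (edir 0) + β (edir b) (edir 1) + β (edir b) (edir 2) + β (edir b) (edir 3)) / 2 -
        (β (edir b) (edir 0) + β (edir b) (edir 1) + β (edir b) (edir 2) + β (edir b) (edir 3)) / 2 := by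
      rw [I_edir2, map_neg]; ring
    rw [e]
    refine Tendsto.congr' ?_ (((((((L 0 1 0).neg.add (L 0 1 1)).add (L 0 1 2)).add
      (L 0 1 3)).div_const 2)).sub
      ((((((L 1 1 0).add (L 1 1 1)).add (L 1 1 2)).add (L 1 1 3)).div_const 2)))
    filter_upwards [hps, hsg] with k hk hs
    rw [hk 2, sum_Gh2]
    have e1 : kap x (VV x (a k)) z' ((q k).1 + 0, (q k).2 + 1) =
        kap x (VV x (a k)) z' (q k) * rs (VV x (a k)) ((q k).1, (q k).2 + 1) :=
      (kap_row _ _ _ rfl).trans hs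
    have e2 : kap x (VV x (a k)) z' ((q k).1 + 1, (q k).2 + 1) =
        kap x (VV x (a k)) z' (q k) * rs (VV x (a k)) ((q k).1, (q k).2 + 1) :=
      (kap_row _ _ _ rfl).trans hs
    rw [e1, e2]
    simp only [add_zero]
    ring
  · show Tendsto (fun k => (a k)⁻¹ * (kap x (VV x (a k)) z (p k) * kap x (VV x (a k)) z' (q k) *
      Ps D x (a k) (S k) (q k, 3) (p k, b))) atTop (𝓝 (β (edir b) (Complex.I * edir 3)))
    have e : β (edir b) (Complex.I * edir 3) =
        (-β (edir b) (edir 0) - β (edir b) (edir 1) + β (edir b) (edir 2) + β (edir b) (edir 3)) / 2 -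
        (-β (edir b) (edir 0) + β (edir b) (edir 1) + β (edir b) (edir 2) + β (edir b) (edir 3)) / 2 := by
      rw [I_edir3, map_neg]; ring
    rw [e]
    refine Tendsto.congr' ?_ ((((((L0 0).neg.sub (L0 1)).add (L0 2)).add (L0 3)).div_const 2).sub
      ((((((L 0 1 0).neg.add (L 0 1 1)).add (L 0 1 2)).add (L 0 1 3)).div_const 2)))
    filter_upwards [hps, hsg] with k hk hs
    rw [hk 3, sum_Gh3]
    have e1 : kap x (VV x (a k)) z' ((q k).1 + 0, (q k).2 + 1) =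
        kap x (VV x (a k)) z' (q k) * rs (VV x (a k)) ((q k).1, (q k).2 + 1) :=
      (kap_row _ _ _ rfl).trans hs
    rw [e1]
    simp only [add_zero]
    ring

/-- sites near an interior point are in the domain -/
theorem ev_in (h : Sit D x bl rg η B a Sd) {z : ℂ} (hz : z ∈ D) {f : ℕ → ℤ × ℤ}
    (hf : Tendsto (fun k => meshPoint (a k) (f k)) atTop (𝓝 z)) :
    ∀ᶠ k in atTop, f k ∈ domainSites D (a k) := hf.eventually (h.op.mem_nhds hz)

/-- interior bonds -/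
theorem ev_bond (h : Sit D x bl rg η B a Sd) {z : ℂ} (hz : z ∈ D) {f : ℕ → ℤ × ℤ}
    (hf : Tendsto (fun k => meshPoint (a k) (f k)) atTop (𝓝 z)) (j : Fin 2) :
    ∀ᶠ k in atTop, 1 + wDom (domainSites D (a k)) true (f k) j = Real.sqrt 2 := by
  have h1 : Tendsto (fun k => meshPoint (a k) (f k + unitVec j)) atTop (𝓝 z) :=
    mesh_shift h.lim hf (unitVec j).1 (unitVec j).2
  filter_upwards [ev_in h hz hf, ev_in h hz h1] with k h2 h3
  rw [wDom_free_in h2 h3]
  unfold Latx683.xc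
  ring

/-- **limit of the free covariance, two different points** -/
theorem lim_S (h : Sit D x bl rg η B a Sd)
    (hS : ∀ k, IsCov (wX (wDom (domainSites D (a k)) true) (VV x (a k))) (S k))
    {z z' : ℂ} (hz : z ∈ D) (hz' : z' ∈ D) (hzz : z ≠ z') (hx : ∀ i, x i ≠ z) (hx' : ∀ i, x i ≠ z')
    (i i' : Fin 4) {p q : ℕ → ℤ × ℤ}
    (hp : Tendsto (fun k => meshPoint (a k) (p k)) atTop (𝓝 z))
    (hq : Tendsto (fun k => meshPoint (a k) (q k)) atTop (𝓝 z')) :
    Tendsto (fun k => (a k)⁻¹ * (kap x (VV x (a k)) z (p k) * kap x (VV x (a k)) z' (q k) *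
      S k (p k, i) (q k, i'))) atTop
      (𝓝 (tw (bl z z' + cor η B z z') (edir i) (edir i'))) := by
  have L := fun (c d : ℤ) (j : Fin 4) =>
    lim_psi h hS hz hz' hzz hx hx' j i' (mesh_shift h.lim hp c d) hq
  have L0 := fun (j : Fin 4) => lim_psi h hS hz hz' hzz hx hx' j i' hp hq
  have hsg := ev_sign h hx hp
  have h2 := sq2_ne
  rw [tw_apply]
  set β := bl z z' + cor η B z z' with hβ
  fin_cases i
  · show Tendsto (fun k => (a k)⁻¹ * (kap x (VV x (a k)) z (p k) * kap x (VV x (a k)) z' (q k) *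
      S k (p k, 0) (q k, i'))) atTop (𝓝 (β (-Complex.I * edir 0) (Complex.I * edir i')))
    rw [nI_edir0, map_smul, LinearMap.smul_apply, map_add, LinearMap.add_apply, smul_eq_mul]
    refine Tendsto.congr' ?_ (((L0 1).add (L 1 0 3)).const_mul (Real.sqrt 2)⁻¹)
    filter_upwards [ev_bond h hz hp 0] with k hb
    have e := inv_S (wDom (domainSites D (a k)) true) (rs (VV x (a k)))
      (fun h => S k h (q k, i')) (p k)
    have e1 : kap x (VV x (a k)) z ((p k).1 + 1, (p k).2 + 0) = kap x (VV x (a k)) z (p k) :=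
      kap_row _ _ _ (by simp)
    rw [hb] at e
    rw [e1]
    unfold Ps
    simp only [add_zero]
    rw [inv_mul_eq_iff_eq_mul₀ h2]
    linear_combination (-(a k)⁻¹ * (kap x (VV x (a k)) z (p k) * kap x (VV x (a k)) z' (q k))) * e
  · show Tendsto (fun k => (a k)⁻¹ * (kap x (VV x (a k)) z (p k) * kap x (VV x (a k)) z' (q k) *
      S k (p k, 1) (q k, i'))) atTop (𝓝 (β (-Complex.I * edir 1) (Complex.I * edir i')))
    rw [nI_edir1, map_smul, LinearMap.smul_apply, map_sub, LinearMap.sub_apply, smul_eq_mul]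
    refine Tendsto.congr' ?_ (((L 1 0 2).sub (L 1 1 0)).const_mul (Real.sqrt 2)⁻¹)
    have hsg' := ev_sign h hx (mesh_shift h.lim hp 1 0)
    filter_upwards [ev_bond h hz (mesh_shift h.lim hp 1 0) 1, hsg'] with k hb hs
    have e := inv_E (wDom (domainSites D (a k)) true) (rs (VV x (a k)))
      (fun h => S k h (q k, i')) ((p k).1 + 1, (p k).2 + 0) (ok_free _ _)
    have e1 : kap x (VV x (a k)) z ((p k).1 + 1, (p k).2 + 0) = kap x (VV x (a k)) z (p k) :=
      kap_row _ _ _ (by simp)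
    rw [hb] at e
    simp only [add_zero, add_sub_cancel_right, Prod.mk.eta] at e hs e1 ⊢
    rw [hs, e1]
    unfold Ps
    rw [inv_mul_eq_iff_eq_mul₀ h2]
    linear_combination (-(a k)⁻¹ * (kap x (VV x (a k)) z (p k) * kap x (VV x (a k)) z' (q k))) * e
  · show Tendsto (fun k => (a k)⁻¹ * (kap x (VV x (a k)) z (p k) * kap x (VV x (a k)) z' (q k) *
      S k (p k, 2) (q k, i'))) atTop (𝓝 (β (-Complex.I * edir 2) (Complex.I * edir i')))
    rw [nI_edir2, map_smul, LinearMap.smul_apply, map_sub, LinearMap.sub_apply, smul_eq_mul]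
    refine Tendsto.congr' ?_ (((L 1 1 3).sub (L 0 1 1)).const_mul (Real.sqrt 2)⁻¹)
    filter_upwards [ev_bond h hz (mesh_shift h.lim hp 0 1) 0, hsg] with k hb hs
    have e := inv_N (wDom (domainSites D (a k)) true) (rs (VV x (a k)))
      (fun h => S k h (q k, i')) ((p k).1 + 0, (p k).2 + 1) (ok_free _ _)
    have e1 : kap x (VV x (a k)) z ((p k).1 + 1, (p k).2 + 1) =
        kap x (VV x (a k)) z ((p k).1, (p k).2 + 1) := kap_row _ _ _ rfl
    rw [hb] at e
    simp only [add_zero, add_sub_cancel_right, Prod.mk.eta] at e hs e1 ⊢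
    rw [e1, hs]
    unfold Ps
    rw [inv_mul_eq_iff_eq_mul₀ h2]
    linear_combination (-(a k)⁻¹ * (kap x (VV x (a k)) z (p k) * kap x (VV x (a k)) z' (q k))) * e
  · show Tendsto (fun k => (a k)⁻¹ * (kap x (VV x (a k)) z (p k) * kap x (VV x (a k)) z' (q k) *
      S k (p k, 3) (q k, i'))) atTop (𝓝 (β (-Complex.I * edir 3) (Complex.I * edir i')))
    rw [nI_edir3, map_smul, LinearMap.smul_apply, map_neg, LinearMap.neg_apply, map_add,
      LinearMap.add_apply, smul_eq_mul]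
    refine Tendsto.congr' ?_ (((L0 2).add (L 0 1 0)).neg.const_mul (Real.sqrt 2)⁻¹)
    filter_upwards [ev_bond h hz hp 1, hsg] with k hb hs
    have e := inv_W (wDom (domainSites D (a k)) true) (rs (VV x (a k)))
      (fun h => S k h (q k, i')) (p k) (ok_free _ _)
    rw [hb] at e
    simp only [add_zero, add_sub_cancel_right, Prod.mk.eta] at e hs ⊢
    rw [hs]
    unfold Ps
    rw [inv_mul_eq_iff_eq_mul₀ h2]
    linear_combination (-(a k)⁻¹ * (kap x (VV x (a k)) z (p k) * kap x (VV x (a k)) z' (q k))) * e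

end sit

end Crest.Agent.R165.Fr6x802
end
end

-- ▼ part R165/Fr7_802

/-!
# Row 165 (S0250), leaf FREE TRANSFER, part 7 (helper802): the kernel limits of the free covariance

* `Sit.lim_diag` : one bond
* `kerD_free` : `KerD true D x (blF ..) (rgF ..)` from `PlusIn D x bl rg η B`, `det B ≠ 0`
* `kerCov_free` : covariance, from `PlusCov`
* `KerD.unique` : uniqueness of the limits (given existence of the covariances)
-/

set_option autoImplicit false
set_option linter.unusedSimpArgs false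
set_option linter.unusedSectionVars false

noncomputable section

open Filter Topology Finset
open Crest.ProbabilityR.IsingModel

namespace Crest.Agent.R165.Fr7x802

open Crest.Agent.R165.Latx683 (BW HE wX wDom ray IsCov)
open Crest.Agent.R165.UDomBx420 (ed cP)
open Crest.Agent.R165.UKerx420 (kap edir hb cB kap_sq edir_hb KerD KerCov wD fpt)
open Crest.Agent.R165.FrIx802
open Crest.Agent.R165.Fr1x802 (wp wd ys st OK cw du)
open Crest.Agent.R165.Fr2x802 (FS BM KL NN SX Vs Gh psi_SX SX_anti BM_transpose)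
open Crest.Agent.R165.Fr3x802 Crest.Agent.R165.Fr4x802 Crest.Agent.R165.Fr5x802
open Crest.Agent.R165.Fr6x802

/-! ### antisymmetric matrices, alternating forms -/

theorem inv_anti {n : ℕ} {M : Matrix (Fin n) (Fin n) ℝ} (hM : M.transpose = -M) (i j : Fin n) :
    M⁻¹ i j = -M⁻¹ j i := by
  have h1 : (M⁻¹).transpose = -M⁻¹ := by
    rw [Matrix.transpose_nonsing_inv, hM]
    by_cases hu : IsUnit M.det
    · apply Matrix.inv_eq_left_inv
      rw [neg_mul_neg, Matrix.nonsing_inv_mul _ hu]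
    · have hu' : ¬IsUnit (-M).det := by
        rw [Matrix.det_neg]
        intro hc
        exact hu (isUnit_of_mul_isUnit_right hc)
      rw [Matrix.nonsing_inv_apply_not_isUnit _ hu', Matrix.nonsing_inv_apply_not_isUnit _ hu,
        neg_zero]
  have h2 := congrFun (congrFun h1 j) i
  rw [Matrix.transpose_apply, Matrix.neg_apply] at h2
  exact h2

theorem cor_skew {n : ℕ} {η : Fin n → ℂ → ℂ →ₗ[ℝ] ℝ} {B : Matrix (Fin n) (Fin n) ℝ}
    (hB : B.transpose = -B) (z z' c c' : ℂ) : cor η B z z' c c' = -cor η B z' z c' c := by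
  rw [cor_apply, cor_apply, sum_comm, ← sum_neg_distrib]
  refine sum_congr rfl fun i _ => ?_
  rw [← sum_neg_distrib]
  refine sum_congr rfl fun j _ => ?_
  rw [inv_anti hB j i]
  ring

theorem alt_swap {b : LinearMap.BilinForm ℝ ℂ} (hb : ∀ c, b c c = 0) (c c' : ℂ) :
    b c c' = -b c' c := by
  have h := hb (c + c')
  simp only [map_add, LinearMap.add_apply, hb, zero_add, add_zero] at h
  linarith

theorem edir0_eq : edir 0 = (Real.sqrt 2 / 2) • (edir 3 - edir 1) := by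
  rw [edir0, edir1, edir3]; apply Complex.ext <;> simp
theorem edir2_eq : edir 2 = (Real.sqrt 2 / 2) • (-(edir 3 + edir 1)) := by
  rw [edir2, edir1, edir3]; apply Complex.ext <;> simp

theorem half_sq : Real.sqrt 2 / 2 * (Real.sqrt 2 / 2) = 1 / 2 := by
  linear_combination (1 / 4) * sq2

theorem alt_SN {b : LinearMap.BilinForm ℝ ℂ} (hb : ∀ c, b c c = 0) :
    b (edir 0) (edir 2) = b (edir 1) (edir 3) := by
  rw [edir0_eq, edir2_eq]
  simp only [map_smul, LinearMap.smul_apply, map_sub, map_neg, map_add, LinearMap.sub_apply,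
    LinearMap.neg_apply, LinearMap.add_apply, smul_eq_mul, hb]
  rw [alt_swap hb (edir 3) (edir 1)]
  linear_combination 2 * (b (edir 1) (edir 3)) * half_sq

theorem tw_EW {b : LinearMap.BilinForm ℝ ℂ} (hb : ∀ c, b c c = 0) :
    tw b (edir 1) (edir 3) = -b (edir 1) (edir 3) := by
  rw [tw_apply, I_edir3, nI_edir1, ← alt_SN hb]
  have h2 := sq2_ne
  have e : (Real.sqrt 2)⁻¹ • (edir 2 - edir 0) = -edir 3 := by
    rw [edir0, edir2, edir3]; apply Complex.ext <;> simp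
    field_simp
    rw [sq2_pow]; norm_num
  rw [e]
  simp only [map_neg, LinearMap.neg_apply]
  rw [alt_SN hb, alt_swap hb (edir 3) (edir 1)]
  ring

theorem tw_SN {b : LinearMap.BilinForm ℝ ℂ} (hb : ∀ c, b c c = 0) :
    tw b (edir 0) (edir 2) = -b (edir 1) (edir 3) := by
  rw [tw_apply, I_edir2, nI_edir0]
  have h2 := sq2_ne
  have e : (Real.sqrt 2)⁻¹ • (edir 1 + edir 3) = -edir 2 := by
    rw [edir2, edir1, edir3]; apply Complex.ext <;> simp
  rw [e]
  simp only [map_neg, LinearMap.neg_apply]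
  rw [alt_swap hb (edir 2) (edir 0), alt_SN hb]
  ring

theorem tw_alt {b : LinearMap.BilinForm ℝ ℂ} (hb : ∀ c, b c c = 0) (c : ℂ) : tw b c c = 0 := by
  rw [tw_apply]
  have e : -Complex.I * c = -(Complex.I * c) := by ring
  rw [e, map_neg, LinearMap.neg_apply, hb, neg_zero]

section sit
variable {D : Set ℂ} {n : ℕ} {x : Fin n → ℂ} {bl : ℂ → ℂ → LinearMap.BilinForm ℝ ℂ}
  {rg : ℂ → LinearMap.BilinForm ℝ ℂ} {η : Fin n → ℂ → ℂ →ₗ[ℝ] ℝ} {B : Matrix (Fin n) (Fin n) ℝ}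
  {a : ℕ → ℝ} {Sd S : ℕ → HE ℤ → HE ℤ → ℝ}

theorem sit_anti (h : Sit D x bl rg η B a Sd) : B.transpose = -B := by
  ext i j
  rw [Matrix.transpose_apply, Matrix.neg_apply]
  have h1 := h.lim_BM j i
  have h2 := (h.lim_BM i j).neg
  refine tendsto_nhds_unique h1 (h2.congr fun k => ?_)
  have := congrFun (congrFun (BM_transpose (X := VV x (a k)) (h.cov k).skew) i) j
  rw [Matrix.transpose_apply, Matrix.neg_apply] at this
  exact this.symm

theorem sit_alt (h : Sit D x bl rg η B a Sd) {z : ℂ} (hz : z ∈ D) (hx : ∀ i, x i ≠ z) (c : ℂ) :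
    (rg z + cor η B z z) c c = 0 := by
  rw [LinearMap.add_apply, LinearMap.add_apply, h.H.alt z hz hx c]
  have := cor_skew (η := η) (sit_anti h) z z c c
  linarith

/-- limit of the bordered kernel at one bond -/
theorem lim_SXd (h : Sit D x bl rg η B a Sd) {z : ℂ} (hz : z ∈ D) (hx : ∀ i, x i ≠ z)
    (j : Fin 2) {p : ℕ → ℤ × ℤ} (hp : Tendsto (fun k => meshPoint (a k) (p k)) atTop (𝓝 z)) :
    Tendsto (fun k => (a k)⁻¹ * (kap x (VV x (a k)) z (hb (p k) j 0).1 *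
      kap x (VV x (a k)) z (hb (p k) j 1).1 *
      SX (Sd k) (VV x (a k)) (hb (p k) j 0) (hb (p k) j 1) - cP)) atTop
      (𝓝 ((rg z + cor η B z z) (ed j 0) (ed j 1))) := by
  have h1 := h.H.diag a _ _ h.latB Sd h.cov z hz hx j 0 1 p hp
  have hcB : cB 0 1 = cP := by simp [cB]
  rw [hcB] at h1
  have hk : ∀ i : Fin 2, Tendsto (fun k => meshPoint (a k) (hb (p k) j i).1) atTop (𝓝 z) := by
    intro i
    fin_cases j <;> fin_cases i
    · exact hp
    · have := mesh_shift h.lim hp 0 (-1)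
      refine this.congr fun k => ?_
      simp [hb, Latx683.hq, sub_eq_add_neg]
    · have := mesh_shift h.lim hp (-1) 0
      refine this.congr fun k => ?_
      simp [hb, Latx683.hp, sub_eq_add_neg]
    · exact hp
  have hdir : ∀ (i : Fin 2) (v : ℤ × ℤ), (hb v j i).2 = (hb 0 j i).2 := by
    intro i v
    fin_cases j <;> fin_cases i <;> rfl
  have hh : ∀ (i : Fin 2) (v : ℤ × ℤ), hb v j i = ((hb v j i).1, (hb 0 j i).2) := fun i v => by
    rw [← hdir i v]
  have h2 := tendsto_finsetSum (univ : Finset (Fin n)) fun i _ =>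
    tendsto_finsetSum (univ : Finset (Fin n)) fun i' _ =>
      ((h.lim_KL hz hx i (hb 0 j 0).2 (hk 0)).mul (h.lim_BMi i i')).mul
        (h.lim_KL hz hx i' (hb 0 j 1).2 (hk 1))
  rw [LinearMap.add_apply, LinearMap.add_apply, cor_apply]
  rw [edir_hb, edir_hb] at h2
  refine (h1.add h2).congr fun k => ?_
  have e : (a k)⁻¹ = (Real.sqrt (a k))⁻¹ * (Real.sqrt (a k))⁻¹ := by
    rw [← mul_inv, Real.mul_self_sqrt (h.pos k).le]
  rw [← hh, ← hh]
  unfold SX
  rw [mul_add, add_sub_right_comm, mul_add ((a k)⁻¹)]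
  congr 1
  simp only [Finset.mul_sum]
  refine sum_congr rfl fun i _ => sum_congr rfl fun j _ => ?_
  rw [e]
  ring

/-- limit of the free covariance at one bond -/
theorem lim_diag01 (h : Sit D x bl rg η B a Sd)
    (hS : ∀ k, IsCov (wX (wDom (domainSites D (a k)) true) (VV x (a k))) (S k))
    {z : ℂ} (hz : z ∈ D) (hx : ∀ i, x i ≠ z) (j : Fin 2) {p : ℕ → ℤ × ℤ}
    (hp : Tendsto (fun k => meshPoint (a k) (p k)) atTop (𝓝 z)) :
    Tendsto (fun k => (a k)⁻¹ * (kap x (VV x (a k)) z (hb (p k) j 0).1 *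
      kap x (VV x (a k)) z (hb (p k) j 1).1 * S k (hb (p k) j 0) (hb (p k) j 1) - cP)) atTop
      (𝓝 (tw (rg z + cor η B z z) (ed j 0) (ed j 1))) := by
  have hval : (Real.sqrt 2)⁻¹ = Real.sqrt 2 / 2 := by
    rw [inv_eq_iff_eq_inv, inv_div, eq_div_iff sq2_ne]; exact sq2
  have hxc : 1 + Latx683.xc = Real.sqrt 2 := by unfold Latx683.xc; ring
  have halt := fun c => sit_alt h hz hx c
  fin_cases j
  · -- horizontal bond
    have e : tw (rg z + cor η B z z) (ed 0 0) (ed 0 1) =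
        -(rg z + cor η B z z) (ed 1 0) (ed 1 1) := tw_SN halt
    show Tendsto _ atTop (𝓝 (tw (rg z + cor η B z z) (ed 0 0) (ed 0 1)))
    rw [e]
    refine Tendsto.congr' ?_ (lim_SXd h hz hx 1 (mesh_shift h.lim hp 1 0)).neg
    have hv : ∀ᶠ k in atTop, ∀ i, VV x (a k) i ∉ Vs ((p k).1, (p k).2 - 1) := by
      rw [eventually_all]
      intro i
      have := ev_notin h.lim (hx i) (h.tip i) (mesh_shift h.lim hp 0 (-1))
      refine this.mono fun k hk => ?_
      simpa [sub_eq_add_neg] using hk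
    have hin := ev_in h hz hp
    have hin' : ∀ᶠ k in atTop, p k + unitVec 0 ∈ domainSites D (a k) :=
      ev_in h hz (mesh_shift h.lim hp (unitVec 0).1 (unitVec 0).2)
    filter_upwards [hv, h.ev_det, fs_VV h, hin, hin', ray_kap h.pos h.tip hx hp]
      with k h1 h2 h3 h4 h5 h6
    have key := bond_h (fs_free _ h3) (finv_dual (fin_T h k) (h.cov k)) (isInv_free (hS k)) h2
      (p k) h1
    rw [wDom_free_in h4 h5, st_xc, hxc] at key
    show -((a k)⁻¹ * (kap x (VV x (a k)) z ((p k).1 + 1 - 1, (p k).2 + 0) *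
        kap x (VV x (a k)) z ((p k).1 + 1, (p k).2 + 0) *
        SX (Sd k) (VV x (a k)) (((p k).1 + 1 - 1, (p k).2 + 0), 1) (((p k).1 + 1, (p k).2 + 0), 3)
        - cP)) = (a k)⁻¹ * (kap x (VV x (a k)) z (p k) *
        kap x (VV x (a k)) z ((p k).1, (p k).2 - 1) * S k (p k, 0) (((p k).1, (p k).2 - 1), 2) - cP)
    simp only [add_sub_cancel_right, add_zero, Prod.mk.eta]
    have e1 : kap x (VV x (a k)) z ((p k).1 + 1, (p k).2) = kap x (VV x (a k)) z (p k) :=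
      kap_row _ _ _ rfl
    rw [e1, kap_sq, ← h6]
    have key2 : S k (p k, 0) (((p k).1, (p k).2 - 1), 2) = rs (VV x (a k)) (p k) *
        (Real.sqrt 2 / 2 - SX (Sd k) (VV x (a k)) (p k, 1) (((p k).1 + 1, (p k).2), 3)) := by
      rw [← hval]
      have := sq2_ne
      field_simp
      linear_combination key
    rw [key2]
    have hs := rs_sq (VV x (a k)) (p k)
    unfold cP
    linear_combination (-(a k)⁻¹ * (Real.sqrt 2 / 2 -
      SX (Sd k) (VV x (a k)) (p k, 1) (((p k).1 + 1, (p k).2), 3))) * hs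
  · -- vertical bond
    have e : tw (rg z + cor η B z z) (ed 1 0) (ed 1 1) =
        -(rg z + cor η B z z) (ed 0 0) (ed 0 1) :=
      (tw_EW halt).trans (congrArg Neg.neg (alt_SN halt).symm)
    show Tendsto _ atTop (𝓝 (tw (rg z + cor η B z z) (ed 1 0) (ed 1 1)))
    rw [e]
    refine Tendsto.congr' ?_ (lim_SXd h hz hx 0 (mesh_shift h.lim hp 0 1)).neg
    have hv : ∀ᶠ k in atTop, ∀ i, VV x (a k) i ∉ Vs (p k) := by
      rw [eventually_all]
      exact fun i => ev_notin h.lim (hx i) (h.tip i) hp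
    have hin := ev_in h hz hp
    have hin' : ∀ᶠ k in atTop, p k + unitVec 1 ∈ domainSites D (a k) :=
      ev_in h hz (mesh_shift h.lim hp (unitVec 1).1 (unitVec 1).2)
    filter_upwards [hv, h.ev_det, fs_VV h, hin, hin', ev_sign h hx hp] with k h1 h2 h3 h4 h5 h6
    have key := bond_v (fs_free _ h3) (finv_dual (fin_T h k) (h.cov k)) (isInv_free (hS k)) h2
      (p k) h1
    rw [wDom_free_in h4 h5, st_xc, hxc] at key
    show -((a k)⁻¹ * (kap x (VV x (a k)) z ((p k).1 + 0, (p k).2 + 1) *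
        kap x (VV x (a k)) z ((p k).1 + 0, (p k).2 + 1 - 1) *
        SX (Sd k) (VV x (a k)) (((p k).1 + 0, (p k).2 + 1), 0) (((p k).1 + 0, (p k).2 + 1 - 1), 2)
        - cP)) = (a k)⁻¹ * (kap x (VV x (a k)) z ((p k).1 - 1, (p k).2) *
        kap x (VV x (a k)) z (p k) * S k (((p k).1 - 1, (p k).2), 1) (p k, 3) - cP)
    simp only [add_sub_cancel_right, add_zero, Prod.mk.eta]
    have e1 : kap x (VV x (a k)) z ((p k).1 - 1, (p k).2) = kap x (VV x (a k)) z (p k) :=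
      kap_row _ _ _ rfl
    rw [e1, kap_sq, h6]
    have key2 : S k (((p k).1 - 1, (p k).2), 1) (p k, 3) = Real.sqrt 2 / 2 -
        rs (VV x (a k)) ((p k).1, (p k).2 + 1) *
          SX (Sd k) (VV x (a k)) (((p k).1, (p k).2 + 1), 0) (p k, 2) := by
      rw [← hval]
      have := sq2_ne
      field_simp
      linear_combination key
    rw [key2]
    have hs := kap_sq x (VV x (a k)) z (p k)
    unfold cP
    linear_combination (-(a k)⁻¹ * (rs (VV x (a k)) ((p k).1, (p k).2 + 1) *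
          SX (Sd k) (VV x (a k)) (((p k).1, (p k).2 + 1), 0) (p k, 2))) * hs

end sit

/-! ### the theorem -/

/-- reduction of the limit `a → 0+` to sequences -/
theorem seq_red {F : ℝ → ℝ} {l : Filter ℝ} {P : ℝ → Prop} (hP : ∀ᶠ a in 𝓝[>] (0 : ℝ), P a)
    (h : ∀ a : ℕ → ℝ, (∀ k, 0 < a k) → Tendsto a atTop (𝓝 0) → (∀ k, P (a k)) →
      Tendsto (fun k => F (a k)) atTop l) : Tendsto F (𝓝[>] 0) l := by
  refine tendsto_of_seq_tendsto fun u hu => ?_
  have h1 : ∀ᶠ k in atTop, 0 < u k ∧ P (u k) :=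
    (hu.eventually self_mem_nhdsWithin).and (hu.eventually hP)
  obtain ⟨N, hN⟩ := eventually_atTop.1 h1
  have h2 := h (fun k => u (k + N)) (fun k => (hN _ (Nat.le_add_left _ _)).1)
    ((tendsto_nhdsWithin_iff.1 hu).1.comp (tendsto_add_atTop_nat N))
    (fun k => (hN _ (Nat.le_add_left _ _)).2)
  exact (tendsto_add_atTop_iff_nat (f := F ∘ u) N).1 h2

section final
variable {D : Set ℂ} {n : ℕ} {x : Fin n → ℂ} {bl : ℂ → ℂ → LinearMap.BilinForm ℝ ℂ}
  {rg : ℂ → LinearMap.BilinForm ℝ ℂ} {η : Fin n → ℂ → ℂ →ₗ[ℝ] ℝ} {B : Matrix (Fin n) (Fin n) ℝ}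

theorem exists_sit (hD : IsOpen D) (hbd : Bornology.IsBounded D) (hx : ∀ i, x i ∈ D)
    (hinj : Function.Injective x) (H : PlusIn D x bl rg η B) (hB : IsUnit B.det) {a : ℕ → ℝ}
    (pos : ∀ k, 0 < a k) (lim : Tendsto a atTop (𝓝 0)) : ∃ Sd, Sit D x bl rg η B a Sd := by
  have h := fun k => isCov_dual (Redx541.domainSites_finite hbd (pos k))
    (fun i => meshIndex (a k) (x i))
  choose Sd hSd using h
  exact ⟨Sd, ⟨hD, hbd, hx, hinj, H, hB, pos, lim, hSd⟩⟩

theorem B_anti (hD : IsOpen D) (hbd : Bornology.IsBounded D) (hx : ∀ i, x i ∈ D)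
    (hinj : Function.Injective x) (H : PlusIn D x bl rg η B) (hB : IsUnit B.det) :
    B.transpose = -B := by
  obtain ⟨Sd, h⟩ := exists_sit hD hbd hx hinj H hB (a := fun k : ℕ => 1 / ((k : ℝ) + 1))
    (fun k => by positivity) tendsto_one_div_add_atTop_nhds_zero_nat
  exact sit_anti h

open Classical in
/-- the limit kernel of the free covariance -/
def blF (x : Fin n → ℂ) (bl : ℂ → ℂ → LinearMap.BilinForm ℝ ℂ) (η : Fin n → ℂ → ℂ →ₗ[ℝ] ℝ)
    (B : Matrix (Fin n) (Fin n) ℝ) (z z' : ℂ) : LinearMap.BilinForm ℝ ℂ :=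
  if (∀ i, x i ≠ z) ∧ ∀ i, x i ≠ z' then tw (bl z z' + cor η B z z') else 0

open Classical in
/-- its regular part -/
def rgF (x : Fin n → ℂ) (rg : ℂ → LinearMap.BilinForm ℝ ℂ) (η : Fin n → ℂ → ℂ →ₗ[ℝ] ℝ)
    (B : Matrix (Fin n) (Fin n) ℝ) (z : ℂ) : LinearMap.BilinForm ℝ ℂ :=
  if ∀ i, x i ≠ z then tw (rg z + cor η B z z) else 0

theorem blF_eq {z z' : ℂ} (h : ∀ i, x i ≠ z) (h' : ∀ i, x i ≠ z') :
    blF x bl η B z z' = tw (bl z z' + cor η B z z') := by
  unfold blF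
  rw [if_pos ⟨h, h'⟩]

theorem rgF_eq {z : ℂ} (h : ∀ i, x i ≠ z) : rgF x rg η B z = tw (rg z + cor η B z z) := by
  unfold rgF
  rw [if_pos h]

/-- **the kernel limits of the free covariance** -/
theorem kerD_free (hD : IsOpen D) (hbd : Bornology.IsBounded D) (hx : ∀ i, x i ∈ D)
    (hinj : Function.Injective x) (H : PlusIn D x bl rg η B) (hB : IsUnit B.det) :
    KerD true D x (blF x bl η B) (rgF x rg η B) where
  off S hS z z' hz hz' hzz hxz hxz' i i' f f' hf hf' := by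
    rw [blF_eq hxz hxz']
    refine seq_red hS fun a pos lim hSa => ?_
    obtain ⟨Sd, h⟩ := exists_sit hD hbd hx hinj H hB pos lim
    have ha : Tendsto a atTop (𝓝[>] 0) := tendsto_nhdsWithin_iff.2 ⟨lim, Eventually.of_forall pos⟩
    exact lim_S h hSa hz hz' hzz hxz hxz' i i' (hf.comp ha) (hf'.comp ha)
  diag S hS z hz hxz j i i' := by
    rw [rgF_eq hxz]
    refine seq_red hS fun a pos lim hSa => ?_
    obtain ⟨Sd, h⟩ := exists_sit hD hbd hx hinj H hB pos lim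
    have ha : Tendsto a atTop (𝓝[>] 0) := tendsto_nhdsWithin_iff.2 ⟨lim, Eventually.of_forall pos⟩
    have hf : Tendsto (fun k => meshPoint (a k) (meshIndex (a k) z)) atTop (𝓝 z) := by
      have := (UKerx420.tendsto_mesh z 0).comp ha
      refine this.congr fun k => ?_
      simp
    have key := lim_diag01 h hSa hz hxz j hf
    have halt := fun c => tw_alt (sit_alt h hz hxz) c
    by_cases hii : i = i'
    · subst hii
      rw [halt]
      refine tendsto_const_nhds.congr fun k => ?_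
      have e0 : S (a k) (hb (meshIndex (a k) z) j i) (hb (meshIndex (a k) z) j i) = 0 := by
        have := (hSa k).skew (hb (meshIndex (a k) z) j i) (hb (meshIndex (a k) z) j i)
        linarith
      have e1 : cB i i = 0 := by
        unfold cB
        fin_cases i <;> simp
      rw [e0, e1]
      ring
    · have h01 : (i = 0 ∧ i' = 1) ∨ (i = 1 ∧ i' = 0) := by
        fin_cases i <;> fin_cases i' <;> simp_all
      rcases h01 with ⟨rfl, rfl⟩ | ⟨rfl, rfl⟩
      · have e1 : cB 0 1 = cP := by simp [cB]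
        rw [e1]
        exact key
      · have e1 : cB 1 0 = -cP := by simp [cB]
        rw [e1, alt_swap halt]
        refine key.neg.congr fun k => ?_
        have e2 := (hSa k).skew (hb (meshIndex (a k) z) j 1) (hb (meshIndex (a k) z) j 0)
        show -((a k)⁻¹ * (_ * _ * S (a k) _ _ - cP)) = _
        rw [e2]
        show -((a k)⁻¹ * (kap x (VV x (a k)) z _ * kap x (VV x (a k)) z _ * _ - cP)) =
          (a k)⁻¹ * (kap x (VV x (a k)) z _ * kap x (VV x (a k)) z _ * _ - -cP)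
        ring
  skew z z' hz hz' hzz c c' := by
    by_cases h : (∀ i, x i ≠ z) ∧ ∀ i, x i ≠ z'
    · rw [blF_eq h.1 h.2, blF_eq h.2 h.1, tw_apply, tw_apply]
      have h1 := H.skew z z' hz hz' hzz h.1 h.2
      have h2 := cor_skew (η := η) (B_anti hD hbd hx hinj H hB) z z'
      simp only [LinearMap.add_apply]
      rw [h1, h2]
      have e : ∀ u : ℂ, -Complex.I * u = -(Complex.I * u) := fun u => by ring
      simp only [e, map_neg, LinearMap.neg_apply]
      ring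
    · have e1 : blF x bl η B z z' = 0 := by unfold blF; rw [if_neg h]
      have e2 : blF x bl η B z' z = 0 := by unfold blF; rw [if_neg (fun hh => h ⟨hh.2, hh.1⟩)]
      rw [e1, e2]
      simp
  alt z hz c := by
    by_cases h : ∀ i, x i ≠ z
    · rw [rgF_eq h]
      refine tw_alt (fun c => ?_) c
      rw [LinearMap.add_apply, LinearMap.add_apply, H.alt z hz h c]
      have := cor_skew (η := η) (B_anti hD hbd hx hinj H hB) z z c c
      linarith
    · have e1 : rgF x rg η B z = 0 := by unfold rgF; rw [if_neg h]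
      rw [e1]
      simp

end final

/-! ### covariance -/

section cov
variable {D : Set ℂ} {n : ℕ} {x : Fin n → ℂ} {φ : ℂ → ℂ}
  {bl bl' : ℂ → ℂ → LinearMap.BilinForm ℝ ℂ} {rg rg' : ℂ → LinearMap.BilinForm ℝ ℂ}
  {η η' : Fin n → ℂ → ℂ →ₗ[ℝ] ℝ} {B B' : Matrix (Fin n) (Fin n) ℝ}

theorem inv_conj {n : ℕ} {B B' : Matrix (Fin n) (Fin n) ℝ} {ε : Fin n → ℝ} (hε : ∀ i, ε i ^ 2 = 1)
    (h : ∀ i j, B i j = ε i * ε j * B' i j) (i j : Fin n) : B⁻¹ i j = ε i * ε j * B'⁻¹ i j := by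
  have hE : Matrix.diagonal ε * Matrix.diagonal ε = 1 := by
    rw [Matrix.diagonal_mul_diagonal, ← Matrix.diagonal_one]
    congr 1
    funext k
    rw [← sq, hε]
  have e1 : B = Matrix.diagonal ε * B' * Matrix.diagonal ε := by
    ext i j
    rw [Matrix.mul_diagonal, Matrix.diagonal_mul, h]
    ring
  have e2 : (Matrix.diagonal ε)⁻¹ = Matrix.diagonal ε := Matrix.inv_eq_left_inv hE
  rw [e1, Matrix.mul_inv_rev, Matrix.mul_inv_rev, e2, ← mul_assoc, Matrix.mul_diagonal,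
    Matrix.diagonal_mul]
  ring

/-- **covariance of the kernel limits of the free covariance** -/
theorem kerCov_free (h : PlusCov D x φ bl bl' rg rg' η η' B B')
    (hφ : Set.InjOn φ D) (hx : ∀ i, x i ∈ D) :
    KerCov D x φ (blF x bl η B) (blF (fun i => φ (x i)) bl' η' B') (rgF x rg η B)
      (rgF (fun i => φ (x i)) rg' η' B') := by
  obtain ⟨r, ε, hε, hr, h1, h2, h3, h4⟩ := h
  have hne : ∀ z ∈ D, (∀ i, x i ≠ z) → ∀ i, φ (x i) ≠ φ z := fun z hz hxz i e =>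
    hxz i (hφ (hx i) hz e)
  have hcor : ∀ z z', z ∈ D → z' ∈ D → (∀ i, x i ≠ z) → (∀ i, x i ≠ z') → ∀ c c',
      cor η B z z' c c' = cor η' B' (φ z) (φ z') (r z * c) (r z' * c') := by
    intro z z' hz hz' hxz hxz' c c'
    rw [cor_apply, cor_apply]
    refine sum_congr rfl fun i _ => sum_congr rfl fun j _ => ?_
    rw [h3 i z hz hxz, h3 j z' hz' hxz', inv_conj hε h4 i j]
    linear_combination (η' i (φ z) (r z * c) * B'⁻¹ i j * η' j (φ z') (r z' * c')) *
      (ε j ^ 2 * hε i + hε j)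
  refine ⟨r, hr, fun z z' hz hz' hzz hxz hxz' c c' => ?_, fun z hz hxz c c' => ?_⟩
  · rw [blF_eq hxz hxz', blF_eq (hne z hz hxz) (hne z' hz' hxz'), tw_apply, tw_apply]
    simp only [LinearMap.add_apply]
    rw [h1 z z' hz hz' hzz hxz hxz', hcor z z' hz hz' hxz hxz']
    have e1 : r z * (-Complex.I * c) = -Complex.I * (r z * c) := by ring
    have e2 : r z' * (Complex.I * c') = Complex.I * (r z' * c') := by ring
    rw [e1, e2]
  · rw [rgF_eq hxz, rgF_eq (hne z hz hxz), tw_apply, tw_apply]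
    simp only [LinearMap.add_apply]
    rw [h2 z hz hxz, hcor z z hz hz hxz hxz]
    have e1 : r z * (-Complex.I * c) = -Complex.I * (r z * c) := by ring
    have e2 : r z * (Complex.I * c') = Complex.I * (r z * c') := by ring
    rw [e1, e2]

end cov

end Crest.Agent.R165.Fr7x802
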