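import Crest.Agent.R165.Lat_683
import Crest.Agent.R165.Tr1_40
import Crest.Agent.R165.J1a_606
import Crest.Agent.R165.SpB_583

-- ▼ part R165/Pl0a_654
section

/-!
# Row 165 (S0250), plane clause at `lam = 0` (helper654): uniqueness in the branched plane

* `cu`, `cw`, `A_cu`: bridge from `Lat_683` (`HE ℤ → ℝ`, `BW ℤ`, `Aop`) to `Tr1_40`
* `uniq_of_bound`: all weights `±x_c`, `A φ = 0`, `|φ h| ≤ C / (1 + |h|)`  ⟹  `φ = 0`
-/

set_option autoImplicit false

noncomputable section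

namespace Crest.Agent.R165.Pl0x654

open Finset Filter Topology
open Crest.Agent.R165.Latx683
open Crest.Agent.R165

/-- field of `Tr1_40` from a field on half-edges -/
def cu (φ : HE ℤ → ℝ) : Tr1x40.Fld := fun f h => φ (f, h)

/-- weights of `Tr1_40` from bond weights -/
def cw (w : BW ℤ) : Tr1x40.Fld := Tr1x40.ofEN (yE w) (yN w)

theorem sym_cw (w : BW ℤ) : Tr1x40.Sym (cw w) := Tr1x40.sym_ofEN _ _

theorem A_cu (w : BW ℤ) (φ : HE ℤ → ℝ) (f : ℤ × ℤ) (h : Fin 4) :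
    Tr1x40.A (cw w) (cu φ) f h = Aop w φ (f, h) := by
  fin_cases h
  · exact (Tr1x40.A_S _ _ _).trans rfl
  · exact (Tr1x40.A_E _ _ _).trans rfl
  · exact (Tr1x40.A_N _ _ _).trans rfl
  · exact (Tr1x40.A_W _ _ _).trans rfl


theorem xc_pos : 0 < xc := Tr1x40.xc_pos

/-- all weights are `± x_c` -/
def Crit (w : BW ℤ) : Prop := ∀ z j, w z j ^ 2 = xc ^ 2

theorem Crit.cw {w : BW ℤ} (hw : Crit w) (f : ℤ × ℤ) (h : Fin 4) :
    cw w f h ^ 2 = Tr1x40.xc ^ 2 := by
  fin_cases h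
  · exact hw _ _
  · exact hw _ _
  · exact hw _ _
  · exact hw _ _

/-! ### light vectors -/

theorem ph_zero_of_hv {p : Fin 4 → ℝ} (hp : Tr1x40.hv p = 0) (h : Fin 4) : Tr1x40.Ph p h = 0 := by
  rw [Tr1x40.hv_eq_nsq, Tr1x40.nsq] at hp
  have := (Finset.sum_eq_zero_iff_of_nonneg (fun i _ => sq_nonneg (Tr1x40.Ph p i))).1 hp h
    (Finset.mem_univ h)
  exact pow_eq_zero_iff (two_ne_zero) |>.1 this

/-- a light vector satisfies `x²p_h² + (A0 p)_h² = x²|p|²/2` for every `h` -/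
theorem light_row {p : Fin 4 → ℝ} (hp : Tr1x40.hv p = 0) (h : Fin 4) :
    Tr1x40.xc ^ 2 * p h ^ 2 + Tr1x40.A0 p h ^ 2 = Tr1x40.xc ^ 2 * (Tr1x40.nsq p / 2) := by
  have h0 := ph_zero_of_hv hp 0
  have h1 := ph_zero_of_hv hp 1
  have h2 := ph_zero_of_hv hp 2
  have h3 := ph_zero_of_hv hp 3
  simp only [Tr1x40.Ph, Tr1x40.inv_2sq2] at h0 h1 h2 h3
  have s2 := Tr1x40.sq2
  set r := Real.sqrt 2 with hr
  -- p 0 = -(p 1 - p 3) r / 2 etc.
  have e0 : p 0 = -(p 1 - p 3) * r / 2 := by linarith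
  have e2 : p 2 = -(p 1 + p 3) * r / 2 := by linarith
  have hx : Tr1x40.xc = r - 1 := rfl
  rw [Tr1x40.nsq_eq]
  have hA : ∀ h : Fin 4, Tr1x40.A0 p h ^ 2 = Tr1x40.xc ^ 2 * (p (Tr1x40.op h)) ^ 2 := by
    intro h
    have key : Tr1x40.A0 p h = Tr1x40.xc * p (Tr1x40.op h) ∨
        Tr1x40.A0 p h = -(Tr1x40.xc * p (Tr1x40.op h)) := by
      fin_cases h
      · right
        simp only [Fin.zero_eta, Tr1x40.A0_zero, Tr1x40.op_zero, hx]
        rw [e2]; linear_combination (-(p 1 + p 3) / 2) * s2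
      · right
        simp only [Fin.mk_one, Tr1x40.A0_one, Tr1x40.op_one, hx]
        rw [e0, e2]; ring
      · left
        simp only [Fin.reduceFinMk, Tr1x40.A0_two, Tr1x40.op_two, hx]
        rw [e0]; linear_combination ((p 1 - p 3) / 2) * s2
      · left
        simp only [Fin.reduceFinMk, Tr1x40.A0_three, Tr1x40.op_three, hx]
        rw [e0, e2]; ring
    rcases key with h | h <;> rw [h] <;> ring
  have h02 : p 0 ^ 2 + p 2 ^ 2 = p 1 ^ 2 + p 3 ^ 2 := by
    rw [e0, e2]; linear_combination ((p 1 ^ 2 + p 3 ^ 2) / 2) * s2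
  rw [hA h]
  fin_cases h
  · simp only [Fin.zero_eta, Tr1x40.op_zero]; linear_combination (Tr1x40.xc ^ 2 / 2) * h02
  · simp only [Fin.mk_one, Tr1x40.op_one]; linear_combination (-Tr1x40.xc ^ 2 / 2) * h02
  · simp only [Fin.reduceFinMk, Tr1x40.op_two]; linear_combination (Tr1x40.xc ^ 2 / 2) * h02
  · simp only [Fin.reduceFinMk, Tr1x40.op_three]; linear_combination (-Tr1x40.xc ^ 2 / 2) * h02

/-- neighbouring light vectors of a solution have the same norm -/
theorem nsq_nb {w φ : Tr1x40.Fld} (hs : Tr1x40.Sym w) (hw : ∀ f h, w f h ^ 2 = Tr1x40.xc ^ 2)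
    (hl : ∀ f, Tr1x40.hv (φ f) = 0) (hA : ∀ f h, Tr1x40.A w φ f h = 0) (f : ℤ × ℤ) (h : Fin 4) :
    Tr1x40.nsq (φ (Tr1x40.nb f h)) = Tr1x40.nsq (φ f) := by
  have l1 := light_row (hl f) h
  have l2 := light_row (hl (Tr1x40.nb f h)) (Tr1x40.op h)
  have a1 := hA f h
  have a2 := hA (Tr1x40.nb f h) (Tr1x40.op h)
  unfold Tr1x40.A Tr1x40.Y at a1 a2
  rw [Tr1x40.nb_nb_op, Tr1x40.op_op, hs f h] at a2
  have b1 : Tr1x40.A0 (φ f) h ^ 2 = Tr1x40.xc ^ 2 * φ (Tr1x40.nb f h) (Tr1x40.op h) ^ 2 := by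
    have : Tr1x40.A0 (φ f) h = -(Tr1x40.sg h * w f h * φ (Tr1x40.nb f h) (Tr1x40.op h)) := by
      linarith
    rw [this]
    have e : (-(Tr1x40.sg h * w f h * φ (Tr1x40.nb f h) (Tr1x40.op h))) ^ 2
      = Tr1x40.sg h ^ 2 * w f h ^ 2 * φ (Tr1x40.nb f h) (Tr1x40.op h) ^ 2 := by ring
    rw [e, Tr1x40.sg_sq, one_mul, hw]
  have b2 : Tr1x40.A0 (φ (Tr1x40.nb f h)) (Tr1x40.op h) ^ 2 = Tr1x40.xc ^ 2 * φ f h ^ 2 := by
    have : Tr1x40.A0 (φ (Tr1x40.nb f h)) (Tr1x40.op h)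
      = -(Tr1x40.sg (Tr1x40.op h) * w f h * φ f h) := by linarith
    rw [this]
    have e : (-(Tr1x40.sg (Tr1x40.op h) * w f h * φ f h)) ^ 2
      = Tr1x40.sg (Tr1x40.op h) ^ 2 * w f h ^ 2 * φ f h ^ 2 := by ring
    rw [e, Tr1x40.sg_sq, one_mul, hw]
  rw [b1] at l1
  rw [b2] at l2
  have hx : Tr1x40.xc ^ 2 ≠ 0 := pow_ne_zero 2 (ne_of_gt Tr1x40.xc_pos)
  have : Tr1x40.xc ^ 2 * (Tr1x40.nsq (φ (Tr1x40.nb f h)) / 2)
      = Tr1x40.xc ^ 2 * (Tr1x40.nsq (φ f) / 2) := by rw [← l1, ← l2]; ring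
  have := mul_left_cancel₀ hx this
  linarith

/-! ### the logarithmic sum -/

theorem sum_inv_le (N : ℕ) :
    ∑ a ∈ Finset.Icc (-(N : ℤ)) N, (1 : ℝ) / (1 + |(a : ℝ)|) ≤ 2 * (1 + Real.log (N + 1)) := by
  have hsub : Finset.Icc (-(N : ℤ)) N ⊆
      (Finset.range (N + 1)).image (fun k : ℕ => (k : ℤ)) ∪
        (Finset.range (N + 1)).image (fun k : ℕ => -(k : ℤ)) := by
    intro a ha
    rw [Finset.mem_Icc] at ha
    rw [Finset.mem_union, Finset.mem_image, Finset.mem_image]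
    rcases le_or_gt 0 a with h | h
    · left
      refine ⟨a.toNat, ?_, by omega⟩
      rw [Finset.mem_range]; omega
    · right
      refine ⟨(-a).toNat, ?_, by omega⟩
      rw [Finset.mem_range]; omega
  have hnn : ∀ a : ℤ, (0 : ℝ) ≤ 1 / (1 + |(a : ℝ)|) := fun a => by positivity
  have h1 : ∑ a ∈ Finset.Icc (-(N : ℤ)) N, (1 : ℝ) / (1 + |(a : ℝ)|) ≤
      ∑ a ∈ (Finset.range (N + 1)).image (fun k : ℕ => (k : ℤ)) ∪
        (Finset.range (N + 1)).image (fun k : ℕ => -(k : ℤ)), (1 : ℝ) / (1 + |(a : ℝ)|) :=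
    Finset.sum_le_sum_of_subset_of_nonneg hsub fun a _ _ => hnn a
  have h2 : ∑ a ∈ (Finset.range (N + 1)).image (fun k : ℕ => (k : ℤ)) ∪
        (Finset.range (N + 1)).image (fun k : ℕ => -(k : ℤ)), (1 : ℝ) / (1 + |(a : ℝ)|) ≤
      ∑ a ∈ (Finset.range (N + 1)).image (fun k : ℕ => (k : ℤ)), (1 : ℝ) / (1 + |(a : ℝ)|) +
      ∑ a ∈ (Finset.range (N + 1)).image (fun k : ℕ => -(k : ℤ)), (1 : ℝ) / (1 + |(a : ℝ)|) := by
    rw [← Finset.sum_union_inter]
    have := Finset.sum_nonneg (s := (Finset.range (N + 1)).image (fun k : ℕ => (k : ℤ)) ∩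
        (Finset.range (N + 1)).image (fun k : ℕ => -(k : ℤ))) (fun a _ => hnn a)
    linarith
  have hh : ∑ k ∈ Finset.range (N + 1), (1 : ℝ) / (1 + (k : ℝ)) ≤ 1 + Real.log (N + 1) := by
    have h := harmonic_le_one_add_log (N + 1)
    have e : ((harmonic (N + 1) : ℚ) : ℝ) = ∑ k ∈ Finset.range (N + 1), (1 : ℝ) / (1 + (k : ℝ)) := by
      rw [harmonic]
      push_cast
      exact Finset.sum_congr rfl fun k _ => by rw [one_div, add_comm]
    rw [e] at h
    push_cast at h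
    exact h
  have h3 : ∑ a ∈ (Finset.range (N + 1)).image (fun k : ℕ => (k : ℤ)), (1 : ℝ) / (1 + |(a : ℝ)|)
      = ∑ k ∈ Finset.range (N + 1), (1 : ℝ) / (1 + (k : ℝ)) := by
    rw [Finset.sum_image (fun a _ b _ h => by simpa using h)]
    refine Finset.sum_congr rfl fun k _ => ?_
    simp
  have h4 : ∑ a ∈ (Finset.range (N + 1)).image (fun k : ℕ => -(k : ℤ)), (1 : ℝ) / (1 + |(a : ℝ)|)
      = ∑ k ∈ Finset.range (N + 1), (1 : ℝ) / (1 + (k : ℝ)) := by
    rw [Finset.sum_image (fun a _ b _ h => by simpa using h)]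
    refine Finset.sum_congr rfl fun k _ => ?_
    simp
  rw [h3, h4] at h2
  linarith

theorem sum_inv_sq_le (N : ℕ) :
    ∑ f ∈ Finset.Icc (-(N : ℤ)) N ×ˢ Finset.Icc (-(N : ℤ)) N,
      (1 / (1 + |(f.1 : ℝ)| + |(f.2 : ℝ)|)) ^ 2 ≤ (2 * (1 + Real.log (N + 1))) ^ 2 := by
  have h0 : 0 ≤ ∑ a ∈ Finset.Icc (-(N : ℤ)) N, (1 : ℝ) / (1 + |(a : ℝ)|) :=
    Finset.sum_nonneg fun a _ => by positivity
  calc ∑ f ∈ Finset.Icc (-(N : ℤ)) N ×ˢ Finset.Icc (-(N : ℤ)) N,
      (1 / (1 + |(f.1 : ℝ)| + |(f.2 : ℝ)|)) ^ 2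
      ≤ ∑ f ∈ Finset.Icc (-(N : ℤ)) N ×ˢ Finset.Icc (-(N : ℤ)) N,
        (1 / (1 + |(f.1 : ℝ)|)) * (1 / (1 + |(f.2 : ℝ)|)) := by
        refine Finset.sum_le_sum fun f _ => ?_
        have ha := abs_nonneg (f.1 : ℝ)
        have hb := abs_nonneg (f.2 : ℝ)
        rw [div_pow, one_pow, div_mul_div_comm, one_mul]
        apply one_div_le_one_div_of_le (by positivity)
        nlinarith
    _ = (∑ a ∈ Finset.Icc (-(N : ℤ)) N, (1 : ℝ) / (1 + |(a : ℝ)|)) ^ 2 := by
        rw [sq, Finset.sum_mul_sum, ← Finset.sum_product']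
    _ ≤ _ := pow_le_pow_left₀ h0 (sum_inv_le N) 2

theorem tendsto_log_sq_div :
    Tendsto (fun N : ℕ => (2 * (1 + Real.log ((N : ℝ) + 1 + 1))) ^ 2 / (N : ℝ)) atTop (𝓝 0) := by
  have h1 : Tendsto (fun x : ℝ => Real.log x ^ 2 / x) atTop (𝓝 0) := by
    have h := Real.isLittleO_pow_log_id_atTop (n := 2)
    exact h.tendsto_div_nhds_zero
  -- bound: for large N, 2(1+log(N+2)) ≤ 2 (1 + 2 log N) ≤ 6 log N
  have h2 : Tendsto (fun N : ℕ => 36 * (Real.log (N : ℝ) ^ 2 / (N : ℝ))) atTop (𝓝 0) := by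
    have := (h1.comp tendsto_natCast_atTop_atTop).const_mul 36
    simpa using this
  refine squeeze_zero' ?_ ?_ h2
  · filter_upwards [eventually_gt_atTop 0] with N hN
    positivity
  · filter_upwards [eventually_ge_atTop 4] with N hN
    have hN' : (4 : ℝ) ≤ N := by exact_mod_cast hN
    have hNpos : (0 : ℝ) < N := by linarith
    have hlog1 : 1 ≤ Real.log (N : ℝ) := by
      rw [Real.le_log_iff_exp_le hNpos]
      have := Real.exp_one_lt_d9
      linarith
    have hlog2 : Real.log ((N : ℝ) + 1 + 1) ≤ 2 * Real.log (N : ℝ) := by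
      have h3 : (N : ℝ) + 1 + 1 ≤ (N : ℝ) ^ 2 := by nlinarith
      calc Real.log ((N : ℝ) + 1 + 1) ≤ Real.log ((N : ℝ) ^ 2) :=
            Real.log_le_log (by positivity) h3
        _ = 2 * Real.log (N : ℝ) := by rw [Real.log_pow]; norm_num
    have hlog0 : 0 ≤ Real.log ((N : ℝ) + 1 + 1) := Real.log_nonneg (by linarith)
    have h4 : 2 * (1 + Real.log ((N : ℝ) + 1 + 1)) ≤ 6 * Real.log (N : ℝ) := by linarith
    have h5 : (2 * (1 + Real.log ((N : ℝ) + 1 + 1))) ^ 2 ≤ (6 * Real.log (N : ℝ)) ^ 2 :=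
      pow_le_pow_left₀ (by positivity) h4 2
    rw [← mul_div_assoc]
    apply div_le_div_of_nonneg_right _ hNpos.le
    calc _ ≤ _ := h5
      _ = _ := by ring

/-! ### uniqueness -/

/-- the cut-off `max (0, 1 - |f| / R)` -/
def cutR (R : ℕ) (f : ℤ × ℤ) : ℝ := max 0 (1 - (|(f.1 : ℝ)| + |(f.2 : ℝ)|) / R)

theorem cutR_nonneg (R : ℕ) (f : ℤ × ℤ) : 0 ≤ cutR R f := le_max_left _ _

theorem cutR_eq_zero {R : ℕ} (hR : 0 < R) {f : ℤ × ℤ} (hf : (R : ℝ) ≤ |(f.1 : ℝ)| + |(f.2 : ℝ)|) :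
    cutR R f = 0 := by
  unfold cutR
  apply max_eq_left
  have hR' : (0 : ℝ) < R := by exact_mod_cast hR
  have : 1 ≤ (|(f.1 : ℝ)| + |(f.2 : ℝ)|) / R := by rwa [le_div_iff₀ hR', one_mul]
  linarith

theorem abs_nb (f : ℤ × ℤ) (h : Fin 4) :
    |(|((Tr1x40.nb f h).1 : ℝ)| + |((Tr1x40.nb f h).2 : ℝ)|) - (|(f.1 : ℝ)| + |(f.2 : ℝ)|)| ≤ 1 := by
  have key : ∀ a c : ℝ, |c| = 1 → |(|a + c| - |a|)| ≤ 1 := by
    intro a c hc
    calc |(|a + c| - |a|)| ≤ |(a + c) - a| := abs_abs_sub_abs_le _ _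
      _ = 1 := by rw [add_sub_cancel_left, hc]
  fin_cases h
  · have := key (f.2 : ℝ) (-1) (by norm_num)
    simp only [Fin.zero_eta, Tr1x40.nb_zero]
    push_cast
    rw [sub_eq_add_neg] 
    convert this using 2
    ring_nf
  · have := key (f.1 : ℝ) 1 (by norm_num)
    simp only [Fin.mk_one, Tr1x40.nb_one]
    push_cast
    convert this using 2
    ring_nf
  · have := key (f.2 : ℝ) 1 (by norm_num)
    simp only [Fin.reduceFinMk, Tr1x40.nb_two]
    push_cast
    convert this using 2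
    ring_nf
  · have := key (f.1 : ℝ) (-1) (by norm_num)
    simp only [Fin.reduceFinMk, Tr1x40.nb_three]
    push_cast
    convert this using 2
    ring_nf

theorem cutR_nb {R : ℕ} (hR : 0 < R) (f : ℤ × ℤ) (h : Fin 4) :
    cutR R (Tr1x40.nb f h) - cutR R f ≤ 1 / R := by
  have hR' : (0 : ℝ) < R := by exact_mod_cast hR
  have h1 := (abs_le.1 (abs_nb f h)).1
  have h2 : (1 : ℝ) - (|((Tr1x40.nb f h).1 : ℝ)| + |((Tr1x40.nb f h).2 : ℝ)|) / R ≤
      (1 - (|(f.1 : ℝ)| + |(f.2 : ℝ)|) / R) + 1 / R := by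
    rw [sub_add, ← sub_div]
    apply sub_le_sub_left
    apply div_le_div_of_nonneg_right _ hR'.le
    linarith
  have h3 := le_max_right 0 (1 - (|(f.1 : ℝ)| + |(f.2 : ℝ)|) / (R : ℝ))
  have h4 : 0 ≤ cutR R f := cutR_nonneg R f
  have h5 : (0 : ℝ) ≤ 1 / R := by positivity
  have : cutR R (Tr1x40.nb f h) ≤ cutR R f + 1 / R := by
    apply max_le
    · linarith
    · unfold cutR; linarith
  linarith

/-- **uniqueness in the critical plane with arbitrary signs**: decaying null vectors vanish -/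
theorem uniq_of_bound {w : BW ℤ} (hw : Crit w) (φ : HE ℤ → ℝ) (C : ℝ)
    (hφ : ∀ h : HE ℤ, |φ h| ≤ C * (1 / (1 + |(h.1.1 : ℝ)| + |(h.1.2 : ℝ)|)))
    (hA : ∀ h, Aop w φ h = 0) : φ = 0 := by
  have hA' : ∀ f h, Tr1x40.A (cw w) (cu φ) f h = 0 := fun f h => by rw [A_cu]; exact hA _
  -- heavy parts vanish
  have hv0 : ∀ f, Tr1x40.hv (cu φ f) = 0 := by
    intro f₀
    have hmain : ∀ R : ℕ, 0 < R → cutR R f₀ * Tr1x40.hv (cu φ f₀) ≤
        4 * C ^ 2 * ((2 * (1 + Real.log ((R : ℝ) + 1 + 1))) ^ 2 / R) := by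
      intro R hR
      have hR' : (0 : ℝ) < R := by exact_mod_cast hR
      set K : Finset (ℤ × ℤ) := Finset.Icc (-((R + 1 : ℕ) : ℤ)) ((R + 1 : ℕ) : ℤ) ×ˢ
        Finset.Icc (-((R + 1 : ℕ) : ℤ)) ((R + 1 : ℕ) : ℤ) with hK
      have hout : ∀ f, f ∉ K → ((R : ℝ) + 1) ≤ |(f.1 : ℝ)| + |(f.2 : ℝ)| := by
        intro f hf
        rw [hK, Finset.mem_product, Finset.mem_Icc, Finset.mem_Icc] at hf
        have : (R : ℤ) + 1 ≤ |f.1| + |f.2| := by
          by_contra hcon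
          push Not at hcon
          apply hf
          have a1 := neg_abs_le f.1
          have a2 := le_abs_self f.1
          have b1 := neg_abs_le f.2
          have b2 := le_abs_self f.2
          have a3 := abs_nonneg f.1
          have b3 := abs_nonneg f.2
          push_cast
          constructor <;> constructor <;> omega
        have h2 : (((R : ℤ) + 1 : ℤ) : ℝ) ≤ ((|f.1| + |f.2| : ℤ) : ℝ) := by exact_mod_cast this
        push_cast at h2
        exact h2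
      have h1 : ∀ f, f ∉ K → cutR R f = 0 := fun f hf =>
        cutR_eq_zero hR (by linarith [hout f hf])
      have h2 : ∀ f, f ∉ K → ∀ h, cutR R (Tr1x40.nb f h) = 0 := fun f hf h =>
        cutR_eq_zero hR (by
          have := (abs_le.1 (abs_nb f h)).1
          linarith [hout f hf])
      have hT := Tr1x40.Tloc (cw w) (cu φ) (sym_cw w) (cutR R) K h1 h2
      have hL : ∑ f ∈ K, cutR R f * (4 * Real.sqrt 2 * Tr1x40.hv (cu φ f) +
          ∑ h, (Tr1x40.xc ^ 2 - cw w f h ^ 2) * cu φ f h ^ 2) =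
          ∑ f ∈ K, cutR R f * (4 * Real.sqrt 2 * Tr1x40.hv (cu φ f)) := by
        refine Finset.sum_congr rfl fun f _ => ?_
        congr 1
        simp [hw.cw]
      have hRz : ∑ f ∈ K, cutR R f * (2 * ∑ h, Tr1x40.A0 (cu φ f) h * Tr1x40.A (cw w) (cu φ) f h -
          Tr1x40.nsq (Tr1x40.A (cw w) (cu φ) f)) = 0 := by
        refine Finset.sum_eq_zero fun f _ => ?_
        simp [hA', Tr1x40.nsq]
      rw [hL, hRz, zero_add] at hT
      -- bound the flux
      have hflux : ∑ f ∈ K, ∑ h, (cutR R (Tr1x40.nb f h) - cutR R f) *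
          (cw w f h ^ 2 * cu φ f h ^ 2) ≤
          ∑ f ∈ K, 4 * (C ^ 2 * (1 / (1 + |(f.1 : ℝ)| + |(f.2 : ℝ)|)) ^ 2 * (1 / R)) := by
        refine Finset.sum_le_sum fun f _ => ?_
        calc ∑ h, (cutR R (Tr1x40.nb f h) - cutR R f) * (cw w f h ^ 2 * cu φ f h ^ 2)
            ≤ ∑ _h : Fin 4, (C ^ 2 * (1 / (1 + |(f.1 : ℝ)| + |(f.2 : ℝ)|)) ^ 2 * (1 / R)) := by
              refine Finset.sum_le_sum fun h _ => ?_
              rw [hw.cw]
              have hx2 : Tr1x40.xc ^ 2 ≤ 1 := by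
                have := Tr1x40.xc_lt_one
                have := Tr1x40.xc_pos
                nlinarith
              have hx0 : 0 ≤ Tr1x40.xc ^ 2 := sq_nonneg _
              have hb : cu φ f h ^ 2 ≤ C ^ 2 * (1 / (1 + |(f.1 : ℝ)| + |(f.2 : ℝ)|)) ^ 2 := by
                have := hφ (f, h)
                rw [← mul_pow, ← sq_abs (cu φ f h)]
                exact pow_le_pow_left₀ (abs_nonneg _) this 2
              have hb2 : Tr1x40.xc ^ 2 * cu φ f h ^ 2 ≤
                  C ^ 2 * (1 / (1 + |(f.1 : ℝ)| + |(f.2 : ℝ)|)) ^ 2 := by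
                have := sq_nonneg (cu φ f h)
                nlinarith
              have hb3 : 0 ≤ Tr1x40.xc ^ 2 * cu φ f h ^ 2 := by positivity
              calc (cutR R (Tr1x40.nb f h) - cutR R f) * (Tr1x40.xc ^ 2 * cu φ f h ^ 2)
                  ≤ 1 / R * (Tr1x40.xc ^ 2 * cu φ f h ^ 2) :=
                    mul_le_mul_of_nonneg_right (cutR_nb hR f h) hb3
                _ ≤ 1 / R * (C ^ 2 * (1 / (1 + |(f.1 : ℝ)| + |(f.2 : ℝ)|)) ^ 2) :=
                    mul_le_mul_of_nonneg_left hb2 (by positivity)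
                _ = _ := by ring
          _ = _ := by simp [Finset.sum_const]
      have hsum : ∑ f ∈ K, 4 * (C ^ 2 * (1 / (1 + |(f.1 : ℝ)| + |(f.2 : ℝ)|)) ^ 2 * (1 / R)) ≤
          4 * C ^ 2 * ((2 * (1 + Real.log ((R : ℝ) + 1 + 1))) ^ 2 / R) := by
        have e : ∑ f ∈ K, 4 * (C ^ 2 * (1 / (1 + |(f.1 : ℝ)| + |(f.2 : ℝ)|)) ^ 2 * (1 / R)) =
          4 * C ^ 2 * (1 / R) * ∑ f ∈ K, (1 / (1 + |(f.1 : ℝ)| + |(f.2 : ℝ)|)) ^ 2 := by
          rw [Finset.mul_sum]
          exact Finset.sum_congr rfl fun f _ => by ring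
        rw [e]
        have h3 := sum_inv_sq_le (R + 1)
        push_cast at h3
        rw [hK]
        push_cast
        calc _ ≤ 4 * C ^ 2 * (1 / (R : ℝ)) * (2 * (1 + Real.log ((R : ℝ) + 1 + 1))) ^ 2 :=
              mul_le_mul_of_nonneg_left h3 (by positivity)
          _ = _ := by ring
      by_cases hf₀ : f₀ ∈ K
      · have h5 : cutR R f₀ * (4 * Real.sqrt 2 * Tr1x40.hv (cu φ f₀)) ≤
            ∑ f ∈ K, cutR R f * (4 * Real.sqrt 2 * Tr1x40.hv (cu φ f)) :=
          Finset.single_le_sum (f := fun f => cutR R f * (4 * Real.sqrt 2 * Tr1x40.hv (cu φ f)))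
            (fun f _ => mul_nonneg (cutR_nonneg R f)
              (mul_nonneg (by positivity) (Tr1x40.hv_nonneg _))) hf₀
        have h6 : cutR R f₀ * Tr1x40.hv (cu φ f₀) ≤
            cutR R f₀ * (4 * Real.sqrt 2 * Tr1x40.hv (cu φ f₀)) := by
          apply mul_le_mul_of_nonneg_left _ (cutR_nonneg R f₀)
          have := Tr1x40.hv_nonneg (cu φ f₀)
          have := Tr1x40.one_lt_sq2
          nlinarith
        linarith
      · rw [h1 f₀ hf₀, zero_mul]
        have : 0 ≤ (2 * (1 + Real.log ((R : ℝ) + 1 + 1))) ^ 2 / R := by positivity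
        have := sq_nonneg C
        positivity
    -- limit
    have hlim : Tendsto (fun R : ℕ => 4 * C ^ 2 *
        ((2 * (1 + Real.log ((R : ℝ) + 1 + 1))) ^ 2 / R)) atTop (𝓝 0) := by
      have := tendsto_log_sq_div.const_mul (4 * C ^ 2)
      simpa using this
    have hcut : Tendsto (fun R : ℕ => cutR R f₀ * Tr1x40.hv (cu φ f₀)) atTop
        (𝓝 (1 * Tr1x40.hv (cu φ f₀))) := by
      apply Tendsto.mul_const
      have h7 : Tendsto (fun R : ℕ => 1 - (|(f₀.1 : ℝ)| + |(f₀.2 : ℝ)|) / (R : ℝ)) atTop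
          (𝓝 (1 - 0)) := by
        apply Tendsto.const_sub
        exact tendsto_const_div_atTop_nhds_zero_nat _
      have h8 := h7.max (tendsto_const_nhds (x := (0 : ℝ)))
      have h9 : max (1 - 0 : ℝ) 0 = 1 := by norm_num
      rw [h9] at h8
      refine h8.congr fun R => ?_
      unfold cutR
      rw [max_comm]
    have := le_of_tendsto_of_tendsto hcut hlim (by
      filter_upwards [eventually_gt_atTop 0] with R hR
      exact hmain R hR)
    have h10 := Tr1x40.hv_nonneg (cu φ f₀)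
    linarith
  -- constant norm
  have hn : ∀ (f : ℤ × ℤ) (m : ℕ), Tr1x40.nsq (cu φ (f.1 + m, f.2)) = Tr1x40.nsq (cu φ f) := by
    intro f m
    induction m with
    | zero => simp
    | succ m ih =>
      rw [← ih]
      have := nsq_nb (sym_cw w) hw.cw hv0 hA' (f.1 + m, f.2) 1
      rw [Tr1x40.nb_one] at this
      rw [← this]
      congr 2
      push_cast
      ring_nf
  have hz : ∀ f, Tr1x40.nsq (cu φ f) = 0 := by
    intro f
    have hb : ∀ m : ℕ, Tr1x40.nsq (cu φ f) ≤ 4 * C ^ 2 * (1 / (1 + |((f.1 : ℝ) + m)|)) ^ 2 := by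
      intro m
      rw [← hn f m, Tr1x40.nsq]
      calc ∑ h, cu φ (f.1 + m, f.2) h ^ 2 ≤ ∑ _h : Fin 4, C ^ 2 * (1 / (1 + |((f.1 : ℝ) + m)|)) ^ 2 := by
            refine Finset.sum_le_sum fun h _ => ?_
            have h1 := hφ ((f.1 + m, f.2), h)
            have hC : 0 ≤ C := by
              by_contra hcon
              push Not at hcon
              have h2 := abs_nonneg (φ ((f.1 + m, f.2), h))
              have h3 : 0 < 1 / (1 + |((f.1 + m : ℤ) : ℝ)| + |(f.2 : ℝ)|) := by positivity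
              have h4 := mul_neg_of_neg_of_pos hcon h3
              linarith
            rw [← mul_pow, ← sq_abs (cu φ _ h)]
            apply pow_le_pow_left₀ (abs_nonneg _)
            refine h1.trans ?_
            apply mul_le_mul_of_nonneg_left _ hC
            apply one_div_le_one_div_of_le (by positivity)
            push_cast
            have := abs_nonneg (f.2 : ℝ)
            linarith
        _ = _ := by simp [Finset.sum_const]; ring
    have hlim : Tendsto (fun m : ℕ => 4 * C ^ 2 * (1 / (1 + |((f.1 : ℝ) + m)|)) ^ 2) atTop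
        (𝓝 (4 * C ^ 2 * 0 ^ 2)) := by
      apply Tendsto.const_mul
      apply Tendsto.pow
      apply Tendsto.div_atTop tendsto_const_nhds
      apply tendsto_atTop_add_const_left
      apply tendsto_abs_atTop_atTop.comp
      apply tendsto_atTop_add_const_left
      exact tendsto_natCast_atTop_atTop
    have := ge_of_tendsto' hlim hb
    have h2 := Tr1x40.nsq_nonneg (cu φ f)
    have h3 : 4 * C ^ 2 * (0 : ℝ) ^ 2 = 0 := by ring
    linarith
  funext h
  obtain ⟨f, d⟩ := h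
  have := hz f
  rw [Tr1x40.nsq] at this
  have h2 := (Finset.sum_eq_zero_iff_of_nonneg (fun i _ => sq_nonneg (cu φ f i))).1 this d
    (Finset.mem_univ d)
  exact pow_eq_zero_iff (two_ne_zero) |>.1 h2

end Crest.Agent.R165.Pl0x654
end
end

-- ▼ part R165/Pl0b_654

/-!
# Row 165 (S0250), plane clause (helper654): the covariance of a finitely cut critical plane

* `PlKer S0`     : `S0` is a plane kernel (skew, columns `O(1/|h|)`, `A S0 = -1`)
* `plKer_SP`     : the kernel of helper583 is one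
* `wcut B c`     : critical plane weights changed by `c e` on the finite set `B` of bonds
* `exists_cov`   : if all weights of `wcut B c` are `± x_c`, its covariance exists, with columns
                   `O(1/|h|)`, and satisfies the resolvent identity
* `EE_cut`       : Gaussian reweighting `EE S0 (Γ F) = EE S0 Γ * EE S F`, `Γ = ∏ (1 + c_e b_e)`
-/

set_option autoImplicit false

noncomputable section

namespace Crest.Agent.R165.Pl0bx654

open Finset Filter Topology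
open Crest.Agent.R165
open Crest.Agent.R165.Latx683 (BW Aop wPl yE yN xc IsCov)
open Crest.Agent.R165.J1ax606 (HE EG pe qe bb pe_inj qe_inj pe_ne_qe)
open Crest.Agent.R165.Gr0x606 Crest.Agent.R165.Gr1x606
open Crest.Agent.R165.Pl0x654 (Crit uniq_of_bound)

/-- decay weight -/
def dec (h : HE ℤ) : ℝ := 1 / (1 + |(h.1.1 : ℝ)| + |(h.1.2 : ℝ)|)

theorem dec_pos (h : HE ℤ) : 0 < dec h := by unfold dec; positivity

/-- a kernel of the critical plane -/
structure PlKer (S0 : HE ℤ → HE ℤ → ℝ) : Prop where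
  skew : ∀ h h', S0 h h' = -S0 h' h
  bound : ∀ h', ∃ C, ∀ h, |S0 h h'| ≤ C * dec h
  inv : ∀ h' g, Aop (wPl ℤ) (fun h => S0 h h') g = -(if g = h' then (1 : ℝ) else 0)

/-! ### the kernel of helper583 -/

/-- the plane kernel on half-edges -/
def Spl (h h' : HE ℤ) : ℝ := Spx583.SP h.2 h'.2 (h.1.1 - h'.1.1) (h.1.2 - h'.1.2)

theorem Spl_skew (h h' : HE ℤ) : Spl h h' = -Spl h' h := by
  unfold Spl
  rw [Spx583.SP_anti, neg_sub, neg_sub]

/-- `|S(h,h')| ≤ C / (1 + |f - f'|)` -/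
theorem Spl_bound (h h' : HE ℤ) : |Spl h h'| ≤
    4000000 / (1 + |((h.1.1 : ℝ) - h'.1.1)| + |((h.1.2 : ℝ) - h'.1.2)|) := by
  have := Spx583.SP_le h.2 h'.2 (h.1.1 - h'.1.1) (h.1.2 - h'.1.2)
  push_cast at this
  exact this

theorem Spl_inv (h' g : HE ℤ) : Aop (wPl ℤ) (fun h => Spl h h') g =
    -(if g = h' then (1 : ℝ) else 0) := by
  obtain ⟨f, d⟩ := g
  obtain ⟨f', d'⟩ := h'
  have key := Spx583.row_SP d d' (f.1 - f'.1) (f.2 - f'.2)
  have hc : (if ((f, d) : HE ℤ) = (f', d') then (1 : ℝ) else 0) =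
      -(if d = d' ∧ f.1 - f'.1 = 0 ∧ f.2 - f'.2 = 0 then -1 else 0) := by
    by_cases h : ((f, d) : HE ℤ) = (f', d')
    · rw [if_pos h]
      obtain ⟨rfl, rfl⟩ := Prod.mk.inj h
      simp
    · rw [if_neg h, if_neg, neg_zero]
      rintro ⟨h1, h2, h3⟩
      exact h (Prod.ext (Prod.ext (by show f.1 = f'.1; omega) (by show f.2 = f'.2; omega)) h1)
  rw [hc, neg_neg, ← key]
  have hx : Spx583.xc = xc := rfl
  fin_cases d
  · simp only [Fin.zero_eta, Latx683.Aop_S, Spl, yN, wPl, Spx583.row, hx]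
    rw [sub_right_comm f.2 1 f'.2]
  · simp only [Fin.mk_one, Latx683.Aop_E, Spl, yE, wPl, Spx583.row, hx]
    rw [show f.1 + 1 - f'.1 = f.1 - f'.1 + 1 by ring]
  · simp only [Fin.reduceFinMk, Latx683.Aop_N, Spl, yN, wPl, Spx583.row, hx]
    rw [show f.2 + 1 - f'.2 = f.2 - f'.2 + 1 by ring]
  · simp only [Fin.reduceFinMk, Latx683.Aop_W, Spl, yE, wPl, Spx583.row, hx]
    rw [sub_right_comm f.1 1 f'.1]

/-- comparison of decay weights -/
theorem dec_shift (h h' : HE ℤ) :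
    1 / (1 + |((h.1.1 : ℝ) - h'.1.1)| + |((h.1.2 : ℝ) - h'.1.2)|) ≤
      (1 + |(h'.1.1 : ℝ)| + |(h'.1.2 : ℝ)|) * dec h := by
  unfold dec
  rw [mul_one_div, div_le_div_iff₀ (by positivity) (by positivity), one_mul]
  have h1 : |(h.1.1 : ℝ)| ≤ |((h.1.1 : ℝ) - h'.1.1)| + |(h'.1.1 : ℝ)| := by
    have := abs_add_le ((h.1.1 : ℝ) - h'.1.1) (h'.1.1 : ℝ)
    rwa [sub_add_cancel] at this
  have h2 : |(h.1.2 : ℝ)| ≤ |((h.1.2 : ℝ) - h'.1.2)| + |(h'.1.2 : ℝ)| := by
    have := abs_add_le ((h.1.2 : ℝ) - h'.1.2) (h'.1.2 : ℝ)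
    rwa [sub_add_cancel] at this
  have a1 := abs_nonneg ((h.1.1 : ℝ) - h'.1.1)
  have a2 := abs_nonneg ((h.1.2 : ℝ) - h'.1.2)
  have a3 := abs_nonneg (h'.1.1 : ℝ)
  have a4 := abs_nonneg (h'.1.2 : ℝ)
  nlinarith [mul_nonneg (add_nonneg a1 a2) (add_nonneg a3 a4)]

theorem plKer_SP : PlKer Spl where
  skew := Spl_skew
  bound h' := ⟨4000000 * (1 + |(h'.1.1 : ℝ)| + |(h'.1.2 : ℝ)|), fun h => by
    refine (Spl_bound h h').trans ?_
    have := dec_shift h h'
    calc (4000000 : ℝ) / (1 + |((h.1.1 : ℝ) - h'.1.1)| + |((h.1.2 : ℝ) - h'.1.2)|)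
        = 4000000 * (1 / (1 + |((h.1.1 : ℝ) - h'.1.1)| + |((h.1.2 : ℝ) - h'.1.2)|)) := by ring
      _ ≤ 4000000 * ((1 + |(h'.1.1 : ℝ)| + |(h'.1.2 : ℝ)|) * dec h) := by
          apply mul_le_mul_of_nonneg_left this (by norm_num)
      _ = _ := by ring⟩
  inv := Spl_inv

/-! ### cut weights -/

/-- critical plane weights, changed by `c e` on the bonds `e ∈ B` -/
def wcut (B : Finset (EG ℤ)) (c : EG ℤ → ℝ) : BW ℤ := fun z j =>
  xc + if ((z, j) : EG ℤ) ∈ B then c (z, j) else 0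

theorem sum_pe (B : Finset (EG ℤ)) (c : EG ℤ → ℝ) (φ : HE ℤ → ℝ) (h : HE ℤ) (e₀ : EG ℤ)
    (hh : pe e₀ = h) :
    ∑ e ∈ B, c e * ((if pe e = h then φ (qe e) else 0) -
      (if qe e = h then φ (pe e) else 0)) = (if e₀ ∈ B then c e₀ else 0) * φ (qe e₀) := by
  subst hh
  have h : ∀ e ∈ B, c e * ((if pe e = pe e₀ then φ (qe e) else 0) -
      (if qe e = pe e₀ then φ (pe e) else 0)) = if e = e₀ then c e₀ * φ (qe e₀) else 0 := by
    intro e _
    rw [if_neg (c := qe e = pe e₀) (fun h => pe_ne_qe e₀ e h.symm)]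
    by_cases he : e = e₀
    · subst he; simp
    · rw [if_neg (fun h => he (pe_inj h)), if_neg he]; ring
  rw [Finset.sum_congr rfl h, Finset.sum_ite_eq']
  split_ifs <;> ring

theorem sum_qe (B : Finset (EG ℤ)) (c : EG ℤ → ℝ) (φ : HE ℤ → ℝ) (h : HE ℤ) (e₀ : EG ℤ)
    (hh : qe e₀ = h) :
    ∑ e ∈ B, c e * ((if pe e = h then φ (qe e) else 0) -
      (if qe e = h then φ (pe e) else 0)) = -(if e₀ ∈ B then c e₀ else 0) * φ (pe e₀) := by
  subst hh
  have h : ∀ e ∈ B, c e * ((if pe e = qe e₀ then φ (qe e) else 0) -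
      (if qe e = qe e₀ then φ (pe e) else 0)) = if e = e₀ then -c e₀ * φ (pe e₀) else 0 := by
    intro e _
    rw [if_neg (c := pe e = qe e₀) (fun h => pe_ne_qe e e₀ h)]
    by_cases he : e = e₀
    · subst he; simp
    · rw [if_neg (fun h => he (qe_inj h)), if_neg he]; ring
  rw [Finset.sum_congr rfl h, Finset.sum_ite_eq']
  split_ifs <;> ring

/-- the cut operator is the plane operator plus a finite rank part -/
theorem Aop_cut (B : Finset (EG ℤ)) (c : EG ℤ → ℝ) (φ : HE ℤ → ℝ) (h : HE ℤ) :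
    Aop (wcut B c) φ h = Aop (wPl ℤ) φ h +
      ∑ e ∈ B, c e * ((if pe e = h then φ (qe e) else 0) - (if qe e = h then φ (pe e) else 0)) := by
  obtain ⟨f, d⟩ := h
  fin_cases d
  · refine Eq.trans ?_ (congrArg (fun t => Aop (wPl ℤ) φ _ + t)
      (sum_pe B c φ _ (f, 0) rfl).symm)
    simp only [Fin.zero_eta, J1ax606.qe_zero, Latx683.Aop_S, yN, wcut, wPl, sub_add_cancel]
    have : f - (0, 1) = (f.1, f.2 - 1) := by ext <;> simp
    rw [this]
    ring
  · refine Eq.trans ?_ (congrArg (fun t => Aop (wPl ℤ) φ _ + t)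
      (sum_pe B c φ _ ((f.1 + 1, f.2), 1) ?_).symm)
    · simp only [Fin.mk_one, J1ax606.qe_one, Latx683.Aop_E, yE, wcut, wPl]
      ring
    · rw [J1ax606.pe_one]
      have : (((f.1 + 1, f.2) : ℤ × ℤ) - (1, 0)) = f := by ext <;> simp
      rw [this]; rfl
  · refine Eq.trans ?_ (congrArg (fun t => Aop (wPl ℤ) φ _ + t)
      (sum_qe B c φ _ ((f.1, f.2 + 1), 0) ?_).symm)
    · simp only [Fin.reduceFinMk, J1ax606.pe_zero, Latx683.Aop_N, yN, wcut, wPl]
      ring
    · rw [J1ax606.qe_zero]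
      have : (((f.1, f.2 + 1) : ℤ × ℤ) - (0, 1)) = f := by ext <;> simp
      rw [this]; rfl
  · refine Eq.trans ?_ (congrArg (fun t => Aop (wPl ℤ) φ _ + t)
      (sum_qe B c φ _ (f, 1) rfl).symm)
    simp only [Fin.reduceFinMk, J1ax606.pe_one, Latx683.Aop_W, yE, wcut, wPl, sub_add_cancel]
    have : f - (1, 0) = (f.1 - 1, f.2) := by ext <;> simp
    rw [this]
    ring

/-! ### the finite rank operator -/

/-- `G φ = Σ_e c_e (S0(·, p_e) φ(q_e) - S0(·, q_e) φ(p_e))` -/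
def GG (S0 : HE ℤ → HE ℤ → ℝ) (B : Finset (EG ℤ)) (c : EG ℤ → ℝ) :
    (HE ℤ → ℝ) →ₗ[ℝ] (HE ℤ → ℝ) where
  toFun φ h := ∑ e ∈ B, c e * (S0 h (pe e) * φ (qe e) - S0 h (qe e) * φ (pe e))
  map_add' φ ψ := by
    funext h
    simp only [Pi.add_apply]
    rw [← Finset.sum_add_distrib]
    exact Finset.sum_congr rfl fun e _ => by ring
  map_smul' a φ := by
    funext h
    simp only [Pi.smul_apply, smul_eq_mul, RingHom.id_apply]
    rw [Finset.mul_sum]
    exact Finset.sum_congr rfl fun e _ => by ring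

theorem GG_apply (S0 : HE ℤ → HE ℤ → ℝ) (B : Finset (EG ℤ)) (c : EG ℤ → ℝ) (φ : HE ℤ → ℝ)
    (h : HE ℤ) : GG S0 B c φ h =
      ∑ e ∈ B, c e * (S0 h (pe e) * φ (qe e) - S0 h (qe e) * φ (pe e)) := rfl

theorem GG_eq (S0 : HE ℤ → HE ℤ → ℝ) (B : Finset (EG ℤ)) (c : EG ℤ → ℝ) (φ : HE ℤ → ℝ) :
    GG S0 B c φ = ∑ e ∈ B, ((c e * φ (qe e)) • (fun h => S0 h (pe e)) -
      (c e * φ (pe e)) • (fun h => S0 h (qe e))) := by
  funext h
  rw [GG_apply, Finset.sum_apply]
  refine Finset.sum_congr rfl fun e _ => ?_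
  simp only [Pi.sub_apply, Pi.smul_apply, smul_eq_mul]
  ring

theorem Aop_GG {S0 : HE ℤ → HE ℤ → ℝ} (hS : PlKer S0) (B : Finset (EG ℤ)) (c : EG ℤ → ℝ)
    (φ : HE ℤ → ℝ) (h : HE ℤ) : Aop (wPl ℤ) (GG S0 B c φ) h =
      -∑ e ∈ B, c e * ((if pe e = h then φ (qe e) else 0) -
        (if qe e = h then φ (pe e) else 0)) := by
  rw [GG_eq, map_sum, Finset.sum_apply, ← Finset.sum_neg_distrib]
  refine Finset.sum_congr rfl fun e _ => ?_
  rw [map_sub, map_smul, map_smul, Pi.sub_apply, Pi.smul_apply, Pi.smul_apply, hS.inv, hS.inv,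
    smul_eq_mul, smul_eq_mul]
  have e1 : (if h = pe e then (1 : ℝ) else 0) = if pe e = h then 1 else 0 := by
    simp only [eq_comm]
  have e2 : (if h = qe e then (1 : ℝ) else 0) = if qe e = h then 1 else 0 := by
    simp only [eq_comm]
  rw [e1, e2]
  split_ifs <;> ring

/-- fields with decay `O(1/|h|)` -/
def DecF : Submodule ℝ (HE ℤ → ℝ) where
  carrier := {φ | ∃ C, ∀ h, |φ h| ≤ C * dec h}
  add_mem' := by
    rintro φ ψ ⟨C, hC⟩ ⟨D, hD⟩
    refine ⟨C + D, fun h => ?_⟩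
    rw [Pi.add_apply, add_mul]
    exact (abs_add_le _ _).trans (add_le_add (hC h) (hD h))
  zero_mem' := ⟨0, fun h => by simp⟩
  smul_mem' := by
    rintro a φ ⟨C, hC⟩
    refine ⟨|a| * C, fun h => ?_⟩
    rw [Pi.smul_apply, smul_eq_mul, abs_mul, mul_assoc]
    exact mul_le_mul_of_nonneg_left (hC h) (abs_nonneg a)


theorem col_mem {S0 : HE ℤ → HE ℤ → ℝ} (hS : PlKer S0) (h' : HE ℤ) :
    (fun h => S0 h h') ∈ DecF := hS.bound h'

theorem GG_mem {S0 : HE ℤ → HE ℤ → ℝ} (hS : PlKer S0) (B : Finset (EG ℤ)) (c : EG ℤ → ℝ)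
    (φ : HE ℤ → ℝ) : GG S0 B c φ ∈ DecF := by
  rw [GG_eq]
  exact Submodule.sum_mem _ fun e _ => Submodule.sub_mem _
    (Submodule.smul_mem _ _ (col_mem hS _)) (Submodule.smul_mem _ _ (col_mem hS _))

/-- the span of the columns over the cut -/
def RR (S0 : HE ℤ → HE ℤ → ℝ) (B : Finset (EG ℤ)) : Submodule ℝ (HE ℤ → ℝ) :=
  Submodule.span ℝ ((fun k => (fun h => S0 h k)) '' ((B.image pe ∪ B.image qe : Finset (HE ℤ)) :
    Set (HE ℤ)))

instance (S0 : HE ℤ → HE ℤ → ℝ) (B : Finset (EG ℤ)) : FiniteDimensional ℝ (RR S0 B) :=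
  FiniteDimensional.span_of_finite ℝ ((Finset.finite_toSet _).image _)

theorem GG_mem_RR (S0 : HE ℤ → HE ℤ → ℝ) (B : Finset (EG ℤ)) (c : EG ℤ → ℝ)
    (φ : HE ℤ → ℝ) : GG S0 B c φ ∈ RR S0 B := by
  rw [GG_eq]
  refine Submodule.sum_mem _ fun e he => Submodule.sub_mem _
    (Submodule.smul_mem _ _ (Submodule.subset_span ?_))
    (Submodule.smul_mem _ _ (Submodule.subset_span ?_))
  · exact ⟨pe e, Finset.mem_coe.2 (Finset.mem_union_left _ (Finset.mem_image_of_mem _ he)), rfl⟩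
  · exact ⟨qe e, Finset.mem_coe.2 (Finset.mem_union_right _ (Finset.mem_image_of_mem _ he)), rfl⟩

/-- fixed points of `G` vanish -/
theorem fix_zero {S0 : HE ℤ → HE ℤ → ℝ} (hS : PlKer S0) (B : Finset (EG ℤ)) (c : EG ℤ → ℝ)
    (hw : Crit (wcut B c)) (φ : HE ℤ → ℝ) (h : GG S0 B c φ = φ) : φ = 0 := by
  have hmem : φ ∈ DecF := by rw [← h]; exact GG_mem hS B c φ
  obtain ⟨C, hC⟩ := hmem
  refine uniq_of_bound hw φ C hC fun g => ?_
  rw [Aop_cut]
  conv_lhs => rw [← h]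
  rw [Aop_GG hS, h, neg_add_cancel]

/-- the equation `σ = r + G σ` is solvable -/
theorem solve {S0 : HE ℤ → HE ℤ → ℝ} (hS : PlKer S0) (B : Finset (EG ℤ)) (c : EG ℤ → ℝ)
    (hw : Crit (wcut B c)) (r : HE ℤ → ℝ) : ∃ σ : HE ℤ → ℝ, σ = r + GG S0 B c σ := by
  let T : RR S0 B →ₗ[ℝ] RR S0 B :=
    LinearMap.id - (GG S0 B c).restrict (p := RR S0 B) (q := RR S0 B)
      (fun φ _ => GG_mem_RR S0 B c φ)
  have hinj : Function.Injective T := by
    rw [← LinearMap.ker_eq_bot, LinearMap.ker_eq_bot']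
    intro u hu
    have h1 : (u : HE ℤ → ℝ) - GG S0 B c u = 0 := congrArg Subtype.val hu
    have h2 := fix_zero hS B c hw u (sub_eq_zero.1 h1).symm
    exact Subtype.ext h2
  have hsurj := (LinearMap.injective_iff_surjective (f := T)).1 hinj
  obtain ⟨u, hu⟩ := hsurj ⟨GG S0 B c r, GG_mem_RR S0 B c r⟩
  have h1 : (u : HE ℤ → ℝ) - GG S0 B c u = GG S0 B c r := congrArg Subtype.val hu
  refine ⟨r + u, ?_⟩
  rw [map_add, ← h1]
  abel

/-- **existence of the covariance of the finitely cut critical plane** -/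
theorem exists_cov {S0 : HE ℤ → HE ℤ → ℝ} (hS : PlKer S0) (B : Finset (EG ℤ)) (c : EG ℤ → ℝ)
    (hw : Crit (wcut B c)) : ∃ S : HE ℤ → HE ℤ → ℝ,
      (∀ h h', S h h' = -S h' h) ∧
      (∀ h', ∃ C, ∀ h, |S h h'| ≤ C * dec h) ∧
      (∀ h' g, Aop (wcut B c) (fun h => S h h') g = -(if g = h' then (1 : ℝ) else 0)) ∧
      (∀ h h', S h h' = S0 h h' +
        ∑ e ∈ B, c e * (S h (pe e) * S0 (qe e) h' - S h (qe e) * S0 (pe e) h')) := by
  choose σ hσ using fun h' : HE ℤ => solve hS B c hw (fun h => S0 h h')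
  have hcol : ∀ a b, σ b a = S0 a b +
      ∑ e ∈ B, c e * (S0 a (pe e) * σ b (qe e) - S0 a (qe e) * σ b (pe e)) := by
    intro a b
    have := congrFun (hσ b) a
    rw [Pi.add_apply, GG_apply] at this
    exact this
  have hskew : ∀ a b, σ b a = -σ a b := by
    intro a b
    have k1 : ∀ a k, S0 a k = -(σ a k - GG S0 B c (σ a) k) := by
      intro a k
      have := congrFun (hσ a) k
      rw [Pi.add_apply] at this
      rw [hS.skew]
      linarith
    have hF : ∀ a b, ∑ e ∈ B, c e * (S0 a (pe e) * σ b (qe e) - S0 a (qe e) * σ b (pe e)) =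
        ∑ e ∈ B, c e * (σ a (qe e) * σ b (pe e) - σ a (pe e) * σ b (qe e)) +
        ∑ e ∈ B, ∑ f ∈ B, c e * c f *
          ((S0 (pe e) (pe f) * σ a (qe f) - S0 (pe e) (qe f) * σ a (pe f)) * σ b (qe e) -
          (S0 (qe e) (pe f) * σ a (qe f) - S0 (qe e) (qe f) * σ a (pe f)) * σ b (pe e)) := by
      intro a b
      rw [← Finset.sum_add_distrib]
      refine Finset.sum_congr rfl fun e _ => ?_
      rw [k1 a (pe e), k1 a (qe e), GG_apply, GG_apply]
      have e1 : ∑ f ∈ B, c e * c f *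
          ((S0 (pe e) (pe f) * σ a (qe f) - S0 (pe e) (qe f) * σ a (pe f)) * σ b (qe e) -
          (S0 (qe e) (pe f) * σ a (qe f) - S0 (qe e) (qe f) * σ a (pe f)) * σ b (pe e)) =
          c e * ((∑ f ∈ B, c f * (S0 (pe e) (pe f) * σ a (qe f) - S0 (pe e) (qe f) * σ a (pe f))) *
            σ b (qe e) -
          (∑ f ∈ B, c f * (S0 (qe e) (pe f) * σ a (qe f) - S0 (qe e) (qe f) * σ a (pe f))) *
            σ b (pe e)) := by
        rw [Finset.sum_mul, Finset.sum_mul, ← Finset.sum_sub_distrib, Finset.mul_sum]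
        exact Finset.sum_congr rfl fun f _ => by ring
      rw [e1]
      ring
    rw [hcol a b, hcol b a, hF a b, hF b a, hS.skew b a]
    have e2 : ∑ e ∈ B, c e * (σ b (qe e) * σ a (pe e) - σ b (pe e) * σ a (qe e)) =
        -∑ e ∈ B, c e * (σ a (qe e) * σ b (pe e) - σ a (pe e) * σ b (qe e)) := by
      rw [← Finset.sum_neg_distrib]
      exact Finset.sum_congr rfl fun e _ => by ring
    have e3 : ∑ e ∈ B, ∑ f ∈ B, c e * c f *
          ((S0 (pe e) (pe f) * σ b (qe f) - S0 (pe e) (qe f) * σ b (pe f)) * σ a (qe e) -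
          (S0 (qe e) (pe f) * σ b (qe f) - S0 (qe e) (qe f) * σ b (pe f)) * σ a (pe e)) =
        -∑ e ∈ B, ∑ f ∈ B, c e * c f *
          ((S0 (pe e) (pe f) * σ a (qe f) - S0 (pe e) (qe f) * σ a (pe f)) * σ b (qe e) -
          (S0 (qe e) (pe f) * σ a (qe f) - S0 (qe e) (qe f) * σ a (pe f)) * σ b (pe e)) := by
      rw [Finset.sum_comm, ← Finset.sum_neg_distrib]
      refine Finset.sum_congr rfl fun e _ => ?_
      rw [← Finset.sum_neg_distrib]
      refine Finset.sum_congr rfl fun f _ => ?_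
      rw [hS.skew (pe f) (pe e), hS.skew (pe f) (qe e), hS.skew (qe f) (pe e),
        hS.skew (qe f) (qe e)]
      ring
    rw [e2, e3]
    ring
  refine ⟨fun h h' => σ h' h, fun h h' => hskew h h', fun h' => ?_, fun h' g => ?_,
    fun h h' => ?_⟩
  · have : σ h' ∈ DecF := by
      rw [hσ h']
      exact Submodule.add_mem _ (col_mem hS h') (GG_mem hS B c _)
    exact this
  · show Aop (wcut B c) (fun h => σ h' h) g = _
    rw [Aop_cut]
    have h1 : (fun h => σ h' h) = (fun h => S0 h h') + GG S0 B c (σ h') := hσ h'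
    have h2 : Aop (wPl ℤ) (fun h => σ h' h) g = -(if g = h' then (1 : ℝ) else 0) +
        -∑ e ∈ B, c e * ((if pe e = g then σ h' (qe e) else 0) -
        (if qe e = g then σ h' (pe e) else 0)) := by
      rw [h1, map_add, Pi.add_apply, hS.inv, Aop_GG hS]
    rw [h2]
    ring
  · show σ h' h = S0 h h' + ∑ e ∈ B, c e * (σ (pe e) h * S0 (qe e) h' - σ (qe e) h * S0 (pe e) h')
    rw [hskew h h', hcol h' h, neg_add, ← hS.skew, ← Finset.sum_neg_distrib]
    congr 1
    refine Finset.sum_congr rfl fun e _ => ?_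
    rw [hS.skew h' (pe e), hS.skew h' (qe e), hskew h (qe e), hskew h (pe e)]
    ring

/-! ### Gaussian reweighting -/

/-- `Γ = ∏_{e ∈ B} (1 + c_e b_e)` -/
def Gam (B : Finset (EG ℤ)) (c : EG ℤ → ℝ) : Ge (VI (HE ℤ)) := ∏ e ∈ B, (1 + c e • bb e)

/-- the quadratic form `Σ c_e b_e` -/
def Qf (B : Finset (EG ℤ)) (c : EG ℤ → ℝ) : Ge (VI (HE ℤ)) := ∑ e ∈ B, c e • bb e

theorem isExp_Gam (B : Finset (EG ℤ)) (c : EG ℤ → ℝ) :
    IsExp (Qf B c : Gr (VI (HE ℤ))) (Gam B c : Gr (VI (HE ℤ))) := by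
  induction B using Finset.induction_on with
  | empty => simpa [Gam, Qf] using (IsExp.one : IsExp (0 : Gr (VI (HE ℤ))) 1)
  | insert e B he ih =>
    have h1 : Gam (insert e B) c = (1 + c e • bb e) * Gam B c := Finset.prod_insert he
    have h2 : Qf (insert e B) c = c e • bb e + Qf B c := Finset.sum_insert he
    rw [h1, h2, Ge.coe_mul, Ge.coe_add, Ge.coe_add, Ge.coe_one, Ge.coe_smul]
    exact (IsExp.bil (c e) _ _).mul ih

/-- the linear map `Y` of the quadratic form -/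
def YY (B : Finset (EG ℤ)) (c : EG ℤ → ℝ) (l : Module.Dual ℝ (VI (HE ℤ))) : VI (HE ℤ) :=
  ∑ e ∈ B, c e • (l (Finsupp.single (pe e) 1) • Finsupp.single (qe e) 1 -
    l (Finsupp.single (qe e) 1) • Finsupp.single (pe e) 1)

theorem dd_Qf (B : Finset (EG ℤ)) (c : EG ℤ → ℝ) (l : Module.Dual ℝ (VI (HE ℤ))) :
    dd l (Qf B c : Gr (VI (HE ℤ))) = fi (YY B c l) := by
  induction B using Finset.induction_on with
  | empty => simp [Qf, YY]
  | insert e B he ih =>
    have h2 : Qf (insert e B) c = c e • bb e + Qf B c := Finset.sum_insert he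
    have h3 : YY (insert e B) c l = c e • (l (Finsupp.single (pe e) 1) • Finsupp.single (qe e) 1 -
      l (Finsupp.single (qe e) 1) • Finsupp.single (pe e) 1) + YY B c l := Finset.sum_insert he
    rw [h2, h3, Ge.coe_add, map_add, ih, fi_add, Ge.coe_smul, map_smul, fi_smul]
    congr 2
    rw [J1ax606.coe_bb]
    show dd l (fi _ * fi _) = _
    rw [dd_fi_mul, dd_fi, ← Algebra.commutes, ← Algebra.smul_def, sub_eq_add_neg, sub_eq_add_neg,
      fi_add, ← neg_smul, ← neg_smul, fi_smul, fi_smul]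

/-- **Gaussian reweighting over a finite cut**: only the resolvent identity is used -/
theorem EE_cut {S0 S : HE ℤ → HE ℤ → ℝ} (h0 : ∀ h h', S0 h h' = -S0 h' h)
    (hs : ∀ h h', S h h' = -S h' h) (B : Finset (EG ℤ)) (c : EG ℤ → ℝ)
    (hres : ∀ h h', S h h' = S0 h h' +
        ∑ e ∈ B, c e * (S h (pe e) * S0 (qe e) h' - S h (qe e) * S0 (pe e) h'))
    (F : Gr (VI (HE ℤ))) :
    EE (covOf S0 h0) ((Gam B c : Gr (VI (HE ℤ))) * F) =
      EE (covOf S0 h0) (Gam B c : Gr (VI (HE ℤ))) * EE (covOf S hs) F := by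
  refine reweight (covOf S0 h0) (covOf S hs) _ _ (isExp_Gam B c) (YY B c) (dd_Qf B c) ?_ F
  intro z
  have key : (covOf S hs).b z = (covOf S0 h0).b (z + YY B c ((covOf S hs).b z)) := by
    rw [covOf_b, covOf_b]
    induction z using Finsupp.induction_linear with
    | zero => simp [YY]
    | add x y hx hy =>
      have hY : YY B c (formOf S x + formOf S y) = YY B c (formOf S x) + YY B c (formOf S y) := by
        unfold YY
        rw [← Finset.sum_add_distrib]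
        refine Finset.sum_congr rfl fun e _ => ?_
        rw [← smul_add]
        congr 1
        simp only [LinearMap.add_apply, add_smul]
        abel
      rw [map_add, hY, show x + y + (YY B c (formOf S x) + YY B c (formOf S y)) =
        (x + YY B c (formOf S x)) + (y + YY B c (formOf S y)) by abel, map_add (formOf S0)]
      rw [← hx, ← hy]
    | single h a =>
      apply Finsupp.lhom_ext'
      intro h'
      apply LinearMap.ext_ring
      rw [LinearMap.comp_apply, LinearMap.comp_apply, Finsupp.lsingle_apply]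
      have e1 : (Finsupp.single h a : VI (HE ℤ)) = a • Finsupp.single h 1 := by
        rw [Finsupp.smul_single, smul_eq_mul, mul_one]
      have e2 : YY B c (formOf S (Finsupp.single h a)) =
          a • YY B c (formOf S (Finsupp.single h 1)) := by
        rw [e1]
        unfold YY
        rw [Finset.smul_sum]
        refine Finset.sum_congr rfl fun e _ => ?_
        rw [smul_comm a (c e)]
        congr 1
        simp only [map_smul, LinearMap.smul_apply, smul_sub, smul_smul, smul_eq_mul]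
      rw [e2, e1, map_smul, ← smul_add, map_smul, LinearMap.smul_apply, LinearMap.smul_apply]
      congr 1
      rw [map_add, LinearMap.add_apply, formOf_single, formOf_single, hres h h']
      congr 1
      unfold YY
      rw [map_sum, LinearMap.sum_apply]
      refine Finset.sum_congr rfl fun e _ => ?_
      simp only [map_smul, map_sub, LinearMap.smul_apply, LinearMap.sub_apply, formOf_single,
        smul_eq_mul]
  refine ⟨z + YY B c ((covOf S hs).b z), ?_, key⟩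
  rw [← key]
  abel

end Crest.Agent.R165.Pl0bx654
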