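import Crest.Agent.R165.UB3_641
import Crest.Agent.R165.Kw9_871
import Crest.Agent.R165.StarApp_583
import Crest.Agent.R165.Nm7_422
import Mathlib
import Crest.Agent.R165.GeoD_65
import Crest.Agent.R165.GeoRb_416
import Crest.Agent.Lib.InjHolo
import Crest.Agent.R165.GeoP4_67
import Crest.Agent.R165.GeoP5_67
import Crest.Agent.R165.U3Cov3_67

-- ▼ part R165/SpFr1_422
section

/-!
# Row 165 (S0250), block U (helper422): free spin correlations, ratio to plus on the starred set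

* `wIn T` : half-edge background of the free model in `T` (`xc` on the duals of the bonds inside `T`)
* `exists_isCov_in` : covariance of `wX (wIn T) X`
* `bgFam_in` : `BgFam D (fun a => wIn (TT D a))`
* `RR D a u = GB .free (TT D a) u / GB .plus (starT (TT D a)) u`
* `rr_sq_eq` : `RR² = det Mt`
* `rr_sq_tendsto` : limit of `RR²` under `BrLeaf`
-/

set_option autoImplicit false
set_option linter.unusedSimpArgs false
set_option linter.unusedSectionVars false

noncomputable section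

open Filter Topology
open Crest.ProbabilityR.IsingModel

namespace Crest.Agent.R165.SpFr1x422

open U5Px422
open Latx683 (IsCov wX wDom BW ray HE)
open Kw8x871 (Mt tot free_det mem_in plus_ne)
open Kw5x871 (starT)
open J4Defx653 (EE)
open UB3x641
open USpinx641 (LatApp latApp_TT)

/-- half-edge background of the free model in `T` -/
def wIn (T : Finset (ℤ × ℤ)) : BW ℤ := fun z j => by
  classical exact
  if ((z, j) : J1ax606.EG ℤ) ∈ (EE T .free).image Kw5x871.dE then Latx683.xc else 0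

theorem wIn_eq (T : Finset (ℤ × ℤ)) (e : J1ax606.EG ℤ) :
    wIn T e.1 e.2 = if e ∈ (EE T .free).image Kw5x871.dE then KwHix408.xc else 0 := by
  obtain ⟨z, j⟩ := e
  unfold wIn
  by_cases h : ((z, j) : J1ax606.EG ℤ) ∈ (EE T .free).image Kw5x871.dE
  · rw [if_pos h, if_pos h]; rfl
  · rw [if_neg h, if_neg h]

/-- the covariance of the free background exists -/
theorem exists_isCov_in (T : Finset (ℤ × ℤ)) {n : ℕ} (X : Fin n → ℤ × ℤ) :
    ∃ S, IsCov (wX (wIn T) X) S := by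
  refine (Covx359.existsUnique_isCov_of_lt (wX (wIn T) X) ((EE T .free).image Kw5x871.dE)
    (fun e he => ?_) (fun e _ => ?_)).exists
  · rw [Covx359.un_wX]
    simp only
    rw [Covx359.un, wIn_eq, if_neg he, zero_mul]
  · rw [Covx359.un_wX]
    simp only
    rw [abs_mul, Covx359.abs_cut, mul_one, Covx359.un, wIn_eq]
    split_ifs
    have h1 : |Latx683.xc| < 1 := by
      rw [abs_of_pos Covx359.xc_pos]; exact Covx359.xc_lt_one
    exact h1

theorem mem_in' {T : Finset (ℤ × ℤ)} (z : ℤ × ℤ) (j : Fin 2) :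
    ((z, j) : J1ax606.EG ℤ) ∈ (EE T .free).image Kw5x871.dE ↔
      z - (if j = 0 then (0, 1) else (1, 0)) ∈ T ∧ z ∈ T := by
  have h := mem_in (T' := T) z
  fin_cases j
  · simpa using h.1
  · simpa using h.2

/-- the free backgrounds form a family for `D` -/
theorem bgFam_in {D : Set ℂ} {T : ℝ → Finset (ℤ × ℤ)} (hO : IsOpen D) (h : LatApp D T) :
    BgFam D fun a => wIn (T a) where
  val := Eventually.of_forall fun a z j => by
    have := wIn_eq (T a) (z, j)
    simp only at this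
    rw [this]
    split_ifs
    · exact Or.inr rfl
    · exact Or.inl rfl
  inn K hK hKD := by
    obtain ⟨δ, hδ, hKδ⟩ := hK.exists_cthickening_subset_open hO hKD
    have h1 := h.inn _ hK.cthickening hKδ
    have h2 : ∀ᶠ a in 𝓝[>] (0 : ℝ), a ≤ δ :=
      mem_nhdsWithin_of_mem_nhds (Iic_mem_nhds hδ)
    filter_upwards [h1, h2, self_mem_nhdsWithin] with a ha had ha0 z j hz
    have ha0' : (0 : ℝ) < a := ha0
    have e := wIn_eq (T a) (z, j)
    simp only at e
    rw [e, if_pos]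
    · rfl
    rw [mem_in']
    refine ⟨ha _ (Metric.mem_cthickening_of_dist_le _ _ _ _ hz ?_),
      ha _ (Metric.self_subset_cthickening _ hz)⟩
    have h3 := mesh_unit_dist ha0' (z - (if j = 0 then (0, 1) else (1, 0))) (1 - j)
    have h4 : z - (if j = 0 then ((0, 1) : ℤ × ℤ) else (1, 0)) + unitVec (1 - j) = z := by
      fin_cases j <;> ext <;> simp [unitVec]
    rw [h4, dist_comm] at h3
    exact h3.trans had
  out K hK hKD := by
    filter_upwards [h.out K hK hKD] with a ha z j hz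
    have e := wIn_eq (T a) (z, j)
    simp only at e
    rw [e, if_neg]
    rw [mem_in']
    rintro ⟨-, h2⟩
    exact ha z hz h2

/-! ### the ratio -/

/-- free in `T` over plus in the starred set -/
def RR (D : Set ℂ) (a : ℝ) {n : ℕ} (u : Fin n → ℤ × ℤ) : ℝ :=
  GB .free (TT D a) u / GB .plus (starT (TT D a)) u

theorem RR_nonneg (D : Set ℂ) (a : ℝ) {n : ℕ} (u : Fin n → ℤ × ℤ) : 0 ≤ RR D a u :=
  div_nonneg (GB_nonneg (by decide) _ _) (GB_nonneg (by decide) _ _)

/-- plus correlations are positive -/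
theorem plus_pos {T : Finset (ℤ × ℤ)} (hT : J1cx606.NoHole T) {n : ℕ} (X : Fin n → ℤ × ℤ) :
    0 < GB .plus T X := by
  obtain ⟨S, hS, -⟩ := Covx359.exists_isCov_plus T X
  exact lt_of_le_of_ne (GB_nonneg (by decide) _ _) (plus_ne hT hS).symm

theorem inj_of_lapp {n : ℕ} {u : ℝ → Fin n → ℤ × ℤ} {x : Fin n → ℂ} (h : LApp u x)
    (hx : Function.Injective x) : ∀ᶠ a in 𝓝[>] (0 : ℝ), Function.Injective (u a) := by
  have h1 : ∀ i j : Fin n, i ≠ j → ∀ᶠ a in 𝓝[>] (0 : ℝ), u a i ≠ u a j := by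
    intro i j hij
    have hne : x i ≠ x j := fun e => hij (hx e)
    obtain ⟨U, V, hU, hV, h0, h1, hd⟩ := t2_separation hne
    filter_upwards [(h i).eventually (hU.mem_nhds h0), (h j).eventually (hV.mem_nhds h1)]
      with a h2 h3 h4
    rw [← h4] at h3
    exact Set.disjoint_left.1 hd h2 h3
  have h2 : ∀ᶠ a in 𝓝[>] (0 : ℝ), ∀ p : Fin n × Fin n, p.1 ≠ p.2 → u a p.1 ≠ u a p.2 :=
    eventually_all.2 fun p => by
      by_cases hp : p.1 = p.2
      · exact Eventually.of_forall fun a h => absurd hp h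
      · filter_upwards [h1 p.1 p.2 hp] with a ha _ using ha
  filter_upwards [h2] with a ha i j hij
  by_contra hne
  exact ha (i, j) hne hij

/-- **the square of the ratio is a determinant** -/
theorem rr_sq_eq {D : Set ℂ} (hD : IsC2JordanDomain D) {n : ℕ} {x : Fin n → ℂ}
    (hx : x ∈ Conf D n) {u : ℝ → Fin n → ℤ × ℤ} (hu : LApp u x) {S : ℝ → HE ℤ → HE ℤ → ℝ}
    (hS : ∀ᶠ a in 𝓝[>] (0 : ℝ), IsCov (wX (wIn (TT D a)) (u a)) (S a)) :
    ∀ᶠ a in 𝓝[>] (0 : ℝ), (RR D a (u a)) ^ 2 = (Mt (S a) (u a)).det := by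
  filter_upwards [hS, Kw9x871.noHole_TT hD, StarAppx583.eventually_noHole_starT hD,
    inj_of_lapp hu hx.2, hu.mem (Redx541.bounded_of_C2 hD) (Red2x541.isOpen_of_C2 hD) hx.1]
    with a h1 h2 h3 h4 h5
  have h6 := free_det h2 h4 h5 (wIn_eq (TT D a)) h1
  have h7 := (plus_pos h3 (u a)).ne'
  unfold RR
  rw [div_pow, h6, mul_div_assoc, div_self (pow_ne_zero 2 h7), mul_one]

/-- limit matrix -/
def Bm {n : ℕ} (c2 : ℝ) (x : Fin n → ℂ) (g : Fin n → ℂ → ℂ) : Matrix (Fin n) (Fin n) ℝ :=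
  Matrix.of fun j i => if j = i then 0 else c2 * (g i (x j) / (Complex.I * gsrc x j)).re

theorem det_signs {n : ℕ} (M : Matrix (Fin n) (Fin n) ℝ) (k : Fin n → ℝ) (hk : ∀ i, k i * k i = 1) :
    (Matrix.of fun j i => k j * k i * M j i).det = M.det := by
  have h : (Matrix.of fun j i => k j * k i * M j i) =
      Matrix.diagonal k * M * Matrix.diagonal k := by
    ext j i
    rw [Matrix.mul_diagonal, Matrix.diagonal_mul, Matrix.of_apply]
    ring
  rw [h, Matrix.det_mul, Matrix.det_mul, Matrix.det_diagonal]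
  have h2 : (∏ i, k i) * (∏ i, k i) = 1 := by
    rw [← Finset.prod_mul_distrib]
    exact Finset.prod_eq_one fun i _ => hk i
  linear_combination M.det * h2

theorem tot_self {S : HE ℤ → HE ℤ → ℝ} (hS : ∀ h h', S h h' = -S h' h) (f : ℤ × ℤ) :
    tot S f f = 0 := by
  have h : tot S f f = - tot S f f := by
    unfold tot
    conv_lhs => rw [Finset.sum_comm]
    rw [← Finset.sum_neg_distrib]
    refine Finset.sum_congr rfl fun i _ => ?_
    rw [← Finset.sum_neg_distrib]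
    exact Finset.sum_congr rfl fun j _ => hS _ _
  linarith

/-- **limit of the determinants** -/
theorem det_tendsto {c1 c2 : ℝ} {D : Set ℂ} {n : ℕ} {x : Fin n → ℂ} {w : ℝ → BW ℤ}
    {X : ℝ → Fin n → ℤ × ℤ} {g : Fin n → ℂ → ℂ} (h : BrF c1 c2 D x w X g)
    {S : ℝ → HE ℤ → HE ℤ → ℝ} (hS : ∀ᶠ a in 𝓝[>] (0 : ℝ), IsCov (wX (w a) (X a)) (S a)) :
    Tendsto (fun a => (Mt (S a) (X a)).det) (𝓝[>] 0) (𝓝 (Bm c2 x g).det) := by
  have h1 : Tendsto (fun a => Matrix.of fun j i => kapX x (X a) j * kapX x (X a) i *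
      Mt (S a) (X a) j i) (𝓝[>] (0 : ℝ)) (𝓝 (Bm c2 x g)) := by
    refine tendsto_pi_nhds.2 fun j => tendsto_pi_nhds.2 fun i => ?_
    by_cases hij : j = i
    · subst hij
      have e : Bm c2 x g j j = 0 := by simp [Bm]
      rw [e]
      refine tendsto_const_nhds.congr' ?_
      filter_upwards [hS] with a ha
      show (0 : ℝ) = kapX x (X a) j * kapX x (X a) j * tot (S a) (X a j) (X a j)
      rw [tot_self ha.skew, mul_zero]
    · have e : Bm c2 x g j i = c2 * (g i (x j) / (Complex.I * gsrc x j)).re := by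
        simp [Bm, hij]
      rw [e]
      exact h.cor S hS i j (Ne.symm hij)
  have h2 := (Continuous.matrix_det (continuous_id (X := Matrix (Fin n) (Fin n) ℝ))).tendsto
    (Bm c2 x g)
  refine (h2.comp h1).congr fun a => ?_
  simp only [Function.comp, id]
  exact det_signs (Mt (S a) (X a)) (fun i => kapX x (X a) i) fun i => by
    unfold kapX; exact UKerx420.kap_sq _ _ _ _

/-- **limit of the squared ratio** -/
theorem rr_sq_tendsto {c1 c2 : ℝ} {D : Set ℂ} (hD : IsC2JordanDomain D) {n : ℕ} {x : Fin n → ℂ}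
    (hx : x ∈ Conf D n) {g : Fin n → ℂ → ℂ}
    (h : ∀ (w : ℝ → BW ℤ) (X : ℝ → Fin n → ℤ × ℤ), BgFam D w → LApp X x → BrF c1 c2 D x w X g)
    {u : ℝ → Fin n → ℤ × ℤ} (hu : LApp u x) :
    Tendsto (fun a => (RR D a (u a)) ^ 2) (𝓝[>] 0) (𝓝 (Bm c2 x g).det) := by
  have hex : ∀ a : ℝ, ∃ S : HE ℤ → HE ℤ → ℝ, IsCov (wX (wIn (TT D a)) (u a)) S :=
    fun a => exists_isCov_in _ _
  choose S hS using hex
  have hS' : ∀ᶠ a in 𝓝[>] (0 : ℝ), IsCov (wX (wIn (TT D a)) (u a)) (S a) :=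
    Eventually.of_forall hS
  have h1 := det_tendsto (h _ u (bgFam_in (Red2x541.isOpen_of_C2 hD) (latApp_TT hD)) hu) hS'
  exact h1.congr' ((rr_sq_eq hD hx hu hS').mono fun a ha => ha.symm)

/-- **limit of the ratio** -/
theorem rr_tendsto {c1 c2 : ℝ} {D : Set ℂ} (hD : IsC2JordanDomain D) {n : ℕ} {x : Fin n → ℂ}
    (hx : x ∈ Conf D n) {g : Fin n → ℂ → ℂ}
    (h : ∀ (w : ℝ → BW ℤ) (X : ℝ → Fin n → ℤ × ℤ), BgFam D w → LApp X x → BrF c1 c2 D x w X g)
    {u : ℝ → Fin n → ℤ × ℤ} (hu : LApp u x) :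
    Tendsto (fun a => RR D a (u a)) (𝓝[>] 0) (𝓝 (Real.sqrt (Bm c2 x g).det)) := by
  have h1 := (Real.continuous_sqrt.tendsto _).comp (rr_sq_tendsto hD hx h hu)
  refine h1.congr fun a => ?_
  simp only [Function.comp]
  exact Real.sqrt_sq (RR_nonneg _ _ _)

end Crest.Agent.R165.SpFr1x422
end
end

-- ▼ part R165/GeoJ_65
section

/-!
# Row 165, block GEO (helper65), file J: quasiconvexity (GEO-6b)

* `Poly D z w ℓ` : `z` and `w` are joined by a polygonal path inside `D` of length `≤ ℓ`;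
* `Poly.norm_sub_le`, `Poly.norm_sub_le_real`: functions with derivative bounded by `L` on `D` vary by at most
  `L ℓ` along such a path;
* `quasiconvex` : for `CD D r M` there is `K` with `Poly D z w (K ‖z - w‖)` for all `z w ∈ D`.
-/

set_option autoImplicit false

open Set Topology Filter Metric

namespace Crest.Agent.R165.GeoJx65

open Crest.Agent.R165.Geo
open Crest.Agent.R165.GeoDx65
open Complex (I)

/-- polygonal paths of length `≤ ℓ` inside `D` -/
inductive Poly (D : Set ℂ) : ℂ → ℂ → ℝ → Prop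
  | seg {z w : ℂ} {ℓ : ℝ} (h : segment ℝ z w ⊆ D) (hl : ‖z - w‖ ≤ ℓ) : Poly D z w ℓ
  | trans {z w x : ℂ} {ℓ ℓ' : ℝ} (h : Poly D z w ℓ) (h' : Poly D w x ℓ') : Poly D z x (ℓ + ℓ')

namespace Poly

variable {D : Set ℂ} {z w x : ℂ} {ℓ ℓ' : ℝ}

theorem symm (h : Poly D z w ℓ) : Poly D w z ℓ := by
  induction h with
  | seg h hl => exact Poly.seg (by rwa [segment_symm]) (by rwa [norm_sub_rev])
  | trans _ _ ih1 ih2 => rw [add_comm]; exact Poly.trans ih2 ih1

theorem mem_left (h : Poly D z w ℓ) : z ∈ D := by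
  induction h with
  | seg h _ => exact h (left_mem_segment ℝ _ _)
  | trans _ _ ih _ => exact ih

theorem mem_right (h : Poly D z w ℓ) : w ∈ D := h.symm.mem_left


theorem refl (hz : z ∈ D) : Poly D z z 0 :=
  Poly.seg (by rw [segment_same]; exact singleton_subset_iff.2 hz) (by simp)

theorem mono_len (h : Poly D z w ℓ) (hl : ℓ ≤ ℓ') : Poly D z w ℓ' := by
  have h2 : Poly D w w (ℓ' - ℓ) :=
    Poly.seg (by rw [segment_same]; exact singleton_subset_iff.2 h.mem_right) (by simpa using hl)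
  have := Poly.trans h h2
  rwa [add_sub_cancel] at this

theorem mono {D' : Set ℂ} (h : Poly D z w ℓ) (hD : D ⊆ D') : Poly D' z w ℓ := by
  induction h with
  | seg h hl => exact Poly.seg (h.trans hD) hl
  | trans _ _ ih1 ih2 => exact Poly.trans ih1 ih2

/-- real differentiable functions -/
theorem norm_sub_le_real {E : Type*} [NormedAddCommGroup E] [NormedSpace ℝ E] (h : Poly D z w ℓ)
    {F : ℂ → E} {L : ℝ} (hF : ∀ x ∈ D, DifferentiableAt ℝ F x) (hL : ∀ x ∈ D, ‖fderiv ℝ F x‖ ≤ L)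
    (hL0 : 0 ≤ L) : ‖F z - F w‖ ≤ L * ℓ := by
  induction h with
  | @seg z w _ h hl =>
    have := Convex.norm_image_sub_le_of_norm_fderiv_le (𝕜 := ℝ) (f := F) (C := L)
      (s := segment ℝ z w) (fun x hx => hF x (h hx)) (fun x hx => hL x (h hx))
      (convex_segment z w) (right_mem_segment ℝ z w) (left_mem_segment ℝ z w)
    exact this.trans (mul_le_mul_of_nonneg_left hl hL0)
  | @trans z w x _ _ _ _ ih1 ih2 =>
    calc ‖F z - F x‖ = ‖(F z - F w) + (F w - F x)‖ := by congr 1; abel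
      _ ≤ _ := (norm_add_le _ _).trans (add_le_add ih1 ih2)
      _ = _ := by ring

/-- holomorphic functions -/
theorem norm_sub_le {E : Type*} [NormedAddCommGroup E] [NormedSpace ℂ E] (h : Poly D z w ℓ)
    {F : ℂ → E} {L : ℝ} (hF : ∀ x ∈ D, DifferentiableAt ℂ F x) (hL : ∀ x ∈ D, ‖deriv F x‖ ≤ L)
    (hL0 : 0 ≤ L) : ‖F z - F w‖ ≤ L * ℓ := by
  induction h with
  | @seg z w _ h hl =>
    have := Convex.norm_image_sub_le_of_norm_deriv_le (𝕜 := ℂ) (f := F) (C := L)
      (s := segment ℝ z w) (fun x hx => hF x (h hx)) (fun x hx => hL x (h hx))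
      (convex_segment z w) (right_mem_segment ℝ z w) (left_mem_segment ℝ z w)
    exact this.trans (mul_le_mul_of_nonneg_left hl hL0)
  | @trans z w x _ _ _ _ ih1 ih2 =>
    calc ‖F z - F x‖ = ‖(F z - F w) + (F w - F x)‖ := by congr 1; abel
      _ ≤ _ := (norm_add_le _ _).trans (add_le_add ih1 ih2)
      _ = _ := by ring

end Poly

variable {D : Set ℂ} {r M : ℝ}

/-- affine image of a segment in chart coordinates -/
theorem segment_coord (p : ℂ) (k : ℕ) (s t s' t' : ℝ) {x : ℂ}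
    (hx : x ∈ segment ℝ (p + I ^ k * ((s:ℂ) + (t:ℂ) * I)) (p + I ^ k * ((s':ℂ) + (t':ℂ) * I))) :
    ∃ b : ℝ, 0 ≤ b ∧ b ≤ 1 ∧
      x = p + I ^ k * (((s + b * (s' - s) : ℝ) : ℂ) + ((t + b * (t' - t) : ℝ) : ℂ) * I) := by
  obtain ⟨a, b, ha, hb, hab, rfl⟩ := hx
  refine ⟨b, hb, by linarith, ?_⟩
  have ha' : a = 1 - b := by linarith
  rw [ha', Complex.real_smul, Complex.real_smul]
  push_cast
  ring

/-- local quasiconvexity at a frontier point -/
theorem local_frontier {p : ℂ} {k : ℕ} {g g' : ℝ → ℝ} (hc : Chart D p r M k g g') (hr : 0 < r)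
    {z w : ℂ} (hz : z ∈ D) (hw : w ∈ D) (hzp : ‖z - p‖ < r / 8) (hwp : ‖w - p‖ < r / 8) :
    Poly D z w (7 * ‖z - w‖) := by
  obtain ⟨s, t, ez, -, hs, ht⟩ := exists_coord p k z
  obtain ⟨s', t', ew, -, hs', ht'⟩ := exists_coord p k w
  set d := ‖z - w‖ with hd
  have hd0 : 0 ≤ d := norm_nonneg _
  have hdr : d ≤ r / 4 := by
    have : ‖z - w‖ = ‖(z - p) - (w - p)‖ := by congr 1; ring
    rw [hd, this]
    have := norm_sub_le (z - p) (w - p)
    linarith
  have hdist := norm_coord p k s t s' t'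
  rw [← ez, ← ew, ← hd] at hdist
  have h1 : |s - s'| ≤ d := abs_le_of_sq_le_sq (by nlinarith [sq_nonneg (t - t')]) hd0
  have h2 : |t - t'| ≤ d := abs_le_of_sq_le_sq (by nlinarith [sq_nonneg (s - s')]) hd0
  have hs1 := hs.trans hzp.le
  have ht1 := ht.trans hzp.le
  have hs2 := hs'.trans hwp.le
  have ht2 := ht'.trans hwp.le
  have hs1' := abs_le.1 hs1
  have ht1' := abs_le.1 ht1
  have hs2' := abs_le.1 hs2
  have ht2' := abs_le.1 ht2
  have h1' := abs_le.1 h1
  have h2' := abs_le.1 h2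
  have hgs : g s < t := (hc.mem s t (hs1.trans (by linarith)) (ht1.trans (by linarith))).1 (by rwa [← ez])
  have hgs' : g s' < t' := (hc.mem s' t' (hs2.trans (by linarith)) (ht2.trans (by linarith))).1
    (by rwa [← ew])
  -- three segments
  have A : Poly D z (p + I ^ k * ((s:ℂ) + ((t + 3 * d : ℝ):ℂ) * I)) (3 * d) := by
    refine Poly.seg (fun x hx => ?_) ?_
    · rw [ez] at hx
      obtain ⟨b, hb0, hb1, rfl⟩ := segment_coord p k s t s (t + 3 * d) hx
      have hb3 : 0 ≤ b * (3 * d) := by positivity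
      have hb4 : b * (3 * d) ≤ 3 * d := mul_le_of_le_one_left (by positivity) hb1
      rw [hc.mem _ _ (by rw [sub_self, mul_zero, add_zero]; linarith)
        (abs_le.2 ⟨by rw [add_sub_cancel_left]; linarith, by rw [add_sub_cancel_left]; linarith⟩)]
      rw [sub_self, mul_zero, add_zero, add_sub_cancel_left]
      linarith
    · have := norm_coord p k s t s (t + 3 * d)
      rw [← ez] at this
      have h3 : (s - s) ^ 2 + (t - (t + 3 * d)) ^ 2 = (3 * d) ^ 2 := by ring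
      rw [h3] at this
      exact ((pow_left_inj₀ (norm_nonneg _) (by positivity) two_ne_zero).1 this).le
  have B : Poly D w (p + I ^ k * ((s':ℂ) + ((t' + 3 * d : ℝ):ℂ) * I)) (3 * d) := by
    refine Poly.seg (fun x hx => ?_) ?_
    · rw [ew] at hx
      obtain ⟨b, hb0, hb1, rfl⟩ := segment_coord p k s' t' s' (t' + 3 * d) hx
      have hb3 : 0 ≤ b * (3 * d) := by positivity
      have hb4 : b * (3 * d) ≤ 3 * d := mul_le_of_le_one_left (by positivity) hb1
      rw [hc.mem _ _ (by rw [sub_self, mul_zero, add_zero]; linarith)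
        (abs_le.2 ⟨by rw [add_sub_cancel_left]; linarith, by rw [add_sub_cancel_left]; linarith⟩)]
      rw [sub_self, mul_zero, add_zero, add_sub_cancel_left]
      linarith
    · have := norm_coord p k s' t' s' (t' + 3 * d)
      rw [← ew] at this
      have h3 : (s' - s') ^ 2 + (t' - (t' + 3 * d)) ^ 2 = (3 * d) ^ 2 := by ring
      rw [h3] at this
      exact ((pow_left_inj₀ (norm_nonneg _) (by positivity) two_ne_zero).1 this).le
  have C : Poly D (p + I ^ k * ((s:ℂ) + ((t + 3 * d : ℝ):ℂ) * I))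
      (p + I ^ k * ((s':ℂ) + ((t' + 3 * d : ℝ):ℂ) * I)) d := by
    refine Poly.seg (fun x hx => ?_) ?_
    · obtain ⟨b, hb0, hb1, rfl⟩ := segment_coord p k s (t + 3 * d) s' (t' + 3 * d) hx
      have h3 : |b * (s' - s)| ≤ d := by
        rw [abs_mul, abs_of_nonneg hb0, abs_sub_comm]
        exact (mul_le_of_le_one_left (abs_nonneg _) hb1).trans h1
      have h4 : |b * (t' + 3 * d - (t + 3 * d))| ≤ d := by
        rw [abs_mul, abs_of_nonneg hb0, add_sub_add_right_eq_sub, abs_sub_comm]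
        exact (mul_le_of_le_one_left (abs_nonneg _) hb1).trans h2
      have h3' := abs_le.1 h3
      have h4' := abs_le.1 h4
      rw [hc.mem _ _ (abs_le.2 ⟨by linarith, by linarith⟩) (abs_le.2 ⟨by linarith, by linarith⟩)]
      have h5 := Chart.lipg hc (s + b * (s' - s)) s
      rw [add_sub_cancel_left] at h5
      have h6 := (abs_le.1 h5).2
      linarith
    · have := norm_coord p k s (t + 3 * d) s' (t' + 3 * d)
      have h3 : (s - s') ^ 2 + (t + 3 * d - (t' + 3 * d)) ^ 2 = d ^ 2 := by rw [hdist]; ring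
      rw [h3] at this
      exact ((pow_left_inj₀ (norm_nonneg _) hd0 two_ne_zero).1 this).le
  have := (A.trans C).trans B.symm
  refine this.mono_len (le_of_eq ?_)
  ring

/-- local quasiconvexity -/
theorem exists_local (h : CD D r M) {p : ℂ} (hp : p ∈ closure D) :
    ∃ ε : ℝ, 0 < ε ∧ ∀ z ∈ D, ∀ w ∈ D, ‖z - p‖ < ε → ‖w - p‖ < ε → Poly D z w (7 * ‖z - w‖) := by
  by_cases hpD : p ∈ D
  · obtain ⟨ε, hε, hb⟩ := Metric.isOpen_iff.1 h.isOpen p hpD
    refine ⟨ε, hε, fun z hz w hw h1 h2 => ?_⟩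
    refine Poly.seg (fun x hx => hb ?_) ?_
    · exact (convex_ball p ε).segment_subset (by rwa [mem_ball, Complex.dist_eq])
        (by rwa [mem_ball, Complex.dist_eq]) hx
    · have := norm_nonneg (z - w)
      linarith
  · have hpf : p ∈ frontier D := by
      rw [h.isOpen.frontier_eq]; exact ⟨hp, hpD⟩
    obtain ⟨k, g, g', hc⟩ := h.chart p hpf
    have hr := h.r_pos
    exact ⟨r / 8, by positivity, fun z hz w hw h1 h2 => local_frontier hc hr hz hw h1 h2⟩

/-- joined by some polygonal path -/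
theorem exists_poly (h : CD D r M) {z w : ℂ} (hz : z ∈ D) (hw : w ∈ D) : ∃ ℓ : ℝ, Poly D z w ℓ := by
  set S : Set ℂ := {x | x ∈ D ∧ ∃ ℓ, Poly D z x ℓ} with hS
  set S' : Set ℂ := {x | x ∈ D ∧ ¬ ∃ ℓ, Poly D z x ℓ} with hS'
  have hloc : ∀ x ∈ D, ∃ ε > 0, ball x ε ⊆ D ∧ ∀ y ∈ ball x ε, Poly D x y ‖x - y‖ := fun x hx => by
    obtain ⟨ε, hε, hb⟩ := Metric.isOpen_iff.1 h.isOpen x hx
    refine ⟨ε, hε, hb, fun y hy => Poly.seg (fun u hu => hb ?_) le_rfl⟩
    exact (convex_ball x ε).segment_subset (mem_ball_self hε) hy hu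
  have hSo : IsOpen S := Metric.isOpen_iff.2 fun x hx => by
    obtain ⟨ε, hε, hb, hp⟩ := hloc x hx.1
    obtain ⟨ℓ, hℓ⟩ := hx.2
    exact ⟨ε, hε, fun y hy => ⟨hb hy, _, hℓ.trans (hp y hy)⟩⟩
  have hSo' : IsOpen S' := Metric.isOpen_iff.2 fun x hx => by
    obtain ⟨ε, hε, hb, hp⟩ := hloc x hx.1
    refine ⟨ε, hε, fun y hy => ⟨hb hy, fun hy2 => ?_⟩⟩
    obtain ⟨ℓ, hℓ⟩ := hy2
    exact hx.2 ⟨_, hℓ.trans (hp y hy).symm⟩
  by_contra hcon
  obtain ⟨x, -, hx1, hx2⟩ := h.conn.isPreconnected S S' hSo hSo'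
    (fun x hx => by
      by_cases h1 : ∃ ℓ, Poly D z x ℓ
      · exact Or.inl ⟨hx, h1⟩
      · exact Or.inr ⟨hx, h1⟩) ⟨z, hz, hz, 0, Poly.refl hz⟩ ⟨w, hw, hw, hcon⟩
  exact hx2.2 hx1.2

/-- **quasiconvexity** -/
theorem quasiconvex (h : CD D r M) :
    ∃ K : ℝ, 0 < K ∧ ∀ z ∈ D, ∀ w ∈ D, Poly D z w (K * ‖z - w‖) := by
  classical
  have hK : IsCompact (closure D) := h.bdd.isCompact_closure
  choose! ε hε hloc using fun p (hp : p ∈ closure D) => exists_local h hp
  obtain ⟨t, htK, hcov⟩ := hK.elim_nhds_subcover (fun p => ball p (ε p / 2))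
    (fun p hp => ball_mem_nhds p (by have := hε p hp; positivity))
  -- bound for the diameter
  obtain ⟨R, hR0, hR⟩ := h.bdd.exists_pos_norm_le
  -- base points
  obtain ⟨x₀, hx₀⟩ := h.conn.nonempty
  have hbase : ∀ p : ℂ, ∃ b : ℂ, b ∈ D ∧ (p ∈ t → ‖b - p‖ < ε p) := fun p => by
    by_cases hp : p ∈ t
    · obtain ⟨b, hb1, hb2⟩ := Metric.mem_closure_iff.1 (htK p hp) (ε p) (hε p (htK p hp))
      exact ⟨b, hb1, fun _ => by rwa [← dist_eq_norm, dist_comm]⟩
    · exact ⟨x₀, hx₀, fun h => absurd h hp⟩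
  choose b hbD hbε using hbase
  have hpoly : ∀ p q : ℂ, ∃ ℓ : ℝ, Poly D (b p) (b q) ℓ := fun p q => exists_poly h (hbD p) (hbD q)
  choose ℓ hℓ using hpoly
  set N : ℝ := ∑ p ∈ t, ∑ q ∈ t, |ℓ p q| with hN
  have hN0 : 0 ≤ N := Finset.sum_nonneg fun _ _ => Finset.sum_nonneg fun _ _ => abs_nonneg _
  have hNle : ∀ p ∈ t, ∀ q ∈ t, ℓ p q ≤ N := fun p hp q hq =>
    (le_abs_self _).trans ((Finset.single_le_sum (f := fun q => |ℓ p q|)
      (fun _ _ => abs_nonneg _) hq).trans (Finset.single_le_sum (f := fun p => ∑ q ∈ t, |ℓ p q|)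
        (fun _ _ => Finset.sum_nonneg fun _ _ => abs_nonneg _) hp))
  -- smallest radius
  obtain ⟨ε₀, hε₀, hε₀le⟩ : ∃ ε₀ : ℝ, 0 < ε₀ ∧ ∀ p ∈ t, ε₀ ≤ ε p / 2 := by
    rcases t.eq_empty_or_nonempty with he | hne
    · exact ⟨1, one_pos, fun p hp => by rw [he] at hp; exact absurd hp (Finset.notMem_empty _)⟩
    · obtain ⟨p, hp, hmin⟩ := t.exists_min_image (fun p => ε p / 2) hne
      exact ⟨ε p / 2, by have := hε p (htK p hp); positivity, hmin⟩
  have hcov' : ∀ z ∈ D, ∃ p ∈ t, ‖z - p‖ < ε p / 2 := fun z hz => by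
    have := hcov (subset_closure hz)
    simp only [mem_iUnion] at this
    obtain ⟨p, hp, hzp⟩ := this
    exact ⟨p, hp, by rwa [mem_ball, dist_eq_norm] at hzp⟩
  refine ⟨7 + (28 * R + N) / ε₀, by positivity, fun z hz w hw => ?_⟩
  obtain ⟨p, hp, hzp⟩ := hcov' z hz
  have hεp := hε p (htK p hp)
  by_cases hd : ‖z - w‖ < ε₀
  · have hwp : ‖w - p‖ < ε p := by
      have h1 : ‖w - p‖ ≤ ‖w - z‖ + ‖z - p‖ := by
        have : w - p = (w - z) + (z - p) := by ring
        rw [this]; exact norm_add_le _ _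
      rw [norm_sub_rev] at hd
      have := hε₀le p hp
      linarith
    refine (hloc p (htK p hp) z hz w hw (by linarith) hwp).mono_len ?_
    refine mul_le_mul_of_nonneg_right ?_ (norm_nonneg _)
    have : 0 ≤ (28 * R + N) / ε₀ := by positivity
    linarith
  · push Not at hd
    obtain ⟨q, hq, hwq⟩ := hcov' w hw
    have hεq := hε q (htK q hq)
    have h1 := hloc p (htK p hp) z hz (b p) (hbD p) (by linarith) (hbε p hp)
    have h2 := hloc q (htK q hq) w hw (b q) (hbD q) (by linarith) (hbε q hq)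
    have h3 := (h1.trans (hℓ p q)).trans h2.symm
    refine h3.mono_len ?_
    have hn : ∀ x ∈ D, ∀ y ∈ D, ‖x - y‖ ≤ 2 * R := fun x hx y hy =>
      (norm_sub_le x y).trans (by linarith [hR x hx, hR y hy])
    have h4 := hn z hz (b p) (hbD p)
    have h5 := hn w hw (b q) (hbD q)
    have h6 := hNle p hp q hq
    have h7 : 28 * R + N ≤ (28 * R + N) / ε₀ * ‖z - w‖ := by
      calc 28 * R + N = (28 * R + N) / ε₀ * ε₀ := by field_simp
        _ ≤ _ := mul_le_mul_of_nonneg_left hd (by positivity)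
    have h8 := norm_nonneg (z - w)
    rw [add_mul]
    linarith

/-- holomorphic functions with bounded derivative are Lipschitz on `D` -/
theorem exists_lip (h : CD D r M) : ∃ K : ℝ, 0 < K ∧
    (∀ (F : ℂ → ℂ) (L : ℝ), 0 ≤ L → DifferentiableOn ℂ F D → (∀ x ∈ D, ‖deriv F x‖ ≤ L) →
      ∀ z ∈ D, ∀ w ∈ D, ‖F z - F w‖ ≤ K * L * ‖z - w‖) ∧
    (∀ (F : ℂ → ℝ) (L : ℝ), 0 ≤ L → DifferentiableOn ℝ F D → (∀ x ∈ D, ‖fderiv ℝ F x‖ ≤ L) →
      ∀ z ∈ D, ∀ w ∈ D, |F z - F w| ≤ K * L * ‖z - w‖) ∧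
    (∀ (F : ℂ → ℂ) (L : ℝ), 0 ≤ L → DifferentiableOn ℝ F D → (∀ x ∈ D, ‖fderiv ℝ F x‖ ≤ L) →
      ∀ z ∈ D, ∀ w ∈ D, ‖F z - F w‖ ≤ K * L * ‖z - w‖) := by
  obtain ⟨K, hK0, hK⟩ := quasiconvex h
  refine ⟨K, hK0, fun F L hL hF hd z hz w hw => ?_, fun F L hL hF hd z hz w hw => ?_,
    fun F L hL hF hd z hz w hw => ?_⟩
  · have := (hK z hz w hw).norm_sub_le (F := F)
      (fun x hx => hF.differentiableAt (h.isOpen.mem_nhds hx)) hd hL
    calc _ ≤ _ := this
      _ = _ := by ring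
  · have := (hK z hz w hw).norm_sub_le_real (F := F)
      (fun x hx => hF.differentiableAt (h.isOpen.mem_nhds hx)) hd hL
    rw [Real.norm_eq_abs] at this
    calc _ ≤ _ := this
      _ = _ := by ring
  · have := (hK z hz w hw).norm_sub_le_real (F := F)
      (fun x hx => hF.differentiableAt (h.isOpen.mem_nhds hx)) hd hL
    calc _ ≤ _ := this
      _ = _ := by ring

end Crest.Agent.R165.GeoJx65
end

-- ▼ part R165/GeoK_65
section

/-!
# Row 165, block GEO (helper65), file K: conformal maps between domains with uniform charts extend to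
bi-Lipschitz homeomorphisms of the closures (GEO-7 (ii), (iii))

* `BiLip D D' F G` : `F`, `G` globally Lipschitz maps of the plane, mutually inverse homeomorphisms between
  `closure D` and `closure D'`, `D ↔ D'`, `frontier D ↔ frontier D'`;
* `exists_biLip` : extension of Lipschitz mutually inverse maps of `D`, `D'`;
* `RMp.biLip` : for `RMp D ψ φ`, extensions `Ψ`, `Φ` with `BiLip (ball 0 1) D Ψ Φ`;
* `conf_bounds`, `conf_biLip` : the same for conformal bijections `f : D → D'`.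
-/

set_option autoImplicit false

open Set Topology Filter Metric
open scoped NNReal

namespace Crest.Agent.R165.GeoKx65

open Crest.Agent.R165.Geo
open Crest.Agent.R165.GeoJx65

variable {D D' : Set ℂ} {r M r' M' : ℝ}

/-- bi-Lipschitz homeomorphism of closures -/
structure BiLip (D D' : Set ℂ) (F G : ℂ → ℂ) : Prop where
  lipF : ∃ C : ℝ≥0, LipschitzWith C F
  lipG : ∃ C : ℝ≥0, LipschitzWith C G
  mapF : MapsTo F (closure D) (closure D')
  mapG : MapsTo G (closure D') (closure D)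
  GF : ∀ z ∈ closure D, G (F z) = z
  FG : ∀ w ∈ closure D', F (G w) = w
  openF : MapsTo F D D'
  openG : MapsTo G D' D
  frontF : MapsTo F (frontier D) (frontier D')
  frontG : MapsTo G (frontier D') (frontier D)

namespace BiLip

variable {F G : ℂ → ℂ}

theorem symm (h : BiLip D D' F G) : BiLip D' D G F :=
  ⟨h.lipG, h.lipF, h.mapG, h.mapF, h.FG, h.GF, h.openG, h.openF, h.frontG, h.frontF⟩







theorem upper (h : BiLip D D' F G) : ∃ C : ℝ, 0 < C ∧ ∀ z w : ℂ, ‖F z - F w‖ ≤ C * ‖z - w‖ := by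
  obtain ⟨C, hC⟩ := h.lipF
  refine ⟨C + 1, by positivity, fun z w => ?_⟩
  have h1 := hC.dist_le_mul z w
  rw [dist_eq_norm, dist_eq_norm] at h1
  have := norm_nonneg (z - w)
  nlinarith


theorem comp {D'' : Set ℂ} {F' G' : ℂ → ℂ} (h : BiLip D D' F G) (h' : BiLip D' D'' F' G') :
    BiLip D D'' (F' ∘ F) (G ∘ G') := by
  obtain ⟨C1, hC1⟩ := h.lipF
  obtain ⟨C2, hC2⟩ := h.lipG
  obtain ⟨C3, hC3⟩ := h'.lipF
  obtain ⟨C4, hC4⟩ := h'.lipG
  refine ⟨⟨_, hC3.comp hC1⟩, ⟨_, hC2.comp hC4⟩, h'.mapF.comp h.mapF, h.mapG.comp h'.mapG,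
    fun z hz => ?_, fun w hw => ?_, h'.openF.comp h.openF, h.openG.comp h'.openG,
    h'.frontF.comp h.frontF, h.frontG.comp h'.frontG⟩
  · simp only [Function.comp_apply]
    rw [h'.GF _ (h.mapF hz), h.GF z hz]
  · simp only [Function.comp_apply]
    rw [h.FG _ (h'.mapG hw), h'.FG w hw]

end BiLip

/-- extension of Lipschitz mutually inverse maps -/
theorem exists_biLip (hD : IsOpen D) (hD' : IsOpen D') {f g : ℂ → ℂ} (hf : MapsTo f D D')
    (hg : MapsTo g D' D) (hgf : ∀ z ∈ D, g (f z) = z) (hfg : ∀ w ∈ D', f (g w) = w) {C C' : ℝ}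
    (hfl : ∀ z ∈ D, ∀ w ∈ D, ‖f z - f w‖ ≤ C * ‖z - w‖)
    (hgl : ∀ z ∈ D', ∀ w ∈ D', ‖g z - g w‖ ≤ C' * ‖z - w‖) :
    ∃ F G : ℂ → ℂ, BiLip D D' F G ∧ EqOn F f D ∧ EqOn G g D' := by
  have hlip : ∀ {S : Set ℂ} {u : ℂ → ℂ} {K : ℝ}, (∀ z ∈ S, ∀ w ∈ S, ‖u z - u w‖ ≤ K * ‖z - w‖) →
      LipschitzOnWith (Real.toNNReal K) u S := fun {S u K} h =>
    LipschitzOnWith.of_dist_le_mul fun z hz w hw => by
      rw [dist_eq_norm, dist_eq_norm]
      refine (h z hz w hw).trans (mul_le_mul_of_nonneg_right ?_ (norm_nonneg _))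
      exact Real.le_coe_toNNReal K
  obtain ⟨F, hF, hFf⟩ := (hlip hfl).extend_finite_dimension
  obtain ⟨G, hG, hGg⟩ := (hlip hgl).extend_finite_dimension
  have hFc := hF.continuous
  have hGc := hG.continuous
  have hFD : MapsTo F D D' := fun z hz => by rw [← hFf hz]; exact hf hz
  have hGD : MapsTo G D' D := fun z hz => by rw [← hGg hz]; exact hg hz
  have hFm : MapsTo F (closure D) (closure D') := hFD.closure hFc
  have hGm : MapsTo G (closure D') (closure D) := hGD.closure hGc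
  have hGF : ∀ z ∈ closure D, G (F z) = z := by
    have h1 : IsClosed {z : ℂ | G (F z) = z} := isClosed_eq (hGc.comp hFc) continuous_id
    have h2 : D ⊆ {z : ℂ | G (F z) = z} := fun z hz => by
      show G (F z) = z
      rw [← hGg (hFD hz), ← hFf hz, hgf z hz]
    exact closure_minimal h2 h1
  have hFG : ∀ w ∈ closure D', F (G w) = w := by
    have h1 : IsClosed {z : ℂ | F (G z) = z} := isClosed_eq (hFc.comp hGc) continuous_id
    have h2 : D' ⊆ {z : ℂ | F (G z) = z} := fun z hz => by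
      show F (G z) = z
      rw [← hFf (hGD hz), ← hGg hz, hfg z hz]
    exact closure_minimal h2 h1
  refine ⟨F, G, ⟨⟨_, hF⟩, ⟨_, hG⟩, hFm, hGm, hGF, hFG, hFD, hGD, fun z hz => ?_, fun w hw => ?_⟩,
    fun z hz => (hFf hz).symm, fun z hz => (hGg hz).symm⟩
  · have hzc := frontier_subset_closure hz
    rw [hD.frontier_eq] at hz
    rw [hD'.frontier_eq]
    exact ⟨hFm hzc, fun h1 => hz.2 (by rw [← hGF z hzc]; exact hGD h1)⟩
  · have hwc := frontier_subset_closure hw
    rw [hD'.frontier_eq] at hw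
    rw [hD.frontier_eq]
    exact ⟨hGm hwc, fun h1 => hw.2 (by rw [← hFG w hwc]; exact hFD h1)⟩




/-! ### conformal bijections between two domains -/

/-- data of a conformal bijection with its inverse -/
structure CMap (D D' : Set ℂ) (f g : ℂ → ℂ) : Prop where
  df : DifferentiableOn ℂ f D
  dg : DifferentiableOn ℂ g D'
  mf : MapsTo f D D'
  mg : MapsTo g D' D
  gf : ∀ z ∈ D, g (f z) = z
  fg : ∀ w ∈ D', f (g w) = w

theorem CMap.symm {f g : ℂ → ℂ} (h : CMap D D' f g) : CMap D' D g f :=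
  ⟨h.dg, h.df, h.mg, h.mf, h.fg, h.gf⟩

theorem CMap.comp {D'' : Set ℂ} {f g f' g' : ℂ → ℂ} (h : CMap D D' f g) (h' : CMap D' D'' f' g') :
    CMap D D'' (f' ∘ f) (g ∘ g') :=
  ⟨h'.df.comp h.df h.mf, h.dg.comp h'.dg h'.mg, h'.mf.comp h.mf, h.mg.comp h'.mg,
    fun z hz => by simp only [Function.comp_apply]; rw [h'.gf _ (h.mf hz), h.gf z hz],
    fun z hz => by simp only [Function.comp_apply]; rw [h.fg _ (h'.mg hz), h'.fg z hz]⟩

theorem CMap.of_rmap {ψ φ : ℂ → ℂ} (R : RMp D ψ φ) : CMap (ball 0 1) D ψ φ :=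
  ⟨R.dψ, R.dφ, R.mψ, R.mφ, R.φψ, R.ψφ⟩

theorem CMap.rmap {ψ φ : ℂ → ℂ} (h : CMap (ball 0 1) D ψ φ) : RMp D ψ φ :=
  ⟨h.df, h.dg, h.mf, h.mg, h.gf, h.fg⟩


theorem CMap.deriv_mul {f g : ℂ → ℂ} (h : CMap D D' f g) (hD : IsOpen D) (hD' : IsOpen D') {z : ℂ}
    (hz : z ∈ D) : deriv g (f z) * deriv f z = 1 := by
  have h1 : HasDerivAt f (deriv f z) z := (h.df.differentiableAt (hD.mem_nhds hz)).hasDerivAt
  have h2 : HasDerivAt g (deriv g (f z)) (f z) :=
    (h.dg.differentiableAt (hD'.mem_nhds (h.mf hz))).hasDerivAt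
  have h3 := h2.comp z h1
  have h4 : HasDerivAt (g ∘ f) 1 z := by
    refine (hasDerivAt_id z).congr_of_eventuallyEq ?_
    filter_upwards [hD.mem_nhds hz] with w hw
    exact h.gf w hw
  exact h3.unique h4

/-- **derivative bounds of a conformal bijection between two domains with uniform charts** -/
theorem conf_bounds (h : CD D r M) (h' : CD D' r' M') {ψ φ : ℂ → ℂ} (R : RMp D ψ φ) {f g : ℂ → ℂ}
    (hfg : CMap D D' f g) : ∃ C : ℝ, 0 < C ∧ (∀ z ∈ D, ‖deriv f z‖ ≤ C) ∧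
      (∀ w ∈ D', ‖deriv g w‖ ≤ C) ∧ (∀ z ∈ D, 1 / C ≤ ‖deriv f z‖) := by
  have R' : RMp D' (f ∘ ψ) (φ ∘ g) := ((CMap.of_rmap R).comp hfg).rmap
  obtain ⟨C1, hC1, h1⟩ := R.dφ_le h
  obtain ⟨C2, hC2, h2⟩ := R'.dψ_le h'
  obtain ⟨C3, hC3, h3⟩ := R.dψ_le h
  obtain ⟨C4, hC4, h4⟩ := R'.dφ_le h'
  have hO := h.isOpen
  have hO' := h'.isOpen
  -- `f = (f ∘ ψ) ∘ φ` on `D`
  have hf : ∀ z ∈ D, ‖deriv f z‖ ≤ C2 * C1 := fun z hz => by
    have e1 : HasDerivAt φ (deriv φ z) z := (R.dφ.differentiableAt (hO.mem_nhds hz)).hasDerivAt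
    have e2 : HasDerivAt (f ∘ ψ) (deriv (f ∘ ψ) (φ z)) (φ z) :=
      (R'.dψ.differentiableAt (isOpen_ball.mem_nhds (R.mφ hz))).hasDerivAt
    have e3 := e2.comp z e1
    have e4 : HasDerivAt f (deriv (f ∘ ψ) (φ z) * deriv φ z) z := by
      refine e3.congr_of_eventuallyEq ?_
      filter_upwards [hO.mem_nhds hz] with w hw
      simp only [Function.comp_apply]
      rw [R.ψφ w hw]
    rw [e4.deriv, norm_mul]
    exact mul_le_mul (h2 _ (R.mφ hz)) (h1 z hz) (norm_nonneg _) hC2.le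
  -- `g = ψ ∘ (φ ∘ g)` on `D'`
  have hg : ∀ w ∈ D', ‖deriv g w‖ ≤ C3 * C4 := fun w hw => by
    have e1 : HasDerivAt (φ ∘ g) (deriv (φ ∘ g) w) w :=
      (R'.dφ.differentiableAt (hO'.mem_nhds hw)).hasDerivAt
    have e2 : HasDerivAt ψ (deriv ψ ((φ ∘ g) w)) ((φ ∘ g) w) :=
      (R.dψ.differentiableAt (isOpen_ball.mem_nhds (R'.mφ hw))).hasDerivAt
    have e3 := e2.comp w e1
    have e4 : HasDerivAt g (deriv ψ ((φ ∘ g) w) * deriv (φ ∘ g) w) w := by
      refine e3.congr_of_eventuallyEq ?_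
      filter_upwards [hO'.mem_nhds hw] with x hx
      simp only [Function.comp_apply]
      rw [R.ψφ _ (hfg.mg hx)]
    rw [e4.deriv, norm_mul]
    exact mul_le_mul (h3 _ (R'.mφ hw)) (h4 w hw) (norm_nonneg _) hC3.le
  refine ⟨C2 * C1 + C3 * C4, by positivity, fun z hz => ?_, fun w hw => ?_, fun z hz => ?_⟩
  · have := hf z hz
    have : 0 < C3 * C4 := by positivity
    linarith
  · have := hg w hw
    have : 0 < C2 * C1 := by positivity
    linarith
  · have e := hfg.deriv_mul hO hO' hz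
    have e2 : ‖deriv g (f z)‖ * ‖deriv f z‖ = 1 := by rw [← norm_mul, e, norm_one]
    have e3 := hg (f z) (hfg.mf hz)
    rw [div_le_iff₀ (by positivity)]
    have e4 : 0 ≤ ‖deriv f z‖ := norm_nonneg _
    have e5 : 0 ≤ C2 * C1 * ‖deriv f z‖ := by positivity
    have e6 := mul_le_mul_of_nonneg_right e3 e4
    nlinarith

/-- **conformal bijections extend to bi-Lipschitz homeomorphisms of the closures** -/
theorem conf_biLip (h : CD D r M) (h' : CD D' r' M') {ψ φ : ℂ → ℂ} (R : RMp D ψ φ) {f g : ℂ → ℂ}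
    (hfg : CMap D D' f g) : ∃ F G : ℂ → ℂ, BiLip D D' F G ∧ EqOn F f D ∧ EqOn G g D' := by
  obtain ⟨C, hC, h1, h2, -⟩ := conf_bounds h h' R hfg
  obtain ⟨K, hK, h3, -, -⟩ := exists_lip h
  obtain ⟨K', hK', h4, -, -⟩ := exists_lip h'
  exact exists_biLip h.isOpen h'.isOpen hfg.mf hfg.mg hfg.gf hfg.fg
    (fun z hz w hw => h3 f C hC.le hfg.df h1 z hz w hw)
    (fun z hz w hw => h4 g C hC.le hfg.dg h2 z hz w hw)

end Crest.Agent.R165.GeoKx65
end

-- ▼ part R165/GeoP6_67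
section

/-!
R165, GEO-6 (helper67), part 5: bridge to `Geo.RMap` of `GeoRb_416`.
-/

set_option autoImplicit false

open Set Filter Topology Metric Complex

namespace Crest.Agent.R165.GeoPx67

open Crest.Agent.R165.Geo (CD)

variable {D : Set ℂ} {r M : ℝ}

theorem RMap.toGeo {z₀ : ℂ} {φ ψ : ℂ → ℂ} (h : RMap D z₀ φ ψ) : Geo.RMp D ψ φ :=
  ⟨h.diff', h.diff, h.maps', h.maps, h.right, h.left⟩

/-- Riemann map of a domain with uniform charts, in the form `Geo.RMap`. -/
theorem CD.exists_RMap (h : CD D r M) {z₀ : ℂ} (hz₀ : z₀ ∈ D) :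
    ∃ ψ φ : ℂ → ℂ, Geo.RMp D ψ φ ∧ ψ 0 = z₀ ∧ φ z₀ = 0 ∧ 0 < (deriv φ z₀).re ∧
      (deriv φ z₀).im = 0 := by
  obtain ⟨φ, ψ, hr⟩ := CD.exists_rmap h hz₀
  exact ⟨ψ, φ, hr.toGeo, hr.zero', hr.zero, hr.pos, hr.im_zero⟩


end Crest.Agent.R165.GeoPx67
end

-- ▼ part R165/SpFr2_422
section

/-!
# Row 165 (S0250), block U (helper422): covariance of the sources at the insertions

* `biL_of_C2` : conformal bijections of `C²` Jordan domains are bi-Lipschitz
* `BrCov` : covariance of `g_i(x_j) / gsrc x j` up to signs; `brCov : Uniq → BrCov`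
* `aiCov : Uniq → AiCov`
* `det_cov` : the determinant of the limit matrix is invariant
-/

set_option autoImplicit false

noncomputable section

open Filter Topology Set Complex
open Crest.ProbabilityR.IsingModel

namespace Crest.Agent.R165.SpFr2x422

open Crest.Agent.R165.Geo (CD)
open Crest.Agent.R165.Tp416 (BiL)
open U3x719 U3Covx67 UB3x641
open SpFr1x422

/-- conformal bijections of `C²` Jordan domains are bi-Lipschitz -/
theorem biL_of_C2 {D E : Set ℂ} (hD : IsC2JordanDomain D) (hE : IsC2JordanDomain E)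
    (hne : D.Nonempty) {φ : ℂ → ℂ} (hφ : DifferentiableOn ℂ φ D) (hbij : BijOn φ D E) :
    BiL D E φ := by
  have hO : IsOpen D := Red2x541.isOpen_of_C2 hD
  have hOE : IsOpen E := Red2x541.isOpen_of_C2 hE
  have hneE : E.Nonempty := by
    obtain ⟨z, hz⟩ := hne
    exact ⟨_, hbij.mapsTo hz⟩
  obtain ⟨r, M, h⟩ := GeoCx65.exists_CD hD hne
  obtain ⟨r', M', h'⟩ := GeoCx65.exists_CD hE hneE
  obtain ⟨z₀, hz₀⟩ := id hne
  obtain ⟨ψ, f, R, -⟩ := GeoPx67.CD.exists_RMap h hz₀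
  obtain ⟨g, hg1, -, hg2, hg3, hg4⟩ :=
    Crest.Agent.Lib.exists_holomorphic_inverse hO hφ hbij.injOn
  rw [hbij.image_eq] at hg1 hg2 hg4
  have hm : MapsTo g E D := by
    intro z hz
    rw [← hg2]; exact mem_image_of_mem g hz
  obtain ⟨F, G, hFG, e1, e2⟩ := GeoKx65.conf_biLip h h' R
    (f := φ) (g := g) ⟨hφ, hg1, hbij.mapsTo, hm, hg3, hg4⟩
  obtain ⟨C, hC⟩ := hFG.lipF
  obtain ⟨C', hC'⟩ := hFG.lipG
  refine ⟨hO, hOE, Redx541.bounded_of_C2 hE, hneE, hφ, hbij, ⟨C, fun w hw w' hw' => ?_⟩,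
    ⟨C', fun w hw w' hw' => ?_⟩⟩
  · have := hC.dist_le_mul w w'
    rw [dist_eq_norm, dist_eq_norm, e1 hw, e1 hw'] at this
    exact this
  · have := hC'.dist_le_mul (φ w) (φ w')
    rw [dist_eq_norm, dist_eq_norm, e2 (hbij.mapsTo hw), e2 (hbij.mapsTo hw'), hg3 w hw,
      hg3 w' hw'] at this
    exact this

/-- covariance of the sources at the insertions, up to signs -/
def BrCov : Prop :=
  ∀ D D' : Set ℂ, IsC2JordanDomain D → IsC2JordanDomain D' → ∀ φ : ℂ → ℂ,
    DifferentiableOn ℂ φ D → Set.BijOn φ D D' → ∀ (n : ℕ) (x : Fin n → ℂ),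
    (∀ i, x i ∈ D) → Function.Injective x → ∀ g g' : Fin n → ℂ → ℂ,
    (∀ i, IsBrN D x i (g i)) → (∀ i, IsBrN D' (fun k => φ (x k)) i (g' i)) →
    ∃ e : Fin n → ℝ, (∀ i, e i * e i = 1) ∧ ∀ i j, i ≠ j →
      g i (x j) / (I * gsrc x j) =
        (e i * e j : ℝ) * (g' i (φ (x j)) / (I * gsrc (fun k => φ (x k)) j))


theorem gsrc_ne {n : ℕ} {x : Fin n → ℂ} (hx : Function.Injective x) (i : Fin n) :
    gsrc x i ≠ 0 := by
  intro h
  have h1 := gsrc_sq x i
  rw [h] at h1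
  have h2 : U3x719.wX x i ≠ 0 := wX_ne hx i
  have h3 : (Complex.I * U3x719.wX x i) ≠ 0 := mul_ne_zero Complex.I_ne_zero h2
  apply h3
  rw [← h1]; ring

theorem brCov (hU : Uniq) : BrCov := by
  intro D D' hD hD' φ hφ hbij n x hxD hx g g' hg hg'
  rcases D.eq_empty_or_nonempty with rfl | hne
  · rcases isEmpty_or_nonempty (Fin n) with he | ⟨⟨i⟩⟩
    · exact ⟨fun _ => 1, fun i => (he.false i).elim, fun i => (he.false i).elim⟩
    · exact absurd (hxD i) (Set.notMem_empty _)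
  obtain ⟨r, M, h⟩ := GeoCx65.exists_CD hD hne
  have B := biL_of_C2 hD hD' hne hφ hbij
  obtain ⟨q, hq⟩ := exists_q h hφ hbij.injOn x hxD
  have hx' : Function.Injective fun k => φ (x k) := fun i j hij =>
    hx (hbij.injOn (hxD i) (hxD j) hij)
  -- sign of `q` at the insertions
  have hqs : ∀ j, ∃ e : ℝ, e * e = 1 ∧ q (x j) * gsrc (fun k => φ (x k)) j = e * gsrc x j := by
    intro j
    have h1 := hq.at_x h.isOpen hφ hbij.injOn hxD j
    have h2 := gsrc_sq x j
    have h3 := gsrc_sq (fun k => φ (x k)) j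
    have h4 : (q (x j) * gsrc (fun k => φ (x k)) j) ^ 2 = (gsrc x j) ^ 2 := by
      rw [mul_pow, h3, h2, ← h1]; ring
    rcases sq_eq_sq_iff_eq_or_eq_neg.1 h4 with h5 | h5
    · exact ⟨1, by norm_num, by rw [h5]; simp⟩
    · exact ⟨-1, by norm_num, by rw [h5]; simp⟩
  choose e he1 he2 using hqs
  refine ⟨e, he1, fun i j _ => ?_⟩
  have hpull := br_pull B hxD hq (hg' i).br
  -- `g_i = s q g'_i∘φ`
  have hs : ∃ s : ℝ, s * s = 1 ∧ EqOn (g i) (fun z => s * (q z * g' i (φ z))) D := by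
    rcases IsBr.unique hU h hx hxD (hg i).br hpull with h1 | h1
    · exact ⟨1, by norm_num, fun z hz => by rw [h1 hz]; simp⟩
    · exact ⟨-1, by norm_num, fun z hz => by rw [h1 hz]; simp⟩
  obtain ⟨s, hs1, hs2⟩ := hs
  -- `s = e i`
  have h1 : gsrc x i = (s * e i : ℝ) * gsrc x i := by
    have h2 := hs2 (hxD i)
    simp only at h2
    rw [(hg i).nrm, (hg' i).nrm, he2] at h2
    push_cast
    linear_combination h2
  have hse : (s * e i : ℝ) = 1 := by
    have h3 : ((s * e i : ℝ) : ℂ) = 1 := by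
      have := gsrc_ne hx i
      have h4 : (((s * e i : ℝ) : ℂ) - 1) * gsrc x i = 0 := by linear_combination -h1
      rcases mul_eq_zero.1 h4 with h5 | h5
      · linear_combination h5
      · exact absurd h5 this
    exact_mod_cast h3
  have hse' : s = e i := by
    have : s * (e i * e i) = e i := by linear_combination (e i) * hse
    rw [he1, mul_one] at this
    exact this
  have h5 : g i (x j) = e i * (q (x j) * g' i (φ (x j))) := by
    have := hs2 (hxD j)
    simp only at this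
    rw [this, hse']
  rw [h5]
  have h6 := gsrc_ne hx j
  have h7 := gsrc_ne hx' j
  have h8 : q (x j) = e j * gsrc x j / gsrc (fun k => φ (x k)) j := by
    rw [eq_div_iff h7]; exact he2 j
  rw [h8]
  push_cast
  field_simp

/-- **covariance of the logarithmic derivatives** -/
theorem aiCov (hU : Uniq) : AiCov := by
  intro D D' hD hD' φ hφ hbij n x hx i g g' hg hg'
  have hne : D.Nonempty := ⟨x i, hx.1 i⟩
  obtain ⟨r, M, h⟩ := GeoCx65.exists_CD hD hne
  have B := biL_of_C2 hD hD' hne hφ hbij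
  rw [Ai_cov hU h B hx.2 hx.1 hg hg']
  have h1 : deriv φ (x i) ≠ 0 := USpinx641.deriv_ne hD hφ hbij.injOn (hx.1 i)
  congr 1
  push_cast
  field_simp

/-- **invariance of the determinant** -/
theorem det_cov {n : ℕ} {c2 : ℝ} {x x' : Fin n → ℂ} {g g' : Fin n → ℂ → ℂ}
    (h : ∃ e : Fin n → ℝ, (∀ i, e i * e i = 1) ∧ ∀ i j, i ≠ j →
      g i (x j) / (I * gsrc x j) = (e i * e j : ℝ) * (g' i (x' j) / (I * gsrc x' j))) :
    (Bm c2 x g).det = (Bm c2 x' g').det := by
  obtain ⟨e, he, h⟩ := h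
  rw [← det_signs (Bm c2 x' g') e he]
  congr 1
  ext j i
  simp only [Bm, Matrix.of_apply]
  by_cases hji : j = i
  · simp [hji]
  · rw [if_neg hji, if_neg hji, h i j (Ne.symm hji), Complex.re_ofReal_mul]
    ring

end Crest.Agent.R165.SpFr2x422
end
end

-- ▼ part R165/SpFr3_422

/-!
# Row 165 (S0250), block U (helper422): `SpinInB .free`

* `RL n D x` : limit of the ratio free / plus on the starred set
* `rl_tendsto`, `rl_cov`, `rl_disc`, `rl_two_pos`, `rl_pos`
* `spinInB_plus'` : `LdLeaf → BrLeaf → Uniq → SpinInB .plus Lam`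
* `spinInB_free` : `LdLeaf → BrLeaf → Uniq → BrLim kapB → SpinOut .plus 1 → SpinInB .free LamF`
-/

set_option autoImplicit false

noncomputable section

open Filter Topology
open Crest.ProbabilityR.IsingModel

namespace Crest.Agent.R165.SpFr3x422

open U5Px422
open Latx683 (IsCov wX wDom BW ray HE)
open Kw8x871 (Mt tot)
open Kw5x871 (starT)
open Kw9x871 (BrLim kapB)
open UB3x641 SpFr1x422 SpFr2x422
open USpinx641 (LatApp latApp_TT SpinInB LDF Lam)
open Nm5x422 (GB_le_prod prod_le_GB)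

/-- limit of the ratio -/
def RL (n : ℕ) (D : Set ℂ) (x : Fin n → ℂ) : ℝ :=
  limUnder (𝓝[>] (0 : ℝ)) fun a => RR D a fun i => meshIndex a (x i)

theorem rl_eq {c1 c2 : ℝ} {D : Set ℂ} (hD : IsC2JordanDomain D) {n : ℕ} {x : Fin n → ℂ}
    (hx : x ∈ Conf D n) {g : Fin n → ℂ → ℂ}
    (h : ∀ (w : ℝ → BW ℤ) (X : ℝ → Fin n → ℤ × ℤ), BgFam D w → LApp X x → BrF c1 c2 D x w X g) :
    RL n D x = Real.sqrt (Bm c2 x g).det :=
  (rr_tendsto hD hx h (lapp_meshIndex x)).limUnder_eq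

/-- **the ratio converges** -/
theorem rl_tendsto (hB : BrLeaf) {D : Set ℂ} (hD : IsC2JordanDomain D) {n : ℕ} {x : Fin n → ℂ}
    (hx : x ∈ Conf D n) {u : ℝ → Fin n → ℤ × ℤ} (hu : LApp u x) :
    Tendsto (fun a => RR D a (u a)) (𝓝[>] 0) (𝓝 (RL n D x)) := by
  obtain ⟨c1, c2, -, -, h⟩ := hB
  obtain ⟨g, -, hg⟩ := h D hD n x hx
  rw [rl_eq hD hx hg]
  exact rr_tendsto hD hx hg hu

theorem conf_comp {D D' : Set ℂ} {φ : ℂ → ℂ} (hbij : Set.BijOn φ D D') {n : ℕ} {x : Fin n → ℂ}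
    (hx : x ∈ Conf D n) : (fun i => φ (x i)) ∈ Conf D' n :=
  ⟨fun i => hbij.mapsTo (hx.1 i), fun i j hij => hx.2 (hbij.injOn (hx.1 i) (hx.1 j) hij)⟩

/-- **conformal invariance of the ratio** -/
theorem rl_cov (hB : BrLeaf) (hU : U3x719.Uniq) {D D' : Set ℂ} (hD : IsC2JordanDomain D)
    (hD' : IsC2JordanDomain D') {φ : ℂ → ℂ} (hφ : DifferentiableOn ℂ φ D)
    (hbij : Set.BijOn φ D D') {n : ℕ} {x : Fin n → ℂ} (hx : x ∈ Conf D n) :
    RL n D' (fun i => φ (x i)) = RL n D x := by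
  obtain ⟨c1, c2, -, -, h⟩ := hB
  obtain ⟨g, hgN, hg⟩ := h D hD n x hx
  obtain ⟨g', hgN', hg'⟩ := h D' hD' n _ (conf_comp hbij hx)
  rw [rl_eq hD hx hg, rl_eq hD' (conf_comp hbij hx) hg',
    det_cov (brCov hU D D' hD hD' φ hφ hbij n x hx.1 hx.2 g g' hgN hgN')]

/-! ### two points -/

theorem kapB_pos {x y : ℂ} (hx : x ∈ Metric.ball (0 : ℂ) 1) (hy : y ∈ Metric.ball (0 : ℂ) 1) :
    0 < kapB x y := by
  unfold kapB
  refine Real.sqrt_pos.2 ?_
  exact U3Ex576.kap2_pos (by simpa using hx) (by simpa using hy)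

/-- the ratio in the unit disc, two points -/
theorem rl_disc (hB : BrLeaf) (hK : BrLim kapB) {x : Fin 2 → ℂ}
    (hx : x ∈ Conf (Metric.ball (0 : ℂ) 1) 2) :
    RL 2 (Metric.ball (0 : ℂ) 1) x = kapB (x 0) (x 1) := by
  have hD := Nm1x422.isC2_ball (0 : ℂ) one_pos
  obtain ⟨c1, c2, -, -, h⟩ := hB
  obtain ⟨g, -, hg⟩ := h _ hD 2 x hx
  rw [rl_eq hD hx hg]
  -- the covariances of the plus background
  have hu := lapp_meshIndex x
  have hbd : Bornology.IsBounded (Metric.ball (0 : ℂ) 1) := Metric.isBounded_ball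
  have hex : ∀ a : ℝ, ∃ S : HE ℤ → HE ℤ → ℝ,
      IsCov (wX (wDom ((TT (Metric.ball (0 : ℂ) 1) a : Finset (ℤ × ℤ)) : Set (ℤ × ℤ)) false)
        (fun i => meshIndex a (x i))) S := by
    intro a
    obtain ⟨S, hS, -⟩ := Covx359.exists_isCov_plus (TT (Metric.ball (0 : ℂ) 1) a)
      (fun i => meshIndex a (x i))
    exact ⟨S, hS⟩
  choose S hS using hex
  have hcov : ∀ᶠ a in 𝓝[>] (0 : ℝ),
      IsCov (wX (wDom (domainSites (Metric.ball (0 : ℂ) 1) a) false)
        (fun i => meshIndex a (x i))) (S a) := by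
    filter_upwards [self_mem_nhdsWithin] with a ha
    rw [← Kw9x871.coe_TT hbd ha]
    exact hS a
  have F := hg _ (fun a i => meshIndex a (x i)) (bgFam_dom hD) hu
  have h1 := det_tendsto F hcov
  have h2 := hK x hx _ hu S hcov
  have h3 : Tendsto (fun a => (Mt (S a) (fun i => meshIndex a (x i))).det) (𝓝[>] (0 : ℝ))
      (𝓝 ((kapB (x 0) (x 1)) ^ 2)) := by
    refine (h2.pow 2).congr' ?_
    filter_upwards [hcov] with a ha
    rw [sq_abs, Matrix.det_fin_two]
    show tot (S a) (meshIndex a (x 0)) (meshIndex a (x 1)) ^ 2 =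
      tot (S a) (meshIndex a (x 0)) (meshIndex a (x 0)) *
        tot (S a) (meshIndex a (x 1)) (meshIndex a (x 1)) -
        tot (S a) (meshIndex a (x 0)) (meshIndex a (x 1)) *
        tot (S a) (meshIndex a (x 1)) (meshIndex a (x 0))
    have e : ∀ f f' : ℤ × ℤ, tot (S a) f f' = - tot (S a) f' f := by
      intro f f'
      unfold tot
      conv_lhs => rw [Finset.sum_comm]
      rw [← Finset.sum_neg_distrib]
      refine Finset.sum_congr rfl fun i _ => ?_
      rw [← Finset.sum_neg_distrib]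
      exact Finset.sum_congr rfl fun j _ => ha.skew _ _
    rw [tot_self ha.skew, tot_self ha.skew, e (meshIndex a (x 1)) (meshIndex a (x 0))]
    ring
  rw [tendsto_nhds_unique h1 h3, Real.sqrt_sq (show 0 ≤ kapB (x 0) (x 1) from Real.sqrt_nonneg _)]

/-- the ratio of two points is positive -/
theorem rl_two_pos (hB : BrLeaf) (hU : U3x719.Uniq) (hK : BrLim kapB) {D : Set ℂ}
    (hD : IsC2JordanDomain D) {x : Fin 2 → ℂ} (hx : x ∈ Conf D 2) : 0 < RL 2 D x := by
  obtain ⟨f, R⟩ := Nm7x422.hasRMap D hD ⟨x 0, hx.1 0⟩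
  have hdisc := Nm1x422.isC2_ball (0 : ℂ) one_pos
  have h1 := rl_cov hB hU hD hdisc R.diff R.bij hx
  rw [← h1, rl_disc hB hK (conf_comp R.bij hx)]
  exact kapB_pos (R.bij.mapsTo (hx.1 0)) (R.bij.mapsTo (hx.1 1))

/-! ### many points -/

theorem rl_zero_pos (hB : BrLeaf) {D : Set ℂ} (hD : IsC2JordanDomain D) {x : Fin 0 → ℂ}
    (hx : x ∈ Conf D 0) : 0 < RL 0 D x := by
  have h1 := rl_tendsto hB hD hx (lapp_meshIndex x)
  have h2 : ∀ a : ℝ, RR D a (fun i : Fin 0 => meshIndex a (x i)) = 1 := by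
    intro a
    unfold RR
    rw [Nm5x422.GB_plus_zero, div_one]
    show Gk1x422.Gf Kc _ _ = 1
    unfold Gk1x422.Gf Gk0x422.EX
    have : (Gk1x422.sp (fun i : Fin 0 => meshIndex a (x i)) : (ℤ × ℤ → Bool) → ℝ) = fun _ => 1 := by
      funext s; simp [Gk1x422.sp]
    rw [this]
    exact div_self Gk0x422.ZZ_one_pos.ne'
  have h3 : Tendsto (fun _ : ℝ => (1 : ℝ)) (𝓝[>] (0 : ℝ)) (𝓝 (RL 0 D x)) := by
    refine h1.congr fun a => h2 a
  rw [← tendsto_nhds_unique tendsto_const_nhds h3]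
  exact one_pos

/-- separated small discs around the points -/
theorem exists_discs {D : Set ℂ} (hO : IsOpen D) {n : ℕ} {x : Fin n → ℂ} (hx : x ∈ Conf D n) :
    ∃ ρ > (0 : ℝ), (∀ i, Metric.closedBall (x i) ρ ⊆ D) ∧ ∀ i j, i ≠ j → 3 * ρ ≤ ‖x i - x j‖ := by
  have h1 : ∀ i, ∀ᶠ ρ in 𝓝[>] (0 : ℝ), Metric.closedBall (x i) ρ ⊆ D := by
    intro i
    obtain ⟨ε, hε, hb⟩ := Metric.isOpen_iff.1 hO _ (hx.1 i)
    have : ∀ᶠ ρ in 𝓝[>] (0 : ℝ), ρ < ε := mem_nhdsWithin_of_mem_nhds (Iio_mem_nhds hε)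
    filter_upwards [this] with ρ hρ
    exact (Metric.closedBall_subset_ball hρ).trans hb
  have h2 : ∀ p : Fin n × Fin n, ∀ᶠ ρ in 𝓝[>] (0 : ℝ), p.1 ≠ p.2 → 3 * ρ ≤ ‖x p.1 - x p.2‖ := by
    intro p
    by_cases hp : p.1 = p.2
    · exact Eventually.of_forall fun ρ h => absurd hp h
    · have h3 : 0 < ‖x p.1 - x p.2‖ / 3 := by
        have : x p.1 - x p.2 ≠ 0 := sub_ne_zero.2 fun e => hp (hx.2 e)
        have := norm_pos_iff.2 this
        linarith
      have : ∀ᶠ ρ in 𝓝[>] (0 : ℝ), ρ < ‖x p.1 - x p.2‖ / 3 :=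
        mem_nhdsWithin_of_mem_nhds (Iio_mem_nhds h3)
      filter_upwards [this] with ρ hρ _
      linarith
  obtain ⟨ρ, ⟨h3, h4⟩, h5⟩ := (((eventually_all.2 h1).and (eventually_all.2 h2)).and
    self_mem_nhdsWithin).exists
  exact ⟨ρ, h5, h3, fun i j hij => h4 (i, j) hij⟩

theorem append_last_two {n : ℕ} {α : Type*} (x : Fin (n + 2) → α) :
    Fin.append (fun i : Fin n => x (Fin.castAdd 2 i)) (fun i : Fin 2 => x (Fin.natAdd n i)) = x := by
  funext i
  refine Fin.addCases (fun j => ?_) (fun j => ?_) i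
  · rw [Fin.append_left]
  · rw [Fin.append_right]

/-- **inductive step** -/
theorem rl_step (hB : BrLeaf) (hS : SpinOut .plus 1) {D : Set ℂ} (hD : IsC2JordanDomain D) {n : ℕ}
    {x : Fin (n + 2) → ℂ} (hx : x ∈ Conf D (n + 2))
    (h1 : 0 < RL n D (fun i : Fin n => x (Fin.castAdd 2 i)))
    (h2 : 0 < RL 2 D (fun i : Fin 2 => x (Fin.natAdd n i))) : 0 < RL (n + 2) D x := by
  have hO := Red2x541.isOpen_of_C2 hD
  have hbd := Redx541.bounded_of_C2 hD
  obtain ⟨F, hF, -⟩ := hS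
  obtain ⟨ρ, hρ, hin, hsep⟩ := exists_discs hO hx
  have hx1 : (fun i : Fin n => x (Fin.castAdd 2 i)) ∈ Conf D n :=
    ⟨fun i => hx.1 _, fun i j hij => Fin.castAdd_injective n 2 (hx.2 hij)⟩
  have hx2 : (fun i : Fin 2 => x (Fin.natAdd n i)) ∈ Conf D 2 :=
    ⟨fun i => hx.1 _, fun i j hij => Fin.natAdd_injective 2 n (hx.2 hij)⟩
  set u : ℝ → Fin (n + 2) → ℤ × ℤ := fun a i => meshIndex a (x i) with hu_def
  have hu : LApp u x := lapp_meshIndex x
  -- limits
  have t0 := rl_tendsto hB hD hx hu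
  have t1 := rl_tendsto hB hD hx1 (u := fun a i => u a (Fin.castAdd 2 i)) fun i => hu _
  have t2 := rl_tendsto hB hD hx2 (u := fun a i => u a (Fin.natAdd n i)) fun i => hu _
  have hc : ∀ (E : Set ℂ) (i : Fin (n + 2)), x i ∈ E → (fun _ : Fin 1 => x i) ∈ Conf E 1 :=
    fun E i hi => ⟨fun _ => hi, fun a b _ => Subsingleton.elim a b⟩
  have t3 : ∀ i : Fin (n + 2), Tendsto (fun a : ℝ => GB .plus (TT D a) (fun _ : Fin 1 => u a i) /
      GB .plus (TT (Metric.ball (x i) ρ) a) (fun _ : Fin 1 => u a i)) (𝓝[>] 0)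
      (𝓝 (F D (fun _ => x i) / F (Metric.ball (x i) ρ) fun _ => x i)) := by
    intro i
    have e1 := (hF D hD _ (hc D i (hx.1 i))).2 (fun a _ => u a i) (fun _ => hu i)
    have e2 := hF _ (Nm1x422.isC2_ball (x i) hρ) _ (hc _ i (Metric.mem_ball_self hρ))
    have e3 := e2.2 (fun a _ => u a i) (fun _ => hu i)
    refine (e1.div e3 e2.1.ne').congr' ?_
    filter_upwards [self_mem_nhdsWithin] with a ha
    exact mul_div_mul_left _ _ (Real.rpow_pos_of_pos ha _).ne'
  have t4 := tendsto_finsetProd (Finset.univ : Finset (Fin (n + 2))) fun i _ => t3 i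
  have t5 := (t1.mul t2).mul t4
  have hpos : 0 < RL n D (fun i : Fin n => x (Fin.castAdd 2 i)) *
      RL 2 D (fun i : Fin 2 => x (Fin.natAdd n i)) *
      ∏ i, F D (fun _ => x i) / F (Metric.ball (x i) ρ) fun _ => x i := by
    refine mul_pos (mul_pos h1 h2) (Finset.prod_pos fun i _ => div_pos ?_ ?_)
    · exact (hF D hD _ (hc D i (hx.1 i))).1
    · exact (hF _ (Nm1x422.isC2_ball (x i) hρ) _ (hc _ i (Metric.mem_ball_self hρ))).1
  refine hpos.trans_le (le_of_tendsto_of_tendsto t5 t0 ?_)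
  -- the inequality on the lattice
  set U : Set ℂ := ⋃ i, Metric.ball (x i) ρ with hU
  have hUb : Bornology.IsBounded U :=
    hbd.subset (Set.iUnion_subset fun i => Metric.ball_subset_closedBall.trans (hin i))
  have hK : IsCompact (⋃ i, Metric.closedBall (x i) ρ) :=
    isCompact_iUnion fun i => isCompact_closedBall _ _
  have hKD : (⋃ i, Metric.closedBall (x i) ρ) ⊆ D := Set.iUnion_subset hin
  have hstar := (StarAppx583.latApp_starT hD).inn _ hK hKD
  have hmem : ∀ᶠ a in 𝓝[>] (0 : ℝ), ∀ i, meshPoint a (u a i) ∈ Metric.ball (x i) ρ :=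
    eventually_all.2 fun i => (hu i).eventually_mem (Metric.ball_mem_nhds _ hρ)
  have hsmall : ∀ᶠ a in 𝓝[>] (0 : ℝ), a < ρ := mem_nhdsWithin_of_mem_nhds (Iio_mem_nhds hρ)
  filter_upwards [hstar, hmem, hsmall, self_mem_nhdsWithin,
    StarAppx583.eventually_noHole_starT hD, Kw9x871.noHole_TT hD] with a h3 h4 h5 h6 h7 h8
  have ha : (0 : ℝ) < a := h6
  have huB : ∀ i, u a i ∈ TT (Metric.ball (x i) ρ) a := fun i =>
    (mem_TT Metric.isBounded_ball ha).2 (h4 i)
  -- names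
  have g1 : GB .plus (starT (TT D a)) (u a) ≤
      ∏ i, GB .plus (TT (Metric.ball (x i) ρ) a) (fun _ : Fin 1 => u a i) := by
    have hsub : TT U a ⊆ starT (TT D a) := by
      intro z hz
      have hz' := (mem_TT hUb ha).1 hz
      refine h3 z ?_
      obtain ⟨i, hi⟩ := Set.mem_iUnion.1 hz'
      exact Set.mem_iUnion.2 ⟨i, Metric.ball_subset_closedBall hi⟩
    refine (GB_plus_anti hsub (u a)).trans ?_
    refine GB_le_prod (d := ρ) ha h5 hUb (fun i => Metric.ball (x i) ρ)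
      (fun i => Set.subset_iUnion (fun i => Metric.ball (x i) ρ) i) ?_ (u a) huB
    intro i j hij z hz w hw
    have e1 := hsep i j hij
    rw [Metric.mem_ball, dist_eq_norm] at hz hw
    have e2 : ‖x i - x j‖ ≤ ‖x i - z‖ + ‖z - w‖ + ‖w - x j‖ := by
      calc ‖x i - x j‖ = ‖(x i - z) + (z - w) + (w - x j)‖ := by congr 1; ring
        _ ≤ _ := norm_add₃_le
    rw [norm_sub_rev (x i) z] at e2
    linarith
  have g2 : GB .free (TT D a) (fun i : Fin n => u a (Fin.castAdd 2 i)) *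
      GB .free (TT D a) (fun i : Fin 2 => u a (Fin.natAdd n i)) ≤ GB .free (TT D a) (u a) := by
    have := GB_free_mul_le (TT D a) (fun i : Fin n => u a (Fin.castAdd 2 i))
      (fun i : Fin 2 => u a (Fin.natAdd n i))
    rwa [append_last_two (u a)] at this
  have g3 : ∏ i, GB .plus (TT D a) (fun _ : Fin 1 => u a i) ≤
      GB .plus (starT (TT D a)) (fun i : Fin n => u a (Fin.castAdd 2 i)) *
        GB .plus (starT (TT D a)) (fun i : Fin 2 => u a (Fin.natAdd n i)) := by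
    have hsub : starT (TT D a) ⊆ TT D a := by
      rw [StarAppx583.starT_eq]; exact StarAppx583.starS_subset _ _
    have e1 : ∏ i, GB .plus (TT D a) (fun _ : Fin 1 => u a i) ≤
        ∏ i, GB .plus (starT (TT D a)) (fun _ : Fin 1 => u a i) :=
      Finset.prod_le_prod (fun i _ => GB_nonneg (by decide) _ _)
        fun i _ => GB_plus_anti hsub _
    refine e1.trans ?_
    rw [Fin.prod_univ_add]
    exact mul_le_mul (prod_le_GB (starT (TT D a)) fun i : Fin n => u a (Fin.castAdd 2 i))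
      (prod_le_GB (starT (TT D a)) fun i : Fin 2 => u a (Fin.natAdd n i))
      (Finset.prod_nonneg fun i _ => GB_nonneg (by decide) _ _) (GB_nonneg (by decide) _ _)
  have p1 : 0 < GB .plus (starT (TT D a)) (u a) := plus_pos h7 _
  have p2 : 0 < ∏ i, GB .plus (TT D a) (fun _ : Fin 1 => u a i) :=
    Finset.prod_pos fun i _ => plus_pos h8 _
  have p3 := p1.trans_le g1
  have p4 := p2.trans_le g3
  have p5 : 0 ≤ GB .free (TT D a) (fun i : Fin n => u a (Fin.castAdd 2 i)) *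
      GB .free (TT D a) (fun i : Fin 2 => u a (Fin.natAdd n i)) :=
    mul_nonneg (GB_nonneg (by decide) _ _) (GB_nonneg (by decide) _ _)
  unfold RR
  rw [Finset.prod_div_distrib, div_mul_div_comm, div_mul_div_comm]
  rw [div_le_div_iff₀ (mul_pos p4 p3) p1]
  calc GB .free (TT D a) (fun i : Fin n => u a (Fin.castAdd 2 i)) *
        GB .free (TT D a) (fun i : Fin 2 => u a (Fin.natAdd n i)) *
        (∏ i, GB .plus (TT D a) (fun _ : Fin 1 => u a i)) * GB .plus (starT (TT D a)) (u a)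
      ≤ GB .free (TT D a) (u a) *
        (GB .plus (starT (TT D a)) (fun i : Fin n => u a (Fin.castAdd 2 i)) *
          GB .plus (starT (TT D a)) (fun i : Fin 2 => u a (Fin.natAdd n i))) *
        ∏ i, GB .plus (TT (Metric.ball (x i) ρ) a) (fun _ : Fin 1 => u a i) := by
        refine mul_le_mul (mul_le_mul g2 g3 p2.le (p5.trans g2)) g1 p1.le ?_
        exact mul_nonneg (p5.trans g2) p4.le
    _ = _ := by ring

/-- **the ratio is positive for an even number of points** -/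
theorem rl_pos (hB : BrLeaf) (hU : U3x719.Uniq) (hK : BrLim kapB) (hS : SpinOut .plus 1) {D : Set ℂ}
    (hD : IsC2JordanDomain D) (m : ℕ) : ∀ x ∈ Conf D (2 * m), 0 < RL (2 * m) D x := by
  induction m with
  | zero => intro x hx; exact rl_zero_pos hB hD hx
  | succ m ih =>
    intro x hx
    exact rl_step (n := 2 * m) hB hS hD hx
      (ih _ ⟨fun i => hx.1 _, fun i j hij => Fin.castAdd_injective (2 * m) 2 (hx.2 hij)⟩)
      (rl_two_pos hB hU hK hD ⟨fun i => hx.1 _, fun i j hij =>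
        Fin.natAdd_injective 2 (2 * m) (hx.2 hij)⟩)

/-! ### output -/

/-- one-step expansions of the domains -/
theorem ldf_TT (hL : LdLeaf) {D : Set ℂ} (hD : IsC2JordanDomain D) : LDF AAf D (TT D) :=
  hL D hD (TT D) (latApp_TT hD) (Kw9x871.noHole_TT hD)

/-- one-step expansions of the starred domains -/
theorem ldf_star (hL : LdLeaf) {D : Set ℂ} (hD : IsC2JordanDomain D) :
    LDF AAf D (fun a => starT (TT D a)) :=
  hL D hD _ (StarAppx583.latApp_starT hD) (StarAppx583.eventually_noHole_starT hD)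

/-- **`SpinInB .plus`** from the leaves -/
theorem spinInB_plus' (hL : LdLeaf) (hB : BrLeaf) (hU : U3x719.Uniq) : SpinInB .plus Lam :=
  USpinx641.spinInB_plus (fun _ hD => ldf_TT hL hD) (covA_of (aiCov hU) hB)

/-- normalised scaling limit, free boundary conditions -/
def LamF (n : ℕ) (D : Set ℂ) (x : Fin n → ℂ) : ℝ := RL n D x * Lam n D x

/-- **`SpinInB .free`** from the leaves -/
theorem spinInB_free (hL : LdLeaf) (hB : BrLeaf) (hU : U3x719.Uniq) (hK : BrLim kapB)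
    (hS : SpinOut .plus 1) : SpinInB .free LamF where
  pos n D hb hD x hx := by
    rcases hb with hb | ⟨-, hn⟩
    · exact absurd hb (by decide)
    obtain ⟨m, hm⟩ := hn
    have hm2 : n = 2 * m := by omega
    subst hm2
    exact mul_pos (rl_pos hB hU hK hS hD m x hx) (USpinx641.lam_pos (ldf_TT hL hD) hx)
  ratio n D hb hD x hx x' hx' u u' hu hu' := by
    rcases hb with hb | ⟨-, hn⟩
    · exact absurd hb (by decide)
    obtain ⟨m, hm⟩ := hn
    have hm2 : n = 2 * m := by omega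
    subst hm2
    have p1 := rl_pos hB hU hK hS hD m x' hx'
    have t1 := (rl_tendsto hB hD hx hu).div (rl_tendsto hB hD hx' hu') p1.ne'
    have t2 := USpinx641.LDF.ratio (ldf_TT hL hD) (ldf_star hL hD) hx hx' hu hu'
    have t3 := t1.mul t2
    unfold LamF
    rw [mul_div_mul_comm]
    refine t3.congr' ?_
    filter_upwards [StarAppx583.eventually_noHole_starT hD] with a ha
    have q1 := (plus_pos ha (u a)).ne'
    have q2 := (plus_pos ha (u' a)).ne'
    simp only [Pi.div_apply]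
    unfold RR
    rw [div_div_div_eq, div_mul_div_comm]
    have e1 : GB .free (TT D a) (u a) * GB .plus (starT (TT D a)) (u' a) *
        GB .plus (starT (TT D a)) (u a) = GB .free (TT D a) (u a) *
        (GB .plus (starT (TT D a)) (u a) * GB .plus (starT (TT D a)) (u' a)) := by ring
    have e2 : GB .plus (starT (TT D a)) (u a) * GB .free (TT D a) (u' a) *
        GB .plus (starT (TT D a)) (u' a) = GB .free (TT D a) (u' a) *
        (GB .plus (starT (TT D a)) (u a) * GB .plus (starT (TT D a)) (u' a)) := by ring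
    rw [e1, e2]
    exact mul_div_mul_right _ _ (mul_ne_zero q1 q2)
  cov n D D' _ hD hD' φ hφ hbij := by
    obtain ⟨k, hk, h⟩ := (spinInB_plus' hL hB hU).cov n D D' (Or.inl rfl) hD hD' φ hφ hbij
    refine ⟨k, hk, fun x hx => ?_⟩
    unfold LamF
    rw [rl_cov hB hU hD hD' hφ hbij hx, mul_assoc, h x hx]
    ring

end Crest.Agent.R165.SpFr3x422
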