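import Crest.Agent.R165.U3Disc_719_Mg
import Crest.Agent.R165.U3Cov2_67
import Crest.Agent.R165.Kw9_871
import Crest.Agent.R165.UBrL_641

/-!
# Row 165 (S0250), block U3 (helper697): boundary regularity on the disc, `DiscTwo`

* `wbd_of_spin` : weak boundary relations of `g² / PX` for a spinor `F = g / rX` on the unit disc
* `bdry`        : `g` has limits at the circle (from 719's Schwarz–Villat)
* `exists_ext`  : continuous extension to the closed disc
* `IsBr.ext_disc`, `discTwo` : 576's `two_branch` gives `DiscTwo`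
* `rs_disc`     : residue sign on the disc
-/

set_option autoImplicit false

noncomputable section

open Complex Set Metric Filter Topology MeasureTheory
open scoped ComplexConjugate

namespace Crest.Agent.R165.U3Twox697

open Crest.Agent.R165.U3x719

variable {n : ℕ}

theorem PX_ne' {x : Fin n → ℂ} {r : ℝ} (hx : ∀ j, ‖x j‖ ≤ r) {z : ℂ} (hz : r < ‖z‖) :
    PX x z ≠ 0 :=
  U3x719.PX_ne fun j h => by
    have := hx j
    rw [← h] at this
    linarith

/-- weak boundary relations from `IsSpin` -/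
theorem wbd_of_spin {x : Fin n → ℂ} {K : Set ℂ} {F g : ℂ → ℂ} {r : ℝ}
    (h : IsSpin (ball 0 1) x K F) (hK : K ⊆ ball 0 r) (hx : ∀ j, ‖x j‖ ≤ r)
    (hg : DifferentiableOn ℂ g (Ann r))
    (hae : ∀ᵐ z ∂volume.restrict (Ann r), F z * rX x z = g z) :
    WBd r (fun z => g z ^ 2 / PX x z) := by
  have hsub : Ann r ⊆ ball 0 1 \ ball 0 r := fun z hz =>
    ⟨by simpa using hz.2, by simpa using hz.1.le⟩
  have hF : ∀ᵐ z ∂volume.restrict (Ann r), F z ^ 2 = g z ^ 2 / PX x z := by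
    filter_upwards [hae, ae_restrict_mem (isOpen_Ann r).measurableSet] with z hz hzA
    have hP : PX x z ≠ 0 := PX_ne' hx hzA.1
    have h2 : rX x z ^ 2 = PX x z := U3Covx67.rX_sq x z
    rw [eq_div_iff hP, ← h2, ← hz]
    ring
  have hint : ∀ χ : ℂ → ℝ, tsupport χ ⊆ {v | r < ‖v‖} → ∀ L : ℂ → ℝ, L 0 = 0 →
      ∫ z in ball (0 : ℂ) 1, L ((g z ^ 2 / PX x z) * db χ z) =
        ∫ z in ball (0 : ℂ) 1, L (F z ^ 2 * db χ z) := by
    intro χ hs L hL
    have h0 : ∀ z : ℂ, ‖z‖ ≤ r → db χ z = 0 := fun z hz =>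
      db_of_notMem fun h => absurd (hs h) (not_lt.2 hz)
    rw [ball_to_Ann (r := r) (fun z hz => by rw [h0 z hz, mul_zero, hL]),
      ball_to_Ann (r := r) (fun z hz => by rw [h0 z hz, mul_zero, hL])]
    refine integral_congr_ae ?_
    filter_upwards [hF] with z hz
    rw [hz]
  refine ⟨?_, ?_, ?_, ?_⟩
  · have h2 : MemLp F 2 (volume.restrict (Ann r)) :=
      (h.l2 (ball 0 r) isOpen_ball hK).mono_measure (Measure.restrict_mono hsub le_rfl)
    have h3 : Integrable (fun z => F z * F z) (volume.restrict (Ann r)) := h2.integrable_mul h2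
    refine h3.congr ?_
    filter_upwards [hF] with z hz
    rw [← hz, sq]
  · exact (hg.pow 2).div ((PX_diff x).differentiableOn) fun z hz => PX_ne' hx hz.1
  · intro χ hχ hc hs
    rw [hint χ hs Complex.re rfl]
    refine h.curl χ (hχ.lipschitzWith_of_hasCompactSupport hc one_ne_zero) hc hχ.contDiffOn ?_
    rw [Set.disjoint_left]
    intro z hz hzK
    have h1 : r < ‖z‖ := hs hz
    have h2 : ‖z‖ < r := by simpa using hK hzK
    linarith
  · intro χ hχ hc hs h0
    rw [hint χ hs Complex.im rfl]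
    refine h.div χ (hχ.lipschitzWith_of_hasCompactSupport hc one_ne_zero) hc hχ.contDiffOn ?_ h0
    rw [Set.disjoint_left]
    intro z hz hzK
    have h1 : r < ‖z‖ := hs hz
    have h2 : ‖z‖ < r := by simpa using hK hzK
    linarith

/-- a continuous square root of a function tending to `1` has a limit -/
theorem sq_lim {W : Set ℂ} (hW : IsPreconnected W) {l : Filter ℂ} (hl : W ∈ l) {s : ℂ → ℂ}
    (hs : ContinuousOn s W) (hslit : ∀ w ∈ W, s w ^ 2 ∈ slitPlane)
    (h1 : Tendsto (fun w => s w ^ 2) l (𝓝 1)) :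
    ∃ e : ℂ, e ^ 2 = 1 ∧ Tendsto s l (𝓝 e) := by
  have hre : ∀ w ∈ W, (s w).re ≠ 0 := by
    intro w hw h0
    have h2 := hslit w hw
    rw [mem_slitPlane_iff] at h2
    rcases h2 with h2 | h2
    · rw [sq, mul_re, h0] at h2
      nlinarith [mul_self_nonneg (s w).im]
    · rw [sq, mul_im, h0] at h2
      simp at h2
  -- key estimate
  have key : ∀ t : ℂ → ℂ, Tendsto (fun w => t w ^ 2) l (𝓝 1) → (∀ w ∈ W, 0 < (t w).re) →
      Tendsto t l (𝓝 1) := by
    intro t ht hp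
    rw [tendsto_iff_norm_sub_tendsto_zero] at ht ⊢
    refine squeeze_zero' (Eventually.of_forall fun _ => norm_nonneg _) ?_ ht
    filter_upwards [hl] with w hw
    have h3 : t w ^ 2 - 1 = (t w - 1) * (t w + 1) := by ring
    have h4 : 1 ≤ ‖t w + 1‖ := by
      have h5 := (abs_re_le_norm (t w + 1))
      rw [add_re, one_re] at h5
      have h6 := hp w hw
      have h7 := le_abs_self ((t w).re + 1)
      linarith
    rw [h3, norm_mul]
    calc ‖t w - 1‖ = ‖t w - 1‖ * 1 := (mul_one _).symm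
      _ ≤ ‖t w - 1‖ * ‖t w + 1‖ := mul_le_mul_of_nonneg_left h4 (norm_nonneg _)
  have hcr : ContinuousOn (fun w => (s w).re) W := continuous_re.comp_continuousOn hs
  rcases W.eq_empty_or_nonempty with h0 | ⟨w0, hw0⟩
  · refine ⟨1, by norm_num, key s h1 fun w hw => ?_⟩
    rw [h0] at hw
    exact absurd hw (Set.notMem_empty w)
  rcases lt_or_gt_of_ne (hre w0 hw0) with hneg | hpos
  · have hall : ∀ w ∈ W, (s w).re < 0 := by
      intro w hw
      by_contra hcon
      have hcon' : 0 ≤ (s w).re := not_lt.1 hcon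
      obtain ⟨v, hv, hv0⟩ := hW.intermediate_value hw0 hw hcr ⟨hneg.le, hcon'⟩
      exact hre v hv hv0
    refine ⟨-1, by norm_num, ?_⟩
    have h2 := key (fun w => -s w) (by simpa using h1) (fun w hw => by
      have := hall w hw
      simp only [neg_re]
      linarith)
    simpa using h2.neg
  · have hall : ∀ w ∈ W, 0 < (s w).re := by
      intro w hw
      by_contra hcon
      have hcon' : (s w).re ≤ 0 := not_lt.1 hcon
      obtain ⟨v, hv, hv0⟩ := hW.intermediate_value hw hw0 hcr ⟨hcon', hpos.le⟩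
      exact hre v hv hv0
    exact ⟨1, by norm_num, key s h1 hall⟩

/-- **boundary regularity** -/
theorem bdry {x : Fin n → ℂ} {g : ℂ → ℂ} {r : ℝ} (hr0 : 0 ≤ r) (hr1 : r < 1)
    (hx : ∀ j, ‖x j‖ ≤ r) (hg : ContinuousOn g (Ann r))
    (h : WBd r (fun z => g z ^ 2 / PX x z)) {ξ : ℂ} (hξ : ‖ξ‖ = 1) :
    ∃ b : ℂ, Tendsto g (𝓝[ball 0 1] ξ) (𝓝 b) ∧
      ∃ ρ : ℝ, 0 ≤ ρ ∧ I * ξ * (b ^ 2 / PX x ξ) = ρ := by
  obtain ⟨ρ, hρ, hlim⟩ := villat hr0 hr1 h hξ
  have hξ0 : ξ ≠ 0 := by intro h0; rw [h0, norm_zero] at hξ; norm_num at hξ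
  have hPξ : PX x ξ ≠ 0 := PX_ne' hx (by rw [hξ]; exact hr1)
  have hIξ : I * ξ ≠ 0 := mul_ne_zero I_ne_zero hξ0
  set c : ℂ := ρ * PX x ξ / (I * ξ) with hc
  have hsq : Tendsto (fun w => g w ^ 2) (𝓝[ball 0 1] ξ) (𝓝 c) := by
    have h1 : Tendsto (fun w => PX x w / (I * w)) (𝓝[ball 0 1] ξ) (𝓝 (PX x ξ / (I * ξ))) := by
      have : ContinuousAt (fun w => PX x w / (I * w)) ξ :=
        (PX_diff x).continuous.continuousAt.div (by fun_prop) hIξ
      exact this.tendsto.mono_left nhdsWithin_le_nhds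
    have h2 := hlim.mul h1
    rw [← mul_div_assoc, ← hc] at h2
    refine h2.congr' ?_
    have h3 : ∀ᶠ w in 𝓝[ball (0 : ℂ) 1] ξ, r < ‖w‖ := by
      apply eventually_nhdsWithin_of_eventually_nhds
      exact continuousAt_const.eventually_lt continuous_norm.continuousAt (by rw [hξ]; exact hr1)
    filter_upwards [h3] with w hw
    have hw0 : w ≠ 0 := by
      intro h0
      rw [h0, norm_zero] at hw
      linarith
    have hP : PX x w ≠ 0 := PX_ne' hx hw
    field_simp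
  have hfin : ∀ b : ℂ, b ^ 2 = c → I * ξ * (b ^ 2 / PX x ξ) = ρ := by
    intro b hb
    rw [hb, hc]
    field_simp
  by_cases hc0 : c = 0
  · refine ⟨0, ?_, ρ, hρ, hfin 0 (by rw [hc0]; ring)⟩
    rw [hc0] at hsq
    rw [tendsto_zero_iff_norm_tendsto_zero] at hsq ⊢
    have h2 := (Real.continuous_sqrt.tendsto 0).comp hsq
    rw [Real.sqrt_zero] at h2
    refine h2.congr fun w => ?_
    simp only [Function.comp, norm_pow]
    exact Real.sqrt_sq (norm_nonneg _)
  · obtain ⟨b0, hb0⟩ : ∃ b0 : ℂ, b0 ^ 2 = c := ⟨c ^ (1 / 2 : ℂ), by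
      rw [← Complex.cpow_nat_mul]; norm_num⟩
    have hb0' : b0 ≠ 0 := by
      intro h0
      rw [h0] at hb0
      exact hc0 (by rw [← hb0]; ring)
    have hquo : Tendsto (fun w => (g w / b0) ^ 2) (𝓝[ball 0 1] ξ) (𝓝 1) := by
      have h2 := hsq.div_const c
      rw [div_self hc0] at h2
      refine h2.congr fun w => ?_
      rw [div_pow, hb0]
    have hev : ∀ᶠ w in 𝓝[ball (0 : ℂ) 1] ξ, (g w / b0) ^ 2 ∈ slitPlane :=
      hquo.eventually (isOpen_slitPlane.mem_nhds (by simp))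
    rw [eventually_nhdsWithin_iff, Metric.eventually_nhds_iff_ball] at hev
    obtain ⟨ε, hε, hev⟩ := hev
    set δ := min ε (1 - r) with hδ
    have hδ0 : 0 < δ := lt_min hε (by linarith)
    set W : Set ℂ := ball ξ δ ∩ ball 0 1 with hWd
    have hWc : IsPreconnected W := ((convex_ball ξ δ).inter (convex_ball 0 1)).isPreconnected
    have hWA : W ⊆ Ann r := by
      rintro w ⟨hw1, hw2⟩
      refine ⟨?_, by simpa using hw2⟩
      have h3 : dist w ξ < 1 - r := (mem_ball.1 hw1).trans_le (min_le_right _ _)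
      rw [dist_eq_norm] at h3
      have h4 := norm_sub_norm_le ξ w
      rw [norm_sub_rev] at h4
      linarith
    have hWl : W ∈ 𝓝[ball (0 : ℂ) 1] ξ := by
      rw [hWd, inter_comm]
      exact inter_mem_nhdsWithin _ (ball_mem_nhds ξ hδ0)
    obtain ⟨e, he, hlim2⟩ := sq_lim hWc hWl (s := fun w => g w / b0)
      ((hg.mono hWA).div_const b0)
      (fun w hw => hev w (ball_subset_ball (min_le_left _ _) hw.1) hw.2) hquo
    refine ⟨e * b0, ?_, ρ, hρ, hfin _ (by rw [mul_pow, he, one_mul, hb0])⟩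
    have h5 := hlim2.mul_const b0
    refine h5.congr fun w => ?_
    field_simp

/-- continuous extension to the closed disc -/
theorem exists_ext {g : ℂ → ℂ} (hg : DifferentiableOn ℂ g (ball 0 1)) {P : ℂ → ℂ → Prop}
    (hb : ∀ ξ : ℂ, ‖ξ‖ = 1 → ∃ b : ℂ, Tendsto g (𝓝[ball 0 1] ξ) (𝓝 b) ∧ P ξ b) :
    ∃ e : ℂ → ℂ, DiffContOnCl ℂ e (ball 0 1) ∧ (∀ z ∈ ball (0 : ℂ) 1, e z = g z) ∧
      ∀ ξ : ℂ, ‖ξ‖ = 1 → P ξ (e ξ) := by
  have hcl : closure (ball (0 : ℂ) 1) = closedBall 0 1 := closure_ball _ one_ne_zero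
  have hlim : ∀ z ∈ closedBall (0 : ℂ) 1, ∃ b, Tendsto g (𝓝[ball 0 1] z) (𝓝 b) := by
    intro z hz
    have hz1 : ‖z‖ ≤ 1 := by simpa using hz
    rcases hz1.lt_or_eq with h | h
    · have hzb : z ∈ ball (0 : ℂ) 1 := by simpa using h
      exact ⟨g z, hg.continuousOn z hzb⟩
    · obtain ⟨b, hb, _⟩ := hb z h
      exact ⟨b, hb⟩
  have hec : ContinuousOn (extendFrom (ball 0 1) g) (closedBall 0 1) :=
    continuousOn_extendFrom (by rw [hcl]) hlim
  have hee : ∀ z ∈ ball (0 : ℂ) 1, extendFrom (ball 0 1) g z = g z := by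
    intro z hz
    exact extendFrom_extends (f := g) (A := ball 0 1) hg.continuousOn z hz
  refine ⟨extendFrom (ball 0 1) g, ⟨hg.congr hee, by rwa [hcl]⟩, hee, ?_⟩
  intro ξ hξ
  obtain ⟨b, hb, hρ⟩ := hb ξ hξ
  have : extendFrom (ball 0 1) g ξ = b := extendFrom_eq (by rw [hcl]; simp [hξ]) hb
  rwa [this]

/-- a radius `r < 1` containing all `x j` in the open ball -/
theorem exists_rad {x : Fin n → ℂ} (hx : ∀ j, ‖x j‖ < 1) :
    ∃ r : ℝ, 0 ≤ r ∧ r < 1 ∧ ∀ j, ‖x j‖ < r := by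
  have h : ∀ s : Finset (Fin n), ∃ r : ℝ, 0 ≤ r ∧ r < 1 ∧ ∀ j ∈ s, ‖x j‖ < r := by
    intro s
    induction s using Finset.induction_on with
    | empty => exact ⟨0, le_rfl, one_pos, fun j hj => absurd hj (Finset.notMem_empty j)⟩
    | insert a s _ ih =>
      obtain ⟨r, hr0, hr1, hr⟩ := ih
      obtain ⟨r', h1, h2⟩ := exists_between (hx a)
      refine ⟨max r r', hr0.trans (le_max_left _ _), max_lt hr1 h2, fun j hj => ?_⟩
      rcases Finset.mem_insert.1 hj with rfl | hj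
      · exact h1.trans_le (le_max_right _ _)
      · exact (hr j hj).trans_le (le_max_left _ _)
  obtain ⟨r, hr0, hr1, hr⟩ := h Finset.univ
  exact ⟨r, hr0, hr1, fun j => hr j (Finset.mem_univ j)⟩

/-- **a spinor on the unit disc with holomorphic `g`, sources at the branch points: extension** -/
theorem ext_disc {x : Fin n → ℂ} (hx : ∀ j, ‖x j‖ < 1) {K : Set ℂ} (hK : K ⊆ range x)
    {g : ℂ → ℂ} (hg : DifferentiableOn ℂ g (ball 0 1))
    (h : IsSpin (ball 0 1) x K (fun z => g z / rX x z)) :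
    ∃ e : ℂ → ℂ, DiffContOnCl ℂ e (ball 0 1) ∧ (∀ z ∈ ball (0 : ℂ) 1, e z = g z) ∧
      ∀ ξ : ℂ, ‖ξ‖ = 1 → ∃ ρ : ℝ, 0 ≤ ρ ∧ I * ξ * (e ξ ^ 2 / PX x ξ) = ρ := by
  obtain ⟨r, hr0, hr1, hr⟩ := exists_rad hx
  refine exists_ext hg (P := fun ξ b => ∃ ρ : ℝ, 0 ≤ ρ ∧ I * ξ * (b ^ 2 / PX x ξ) = ρ) fun ξ hξ => ?_
  refine bdry hr0 hr1 (fun j => (hr j).le) (hg.continuousOn.mono (Ann_subset_ball r)) ?_ hξ
  refine wbd_of_spin h ?_ (fun j => (hr j).le) (hg.mono (Ann_subset_ball r)) ?_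
  · intro z hz
    obtain ⟨j, rfl⟩ := hK hz
    simpa using hr j
  · filter_upwards [ae_restrict_mem (isOpen_Ann r).measurableSet] with z hz
    have hne : rX x z ≠ 0 := U3Covx67.rX_ne fun j hj => by
      have := hr j
      rw [hj] at this
      have h2 := hz.1
      linarith
    field_simp

theorem norm_lt_of_conf {D : Set ℂ} {x : Fin n → ℂ} (hx : x ∈ ConfTopx641.Conf n D)
    (hD : D ⊆ ball (0 : ℂ) 1) (j : Fin n) : ‖x j‖ < 1 := by simpa using hD (hx.1 j)

theorem PX_two (x : Fin 2 → ℂ) {i j : Fin 2} (hij : i ≠ j) (z : ℂ) :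
    PX x z = (z - x i) * (z - x j) := by
  unfold PX
  rw [Fin.prod_univ_two]
  fin_cases i <;> fin_cases j <;> simp at hij ⊢ <;> ring

theorem wX_two (x : Fin 2 → ℂ) {i j : Fin 2} (hij : i ≠ j) : U3x719.wX x i = x j - x i := by
  unfold U3x719.wX
  have : Finset.univ.erase i = {j} := by
    ext k
    simp only [Finset.mem_erase, Finset.mem_univ, and_true, Finset.mem_singleton]
    constructor
    · intro hk
      omega
    · rintro rfl
      exact hij.symm
  rw [this, Finset.prod_singleton]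

/-- **`DiscTwo`** -/
theorem discTwo : UBrLx641.DiscTwo := by
  intro x hx i j g hij hg
  have hxn : ∀ j, ‖x j‖ < 1 := norm_lt_of_conf hx le_rfl
  obtain ⟨e, he, hee, hes⟩ := ext_disc hxn (K := {x i}) (by
    rintro z rfl
    exact ⟨i, rfl⟩) hg.holo hg.spin
  have hib : x i ∈ ball (0 : ℂ) 1 := hx.1 i
  have hjb : x j ∈ ball (0 : ℂ) 1 := hx.1 j
  have key := U3Ex576.two_branch (hxn i) (hxn j) (fun h => hij (hx.2 h)) he (fun z hz => by
    obtain ⟨t, ht, h⟩ := hes z hz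
    refine ⟨t, ht, ?_⟩
    have hP : PX x z ≠ 0 := U3x719.PX_ne fun k hk => by
      have := hxn k
      rw [← hk, hz] at this
      exact lt_irrefl _ this
    rw [← PX_two x hij z, ← h]
    field_simp) (by
    rw [hee _ hib, hg.src, wX_two x hij]
    ring)
  rw [hee _ hjb] at key
  rw [key, wX_two x hij.symm]
  ring


end Crest.Agent.R165.U3Twox697
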