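import Crest.Agent.R165.UAsm_641
import Crest.Agent.R165.Pl4_654
import Crest.Agent.R165.TorusUT_922
import Crest.Agent.R165.U3Two_697
import Crest.Agent.R165.SpFr3_422
import Crest.Agent.R165.Fr7_802_Mg
import Crest.Agent.R165.MacLf_304
import Crest.Agent.R165.PlOut2_304
import Crest.Agent.R165.MacI_622
import Crest.Agent.R165.Mac3_622
import Crest.Agent.R165.Pair_599
import Crest.Agent.R165.LogD_813
import Crest.Agent.R165.PsiLim2_375
import Crest.Agent.R165.FrFin_887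
import Crest.Agent.R165.LogG_813_Mg
import Crest.Agent.R165.Eval_644
import Crest.Agent.R165.Pl0b_654
import Crest.Agent.R165.SpE_583
import Crest.Agent.R165.UPl_641
import Crest.Agent.R165.UJ3_420
import Crest.Agent.R165.Gr2_813
import Crest.Agent.R165.J2d_606
import Crest.Agent.R165.Step3_470
import Mathlib
import Crest.Agent.R165.PlOut_304
import Crest.Agent.R165.LatSeq_416

-- ▼ part R165/UAsm2_641
section

/-!
# Row 165 (S0250): ASSEMBLY OF BLOCK U, second form (helper641)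

`torPl` (922), `discTwo` (697), `exCovPl`, `j2Pl` (654), `spinInB_free` (422) are theorems;
the remaining leaves are the fields of `ULeaves2`.
-/

set_option autoImplicit false

noncomputable section

open Filter Topology Set
open Crest.ProbabilityR.IsingModel

namespace Crest.Agent.R165.UAsm2x641

open Crest.Agent.R165.USpinx641 Crest.Agent.R165.UB3x641 Crest.Agent.R165.UBrLx641
  Crest.Agent.R165.UPlx641 Crest.Agent.R165.UAsmx641 Crest.Agent.R165.U3x719
open Crest.Agent.R165.UKerPlx304 Crest.Agent.R165.Red2x541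
open Crest.Agent.R165.U5gx697

theorem torPl : Spx583.TorPl := fun S =>
  TorusUTx922.torBonds_tendsto one_ne_zero 0 (fun _ => 0) S

/-- the leaves of block U which are still open -/
structure ULeaves2 : Prop where
  mac : MacLeaf
  br : BrLeaf
  ld : LdLeaf
  uniq : Uniq
  kerFree : KerAll .free
  kerPl : UPlx641.KerPl
  plLd : PlLd

theorem spinPlus (H : ULeaves2) : SpinInB .plus Lam :=
  spinInB_plus (fun _ hD => ldf_dom H.ld hD) (covA_of (aiCov H.uniq) H.br)

theorem brLim (H : ULeaves2) : Kw9x871.BrLim Kw9x871.kapB := brLim_of H.br U3Twox697.discTwo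

theorem in5' (H : ULeaves2) : In5 Lam Kw9x871.kapB where
  ut := Spx583.UTb_of torPl
  spin := spinPlus H
  mu := Kw9x871.muIn_kapB (brLim H)
  wu := Spx583.wu_Pc torPl

theorem spinOut_one (H : ULeaves2) : U5Px422.SpinOut .plus 1 := by
  obtain ⟨g, hg⟩ := (in5' H).twoPt
  exact Nm7x422.spinOut_plus' (spinPlus H) hg 1

theorem spinFree (H : ULeaves2) : SpinInB .free SpFr3x422.LamF :=
  SpFr3x422.spinInB_free H.ld H.br H.uniq (brLim H) (spinOut_one H)



end Crest.Agent.R165.UAsm2x641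
end
end

-- ▼ part R165/UFree_641
section

/-!
# Row 165 (S0250): the free kernels, and block U from six leaves (helper641)

* `freeData` : `KerD true` and `KerCov` for free boundary conditions from `MacLeaf`, `BrLeaf`, `Uniq`
  (802's transfer, `UPlusIn_641`, 422's positivity of the determinant)
* `ULeaves3`, `ulimB3` : block U from the remaining leaves
-/

set_option autoImplicit false

noncomputable section

open Filter Topology Set
open Crest.ProbabilityR.IsingModel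

namespace Crest.Agent.R165.UFreex641

open Crest.Agent.R165.Latx683 (IsCov BW)
open Crest.Agent.R165.ConfTopx641 Crest.Agent.R165.USpinx641 Crest.Agent.R165.UB3x641
  Crest.Agent.R165.UBrLx641 Crest.Agent.R165.UPlx641 Crest.Agent.R165.UAsmx641
  Crest.Agent.R165.UPlusInx641 Crest.Agent.R165.UAsm2x641
open Crest.Agent.R165.U3x719 Crest.Agent.R165.U3Covx67
open Crest.Agent.R165.UKerPlx304 Crest.Agent.R165.UFinx420
open Crest.Agent.R165.UKerx420 (KerCov KerD)
open Crest.Agent.R165.Red2x541 Crest.Agent.R165.Redx541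
open Crest.Agent.R165.U5Px422 (SpinOut LApp)
open Crest.Agent.R165.FrIx802 Crest.Agent.R165.Fr7x802

/-- the data of the plus kernels and branch functions of one configuration -/
structure FD (c1 c2 : ℝ) {n : ℕ} (D : Set ℂ) (x : Fin n → ℂ)
    (bl : ℂ → ℂ → LinearMap.BilinForm ℝ ℂ) (rg : ℂ → LinearMap.BilinForm ℝ ℂ)
    (G : ℂ → ℂ → ℂ → ℂ) (g : Fin n → ℂ → ℂ) : Prop where
  ker : KerFam D x G
  hbl : ∀ z ∈ D, ∀ y ∈ D, z ≠ y → (∀ i, x i ≠ z) → (∀ i, x i ≠ y) → ∀ c c',
        bl z y c c' = kerB x G z y c c' / (2 * Real.pi * Latx683.xc)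
  hrg : ∀ y ∈ D, (∀ i, x i ≠ y) → ∀ c c',
        rg y c c' = kerR x G y c c' / (2 * Real.pi * Latx683.xc)
  br : ∀ i, IsBrN D x i (g i)
  inn : PlusIn D x bl rg (etaOf c1 x g) (bOf c2 x g)
  lim : ∀ (w : ℝ → BW ℤ) (X : ℝ → Fin n → ℤ × ℤ), BgFam D w → LApp X x → BrF c1 c2 D x w X g

theorem exists_FD (hM : MacLeaf) {c1 c2 : ℝ}
    (hB : ∀ D : Set ℂ, IsC2JordanDomain D → ∀ (n : ℕ) (x : Fin n → ℂ),
    x ∈ Conf n D → ∃ g : Fin n → ℂ → ℂ, (∀ i, IsBrN D x i (g i)) ∧
      ∀ (w : ℝ → BW ℤ) (X : ℝ → Fin n → ℤ × ℤ), BgFam D w → LApp X x → BrF c1 c2 D x w X g)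
    {D : Set ℂ} (hD : IsC2JordanDomain D) {n : ℕ} {x : Fin n → ℂ} (hx : x ∈ Conf n D) :
    ∃ bl rg G g, FD c1 c2 D x bl rg G g := by
  obtain ⟨bl, rg, G, h1, h2, h3, h4, h5, h6⟩ := hM D hD n x hx
  obtain ⟨g, k1, k2⟩ := hB D hD n x hx
  exact ⟨bl, rg, G, g, h1, h2, h3, k1, plusIn hD hx h4 h5 h6 k2, k2⟩

/-- the matrix of the branch points is regular -/
theorem FD.unit {c1 c2 : ℝ} {n : ℕ} {D : Set ℂ} {x : Fin n → ℂ}
    {bl : ℂ → ℂ → LinearMap.BilinForm ℝ ℂ} {rg : ℂ → LinearMap.BilinForm ℝ ℂ}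
    {G : ℂ → ℂ → ℂ → ℂ} {g : Fin n → ℂ → ℂ} (F : FD c1 c2 D x bl rg G g)
    (hB : BrLeaf) (hU : Uniq) (hK : Kw9x871.BrLim Kw9x871.kapB) (hS : SpinOut .plus 1)
    (hD : IsC2JordanDomain D) (hx : x ∈ Conf n D) (hn : Even n) : IsUnit (bOf c2 x g).det := by
  obtain ⟨m, hm⟩ := hn
  have hm2 : n = 2 * m := by omega
  subst hm2
  have h1 := SpFr3x422.rl_pos hB hU hK hS hD m x hx
  rw [SpFr3x422.rl_eq hD hx F.lim] at h1
  have h2 : SpFr1x422.Bm c2 x g = bOf c2 x g := rfl
  rw [h2] at h1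
  exact isUnit_iff_ne_zero.2 (Real.sqrt_pos.1 h1).ne'

section
variable (hM : MacLeaf) (hB : BrLeaf) (hU : Uniq) (hK : Kw9x871.BrLim Kw9x871.kapB)
  (hS : SpinOut .plus 1)
include hM hB hU hK hS

theorem kerExB_free : KerExB .free := by
  intro n hR D hD x hx hinj
  have hn : Even n := by
    rcases hR with h | ⟨-, h⟩
    · exact absurd h (by decide)
    · exact h
  have hx' : x ∈ Conf n D := ⟨hx, hinj⟩
  obtain ⟨c1, c2, -, -, h⟩ := id hB
  obtain ⟨bl, rg, G, g, F⟩ := exists_FD hM h hD hx'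
  exact ⟨_, _, kerD_free (isOpen_of_C2 hD) (bounded_of_C2 hD) hx hinj F.inn
    (F.unit hB hU hK hS hD hx' hn)⟩

theorem kerCvB_free : KerCvB .free := by
  intro n hR D D' hD hD' φ hφ hbij x hx hinj bl rg bl' rg' L L'
  have hn : Even n := by
    rcases hR with h | ⟨-, h⟩
    · exact absurd h (by decide)
    · exact h
  rcases D.eq_empty_or_nonempty with rfl | hne
  · exact ⟨fun _ => 0, fun z hz => absurd hz (Set.notMem_empty z),
      fun z _ hz => absurd hz (Set.notMem_empty z), fun z hz => absurd hz (Set.notMem_empty z)⟩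
  have hxC : x ∈ Conf n D := ⟨hx, hinj⟩
  have hx' : ∀ i, φ (x i) ∈ D' := fun i => hbij.mapsTo (hx i)
  have hinj' : Function.Injective (fun i => φ (x i)) := fun i j e =>
    hinj (hbij.injOn (hx i) (hx j) e)
  have hxC' : (fun i => φ (x i)) ∈ Conf n D' := ⟨hx', hinj'⟩
  obtain ⟨c1, c2, -, -, h⟩ := id hB
  obtain ⟨b, r, G, g, F⟩ := exists_FD hM h hD hxC
  obtain ⟨b', r', G', g', F'⟩ := exists_FD hM h hD' hxC'
  have K1 := kerD_free (isOpen_of_C2 hD) (bounded_of_C2 hD) hx hinj F.inn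
    (F.unit hB hU hK hS hD hxC hn)
  have K2 := kerD_free (isOpen_of_C2 hD') (bounded_of_C2 hD') hx' hinj' F'.inn
    (F'.unit hB hU hK hS hD' hxC' hn)
  obtain ⟨ρ, h1, h2, h3⟩ := kerCov_free (plusCov hU hD hD' hφ hbij hxC hne F.ker F'.ker F.hbl F.hrg
    F'.hbl F'.hrg F.br F'.br c1 c2) hbij.injOn hx
  have hex := UJ4x420.exCov .free n hR D hD x hx hinj
  have hex' := UJ4x420.exCov .free n hR D' hD' _ hx' hinj'
  have hne' : ∀ z ∈ D, (∀ i, x i ≠ z) → ∀ i, φ (x i) ≠ φ z := fun z hz hxz i e =>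
    hxz i (hbij.injOn (hx i) hz e)
  refine ⟨ρ, h1, fun z z' hz hz' hzz hxz hxz' c c' => ?_, fun z hz hxz c c' => ?_⟩
  · rw [off_unique L K1 hex hz hz' hzz hxz hxz',
      off_unique L' K2 hex' (hbij.mapsTo hz) (hbij.mapsTo hz')
        (fun e => hzz (hbij.injOn hz hz' e)) (hne' z hz hxz) (hne' z' hz' hxz')]
    exact h2 z z' hz hz' hzz hxz hxz' c c'
  · rw [diag_unique L K1 hex hz hxz, diag_unique L' K2 hex' (hbij.mapsTo hz) (hne' z hz hxz)]
    exact h3 z hz hxz c c'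

end

/-! ### block U from the remaining leaves -/

/-- the leaves of block U which are still open -/
structure ULeaves3 : Prop where
  /-- compactness of the lattice resolvents (943) -/
  comp : ∀ D : Set ℂ, IsC2JordanDomain D → MacIx610.Comp D
  /-- uniqueness of `L²` spinors (719) -/
  uniqL2 : ∀ D : Set ℂ, IsC2JordanDomain D → MacIx610.UniqL2 D
  /-- branch limits (576, 644) -/
  br : BrLeaf
  /-- logarithmic derivatives (813) -/
  ld : LdLeaf
  /-- uniqueness of spinors with finitely many singularities (719, 697, 67) -/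
  uniq : Uniq
  /-- resolvent limits in the plane (811, 654, 422) -/
  resPl : ∀ n : ℕ, Even n → ∀ x : Fin n → ℂ, Function.Injective x →
    ∃ Q, MacIx622.ResConv (Mac0x622.Om Set.univ x) x (PlOutx304.PlSeq x) Q
  /-- logarithmic derivatives of the plane (817) -/
  plLd : PlLd

theorem mac (H : ULeaves3) : MacLeaf := MacLfx304.macLeaf H.comp H.uniqL2

theorem kerPl (H : ULeaves3) : UPlx641.KerPl :=
  PlOut2x304.kerPl_of_res Pl4x654.exCovPl H.resPl

theorem spinPlus (H : ULeaves3) : SpinInB .plus Lam :=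
  spinInB_plus (fun _ hD => ldf_dom H.ld hD) (covA_of (aiCov H.uniq) H.br)

theorem brLim (H : ULeaves3) : Kw9x871.BrLim Kw9x871.kapB := brLim_of H.br U3Twox697.discTwo

theorem in5 (H : ULeaves3) : U5gx697.In5 Lam Kw9x871.kapB where
  ut := Spx583.UTb_of torPl
  spin := spinPlus H
  mu := Kw9x871.muIn_kapB (brLim H)
  wu := Spx583.wu_Pc torPl

theorem spinOut_plus (H : ULeaves3) (n : ℕ) : SpinOut .plus n := by
  obtain ⟨g, hg⟩ := (in5 H).twoPt
  exact Nm7x422.spinOut_plus' (spinPlus H) hg n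

theorem spinFree (H : ULeaves3) : SpinInB .free SpFr3x422.LamF :=
  SpFr3x422.spinInB_free H.ld H.br H.uniq (brLim H) (spinOut_plus H 1)

theorem spinLeaf (H : ULeaves3) : SpinLeaf := by
  intro b n hn hR
  rcases hR with rfl | ⟨rfl, he⟩
  · exact spinOut_plus H n
  · exact (in5 H).spinOut_free (spinFree H) he

theorem kerEx (H : ULeaves3) : KerEx :=
  kerEx_of_B (kerExB_of UJ4x420.exCov (kerAll_plus (mac H) H.uniq))
    (kerExB_free (mac H) H.br H.uniq (brLim H) (spinOut_plus H 1))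

theorem kerCv (H : ULeaves3) : KerCv :=
  kerCv_of_B (kerCvB_of UJ4x420.exCov (kerAll_plus (mac H) H.uniq))
    (kerCvB_free (mac H) H.br H.uniq (brLim H) (spinOut_plus H 1))

/-- **BLOCK U** from the open leaves -/
theorem ulimB3 (H : ULeaves3) : ULimB where
  ud := UJ4x420.UDb_of' (spinLeaf H) (kerEx H)
  ut := (in5 H).ut
  up := by
    obtain ⟨LamP, hP⟩ := plIn_of H.plLd
    exact UPlx641.UPb_of ((in5 H).spPl hP) Pl4x654.exCovPl (kerPl H) (Pl4x654.j2Pl torPl) (in5 H).ut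
  u2 := (in5 H).u2c
  uc := UJ4x420.UCb_of' (spinLeaf H) (kerEx H) (kerCv H)

end Crest.Agent.R165.UFreex641
end
end

-- ▼ part R165/LdPair_817
section

/-!
# Row 165 (S0250), block U (helper817): pairing of a weak source with a strongly convergent field

* `lintegral_cover` : local `L²` convergence is uniform on compact sets
* `pair_lim` : `a² ∑ p_k φ_k → ∫ g f` if `p_k → g` boundedly a.e. with support in a compact subset
  of `Om` and `φ_k → f` in `L²_loc(Om)`
-/

set_option autoImplicit false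

noncomputable section

open MeasureTheory Filter Topology Set Metric
open Crest.ProbabilityR.IsingModel
open Crest.Agent.R165.Embx622
open Crest.Agent.R165.Pairx599 (norm_mesh_sub finite_mesh summable_of_supp)

namespace Crest.Agent.R165.LdPairx817

theorem lintegral_biUnion_le {t : Finset ℂ} {s : ℂ → Set ℂ} (f : ℂ → ENNReal) :
    ∫⁻ z in ⋃ i ∈ t, s i, f z ≤ ∑ i ∈ t, ∫⁻ z in s i, f z := by
  classical
  induction t using Finset.induction_on with
  | empty => simp
  | insert i t hi ih =>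
    rw [Finset.set_biUnion_insert, Finset.sum_insert hi]
    exact (lintegral_union_le f _ _).trans (add_le_add le_rfl ih)

/-- local `L²` convergence is convergence on compact sets -/
theorem lintegral_cover {Om K : Set ℂ} (hK : IsCompact K) (hKO : K ⊆ Om)
    {h : ℕ → ℂ → ENNReal}
    (hloc : ∀ z₀ ∈ Om, ∃ ρ > 0, Tendsto (fun k => ∫⁻ z in ball z₀ ρ, h k z) atTop (𝓝 0)) :
    Tendsto (fun k => ∫⁻ z in K, h k z) atTop (𝓝 0) := by
  classical
  choose! ρ hρ hlim using hloc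
  obtain ⟨t, htK, ht⟩ := hK.elim_nhds_subcover (fun z => ball z (if z ∈ Om then ρ z else 1))
    (fun z hz => ball_mem_nhds z (by rw [if_pos (hKO hz)]; exact hρ z (hKO hz)))
  have h1 : Tendsto (fun k => ∑ z ∈ t, ∫⁻ y in ball z (ρ z), h k y) atTop (𝓝 (∑ z ∈ t, 0)) :=
    tendsto_finsetSum _ fun z hz => hlim z (hKO (htK z hz))
  rw [Finset.sum_const_zero] at h1
  refine tendsto_of_tendsto_of_tendsto_of_le_of_le tendsto_const_nhds h1 (fun _ => zero_le) ?_
  intro k
  have h2 : K ⊆ ⋃ z ∈ t, ball z (ρ z) := by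
    intro y hy
    obtain ⟨z, hz, hyz⟩ := mem_iUnion₂.1 (ht hy)
    rw [if_pos (hKO (htK z hz))] at hyz
    exact mem_iUnion₂.2 ⟨z, hz, hyz⟩
  exact (lintegral_mono_set h2).trans (lintegral_biUnion_le _)

/-- **pairing of a bounded a.e. convergent sequence with a strongly convergent one** -/
theorem pair_lim {Om K : Set ℂ} (hOm : IsOpen Om) (hK : IsCompact K) (hKO : K ⊆ Om) {a : ℕ → ℝ}
    (hpos : ∀ k, 0 < a k) (hlim : Tendsto a atTop (𝓝 0)) {φ p : ℕ → ℤ × ℤ → ℝ} {f g : ℂ → ℝ}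
    {C : ℝ}
    (hloc : ∀ z₀ ∈ Om, ∃ ρ > 0, Tendsto (fun k => ∫⁻ z in ball z₀ ρ,
      ENNReal.ofReal ((emb (a k) (φ k) z - f z) ^ 2)) atTop (𝓝 0))
    (hfm : ∀ K' : Set ℂ, IsCompact K' → K' ⊆ Om →
      AEStronglyMeasurable f (volume.restrict K') ∧ ∃ B : ℝ, ∀ z ∈ K', |f z| ≤ B)
    (hp : ∀ᶠ k in atTop, ∀ u, p k u ≠ 0 → meshPoint (a k) u ∈ K)
    (hC : ∀ᶠ k in atTop, ∀ u, |p k u| ≤ C)
    (hl : ∀ᵐ z : ℂ, Tendsto (fun k => p k (meshIndex (a k) z)) atTop (𝓝 (g z))) :
    Tendsto (fun k => a k ^ 2 * ∑' u, p k u * φ k u) atTop (𝓝 (∫ z, g z * f z)) := by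
  classical
  obtain ⟨K', hK', hKK', hK'O⟩ := exists_compact_between hK hOm hKO
  obtain ⟨hfme, B, hB⟩ := hfm K' hK' hK'O
  have hKm : MeasurableSet K' := hK'.measurableSet
  have hvol : volume K' ≠ ⊤ := hK'.measure_ne_top
  -- cells near `K` are in `K'`
  obtain ⟨δ, hδ, hthick⟩ := hK.exists_thickening_subset_open isOpen_interior hKK'
  have hsm : ∀ᶠ k in atTop, 2 * a k < δ := by
    have : Tendsto (fun k => 2 * a k) atTop (𝓝 0) := by simpa using hlim.const_mul 2
    exact this.eventually (gt_mem_nhds hδ)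
  have hin : ∀ᶠ k in atTop, ∀ z : ℂ, z ∉ K' → p k (meshIndex (a k) z) = 0 := by
    filter_upwards [hp, hsm] with k h1 h2 z hz
    by_contra hne
    refine hz (interior_subset (hthick ?_))
    rw [mem_thickening_iff]
    refine ⟨_, h1 _ hne, ?_⟩
    rw [dist_comm, dist_eq_norm]
    exact (norm_mesh_sub (hpos k) z).trans_lt h2
  -- the limit of the `p`
  have hg0 : ∀ᵐ z : ℂ, z ∉ K' → g z = 0 := by
    filter_upwards [hl] with z hz hzK
    refine tendsto_nhds_unique hz (tendsto_const_nhds.congr' ?_)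
    filter_upwards [hin] with k hk
    exact (hk z hzK).symm
  -- first part
  set I : ℕ → ENNReal := fun k => ∫⁻ z in K', ENNReal.ofReal ((emb (a k) (φ k) z - f z) ^ 2) with hI
  have hI0 : Tendsto I atTop (𝓝 0) := lintegral_cover hK' hK'O hloc
  -- dominated convergence
  have hdom : Tendsto (fun k => ∫ z, emb (a k) (p k) z * K'.indicator f z) atTop
      (𝓝 (∫ z, g z * K'.indicator f z)) := by
    refine tendsto_integral_filter_of_dominated_convergence
      (K'.indicator fun _ => |C| * |B|) ?_ ?_ ?_ ?_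
    · refine Eventually.of_forall fun k => ?_
      refine (emb_measurable _ _).aestronglyMeasurable.mul ?_
      exact (aestronglyMeasurable_indicator_iff hKm).2 hfme
    · filter_upwards [hC] with k hk
      refine Eventually.of_forall fun z => ?_
      by_cases hz : z ∈ K'
      · rw [indicator_of_mem hz, indicator_of_mem hz, norm_mul]
        exact mul_le_mul ((hk _).trans (le_abs_self C)) ((hB z hz).trans (le_abs_self B))
          (norm_nonneg _) (abs_nonneg _)
      · rw [indicator_of_notMem hz, indicator_of_notMem hz, mul_zero, norm_zero]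
    · exact (integrable_indicator_iff hKm).2 (integrableOn_const hvol)
    · filter_upwards [hl] with z hz
      exact hz.mul_const _
  have hgf : ∫ z, g z * K'.indicator f z = ∫ z, g z * f z := by
    refine integral_congr_ae ?_
    filter_upwards [hg0] with z hz
    by_cases h : z ∈ K'
    · rw [indicator_of_mem h]
    · rw [hz h, zero_mul, zero_mul]
  rw [hgf] at hdom
  -- the difference
  have hsum : ∀ᶠ k in atTop, ∀ c : ℤ × ℤ → ℝ, Summable fun u => ‖p k u * c u‖ := by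
    filter_upwards [hp] with k hk c
    refine summable_of_supp (g := fun u => p k u * c u) hK.isBounded (hpos k) fun u hu => ?_
    exact hk u (left_ne_zero_of_mul hu)
  have hD : Tendsto (fun k => ∫ z, (emb (a k) (fun u => p k u * φ k u) z -
      emb (a k) (p k) z * K'.indicator f z)) atTop (𝓝 0) := by
    rw [tendsto_zero_iff_enorm_tendsto_zero]
    have hJ : Tendsto (fun k => ∫⁻ z, ‖emb (a k) (fun u => p k u * φ k u) z -
        emb (a k) (p k) z * K'.indicator f z‖ₑ) atTop (𝓝 0) := by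
      rw [ENNReal.tendsto_nhds_zero]
      intro ε hε
      have hε2 : 0 < ε / 2 := ENNReal.half_pos hε.ne'
      obtain ⟨η, hη, hηε⟩ : ∃ η : ℝ, 0 < η ∧ ENNReal.ofReal (|C| * η) * volume K' ≤ ε / 2 := by
        have h1 : Tendsto (fun η : ℝ => ENNReal.ofReal (|C| * η) * volume K') (𝓝[>] 0)
            (𝓝 (ENNReal.ofReal (|C| * 0) * volume K')) := by
          refine ENNReal.Tendsto.mul_const ?_ (Or.inr hvol)
          refine (ENNReal.continuous_ofReal.tendsto _).comp ?_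
          exact ((continuous_const.mul continuous_id).tendsto 0).mono_left nhdsWithin_le_nhds
        rw [mul_zero, ENNReal.ofReal_zero, zero_mul] at h1
        obtain ⟨η, h2, h3⟩ := ((ENNReal.tendsto_nhds_zero.1 h1 _ hε2).and
          self_mem_nhdsWithin).exists
        exact ⟨η, h3, h2⟩
      have h2 : Tendsto (fun k => ENNReal.ofReal (|C| / η) * I k) atTop (𝓝 0) := by
        have := ENNReal.Tendsto.const_mul (a := ENNReal.ofReal (|C| / η)) hI0
          (Or.inr ENNReal.ofReal_ne_top)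
        rwa [mul_zero] at this
      filter_upwards [ENNReal.tendsto_nhds_zero.1 h2 _ hε2, hC, hin] with k h3 h4 h5
      have h6 : ∀ z, ‖emb (a k) (fun u => p k u * φ k u) z -
          emb (a k) (p k) z * K'.indicator f z‖ₑ ≤ K'.indicator (fun z => ENNReal.ofReal (|C| * η) +
            ENNReal.ofReal (|C| / η) * ENNReal.ofReal ((emb (a k) (φ k) z - f z) ^ 2)) z := by
        intro z
        by_cases hz : z ∈ K'
        · rw [indicator_of_mem hz, indicator_of_mem hz]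
          have e : emb (a k) (fun u => p k u * φ k u) z - emb (a k) (p k) z * f z =
              emb (a k) (p k) z * (emb (a k) (φ k) z - f z) := by
            simp only [emb]; ring
          rw [e, ← ofReal_norm, ← ENNReal.ofReal_mul (by positivity),
            ← ENNReal.ofReal_add (by positivity) (by positivity)]
          refine ENNReal.ofReal_le_ofReal ?_
          set t := emb (a k) (φ k) z - f z with ht
          have h7 : |emb (a k) (p k) z| ≤ |C| := (h4 _).trans (le_abs_self C)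
          rw [norm_mul, Real.norm_eq_abs, Real.norm_eq_abs]
          have h8 : |t| ≤ η + t ^ 2 / η := by
            rcases le_total |t| η with h | h
            · have : 0 ≤ t ^ 2 / η := by positivity
              linarith
            · have h9 : |t| ≤ t ^ 2 / η := by
                rw [le_div_iff₀ hη, ← sq_abs, sq]
                exact mul_le_mul_of_nonneg_left h (abs_nonneg _)
              linarith
          calc |emb (a k) (p k) z| * |t| ≤ |C| * (η + t ^ 2 / η) :=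
                mul_le_mul h7 h8 (abs_nonneg _) (abs_nonneg _)
            _ = |C| * η + |C| / η * t ^ 2 := by ring
        · rw [indicator_of_notMem hz, indicator_of_notMem hz]
          have : emb (a k) (fun u => p k u * φ k u) z = 0 := by
            simp only [emb, h5 z hz, zero_mul]
          rw [this, mul_zero, sub_zero, enorm_zero]
      refine (lintegral_mono h6).trans ?_
      rw [lintegral_indicator hKm, lintegral_add_left measurable_const, setLIntegral_const,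
        lintegral_const_mul' _ _ ENNReal.ofReal_ne_top]
      calc _ ≤ ε / 2 + ε / 2 := add_le_add hηε h3
        _ = ε := ENNReal.add_halves ε
    exact tendsto_of_tendsto_of_tendsto_of_le_of_le tendsto_const_nhds hJ (fun _ => zero_le)
      fun k => enorm_integral_le_lintegral_enorm _
  have hfin := hD.add hdom
  rw [zero_add] at hfin
  refine hfin.congr' ?_
  filter_upwards [hsum, hC, hp] with k h1 h2 h3
  have i1 : Integrable fun z => emb (a k) (fun u => p k u * φ k u) z :=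
    integrable_emb (hpos k) (h1 _)
  have i2 : Integrable fun z => emb (a k) (p k) z * K'.indicator f z := by
    have h4 : Integrable fun z => emb (a k) (p k) z := by
      refine integrable_emb (hpos k) ?_
      have := h1 fun _ => 1
      simpa using this
    refine Integrable.mul_bdd (c := |B|) h4 ((aestronglyMeasurable_indicator_iff hKm).2 hfme)
      (Eventually.of_forall fun z => ?_)
    by_cases hz : z ∈ K'
    · rw [indicator_of_mem hz]
      exact (hB z hz).trans (le_abs_self B)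
    · rw [indicator_of_notMem hz, norm_zero]; exact abs_nonneg _
  rw [integral_sub i1 i2, sub_add_cancel, integral_emb (hpos k) (h1 _), smul_eq_mul]

end Crest.Agent.R165.LdPairx817
end
end

-- ▼ part R165/LdGen_817
section

/-!
# Row 165 (S0250), block U (helper817): logarithmic derivatives from resolvent convergence

* `RC D x w` : resolvent convergence for the backgrounds `wX (w a) X`, `a → 0`, `a X → x`
* `SrcD Ψ p c` : a branch field of order `p` with continuum amplitude `c`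
* `gl` : limit of the column of a commutator, `gl_pair` : limit of the pairing of two commutators
-/

set_option autoImplicit false

noncomputable section

open MeasureTheory Filter Topology Set Metric
open Crest.ProbabilityR.IsingModel

namespace Crest.Agent.R165.LdGenx817

open Crest.Agent.R165.Embx622 Crest.Agent.R165.LdPairx817
open Crest.Agent.R165.Tr1x40 (Face)
open Crest.Agent.R165.RIfx891 (lv)
open Crest.Agent.R165.Mac0x622 (Om rX rX_ne)
open Crest.Agent.R165.MacIx622 (ResConv)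
open Crest.Agent.R165.Latx683 Crest.Agent.R165.Br1x644 Crest.Agent.R165.Gr2x813
open Crest.Agent.R165.Gr3x813 Crest.Agent.R165.PsiLx375 Crest.Agent.R165.LogDx813
open Crest.Agent.R165.Br5x644 (PsiS2 PsiN2 Gen Gen2 Cv sz)
open Crest.Agent.R165.FrFinx887 (toF cur A_toF)
open Crest.Agent.R165.PathIntx641 (mc)

/-! ### resolvent convergence -/

/-- resolvent convergence for the backgrounds `wX (w a) X` -/
def RC (D : Set ℂ) {n : ℕ} (x : Fin n → ℂ) (w : ℝ → BW ℤ) : Prop :=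
  ∀ K : Set ℂ, IsCompact K → K ⊆ Om D x → ∀ G : ℂ → Fin 4 → ℝ,
    (∀ h, MemLp (fun z => G z h) 2 volume) → (∀ z, z ∉ K → ∀ h, G z h = 0) →
    ∃ F : ℂ → ℂ,
      (∃ gg : ℂ → ℂ, ContinuousOn gg (Om D x \ K) ∧ ∀ z ∈ Om D x \ K, F z * rX x z = gg z) ∧
      ∀ (a : ℕ → ℝ) (X : ℕ → Fin n → ℤ × ℤ), (∀ k, 0 < a k) → Tendsto a atTop (𝓝 0) →
        (∀ i, Tendsto (fun k => meshPoint (a k) (X k i)) atTop (𝓝 (x i))) →
        ∀ g φ : ℕ → Tr1x40.Fld,
        (∀ᶠ k in atTop, ∀ f h, g k f h ≠ 0 → meshPoint (a k) f ∈ K) →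
        (∀ h, Tendsto (fun k => ∫⁻ z, ENNReal.ofReal
          ((emb (a k) (fun f => g k f h) z - G z h) ^ 2)) atTop (𝓝 0)) →
        (∀ᶠ k in atTop, Tendsto (fun b : Face × Fin 4 => φ k b.1 b.2) cofinite (𝓝 0)) →
        (∀ᶠ k in atTop, ∀ f h, Tr1x40.A (toF (wX (w (a k)) (X k))) (φ k) f h = a k * g k f h) →
        ∀ z₀ ∈ Om D x, ∃ ρ > 0, ∀ h, Tendsto (fun k => ∫⁻ z in ball z₀ ρ, ENNReal.ofReal
          ((emb (a k) (fun f => φ k f h) z - lv (F z) h) ^ 2)) atTop (𝓝 0)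

theorem rc_of {D : Set ℂ} {n : ℕ} {x : Fin n → ℂ} {w : ℝ → BW ℤ}
    {CC : (ℕ → ℝ) → (ℕ → Tr1x40.Fld) → (ℕ → Fin n → Face) → Prop} {Q : Set ℂ → (ℂ → ℂ) → Prop}
    (h : ResConv (Om D x) x CC Q)
    (hCC : ∀ (a : ℕ → ℝ) (X : ℕ → Fin n → ℤ × ℤ), (∀ k, 0 < a k) → Tendsto a atTop (𝓝 0) →
      (∀ i, Tendsto (fun k => meshPoint (a k) (X k i)) atTop (𝓝 (x i))) →
      ∃ N, ∀ M ≥ N, CC (fun k => a (k + M)) (fun k => toF (wX (w (a (k + M))) (X (k + M))))
        (fun k => X (k + M))) : RC D x w := by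
  intro K hK hKO G hG hG0
  obtain ⟨F, -, h2, h3⟩ := h K hK hKO G hG hG0
  refine ⟨F, h2, fun a X hpos hlim htip g φ hg hconv hφ heq z₀ hz₀ => ?_⟩
  obtain ⟨N, hN⟩ := hCC a X hpos hlim htip
  obtain ⟨N', hN'⟩ := eventually_atTop.1 hφ
  set M := max N N' with hM
  have htop : Tendsto (fun k => k + M) atTop atTop := tendsto_add_atTop_nat M
  obtain ⟨ρ, hρ, hr⟩ := h3 _ _ _ (hN M (le_max_left _ _)) (fun k => g (k + M)) (fun k => φ (k + M))
    (htop.eventually hg) (fun i => (hconv i).comp htop)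
    (fun k => hN' _ ((le_max_right _ _).trans (Nat.le_add_left _ _))) (htop.eventually heq) z₀ hz₀
  exact ⟨ρ, hρ, fun i => (tendsto_add_atTop_iff_nat M).1 (hr i)⟩

/-! ### regularity of the limit -/

theorem measurable_rX {n : ℕ} (x : Fin n → ℂ) : Measurable (rX x) := by
  unfold rX
  exact Finset.measurable_fun_prod _ fun j _ => (measurable_const.sub measurable_id).pow_const _

theorem norm_rX {n : ℕ} (x : Fin n → ℂ) (z : ℂ) :
    ‖rX x z‖ = ∏ j, ‖x j - z‖ ^ (1 / 2 : ℝ) := by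
  unfold rX
  rw [norm_prod]
  refine Finset.prod_congr rfl fun j _ => ?_
  rw [show (1 / 2 : ℂ) = ((1 / 2 : ℝ) : ℂ) by push_cast; ring, Complex.norm_cpow_real]

theorem nice {D : Set ℂ} {n : ℕ} {x : Fin n → ℂ} {K : Set ℂ} {F gg : ℂ → ℂ}
    (hgg : ContinuousOn gg (Om D x \ K)) (hF : ∀ z ∈ Om D x \ K, F z * rX x z = gg z) (d : Fin 4)
    (K' : Set ℂ) (hK' : IsCompact K') (hK'O : K' ⊆ Om D x \ K) :
    AEStronglyMeasurable (fun z => lv (F z) d) (volume.restrict K') ∧
      ∃ B : ℝ, ∀ z ∈ K', |lv (F z) d| ≤ B := by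
  have hne : ∀ z ∈ K', ∀ i, x i ≠ z := fun z hz i h => (hK'O hz).1.2 ⟨i, h⟩
  have e : ∀ z ∈ K', F z = gg z * (rX x z)⁻¹ := by
    intro z hz
    rw [← hF z (hK'O hz), mul_assoc, mul_inv_cancel₀ (rX_ne (hne z hz)), mul_one]
  constructor
  · have h1 : AEStronglyMeasurable (fun z => gg z * (rX x z)⁻¹) (volume.restrict K') :=
      ((hgg.mono hK'O).aestronglyMeasurable_of_isCompact hK' hK'.measurableSet).mul
        (measurable_rX x).inv.aestronglyMeasurable
    have h2 : AEStronglyMeasurable F (volume.restrict K') := by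
      refine h1.congr ?_
      rw [Filter.EventuallyEq, ae_restrict_iff' hK'.measurableSet]
      exact Eventually.of_forall fun z hz => (e z hz).symm
    exact (Mac1x622.lv_continuous d).comp_aestronglyMeasurable h2
  · rcases K'.eq_empty_or_nonempty with hem | hnem
    · exact ⟨0, fun z hz => by rw [hem] at hz; exact absurd hz (notMem_empty z)⟩
    obtain ⟨M, hM⟩ := hK'.exists_bound_of_continuousOn (hgg.mono hK'O)
    have hc : Continuous fun z : ℂ => ∏ j, ‖x j - z‖ ^ (1 / 2 : ℝ) := by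
      refine continuous_finsetProd _ fun j _ => ?_
      exact ((continuous_const.sub continuous_id).norm).rpow_const fun _ => Or.inr (by norm_num)
    obtain ⟨z₁, hz₁, hmin⟩ := hK'.exists_isMinOn hnem hc.continuousOn
    set m := ∏ j, ‖x j - z₁‖ ^ (1 / 2 : ℝ) with hm
    have hm0 : 0 < m := Finset.prod_pos fun j _ =>
      Real.rpow_pos_of_pos (norm_pos_iff.2 (sub_ne_zero.2 (hne z₁ hz₁ j))) _
    refine ⟨|M| / m, fun z hz => (Mac3x622.abs_lv_le _ _).trans ?_⟩
    rw [e z hz, norm_mul, norm_inv, norm_rX, ← div_eq_mul_inv]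
    exact div_le_div₀ (abs_nonneg _) ((hM z hz).trans (le_abs_self M)) hm0 (hmin hz)

/-! ### branch fields -/

/-- branch field of order `p` with continuum amplitude `c` -/
structure SrcD (Ψ : HE ℤ → ℝ) (p : ℝ) (c : ℂ → ℂ) : Prop where
  near : ∀ g : HE ℤ, Aop wB Ψ g ≠ 0 → |g.1.1| ≤ 2 ∧ |g.1.2| ≤ 2
  hp : 0 ≤ p
  bd : ∃ C : ℝ, 0 ≤ C ∧ ∀ (x y : ℤ) (d : Fin 4), |Ψ ((x, y), d)| ≤ C / sz x y ^ p
  lim : ∀ (a : ℕ → ℝ) (z : ℂ), Gen2 z.re z.im → ∀ (X Y : ℕ → ℤ) (d : Fin 4),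
    Cv atTop a X Y z.re z.im →
    Tendsto (fun k => a k ^ (-p) * Ψ ((X k, Y k), d)) atTop (𝓝 (lv (c z) d))
  meas : Measurable c
  bdd : ∀ r : ℝ, 0 < r → ∃ B : ℝ, 0 ≤ B ∧ ∀ z : ℂ, r ≤ ‖z‖ → ‖c z‖ ≤ B

/-- continuum density of a commutator -/
def dens (χ : ℂ → ℝ) (c : ℂ → ℂ) (z : ℂ) (d : Fin 4) : ℝ :=
  fderiv ℝ χ z (ed d) * (sgd d * (Latx683.xc * lv (c z) (opd d)))

theorem zt_bd {r : ℝ} (hr : 0 < r) {z : ℂ} (hz : r ≤ ‖z‖) : ‖Br5x644.zt z‖ ≤ r ^ (-(1/2) : ℝ) := by
  rw [norm_zt]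
  exact Real.rpow_le_rpow_of_nonpos hr hz (by norm_num)

theorem bddS (k : ℂ) (r : ℝ) (hr : 0 < r) :
    ∃ B : ℝ, 0 ≤ B ∧ ∀ z : ℂ, r ≤ ‖z‖ → ‖k * Br5x644.zt z‖ ≤ B := by
  refine ⟨‖k‖ * r ^ (-(1/2) : ℝ), by positivity, fun z hz => ?_⟩
  rw [norm_mul]
  exact mul_le_mul_of_nonneg_left (zt_bd hr hz) (norm_nonneg _)

theorem bddN (k : ℂ) (r : ℝ) (hr : 0 < r) :
    ∃ B : ℝ, 0 ≤ B ∧ ∀ z : ℂ, r ≤ ‖z‖ → ‖k * (Br5x644.zt z / z)‖ ≤ B := by
  refine ⟨‖k‖ * (r ^ (-(1/2) : ℝ) / r), by positivity, fun z hz => ?_⟩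
  rw [norm_mul, norm_div]
  exact mul_le_mul_of_nonneg_left (div_le_div₀ (by positivity) (zt_bd hr hz) hr hz) (norm_nonneg _)

theorem srcD_S : SrcD PsiS (1 / 2) fun z => -(Br5x644.kp : ℂ) * Br5x644.zt z where
  near := near_S
  hp := by norm_num
  bd := Br5x644.PsiS_bound
  lim a z hg X Y d h := Br5x644.lim_PsiS BrAx375.brA h hg.1 d
  meas := measurable_const.mul measurable_zt
  bdd := bddS _

theorem srcD_N : SrcD PsiN (3 / 2)
    fun z => (Br5x644.kp : ℂ) * ((1 - Complex.I) / 2) * (Br5x644.zt z / z) where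
  near := near_N
  hp := by norm_num
  bd := Br5x644.PsiN_bound
  lim a z hg X Y d h := Br5x644.lim_PsiN BrAx375.brA h hg.1 d
  meas := measurable_const.mul (measurable_zt.div measurable_id)
  bdd := bddN _

theorem srcD_S2 : SrcD PsiS2 (1 / 2) fun z => -(Br5x644.kp : ℂ) * Br5x644.zt z where
  near := near_S2
  hp := by norm_num
  bd := Br5x644.PsiS2_bound
  lim a z hg X Y d h := Br5x644.lim_PsiS2 BrAx375.brA h hg d
  meas := measurable_const.mul measurable_zt
  bdd := bddS _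

theorem srcD_N2 : SrcD PsiN2 (3 / 2)
    fun z => (Br5x644.kp : ℂ) * ((1 + Complex.I) / 2) * (Br5x644.zt z / z) where
  near := near_N2
  hp := by norm_num
  bd := Br5x644.PsiN2_bound
  lim a z hg X Y d h := Br5x644.lim_PsiN2 BrAx375.brA h hg d
  meas := measurable_const.mul (measurable_zt.div measurable_id)
  bdd := bddN _

theorem lv_zero (d : Fin 4) : lv 0 d = 0 := by fin_cases d <;> simp [lv]

theorem srcD_D : SrcD (PsiS2 - PsiS) (1 / 2) fun _ => 0 where
  near := near_D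
  hp := by norm_num
  bd := by
    obtain ⟨C, hC, h⟩ := Br5x644.PsiS_bound
    obtain ⟨C', hC', h'⟩ := Br5x644.PsiS2_bound
    refine ⟨C' + C, by positivity, fun x y d => ?_⟩
    rw [Pi.sub_apply, add_div]
    exact (abs_sub _ _).trans (add_le_add (h' x y d) (h x y d))
  lim a z hg X Y d h := by
    have h1 := Br5x644.lim_PsiS2 BrAx375.brA h hg d
    have h2 := Br5x644.lim_PsiS BrAx375.brA h hg.1 d
    have h3 := h1.sub h2
    rw [sub_self] at h3
    rw [lv_zero]
    refine h3.congr fun k => ?_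
    rw [Pi.sub_apply]; ring
  meas := measurable_const
  bdd r _ := ⟨0, le_rfl, fun z _ => by simp⟩

theorem SrcD.comm_lim {Ψ : HE ℤ → ℝ} {p : ℝ} {c : ℂ → ℂ} (HQ : SrcD Ψ p c) {χ : ℂ → ℝ} {r0 R0 : ℝ}
    (H : Cut χ r0 R0) {a : ℕ → ℝ} (ha : Tendsto a atTop (𝓝[>] 0)) {f : ℕ → ℤ × ℤ} {z : ℂ}
    (hf : Tendsto (fun k => meshPoint (a k) (f k)) atTop (𝓝 z)) (hg : Gen2 z.re z.im) (d : Fin 4) :
    Tendsto (fun k => a k ^ (-(p + 1)) * comm wB (fun f => χ (meshPoint (a k) f)) Ψ (f k, d)) atTop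
      (𝓝 (dens χ c z d)) :=
  PsiLx375.comm_lim H ha hf hg.1 (fun X Y d h => HQ.lim a z hg X Y d h) d

theorem measurable_dens {χ : ℂ → ℝ} {r0 R0 : ℝ} (H : Cut χ r0 R0) {c : ℂ → ℂ} (hc : Measurable c)
    (d : Fin 4) : Measurable fun z => dens χ c z d := by
  unfold dens
  exact (H.cont_fderiv _).measurable.mul (((measurable_lv hc _).const_mul _).const_mul _)

/-! ### the limit of the column of a commutator -/

section gl

variable {D : Set ℂ} {n : ℕ} {x : Fin n → ℂ} {w : ℝ → BW ℤ} {x₀ : ℂ} {δ : ℝ}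

/-- lattice support of a commutator centred at `X` -/
theorem supp_ann {Ψ : HE ℤ → ℝ} {χ : ℂ → ℝ} {r0 R0 : ℝ} (H : Cut χ r0 R0) (hrR : r0 ≤ R0) {b : ℝ}
    (hb : 0 < b) {X : ℤ × ℤ} (h1 : b < r0 / 4) (h2 : ‖meshPoint b X - x₀‖ < r0 / 4) (h : HE ℤ)
    (hh : comm wB (fun f => χ (meshPoint b f)) Ψ (h.1 - X, h.2) ≠ 0) :
    meshPoint b h.1 ∈ ann x₀ (r0 / 2) (2 * R0) := by
  obtain ⟨h3, h4⟩ := comm_supp H wB Ψ hb _ hh
  have hr := H.pos
  simp only [LogDx813.mesh_sub] at h3 h4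
  have e : meshPoint b h.1 - x₀ =
    (meshPoint b h.1 - meshPoint b X) + (meshPoint b X - x₀) := by ring
  have n1 := norm_add_le (meshPoint b h.1 - meshPoint b X) (meshPoint b X - x₀)
  have n2 := norm_sub_le_norm_add (meshPoint b h.1 - meshPoint b X) (meshPoint b X - x₀)
  rw [← e] at n1 n2
  constructor
  · linarith
  · linarith

theorem ann_compact (x₀ : ℂ) (r R : ℝ) : IsCompact (ann x₀ r R) :=
  Metric.isCompact_of_isClosed_isBounded (ann_closed x₀ r R) (ann_bdd x₀ r R)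

theorem ann_sub (hball : ∀ z, z ≠ x₀ → ‖z - x₀‖ < δ → z ∈ Om D x) {r R : ℝ} (hr : 0 < r)
    (hR : R < δ) : ann x₀ r R ⊆ Om D x := by
  intro z hz
  refine hball z ?_ (hz.2.trans_lt hR)
  rintro rfl
  have := hz.1
  rw [sub_self, norm_zero] at this
  linarith

theorem col_zero {W : BW ℤ} {S : HE ℤ → HE ℤ → ℝ} (hS : IsCov W S) (v : Fld ℤ) :
    Tendsto (fun b : Face × Fin 4 => col S v b) cofinite (𝓝 0) := by
  have h : Tendsto (fun b : HE ℤ => ∑ h' ∈ v.support, v h' * S b h') cofinite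
      (𝓝 (∑ h' ∈ v.support, v h' * 0)) :=
    tendsto_finsetSum _ fun h' _ => (hS.zero h').const_mul _
  simp only [mul_zero, Finset.sum_const_zero] at h
  exact h

/-- **the limit of the column of a commutator** -/
theorem gl (hRC : RC D x w) (hball : ∀ z, z ≠ x₀ → ‖z - x₀‖ < δ → z ∈ Om D x) {Ψ : HE ℤ → ℝ}
    {p : ℝ} {c : ℂ → ℂ} (HQ : SrcD Ψ p c) {χ : ℂ → ℝ} {r0 R0 : ℝ} (H : Cut χ r0 R0) (hrR : r0 ≤ R0)
    (hR : 2 * R0 < δ) {s : ℂ → ℝ} (hsm : Measurable s) (hs1 : ∀ z, |s z| ≤ 1) :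
    ∃ F : ℂ → ℂ, (∃ gg : ℂ → ℂ, ContinuousOn gg (Om D x \ ann x₀ (r0 / 2) (2 * R0)) ∧
        ∀ z ∈ Om D x \ ann x₀ (r0 / 2) (2 * R0), F z * rX x z = gg z) ∧
      ∀ (a : ℕ → ℝ) (X : ℕ → Fin n → ℤ × ℤ), (∀ k, 0 < a k) → Tendsto a atTop (𝓝 0) →
        (∀ i, Tendsto (fun k => meshPoint (a k) (X k i)) atTop (𝓝 (x i))) →
        ∀ (i : Fin n) (σ : ℕ → ℤ × ℤ → ℝ) (S : ℕ → HE ℤ → HE ℤ → ℝ),
        Dat atTop a (fun k => wX (w (a k)) (X k)) (fun k => X k i) σ S x₀ δ →
        (∀ᵐ z : ℂ, Tendsto (fun k => σ k (meshIndex (a k) z)) atTop (𝓝 (s z))) →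
        ∀ Q : ℕ → Fld ℤ, (∀ᶠ k in atTop, ∀ h, Q k h =
          σ k h.1 * comm wB (fun f => χ (meshPoint (a k) f)) Ψ (h.1 - X k i, h.2)) →
        ∀ z₀ ∈ Om D x, ∃ ρ > 0, ∀ d : Fin 4, Tendsto (fun k => ∫⁻ z in ball z₀ ρ, ENNReal.ofReal
          ((emb (a k) (fun f => a k ^ (-p) * col (S k) (Q k) (f, d)) z - lv (F z) d) ^ 2))
          atTop (𝓝 0) := by
  classical
  have hr := H.pos
  have hR0 : 0 < R0 := lt_of_lt_of_le hr hrR
  obtain ⟨B, hB0, hB⟩ := HQ.bdd r0 hr
  obtain ⟨M, hM0, hM⟩ := dens_bdd H hB0 hB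
  obtain ⟨C, hC0, hCb⟩ := HQ.bd
  obtain ⟨K, hK0, hK⟩ := comm_bound H HQ.hp hC0 hCb
  set G : ℂ → Fin 4 → ℝ := fun z d => -(s z * dens χ c (z - x₀) d) with hG
  have hGm : ∀ d, Measurable fun z => G z d := fun d =>
    (hsm.mul ((measurable_dens H HQ.meas d).comp (measurable_id.sub_const x₀))).neg
  have hGb : ∀ d z, |G z d| ≤ M := by
    intro d z
    rw [hG]
    simp only [abs_neg, abs_mul]
    calc |s z| * |dens χ c (z - x₀) d| ≤ 1 * M :=
          mul_le_mul (hs1 z) (hM _ _) (abs_nonneg _) zero_le_one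
      _ = M := one_mul _
  have hGz : ∀ z, z ∉ ann x₀ (r0 / 2) (2 * R0) → ∀ d, G z d = 0 := by
    intro z hz d
    have h0 : fderiv ℝ χ (z - x₀) = 0 := by
      by_cases h1 : ‖z - x₀‖ < r0
      · exact H.fderiv_zero_in h1
      · refine H.fderiv_zero_out ?_
        by_contra h2
        refine hz ⟨by linarith [not_lt.1 h1], by linarith [not_lt.1 h2]⟩
    simp only [hG, dens, h0]
    simp
  have hBm : MeasurableSet (closedBall x₀ (3 * R0)) := isClosed_closedBall.measurableSet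
  have hBv : volume (closedBall x₀ (3 * R0)) ≠ ⊤ := measure_closedBall_lt_top.ne
  have hGz' : ∀ z, z ∉ closedBall x₀ (3 * R0) → ∀ d, G z d = 0 := by
    intro z hz d
    refine hGz z (fun h => hz ?_) d
    rw [mem_closedBall, dist_eq_norm]
    linarith [h.2]
  have hmem : ∀ d, MemLp (fun z => G z d) 2 volume := by
    intro d
    have e : (fun z => G z d) = (closedBall x₀ (3 * R0)).indicator fun z => G z d := by
      funext z
      by_cases hz : z ∈ closedBall x₀ (3 * R0)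
      · rw [indicator_of_mem hz]
      · rw [indicator_of_notMem hz, hGz' z hz d]
    rw [e, memLp_indicator_iff_restrict hBm]
    have : IsFiniteMeasure (volume.restrict (closedBall x₀ (3 * R0))) :=
      ⟨by rw [Measure.restrict_apply_univ]; exact hBv.lt_top⟩
    exact MemLp.of_bound (hGm d).aestronglyMeasurable M (Eventually.of_forall fun z => hGb d z)
  obtain ⟨F, hF1, hF2⟩ := hRC (ann x₀ (r0 / 2) (2 * R0)) (ann_compact _ _ _)
    (ann_sub hball (by positivity) hR) G hmem hGz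
  refine ⟨F, hF1, fun a X hpos hlim htip i σ S hDat hσ Q hQ => ?_⟩
  have hat : Tendsto a atTop (𝓝[>] 0) := hDat.ha
  have hsq : ∀ k f, |σ k f| = 1 := by
    intro k f
    have := hDat.sq k f
    rw [← abs_mul_abs_self] at this
    nlinarith [abs_nonneg (σ k f)]
  refine hF2 a X hpos hlim htip (fun k f h => -(a k ^ (-(p + 1)) * Q k (f, h)))
    (fun k f h => a k ^ (-p) * col (S k) (Q k) (f, h)) ?_ ?_ ?_ ?_
  · filter_upwards [hQ, hDat.small (show 0 < r0 / 4 by positivity),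
      hDat.smallX (show 0 < r0 / 4 by positivity)] with k h1 h2 h3 f h hh
    refine supp_ann (Ψ := Ψ) H hrR (hpos k) h2 h3 (f, h) ?_
    intro h0
    refine hh ?_
    rw [h1, h0, mul_zero, mul_zero, neg_zero]
  · intro d
    refine Mac3x622.l2_of_dom hBm hBv (C := max K M) ?_ (fun u hu => hGz' u hu d) ?_
      (fun u => (hGb d u).trans (le_max_right _ _)) (hGm d) ?_
    · filter_upwards [hQ, hDat.small (show 0 < r0 / 4 by positivity),
        hDat.smallX (show 0 < r0 / 4 by positivity)] with k h1 h2 h3 u hu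
      show -(a k ^ (-(p + 1)) * Q k (meshIndex (a k) u, d)) = 0
      by_contra hne
      refine hu ?_
      have h4 : meshPoint (a k) (meshIndex (a k) u) ∈ ann x₀ (r0 / 2) (2 * R0) := by
        refine supp_ann (Ψ := Ψ) H hrR (hpos k) h2 h3 (meshIndex (a k) u, d) ?_
        intro h0
        refine hne ?_
        rw [h1, h0, mul_zero, mul_zero, neg_zero]
      have h5 := Pairx599.norm_mesh_sub (hpos k) u
      have h6 : ‖u - x₀‖ ≤ ‖meshPoint (a k) (meshIndex (a k) u) - u‖ +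
          ‖meshPoint (a k) (meshIndex (a k) u) - x₀‖ := by
        have : u - x₀ = -(meshPoint (a k) (meshIndex (a k) u) - u) +
          (meshPoint (a k) (meshIndex (a k) u) - x₀) := by ring
        rw [this]
        exact (norm_add_le _ _).trans (by rw [norm_neg])
      rw [mem_closedBall, dist_eq_norm]
      linarith [h4.2]
    · filter_upwards [hQ, hDat.small (show 0 < r0 / 4 by positivity)] with k h1 h2 f
      rw [abs_neg, abs_mul, h1, abs_mul, hsq, one_mul,
        abs_of_pos (Real.rpow_pos_of_pos (hpos k) _)]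
      have h3 := hK (a k) (hpos k) (by linarith) (f - X k i, d)
      refine le_trans ?_ (le_max_left K M)
      calc a k ^ (-(p + 1)) * |comm wB (fun f => χ (meshPoint (a k) f)) Ψ (f - X k i, d)|
          ≤ a k ^ (-(p + 1)) * (K * a k ^ (p + 1)) :=
            mul_le_mul_of_nonneg_left h3 (Real.rpow_pos_of_pos (hpos k) _).le
        _ = K := by
            rw [mul_left_comm, ← Real.rpow_add (hpos k), neg_add_cancel, Real.rpow_zero, mul_one]
    · have hm : ∀ᵐ z : ℂ, Gen2 (z - x₀).re (z - x₀).im := ae_gen2_sub x₀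
      filter_upwards [hm, hσ] with z h1 h2
      have h3 : Tendsto (fun k => meshPoint (a k) (meshIndex (a k) z - X k i)) atTop
          (𝓝 (z - x₀)) := by
        simp only [LogDx813.mesh_sub]
        exact (Pairx599.tendsto_meshPoint hat z).sub hDat.hX
      have h4 := (h2.mul (HQ.comm_lim H hat h3 h1 d)).neg
      refine h4.congr' ?_
      filter_upwards [hQ] with k hk
      show -(σ k (meshIndex (a k) z) * _) = -(a k ^ (-(p + 1)) * Q k (meshIndex (a k) z, d))
      rw [hk]; ring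
  · filter_upwards [hDat.cov] with k hk
    have := (col_zero hk (Q k)).const_mul (a k ^ (-p))
    rw [mul_zero] at this
    exact this
  · filter_upwards [hDat.cov] with k hk f h
    have h1 := A_toF (wX (w (a k)) (X k)) ((a k ^ (-p)) • col (S k) (Q k)) f h
    have h2 : cur ((a k ^ (-p)) • col (S k) (Q k)) =
        fun f h => a k ^ (-p) * col (S k) (Q k) (f, h) := by
      funext f h
      simp [cur]
    rw [h2] at h1
    rw [h1, map_smul, Aop_col hk, Pi.smul_apply, smul_eq_mul]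
    have h3 : a k ^ (-p) = a k * a k ^ (-(p + 1)) := by
      have : a k * a k ^ (-(p + 1)) = a k ^ (1 : ℝ) * a k ^ (-(p + 1)) := by rw [Real.rpow_one]
      rw [this, ← Real.rpow_add (hpos k)]
      congr 1; ring
    rw [h3]; ring

/-- **the limit of the pairing of two commutators**, the second one with the limit `F` of `gl` -/
theorem gl_pair {Ψ : HE ℤ → ℝ} {p : ℝ} {c : ℂ → ℂ} (HP : SrcD Ψ p c) {χ : ℂ → ℝ} {r0 R0 : ℝ}
    (H : Cut χ r0 R0) (hrR : r0 ≤ R0) (hD : IsOpen D)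
    {KQ : Set ℂ} (hKQ : IsClosed KQ) (hsub : ann x₀ (r0 / 2) (2 * R0) ⊆ Om D x \ KQ)
    {F gg : ℂ → ℂ} (hgg : ContinuousOn gg (Om D x \ KQ))
    (hF : ∀ z ∈ Om D x \ KQ, F z * rX x z = gg z) {s : ℂ → ℝ}
    {a : ℕ → ℝ} {X : ℕ → Fin n → ℤ × ℤ} (hpos : ∀ k, 0 < a k) (hlim : Tendsto a atTop (𝓝 0))
    {i : Fin n} {σ : ℕ → ℤ × ℤ → ℝ} {S : ℕ → HE ℤ → HE ℤ → ℝ}
    (hDat : Dat atTop a (fun k => wX (w (a k)) (X k)) (fun k => X k i) σ S x₀ δ)
    (hσ : ∀ᵐ z : ℂ, Tendsto (fun k => σ k (meshIndex (a k) z)) atTop (𝓝 (s z)))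
    {P Q : ℕ → Fld ℤ} (hP : ∀ᶠ k in atTop, ∀ h, P k h =
      σ k h.1 * comm wB (fun f => χ (meshPoint (a k) f)) Ψ (h.1 - X k i, h.2))
    {q : ℝ} (hloc : ∀ z₀ ∈ Om D x, ∃ ρ > 0, ∀ d : Fin 4, Tendsto (fun k => ∫⁻ z in ball z₀ ρ,
      ENNReal.ofReal ((emb (a k) (fun f => a k ^ (-q) * col (S k) (Q k) (f, d)) z
        - lv (F z) d) ^ 2)) atTop (𝓝 0)) :
    Tendsto (fun k => a k ^ (1 - p - q) * formS (S k) (P k) (Q k)) atTop
      (𝓝 (∑ d, ∫ z, (s z * dens χ c (z - x₀) d) * lv (F z) d)) := by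
  classical
  have hr := H.pos
  obtain ⟨C, hC0, hCb⟩ := HP.bd
  obtain ⟨K, hK0, hK⟩ := comm_bound H HP.hp hC0 hCb
  have hOm : IsOpen (Om D x \ KQ) := (hD.sdiff (finite_range x).isClosed).sdiff hKQ
  have hat : Tendsto a atTop (𝓝[>] 0) := hDat.ha
  have hsq : ∀ k f, |σ k f| = 1 := by
    intro k f
    have := hDat.sq k f
    rw [← abs_mul_abs_self] at this
    nlinarith [abs_nonneg (σ k f)]
  have key : ∀ d : Fin 4, Tendsto (fun k => a k ^ 2 * ∑' u : ℤ × ℤ,
      (a k ^ (-(p + 1)) * P k (u, d)) * (a k ^ (-q) * col (S k) (Q k) (u, d))) atTop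
      (𝓝 (∫ z, (s z * dens χ c (z - x₀) d) * lv (F z) d)) := by
    intro d
    refine pair_lim hOm (ann_compact x₀ (r0 / 2) (2 * R0)) hsub hpos hlim
      (p := fun k u => a k ^ (-(p + 1)) * P k (u, d))
      (φ := fun k u => a k ^ (-q) * col (S k) (Q k) (u, d)) (f := fun z => lv (F z) d)
      (g := fun z => s z * dens χ c (z - x₀) d) (C := K) ?_ ?_ ?_ ?_ ?_
    · intro z₀ hz₀
      obtain ⟨ρ, hρ, h⟩ := hloc z₀ hz₀.1
      exact ⟨ρ, hρ, h d⟩
    · exact fun K' hK' hK'O => nice hgg hF d K' hK' hK'O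
    · filter_upwards [hP, hDat.small (show 0 < r0 / 4 by positivity),
        hDat.smallX (show 0 < r0 / 4 by positivity)] with k h1 h2 h3 u hu
      refine supp_ann (Ψ := Ψ) H hrR (hpos k) h2 h3 (u, d) ?_
      intro h0
      refine hu ?_
      rw [h1, h0, mul_zero, mul_zero]
    · filter_upwards [hP, hDat.small (show 0 < r0 / 4 by positivity)] with k h1 h2 u
      rw [abs_mul, h1, abs_mul, hsq, one_mul, abs_of_pos (Real.rpow_pos_of_pos (hpos k) _)]
      have h3 := hK (a k) (hpos k) (by linarith) (u - X k i, d)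
      calc a k ^ (-(p + 1)) * |comm wB (fun f => χ (meshPoint (a k) f)) Ψ (u - X k i, d)|
          ≤ a k ^ (-(p + 1)) * (K * a k ^ (p + 1)) :=
            mul_le_mul_of_nonneg_left h3 (Real.rpow_pos_of_pos (hpos k) _).le
        _ = K := by
            rw [mul_left_comm, ← Real.rpow_add (hpos k), neg_add_cancel, Real.rpow_zero, mul_one]
    · have hm : ∀ᵐ z : ℂ, Gen2 (z - x₀).re (z - x₀).im := ae_gen2_sub x₀
      filter_upwards [hm, hσ] with z h1 h2
      have h3 : Tendsto (fun k => meshPoint (a k) (meshIndex (a k) z - X k i)) atTop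
          (𝓝 (z - x₀)) := by
        simp only [LogDx813.mesh_sub]
        exact (Pairx599.tendsto_meshPoint hat z).sub hDat.hX
      have h4 := h2.mul (HP.comm_lim H hat h3 h1 d)
      refine h4.congr' ?_
      filter_upwards [hP] with k hk
      rw [hk]; ring
  refine (tendsto_finsetSum (Finset.univ : Finset (Fin 4)) fun d _ => key d).congr' ?_
  refine Eventually.of_forall fun k => ?_
  simp only
  rw [formS_eq, pr_eq_sum (P k) (col (S k) (Q k)) _ (Finset.Subset.refl _),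
    Pairx599.sum_he (F := fun h => P k h * col (S k) (Q k) h) (A := (P k).support)
      (fun h hh => by rw [Finsupp.notMem_support_iff.1 hh, zero_mul]), Finset.mul_sum]
  refine Finset.sum_congr rfl fun d _ => ?_
  have e : ∀ u : ℤ × ℤ, (a k ^ (-(p + 1)) * P k (u, d)) * (a k ^ (-q) * col (S k) (Q k) (u, d)) =
      a k ^ (-(p + 1) - q) * (P k (u, d) * col (S k) (Q k) (u, d)) := by
    intro u
    rw [sub_eq_add_neg (-(p + 1)), Real.rpow_add (hpos k)]; ring
  simp only [e]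
  rw [tsum_mul_left, ← mul_assoc, ← Real.rpow_natCast, ← Real.rpow_add (hpos k)]
  congr 2
  push_cast; ring

end gl

end Crest.Agent.R165.LdGenx817
end
end

-- ▼ part R165/LdGen2_817
section

/-!
# Row 165 (S0250), block U (helper817): logarithmic derivatives from resolvent convergence, II

* `exists_cut`, `two_cut` : two-variable Green identity with disjoint cut-offs
* `step_lim` : `a^(1-p-q) (formS L_P L_Q - const) → L`
* `diag1'`, `diag2'`, `unit'` : the steps `(1,1)`, `(1,-1)`, `(1,0)`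
-/

set_option autoImplicit false

noncomputable section

open MeasureTheory Filter Topology Set Metric
open Crest.ProbabilityR.IsingModel

namespace Crest.Agent.R165.LdGenx817

open Crest.Agent.R165.Embx622 Crest.Agent.R165.LdPairx817
open Crest.Agent.R165.Tr1x40 (Face)
open Crest.Agent.R165.RIfx891 (lv)
open Crest.Agent.R165.Mac0x622 (Om rX rX_ne)
open Crest.Agent.R165.Latx683 Crest.Agent.R165.Br1x644 Crest.Agent.R165.Gr2x813
open Crest.Agent.R165.Gr3x813 Crest.Agent.R165.PsiLx375 Crest.Agent.R165.LogDx813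
open Crest.Agent.R165.Br5x644 (PsiS2 PsiN2 Gen Gen2 Cv sz PsiN2_lS2)

theorem exists_cut {r0 R0 : ℝ} (h0 : 0 < r0) (h1 : r0 < R0) : ∃ χ : ℂ → ℝ, Cut χ r0 R0 := by
  let f : ContDiffBump (0 : ℂ) := ⟨r0, R0, h0, h1⟩
  refine ⟨f, h0, fun z hz => ?_, fun z hz => ?_, f.contDiff⟩
  · exact f.one_of_mem_closedBall (by rw [mem_closedBall, dist_zero_right]; exact hz.le)
  · exact f.zero_of_le_dist (by rw [dist_zero_right]; exact hz)

section two

variable {a : ℕ → ℝ} {W : ℕ → BW ℤ} {X : ℕ → ℤ × ℤ} {σ : ℕ → ℤ × ℤ → ℝ}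
  {S : ℕ → HE ℤ → HE ℤ → ℝ} {x₀ : ℂ} {δ : ℝ}

/-- **two-variable Green identity with disjoint cut-offs**, `Q` inside, `P` outside -/
theorem two_cut (D : Dat atTop a W X σ S x₀ δ) {χ χ' : ℂ → ℝ} {r0 R0 r1 R1 : ℝ} (H : Cut χ r0 R0)
    (hrR : r0 ≤ R0) (hR : R0 < δ) (H' : Cut χ' r1 R1) (hR1 : R1 < r0 / 2)
    {ΨP ΨQ : HE ℤ → ℝ}
    (hnP : ∀ g : HE ℤ, Aop wB ΨP g ≠ 0 → |g.1.1| ≤ 2 ∧ |g.1.2| ≤ 2)
    (hnQ : ∀ g : HE ℤ, Aop wB ΨQ g ≠ 0 → |g.1.1| ≤ 2 ∧ |g.1.2| ≤ 2)
    {B : Finset (HE ℤ)} (hB : ∀ g, g ∉ B → Aop wB ΨQ g = 0)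
    (hB2 : ∀ g ∈ B, |g.1.1| ≤ 2 ∧ |g.1.2| ≤ 2)
    {LP LQ : ℕ → Fld ℤ} (hLP : ∀ᶠ k in atTop, Src ΨP (X k) (σ k) (LP k))
    (hLQ : ∀ᶠ k in atTop, Src ΨQ (X k) (σ k) (LQ k)) :
    ∃ P Q : ℕ → Fld ℤ,
      (∀ᶠ k in atTop, ∀ h, P k h =
        σ k h.1 * comm wB (fun f => χ (meshPoint (a k) f)) ΨP (h.1 - X k, h.2)) ∧
      (∀ᶠ k in atTop, ∀ h, Q k h =
        σ k h.1 * comm wB (fun f => χ' (meshPoint (a k) f)) ΨQ (h.1 - X k, h.2)) ∧
      ∀ᶠ k in atTop, formS (S k) (LP k) (LQ k) - ∑ g ∈ B, Aop wB ΨQ g * ΨP g =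
        formS (S k) (P k) (Q k) := by
  have hr := H.pos
  have hR1δ : R1 < δ := by linarith
  obtain ⟨P, V, hP, hG, -, hc⟩ := gen_ev D H hR hnP hLP
  obtain ⟨Q, V', hQ, hG', hV', -⟩ := gen_ev D H' hR1δ hnQ hLQ
  refine ⟨P, Q, hP, hQ, ?_⟩
  have hsP := supp_of D H (R := R0 + 1) (by linarith) hP
  filter_upwards [hG, hG', hc, hV', hsP, D.cov, hLQ,
    D.small (show 0 < (r0 / 2 - R1) / 2 by linarith),
    D.smallX (show 0 < (r0 / 2 - R1) / 2 by linarith)] with
    k hG hG' hc hV' hsP hcov hLQ hsmall hsmallX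
  have hdis : pr (V' k) (P k) = 0 := by
    rw [pr_comm]
    rw [pr_eq_sum (P k) _ _ (Finset.Subset.refl _)]
    refine Finset.sum_eq_zero fun h hh => ?_
    rw [Finsupp.mem_support_iff] at hh
    have h5 := (hsP h hh).1
    rw [hV' h]
    have h6 : χ' (meshPoint (a k) (h.1 - X k)) = 0 := by
      refine H'.zero _ ?_
      rw [LogDx813.mesh_sub]
      have e : meshPoint (a k) h.1 - x₀ =
        (meshPoint (a k) h.1 - meshPoint (a k) (X k)) + (meshPoint (a k) (X k) - x₀) := by ring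
      have n1 := norm_add_le (meshPoint (a k) h.1 - meshPoint (a k) (X k))
        (meshPoint (a k) (X k) - x₀)
      rw [← e] at n1
      linarith
    rw [h6]; ring
  have t1 := hG (LQ k)
  have t2 : formS (S k) (P k) (LQ k) = formS (S k) (P k) (Q k) := by
    rw [formS_skew hcov.skew, hG' (P k), hdis, sub_zero, formS_skew hcov.skew, neg_neg]
  have t3 := hc ΨQ _ B hLQ hB hB2
  rw [t1, t2, t3]; ring

end two

section lim

variable {D : Set ℂ} {n : ℕ} {x : Fin n → ℂ} {w : ℝ → BW ℤ} {x₀ : ℂ} {δ : ℝ}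

/-- **limits of the step ratios** -/
theorem step_lim (hD : IsOpen D) (hRC : RC D x w) (hδ : 0 < δ)
    (hball : ∀ z, z ≠ x₀ → ‖z - x₀‖ < δ → z ∈ Om D x)
    {ΨP ΨQ : HE ℤ → ℝ} {p q : ℝ} {cP cQ : ℂ → ℂ} (HP : SrcD ΨP p cP) (HQ : SrcD ΨQ q cQ)
    {B : Finset (HE ℤ)} (hB : ∀ g, g ∉ B → Aop wB ΨQ g = 0)
    (hB2 : ∀ g ∈ B, |g.1.1| ≤ 2 ∧ |g.1.2| ≤ 2)
    {s : ℂ → ℝ} (hsm : Measurable s) (hs1 : ∀ z, |s z| ≤ 1) :
    ∃ L : ℝ, ((∀ z, cP z = 0) → L = 0) ∧
      ∀ (a : ℕ → ℝ) (X : ℕ → Fin n → ℤ × ℤ), (∀ k, 0 < a k) → Tendsto a atTop (𝓝 0) →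
        (∀ i, Tendsto (fun k => meshPoint (a k) (X k i)) atTop (𝓝 (x i))) →
        ∀ (i : Fin n) (σ : ℕ → ℤ × ℤ → ℝ) (S : ℕ → HE ℤ → HE ℤ → ℝ),
        Dat atTop a (fun k => wX (w (a k)) (X k)) (fun k => X k i) σ S x₀ δ →
        (∀ᵐ z : ℂ, Tendsto (fun k => σ k (meshIndex (a k) z)) atTop (𝓝 (s z))) →
        ∀ LP LQ : ℕ → Fld ℤ, (∀ᶠ k in atTop, Src ΨP (X k i) (σ k) (LP k)) →
        (∀ᶠ k in atTop, Src ΨQ (X k i) (σ k) (LQ k)) →
        Tendsto (fun k => a k ^ (1 - p - q) *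
          (formS (S k) (LP k) (LQ k) - ∑ g ∈ B, Aop wB ΨQ g * ΨP g)) atTop (𝓝 L) := by
  -- radii : Q in `δ/64 < r < δ/32`, P in `δ/4 < r < δ/3`
  obtain ⟨χ, H⟩ := exists_cut (r0 := δ / 4) (R0 := δ / 3) (by positivity) (by linarith)
  obtain ⟨χ', H'⟩ := exists_cut (r0 := δ / 64) (R0 := δ / 32) (by positivity) (by linarith)
  obtain ⟨F, ⟨gg, hgg, hF⟩, hloc⟩ := gl hRC hball HQ H' (by linarith) (by linarith) hsm hs1
  refine ⟨∑ d, ∫ z, (s z * dens χ cP (z - x₀) d) * lv (F z) d, fun h0 => ?_, ?_⟩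
  · refine Finset.sum_eq_zero fun d _ => ?_
    have : ∀ z, (s z * dens χ cP (z - x₀) d) * lv (F z) d = 0 := by
      intro z
      unfold dens
      rw [h0, lv_zero]; ring
    simp only [this, integral_zero]
  · intro a X hpos hlim htip i σ S hDat hσ LP LQ hLP hLQ
    obtain ⟨P, Q, hP, hQ, hE⟩ := two_cut hDat H (by linarith) (by linarith) H' (by linarith)
      HP.near HQ.near hB hB2 hLP hLQ
    have hsub : ann x₀ (δ / 4 / 2) (2 * (δ / 3)) ⊆ Om D x \ ann x₀ (δ / 64 / 2) (2 * (δ / 32)) := by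
      intro z hz
      refine ⟨ann_sub hball (by positivity) (by linarith) hz, fun h => ?_⟩
      have h1 := hz.1
      have h2 := h.2
      linarith
    have key := gl_pair HP H (by linarith) hD (ann_closed x₀ (δ / 64 / 2) (2 * (δ / 32))) hsub hgg
      hF hpos hlim hDat hσ hP (hloc a X hpos hlim htip i σ S hDat hσ Q hQ)
    refine key.congr' ?_
    filter_upwards [hE] with k hk
    rw [hk]

end lim

/-! ### the unit step -/

theorem xc_facts : (1 - Latx683.xc ^ 2) ≠ 0 := by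
  have h5 : Latx683.xc ^ 2 + 2 * Latx683.xc - 1 = 0 := by
    unfold Latx683.xc
    have := Real.sq_sqrt (show (0 : ℝ) ≤ 2 by norm_num)
    nlinarith
  have h6 : Latx683.xc < 1 := by
    unfold Latx683.xc
    have : Real.sqrt 2 < 2 := by
      rw [Real.sqrt_lt' (by norm_num)]; norm_num
    linarith
  have h7 : 0 < Latx683.xc := by
    unfold Latx683.xc
    have : 1 < Real.sqrt 2 := by
      rw [Real.lt_sqrt (by norm_num)]; norm_num
    linarith
  nlinarith

/-- the column of `l_S` at the half-edge `(X, S)` -/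
theorem unit_id {W : BW ℤ} {X : ℤ × ℤ} {σ : ℤ × ℤ → ℝ} {S : HE ℤ → HE ℤ → ℝ}
    (hσ : ∀ f, σ f * σ f = 1) (hloc : LocAt W wB X σ X) (hcov : IsCov W S) :
    col S (lS W X) (X, 0) = -(Latx683.xc / (1 - Latx683.xc ^ 2)) *
      formS S (σ (dn X) • lS2 W X - σ X • lS W X) (σ X • lS W X) := by
  have hσX := hσ X
  have hσd := hσ (dn X)
  have hx1 := xc_facts
  set LS := σ X • lS W X with hLS
  set LS2 := σ (dn X) • lS2 W X with hLS2
  set s := col S LS with hs
  have hy := loc_dn hloc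
  have v1 : formS S LS LS = s (X, 0) * σ X + Latx683.xc * (σ (dn X) * s (dn X, 2)) := by
    rw [formS_eq]
    nth_rewrite 1 [hLS]
    rw [pr_smul, pr_lS]
    have h3 : (X.1, X.2 - 1) = dn X := rfl
    rw [h3] at hy ⊢
    linear_combination (σ X * yN W (dn X) * s (dn X, 2)) * hσd
      - (σ X * σ (dn X) * s (dn X, 2)) * hy
      + (Latx683.xc * σ (dn X) * s (dn X, 2)) * hσX
  have v2 : formS S LS2 LS = σ (dn X) * s (dn X, 2) + Latx683.xc * (s (X, 0) * σ X) := by
    rw [formS_eq]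
    nth_rewrite 1 [hLS2]
    unfold lS2
    rw [pr_smul, pr_sub, pr_single, pr_single]
    have h3 : (X.1, X.2 - 1) = dn X := rfl
    rw [h3] at hy ⊢
    linear_combination (-s (X, 0)) * hy
  have v3 : formS S LS LS = 0 := by
    have := formS_skew hcov.skew LS LS
    linarith
  have v4 : formS S (LS2 - LS) LS = σ (dn X) * s (dn X, 2) + Latx683.xc * (s (X, 0) * σ X) := by
    rw [map_sub, LinearMap.sub_apply, v3, sub_zero, v2]
  have v7 : col S (lS W X) (X, 0) = s (X, 0) * σ X := by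
    rw [hs, hLS, col_smul]
    linear_combination (-(col S (lS W X) (X, 0))) * hσX
  rw [v7, v4]
  have v8 := v1.symm.trans v3
  field_simp
  linear_combination v8

end Crest.Agent.R165.LdGenx817
end
end

-- ▼ part R165/LdGen3_817
section

/-!
# Row 165 (S0250), block U (helper817): logarithmic derivatives from resolvent convergence, III

`ldd_of` : `LDD n D Z g` for some `g`, from `RC`, the STEP identities and positivity.
-/

set_option autoImplicit false

noncomputable section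

open MeasureTheory Filter Topology Set Metric
open Crest.ProbabilityR.IsingModel

namespace Crest.Agent.R165.LdGenx817

open Crest.Agent.R165.Mac0x622 (Om)
open Crest.Agent.R165.Latx683 Crest.Agent.R165.Br1x644 Crest.Agent.R165.Gr2x813
open Crest.Agent.R165.Gr3x813 Crest.Agent.R165.PsiLx375 Crest.Agent.R165.LogDx813
open Crest.Agent.R165.Br5x644 (PsiS2 PsiN2 PsiN2_lS2)
open Crest.Agent.R165.PathIntx641 (mc sh)
open Crest.Agent.R165.PathSeqx641 (NF nf_fst nf_mc nf_pos UC qv tendsto_nf_iff UC.of_seq)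
open Crest.Agent.R165.PathGlx641 (LDD)
open Crest.Agent.R165.UKerx420 (kap kap_sq fpt)
open Crest.Agent.R165.ConfTopx641
open Crest.Agent.R165.Evalx644 (lsg ev_kap)

variable {n : ℕ} {D : Set ℂ} {w : ℝ → BW ℤ}

/-- data along a filter, pulled back -/
theorem dat_comp {κ κ' : Type*} {l : Filter κ} {l' : Filter κ'} {a : κ → ℝ} {W : κ → BW ℤ}
    {X : κ → ℤ × ℤ} {σ : κ → ℤ × ℤ → ℝ} {S : κ → HE ℤ → HE ℤ → ℝ} {x₀ : ℂ} {δ : ℝ}
    (H : Dat l a W X σ S x₀ δ) {u : κ' → κ} (hu : Tendsto u l' l) :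
    Dat l' (fun k => a (u k)) (fun k => W (u k)) (fun k => X (u k)) (fun k => σ (u k))
      (fun k => S (u k)) x₀ δ :=
  ⟨H.ha.comp hu, H.hX.comp hu, fun k f => H.sq (u k) f, H.dpos, hu.eventually H.loc,
    hu.eventually H.cov⟩

/-- weights equal to `x_c` inside `D` -/
def Inn (D : Set ℂ) (w : ℝ → BW ℤ) : Prop :=
  ∀ K : Set ℂ, IsCompact K → K ⊆ D →
    ∀ᶠ a in 𝓝[>] (0 : ℝ), ∀ z j, meshPoint a z ∈ K → w a z j = Latx683.xc

/-- the local data along `NF x` -/
theorem dat_nf (hD : IsOpen D) (hw : Inn D w) {x : Fin n → ℂ} (hx : x ∈ Conf n D)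
    {S : ℝ × (Fin n → ℤ × ℤ) → HE ℤ → HE ℤ → ℝ}
    (hS : ∀ᶠ p : ℝ × (Fin n → ℤ × ℤ) in NF x, IsCov (wX (w p.1) p.2) (S p)) (i : Fin n) :
    ∃ δ : ℝ, 0 < δ ∧ (∀ z, z ≠ x i → ‖z - x i‖ < δ → z ∈ Om D x) ∧
      Dat (NF x) (fun p => p.1) (fun p => wX (w p.1) p.2)
        (fun p => p.2 i) (fun p => kap x p.2 (x i)) S (x i) δ := by
  obtain ⟨δ1, hδ1, hgood⟩ := ev_good hx.2 i
  obtain ⟨δ3, hδ3, hball⟩ := Metric.nhds_basis_closedBall.mem_iff.1 (hD.mem_nhds (hx.1 i))
  obtain ⟨δ2, hδ2, hsep⟩ : ∃ δ : ℝ, 0 < δ ∧ ∀ j, j ≠ i → δ ≤ ‖x j - x i‖ := by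
    classical
    have h1 : ∀ j, ∃ δ : ℝ, 0 < δ ∧ (j ≠ i → δ ≤ ‖x j - x i‖) := by
      intro j
      by_cases hj : j = i
      · exact ⟨1, one_pos, fun h => absurd hj h⟩
      · exact ⟨‖x j - x i‖, norm_pos_iff.2 (sub_ne_zero.2 fun h => hj (hx.2 h)), fun _ => le_rfl⟩
    choose δ hδ hδ' using h1
    have hne : (Finset.univ : Finset (Fin n)).Nonempty := ⟨i, Finset.mem_univ i⟩
    exact ⟨Finset.univ.inf' hne δ, (Finset.lt_inf'_iff hne).2 fun j _ => hδ j, fun j hj =>
      (Finset.inf'_le _ (Finset.mem_univ j)).trans (hδ' j hj)⟩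
  have hin := hw (Metric.closedBall (x i) δ3) (isCompact_closedBall _ _) hball
  have hm : 0 < min δ1 (min δ2 (δ3 / 2)) := lt_min hδ1 (lt_min hδ2 (half_pos hδ3))
  refine ⟨min δ1 (min δ2 (δ3 / 2)), hm, fun z hzi hz => ⟨hball ?_, ?_⟩, ?_⟩
  · rw [Metric.mem_closedBall, dist_eq_norm]
    have := (min_le_right δ1 (min δ2 (δ3 / 2))).trans (min_le_right δ2 (δ3 / 2))
    linarith
  · rintro ⟨j, rfl⟩
    have hj : j ≠ i := fun h => hzi (by rw [h])
    have h1 := hsep j hj
    have h2 := (min_le_right δ1 (min δ2 (δ3 / 2))).trans (min_le_left δ2 (δ3 / 2))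
    linarith
  refine ⟨nf_fst x, tendsto_pi_nhds.1 (nf_mc x) i, fun p f => kap_sq x p.2 (x i) f, hm, ?_, hS⟩
  have hin' := (nf_fst x).eventually hin
  have hsm : ∀ᶠ p : ℝ × (Fin n → ℤ × ℤ) in NF x, p.1 < δ3 / 2 :=
    ((nf_fst x).mono_right nhdsWithin_le_nhds).eventually (gt_mem_nhds (half_pos hδ3))
  filter_upwards [hgood, hin', hsm, nf_pos x] with p h1 h2 h3 h4 f hf
  refine locAt_wX ?_ (h1 f (hf.trans_le (min_le_left _ _)))
  have hf3 : ‖meshPoint p.1 f - x i‖ < δ3 / 2 :=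
    hf.trans_le ((min_le_right _ _).trans (min_le_right _ _))
  have key : ∀ g : ℤ × ℤ, ‖meshPoint p.1 g - meshPoint p.1 f‖ ≤ p.1 →
      meshPoint p.1 g ∈ Metric.closedBall (x i) δ3 := by
    intro g hg
    rw [Metric.mem_closedBall, dist_eq_norm]
    have e : meshPoint p.1 g - x i =
      (meshPoint p.1 g - meshPoint p.1 f) + (meshPoint p.1 f - x i) := by ring
    rw [e]
    exact (norm_add_le _ _).trans (by linarith)
  have k0 := key f (by rw [sub_self, norm_zero]; exact h4.le)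
  have k1 := key (f.1 + 1, f.2) (by
    have e : meshPoint p.1 (f.1 + 1, f.2) - meshPoint p.1 f = (p.1 : ℂ) := by
      apply Complex.ext <;> simp [meshPoint]
      ring
    rw [e, Complex.norm_real, Real.norm_eq_abs, abs_of_pos h4])
  have k2 := key (f.1, f.2 + 1) (by
    have e : meshPoint p.1 (f.1, f.2 + 1) - meshPoint p.1 f = (p.1 : ℂ) * Complex.I := by
      apply Complex.ext <;> simp [meshPoint]
      ring
    rw [e, norm_mul, Complex.norm_I, mul_one, Complex.norm_real, Real.norm_eq_abs, abs_of_pos h4])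
  intro d
  fin_cases d
  · have h5 := h2 f 0 k0
    change ew _ f 0 = _
    rw [ew_zero]
    unfold yN
    simp only [sub_add_cancel]
    exact h5
  · exact h2 _ _ k1
  · exact h2 _ _ k2
  · have h5 := h2 f 1 k0
    change ew _ f 3 = _
    rw [ew_three]
    unfold yE
    simp only [sub_add_cancel]
    exact h5

/-- the STEP identities (three steps of one spin) -/
structure Step3 (Z : ℝ → (Fin n → ℤ × ℤ) → ℝ) (W : BW ℤ) (p : ℝ × (Fin n → ℤ × ℤ))
    (S : HE ℤ → HE ℤ → ℝ) : Prop where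
  cov : IsCov W S
  s11 : ∀ i, Z p.1 (sh p.2 i (1, 1)) / Z p.1 p.2 = formS S (lN W (p.2 i)) (lS W (p.2 i))
  s1m : ∀ i, Z p.1 (sh p.2 i (1, -1)) / Z p.1 p.2 = formS S (lS2 W (p.2 i)) (lN2 W (p.2 i))
  s10 : ∀ i, Z p.1 (sh p.2 i (1, 0)) / Z p.1 p.2 =
    1 - 2 * W (p.2 i) 0 * S (hp (p.2 i) 0) (hq (p.2 i) 0)

/-- `l_S` at the half-edge `(X, S)` -/
theorem col_lS_X {W : BW ℤ} {S : HE ℤ → HE ℤ → ℝ} (hS : IsCov W S) (X : ℤ × ℤ) :
    col S (lS W X) (X, 0) = -(W X 0 * S (hp X 0) (hq X 0)) := by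
  unfold col
  rw [pr_lS]
  have h1 := hS.skew (X, 0) (X, 0)
  have h2 : S (X, 0) (X, 0) = 0 := by linarith
  have h3 : yN W (X.1, X.2 - 1) = W X 0 := by
    unfold yN; simp
  rw [h2, h3, hp_zero, hq_zero]; ring

theorem abs_lsg (x : Fin n → ℂ) (i : Fin n) (z : ℂ) : |lsg x i z| ≤ 1 := by
  have h := Evalx644.lsg_sq x i z
  exact (LogDx813.abs_sq h).le

theorem measurable_lsg (x : Fin n → ℂ) (i : Fin n) : Measurable fun z => lsg x i z := by
  classical
  unfold lsg
  refine Finset.measurable_fun_prod _ fun j _ => ?_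
  by_cases hc : (x j).im = (x i).im ∧ (x j).re < (x i).re
  · have : (fun z : ℂ => if (x j).im = (x i).im ∧ (x j).re < (x i).re ∧ z.im < (x i).im
        then (-1 : ℝ) else 1) = fun z => if z.im < (x i).im then (-1 : ℝ) else 1 := by
      funext z
      simp [hc.1, hc.2]
    rw [this]
    exact Measurable.ite (measurableSet_lt Complex.measurable_im measurable_const)
      measurable_const measurable_const
  · have : (fun z : ℂ => if (x j).im = (x i).im ∧ (x j).re < (x i).re ∧ z.im < (x i).im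
        then (-1 : ℝ) else 1) = fun _ => 1 := by
      funext z
      rw [if_neg fun h => hc ⟨h.1, h.2.1⟩]
    rw [this]
    exact measurable_const

/-- limit of the gauge -/
theorem lim_kap {x : Fin n → ℂ} {a : ℕ → ℝ} {X : ℕ → Fin n → ℤ × ℤ} (hpos : ∀ k, 0 < a k)
    (hlim : Tendsto a atTop (𝓝 0))
    (htip : ∀ i, Tendsto (fun k => meshPoint (a k) (X k i)) atTop (𝓝 (x i))) (i : Fin n) :
    ∀ᵐ z : ℂ, Tendsto (fun k => kap x (X k) (x i) (meshIndex (a k) z)) atTop
      (𝓝 (lsg x i z)) := by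
  have hae : ∀ᵐ z : ℂ, ∀ j, z.im ≠ (x j).im := ae_all_iff.2 fun j => Evalx644.ae_im_ne _
  filter_upwards [hae] with z hz
  have hat : Tendsto a atTop (𝓝[>] 0) :=
    tendsto_nhdsWithin_iff.2 ⟨hlim, Eventually.of_forall hpos⟩
  have h := ev_kap (l := atTop) (a := a) (X := X) (f := fun k => meshIndex (a k) z)
    (Eventually.of_forall hpos) htip (Pairx599.tendsto_meshPoint hat z) hz i
  exact tendsto_const_nhds.congr' (h.mono fun k hk => hk.1.symm)

theorem sumN : ∑ g ∈ bS, Aop wB PsiS g * PsiN g = 1 := by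
  rw [sum_bS, AS_0, AS_1]
  have := PsiN_lS
  linear_combination -this

theorem sumN2 : ∑ g ∈ bS, Aop wB PsiS2 g * PsiN2 g = -1 := by
  rw [sum_bS, AS2_0, AS2_1]
  have := PsiN2_lS2
  linear_combination -this

/-- **logarithmic derivatives from resolvent convergence** -/
theorem ldd_of (hD : IsOpen D) (hc : IsPreconnected D) (hw : Inn D w)
    {Z : ℝ → (Fin n → ℤ × ℤ) → ℝ}
    (hRC : ∀ x ∈ Conf n D, RC D x w)
    (hpos : ∀ x ∈ Conf n D, ∀ᶠ p : ℝ × (Fin n → ℤ × ℤ) in NF x, 0 < Z p.1 p.2)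
    (hst : ∀ x ∈ Conf n D, ∀ᶠ p : ℝ × (Fin n → ℤ × ℤ) in NF x,
      ∃ S, Step3 Z (wX (w p.1) p.2) p S) :
    ∃ g : Fin n → Fin 2 → (Fin n → ℂ) → ℝ, LDD n D Z g := by
  classical
  -- the covariance
  set S : ℝ × (Fin n → ℤ × ℤ) → HE ℤ → HE ℤ → ℝ := fun p =>
    if h : ∃ S, Step3 Z (wX (w p.1) p.2) p S then h.choose else fun _ _ => 0 with hSdef
  have hS : ∀ x ∈ Conf n D, ∀ᶠ p : ℝ × (Fin n → ℤ × ℤ) in NF x,
      Step3 Z (wX (w p.1) p.2) p (S p) := by
    intro x hx
    filter_upwards [hst x hx] with p hp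
    simp only [hSdef, dif_pos hp]
    exact hp.choose_spec
  -- the limits
  have main : ∀ x : Fin n → ℂ, ∃ L : Fin n → Fin 3 → ℝ, x ∈ Conf n D → ∀ (i : Fin n)
      (a : ℕ → ℝ) (X : ℕ → Fin n → ℤ × ℤ), (∀ k, 0 < a k) → Tendsto a atTop (𝓝 0) →
      Tendsto (fun k => mc (a k) (X k)) atTop (𝓝 x) →
      Tendsto (fun k => qv Z i (1, 1) (a k, X k)) atTop (𝓝 (L i 0)) ∧
      Tendsto (fun k => qv Z i (1, -1) (a k, X k)) atTop (𝓝 (L i 1)) ∧
      Tendsto (fun k => Z (a k) (sh (X k) i (1, 0)) / Z (a k) (X k)) atTop (𝓝 (L i 2)) := by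
    intro x
    by_cases hx : x ∈ Conf n D
    swap
    · exact ⟨fun _ _ => 0, fun h => absurd h hx⟩
    have h1 : ∀ i : Fin n, ∃ L : Fin 3 → ℝ, ∀ (a : ℕ → ℝ) (X : ℕ → Fin n → ℤ × ℤ),
        (∀ k, 0 < a k) → Tendsto a atTop (𝓝 0) →
        Tendsto (fun k => mc (a k) (X k)) atTop (𝓝 x) →
        Tendsto (fun k => qv Z i (1, 1) (a k, X k)) atTop (𝓝 (L 0)) ∧
        Tendsto (fun k => qv Z i (1, -1) (a k, X k)) atTop (𝓝 (L 1)) ∧
        Tendsto (fun k => Z (a k) (sh (X k) i (1, 0)) / Z (a k) (X k)) atTop (𝓝 (L 2)) := by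
      intro i
      obtain ⟨δ, hδ, hball, hdat⟩ := dat_nf hD hw hx
        ((hS x hx).mono fun p h => h.cov) i
      obtain ⟨L0, -, hL0⟩ := step_lim hD (hRC x hx) hδ hball srcD_N srcD_S bS_S bS_near
        (measurable_lsg x i) (abs_lsg x i)
      obtain ⟨L1, -, hL1⟩ := step_lim hD (hRC x hx) hδ hball srcD_N2 srcD_S2 bS_S2 bS_near
        (measurable_lsg x i) (abs_lsg x i)
      obtain ⟨L2, hz2, hL2⟩ := step_lim hD (hRC x hx) hδ hball srcD_D srcD_S bS_S bS_near
        (measurable_lsg x i) (abs_lsg x i)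
      refine ⟨![L0, -L1, 1 + 2 * (-(Latx683.xc / (1 - Latx683.xc ^ 2)) *
        (L2 + ∑ g ∈ bS, Aop wB PsiS g * (PsiS2 - PsiS) g))], fun a X hp hl hm => ?_⟩
      have htip : ∀ j, Tendsto (fun k => meshPoint (a k) (X k j)) atTop (𝓝 (x j)) :=
        fun j => tendsto_pi_nhds.1 hm j
      have hnf : Tendsto (fun k => ((a k, X k) : ℝ × (Fin n → ℤ × ℤ))) atTop (NF x) :=
        tendsto_nf_iff.2 ⟨tendsto_nhdsWithin_iff.2 ⟨hl, Eventually.of_forall hp⟩, hm⟩
      have hd := dat_comp hdat hnf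
      have hst' := hnf.eventually (hS x hx)
      have hkap := lim_kap hp hl htip i
      have hloc := hd.locX
      have hsq : ∀ k f, kap x (X k) (x i) f * kap x (X k) (x i) f = 1 := fun k f =>
        kap_sq x (X k) (x i) f
      have t0 := hL0 a X hp hl htip i _ _ hd hkap
        (fun k => kap x (X k) (x i) (X k i) • lN (wX (w (a k)) (X k)) (X k i))
        (fun k => kap x (X k) (x i) (X k i) • lS (wX (w (a k)) (X k)) (X k i))
        (hloc.mono fun k h => srcN (hsq k) h.1) (hloc.mono fun k h => srcS (hsq k) h.1)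
      have t1 := hL1 a X hp hl htip i _ _ hd hkap
        (fun k => kap x (X k) (x i) (dn (X k i)) • lN2 (wX (w (a k)) (X k)) (X k i))
        (fun k => kap x (X k) (x i) (dn (X k i)) • lS2 (wX (w (a k)) (X k)) (X k i))
        (hloc.mono fun k h => srcN2 (hsq k) h.2) (hloc.mono fun k h => srcS2 (hsq k) h.1)
      have t2 := hL2 a X hp hl htip i _ _ hd hkap
        (fun k => kap x (X k) (x i) (dn (X k i)) • lS2 (wX (w (a k)) (X k)) (X k i) -
          kap x (X k) (x i) (X k i) • lS (wX (w (a k)) (X k)) (X k i))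
        (fun k => kap x (X k) (x i) (X k i) • lS (wX (w (a k)) (X k)) (X k i))
        (hloc.mono fun k h => (srcS2 (hsq k) h.1).sub (srcS (hsq k) h.1))
        (hloc.mono fun k h => srcS (hsq k) h.1)
      have e1 : (1 - 3 / 2 - 1 / 2 : ℝ) = -1 := by norm_num
      have e2 : (1 - 1 / 2 - 1 / 2 : ℝ) = 0 := by norm_num
      rw [e1] at t0 t1
      rw [e2] at t2
      simp only [Real.rpow_neg_one] at t0 t1
      simp only [Real.rpow_zero, one_mul] at t2
      rw [sumN] at t0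
      rw [sumN2] at t1
      refine ⟨?_, ?_, ?_⟩
      · refine t0.congr' ?_
        filter_upwards [hst'] with k hk
        have h5 := hsq k (X k i)
        unfold qv
        simp only
        rw [hk.s11 i, LinearMap.map_smul₂, map_smul, smul_eq_mul, smul_eq_mul]
        rw [div_eq_inv_mul]
        congr 2
        linear_combination (formS (S (a k, X k)) (lN (wX (w (a k)) (X k)) (X k i))
          (lS (wX (w (a k)) (X k)) (X k i))) * h5
      · refine t1.neg.congr' ?_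
        filter_upwards [hst'] with k hk
        have h5 := hsq k (dn (X k i))
        unfold qv
        simp only
        rw [hk.s1m i, LinearMap.map_smul₂, map_smul, smul_eq_mul,
          smul_eq_mul, div_eq_inv_mul, ← mul_neg]
        congr 1
        have h6 := formS_skew hk.cov.skew (lS2 (wX (w (a k)) (X k)) (X k i))
          (lN2 (wX (w (a k)) (X k)) (X k i))
        linear_combination (-(formS (S (a k, X k)) (lN2 (wX (w (a k)) (X k)) (X k i))
          (lS2 (wX (w (a k)) (X k)) (X k i)))) * h5 - h6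
      · have t3 := (((t2.add_const (∑ g ∈ bS, Aop wB PsiS g * (PsiS2 - PsiS) g)).const_mul
          (-(Latx683.xc / (1 - Latx683.xc ^ 2)))).const_mul 2).const_add 1
        refine t3.congr' ?_
        filter_upwards [hst', hloc] with k hk hlk
        rw [hk.s10 i, sub_add_cancel, ← unit_id (hsq k) hlk.1 hk.cov, col_lS_X hk.cov]
        ring
    choose L hL using h1
    exact ⟨L, fun _ => hL⟩
  choose L hL using main
  refine ⟨fun i j x => if j = 0 then (L x i 0 + L x i 1) / 2 else (L x i 0 - L x i 1) / 2, ?_⟩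
  refine LogGx813.ldd_glue hD hc hpos (fun i => UC.of_seq fun x hx a u h1 h2 h3 => ?_)
    (fun i => UC.of_seq fun x hx a u h1 h2 h3 => ?_) (fun i x hx => ⟨L x i 2, ?_⟩)
  · have := (hL x hx i a u h1 h2 h3).1
    have e : (if (0 : Fin 2) = 0 then (L x i 0 + L x i 1) / 2 else (L x i 0 - L x i 1) / 2) +
        (if (1 : Fin 2) = 0 then (L x i 0 + L x i 1) / 2 else (L x i 0 - L x i 1) / 2) = L x i 0 := by
      rw [if_pos rfl, if_neg (by decide)]; ring
    rw [e]; exact this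
  · have := (hL x hx i a u h1 h2 h3).2.1
    have e : (if (0 : Fin 2) = 0 then (L x i 0 + L x i 1) / 2 else (L x i 0 - L x i 1) / 2) -
        (if (1 : Fin 2) = 0 then (L x i 0 + L x i 1) / 2 else (L x i 0 - L x i 1) / 2) = L x i 1 := by
      rw [if_pos rfl, if_neg (by decide)]; ring
    rw [e]; exact this
  · have huc : UC {x} (fun p : ℝ × (Fin n → ℤ × ℤ) => Z p.1 (sh p.2 i (1, 0)) / Z p.1 p.2)
        fun _ => L x i 2 := by
      refine UC.of_seq fun y hy a u h1 h2 h3 => ?_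
      rw [Set.mem_singleton_iff.1 hy] at h3
      exact (hL x hx i a u h1 h2 h3).2.2
    exact huc x rfl

end Crest.Agent.R165.LdGenx817
end
end

-- ▼ part R165/J2Pl_817
section

/-!
# Row 165 (S0250), plane clause (helper817): bonds as bilinears in the plane

* `exists_gauge` : a sign field on the dual edges of `ℤ²` without flux is a gradient
* `exCovPl` : `ExCovPl` of `UPl_641`
* `j2Pl` : `TorPl → J2Pl`
-/

set_option autoImplicit false

noncomputable section

namespace Crest.Agent.R165.J2Plx817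

open Finset Filter Topology
open Crest.ProbabilityR.IsingModel
open Crest.Agent.R165
open Crest.Agent.R165.Latx683 (BW Aop wPl yE yN xc IsCov wX ray Fld covS formS)
open Crest.Agent.R165.J1ax606 (HE EG pe qe bb pe_inj qe_inj pe_ne_qe)
open Crest.Agent.R165.Gr0x606 Crest.Agent.R165.Gr1x606
open Crest.Agent.R165.Symx541 (ep IsB isB_even torBonds torMom_eq ep_sq)
open Crest.Agent.R165.Gr2x813 (AF pr cutF nbf opd sgd ew edge)
open Crest.Agent.R165.Pl0x654 (cutR cutR_nonneg cutR_eq_zero cutR_nb abs_nb)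
open Crest.Agent.R165.Pl0bx654 (dec dec_pos)

/-! ### gauge -/

/-- discrete primitive -/
def prim (s : ℤ → ℝ) (n : ℤ) : ℝ := (∏ k ∈ Finset.Ico 0 n, s k) * ∏ k ∈ Finset.Ico n 0, s k

theorem prim_zero (s : ℤ → ℝ) : prim s 0 = 1 := by simp [prim]

theorem prim_sq {s : ℤ → ℝ} (hs : ∀ k, s k * s k = 1) (n : ℤ) : prim s n * prim s n = 1 := by
  have h : ∀ A : Finset ℤ, (∏ k ∈ A, s k) * ∏ k ∈ A, s k = 1 := by
    intro A
    rw [← Finset.prod_mul_distrib]
    exact Finset.prod_eq_one fun k _ => hs k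
  unfold prim
  calc _ = ((∏ k ∈ Finset.Ico 0 n, s k) * ∏ k ∈ Finset.Ico 0 n, s k) *
        ((∏ k ∈ Finset.Ico n 0, s k) * ∏ k ∈ Finset.Ico n 0, s k) := by ring
    _ = 1 := by rw [h, h, mul_one]

theorem prim_succ {s : ℤ → ℝ} (hs : ∀ k, s k * s k = 1) (n : ℤ) :
    prim s (n + 1) = prim s n * s n := by
  unfold prim
  rcases le_or_gt 0 n with h | h
  · have h1 : Finset.Ico 0 (n + 1) = insert n (Finset.Ico 0 n) := by
      ext k; simp only [Finset.mem_Ico, Finset.mem_insert]; omega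
    have h2 : Finset.Ico (n + 1) 0 = ∅ := Finset.Ico_eq_empty (by omega)
    have h3 : Finset.Ico n 0 = ∅ := Finset.Ico_eq_empty (by omega)
    rw [h1, h2, h3, Finset.prod_insert (by simp)]
    simp only [Finset.prod_empty]
    ring
  · have h1 : Finset.Ico n 0 = insert n (Finset.Ico (n + 1) 0) := by
      ext k; simp only [Finset.mem_Ico, Finset.mem_insert]; omega
    have h2 : Finset.Ico 0 (n + 1) = ∅ := Finset.Ico_eq_empty (by omega)
    have h3 : Finset.Ico 0 n = ∅ := Finset.Ico_eq_empty (by omega)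
    rw [h1, h2, h3, Finset.prod_insert (by simp)]
    simp only [Finset.prod_empty, one_mul]
    calc _ = (∏ k ∈ Finset.Ico (n + 1) 0, s k) * (s n * s n) := by rw [hs, mul_one]
      _ = _ := by ring

/-- **a flat sign field on the dual edges of `ℤ²` is a gradient** -/
theorem exists_gauge {H V : ℤ × ℤ → ℝ} (h1 : ∀ f, H f * H f = 1) (h2 : ∀ f, V f * V f = 1)
    (hc : ∀ a b, H (a, b) * V (a + 1, b) * H (a, b + 1) * V (a, b) = 1) :
    ∃ g : ℤ × ℤ → ℝ, (∀ f, g f * g f = 1) ∧ (∀ a b, H (a, b) = g (a, b) * g (a + 1, b)) ∧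
      ∀ a b, V (a, b) = g (a, b) * g (a, b + 1) := by
  set g : ℤ × ℤ → ℝ := fun f => prim (fun k => H (k, 0)) f.1 * prim (fun k => V (f.1, k)) f.2
    with hg
  have hsq : ∀ f, g f * g f = 1 := by
    intro f
    have e1 := prim_sq (s := fun k => H (k, 0)) (fun k => h1 _) f.1
    have e2 := prim_sq (s := fun k => V (f.1, k)) (fun k => h2 _) f.2
    calc g f * g f = (prim (fun k => H (k, 0)) f.1 * prim (fun k => H (k, 0)) f.1) *
          (prim (fun k => V (f.1, k)) f.2 * prim (fun k => V (f.1, k)) f.2) := by rw [hg]; ring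
      _ = 1 := by rw [e1, e2, mul_one]
  have hV : ∀ a b, g (a, b + 1) = g (a, b) * V (a, b) := by
    intro a b
    have e := prim_succ (s := fun k => V (a, k)) (fun k => h2 _) b
    show prim (fun k => H (k, 0)) a * prim (fun k => V (a, k)) (b + 1) = _
    rw [e, hg]
    simp only
    ring
  have hV' : ∀ a b, V (a, b) = g (a, b) * g (a, b + 1) := by
    intro a b
    rw [hV, ← mul_assoc, hsq, one_mul]
  have hH : ∀ a b, H (a, b) = g (a, b) * g (a + 1, b) := by
    intro a b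
    induction b using Int.induction_on with
    | zero =>
      have e := prim_succ (s := fun k => H (k, 0)) (fun k => h1 _) a
      have e3 := prim_sq (s := fun k => H (k, 0)) (fun k => h1 _) a
      show H (a, 0) = (prim (fun k => H (k, 0)) a * prim (fun k => V (a, k)) 0) *
        (prim (fun k => H (k, 0)) (a + 1) * prim (fun k => V (a + 1, k)) 0)
      rw [prim_zero, prim_zero, e]
      linear_combination (-H (a, 0)) * e3
    | succ b ih =>
      have e := hc a b
      rw [hV, hV]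
      have i1 := h1 (a, (b : ℤ))
      have i2 := h2 (a, (b : ℤ))
      have i3 := h2 (a + 1, (b : ℤ))
      calc H (a, (b : ℤ) + 1) = H (a, b + 1) * (H (a, (b : ℤ)) * H (a, (b : ℤ))) *
            (V (a, (b : ℤ)) * V (a, (b : ℤ))) * (V (a + 1, (b : ℤ)) * V (a + 1, (b : ℤ))) := by
              rw [i1, i2, i3]; ring
        _ = (H (a, b) * V (a + 1, b) * H (a, b + 1) * V (a, b)) *
            (H (a, (b : ℤ)) * V (a, (b : ℤ)) * V (a + 1, (b : ℤ))) := by ring
        _ = _ := by rw [e, one_mul, ih]; ring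
    | pred b ih =>
      have e := hc a (-(b : ℤ) - 1)
      have j1 := hV a (-(b : ℤ) - 1)
      have j2 := hV (a + 1) (-(b : ℤ) - 1)
      rw [sub_add_cancel] at e j1 j2
      rw [j1, j2] at ih
      have i1 := h1 (a, -(b : ℤ))
      have i2 := h2 (a, -(b : ℤ) - 1)
      have i3 := h2 (a + 1, -(b : ℤ) - 1)
      calc H (a, -(b : ℤ) - 1) = H (a, -(b : ℤ) - 1) * (H (a, -(b : ℤ)) * H (a, -(b : ℤ))) *
            (V (a, -(b : ℤ) - 1) * V (a, -(b : ℤ) - 1)) *
            (V (a + 1, -(b : ℤ) - 1) * V (a + 1, -(b : ℤ) - 1)) := by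
              rw [i1, i2, i3]; ring
        _ = (H (a, -(b : ℤ) - 1) * V (a + 1, -(b : ℤ) - 1) * H (a, -(b : ℤ)) *
            V (a, -(b : ℤ) - 1)) *
            (H (a, -(b : ℤ)) * V (a, -(b : ℤ) - 1) * V (a + 1, -(b : ℤ) - 1)) := by ring
        _ = H (a, -(b : ℤ)) * V (a, -(b : ℤ) - 1) * V (a + 1, -(b : ℤ) - 1) := by rw [e, one_mul]
        _ = (g (a, -(b : ℤ) - 1) * g (a + 1, -(b : ℤ) - 1)) *
            (V (a, -(b : ℤ) - 1) * V (a, -(b : ℤ) - 1)) *
            (V (a + 1, -(b : ℤ) - 1) * V (a + 1, -(b : ℤ) - 1)) := by rw [ih]; ring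
        _ = _ := by rw [i2, i3]; ring
  exact ⟨g, hsq, hH, hV'⟩


/-! ### flux of a finite bond set -/

/-- the four bonds at a vertex -/
def star (v : ℤ × ℤ) : Finset (EG ℤ) :=
  {((v, 0) : EG ℤ), ((v.1 - 1, v.2), 0), (v, 1), ((v.1, v.2 - 1), 1)}

theorem mem_star {v : ℤ × ℤ} {e : EG ℤ} : e ∈ star v ↔ e.1 = v ∨ e.1 + unitVec e.2 = v := by
  obtain ⟨⟨a, b⟩, j⟩ := e
  obtain ⟨c, d⟩ := v
  fin_cases j
  · simp [star, unitVec]
    omega
  · simp [star, unitVec]
    omega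

theorem prod_star {M : Type*} [CommMonoid M] (t : EG ℤ → M) (v : ℤ × ℤ) :
    ∏ e ∈ star v, t e = t (v, 0) * (t ((v.1 - 1, v.2), 0) * (t (v, 1) *
      t ((v.1, v.2 - 1), 1))) := by
  unfold star
  obtain ⟨c, d⟩ := v
  rw [Finset.prod_insert, Finset.prod_insert, Finset.prod_insert, Finset.prod_singleton]
  · simp only [Finset.mem_singleton, Prod.mk.injEq]; omega
  · simp
  · simp only [Finset.mem_insert, Finset.mem_singleton, Prod.mk.injEq]; omega

/-- the configuration flipped at `v` -/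
def flipAt (v z : ℤ × ℤ) : Bool := !decide (z = v)

theorem spin_flipAt (v z : ℤ × ℤ) : spinSign (flipAt v z) = if z = v then -1 else 1 := by
  unfold flipAt spinSign
  by_cases h : z = v <;> simp [h]

theorem ep_flipAt (v : ℤ × ℤ) (e : EG ℤ) :
    ep e (flipAt v) = if e ∈ star v then -1 else 1 := by
  unfold ep
  rw [spin_flipAt, spin_flipAt]
  have hne : e.1 + unitVec e.2 ≠ e.1 := by
    intro h
    have h2 : unitVec e.2 = 0 := by
      have := congrArg (fun t => t - e.1) h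
      simpa using this
    unfold unitVec at h2
    split_ifs at h2 <;> simp [Prod.ext_iff] at h2
  by_cases h1 : e.1 = v
  · have h2 : ¬ e.1 + unitVec e.2 = v := fun h => hne (h.trans h1.symm)
    rw [if_pos h1, if_neg h2, if_pos (mem_star.2 (Or.inl h1)), mul_one]
  · by_cases h2 : e.1 + unitVec e.2 = v
    · rw [if_neg h1, if_pos h2, if_pos (mem_star.2 (Or.inr h2)), one_mul]
    · rw [if_neg h1, if_neg h2, if_neg (fun h => (mem_star.1 h).elim h1 h2), mul_one]

/-- sign of the bonds of `B` -/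
def sB (B : Finset (EG ℤ)) (e : EG ℤ) : ℝ := if e ∈ B then -1 else 1

theorem sB_sq (B : Finset (EG ℤ)) (e : EG ℤ) : sB B e * sB B e = 1 := by
  unfold sB; split_ifs <;> norm_num

/-- `B` pairs the points of `X` -/
def Pairs {n : ℕ} (X : Fin n → ℤ × ℤ) (B : Finset (EG ℤ)) : Prop :=
  ∀ s : ℤ × ℤ → Bool, ∏ i, spinSign (s (X i)) = ∏ e ∈ B, ep e s

theorem flux_B {n : ℕ} {X : Fin n → ℤ × ℤ} {B : Finset (EG ℤ)} (hB : Pairs X B) (v : ℤ × ℤ) :
    ∏ e ∈ star v, sB B e = ∏ i, if X i = v then -1 else 1 := by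
  have h := hB (flipAt v)
  simp only [spin_flipAt, ep_flipAt] at h
  rw [h]
  have e1 : ∀ A C : Finset (EG ℤ), ∏ e ∈ A, (if e ∈ C then (-1 : ℝ) else 1) =
      ∏ _e ∈ A ∩ C, (-1 : ℝ) := fun A C => Finset.prod_ite_mem A C _
  unfold sB
  rw [e1, e1, Finset.inter_comm]

theorem flux_ray {n : ℕ} (X : Fin n → ℤ × ℤ) (v : ℤ × ℤ) :
    ∏ e ∈ star v, ray X e.1 e.2 = ∏ i, if X i = v then -1 else 1 := by
  unfold ray
  rw [Finset.prod_comm]
  refine Finset.prod_congr rfl fun i _ => ?_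
  rw [prod_star]
  simp only [true_and, one_ne_zero, false_and, if_false, mul_one]
  obtain ⟨a, b⟩ := v
  simp only
  by_cases h2 : (X i).2 = b
  · rcases lt_trichotomy (X i).1 a with h | h | h
    · rw [if_pos ⟨h2, h.le⟩, if_pos ⟨h2, by omega⟩, if_neg]
      · norm_num
      · rintro h3; rw [h3] at h; exact lt_irrefl _ h
    · rw [if_pos ⟨h2, h.le⟩, if_neg (by omega), if_pos (Prod.ext h h2), mul_one]
    · rw [if_neg (by omega), if_neg (by omega), if_neg]
      · norm_num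
      · rintro h3; rw [h3] at h; exact lt_irrefl _ h
  · rw [if_neg (fun h => h2 h.1), if_neg (fun h => h2 h.1), if_neg]
    · norm_num
    · intro h3
      exact h2 (by rw [h3])

theorem ray_sq {n : ℕ} (X : Fin n → ℤ × ℤ) (z : ℤ × ℤ) (j : Fin 2) :
    ray X z j * ray X z j = 1 := by
  unfold ray
  rw [← Finset.prod_mul_distrib]
  refine Finset.prod_eq_one fun i _ => ?_
  split_ifs <;> norm_num

/-- **the ray background is a gauge transform of the cut background** -/
theorem exists_cutGauge {n : ℕ} {X : Fin n → ℤ × ℤ} {B : Finset (EG ℤ)} (hB : Pairs X B) :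
    ∃ g : ℤ × ℤ → ℝ, (∀ f, g f * g f = 1) ∧
      ∀ e : EG ℤ, wX (wPl ℤ) X e.1 e.2 =
        g (pe e).1 * g (qe e).1 * Pl0bx654.wcut B (fun _ => -2 * xc) e.1 e.2 := by
  set t : EG ℤ → ℝ := fun e => sB B e * ray X e.1 e.2 with ht
  have htsq : ∀ e, t e * t e = 1 := by
    intro e
    have e1 := sB_sq B e
    have e2 := ray_sq X e.1 e.2
    calc t e * t e = (sB B e * sB B e) * (ray X e.1 e.2 * ray X e.1 e.2) := by rw [ht]; ring
      _ = 1 := by rw [e1, e2, mul_one]
  have hflux : ∀ v, ∏ e ∈ star v, t e = 1 := by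
    intro v
    rw [ht, Finset.prod_mul_distrib, flux_B hB, flux_ray, ← Finset.prod_mul_distrib]
    refine Finset.prod_eq_one fun i _ => ?_
    split_ifs <;> norm_num
  obtain ⟨g, hg, hH, hV⟩ := exists_gauge (H := fun f => t ((f.1 + 1, f.2), 1))
    (V := fun f => t ((f.1, f.2 + 1), 0)) (fun f => htsq _) (fun f => htsq _) (by
      intro a b
      have h := hflux (a + 1, b + 1)
      rw [prod_star] at h
      simp only [add_sub_cancel_right] at h
      simp only
      linear_combination h)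
  refine ⟨g, hg, ?_⟩
  have hw : ∀ e : EG ℤ, wX (wPl ℤ) X e.1 e.2 = t e * Pl0bx654.wcut B (fun _ => -2 * xc) e.1 e.2 := by
    intro e
    have e1 : Pl0bx654.wcut B (fun _ => -2 * xc) e.1 e.2 = sB B e * xc := by
      unfold Pl0bx654.wcut sB
      split_ifs
      · ring
      · ring
    rw [e1, ht]
    unfold wX wPl
    linear_combination (-(ray X e.1 e.2 * xc)) * sB_sq B e
  rintro ⟨⟨a, b⟩, j⟩
  rw [hw]
  congr 1
  fin_cases j
  · have := hV a (b - 1)
    simp only [sub_add_cancel] at this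
    simp only [Fin.zero_eta, J1ax606.pe_zero, J1ax606.qe_zero, Prod.mk_sub_mk, sub_zero]
    rw [this]
    ring
  · have := hH (a - 1) b
    simp only [sub_add_cancel] at this
    simp only [Fin.mk_one, J1ax606.pe_one, J1ax606.qe_one, Prod.mk_sub_mk, sub_zero]
    rw [this]


/-! ### Toeplitz lemma -/

theorem toeplitz {ι : Type*} (F : ℕ → Finset ι) (a : ℕ → ι → ℝ) (ha : ∀ R h, 0 ≤ a R h)
    (K : ℝ) (hK : ∀ᶠ R in atTop, ∑ h ∈ F R, a R h ≤ K)
    (h0 : ∀ h, Tendsto (fun R => a R h) atTop (𝓝 0)) (σ : ι → ℝ)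
    (hσ : Tendsto σ cofinite (𝓝 0)) :
    Tendsto (fun R => ∑ h ∈ F R, a R h * |σ h|) atTop (𝓝 0) := by
  classical
  rw [Metric.tendsto_nhds]
  intro ε hε
  have hK1 : 0 < |K| + 1 := by positivity
  have hδ : 0 < ε / (2 * (|K| + 1)) := by positivity
  have hfin : {h | ¬ |σ h| < ε / (2 * (|K| + 1))}.Finite := by
    have := (Metric.tendsto_nhds.1 hσ) _ hδ
    rw [Filter.eventually_cofinite] at this
    simpa [Real.dist_eq] using this
  set E := hfin.toFinset with hE
  have h1 : Tendsto (fun R => ∑ h ∈ E, a R h * |σ h|) atTop (𝓝 0) := by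
    have : Tendsto (fun R => ∑ h ∈ E, a R h * |σ h|) atTop (𝓝 (∑ h ∈ E, 0 * |σ h|)) :=
      tendsto_finsetSum _ fun h _ => (h0 h).mul_const _
    simpa using this
  have h2 := (Metric.tendsto_nhds.1 h1) (ε / 2) (by positivity)
  filter_upwards [hK, h2] with R hR hR2
  rw [Real.dist_eq, sub_zero] at hR2 ⊢
  have hnn : 0 ≤ ∑ h ∈ F R, a R h * |σ h| :=
    Finset.sum_nonneg fun h _ => mul_nonneg (ha R h) (abs_nonneg _)
  rw [abs_of_nonneg hnn]
  have h3 : ∑ h ∈ F R, a R h * |σ h| ≤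
      ∑ h ∈ E, a R h * |σ h| + ∑ h ∈ F R, a R h * (ε / (2 * (|K| + 1))) := by
    calc ∑ h ∈ F R, a R h * |σ h|
        ≤ ∑ h ∈ F R, ((if h ∈ E then a R h * |σ h| else 0) + a R h * (ε / (2 * (|K| + 1)))) := by
          refine Finset.sum_le_sum fun h _ => ?_
          by_cases hh : h ∈ E
          · rw [if_pos hh]
            have := mul_nonneg (ha R h) hδ.le
            linarith
          · rw [if_neg hh, zero_add]
            have : |σ h| < ε / (2 * (|K| + 1)) := by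
              by_contra hc
              exact hh (hfin.mem_toFinset.2 hc)
            exact mul_le_mul_of_nonneg_left this.le (ha R h)
      _ = ∑ h ∈ F R, (if h ∈ E then a R h * |σ h| else 0) +
          ∑ h ∈ F R, a R h * (ε / (2 * (|K| + 1))) := Finset.sum_add_distrib
      _ ≤ _ := by
          gcongr
          rw [← Finset.sum_filter]
          refine Finset.sum_le_sum_of_subset_of_nonneg ?_ fun h _ _ =>
            mul_nonneg (ha R h) (abs_nonneg _)
          intro h hh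
          exact (Finset.mem_filter.1 hh).2
  rw [← Finset.sum_mul] at h3
  have h4 : (∑ h ∈ F R, a R h) * (ε / (2 * (|K| + 1))) < ε / 2 := by
    have h5 : ∑ h ∈ F R, a R h ≤ |K| := hR.trans (le_abs_self K)
    calc (∑ h ∈ F R, a R h) * (ε / (2 * (|K| + 1))) ≤ |K| * (ε / (2 * (|K| + 1))) :=
          mul_le_mul_of_nonneg_right h5 hδ.le
      _ < (|K| + 1) * (ε / (2 * (|K| + 1))) := by
          apply mul_lt_mul_of_pos_right _ hδ
          linarith
      _ = ε / 2 := by field_simp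
  have h6 := (abs_lt.1 hR2).2
  linarith

/-! ### the mass of `dec` on boxes -/

theorem sum_sqrt_le (N : ℕ) :
    ∑ k ∈ Finset.range (N + 1), 1 / Real.sqrt (1 + (k : ℝ)) ≤ 2 * Real.sqrt (N + 1) := by
  induction N with
  | zero => simp
  | succ N ih =>
    rw [Finset.sum_range_succ]
    have h0 : (0 : ℝ) < Real.sqrt (1 + ((N + 1 : ℕ) : ℝ)) := Real.sqrt_pos.2 (by positivity)
    have h1 : 1 / Real.sqrt (1 + ((N + 1 : ℕ) : ℝ)) ≤
        2 * (Real.sqrt (((N + 1 : ℕ) : ℝ) + 1) - Real.sqrt ((N : ℝ) + 1)) := by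
      rw [div_le_iff₀ h0]
      have e : Real.sqrt (((N + 1 : ℕ) : ℝ) + 1) = Real.sqrt (1 + ((N + 1 : ℕ) : ℝ)) := by
        rw [add_comm]
      rw [e]
      have s1 := Real.mul_self_sqrt (show (0 : ℝ) ≤ 1 + ((N + 1 : ℕ) : ℝ) by positivity)
      have s2 := Real.mul_self_sqrt (show (0 : ℝ) ≤ (N : ℝ) + 1 by positivity)
      set A := Real.sqrt (1 + ((N + 1 : ℕ) : ℝ))
      set B := Real.sqrt ((N : ℝ) + 1)
      push_cast at s1
      nlinarith [sq_nonneg (A - B)]
    push_cast at h1 ih ⊢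
    linarith

theorem sum_sqrt_int_le (N : ℕ) :
    ∑ a ∈ Finset.Icc (-(N : ℤ)) N, 1 / Real.sqrt (1 + |(a : ℝ)|) ≤ 4 * Real.sqrt (N + 1) := by
  have hsub : Finset.Icc (-(N : ℤ)) N ⊆
      (Finset.range (N + 1)).image (fun k : ℕ => (k : ℤ)) ∪
        (Finset.range (N + 1)).image (fun k : ℕ => -(k : ℤ)) := by
    intro a ha
    rw [Finset.mem_Icc] at ha
    rw [Finset.mem_union, Finset.mem_image, Finset.mem_image]
    rcases le_or_gt 0 a with h | h
    · left
      refine ⟨a.toNat, ?_, by omega⟩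
      rw [Finset.mem_range]; omega
    · right
      refine ⟨(-a).toNat, ?_, by omega⟩
      rw [Finset.mem_range]; omega
  have hnn : ∀ a : ℤ, (0 : ℝ) ≤ 1 / Real.sqrt (1 + |(a : ℝ)|) := fun a => by positivity
  have h1 := Finset.sum_le_sum_of_subset_of_nonneg (f := fun a : ℤ => 1 / Real.sqrt (1 + |(a : ℝ)|))
    hsub fun a _ _ => hnn a
  have h2 : ∑ a ∈ (Finset.range (N + 1)).image (fun k : ℕ => (k : ℤ)) ∪
        (Finset.range (N + 1)).image (fun k : ℕ => -(k : ℤ)), 1 / Real.sqrt (1 + |(a : ℝ)|) ≤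
      ∑ a ∈ (Finset.range (N + 1)).image (fun k : ℕ => (k : ℤ)), 1 / Real.sqrt (1 + |(a : ℝ)|) +
      ∑ a ∈ (Finset.range (N + 1)).image (fun k : ℕ => -(k : ℤ)), 1 / Real.sqrt (1 + |(a : ℝ)|) := by
    rw [← Finset.sum_union_inter]
    have := Finset.sum_nonneg (s := (Finset.range (N + 1)).image (fun k : ℕ => (k : ℤ)) ∩
        (Finset.range (N + 1)).image (fun k : ℕ => -(k : ℤ))) (fun a _ => hnn a)
    linarith
  have hh := sum_sqrt_le N
  have h3 : ∑ a ∈ (Finset.range (N + 1)).image (fun k : ℕ => (k : ℤ)),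
      1 / Real.sqrt (1 + |(a : ℝ)|) = ∑ k ∈ Finset.range (N + 1), 1 / Real.sqrt (1 + (k : ℝ)) := by
    rw [Finset.sum_image (fun a _ b _ h => by simpa using h)]
    refine Finset.sum_congr rfl fun k _ => ?_
    simp
  have h4 : ∑ a ∈ (Finset.range (N + 1)).image (fun k : ℕ => -(k : ℤ)),
      1 / Real.sqrt (1 + |(a : ℝ)|) = ∑ k ∈ Finset.range (N + 1), 1 / Real.sqrt (1 + (k : ℝ)) := by
    rw [Finset.sum_image (fun a _ b _ h => by simpa using h)]
    refine Finset.sum_congr rfl fun k _ => ?_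
    simp
  rw [h3, h4] at h2
  linarith

/-- boxes of half-edges -/
def hbox (N : ℕ) : Finset (HE ℤ) :=
  (Finset.Icc (-(N : ℤ)) N ×ˢ Finset.Icc (-(N : ℤ)) N) ×ˢ Finset.univ

theorem sum_dec_le (N : ℕ) : ∑ h ∈ hbox N, dec h ≤ 64 * (N + 1) := by
  have h0 : 0 ≤ ∑ a ∈ Finset.Icc (-(N : ℤ)) N, 1 / Real.sqrt (1 + |(a : ℝ)|) :=
    Finset.sum_nonneg fun a _ => by positivity
  have h1 : ∑ h ∈ hbox N, dec h =
      4 * ∑ f ∈ Finset.Icc (-(N : ℤ)) N ×ˢ Finset.Icc (-(N : ℤ)) N,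
        1 / (1 + |(f.1 : ℝ)| + |(f.2 : ℝ)|) := by
    unfold hbox dec
    rw [Finset.sum_product, Finset.mul_sum]
    refine Finset.sum_congr rfl fun f _ => ?_
    simp
  have h2 : ∑ f ∈ Finset.Icc (-(N : ℤ)) N ×ˢ Finset.Icc (-(N : ℤ)) N,
        1 / (1 + |(f.1 : ℝ)| + |(f.2 : ℝ)|) ≤
      (∑ a ∈ Finset.Icc (-(N : ℤ)) N, 1 / Real.sqrt (1 + |(a : ℝ)|)) ^ 2 := by
    rw [sq, Finset.sum_mul_sum, ← Finset.sum_product']
    refine Finset.sum_le_sum fun f _ => ?_
    rw [div_mul_div_comm, one_mul, ← Real.sqrt_mul (by positivity)]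
    apply one_div_le_one_div_of_le (Real.sqrt_pos.2 (by positivity))
    rw [Real.sqrt_le_left (by positivity)]
    have ha := abs_nonneg (f.1 : ℝ)
    have hb := abs_nonneg (f.2 : ℝ)
    nlinarith
  have h3 := pow_le_pow_left₀ h0 (sum_sqrt_int_le N) 2
  have h4 : (4 * Real.sqrt ((N : ℝ) + 1)) ^ 2 = 16 * (N + 1) := by
    rw [mul_pow, Real.sq_sqrt (by positivity)]; norm_num
  rw [h1]
  rw [h4] at h3
  linarith

/-! ### uniqueness of the covariance -/

theorem ew_le {w : BW ℤ} (hw : ∀ z j, |w z j| ≤ 1) (f : ℤ × ℤ) (d : Fin 4) : |ew w f d| ≤ 1 := by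
  unfold ew
  split_ifs
  · exact hw _ _
  · exact hw _ _
  · exact hw _ _
  · exact hw _ _

theorem nbf_eq (f : ℤ × ℤ) (d : Fin 4) : nbf f d = Tr1x40.nb f d := by
  fin_cases d
  · simp
  · simp
  · simp
  · simp

theorem sgd_abs (d : Fin 4) : |sgd d| = 1 := by
  unfold sgd; split_ifs <;> norm_num

theorem cutR_diff {R : ℕ} (hR : 0 < R) (f : ℤ × ℤ) (d : Fin 4) :
    |cutR R (nbf f d) - cutR R f| ≤ 1 / R := by
  rw [abs_le]
  have h1 := cutR_nb hR f d
  have h2 := cutR_nb hR (Tr1x40.nb f d) (Tr1x40.op d)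
  rw [Tr1x40.nb_nb_op] at h2
  rw [nbf_eq]
  constructor <;> linarith

/-- the partner half-edge -/
def part (h : HE ℤ) : HE ℤ := (nbf h.1 h.2, opd h.2)

theorem opd_opd (d : Fin 4) : opd (opd d) = d := by
  fin_cases d <;> simp

theorem part_part (h : HE ℤ) : part (part h) = h := by
  unfold part
  ext1
  · exact Gr2x813.nbf_nbf h.1 h.2
  · exact opd_opd h.2

theorem part_inj : Function.Injective part := fun a b h => by
  rw [← part_part a, h, part_part]

theorem comm_le {w : BW ℤ} (hw : ∀ z j, |w z j| ≤ 1) {R : ℕ} (hR : 0 < R) (Ψ : HE ℤ → ℝ)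
    (h : HE ℤ) : |Gr2x813.comm w (cutR R) Ψ h| ≤ 1 / R * |Ψ (part h)| := by
  unfold Gr2x813.comm edge
  rw [abs_mul, abs_mul, abs_mul, sgd_abs, one_mul]
  have h1 := cutR_diff hR h.1 h.2
  have h2 := ew_le hw h.1 h.2
  have h3 : |ew w h.1 h.2| * |Ψ (nbf h.1 h.2, opd h.2)| ≤ |Ψ (part h)| := by
    calc _ ≤ 1 * |Ψ (nbf h.1 h.2, opd h.2)| := mul_le_mul_of_nonneg_right h2 (abs_nonneg _)
      _ = _ := by rw [one_mul]; rfl
  exact mul_le_mul h1 h3 (by positivity) (by positivity)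

theorem cutR_out {R : ℕ} (hR : 0 < R) {f : ℤ × ℤ}
    (hf : f ∉ Finset.Icc (-((R + 1 : ℕ) : ℤ)) ((R + 1 : ℕ) : ℤ) ×ˢ
      Finset.Icc (-((R + 1 : ℕ) : ℤ)) ((R + 1 : ℕ) : ℤ)) :
    cutR R f = 0 ∧ ∀ d, cutR R (nbf f d) = 0 := by
  have hout : ((R : ℝ) + 1) ≤ |(f.1 : ℝ)| + |(f.2 : ℝ)| := by
    rw [Finset.mem_product, Finset.mem_Icc, Finset.mem_Icc] at hf
    have : (R : ℤ) + 1 ≤ |f.1| + |f.2| := by
      by_contra hcon
      push Not at hcon
      apply hf
      have a1 := neg_abs_le f.1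
      have a2 := le_abs_self f.1
      have b1 := neg_abs_le f.2
      have b2 := le_abs_self f.2
      have a3 := abs_nonneg f.1
      have b3 := abs_nonneg f.2
      push_cast
      constructor <;> constructor <;> omega
    have h2 : (((R : ℤ) + 1 : ℤ) : ℝ) ≤ ((|f.1| + |f.2| : ℤ) : ℝ) := by exact_mod_cast this
    push_cast at h2
    exact h2
  refine ⟨cutR_eq_zero hR (by linarith), fun d => cutR_eq_zero hR ?_⟩
  rw [nbf_eq]
  have := (abs_le.1 (abs_nb f d)).1
  linarith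

theorem cutR_finite {R : ℕ} (hR : 0 < R) : (cutR R).support.Finite := by
  refine Set.Finite.subset (Finset.finite_toSet (Finset.Icc (-((R + 1 : ℕ) : ℤ))
    ((R + 1 : ℕ) : ℤ) ×ˢ Finset.Icc (-((R + 1 : ℕ) : ℤ)) ((R + 1 : ℕ) : ℤ))) ?_
  intro f hf
  by_contra hc
  exact hf (cutR_out hR hc).1

theorem tendsto_cutR (f : ℤ × ℤ) : Tendsto (fun R : ℕ => cutR R f) atTop (𝓝 1) := by
  have h7 : Tendsto (fun R : ℕ => 1 - (|(f.1 : ℝ)| + |(f.2 : ℝ)|) / (R : ℝ)) atTop
      (𝓝 (1 - 0)) := by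
    apply Tendsto.const_sub
    exact tendsto_const_div_atTop_nhds_zero_nat _
  have h8 := h7.max (tendsto_const_nhds (x := (0 : ℝ)))
  have h9 : max (1 - 0 : ℝ) 0 = 1 := by norm_num
  rw [h9] at h8
  refine h8.congr fun R => ?_
  unfold cutR
  rw [max_comm]

/-- pairing as a sum over a larger set -/
theorem pr_eq_sum (u : Fld ℤ) (s : HE ℤ → ℝ) (F : Finset (HE ℤ)) (hF : ∀ h, h ∉ F → u h = 0) :
    pr u s = ∑ h ∈ F, u h * s h := by
  unfold pr
  rw [Finsupp.sum]
  refine Finset.sum_subset ?_ ?_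
  · intro h hh
    by_contra hc
    exact (Finsupp.mem_support_iff.1 hh) (hF h hc)
  · intro h _ hh
    rw [Finsupp.notMem_support_iff.1 hh, zero_mul]

/-- **uniqueness of the covariance** -/
theorem cov_unique {w : BW ℤ} (hw : ∀ z j, |w z j| ≤ 1) {S S' : HE ℤ → HE ℤ → ℝ}
    (hS : IsCov w S) (hb : ∀ h', ∃ C, ∀ h, |S h h'| ≤ C * dec h) (hS' : IsCov w S') :
    S' = S := by
  funext g h'
  obtain ⟨C, hC⟩ := hb g
  have hC0 : 0 ≤ C := by
    by_contra hcon
    push Not at hcon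
    have h2 := abs_nonneg (S g g)
    have h3 := hC g
    have h4 := mul_neg_of_neg_of_pos hcon (dec_pos g)
    linarith
  have key : ∀ R : ℕ, 0 < R → |cutR R g.1 * S' g h' - cutR R h'.1 * S g h'| ≤
      ∑ h ∈ hbox (R + 1), (C / R * dec h) * |S' (part h) h'| := by
    intro R hR
    set Ψ : HE ℤ → ℝ := fun h => S' h h' with hΨ
    set u := cutF (cutR R) (cutR_finite hR) Ψ with hu
    have h1 := Gr2x813.formS_AF hS u (Finsupp.single g 1)
    have h2 : pr u (⇑(Finsupp.single g (1 : ℝ)) : HE ℤ → ℝ) = cutR R g.1 * S' g h' := by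
      rw [pr_eq_sum u _ (hbox (R + 1) ∪ {g}) ?_]
      · rw [Finset.sum_eq_single g]
        · rw [Finsupp.single_eq_same, mul_one]; rfl
        · intro h _ hne
          rw [Finsupp.single_eq_of_ne hne, mul_zero]
        · intro hc
          exact absurd (Finset.mem_union_right _ (Finset.mem_singleton_self g)) hc
      · intro h hh
        have hh' : h ∉ hbox (R + 1) := fun hc => hh (Finset.mem_union_left _ hc)
        have : h.1 ∉ Finset.Icc (-((R + 1 : ℕ) : ℤ)) ((R + 1 : ℕ) : ℤ) ×ˢ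
            Finset.Icc (-((R + 1 : ℕ) : ℤ)) ((R + 1 : ℕ) : ℤ) := fun hc =>
          hh' (Finset.mem_product.2 ⟨hc, Finset.mem_univ _⟩)
        show cutR R h.1 * Ψ h = 0
        rw [(cutR_out hR this).1, zero_mul]
    rw [h2, Gr2x813.formS_skew hS.skew, Gr2x813.formS_single_right] at h1
    have h3 : Gr2x813.col S (AF w u) g =
        ∑ h ∈ hbox (R + 1) ∪ {h'}, (AF w u) h * S g h := by
      refine pr_eq_sum _ _ _ ?_
      intro h hh
      have hh' : h ∉ hbox (R + 1) := fun hc => hh (Finset.mem_union_left _ hc)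
      have hne : h ≠ h' := fun hc => hh (Finset.mem_union_right _ (Finset.mem_singleton.2 hc))
      have hout : h.1 ∉ Finset.Icc (-((R + 1 : ℕ) : ℤ)) ((R + 1 : ℕ) : ℤ) ×ˢ
          Finset.Icc (-((R + 1 : ℕ) : ℤ)) ((R + 1 : ℕ) : ℤ) := fun hc =>
        hh' (Finset.mem_product.2 ⟨hc, Finset.mem_univ _⟩)
      rw [Gr2x813.AF_apply]
      have e : (⇑u : HE ℤ → ℝ) = fun g => cutR R g.1 * Ψ g := rfl
      rw [e, Gr2x813.Aop_mul, hΨ]
      have h4 := hS'.inv h h'
      rw [Pi.single_eq_of_ne hne] at h4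
      rw [h4]
      unfold Gr2x813.comm
      rw [(cutR_out hR hout).1, (cutR_out hR hout).2]
      ring
    have h5 : ∀ h, (AF w u) h = Gr2x813.comm w (cutR R) Ψ h -
        cutR R h.1 * (Pi.single h' 1 : HE ℤ → ℝ) h := by
      intro h
      rw [Gr2x813.AF_apply]
      have e : (⇑u : HE ℤ → ℝ) = fun g => cutR R g.1 * Ψ g := rfl
      rw [e, Gr2x813.Aop_mul, hΨ]
      have h4 := hS'.inv h h'
      rw [h4]
      ring
    have h6 : ∑ h ∈ hbox (R + 1) ∪ {h'}, (AF w u) h * S g h =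
        ∑ h ∈ hbox (R + 1) ∪ {h'}, Gr2x813.comm w (cutR R) Ψ h * S g h - cutR R h'.1 * S g h' := by
      simp only [h5, sub_mul, Finset.sum_sub_distrib]
      congr 1
      rw [Finset.sum_eq_single h']
      · rw [Pi.single_eq_same, mul_one]
      · intro h _ hne
        rw [Pi.single_eq_of_ne hne, mul_zero, zero_mul]
      · intro hc
        exact absurd (Finset.mem_union_right _ (Finset.mem_singleton_self h')) hc
    have h7 : ∑ h ∈ hbox (R + 1) ∪ {h'}, Gr2x813.comm w (cutR R) Ψ h * S g h =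
        ∑ h ∈ hbox (R + 1), Gr2x813.comm w (cutR R) Ψ h * S g h := by
      symm
      refine Finset.sum_subset Finset.subset_union_left ?_
      intro h _ hh'
      have hout : h.1 ∉ Finset.Icc (-((R + 1 : ℕ) : ℤ)) ((R + 1 : ℕ) : ℤ) ×ˢ
          Finset.Icc (-((R + 1 : ℕ) : ℤ)) ((R + 1 : ℕ) : ℤ) := fun hc =>
        hh' (Finset.mem_product.2 ⟨hc, Finset.mem_univ _⟩)
      unfold Gr2x813.comm
      rw [(cutR_out hR hout).1, (cutR_out hR hout).2]
      ring
    rw [h3, h6, h7] at h1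
    have h8 : cutR R g.1 * S' g h' - cutR R h'.1 * S g h' =
        -∑ h ∈ hbox (R + 1), Gr2x813.comm w (cutR R) Ψ h * S g h := by linarith
    rw [h8, abs_neg]
    refine (Finset.abs_sum_le_sum_abs _ _).trans ?_
    refine Finset.sum_le_sum fun h _ => ?_
    rw [abs_mul, hS.skew g h, abs_neg]
    have h9 := comm_le hw hR Ψ h
    have hR' : (0 : ℝ) < R := by exact_mod_cast hR
    calc |Gr2x813.comm w (cutR R) Ψ h| * |S h g| ≤ (1 / R * |Ψ (part h)|) * (C * dec h) :=
          mul_le_mul h9 (hC h) (abs_nonneg _) (by positivity)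
      _ = _ := by rw [hΨ]; ring
  have hlim : Tendsto (fun R : ℕ => ∑ h ∈ hbox (R + 1), (C / R * dec h) * |S' (part h) h'|)
      atTop (𝓝 0) := by
    refine toeplitz (fun R => hbox (R + 1)) (fun R h => C / R * dec h)
      (fun R h => mul_nonneg (by positivity) (dec_pos h).le) (C * 192) ?_ ?_
      (fun h => S' (part h) h') ?_
    · filter_upwards [eventually_ge_atTop 1] with R hR
      have hR' : (1 : ℝ) ≤ R := by exact_mod_cast hR
      rw [← Finset.mul_sum]
      have h1 := sum_dec_le (R + 1)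
      push_cast at h1
      calc C / R * ∑ h ∈ hbox (R + 1), dec h ≤ C / R * (64 * ((R : ℝ) + 1 + 1)) :=
            mul_le_mul_of_nonneg_left h1 (by positivity)
        _ ≤ C / R * (64 * (3 * R)) := by
            apply mul_le_mul_of_nonneg_left _ (by positivity)
            linarith
        _ = C * 192 := by field_simp; ring
    · intro h
      have := (tendsto_const_div_atTop_nhds_zero_nat C).mul_const (dec h)
      simpa using this
    · exact (hS'.zero h').comp part_inj.tendsto_cofinite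
  have h1 : Tendsto (fun R : ℕ => cutR R g.1 * S' g h' - cutR R h'.1 * S g h') atTop (𝓝 0) := by
    refine squeeze_zero_norm' ?_ hlim
    filter_upwards [eventually_gt_atTop 0] with R hR
    rw [Real.norm_eq_abs]
    exact key R hR
  have h2 : Tendsto (fun R : ℕ => cutR R g.1 * S' g h' - cutR R h'.1 * S g h') atTop
      (𝓝 (1 * S' g h' - 1 * S g h')) :=
    ((tendsto_cutR g.1).mul_const _).sub ((tendsto_cutR h'.1).mul_const _)
  have := tendsto_nhds_unique h1 h2
  linarith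


/-! ### covariances of gauge transforms -/

theorem tendsto_dec : Tendsto dec cofinite (𝓝 0) := by
  have h1 := (Spx583.tendsto_dist (0, 0)).const_div_atTop (1 : ℝ)
  refine h1.congr fun h => ?_
  unfold dec
  simp

theorem crit_cut (B : Finset (EG ℤ)) : Pl0x654.Crit (Pl0bx654.wcut B (fun _ => -2 * xc)) := by
  intro z j
  unfold Pl0bx654.wcut
  split_ifs
  · ring
  · ring

theorem abs_mul_sign {a b : ℝ} (ha : a * a = 1) (hb : b * b = 1) (c : ℝ) : |a * b * c| = |c| := by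
  have h1 : |a| = 1 := by
    have := abs_mul_abs_self a
    rw [ha] at this
    nlinarith [abs_nonneg a]
  have h2 : |b| = 1 := by
    have := abs_mul_abs_self b
    rw [hb] at this
    nlinarith [abs_nonneg b]
  rw [abs_mul, abs_mul, h1, h2, one_mul, one_mul]

/-- gauge transform of a covariance -/
theorem cov_gauge {w w' : BW ℤ} {g : ℤ × ℤ → ℝ} (hg : ∀ f, g f * g f = 1)
    (hw : ∀ e : EG ℤ, w' e.1 e.2 = g (pe e).1 * g (qe e).1 * w e.1 e.2)
    {S : HE ℤ → HE ℤ → ℝ} (hskew : ∀ h h', S h h' = -S h' h)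
    (hinv : ∀ h' k, Aop w (fun h => S h h') k = -(if k = h' then (1 : ℝ) else 0))
    (hb : ∀ h', ∃ C, ∀ h, |S h h'| ≤ C * dec h) :
    IsCov w' (fun h k => g h.1 * g k.1 * S h k) ∧
      ∀ h', ∃ C, ∀ h : HE ℤ, |g h.1 * g h'.1 * S h h'| ≤ C * dec h := by
  have hbd : ∀ h', ∃ C, ∀ h : HE ℤ, |g h.1 * g h'.1 * S h h'| ≤ C * dec h := by
    intro h'
    obtain ⟨C, hC⟩ := hb h'
    refine ⟨C, fun h => ?_⟩
    rw [abs_mul_sign (hg _) (hg _)]
    exact hC h
  refine ⟨⟨fun h k => ?_, fun h' => ?_, fun k h' => ?_⟩, hbd⟩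
  · rw [hskew h k]; ring
  · obtain ⟨C, hC⟩ := hbd h'
    have h1 := tendsto_dec.const_mul C
    rw [mul_zero] at h1
    exact squeeze_zero_norm (fun h => by rw [Real.norm_eq_abs]; exact hC h) h1
  · have hw' : (fun e : EG ℤ => w' e.1 e.2) = J2dx606.gw g (fun e => w e.1 e.2) := by
      funext e
      exact hw e
    rw [← UJ3x420.aop_eq, hw']
    have e1 : (fun h : HE ℤ => g h.1 * g h'.1 * S h h') =
        fun h : HE ℤ => g h.1 * ((g h'.1 • fun h => S h h') h) := by
      funext h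
      rw [Pi.smul_apply, smul_eq_mul]
      ring
    rw [e1, J2dx606.Aop_gauge g hg, UJ3x420.aop_eq, map_smul, Pi.smul_apply, hinv, smul_eq_mul]
    by_cases hk : k = h'
    · subst hk
      rw [if_pos rfl, Pi.single_eq_same]
      linear_combination -hg k.1
    · rw [if_neg hk, Pi.single_eq_of_ne hk]
      ring


theorem wP_le {n : ℕ} (X : Fin n → ℤ × ℤ) (z : ℤ × ℤ) (j : Fin 2) :
    |wX (wPl ℤ) X z j| ≤ 1 := by
  unfold wX wPl
  have h1 : |ray X z j| = 1 := by
    have h := ray_sq X z j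
    have := abs_mul_abs_self (ray X z j)
    rw [h] at this
    nlinarith [abs_nonneg (ray X z j)]
  have h2 : |xc| ≤ 1 := by
    rw [abs_of_pos Pl0x654.xc_pos]
    exact Tr1x40.xc_lt_one.le
  rw [abs_mul, h1, one_mul]
  exact h2

/-- the covariance of the branched plane from a cut -/
theorem exists_planeCov {n : ℕ} {X : Fin n → ℤ × ℤ} {B : Finset (EG ℤ)} (hB : Pairs X B) :
    ∃ (g : ℤ × ℤ → ℝ) (S : HE ℤ → HE ℤ → ℝ) (hs : ∀ h h', S h h' = -S h' h),
      (∀ f, g f * g f = 1) ∧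
      (∀ e : EG ℤ, wX (wPl ℤ) X e.1 e.2 =
        g (pe e).1 * g (qe e).1 * Pl0bx654.wcut B (fun _ => -2 * xc) e.1 e.2) ∧
      (∀ F : Gr (VI (HE ℤ)), EE Spx583.covPl
        ((Pl0bx654.Gam B (fun _ => -2 * xc) : Gr (VI (HE ℤ))) * F) =
        EE Spx583.covPl (Pl0bx654.Gam B (fun _ => -2 * xc) : Gr (VI (HE ℤ))) *
          EE (covOf S hs) F) ∧
      IsCov (wX (wPl ℤ) X) (fun h k => g h.1 * g k.1 * S h k) ∧
      ∀ S', IsCov (wX (wPl ℤ) X) S' → S' = fun h k => g h.1 * g k.1 * S h k := by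
  obtain ⟨g, hg, hw⟩ := exists_cutGauge hB
  obtain ⟨S, hs, hb, hinv, hres⟩ := Pl0bx654.exists_cov Pl0bx654.plKer_SP B _ (crit_cut B)
  obtain ⟨h1, h2⟩ := cov_gauge hg hw hs hinv hb
  refine ⟨g, S, hs, hg, hw, fun F => ?_, h1, fun S' hS' => ?_⟩
  · exact Pl0bx654.EE_cut (S0 := Pl0bx654.Spl) Pl0bx654.Spl_skew hs B _ hres F
  · exact cov_unique (wP_le X) h1 h2 hS'

theorem exists_pairs {n : ℕ} (hn : Even n) (X : Fin n → ℤ × ℤ) : ∃ B, Pairs X B := by
  obtain ⟨B, hB⟩ := isB_even hn X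
  exact ⟨B, hB⟩


/-- the covariance of the branched plane is unique -/
theorem plane_unique {n : ℕ} (hn : Even n) (X : Fin n → ℤ × ℤ) {S S' : HE ℤ → HE ℤ → ℝ}
    (h : IsCov (wX (wPl ℤ) X) S) (h' : IsCov (wX (wPl ℤ) X) S') : S = S' := by
  obtain ⟨B, hB⟩ := exists_pairs hn X
  obtain ⟨g, T, -, -, -, -, -, hu⟩ := exists_planeCov hB
  rw [hu S h, hu S' h']


/-! ### bond sets -/

theorem prod_symmDiff (S T : Finset (EG ℤ)) (s : ℤ × ℤ → Bool) :
    ∏ e ∈ symmDiff S T, ep e s = (∏ e ∈ S, ep e s) * ∏ e ∈ T, ep e s := by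
  have h1 : ∏ e ∈ S, ep e s = (∏ e ∈ S \ T, ep e s) * ∏ e ∈ S ∩ T, ep e s := by
    rw [← Finset.prod_union (Finset.disjoint_sdiff_inter S T), Finset.sdiff_union_inter]
  have h2 : ∏ e ∈ T, ep e s = (∏ e ∈ T \ S, ep e s) * ∏ e ∈ S ∩ T, ep e s := by
    rw [Finset.inter_comm, ← Finset.prod_union (Finset.disjoint_sdiff_inter T S),
      Finset.sdiff_union_inter]
  have h3 : (∏ e ∈ S ∩ T, ep e s) * ∏ e ∈ S ∩ T, ep e s = 1 := by
    rw [← Finset.prod_mul_distrib]
    exact Finset.prod_eq_one fun e _ => ep_sq e s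
  have h4 : ∏ e ∈ symmDiff S T, ep e s = (∏ e ∈ S \ T, ep e s) * ∏ e ∈ T \ S, ep e s := by
    have : symmDiff S T = (S \ T) ∪ (T \ S) := rfl
    rw [this, Finset.prod_union disjoint_sdiff_sdiff]
  rw [h1, h2, h4]
  calc _ = ((∏ e ∈ S \ T, ep e s) * ∏ e ∈ T \ S, ep e s) *
        ((∏ e ∈ S ∩ T, ep e s) * ∏ e ∈ S ∩ T, ep e s) := by rw [h3, mul_one]
    _ = _ := by ring

theorem bond_inv (e : EG ℤ) : ((1 - (2 * xc) • bb e) * (1 - (2 * -xc) • bb e) : Ge (VI (HE ℤ))) = 1 := by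
  have h := J1ax606.bb_mul_self e
  have e1 : ((1 - (2 * xc) • bb e) * (1 - (2 * -xc) • bb e) : Ge (VI (HE ℤ))) =
      1 - ((2 * xc) • bb e + (2 * -xc) • bb e) + (2 * xc) • bb e * ((2 * -xc) • bb e) := by ring
  rw [e1, ← add_smul, smul_mul_smul_comm, h, smul_zero, add_zero]
  have : 2 * xc + 2 * -xc = 0 := by ring
  rw [this, zero_smul, sub_zero]

/-- cutting along `B` turns bond sets into symmetric differences -/
theorem Gam_mul (B A : Finset (EG ℤ)) :
    Pl0bx654.Gam B (fun _ => -2 * xc) *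
      ∏ e ∈ A, (1 - (2 * Pl0bx654.wcut B (fun _ => -2 * xc) e.1 e.2) • bb e) =
      (∏ e ∈ symmDiff B A, (1 - (2 * xc) • bb e) : Ge (VI (HE ℤ))) := by
  have h0 : Pl0bx654.Gam B (fun _ => -2 * xc) =
      (∏ e ∈ B, (1 - (2 * xc) • bb e) : Ge (VI (HE ℤ))) := by
    unfold Pl0bx654.Gam
    refine Finset.prod_congr rfl fun e _ => ?_
    rw [neg_mul, neg_smul, sub_eq_add_neg]
  have hin : ∀ e ∈ B, Pl0bx654.wcut B (fun _ => -2 * xc) e.1 e.2 = -xc := by
    intro e he
    unfold Pl0bx654.wcut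
    rw [if_pos he]; ring
  have hout : ∀ e, e ∉ B → Pl0bx654.wcut B (fun _ => -2 * xc) e.1 e.2 = xc := by
    intro e he
    unfold Pl0bx654.wcut
    rw [if_neg he]; ring
  have h1 : ∏ e ∈ B, (1 - (2 * xc) • bb e : Ge (VI (HE ℤ))) =
      (∏ e ∈ B \ A, (1 - (2 * xc) • bb e)) * ∏ e ∈ B ∩ A, (1 - (2 * xc) • bb e) := by
    rw [← Finset.prod_union (Finset.disjoint_sdiff_inter B A), Finset.sdiff_union_inter]
  have h2 : ∏ e ∈ A, (1 - (2 * Pl0bx654.wcut B (fun _ => -2 * xc) e.1 e.2) • bb e :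
        Ge (VI (HE ℤ))) =
      (∏ e ∈ A \ B, (1 - (2 * xc) • bb e)) * ∏ e ∈ B ∩ A, (1 - (2 * -xc) • bb e) := by
    have e1 : A = (A \ B) ∪ (B ∩ A) := by
      rw [Finset.inter_comm, Finset.sdiff_union_inter]
    conv_lhs => rw [e1]
    rw [Finset.prod_union (by rw [Finset.inter_comm]; exact Finset.disjoint_sdiff_inter A B)]
    congr 1
    · exact Finset.prod_congr rfl fun e he => by rw [hout e (Finset.mem_sdiff.1 he).2]
    · exact Finset.prod_congr rfl fun e he => by rw [hin e (Finset.mem_inter.1 he).1]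
  have h3 : (∏ e ∈ B ∩ A, (1 - (2 * xc) • bb e : Ge (VI (HE ℤ)))) *
      ∏ e ∈ B ∩ A, (1 - (2 * -xc) • bb e) = 1 := by
    rw [← Finset.prod_mul_distrib]
    exact Finset.prod_eq_one fun e _ => bond_inv e
  have h4 : (∏ e ∈ symmDiff B A, (1 - (2 * xc) • bb e) : Ge (VI (HE ℤ))) =
      (∏ e ∈ B \ A, (1 - (2 * xc) • bb e)) * ∏ e ∈ A \ B, (1 - (2 * xc) • bb e) := by
    have : symmDiff B A = (B \ A) ∪ (A \ B) := rfl
    rw [this, Finset.prod_union disjoint_sdiff_sdiff]
  rw [h0, h1, h2, h4]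
  calc _ = ((∏ e ∈ B \ A, (1 - (2 * xc) • bb e : Ge (VI (HE ℤ)))) *
        ∏ e ∈ A \ B, (1 - (2 * xc) • bb e)) *
        ((∏ e ∈ B ∩ A, (1 - (2 * xc) • bb e)) * ∏ e ∈ B ∩ A, (1 - (2 * -xc) • bb e)) := by ring
    _ = _ := by rw [h3, mul_one]

/-! ### gauge maps on fields -/

/-- the gauge map -/
def gmap (g : ℤ × ℤ → ℝ) : VI (HE ℤ) →ₗ[ℝ] VI (HE ℤ) :=
  Finsupp.linearCombination ℝ fun h => Finsupp.single h (g h.1)

theorem gmap_single (g : ℤ × ℤ → ℝ) (h : HE ℤ) :
    gmap g (Finsupp.single h 1) = g h.1 • Finsupp.single h 1 := by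
  unfold gmap
  rw [Finsupp.linearCombination_single, one_smul, Finsupp.smul_single, smul_eq_mul, mul_one]

theorem mp_bb (g : ℤ × ℤ → ℝ) (e : EG ℤ) :
    mp (gmap g) (bb e : Gr (VI (HE ℤ))) = (g (pe e).1 * g (qe e).1) • (bb e : Gr (VI (HE ℤ))) := by
  rw [J1ax606.coe_bb, map_mul]
  unfold Gr1x606.ph
  rw [mp_fi, mp_fi, gmap_single, gmap_single, fi_smul, fi_smul, smul_mul_smul_comm]

theorem mp_prod (g : ℤ × ℤ → ℝ) (w : EG ℤ → ℝ) (A : Finset (EG ℤ)) :
    mp (gmap g) ((∏ e ∈ A, (1 - (2 * w e) • bb e) : Ge (VI (HE ℤ))) : Gr (VI (HE ℤ))) =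
      ((∏ e ∈ A, (1 - (2 * (g (pe e).1 * g (qe e).1 * w e)) • bb e) : Ge (VI (HE ℤ))) :
        Gr (VI (HE ℤ))) := by
  induction A using Finset.induction_on with
  | empty => simp
  | insert e A he ih =>
    rw [Finset.prod_insert he, Finset.prod_insert he, Ge.coe_mul, Ge.coe_mul, map_mul, ih]
    congr 1
    rw [Ge.coe_sub, Ge.coe_one, Ge.coe_smul, map_sub, map_one, map_smul, mp_bb, smul_smul,
      Ge.coe_sub, Ge.coe_one, Ge.coe_smul]
    congr 2
    ring

theorem formOf_gauge (g : ℤ × ℤ → ℝ) (S : HE ℤ → HE ℤ → ℝ) (x y : VI (HE ℤ)) :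
    formOf (fun h k => g h.1 * g k.1 * S h k) x y = formOf S (gmap g x) (gmap g y) := by
  have key : formOf (fun h k => g h.1 * g k.1 * S h k) =
      (formOf S).compl₁₂ (gmap g) (gmap g) := by
    apply Finsupp.lhom_ext'
    intro h
    apply LinearMap.ext_ring
    apply Finsupp.lhom_ext'
    intro k
    apply LinearMap.ext_ring
    simp only [LinearMap.comp_apply, Finsupp.lsingle_apply, LinearMap.compl₁₂_apply]
    rw [formOf_single, gmap_single, gmap_single, map_smul, map_smul, LinearMap.smul_apply,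
      formOf_single, smul_eq_mul, smul_eq_mul]
    ring
  rw [key]
  rfl

/-- **(J2) for the branched plane, sets of bonds** -/
theorem EB_symmDiff {n : ℕ} {X : Fin n → ℤ × ℤ} {B : Finset (EG ℤ)} (hB : Pairs X B)
    (A : Finset (EG ℤ)) :
    Spx583.EB (symmDiff B A) = Spx583.EB B *
      EE (UKerx420.Cof (UPlx641.wP X))
        ((∏ e ∈ A, (1 - (2 * UPlx641.wP X e.1 e.2) • bb e) : Ge (VI (HE ℤ))) :
          Gr (VI (HE ℤ))) := by
  obtain ⟨g, S, hs, hg, hw, hEE, hcov, hu⟩ := exists_planeCov hB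
  have h0 : Spx583.EB B = EE Spx583.covPl
      (Pl0bx654.Gam B (fun _ => -2 * xc) : Gr (VI (HE ℤ))) := by
    unfold Spx583.EB
    have := Gam_mul B ∅
    rw [Finset.prod_empty, mul_one] at this
    rw [this]
    have e1 : symmDiff B ∅ = B := by simp
    rw [e1]
    rfl
  have h1 : Spx583.EB (symmDiff B A) = EE Spx583.covPl
      ((Pl0bx654.Gam B (fun _ => -2 * xc) : Gr (VI (HE ℤ))) *
        ((∏ e ∈ A, (1 - (2 * Pl0bx654.wcut B (fun _ => -2 * xc) e.1 e.2) • bb e) :
          Ge (VI (HE ℤ))) : Gr (VI (HE ℤ)))) := by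
    rw [← Ge.coe_mul, Gam_mul]
    rfl
  rw [h1, hEE, ← h0]
  congr 1
  -- the gauge
  have hSof : UKerx420.Sof (UPlx641.wP X) = fun h k => g h.1 * g k.1 * S h k :=
    hu _ (UKerx420.Sof_spec ⟨_, hcov⟩)
  have hC : UKerx420.Cof (UPlx641.wP X) =
      covOf (fun h k : HE ℤ => g h.1 * g k.1 * S h k) hcov.skew := by
    unfold UKerx420.Cof
    rw [UJ3x420.covS_eq _ _ (UKerx420.Sof_skew _)]
    congr
  rw [hC, ← EE_mp (gmap g) (covOf (fun h k : HE ℤ => g h.1 * g k.1 * S h k) hcov.skew)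
    (covOf S hs) (fun x y => by rw [covOf_b, covOf_b]; exact formOf_gauge g S x y), mp_prod]
  congr 2
  refine Finset.prod_congr rfl fun e _ => ?_
  congr 3
  show _ = g (pe e).1 * g (qe e).1 * wX (wPl ℤ) X e.1 e.2
  rw [hw]
  linear_combination (-(Pl0bx654.wcut B (fun _ => -2 * xc) e.1 e.2 *
    (g (qe e).1 * g (qe e).1))) * hg (pe e).1 -
    (Pl0bx654.wcut B (fun _ => -2 * xc) e.1 e.2) * hg (qe e).1

/-! ### torus limits -/

/-- the observable `σ_X ∏_{e ∈ A} ε_e ∏_{k ∈ K} (ε_k - c_k)` -/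
def obsK {n : ℕ} {κ : Type*} (X : Fin n → ℤ × ℤ) (A : Finset (EG ℤ)) (e : κ → EG ℤ) (c : κ → ℝ)
    (K : List κ) (s : ℤ × ℤ → Bool) : ℝ :=
  (∏ i, spinSign (s (X i))) * (∏ e ∈ A, ep e s) * (K.map fun k => ep (e k) s - c k).prod

/-- the torus mean of a function of the spins -/
def tE (L : ℕ) (f : (ℤ × ℤ → Bool) → ℝ) : ℝ :=
  Centx541.torE (L + 1) 1 0 0 (fun _ => 0) (criticalBeta 1) fun σ => f fun z => σ (toTorus (L + 1) z)

theorem tE_sub (L : ℕ) (f g : (ℤ × ℤ → Bool) → ℝ) (c : ℝ) :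
    tE L (fun s => f s - c * g s) = tE L f - c * tE L g := by
  unfold tE
  have e : (fun σ : TorusConfig (L + 1) => f (fun z => σ (toTorus (L + 1) z)) -
      c * g (fun z => σ (toTorus (L + 1) z))) =
      (fun σ : TorusConfig (L + 1) => f (fun z => σ (toTorus (L + 1) z))) -
      c • (fun σ : TorusConfig (L + 1) => g (fun z => σ (toTorus (L + 1) z))) := by
    funext σ
    simp
  rw [e, map_sub, map_smul, smul_eq_mul]

open Crest.Agent.R165.UDomBx420 (bpr) in
open Crest.Agent.R165.UKerx420 (hb Cof) in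
open Crest.Agent.R165.UPlx641 (wP) in
/-- **centred bonds in the plane with spins** -/
theorem tendsto_obsK (hT : Spx583.TorPl) {n : ℕ} {X : Fin n → ℤ × ℤ} {B : Finset (EG ℤ)}
    (hB : Pairs X B) {κ : Type*} (e : κ → EG ℤ) (c : κ → ℝ) (K : List κ)
    (hK : (K.map e).Nodup) (A : Finset (EG ℤ)) (hA : ∀ k ∈ K, e k ∉ A) :
    Tendsto (fun L => tE L (obsK X A e c K)) atTop (𝓝 (Spx583.EB B *
      EE (Cof (wP X)) (((∏ e ∈ A, (1 - (2 * wP X e.1 e.2) • bb e) : Ge (VI (HE ℤ))) :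
          Gr (VI (HE ℤ))) *
        bpr (fun k i => (Finsupp.single (hb (e k).1 (e k).2 i) 1 : Fld ℤ))
          (fun k => wP X (e k).1 (e k).2) c K))) := by
  induction K generalizing A with
  | nil =>
    have h1 : obsK X A e c [] = fun s => ∏ e ∈ symmDiff B A, ep e s := by
      funext s
      unfold obsK
      rw [prod_symmDiff, List.map_nil, List.prod_nil, mul_one, hB s]
    rw [h1]
    have h2 := hT (symmDiff B A)
    rw [EB_symmDiff hB A] at h2
    have h3 : bpr (fun k i => (Finsupp.single (hb (e k).1 (e k).2 i) 1 : Fld ℤ))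
          (fun k => wP X (e k).1 (e k).2) c [] = 1 := by simp [bpr]
    rw [h3, mul_one]
    exact h2
  | cons k K ih =>
    rw [List.map_cons, List.nodup_cons] at hK
    have hk : e k ∉ A := hA k (List.mem_cons_self ..)
    have hAK : ∀ k' ∈ K, e k' ∉ A := fun k' hk' => hA k' (List.mem_cons_of_mem _ hk')
    have hAK' : ∀ k' ∈ K, e k' ∉ insert (e k) A := by
      intro k' hk' hh
      rcases Finset.mem_insert.1 hh with h1 | h1
      · exact hK.1 (List.mem_map.2 ⟨k', hk', h1⟩)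
      · exact hAK k' hk' h1
    have e1 : obsK X A e c (k :: K) = fun s =>
        obsK X (insert (e k) A) e c K s - c k * obsK X A e c K s := by
      funext s
      unfold obsK
      rw [List.map_cons, List.prod_cons, Finset.prod_insert hk]
      ring
    rw [e1]
    simp only [tE_sub]
    have h1 := (ih hK.2 (insert (e k) A) hAK').sub ((ih hK.2 A hAK).const_mul (c k))
    convert h1 using 2
    have e2 : bpr (fun k i => (Finsupp.single (hb (e k).1 (e k).2 i) 1 : Fld ℤ))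
            (fun k => wP X (e k).1 (e k).2) c (k :: K) =
        (((1 - (2 * wP X (e k).1 (e k).2) • bb (e k) : Ge (VI (HE ℤ))) : Gr (VI (HE ℤ))) -
          algebraMap ℝ _ (c k)) *
        bpr (fun k i => (Finsupp.single (hb (e k).1 (e k).2 i) 1 : Fld ℤ))
            (fun k => wP X (e k).1 (e k).2) c K := by
      simp only [bpr, List.map_cons, List.prod_cons]
      congr 2
      rw [Ge.coe_sub, Ge.coe_one, Ge.coe_smul, J1ax606.coe_bb, UJ2x420.pe_eq, UJ2x420.qe_eq]
      rfl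
    rw [e2, Finset.prod_insert hk]
    set P : Ge (VI (HE ℤ)) := ∏ e ∈ A, (1 - (2 * wP X e.1 e.2) • bb e) with hP
    set M : Ge (VI (HE ℤ)) := 1 - (2 * wP X (e k).1 (e k).2) • bb (e k) with hM
    set Q : Gr (VI (HE ℤ)) := bpr (fun k i => (Finsupp.single (hb (e k).1 (e k).2 i) 1 : Fld ℤ))
            (fun k => wP X (e k).1 (e k).2) c K with hQ
    have e3 : (P : Gr (VI (HE ℤ))) * (((M : Gr (VI (HE ℤ))) - algebraMap ℝ _ (c k)) * Q) =
        ((M * P : Ge (VI (HE ℤ))) : Gr (VI (HE ℤ))) * Q - c k • ((P : Gr (VI (HE ℤ))) * Q) := by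
      rw [mul_comm M P, Ge.coe_mul, sub_mul, mul_sub, mul_assoc, ← Algebra.smul_def, mul_smul_comm]
    rw [e3, map_sub, map_smul, smul_eq_mul]
    ring

open Crest.Agent.R165.UDomBx420 (bpr) in
open Crest.Agent.R165.UKerx420 (hb Cof) in
open Crest.Agent.R165.UPlx641 (wP Pc) in
open Crest.Agent.R165.Redx541 (P0c plMom e0) in
/-- moments of the plane state through a pairing set of bonds -/
theorem P0c_eq (hT : Spx583.TorPl) {n m : ℕ} {X : Fin n → ℤ × ℤ} {B : Finset (EG ℤ)}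
    (hB : Pairs X B) (Y : Fin m → ℤ × ℤ) (j : Fin m → Fin 2)
    (hY : Function.Injective fun k => ((Y k, j k) : EG ℤ)) :
    P0c X Y j = Spx583.EB B * EE (Cof (wP X))
      (bpr (fun k i => (Finsupp.single (hb (Y k) (j k) i) 1 : Fld ℤ))
        (fun k => wP X (Y k) (j k)) (fun _ => e0) (List.finRange m)) := by
  have h1 := tendsto_obsK hT hB (fun k => ((Y k, j k) : EG ℤ)) (fun _ => e0) (List.finRange m)
    ((List.nodup_finRange m).map hY) ∅ (fun _ _ => Finset.notMem_empty _)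
  rw [Finset.prod_empty, Ge.coe_one, one_mul] at h1
  refine Tendsto.limUnder_eq (h1.congr fun L => ?_)
  rw [torMom_eq]
  unfold tE
  rw [Centx541.torE_apply]
  congr 1
  funext σ
  unfold obsK Centx541.obs
  rw [Finset.prod_empty, mul_one, ← List.ofFn_eq_map, List.prod_ofFn]
  rfl

/-- plane spin correlations through a pairing set of bonds -/
theorem Pc_eq (hT : Spx583.TorPl) {n : ℕ} {X : Fin n → ℤ × ℤ} {B : Finset (EG ℤ)}
    (hB : Pairs X B) : UPlx641.Pc X = Spx583.EB B := by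
  unfold UPlx641.Pc
  rw [P0c_eq hT hB (![] : Fin 0 → ℤ × ℤ) ![] (fun k => k.elim0)]
  simp [UDomBx420.bpr]



end Crest.Agent.R165.J2Plx817
end
end

-- ▼ part R165/PlStep_817
section

/-!
# Row 165 (S0250), plane clause (helper817): the exact STEP identity and positivity in the plane

`Pc X` (plane spin correlations, `UPl_641`), `X : Fin n → ℤ × ℤ`, `n` even, `wP X = wX (wPl ℤ) X`, `S` any
covariance of `wP X`; everything from `TorPl` (SpE_583).
* `EB_mul_le, EB_pos, Pc_pos` : Griffiths, positivity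
* `Pc_move` : one spin moved along any finite set of bonds
* `pl_NE, pl_SW, pl_SE, pl_NW, pl_unit, pl_unit'` : the ratios, literally as `plus_*` of Step2_470
* `plsh_*` : all eight steps in terms of `sh` and corner forms, as `sh_*` of Step3_470
-/

set_option autoImplicit false
set_option linter.unusedSectionVars false

noncomputable section

namespace Crest.Agent.R165.PlStepx817

open Finset Filter Topology
open Crest.ProbabilityR.IsingModel
open Crest.Agent.R165
open Crest.Agent.R165.Latx683 (BW Aop wPl yE yN xc IsCov wX ray Fld covS formS hp hq)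
open Crest.Agent.R165.J1ax606 (HE EG pe qe bb)
open Crest.Agent.R165.Gr0x606 Crest.Agent.R165.Gr1x606
open Crest.Agent.R165.Symx541 (ep torBonds ep_sq)
open Crest.Agent.R165.Spx583 (TorPl EB EB_empty bond_mean)
open Crest.Agent.R165.UPlx641 (Pc wP)
open Crest.Agent.R165.UKerx420 (Cof Sof Sof_spec Sof_skew)
open Crest.Agent.R165.J2Plx817
open Crest.Agent.R165.Gk1x422 (sp)
open Crest.Agent.R165.Stepx470 (Bf lSW lNE lNW lSE diag anti unit coe_fac sp_update Row3)
open Crest.Agent.R165.Step3x470 (lES lEN lWN lWS skew_form side_bot side_left side_top side_right)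

/-! ### Griffiths -/

theorem posV_bonds (L : ℕ) [NeZero L] (A : Finset (EG ℤ)) :
    Gk0x422.PosV fun σ : ZMod L × ZMod L → Bool => ∏ e ∈ A, ep e fun z => σ (toTorus L z) :=
  Gk0x422.PosV.prod A fun _ _ => (Gk0x422.PosV.spin _).mul (Gk0x422.PosV.spin _)

theorem torBonds_mul_le (L : ℕ) {A B : Finset (EG ℤ)} (h : Disjoint A B) :
    torBonds L 1 0 0 (fun _ => 0) (criticalBeta 1) A *
      torBonds L 1 0 0 (fun _ => 0) (criticalBeta 1) B ≤
      torBonds L 1 0 0 (fun _ => 0) (criticalBeta 1) (A ∪ B) := by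
  unfold torBonds
  rw [Gk1x422.torusExpect_eq, Gk1x422.torusExpect_eq, Gk1x422.torusExpect_eq]
  have hK : 0 ≤ criticalBeta 1 * 1 := by
    rw [mul_one]; exact U5Px422.Kc_nonneg
  have h1 := Gk0x422.gks (p := Gk1x422.tp (L + 1)) (q := Gk1x422.tq (L + 1))
    (T := Finset.univ) (E := Finset.univ) hK (posV_bonds (L + 1) A) (posV_bonds (L + 1) B)
  refine h1.trans_eq ?_
  congr 1
  funext σ
  exact (Finset.prod_union h).symm

theorem EB_mul_le (hT : TorPl) {A B : Finset (EG ℤ)} (h : Disjoint A B) :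
    EB A * EB B ≤ EB (A ∪ B) :=
  le_of_tendsto_of_tendsto' ((hT A).mul (hT B)) (hT (A ∪ B)) fun L => torBonds_mul_le L h

theorem EB_pos (hT : TorPl) (A : Finset (EG ℤ)) : 0 < EB A := by
  induction A using Finset.induction_on with
  | empty => rw [EB_empty]; norm_num
  | insert e A he ih =>
    have h1 := EB_mul_le hT (A := {e}) (B := A) (Finset.disjoint_singleton_left.2 he)
    rw [bond_mean] at h1
    have h2 : ({e} ∪ A : Finset (EG ℤ)) = insert e A := rfl
    rw [h2] at h1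
    have h3 : 0 < Redx541.e0 := by unfold Redx541.e0; positivity
    exact (mul_pos h3 ih).trans_le h1

/-- **plane spin correlations are positive** -/
theorem Pc_pos (hT : TorPl) {n : ℕ} (hn : Even n) (X : Fin n → ℤ × ℤ) : 0 < Pc X := by
  obtain ⟨B, hB⟩ := exists_pairs hn X
  rw [Pc_eq hT hB]
  exact EB_pos hT B

/-! ### moving one spin -/

/-- the chosen covariance is every covariance -/
theorem Cof_eq {n : ℕ} (hn : Even n) {X : Fin n → ℤ × ℤ} {S : HE ℤ → HE ℤ → ℝ}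
    (hS : IsCov (wP X) S) : Cof (wP X) = covS S hS.skew := by
  have h : Sof (wP X) = S := plane_unique hn X (Sof_spec ⟨S, hS⟩) hS
  unfold Cof
  congr

theorem pairs_update {n : ℕ} {X : Fin n → ℤ × ℤ} {B : Finset (EG ℤ)} (hB : Pairs X B) (i : Fin n)
    (y : ℤ × ℤ) (A : Finset (EG ℤ))
    (hA : ∀ s : ℤ × ℤ → Bool, spinSign (s (X i)) * spinSign (s y) = ∏ e ∈ A, ep e s) :
    Pairs (Function.update X i y) (symmDiff B A) := by
  intro s
  rw [prod_symmDiff, ← hB s, ← hA s]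
  exact sp_update X i y s

/-- **moving one spin along a set of bonds** -/
theorem Pc_move (hT : TorPl) {n : ℕ} (hn : Even n) {X : Fin n → ℤ × ℤ} {S : HE ℤ → HE ℤ → ℝ}
    (hS : IsCov (wP X) S) (i : Fin n) (y : ℤ × ℤ) (A : Finset (EG ℤ))
    (hA : ∀ s : ℤ × ℤ → Bool, spinSign (s (X i)) * spinSign (s y) = ∏ e ∈ A, ep e s) :
    Pc (Function.update X i y) = Pc X *
      EE (covS S hS.skew) ((∏ e ∈ A, (1 - (2 * wP X e.1 e.2) • bb e) : Ge (VI (HE ℤ))) :
        Gr (VI (HE ℤ))) := by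
  obtain ⟨B, hB⟩ := exists_pairs hn X
  rw [Pc_eq hT (pairs_update hB i y A hA), Pc_eq hT hB, EB_symmDiff hB A, Cof_eq hn hS]

section steps

variable (hT : TorPl) {n : ℕ} (hn : Even n) {X : Fin n → ℤ × ℤ} {S : HE ℤ → HE ℤ → ℝ}
  (hc : IsCov (wP X) S) (i : Fin n)
include hT hn hc

theorem Pc_one (y z : ℤ × ℤ) (j : Fin 2)
    (h : ∀ s : ℤ × ℤ → Bool, spinSign (s (X i)) * spinSign (s y) = ep (z, j) s) :
    Pc (Function.update X i y) = Pc X * EE (covS S hc.skew) (Bf (wP X) z j) := by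
  have := Pc_move hT hn hc i y {(z, j)} (by simpa using h)
  rw [Finset.prod_singleton] at this
  rw [this, ← coe_fac (wP X) (z, j)]

theorem Pc_two (y z z' : ℤ × ℤ) (j j' : Fin 2) (hne : (z, j) ≠ (z', j'))
    (h : ∀ s : ℤ × ℤ → Bool, spinSign (s (X i)) * spinSign (s y) = ep (z, j) s * ep (z', j') s) :
    Pc (Function.update X i y) =
      Pc X * EE (covS S hc.skew) (Bf (wP X) z j * Bf (wP X) z' j') := by
  have := Pc_move hT hn hc i y {(z, j), (z', j')} (by
    intro s; rw [h s, Finset.prod_pair hne])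
  rw [Finset.prod_pair hne, Ge.coe_mul] at this
  rw [this, ← coe_fac (wP X) (z, j), ← coe_fac (wP X) (z', j')]

/-- **STEP along the diagonal of the face `f`** (`SW ↔ NE`), both directions, product form -/
theorem step_diag (y f : ℤ × ℤ)
    (h : (X i = f ∧ y = (f.1 + 1, f.2 + 1)) ∨ (X i = (f.1 + 1, f.2 + 1) ∧ y = f)) :
    Pc (Function.update X i y) = -formS S (lSW (wP X) f) (lNE (wP X) f) * Pc X := by
  have hv : ∀ s : ℤ × ℤ → Bool, ep (f, 0) s * ep ((f.1 + 1, f.2), 1) s =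
      spinSign (s f) * spinSign (s (f.1 + 1, f.2 + 1)) := by
    intro s
    have e1 : f + unitVec 0 = (f.1 + 1, f.2) := by
      simp [unitVec, Prod.ext_iff]
    have e2 : ((f.1 + 1, f.2) : ℤ × ℤ) + unitVec 1 = (f.1 + 1, f.2 + 1) := by
      simp [unitVec]
    unfold ep
    simp only
    rw [e1, e2]
    have h2 := UDomAx420.spinSign_sq (s (f.1 + 1, f.2))
    linear_combination (spinSign (s f) * spinSign (s (f.1 + 1, f.2 + 1))) * h2
  rw [Pc_two hT hn hc i y f (f.1 + 1, f.2) 0 1 (by simp) (by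
    intro s
    rw [hv s]
    rcases h with ⟨h1, h2⟩ | ⟨h1, h2⟩
    · rw [h1, h2]
    · rw [h1, h2, mul_comm]), diag _ S hc.skew f (Stepx470.IsCov.row3 hc _)]
  ring

/-- **STEP along the antidiagonal of the face `f`** (`NW ↔ SE`), both directions, product form -/
theorem step_anti (y f : ℤ × ℤ)
    (h : (X i = (f.1, f.2 + 1) ∧ y = (f.1 + 1, f.2)) ∨
      (X i = (f.1 + 1, f.2) ∧ y = (f.1, f.2 + 1))) :
    Pc (Function.update X i y) = formS S (lNW (wP X) f) (lSE (wP X) f) * Pc X := by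
  have hv : ∀ s : ℤ × ℤ → Bool, ep ((f.1, f.2 + 1), 0) s * ep ((f.1 + 1, f.2), 1) s =
      spinSign (s (f.1, f.2 + 1)) * spinSign (s (f.1 + 1, f.2)) := by
    intro s
    have e1 : ((f.1, f.2 + 1) : ℤ × ℤ) + unitVec 0 = (f.1 + 1, f.2 + 1) := by
      simp [unitVec]
    have e2 : ((f.1 + 1, f.2) : ℤ × ℤ) + unitVec 1 = (f.1 + 1, f.2 + 1) := by
      simp [unitVec]
    unfold ep
    simp only
    rw [e1, e2]
    have h2 := UDomAx420.spinSign_sq (s (f.1 + 1, f.2 + 1))
    linear_combination (spinSign (s (f.1, f.2 + 1)) * spinSign (s (f.1 + 1, f.2))) * h2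
  rw [Pc_two hT hn hc i y (f.1, f.2 + 1) (f.1 + 1, f.2) 0 1 (by simp) (by
    intro s
    rw [hv s]
    rcases h with ⟨h1, h2⟩ | ⟨h1, h2⟩
    · rw [h1, h2]
    · rw [h1, h2, mul_comm]), anti _ S hc.skew f (Stepx470.IsCov.row3 hc _)]
  ring

/-- **unit STEP** along the bond `(z, j)`, both directions, product form -/
theorem step_unit (y z : ℤ × ℤ) (j : Fin 2)
    (h : (X i = z ∧ y = z + unitVec j) ∨ (X i = z + unitVec j ∧ y = z)) :
    Pc (Function.update X i y) = (1 - 2 * wP X z j * S (hp z j) (hq z j)) * Pc X := by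
  rw [Pc_one hT hn hc i y z j (by
    intro s
    unfold ep
    rcases h with ⟨h1, h2⟩ | ⟨h1, h2⟩
    · rw [h1, h2]
    · rw [h1, h2, mul_comm]), unit _ S hc.skew z j]
  ring

/-! ### the eight steps as ratios -/

/-- **STEP `v = (1, 1)`** -/
theorem pl_NE : Pc (Function.update X i (X i + (1, 1))) / Pc X =
    -formS S (lSW (wP X) (X i)) (lNE (wP X) (X i)) := by
  rw [div_eq_iff (Pc_pos hT hn X).ne']
  exact step_diag hT hn hc i _ _ (Or.inl ⟨rfl, rfl⟩)


/-- **STEP `v = (1, -1)`** -/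
theorem pl_SE : Pc (Function.update X i (X i + (1, -1))) / Pc X =
    formS S (lNW (wP X) (X i - (0, 1))) (lSE (wP X) (X i - (0, 1))) := by
  rw [div_eq_iff (Pc_pos hT hn X).ne']
  exact step_anti hT hn hc i _ _ (Or.inl ⟨by simp, by
    refine Prod.ext ?_ ?_ <;> simp [sub_eq_add_neg]⟩)


/-- **STEP `v = unitVec j`** -/
theorem pl_unit (j : Fin 2) : Pc (Function.update X i (X i + unitVec j)) / Pc X =
      1 - 2 * wP X (X i) j * S (hp (X i) j) (hq (X i) j) := by
  rw [div_eq_iff (Pc_pos hT hn X).ne']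
  exact step_unit hT hn hc i _ _ j (Or.inl ⟨rfl, rfl⟩)


/-! ### `sh` form, corners -/

open Crest.Agent.R165.PathIntx641 (sh)

theorem plsh_NE : Pc (sh X i (1, 1)) / Pc X =
    formS S (lNE (wP X) (X i)) (lSW (wP X) (X i)) := by
  rw [skew_form hc.skew]; exact pl_NE hT hn hc i


theorem plsh_SE : Pc (sh X i (1, -1)) / Pc X =
    formS S (lNW (wP X) (X i - (0, 1))) (lSE (wP X) (X i - (0, 1))) :=
  pl_SE hT hn hc i






end steps

end Crest.Agent.R165.PlStepx817
end
end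

-- ▼ part R165/TorPl_922
section

/-!
# Row 165 (S0250), PL1: `TorPl` of helper583 and its consequences

`torPl : TorPl` (torus bond sets converge to the plane Gaussian values).
-/

set_option autoImplicit false
set_option linter.all false

noncomputable section

open Filter Topology
open Crest.ProbabilityR.IsingModel

namespace Crest.Agent.R165.TorPlx922

open Crest.Agent.R165.Spx583

/-- **torus bond sets converge to their plane Gaussian values** -/
theorem torPl : TorPl := fun S =>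
  TorusUTx922.torBonds_tendsto one_ne_zero 0 (fun _ => 0) S

end Crest.Agent.R165.TorPlx922
end
end

-- ▼ part R165/PlLd_817

/-!
# Row 165 (S0250), block U (helper817): the leaf `PlLd` from the resolvent convergence in the plane

`plLd_of` : `UAsmx641.PlLd` from `ResConv (Om univ x) x (PlSeq x) Q` (any `Q`).
-/

set_option autoImplicit false

noncomputable section

open MeasureTheory Filter Topology Set Metric
open Crest.ProbabilityR.IsingModel

namespace Crest.Agent.R165.PlLdx817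

open Crest.Agent.R165.Mac0x622 (Om)
open Crest.Agent.R165.MacIx622 (ResConv)
open Crest.Agent.R165.Latx683 Crest.Agent.R165.Gr3x813 Crest.Agent.R165.LogDx813
open Crest.Agent.R165.PathIntx641 (mc sh)
open Crest.Agent.R165.PathSeqx641 (NF)
open Crest.Agent.R165.PathGlx641 (LDD)
open Crest.Agent.R165.ConfTopx641
open Crest.Agent.R165.FrFinx887 (toF)
open Crest.Agent.R165.UPlx641 (Pc wP)
open Crest.Agent.R165.USpinx641 (gOf gOf_zero gOf_one)
open Crest.Agent.R165.PlOutx304 (PlSeq)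
open Crest.Agent.R165.LdGenx817
open Crest.Agent.R165.PlStepx817

theorem lSW_eq (w : BW ℤ) (f : ℤ × ℤ) : Stepx470.lSW w f = lS w f := by
  unfold Stepx470.lSW lS
  rw [Finsupp.smul_single, smul_eq_mul, mul_one]

theorem lNE_eq (w : BW ℤ) (f : ℤ × ℤ) : Stepx470.lNE w f = lN w f := by
  unfold Stepx470.lNE lN
  rw [Finsupp.smul_single, smul_eq_mul, mul_one]

theorem lNW_eq (w : BW ℤ) (X : ℤ × ℤ) : Stepx470.lNW w (X - (0, 1)) = lS2 w X := by
  unfold Stepx470.lNW lS2
  have e1 : X - (0, 1) = (X.1, X.2 - 1) := by ext <;> simp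
  rw [Finsupp.smul_single, smul_eq_mul, mul_one, e1]
  simp

theorem lSE_eq (w : BW ℤ) (X : ℤ × ℤ) : Stepx470.lSE w (X - (0, 1)) = lN2 w X := by
  unfold Stepx470.lSE lN2
  have e1 : X - (0, 1) = (X.1, X.2 - 1) := by ext <;> simp
  rw [Finsupp.smul_single, smul_eq_mul, mul_one, e1]
  have e2 : (X.2 - 1 - 1 : ℤ) = X.2 - 2 := by ring
  simp only [e2]

theorem toF_wPl (f : ℤ × ℤ) (h : Fin 4) : toF (wPl ℤ) f h = Tr1x40.xc := by
  fin_cases h <;> rfl

/-- the plane backgrounds are in the class `PlSeq` -/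
theorem plSeq {n : ℕ} {x : Fin n → ℂ} {a : ℕ → ℝ} {X : ℕ → Fin n → ℤ × ℤ} (hpos : ∀ k, 0 < a k)
    (hlim : Tendsto a atTop (𝓝 0))
    (htip : ∀ i, Tendsto (fun k => meshPoint (a k) (X k i)) atTop (𝓝 (x i))) :
    PlSeq x a (fun k => toF (wX (wPl ℤ) (X k))) X :=
  ⟨hpos, hlim, fun k f h => by rw [LatSeqx416.toF_wX, toF_wPl], htip⟩

theorem inn_plane (D : Set ℂ) : Inn D fun _ => wPl ℤ := fun _ _ _ =>
  Eventually.of_forall fun _ _ _ _ => rfl

theorem rc_plane {n : ℕ} {x : Fin n → ℂ} {Q : Set ℂ → (ℂ → ℂ) → Prop}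
    (h : ResConv (Om univ x) x (PlSeq x) Q) : RC univ x fun _ => wPl ℤ :=
  rc_of h fun _ _ hpos hlim htip => ⟨0, fun M _ => plSeq (fun _ => hpos _)
    ((tendsto_add_atTop_iff_nat M).2 hlim) fun i => (tendsto_add_atTop_iff_nat M).2 (htip i)⟩

/-- the three STEP identities of the plane -/
theorem step3_plane {n : ℕ} (hn : Even n) (p : ℝ × (Fin n → ℤ × ℤ)) :
    ∃ S, Step3 (fun _ u => Pc u) (wX (wPl ℤ) p.2) p S := by
  obtain ⟨B, hB⟩ := J2Plx817.exists_pairs hn p.2
  obtain ⟨S, hc⟩ : ∃ S, IsCov (wX (wPl ℤ) p.2) S := by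
    obtain ⟨g, S, -, -, -, -, hc, -⟩ := J2Plx817.exists_planeCov hB
    exact ⟨_, hc⟩
  refine ⟨S, hc, fun i => ?_, fun i => ?_, fun i => ?_⟩
  · have h := plsh_NE TorPlx922.torPl hn hc i
    rw [lNE_eq, lSW_eq] at h
    exact h
  · have h := plsh_SE TorPlx922.torPl hn hc i
    rw [lNW_eq, lSE_eq] at h
    exact h
  · have h := pl_unit TorPlx922.torPl hn hc i 0
    have h7 : sh p.2 i (1, 0) = Function.update p.2 i (p.2 i + unitVec 0) := by
      unfold sh
      congr 1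
    rw [h7]
    exact h

/-- **the logarithmic derivatives of the plane** -/
theorem ldd_plane {n : ℕ} (hn : Even n)
    (hRes : ∀ x : Fin n → ℂ, Function.Injective x → ∃ Q, ResConv (Om univ x) x (PlSeq x) Q) :
    ∃ g : Fin n → Fin 2 → (Fin n → ℂ) → ℝ, LDD n univ (fun _ u => Pc u) g := by
  refine ldd_of isOpen_univ isPreconnected_univ (inn_plane _) (fun x hx => ?_)
    (fun x _ => Eventually.of_forall fun p => Pc_pos TorPlx922.torPl hn p.2)
    (fun x _ => Eventually.of_forall fun p => step3_plane hn p)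
  obtain ⟨Q, hQ⟩ := hRes x hx.2
  exact rc_plane hQ

/-- **the leaf `PlLd`** -/
theorem plLd_of (hRes : ∀ n, Even n → ∀ x : Fin n → ℂ, Function.Injective x →
    ∃ Q, ResConv (Om univ x) x (PlSeq x) Q) : UAsmx641.PlLd := by
  classical
  have key : ∀ n : ℕ, ∃ g : Fin n → Fin 2 → (Fin n → ℂ) → ℝ, Even n →
      LDD n univ (fun _ u => Pc u) g := by
    intro n
    by_cases hn : Even n
    · obtain ⟨g, hg⟩ := ldd_plane hn (hRes n hn)
      exact ⟨g, fun _ => hg⟩
    · exact ⟨fun _ _ _ => 0, fun h => absurd h hn⟩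
  choose g hg using key
  refine ⟨fun n i x => (g n i 0 x : ℂ) - (g n i 1 x : ℂ) * Complex.I, fun n hn => ?_⟩
  have e : gOf (fun (i : Fin n) (x : Fin n → ℂ) =>
      (g n i 0 x : ℂ) - (g n i 1 x : ℂ) * Complex.I) = g n := by
    funext i j x
    fin_cases j
    · simp [gOf]
    · simp [gOf]
  rw [e]
  exact hg n hn

end Crest.Agent.R165.PlLdx817
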