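import Crest.Agent.R165.J4Lnk3_653

/-!
# Row 165 (S0250), block J4: the link with the initial activities (helper653)

* `bk`      : background data `Bk` from `(w : BW G, s, ok, R, t)` and bond sources `(v k, c k, as k)`
* `PL_tor`  : on the torus `PL B univ = GTor`
* `RescH`   : the rescaling identity (Resc_599) as a hypothesis
* `dom_final` : `domMom * EEG C0 (ZZ (=) Λ K0⁰) = D0c(σ_X) * EEG CX (coP univ (ZZ (=) Λ K0^{X,src}))`
-/

set_option autoImplicit false

noncomputable section

open Finset
open Crest.ProbabilityR.IsingModel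

namespace Crest.Agent.R165.J4Lnkx653

open Crest.Agent.R165.J4Defx653 Crest.Agent.R165.J4RRx653 Crest.Agent.R165.J4RRAx653
  Crest.Agent.R165.J4Pathx653
open Crest.Agent.R165.Gr0x606 Crest.Agent.R165.Gr1x606 Crest.Agent.R165.J1ax606
open Crest.Agent.R165.GeOpsx337 Crest.Agent.R165.SrcDefx991
open Crest.Agent.R165.J4K0x126 Crest.Agent.R165.J4Geox126
open Crest.Agent.R165.KStepx892 (ZZ)
open Crest.Agent.R165.Latx683 (xc wDom wX ray BW Fld)
open Crest.Agent.R165.Centx541 (obs domMom)
open Crest.Agent.R165.Redx541 (D0c e0)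
open Crest.Agent.R165.UKerx420 (wD)
open Crest.Agent.R165.UFinx420 (isF)

/-! ### background data -/

section bk

variable {G : Type} [CommRing G] [DecidableEq G]

/-- the source polynomial of one bond -/
def fsr (e : EG G) (c : ℝ) : RR (EG G) :=
  ep (Finsupp.single e 1) - algebraMap ℝ (RR (EG G)) c

theorem fsr_mem {e : EG G} {U : Set (EG G)} (he : e ∈ U) (c : ℝ) : fsr e c ∈ RIn U := by
  refine Subalgebra.sub_mem _ (ep_mem_RIn ?_) (Subalgebra.algebraMap_mem _ _)
  intro e' he'
  have := Finsupp.support_single_subset (Finset.mem_coe.1 he')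
  rw [Finset.mem_singleton] at this
  rw [this]; exact he

/-- background data with sources on bonds -/
def bk {κ A : Type*} [CommRing A] [Algebra ℝ A] (w : BW G) (s : G × G → ℝ)
    (ok : G × G → Finset (ℤ × ℤ) → Prop) (R : ℕ) (t : Finset (ℤ × ℤ) → ℝ)
    (v : κ → EG G) (c : κ → ℝ) (as : κ → A) : Bk G κ A where
  y e := w e.1 e.2
  s := s
  ok := ok
  t := t
  R := R
  Ys k := faE (v k)
  as := as
  Fs k := fsr (v k) (c k)
  Fs_mem k := fsr_mem (fun _ h => h) _



end bk

/-! ### the torus -/



/-! ### rescaling as a hypothesis -/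



/-! ### domains -/



end Crest.Agent.R165.J4Lnkx653
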