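import Crest.Prelude.Def_PerturbedIsing
import Mathlib
import Crest.Agent.R165.Tr1_40

-- ▼ part R165/LimA_610
section

/-!
# Row 165, blocks R / U4: mesh cells, sampling, products of strongly convergent functions (helper610)

* `cell a f` : the half open square of mesh `a` with lower left corner `a f`; volume `a²`;
* `integral_mesh` : `∫ F (meshIndex a z) dz = a² ∑ F f` for finitely supported `F`;
* `meshPoint_near`, `tendsto_meshPoint` : `a * meshIndex a z → z`;
* `tendsto_diffQ` : the discrete gradient of a strictly differentiable function converges;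
* `prod_lim` : `∫ γ_k f_k g_k → ∫ γ f g` if `f_k → f`, `g_k → g` in `L²` and `γ_k → γ` boundedly.
-/

set_option autoImplicit false

noncomputable section

open MeasureTheory Filter Topology Set
open Crest.ProbabilityR.IsingModel
open scoped ENNReal

namespace Crest.Agent.R165.LimAx610

/-! ### mesh cells -/

/-- the cell of `f` -/
def cell (a : ℝ) (f : ℤ × ℤ) : Set ℂ := {z | meshIndex a z = f}

theorem mem_cell {a : ℝ} {f : ℤ × ℤ} {z : ℂ} : z ∈ cell a f ↔ meshIndex a z = f := Iff.rfl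

theorem mem_cell_iff {a : ℝ} (ha : 0 < a) (f : ℤ × ℤ) (z : ℂ) :
    z ∈ cell a f ↔ (a * f.1 ≤ z.re ∧ z.re < a * (f.1 + 1)) ∧ (a * f.2 ≤ z.im ∧ z.im < a * (f.2 + 1)) := by
  obtain ⟨m, n⟩ := f
  simp only [cell, mem_ofPred_eq, meshIndex, Prod.mk.injEq, Int.floor_eq_iff]
  rw [le_div_iff₀ ha, div_lt_iff₀ ha, le_div_iff₀ ha, div_lt_iff₀ ha]
  constructor
  · rintro ⟨⟨h1, h2⟩, h3, h4⟩
    exact ⟨⟨by linarith, by linarith⟩, by linarith, by linarith⟩
  · rintro ⟨⟨h1, h2⟩, h3, h4⟩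
    exact ⟨⟨by linarith, by linarith⟩, by linarith, by linarith⟩

theorem cell_eq {a : ℝ} (ha : 0 < a) (f : ℤ × ℤ) :
    cell a f = Ico (a * f.1) (a * (f.1 + 1)) ×ℂ Ico (a * f.2) (a * (f.2 + 1)) := by
  ext z
  rw [mem_cell_iff ha, Complex.mem_reProdIm, mem_Ico, mem_Ico]

theorem measurableSet_reProdIm {s t : Set ℝ} (hs : MeasurableSet s) (ht : MeasurableSet t) :
    MeasurableSet (s ×ℂ t) := by
  have h : s ×ℂ t = Complex.re ⁻¹' s ∩ Complex.im ⁻¹' t := by
    ext z
    simp [Complex.mem_reProdIm]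
  rw [h]
  exact (Complex.measurable_re hs).inter (Complex.measurable_im ht)

theorem measurableSet_cell {a : ℝ} (ha : 0 < a) (f : ℤ × ℤ) : MeasurableSet (cell a f) := by
  rw [cell_eq ha]
  exact measurableSet_reProdIm measurableSet_Ico measurableSet_Ico

theorem volume_reProdIm (s t : Set ℝ) (hs : MeasurableSet s) (ht : MeasurableSet t) :
    volume (s ×ℂ t) = volume s * volume t := by
  have h : s ×ℂ t = Complex.measurableEquivRealProd ⁻¹' (s ×ˢ t) := by
    ext z
    simp [Complex.mem_reProdIm]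
  rw [h, Complex.volume_preserving_equiv_real_prod.measure_preimage (hs.prod ht).nullMeasurableSet,
    Measure.volume_eq_prod, Measure.prod_prod]

theorem volume_cell {a : ℝ} (ha : 0 < a) (f : ℤ × ℤ) : volume (cell a f) = ENNReal.ofReal (a ^ 2) := by
  rw [cell_eq ha, volume_reProdIm _ _ measurableSet_Ico measurableSet_Ico, Real.volume_Ico,
    Real.volume_Ico, ← ENNReal.ofReal_mul (by nlinarith)]
  congr 1
  ring

theorem measureReal_cell {a : ℝ} (ha : 0 < a) (f : ℤ × ℤ) : volume.real (cell a f) = a ^ 2 := by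
  rw [Measure.real, volume_cell ha, ENNReal.toReal_ofReal (by positivity)]

theorem measurable_meshIndex (a : ℝ) : Measurable (meshIndex a) := by
  unfold meshIndex
  exact (Int.measurable_floor.comp (Complex.measurable_re.div_const a)).prodMk
    (Int.measurable_floor.comp (Complex.measurable_im.div_const a))

theorem sum_indicator_cell {a : ℝ} (K : Finset (ℤ × ℤ)) (F : ℤ × ℤ → ℝ)
    (hF : ∀ f, f ∉ K → F f = 0) (z : ℂ) :
    F (meshIndex a z) = ∑ f ∈ K, (cell a f).indicator (fun _ => F f) z := by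
  classical
  by_cases h : meshIndex a z ∈ K
  · rw [Finset.sum_eq_single (meshIndex a z)]
    · rw [indicator_of_mem (show z ∈ cell a (meshIndex a z) from rfl)]
    · intro f _ hf
      rw [indicator_of_notMem]
      intro hz
      exact hf hz.symm
    · intro h'
      exact absurd h h'
  · rw [hF _ h, Finset.sum_eq_zero]
    intro f hf
    rw [indicator_of_notMem]
    intro hz
    rw [mem_cell] at hz
    rw [hz] at h
    exact h hf

/-- **cell sum = integral** -/
theorem integral_mesh {a : ℝ} (ha : 0 < a) (K : Finset (ℤ × ℤ)) (F : ℤ × ℤ → ℝ)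
    (hF : ∀ f, f ∉ K → F f = 0) : ∫ z : ℂ, F (meshIndex a z) = a ^ 2 * ∑ f ∈ K, F f := by
  have h : (fun z : ℂ => F (meshIndex a z))
      = fun z => ∑ f ∈ K, (cell a f).indicator (fun _ => F f) z := by
    funext z
    exact sum_indicator_cell K F hF z
  rw [h, integral_finsetSum]
  · rw [Finset.mul_sum]
    refine Finset.sum_congr rfl fun f _ => ?_
    rw [integral_indicator_const _ (measurableSet_cell ha f), measureReal_cell ha, smul_eq_mul]
  · intro f _
    rw [integrable_indicator_iff (measurableSet_cell ha f)]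
    refine integrableOn_const ?_ ?_
    · rw [volume_cell ha]; exact ENNReal.ofReal_ne_top
    · simp


/-! ### mesh points -/

theorem abs_re_sub {a : ℝ} (ha : 0 < a) (z : ℂ) :
    |(meshPoint a (meshIndex a z)).re - z.re| ≤ a := by
  have h := (mem_cell_iff ha (meshIndex a z) z).1 rfl
  simp only [meshPoint]
  rw [abs_le]
  constructor <;> nlinarith [h.1.1, h.1.2]

theorem abs_im_sub {a : ℝ} (ha : 0 < a) (z : ℂ) :
    |(meshPoint a (meshIndex a z)).im - z.im| ≤ a := by
  have h := (mem_cell_iff ha (meshIndex a z) z).1 rfl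
  simp only [meshPoint]
  rw [abs_le]
  constructor <;> nlinarith [h.2.1, h.2.2]

theorem meshPoint_near {a : ℝ} (ha : 0 < a) (z : ℂ) :
    ‖meshPoint a (meshIndex a z) - z‖ ≤ 2 * a := by
  refine (Complex.norm_le_abs_re_add_abs_im _).trans ?_
  have h1 := abs_re_sub ha z
  have h2 := abs_im_sub ha z
  rw [Complex.sub_re, Complex.sub_im]
  linarith

theorem tendsto_meshPoint {ι : Type*} {l : Filter ι} {a : ι → ℝ} (ha : ∀ k, 0 < a k)
    (h0 : Tendsto a l (𝓝 0)) (z : ℂ) :
    Tendsto (fun k => meshPoint (a k) (meshIndex (a k) z)) l (𝓝 z) := by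
  rw [tendsto_iff_norm_sub_tendsto_zero]
  refine squeeze_zero (fun k => norm_nonneg _) (fun k => meshPoint_near (ha k) z) ?_
  simpa using h0.const_mul 2

theorem meshPoint_add (a : ℝ) (f : ℤ × ℤ) (m n : ℤ) :
    meshPoint a (f.1 + m, f.2 + n) = meshPoint a f + (a : ℂ) * ⟨m, n⟩ := by
  apply Complex.ext
  · simp [meshPoint]; ring
  · simp [meshPoint]; ring

/-- discrete difference quotient of `χ` at `z` in the lattice direction `(m, n)` -/
def dq (a : ℝ) (χ : ℂ → ℝ) (m n : ℤ) (z : ℂ) : ℝ :=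
  a⁻¹ * (χ (meshPoint a ((meshIndex a z).1 + m, (meshIndex a z).2 + n))
    - χ (meshPoint a (meshIndex a z)))

theorem tendsto_dq {ι : Type*} {l : Filter ι} {a : ι → ℝ} (ha : ∀ k, 0 < a k)
    (h0 : Tendsto a l (𝓝 0)) {χ : ℂ → ℝ}
    {z : ℂ} {L : ℂ →L[ℝ] ℝ} (hχ : HasStrictFDerivAt χ L z) (m n : ℤ) :
    Tendsto (fun k => dq (a k) χ m n z) l (𝓝 (L ⟨m, n⟩)) := by
  have h1 := tendsto_meshPoint ha h0 z
  have h2 : Tendsto (fun k => meshPoint (a k) (meshIndex (a k) z) + (a k : ℂ) * ⟨m, n⟩) l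
      (𝓝 z) := by
    have : Tendsto (fun k => ((a k : ℝ) : ℂ) * (⟨m, n⟩ : ℂ)) l (𝓝 0) := by
      have := (Complex.continuous_ofReal.tendsto 0).comp h0
      simpa using this.mul_const (⟨m, n⟩ : ℂ)
    simpa using h1.add this
  have h3 : Tendsto (fun k => (meshPoint (a k) (meshIndex (a k) z) + (a k : ℂ) * ⟨m, n⟩,
      meshPoint (a k) (meshIndex (a k) z))) l (𝓝 (z, z)) := by
    rw [nhds_prod_eq]
    exact h2.prodMk h1
  have h4 := hχ.isLittleO.comp_tendsto h3
  simp only [Function.comp_def, add_sub_cancel_left] at h4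
  have h5 : (fun k => dq (a k) χ m n z - L ⟨m, n⟩) =o[l] fun _ : ι => (1 : ℝ) := by
    have h6 : (fun k => (a k)⁻¹ * (χ (meshPoint (a k) (meshIndex (a k) z) + (a k : ℂ) * ⟨m, n⟩)
        - χ (meshPoint (a k) (meshIndex (a k) z)) - L ((a k : ℂ) * ⟨m, n⟩)))
        =o[l] fun k => (a k)⁻¹ * ‖((a k : ℝ) : ℂ) * (⟨m, n⟩ : ℂ)‖ :=
      (Asymptotics.isBigO_refl _ _).mul_isLittleO h4.norm_right
    have h7 : (fun k => dq (a k) χ m n z - L ⟨m, n⟩)
        = fun k => (a k)⁻¹ * (χ (meshPoint (a k) (meshIndex (a k) z) + (a k : ℂ) * ⟨m, n⟩)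
        - χ (meshPoint (a k) (meshIndex (a k) z)) - L ((a k : ℂ) * ⟨m, n⟩)) := by
      funext k
      have hL : L ((a k : ℂ) * ⟨m, n⟩) = a k * L ⟨m, n⟩ := by
        rw [show ((a k : ℝ) : ℂ) * (⟨m, n⟩ : ℂ) = (a k) • (⟨m, n⟩ : ℂ) by
          rw [Complex.real_smul], map_smul, smul_eq_mul]
      rw [dq, meshPoint_add, hL]
      have := (ha k).ne'
      field_simp
    rw [h7]
    refine h6.trans_isBigO ?_
    refine Asymptotics.IsBigO.of_bound ‖(⟨m, n⟩ : ℂ)‖ (Eventually.of_forall fun k => ?_)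
    rw [norm_mul, norm_norm, norm_mul, Complex.norm_real, norm_inv, ← mul_assoc,
      inv_mul_cancel₀ (norm_ne_zero_iff.2 (ha k).ne'), one_mul]
    simp
  rw [Asymptotics.isLittleO_one_iff] at h5
  simpa using h5.add_const (L ⟨m, n⟩)

theorem abs_dq_le {a : ℝ} (ha : 0 < a) {χ : ℂ → ℝ} {C : NNReal} (hχ : LipschitzWith C χ) (m n : ℤ)
    (z : ℂ) : |dq a χ m n z| ≤ C * ‖(⟨m, n⟩ : ℂ)‖ := by
  rw [dq, meshPoint_add, abs_mul, abs_of_pos (inv_pos.2 ha)]
  have h := hχ.dist_le_mul (meshPoint a (meshIndex a z) + (a : ℂ) * ⟨m, n⟩)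
    (meshPoint a (meshIndex a z))
  rw [Real.dist_eq, dist_eq_norm, add_sub_cancel_left, norm_mul, Complex.norm_real,
    Real.norm_eq_abs, abs_of_pos ha] at h
  calc a⁻¹ * |χ (meshPoint a (meshIndex a z) + (a : ℂ) * ⟨m, n⟩) - χ (meshPoint a (meshIndex a z))|
      ≤ a⁻¹ * (C * (a * ‖(⟨m, n⟩ : ℂ)‖)) := mul_le_mul_of_nonneg_left h (inv_pos.2 ha).le
    _ = C * ‖(⟨m, n⟩ : ℂ)‖ := by field_simp

theorem measurable_dq (a : ℝ) (χ : ℂ → ℝ) (m n : ℤ) : Measurable (dq a χ m n) := by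
  have : dq a χ m n = (fun f : ℤ × ℤ => a⁻¹ * (χ (meshPoint a (f.1 + m, f.2 + n))
      - χ (meshPoint a f))) ∘ meshIndex a := rfl
  rw [this]
  exact (measurable_of_countable _).comp (measurable_meshIndex a)

/-! ### products of strongly convergent functions -/

section prod

variable {α : Type*} [MeasurableSpace α] {μ : Measure α}

theorem eLpNorm_mul_one_le {f g : α → ℝ} (hf : AEStronglyMeasurable f μ)
    (hg : AEStronglyMeasurable g μ) :
    eLpNorm (fun x => f x * g x) 1 μ ≤ eLpNorm f 2 μ * eLpNorm g 2 μ := by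
  have := eLpNorm_smul_le_mul_eLpNorm (p := 2) (q := 2) (r := 1) (μ := μ) hg hf
  exact this

theorem tendsto_eLpNorm_mul {ι : Type*} {l : Filter ι} {f g : ι → α → ℝ} {F G : α → ℝ}
    (hf : ∀ k, AEStronglyMeasurable (f k) μ) (hg : ∀ k, AEStronglyMeasurable (g k) μ)
    (hF : MemLp F 2 μ) (hG : MemLp G 2 μ)
    (h1 : Tendsto (fun k => eLpNorm (fun x => f k x - F x) 2 μ) l (𝓝 0))
    (h2 : Tendsto (fun k => eLpNorm (fun x => g k x - G x) 2 μ) l (𝓝 0)) :
    Tendsto (fun k => eLpNorm (fun x => f k x * g k x - F x * G x) 1 μ) l (𝓝 0) := by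
  have hb : ∀ k, eLpNorm (fun x => f k x * g k x - F x * G x) 1 μ
      ≤ eLpNorm (fun x => f k x - F x) 2 μ * eLpNorm (fun x => g k x - G x) 2 μ
        + eLpNorm (fun x => f k x - F x) 2 μ * eLpNorm G 2 μ
        + eLpNorm F 2 μ * eLpNorm (fun x => g k x - G x) 2 μ := by
    intro k
    have mf : AEStronglyMeasurable (fun x => f k x - F x) μ := (hf k).sub hF.1
    have mg : AEStronglyMeasurable (fun x => g k x - G x) μ := (hg k).sub hG.1
    have e : (fun x => f k x * g k x - F x * G x)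
        = ((fun x => (f k x - F x) * (g k x - G x)) + (fun x => (f k x - F x) * G x))
          + (fun x => F x * (g k x - G x)) := by
      funext x
      simp only [Pi.add_apply]
      ring
    rw [e]
    refine (eLpNorm_add_le ((mf.mul mg).add (mf.mul hG.1)) (hF.1.mul mg) le_rfl).trans ?_
    refine add_le_add ((eLpNorm_add_le (mf.mul mg) (mf.mul hG.1) le_rfl).trans ?_) ?_
    · exact add_le_add (eLpNorm_mul_one_le mf mg) (eLpNorm_mul_one_le mf hG.1)
    · exact eLpNorm_mul_one_le hF.1 mg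
  have hlim : Tendsto (fun k => eLpNorm (fun x => f k x - F x) 2 μ
        * eLpNorm (fun x => g k x - G x) 2 μ
        + eLpNorm (fun x => f k x - F x) 2 μ * eLpNorm G 2 μ
        + eLpNorm F 2 μ * eLpNorm (fun x => g k x - G x) 2 μ) l (𝓝 0) := by
    have a1 := ENNReal.Tendsto.mul h1 (Or.inr ENNReal.zero_ne_top) h2 (Or.inr ENNReal.zero_ne_top)
    have a2 := ENNReal.Tendsto.mul_const (b := eLpNorm G 2 μ) h1 (Or.inr hG.2.ne)
    have a3 := ENNReal.Tendsto.const_mul (a := eLpNorm F 2 μ) h2 (Or.inr hF.2.ne)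
    simpa using (a1.add a2).add a3
  exact tendsto_of_tendsto_of_tendsto_of_le_of_le tendsto_const_nhds hlim
    (fun _ => bot_le) hb

/-- `∫ γ_k f_k g_k → ∫ γ F G` -/
theorem prod_lim {ι : Type*} {l : Filter ι} [l.IsCountablyGenerated] {f g : ι → α → ℝ}
    {F G : α → ℝ}
    (hf : ∀ k, AEStronglyMeasurable (f k) μ) (hg : ∀ k, AEStronglyMeasurable (g k) μ)
    (hF : MemLp F 2 μ) (hG : MemLp G 2 μ)
    (h1 : Tendsto (fun k => eLpNorm (fun x => f k x - F x) 2 μ) l (𝓝 0))
    (h2 : Tendsto (fun k => eLpNorm (fun x => g k x - G x) 2 μ) l (𝓝 0))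
    {γ : ι → α → ℝ} {Γ : α → ℝ} {M : ℝ} (hγm : ∀ k, AEStronglyMeasurable (γ k) μ)
    (hM : ∀ᶠ k in l, ∀ᵐ x ∂μ, |γ k x| ≤ M)
    (hγ : ∀ᵐ x ∂μ, F x * G x = 0 ∨ Tendsto (fun k => γ k x) l (𝓝 (Γ x))) :
    Tendsto (fun k => ∫ x, γ k x * (f k x * g k x) ∂μ) l (𝓝 (∫ x, Γ x * (F x * G x) ∂μ)) := by
  have hFG : Integrable (fun x => F x * G x) μ := hF.integrable_mul hG
  -- dominated convergence
  have d1 : Tendsto (fun k => ∫ x, γ k x * (F x * G x) ∂μ) l
      (𝓝 (∫ x, Γ x * (F x * G x) ∂μ)) := by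
    refine tendsto_integral_filter_of_dominated_convergence (fun x => M * |F x * G x|)
      (Eventually.of_forall fun k => (hγm k).mul hFG.1) ?_
      (hFG.abs.const_mul M) ?_
    · filter_upwards [hM] with k hMk
      filter_upwards [hMk] with x hx
      rw [Real.norm_eq_abs, abs_mul]
      exact mul_le_mul_of_nonneg_right hx (abs_nonneg _)
    · filter_upwards [hγ] with x hx
      rcases hx with hx | hx
      · simpa [hx] using tendsto_const_nhds
      · exact hx.mul_const _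
  -- the L¹ error
  have hm : ∀ k, AEStronglyMeasurable (fun x => f k x * g k x - F x * G x) μ := fun k =>
    ((hf k).mul (hg k)).sub hFG.1
  have d2 := tendsto_eLpNorm_mul hf hg hF hG h1 h2
  have hfin : ∀ᶠ k in l, eLpNorm (fun x => f k x * g k x - F x * G x) 1 μ < ⊤ := by
    filter_upwards [d2.eventually (gt_mem_nhds (show (0 : ℝ≥0∞) < 1 by simp))] with k hk
    exact hk.trans ENNReal.one_lt_top
  have d3 : Tendsto (fun k => ∫ x, γ k x * (f k x * g k x - F x * G x) ∂μ) l (𝓝 0) := by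
    rw [tendsto_zero_iff_norm_tendsto_zero]
    have hM' : Tendsto (fun k => |M| * (eLpNorm (fun x => f k x * g k x - F x * G x) 1 μ).toReal)
        l (𝓝 0) := by
      have := (ENNReal.tendsto_toReal ENNReal.zero_ne_top).comp d2
      simpa using this.const_mul |M|
    refine squeeze_zero' (Eventually.of_forall fun k => norm_nonneg _) ?_ hM'
    filter_upwards [hfin, hM] with k hk hMk
    have hi : Integrable (fun x => f k x * g k x - F x * G x) μ := by
      rw [← memLp_one_iff_integrable]; exact ⟨hm k, hk⟩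
    calc ‖∫ x, γ k x * (f k x * g k x - F x * G x) ∂μ‖
        ≤ ∫ x, |M| * |f k x * g k x - F x * G x| ∂μ := by
          refine norm_integral_le_of_norm_le (hi.abs.const_mul _) ?_
          filter_upwards [hMk] with x hx
          rw [Real.norm_eq_abs, abs_mul]
          exact mul_le_mul_of_nonneg_right (hx.trans (le_abs_self M)) (abs_nonneg _)
      _ = |M| * ∫ x, |f k x * g k x - F x * G x| ∂μ := integral_const_mul _ _
      _ = |M| * (eLpNorm (fun x => f k x * g k x - F x * G x) 1 μ).toReal := by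
          rw [eLpNorm_one_eq_lintegral_enorm]
          congr 1
          simp_rw [← Real.norm_eq_abs]
          rw [integral_norm_eq_lintegral_enorm (hm k)]
  have d4 := d3.add d1
  rw [zero_add] at d4
  refine d4.congr' ?_
  filter_upwards [hfin, hM] with k hk hMk
  have hi : Integrable (fun x => f k x * g k x - F x * G x) μ := by
    rw [← memLp_one_iff_integrable]; exact ⟨hm k, hk⟩
  rw [← integral_add]
  · refine integral_congr_ae (Eventually.of_forall fun x => ?_)
    simp only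
    ring
  · refine hi.bdd_mul (c := |M|) (hγm k) ?_
    filter_upwards [hMk] with x hx
    rw [Real.norm_eq_abs]
    exact hx.trans (le_abs_self M)
  · refine hFG.bdd_mul (c := |M|) (hγm k) ?_
    filter_upwards [hMk] with x hx
    rw [Real.norm_eq_abs]
    exact hx.trans (le_abs_self M)

end prod

end Crest.Agent.R165.LimAx610
end
end

-- ▼ part R165/LimQ_610
section

/-!
# Row 165, blocks R / U4: lattice → continuum passage of the two exact laws (helper610)

`E a φ h z = φ (meshIndex a z) h`.  Sequences `a_k → 0`, weights `w_k` (`Sym`, `IsPlus`), fields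
`φ_k`, `E_k φ_k → Φ` and `E_k (a_k⁻¹ A φ_k) → G` strongly in `L²(B)`, `B` a neighbourhood of the
support of the Lipschitz test function `χ`, differentiable on `D`, `Φ = 0` off `D`, and inside `D`
the weights are eventually critical.  Then

* `law1` : `0 ≤ 2 ∫ χ ⟨A0 Φ, G⟩ + x² ∫ ∑_h ∂_h χ Φ_h²` if `0 ≤ χ`;
* `heavy` : `∫ χ hv Φ = 0` if `0 ≤ χ`;
* `law2` : `∫ ∑_h ∂_h χ Φ_h (A0 Φ)_h = 2 ∫ χ ⟨Φ, G⟩`;
* `law0` : the linear relation against light test fields.
-/

set_option autoImplicit false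

noncomputable section

open MeasureTheory Filter Topology Set
open Crest.ProbabilityR.IsingModel
open Crest.Agent.R165.Tr1x40 Crest.Agent.R165.LimAx610
open scoped ENNReal

namespace Crest.Agent.R165.LimQx610

/-- sampled field -/
def E (a : ℝ) (φ : Fld) (h : Fin 4) (z : ℂ) : ℝ := φ (meshIndex a z) h

theorem measurable_E (a : ℝ) (φ : Fld) (h : Fin 4) : Measurable (E a φ h) := by
  have : E a φ h = (fun f : ℤ × ℤ => φ f h) ∘ meshIndex a := rfl
  rw [this]
  exact (measurable_of_countable _).comp (measurable_meshIndex a)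

/-- lattice offsets of the four directions -/
def off (h : Fin 4) : ℤ × ℤ :=
  match h with
  | 0 => (0, -1)
  | 1 => (1, 0)
  | 2 => (0, 1)
  | 3 => (-1, 0)

theorem nb_eq (f : Face) (h : Fin 4) : nb f h = (f.1 + (off h).1, f.2 + (off h).2) := by
  fin_cases h <;> simp [nb, off, sub_eq_add_neg]

/-- the unit vector of the direction `h` -/
def dir (h : Fin 4) : ℂ := ⟨(off h).1, (off h).2⟩

theorem dir_zero : dir 0 = -Complex.I := by apply Complex.ext <;> simp [dir, off]
theorem dir_one : dir 1 = 1 := by apply Complex.ext <;> simp [dir, off]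
theorem dir_two : dir 2 = Complex.I := by apply Complex.ext <;> simp [dir, off]
theorem dir_three : dir 3 = -1 := by apply Complex.ext <;> simp [dir, off]

theorem norm_dir (h : Fin 4) : ‖dir h‖ = 1 := by
  fin_cases h
  · simp [dir_zero]
  · simp [dir_one]
  · simp [dir_two]
  · simp [dir_three]

/-- difference quotient in the direction `h` -/
def dh (a : ℝ) (χ : ℂ → ℝ) (h : Fin 4) (z : ℂ) : ℝ := dq a χ (off h).1 (off h).2 z

theorem dh_eq (a : ℝ) (χ : ℂ → ℝ) (h : Fin 4) (z : ℂ) :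
    dh a χ h z = a⁻¹ * (χ (meshPoint a (nb (meshIndex a z) h)) - χ (meshPoint a (meshIndex a z))) := by
  rw [dh, dq, nb_eq]

theorem abs_dh_le {a : ℝ} (ha : 0 < a) {χ : ℂ → ℝ} {C : NNReal} (hχ : LipschitzWith C χ)
    (h : Fin 4) (z : ℂ) : |dh a χ h z| ≤ C := by
  have := abs_dq_le ha hχ (off h).1 (off h).2 z
  rw [show (⟨((off h).1 : ℤ), ((off h).2 : ℤ)⟩ : ℂ) = dir h from rfl, norm_dir, mul_one] at this
  exact this

theorem measurable_dh (a : ℝ) (χ : ℂ → ℝ) (h : Fin 4) : Measurable (dh a χ h) := measurable_dq _ _ _ _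

theorem tendsto_dh {ι : Type*} {l : Filter ι} {a : ι → ℝ} (ha : ∀ k, 0 < a k)
    (h0 : Tendsto a l (𝓝 0)) {χ : ℂ → ℝ}
    {z : ℂ} {L : ℂ →L[ℝ] ℝ} (hχ : HasStrictFDerivAt χ L z) (h : Fin 4) :
    Tendsto (fun k => dh (a k) χ h z) l (𝓝 (L (dir h))) :=
  tendsto_dq ha h0 hχ _ _

/-- sampled scalar -/
def Es (a : ℝ) (χ : ℂ → ℝ) (z : ℂ) : ℝ := χ (meshPoint a (meshIndex a z))

theorem measurable_Es (a : ℝ) (χ : ℂ → ℝ) : Measurable (Es a χ) := by
  have : Es a χ = (fun f : ℤ × ℤ => χ (meshPoint a f)) ∘ meshIndex a := rfl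
  rw [this]
  exact (measurable_of_countable _).comp (measurable_meshIndex a)

theorem tendsto_Es {ι : Type*} {l : Filter ι} {a : ι → ℝ} (ha : ∀ k, 0 < a k)
    (h0 : Tendsto a l (𝓝 0)) {χ : ℂ → ℝ}
    (hχ : Continuous χ) (z : ℂ) : Tendsto (fun k => Es (a k) χ z) l (𝓝 (χ z)) :=
  (hχ.tendsto z).comp (tendsto_meshPoint ha h0 z)

/-! ### supports -/

/-- a finite box containing all faces where `χ` or one of its neighbours does not vanish -/
theorem exists_box {a : ℝ} (ha : 0 < a) {χ : ℂ → ℝ} (hc : HasCompactSupport χ) :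
    ∃ K : Finset Face, (∀ f, f ∉ K → χ (meshPoint a f) = 0) ∧
      ∀ f, f ∉ K → ∀ h, χ (meshPoint a (nb f h)) = 0 := by
  obtain ⟨R, hR⟩ := hc.isCompact.isBounded.subset_closedBall (0 : ℂ)
  have hz : ∀ z : ℂ, R < ‖z‖ → χ z = 0 := by
    intro z h
    by_contra hne
    have h1 := hR (subset_tsupport χ (Function.mem_support.2 hne))
    rw [Metric.mem_closedBall, dist_zero_right] at h1
    linarith
  obtain ⟨N, hN⟩ := exists_nat_gt (R / a)
  have hN' : R < a * N := by rw [div_lt_iff₀ ha] at hN; linarith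
  have key : ∀ f : ℤ × ℤ, ((N : ℤ) ≤ |f.1| ∨ (N : ℤ) ≤ |f.2|) → χ (meshPoint a f) = 0 := by
    intro f hf
    apply hz
    rcases hf with hf | hf
    · calc R < a * N := hN'
        _ ≤ a * |(f.1 : ℝ)| := by
          refine mul_le_mul_of_nonneg_left ?_ ha.le
          exact_mod_cast hf
        _ = |(meshPoint a f).re| := by simp [meshPoint, abs_mul, abs_of_pos ha]
        _ ≤ _ := Complex.abs_re_le_norm _
    · calc R < a * N := hN'
        _ ≤ a * |(f.2 : ℝ)| := by
          refine mul_le_mul_of_nonneg_left ?_ ha.le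
          exact_mod_cast hf
        _ = |(meshPoint a f).im| := by simp [meshPoint, abs_mul, abs_of_pos ha]
        _ ≤ _ := Complex.abs_im_le_norm _
  refine ⟨Finset.Icc (-(N : ℤ)) N ×ˢ Finset.Icc (-(N : ℤ)) N, ?_, ?_⟩
  · intro f hf
    apply key
    simp only [Finset.mem_product, Finset.mem_Icc] at hf
    by_contra hc
    push Not at hc
    rw [abs_lt, abs_lt] at hc
    exact hf ⟨⟨hc.1.1.le, hc.1.2.le⟩, hc.2.1.le, hc.2.2.le⟩
  · intro f hf h
    apply key
    simp only [Finset.mem_product, Finset.mem_Icc] at hf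
    by_contra hc
    push Not at hc
    rw [abs_lt, abs_lt] at hc
    apply hf
    obtain ⟨⟨h1, h2⟩, h3, h4⟩ := hc
    fin_cases h <;> simp only [nb] at h1 h2 h3 h4 <;>
      exact ⟨⟨by omega, by omega⟩, by omega, by omega⟩

theorem Es_eq_zero {a : ℝ} (ha : 0 < a) {χ : ℂ → ℝ} {B : Set ℂ} {δ : ℝ} (hδ : 4 * a < δ)
    (hB : Metric.thickening δ (tsupport χ) ⊆ B) {z : ℂ} (hz : z ∉ B) : Es a χ z = 0 := by
  by_contra hne
  apply hz
  apply hB
  rw [Metric.mem_thickening_iff]
  refine ⟨meshPoint a (meshIndex a z), subset_tsupport χ (Function.mem_support.2 hne), ?_⟩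
  rw [dist_comm, dist_eq_norm]
  have := meshPoint_near ha z
  linarith

theorem dh_eq_zero {a : ℝ} (ha : 0 < a) {χ : ℂ → ℝ} {B : Set ℂ} {δ : ℝ} (hδ : 4 * a < δ)
    (hB : Metric.thickening δ (tsupport χ) ⊆ B) {z : ℂ} (hz : z ∉ B) (h : Fin 4) :
    dh a χ h z = 0 := by
  rw [dh_eq]
  have e1 : χ (meshPoint a (meshIndex a z)) = 0 := Es_eq_zero ha hδ hB hz
  have e2 : χ (meshPoint a (nb (meshIndex a z) h)) = 0 := by
    by_contra hne
    apply hz
    apply hB
    rw [Metric.mem_thickening_iff]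
    refine ⟨meshPoint a (nb (meshIndex a z) h), subset_tsupport χ (Function.mem_support.2 hne), ?_⟩
    rw [dist_comm, dist_eq_norm, nb_eq, meshPoint_add,
      show (⟨((off h).1 : ℤ), ((off h).2 : ℤ)⟩ : ℂ) = dir h from rfl]
    have h1 := meshPoint_near ha z
    have h2 : ‖(a : ℂ) * dir h‖ = a := by
      rw [norm_mul, norm_dir, Complex.norm_real, Real.norm_eq_abs, abs_of_pos ha, mul_one]
    have h3 : meshPoint a (meshIndex a z) + (a : ℂ) * dir h - z
        = (meshPoint a (meshIndex a z) - z) + (a : ℂ) * dir h := by ring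
    rw [h3]
    have := norm_add_le (meshPoint a (meshIndex a z) - z) ((a : ℂ) * dir h)
    linarith
  rw [e1, e2]
  ring

/-! ### the discrete laws as integrals -/

/-- scaled source -/
def src (a : ℝ) (w φ : Fld) : Fld := fun f h => a⁻¹ * A w φ f h

theorem A_eq_src {a : ℝ} (ha : 0 < a) (w φ : Fld) (f : Face) (h : Fin 4) :
    A w φ f h = a * src a w φ f h := by
  rw [src, ← mul_assoc, mul_inv_cancel₀ ha.ne', one_mul]

/-- the first law (summed (T+) with a cut-off), integral form -/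
theorem disc1 {a : ℝ} (ha : 0 < a) (w φ : Fld) (hw : Sym w) {χ : ℂ → ℝ} (hc : HasCompactSupport χ) :
    ∫ z, a⁻¹ * (Es a χ z * (4 * Real.sqrt 2 * hv (fun h => E a φ h z)
        + ∑ h, (xc ^ 2 - w (meshIndex a z) h ^ 2) * E a φ h z ^ 2))
      = ∫ z, Es a χ z * (2 * ∑ h, A0 (fun h => E a φ h z) h * E a (src a w φ) h z
          - a * ∑ h, E a (src a w φ) h z ^ 2)
        + ∑ h, dh a χ h z * (w (meshIndex a z) h ^ 2 * E a φ h z ^ 2) := by
  obtain ⟨K, hK1, hK2⟩ := exists_box ha hc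
  have hT := Tloc w φ hw (fun f => χ (meshPoint a f)) K hK1 hK2
  have hane := ha.ne'
  set F1 : Face → ℝ := fun f => a⁻¹ * (χ (meshPoint a f) * (4 * Real.sqrt 2 * hv (φ f)
      + ∑ h, (xc ^ 2 - w f h ^ 2) * φ f h ^ 2)) with hF1
  set F2 : Face → ℝ := fun f => χ (meshPoint a f) * (2 * ∑ h, A0 (φ f) h * src a w φ f h
      - a * ∑ h, src a w φ f h ^ 2)
      + ∑ h, a⁻¹ * (χ (meshPoint a (nb f h)) - χ (meshPoint a f)) * (w f h ^ 2 * φ f h ^ 2) with hF2
  have i1 := integral_mesh ha K F1 (fun f hf => by simp [hF1, hK1 f hf])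
  have i2 := integral_mesh ha K F2 (fun f hf => by simp [hF2, hK1 f hf, hK2 f hf])
  have e1 : ∀ z, a⁻¹ * (Es a χ z * (4 * Real.sqrt 2 * hv (fun h => E a φ h z)
        + ∑ h, (xc ^ 2 - w (meshIndex a z) h ^ 2) * E a φ h z ^ 2)) = F1 (meshIndex a z) :=
    fun z => rfl
  have e2 : ∀ z, Es a χ z * (2 * ∑ h, A0 (fun h => E a φ h z) h * E a (src a w φ) h z
          - a * ∑ h, E a (src a w φ) h z ^ 2)
        + ∑ h, dh a χ h z * (w (meshIndex a z) h ^ 2 * E a φ h z ^ 2) = F2 (meshIndex a z) := by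
    intro z
    simp only [dh_eq, hF2]
    rfl
  simp_rw [e1, e2]
  rw [i1, i2]
  have s1 : ∑ f ∈ K, F1 f = a⁻¹ * ∑ f ∈ K, χ (meshPoint a f) * (4 * Real.sqrt 2 * hv (φ f)
      + ∑ h, (xc ^ 2 - w f h ^ 2) * φ f h ^ 2) := by rw [Finset.mul_sum]
  rw [s1, hT]
  have s2 : ∀ f, F2 f = a⁻¹ * (χ (meshPoint a f) * (2 * ∑ h, A0 (φ f) h * A w φ f h
        - nsq (A w φ f))) + a⁻¹ * ∑ h, (χ (meshPoint a (nb f h)) - χ (meshPoint a f))
        * (w f h ^ 2 * φ f h ^ 2) := by
    intro f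
    simp only [hF2, A_eq_src ha w φ f, nsq, Fin.sum_univ_four]
    field_simp
  simp_rw [s2]
  rw [Finset.sum_add_distrib, ← Finset.mul_sum, ← Finset.mul_sum, mul_add]

theorem A0_skew (p : Fin 4 → ℝ) : ∑ h, p h * A0 p h = 0 := by
  rw [Fin.sum_univ_four]
  simp only [A0_zero, A0_one, A0_two, A0_three]
  ring

/-- the second law (antisymmetry of `A`) with a cut-off -/
theorem antisym (w φ : Fld) (hw : Sym w) (c : Face → ℝ) (K : Finset Face)
    (h1 : ∀ f, f ∉ K → c f = 0) (h2 : ∀ f, f ∉ K → ∀ h, c (nb f h) = 0) :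
    ∑ f ∈ K, ∑ h, (c (nb f h) - c f) * (φ f h * (A w φ f h - A0 (φ f) h))
      = - 2 * ∑ f ∈ K, c f * ∑ h, φ f h * A w φ f h := by
  have hY : ∀ f h, A w φ f h - A0 (φ f) h = Y w φ f h := fun f h => by simp [A]
  have key : ∑ f ∈ K, ∑ h, c (nb f h) * (φ f h * Y w φ f h)
      = - ∑ f ∈ K, ∑ h, c f * (φ f h * Y w φ f h) := by
    have := sum_bar K (fun f h => c f * (φ f h * Y w φ f h))
      (fun f hf h => by rw [h1 f hf, zero_mul])
      (fun f hf h => by rw [h2 f hf h, zero_mul])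
    rw [← this, ← Finset.sum_neg_distrib]
    refine Finset.sum_congr rfl fun f _ => ?_
    rw [← Finset.sum_neg_distrib]
    refine Finset.sum_congr rfl fun h _ => ?_
    unfold Y
    rw [hw f h, nb_nb_op, op_op, sg_op]
    ring
  simp_rw [hY, sub_mul, Finset.sum_sub_distrib]
  rw [key]
  have e : ∑ f ∈ K, ∑ h, c f * (φ f h * Y w φ f h) = ∑ f ∈ K, c f * ∑ h, φ f h * A w φ f h := by
    refine Finset.sum_congr rfl fun f _ => ?_
    rw [← Finset.mul_sum]
    congr 1
    have : ∑ h, φ f h * A w φ f h = ∑ h, φ f h * Y w φ f h + ∑ h, φ f h * A0 (φ f) h := by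
      rw [← Finset.sum_add_distrib]
      refine Finset.sum_congr rfl fun h _ => ?_
      rw [← hY]
      ring
    rw [this, A0_skew, add_zero]
  rw [e]
  ring

theorem disc2 {a : ℝ} (ha : 0 < a) (w φ : Fld) (hw : Sym w) {χ : ℂ → ℝ} (hc : HasCompactSupport χ) :
    ∫ z, ∑ h, dh a χ h z * (E a φ h z * (a * E a (src a w φ) h z - A0 (fun h => E a φ h z) h))
      = ∫ z, -2 * (Es a χ z * ∑ h, E a φ h z * E a (src a w φ) h z) := by
  obtain ⟨K, hK1, hK2⟩ := exists_box ha hc
  have hT := antisym w φ hw (fun f => χ (meshPoint a f)) K hK1 hK2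
  have hane := ha.ne'
  set F1 : Face → ℝ := fun f => ∑ h, a⁻¹ * (χ (meshPoint a (nb f h)) - χ (meshPoint a f))
      * (φ f h * (a * src a w φ f h - A0 (φ f) h)) with hF1
  set F2 : Face → ℝ := fun f => -2 * (χ (meshPoint a f) * ∑ h, φ f h * src a w φ f h) with hF2
  have i1 := integral_mesh ha K F1 (fun f hf => by simp [hF1, hK1 f hf, hK2 f hf])
  have i2 := integral_mesh ha K F2 (fun f hf => by simp [hF2, hK1 f hf])
  have e1 : ∀ z, ∑ h, dh a χ h z * (E a φ h z * (a * E a (src a w φ) h z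
      - A0 (fun h => E a φ h z) h)) = F1 (meshIndex a z) := by
    intro z
    simp only [dh_eq, hF1]
    rfl
  have e2 : ∀ z, -2 * (Es a χ z * ∑ h, E a φ h z * E a (src a w φ) h z) = F2 (meshIndex a z) :=
    fun z => rfl
  simp_rw [e1, e2]
  rw [i1, i2]
  congr 1
  have s1 : ∀ f, F1 f = a⁻¹ * ∑ h, (χ (meshPoint a (nb f h)) - χ (meshPoint a f))
      * (φ f h * (A w φ f h - A0 (φ f) h)) := by
    intro f
    simp only [hF1, A_eq_src ha w φ f, Finset.mul_sum]
    refine Finset.sum_congr rfl fun h _ => ?_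
    ring
  simp_rw [s1]
  rw [← Finset.mul_sum, hT, Finset.mul_sum, Finset.mul_sum]
  refine Finset.sum_congr rfl fun f _ => ?_
  simp only [hF2, A_eq_src ha w φ f, Finset.mul_sum]
  refine Finset.sum_congr rfl fun h _ => ?_
  field_simp

end Crest.Agent.R165.LimQx610
end
private theorem rz_57f8cc264e : type_of% @_root_.Crest.Agent.R165.LimQx610.off.eq_1 := @_root_.Crest.Agent.R165.LimQx610.off.eq_1 -- L38
end

-- ▼ part R165/LimR_610

/-!
# Row 165, blocks R / U4: the limit laws (helper610)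

`LD l D B a w φ Φ G`: along the filter `l`, mesh `a → 0`, `E φ → Φ`, `E (a⁻¹ A φ) → G` strongly in
`L²(B)`.  Consequences for the limit fields, for test functions `χ` (Lipschitz, compact support,
a neighbourhood of the support inside `B`, strictly differentiable on `D`):

* `LD.law1`  : `0 ≤ χ → 0 ≤ 2 ∫_B χ ⟨A0 Φ, G⟩ + x² ∫_B ∑_h ∂_h χ Φ_h²`;
* `LD.heavy` : `0 ≤ χ → ∫_B χ hv Φ = 0`;
* `LD.law2`  : `∫_B ∑_h ∂_h χ Φ_h (A0 Φ)_h = 2 ∫_B χ ⟨Φ, G⟩`.
-/

set_option autoImplicit false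

noncomputable section

open MeasureTheory Filter Topology Set
open Crest.ProbabilityR.IsingModel
open Crest.Agent.R165.Tr1x40 Crest.Agent.R165.LimAx610 Crest.Agent.R165.LimQx610
open scoped ENNReal

namespace Crest.Agent.R165.LimRx610

/-! ### sums of products -/

section prod

variable {α : Type*} [MeasurableSpace α] {μ : Measure α}

/-- `∫ ∑_j γ_j f_j g_j → ∫ ∑_j Γ_j F_j G_j` -/
theorem prod_lim_sum {ι : Type*} {l : Filter ι} [l.IsCountablyGenerated] {J : Type*}
    (s : Finset J) {f g : J → ι → α → ℝ} {F G : J → α → ℝ}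
    (hf : ∀ j k, AEStronglyMeasurable (f j k) μ) (hg : ∀ j k, AEStronglyMeasurable (g j k) μ)
    (hF : ∀ j, MemLp (F j) 2 μ) (hG : ∀ j, MemLp (G j) 2 μ)
    (h1 : ∀ j, Tendsto (fun k => eLpNorm (fun x => f j k x - F j x) 2 μ) l (𝓝 0))
    (h2 : ∀ j, Tendsto (fun k => eLpNorm (fun x => g j k x - G j x) 2 μ) l (𝓝 0))
    {γ : J → ι → α → ℝ} {Γ : J → α → ℝ} {M : J → ℝ}
    (hγm : ∀ j k, AEStronglyMeasurable (γ j k) μ)
    (hM : ∀ j, ∀ᶠ k in l, ∀ᵐ x ∂μ, |γ j k x| ≤ M j)
    (hγ : ∀ j, ∀ᵐ x ∂μ, F j x * G j x = 0 ∨ Tendsto (fun k => γ j k x) l (𝓝 (Γ j x)))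
    (hΓ : ∀ j, Integrable (fun x => Γ j x * (F j x * G j x)) μ) :
    Tendsto (fun k => ∫ x, ∑ j ∈ s, γ j k x * (f j k x * g j k x) ∂μ) l
      (𝓝 (∫ x, ∑ j ∈ s, Γ j x * (F j x * G j x) ∂μ)) ∧
    (∀ᶠ k in l, Integrable (fun x => ∑ j ∈ s, γ j k x * (f j k x * g j k x)) μ) ∧
    Integrable (fun x => ∑ j ∈ s, Γ j x * (F j x * G j x)) μ := by
  have hlim : Tendsto (fun k => ∑ j ∈ s, ∫ x, γ j k x * (f j k x * g j k x) ∂μ) l
      (𝓝 (∑ j ∈ s, ∫ x, Γ j x * (F j x * G j x) ∂μ)) :=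
    tendsto_finsetSum _ fun j _ => prod_lim (hf j) (hg j) (hF j) (hG j) (h1 j) (h2 j)
      (hγm j) (hM j) (hγ j)
  rw [integral_finsetSum _ fun j _ => hΓ j]
  have hint : ∀ᶠ k in l, ∀ j ∈ s, Integrable (fun x => γ j k x * (f j k x * g j k x)) μ := by
    rw [Filter.eventually_all_finset]
    intro j _
    have d2 := tendsto_eLpNorm_mul (hf j) (hg j) (hF j) (hG j) (h1 j) (h2 j)
    filter_upwards [d2.eventually (gt_mem_nhds (show (0 : ℝ≥0∞) < 1 by simp)), hM j] with k hk hMk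
    have hFG : Integrable (fun x => F j x * G j x) μ := (hF j).integrable_mul (hG j)
    have hi : Integrable (fun x => f j k x * g j k x - F j x * G j x) μ := by
      rw [← memLp_one_iff_integrable]
      exact ⟨((hf j k).mul (hg j k)).sub hFG.1, hk.trans ENNReal.one_lt_top⟩
    have hi' : Integrable (fun x => f j k x * g j k x) μ := by
      have := hi.add hFG
      refine this.congr (Eventually.of_forall fun x => ?_)
      simp
    refine hi'.bdd_mul (c := M j) (hγm j k) ?_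
    filter_upwards [hMk] with x hx
    rwa [Real.norm_eq_abs]
  refine ⟨hlim.congr' ?_, ?_, integrable_finsetSum _ fun j _ => hΓ j⟩
  · filter_upwards [hint] with k hk
    rw [integral_finsetSum _ hk]
  · filter_upwards [hint] with k hk
    exact integrable_finsetSum _ hk

end prod

/-! ### the limit data -/

/-- pointwise form of the data, for countably generated filters -/
structure LD0 {ι : Type*} (l : Filter ι) (D B : Set ℂ) (a : ι → ℝ) (w φ : ι → Fld)
    (Φ G : Fin 4 → ℂ → ℝ) : Prop where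
  pos : ∀ k, 0 < a k
  lim : Tendsto a l (𝓝 0)
  sym : ∀ k, Sym (w k)
  plus : ∀ k, IsPlus (w k)
  opn : IsOpen D
  meas : MeasurableSet B
  memΦ : ∀ h, MemLp (Φ h) 2 (volume.restrict B)
  memG : ∀ h, MemLp (G h) 2 (volume.restrict B)
  zero : ∀ h, ∀ᵐ z ∂(volume.restrict B), z ∉ D → Φ h z = 0
  crit : ∀ z ∈ D, ∀ᶠ k in l, ∀ h, w k (meshIndex (a k) z) h ^ 2 = xc ^ 2
  convΦ : ∀ h, Tendsto (fun k => eLpNorm (fun z => E (a k) (φ k) h z - Φ h z) 2
    (volume.restrict B)) l (𝓝 0)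
  convG : ∀ h, Tendsto (fun k => eLpNorm (fun z => E (a k) (src (a k) (w k) (φ k)) h z - G h z) 2
    (volume.restrict B)) l (𝓝 0)

/-- `A0` on continuum fields -/
def A0c (Φ : Fin 4 → ℂ → ℝ) (h : Fin 4) (z : ℂ) : ℝ := A0 (fun j => Φ j z) h

/-- coefficients of `A0` -/
def ac (h j : Fin 4) : ℝ := A0 (fun i => if i = j then 1 else 0) h

theorem A0_eq_sum (p : Fin 4 → ℝ) (h : Fin 4) : A0 p h = ∑ j, ac h j * p j := by
  fin_cases h <;> simp [ac, Fin.sum_univ_four] <;> ring

theorem memLp_A0c {μ : Measure ℂ} {Φ : Fin 4 → ℂ → ℝ} (h : ∀ j, MemLp (Φ j) 2 μ) (i : Fin 4) :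
    MemLp (A0c Φ i) 2 μ := by
  have : A0c Φ i = fun z => ∑ j, ac i j * Φ j z := funext fun z => A0_eq_sum _ _
  rw [this]
  exact memLp_finsetSum _ fun j _ => (h j).const_mul _

theorem tendsto_A0c {ι : Type*} {l : Filter ι} {μ : Measure ℂ} {f : ι → Fin 4 → ℂ → ℝ}
    {Φ : Fin 4 → ℂ → ℝ} (hf : ∀ k j, AEStronglyMeasurable (f k j) μ)
    (h : ∀ j, MemLp (Φ j) 2 μ)
    (hc : ∀ j, Tendsto (fun k => eLpNorm (fun z => f k j z - Φ j z) 2 μ) l (𝓝 0)) (i : Fin 4) :
    Tendsto (fun k => eLpNorm (fun z => A0c (f k) i z - A0c Φ i z) 2 μ) l (𝓝 0) := by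
  have hb : ∀ k, eLpNorm (fun z => A0c (f k) i z - A0c Φ i z) 2 μ
      ≤ ∑ j, ‖ac i j‖ₑ * eLpNorm (fun z => f k j z - Φ j z) 2 μ := by
    intro k
    have e : (fun z => A0c (f k) i z - A0c Φ i z)
        = fun z => ∑ j, ac i j * (f k j z - Φ j z) := by
      funext z
      rw [A0c, A0c, A0_eq_sum, A0_eq_sum, ← Finset.sum_sub_distrib]
      exact Finset.sum_congr rfl fun j _ => by ring
    rw [e]
    have e2 : (fun z => ∑ j, ac i j * (f k j z - Φ j z))
        = ∑ j, fun z => ac i j * (f k j z - Φ j z) := by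
      funext z; simp
    rw [e2]
    refine (eLpNorm_sum_le (fun j _ => ((hf k j).sub (h j).1).const_mul _) (by norm_num)).trans ?_
    refine Finset.sum_le_sum fun j _ => ?_
    have := eLpNorm_const_smul_le (c := ac i j) (f := fun z => f k j z - Φ j z) (p := 2) (μ := μ)
    exact this
  have hlim : Tendsto (fun k => ∑ j, ‖ac i j‖ₑ * eLpNorm (fun z => f k j z - Φ j z) 2 μ) l
      (𝓝 0) := by
    have := tendsto_finsetSum (Finset.univ : Finset (Fin 4)) fun j _ =>
      ENNReal.Tendsto.const_mul (a := ‖ac i j‖ₑ) (hc j) (Or.inr enorm_ne_top)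
    simpa using this
  exact tendsto_of_tendsto_of_tendsto_of_le_of_le tendsto_const_nhds hlim (fun _ => bot_le) hb

/-- test functions -/
structure Test (D B : Set ℂ) (χ : ℂ → ℝ) (C : NNReal) : Prop where
  lip : LipschitzWith C χ
  cpt : HasCompactSupport χ
  nbd : ∃ δ > 0, Metric.thickening δ (tsupport χ) ⊆ B
  der : ∀ z ∈ D, HasStrictFDerivAt χ (fderiv ℝ χ z) z

theorem Test.of_contDiffOn {D B : Set ℂ} {χ : ℂ → ℝ} {C : NNReal} (hD : IsOpen D)
    (lip : LipschitzWith C χ) (cpt : HasCompactSupport χ)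
    (nbd : ∃ δ > 0, Metric.thickening δ (tsupport χ) ⊆ B) (hχ : ContDiffOn ℝ 1 χ D) :
    Test D B χ C :=
  ⟨lip, cpt, nbd, fun _ hz => (hχ.contDiffAt (hD.mem_nhds hz)).hasStrictFDerivAt (by norm_num)⟩

theorem Test.bdd {D B : Set ℂ} {χ : ℂ → ℝ} {C : NNReal} (T : Test D B χ C) :
    ∃ M, 0 ≤ M ∧ ∀ z, |χ z| ≤ M := by
  obtain ⟨M, hM⟩ := T.cpt.exists_bound_of_continuous T.lip.continuous
  exact ⟨max M 0, le_max_right _ _, fun z => ((Real.norm_eq_abs _).symm.le.trans (hM z)).trans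
    (le_max_left _ _)⟩

/-- derivative of the cut-off in the direction `h` -/
def dχ (χ : ℂ → ℝ) (h : Fin 4) (z : ℂ) : ℝ := fderiv ℝ χ z (dir h)

theorem measurable_dχ (χ : ℂ → ℝ) (h : Fin 4) : Measurable (dχ χ h) :=
  measurable_fderiv_apply_const ℝ χ (dir h)

theorem abs_dχ_le {χ : ℂ → ℝ} {C : NNReal} (hχ : LipschitzWith C χ) (h : Fin 4) (z : ℂ) :
    |dχ χ h z| ≤ C := by
  have h1 := (fderiv ℝ χ z).le_opNorm (dir h)
  rw [norm_dir, mul_one, Real.norm_eq_abs] at h1
  exact h1.trans (norm_fderiv_le_of_lipschitz ℝ hχ)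

theorem dχ_zero (χ : ℂ → ℝ) (z : ℂ) : dχ χ 0 z = - fderiv ℝ χ z Complex.I := by
  rw [dχ, dir_zero, map_neg]
theorem dχ_one (χ : ℂ → ℝ) (z : ℂ) : dχ χ 1 z = fderiv ℝ χ z 1 := by rw [dχ, dir_one]
theorem dχ_two (χ : ℂ → ℝ) (z : ℂ) : dχ χ 2 z = fderiv ℝ χ z Complex.I := by rw [dχ, dir_two]
theorem dχ_three (χ : ℂ → ℝ) (z : ℂ) : dχ χ 3 z = - fderiv ℝ χ z 1 := by
  rw [dχ, dir_three, map_neg]

variable {ι : Type*} {l : Filter ι} {D B : Set ℂ} {a : ι → ℝ} {w φ : ι → Fld}
  {Φ G : Fin 4 → ℂ → ℝ}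

theorem LD0.small (H : LD0 l D B a w φ Φ G) {δ : ℝ} (hδ : 0 < δ) : ∀ᶠ k in l, 4 * a k < δ := by
  have : Tendsto (fun k => 4 * a k) l (𝓝 (4 * 0)) := H.lim.const_mul 4
  rw [mul_zero] at this
  exact this.eventually (gt_mem_nhds hδ)

/-- weights sampled at a point of the plane -/
theorem measurable_w (a : ℝ) (w : Fld) (h : Fin 4) :
    Measurable fun z => w (meshIndex a z) h := measurable_E a w h

/-- terms with the cut-off itself -/
theorem LD0.lim_src [l.IsCountablyGenerated] (H : LD0 l D B a w φ Φ G) {χ : ℂ → ℝ} {C : NNReal}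
    (T : Test D B χ C) {f g : Fin 4 → ι → ℂ → ℝ} {F K : Fin 4 → ℂ → ℝ}
    (hf : ∀ h k, AEStronglyMeasurable (f h k) (volume.restrict B))
    (hF : ∀ h, MemLp (F h) 2 (volume.restrict B))
    (hc : ∀ h, Tendsto (fun k => eLpNorm (fun z => f h k z - F h z) 2 (volume.restrict B)) l (𝓝 0))
    (hg : ∀ h k, AEStronglyMeasurable (g h k) (volume.restrict B))
    (hK : ∀ h, MemLp (K h) 2 (volume.restrict B))
    (hc' : ∀ h, Tendsto (fun k => eLpNorm (fun z => g h k z - K h z) 2
      (volume.restrict B)) l (𝓝 0)) :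
    Tendsto (fun k => ∫ z in B, ∑ h, Es (a k) χ z * (f h k z * g h k z)) l
      (𝓝 (∫ z in B, ∑ h, χ z * (F h z * K h z))) ∧
    (∀ᶠ k in l, Integrable (fun z => ∑ h, Es (a k) χ z * (f h k z * g h k z))
      (volume.restrict B)) ∧
    Integrable (fun z => ∑ h, χ z * (F h z * K h z)) (volume.restrict B) := by
  obtain ⟨M, hM0, hM⟩ := T.bdd
  refine prod_lim_sum (M := fun _ => M) Finset.univ hf hg hF hK hc hc'
    (fun h k => (measurable_Es _ _).aestronglyMeasurable)
    (fun h => Eventually.of_forall fun k => Eventually.of_forall fun z => hM _)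
    (fun h => Eventually.of_forall fun z => Or.inr (tendsto_Es H.pos H.lim T.lip.continuous z))
    fun h => ?_
  exact ((hF h).integrable_mul (hK h)).bdd_mul (c := M) T.lip.continuous.aestronglyMeasurable
    (Eventually.of_forall fun z => by rw [Real.norm_eq_abs]; exact hM z)

/-- terms with a derivative of the cut-off and a bounded coefficient `c` -/
theorem LD0.lim_grad [l.IsCountablyGenerated] (H : LD0 l D B a w φ Φ G) {χ : ℂ → ℝ} {C : NNReal}
    (T : Test D B χ C) {g : Fin 4 → ι → ℂ → ℝ} {F : Fin 4 → ℂ → ℝ}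
    (hg : ∀ h k, AEStronglyMeasurable (g h k) (volume.restrict B))
    (hF : ∀ h, MemLp (F h) 2 (volume.restrict B))
    (hc : ∀ h, Tendsto (fun k => eLpNorm (fun z => g h k z - F h z) 2 (volume.restrict B)) l (𝓝 0))
    {c : Fin 4 → ι → ℂ → ℝ} {c0 M : ℝ} (hcm : ∀ h k, Measurable (c h k))
    (hcb : ∀ h k z, |c h k z| ≤ M) (hcl : ∀ h, ∀ z ∈ D, Tendsto (fun k => c h k z) l (𝓝 c0)) :
    Tendsto (fun k => ∫ z in B, ∑ h, (dh (a k) χ h z * c h k z) * (E (a k) (φ k) h z * g h k z)) l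
      (𝓝 (∫ z in B, ∑ h, (dχ χ h z * c0) * (Φ h z * F h z))) ∧
    (∀ᶠ k in l, Integrable (fun z => ∑ h, (dh (a k) χ h z * c h k z)
      * (E (a k) (φ k) h z * g h k z)) (volume.restrict B)) ∧
    Integrable (fun z => ∑ h, (dχ χ h z * c0) * (Φ h z * F h z)) (volume.restrict B) := by
  refine prod_lim_sum (M := fun _ => C * M) Finset.univ
    (fun h k => (measurable_E _ _ _).aestronglyMeasurable) hg H.memΦ hF H.convΦ hc
    (fun h k => ((measurable_dh _ _ _).mul (hcm h k)).aestronglyMeasurable)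
    (fun h => Eventually.of_forall fun k => Eventually.of_forall fun z => ?_)
    (fun h => ?_)
    fun h => ?_
  · rw [abs_mul]
    exact mul_le_mul (abs_dh_le (H.pos k) T.lip h z) (hcb h k z) (abs_nonneg _) C.2
  · filter_upwards [H.zero h] with z hz
    by_cases hzD : z ∈ D
    · right
      exact (tendsto_dh H.pos H.lim (T.der z hzD) h).mul (hcl h z hzD)
    · left
      rw [hz hzD, zero_mul]
  · refine ((H.memΦ h).integrable_mul (hF h)).bdd_mul (c := C * |c0|)
      ((measurable_dχ χ h).mul_const c0).aestronglyMeasurable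
      (Eventually.of_forall fun z => ?_)
    rw [Real.norm_eq_abs, abs_mul]
    exact mul_le_mul_of_nonneg_right (abs_dχ_le T.lip h z) (abs_nonneg _)

theorem w_sq_le {w : Fld} (hw : IsPlus w) (f : Face) (h : Fin 4) : w f h ^ 2 ≤ xc ^ 2 := by
  rcases hw f h with h1 | h1
  · exact h1.le
  · rw [h1]; simpa using sq_nonneg xc

/-- `∫ = ∫_B` for functions vanishing off `B` -/
theorem int_B {F : ℂ → ℝ} (h : ∀ z, z ∉ B → F z = 0) : ∫ z, F z = ∫ z in B, F z :=
  (setIntegral_eq_integral_of_forall_compl_eq_zero h).symm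

theorem LD0.mE (_ : LD0 l D B a w φ Φ G) (h : Fin 4) (k : ι) :
    AEStronglyMeasurable (E (a k) (φ k) h) (volume.restrict B) :=
  (measurable_E _ _ _).aestronglyMeasurable

theorem LD0.mG (_ : LD0 l D B a w φ Φ G) (h : Fin 4) (k : ι) :
    AEStronglyMeasurable (E (a k) (src (a k) (w k) (φ k)) h) (volume.restrict B) :=
  (measurable_E _ _ _).aestronglyMeasurable

theorem measurable_A0c {f : Fin 4 → ℂ → ℝ} (hf : ∀ j, Measurable (f j)) (h : Fin 4) :
    Measurable (A0c f h) := by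
  have : A0c f h = fun z => ∑ j, ac h j * f j z := funext fun z => A0_eq_sum _ _
  rw [this]
  fun_prop

/-- the right-hand side of `disc1` converges -/
theorem LD0.rhs1 [l.IsCountablyGenerated] (H : LD0 l D B a w φ Φ G) {χ : ℂ → ℝ} {C : NNReal}
    (T : Test D B χ C) :
    Tendsto (fun k => ∫ z, (Es (a k) χ z * (2 * ∑ h, A0 (fun h => E (a k) (φ k) h z) h *
            E (a k) (src (a k) (w k) (φ k)) h z
          - a k * ∑ h, E (a k) (src (a k) (w k) (φ k)) h z ^ 2)
        + ∑ h, dh (a k) χ h z * (w k (meshIndex (a k) z) h ^ 2 * E (a k) (φ k) h z ^ 2))) l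
      (𝓝 (2 * (∫ z in B, ∑ h, χ z * (A0c Φ h z * G h z))
        + ∫ z in B, ∑ h, (dχ χ h z * xc ^ 2) * (Φ h z * Φ h z))) := by
  obtain ⟨δ, hδ, hB⟩ := T.nbd
  obtain ⟨l1, i1, -⟩ := H.lim_src T
    (fun h k => (measurable_A0c (fun j => measurable_E (a k) (φ k) j) h).aestronglyMeasurable)
    (memLp_A0c H.memΦ) (tendsto_A0c (fun k j => H.mE j k) H.memΦ H.convΦ) H.mG H.memG H.convG
  obtain ⟨l2, i2, -⟩ := H.lim_src T H.mG H.memG H.convG H.mG H.memG H.convG
  obtain ⟨l3, i3, -⟩ := H.lim_grad T (c := fun h k z => w k (meshIndex (a k) z) h ^ 2)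
    (c0 := xc ^ 2) (M := xc ^ 2) H.mE H.memΦ H.convΦ
    (fun h k => (measurable_w _ _ _).pow_const 2)
    (fun h k z => by
      rw [abs_of_nonneg (sq_nonneg _)]
      exact w_sq_le (H.plus k) _ _)
    (fun h z hz => tendsto_const_nhds.congr' (by
      filter_upwards [H.crit z hz] with k hk
      rw [hk h]))
  have lim := ((l1.const_mul 2).sub (H.lim.mul l2)).add l3
  rw [zero_mul, sub_zero] at lim
  refine lim.congr' ?_
  filter_upwards [H.small hδ, i1, i2, i3] with k hk j1 j2 j3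
  rw [int_B (B := B), ← integral_const_mul, ← integral_const_mul, ← integral_sub, ← integral_add]
  · refine integral_congr_ae (Eventually.of_forall fun z => ?_)
    simp only [A0c, Fin.sum_univ_four]
    ring
  · exact (j1.const_mul 2).sub (j2.const_mul (a k))
  · exact j3
  · exact j1.const_mul 2
  · exact j2.const_mul (a k)
  · intro z hz
    rw [Es_eq_zero (H.pos k) hk hB hz, zero_mul, zero_add]
    exact Finset.sum_eq_zero fun h _ => by rw [dh_eq_zero (H.pos k) hk hB hz, zero_mul]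

/-- lattice left-hand side of the first law is nonnegative -/
theorem lhs1_nonneg {a : ℝ} (ha : 0 < a) {w φ : Fld} (hw : IsPlus w) {χ : ℂ → ℝ}
    (h0 : ∀ z, 0 ≤ χ z) (z : ℂ) :
    0 ≤ a⁻¹ * (Es a χ z * (4 * Real.sqrt 2 * hv (fun h => E a φ h z)
        + ∑ h, (xc ^ 2 - w (meshIndex a z) h ^ 2) * E a φ h z ^ 2)) := by
  refine mul_nonneg (inv_nonneg.2 ha.le) (mul_nonneg (h0 _) (add_nonneg ?_ ?_))
  · exact mul_nonneg (by positivity) (hv_nonneg _)
  · exact Finset.sum_nonneg fun h _ => mul_nonneg (sub_nonneg.2 (w_sq_le hw _ _)) (sq_nonneg _)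

/-- **first law** -/
theorem LD0.law1 [l.IsCountablyGenerated] [l.NeBot] (H : LD0 l D B a w φ Φ G) {χ : ℂ → ℝ}
    {C : NNReal} (T : Test D B χ C) (h0 : ∀ z, 0 ≤ χ z) :
    0 ≤ 2 * (∫ z in B, ∑ h, χ z * (A0c Φ h z * G h z))
        + ∫ z in B, ∑ h, (dχ χ h z * xc ^ 2) * (Φ h z * Φ h z) := by
  refine ge_of_tendsto (H.rhs1 T) (Eventually.of_forall fun k => ?_)
  rw [← disc1 (H.pos k) (w k) (φ k) (H.sym k) T.cpt]
  exact integral_nonneg fun z => lhs1_nonneg (H.pos k) (H.plus k) h0 z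


/-- **second law** -/
theorem LD0.law2 [l.IsCountablyGenerated] [l.NeBot] (H : LD0 l D B a w φ Φ G) {χ : ℂ → ℝ}
    {C : NNReal} (T : Test D B χ C) :
    ∫ z in B, ∑ h, dχ χ h z * (Φ h z * A0c Φ h z)
      = 2 * ∫ z in B, ∑ h, χ z * (Φ h z * G h z) := by
  obtain ⟨δ, hδ, hB⟩ := T.nbd
  obtain ⟨l1, i1, j1⟩ := H.lim_grad T (c := fun _ _ _ => (1 : ℝ)) (c0 := 1) (M := 1)
    (fun h k => (measurable_A0c (fun j => measurable_E (a k) (φ k) j) h).aestronglyMeasurable)
    (memLp_A0c H.memΦ) (tendsto_A0c (fun k j => H.mE j k) H.memΦ H.convΦ)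
    (fun _ _ => measurable_const) (fun _ _ _ => by simp) (fun _ _ _ => tendsto_const_nhds)
  obtain ⟨l2, i2, j2⟩ := H.lim_grad T (c := fun _ _ _ => (1 : ℝ)) (c0 := 1) (M := 1)
    H.mG H.memG H.convG
    (fun _ _ => measurable_const) (fun _ _ _ => by simp) (fun _ _ _ => tendsto_const_nhds)
  obtain ⟨l3, i3, j3⟩ := H.lim_src T H.mE H.memΦ H.convΦ H.mG H.memG H.convG
  have lim := l1.sub (H.lim.mul l2)
  rw [zero_mul, sub_zero] at lim
  have lim' := l3.const_mul 2
  have e : ∀ᶠ k in l, (∫ z in B, ∑ h, (dh (a k) χ h z * 1) * (E (a k) (φ k) h z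
        * A0c (E (a k) (φ k)) h z))
      - a k * ∫ z in B, ∑ h, (dh (a k) χ h z * 1) * (E (a k) (φ k) h z
        * E (a k) (src (a k) (w k) (φ k)) h z)
      = 2 * ∫ z in B, ∑ h, Es (a k) χ z * (E (a k) (φ k) h z
        * E (a k) (src (a k) (w k) (φ k)) h z) := by
    filter_upwards [i1, i2, H.small hδ] with k k1 k2 hk
    have hd := disc2 (H.pos k) (w k) (φ k) (H.sym k) T.cpt
    rw [int_B (B := B), int_B (B := B)] at hd
    · rw [← integral_const_mul, ← integral_sub k1 (k2.const_mul _), ← integral_const_mul]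
      have hd' := congrArg (fun x : ℝ => -x) hd
      simp only [← integral_neg] at hd'
      calc _ = ∫ z in B, -∑ h, dh (a k) χ h z * (E (a k) (φ k) h z * (a k *
            E (a k) (src (a k) (w k) (φ k)) h z - A0 (fun h => E (a k) (φ k) h z) h)) := by
            refine integral_congr_ae (Eventually.of_forall fun z => ?_)
            simp only [A0c, Fin.sum_univ_four]
            ring
        _ = _ := hd'
        _ = _ := by
            refine integral_congr_ae (Eventually.of_forall fun z => ?_)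
            simp only [Fin.sum_univ_four]
            ring
    · intro z hz
      rw [Es_eq_zero (H.pos k) hk hB hz]
      ring
    · intro z hz
      exact Finset.sum_eq_zero fun h _ => by rw [dh_eq_zero (H.pos k) hk hB hz, zero_mul]
  have := tendsto_nhds_unique (lim.congr' e) lim'
  simpa only [mul_one] using this

/-! ### the linear law -/

theorem meshIndex_meshPoint {a : ℝ} (ha : 0 < a) (f : Face) : meshIndex a (meshPoint a f) = f := by
  rw [← mem_cell, mem_cell_iff ha]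
  simp only [meshPoint]
  refine ⟨⟨le_rfl, ?_⟩, le_rfl, ?_⟩ <;> nlinarith

/-- discrete linear law against `χ e`, `e` light, where the weights are exactly critical -/
theorem disc0 {a : ℝ} (ha : 0 < a) (w φ : Fld) (hw : Sym w) {χ : ℂ → ℝ}
    (hc : HasCompactSupport χ) {e : Fin 4 → ℝ} (he : ∀ h, A0 e h + xc * sg h * e (op h) = 0)
    (hcr : ∀ z, (Es a χ z ≠ 0 ∨ ∃ h, dh a χ h z ≠ 0) → ∀ h, w (meshIndex a z) h = xc) :
    ∫ z, ∑ h, Es a χ z * (e h * E a (src a w φ) h z)
      = ∫ z, -xc * ∑ h, dh a χ h z * (sg h * e (op h) * E a φ h z) := by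
  obtain ⟨K, hK1, hK2⟩ := exists_box ha hc
  have hane := ha.ne'
  -- antisymmetry
  have hY : ∑ f ∈ K, ∑ h, χ (meshPoint a f) * (e h * Y w φ f h)
      = - ∑ f ∈ K, ∑ h, χ (meshPoint a (nb f h)) * (sg h * w f h * e (op h) * φ f h) := by
    have := sum_bar K (fun f h => χ (meshPoint a f) * (e h * Y w φ f h))
      (fun f hf h => by rw [hK1 f hf, zero_mul])
      (fun f hf h => by rw [hK2 f hf h, zero_mul])
    rw [← this, ← Finset.sum_neg_distrib]
    refine Finset.sum_congr rfl fun f _ => ?_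
    rw [← Finset.sum_neg_distrib]
    refine Finset.sum_congr rfl fun h _ => ?_
    unfold Y
    rw [hw f h, nb_nb_op, op_op, sg_op]
    ring
  have h0 : ∀ f, ∑ h, e h * A0 (φ f) h = - ∑ h, A0 e h * φ f h := by
    intro f
    simp only [Fin.sum_univ_four, A0_zero, A0_one, A0_two, A0_three]
    ring
  set F1 : Face → ℝ := fun f => ∑ h, χ (meshPoint a f) * (e h * src a w φ f h) with hF1
  set F2 : Face → ℝ := fun f => -xc * ∑ h, a⁻¹ * (χ (meshPoint a (nb f h)) - χ (meshPoint a f))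
    * (sg h * e (op h) * φ f h) with hF2
  have i1 := integral_mesh ha K F1 (fun f hf => by simp [hF1, hK1 f hf])
  have i2 := integral_mesh ha K F2 (fun f hf => by simp [hF2, hK1 f hf, hK2 f hf])
  have e1 : ∀ z, ∑ h, Es a χ z * (e h * E a (src a w φ) h z) = F1 (meshIndex a z) := fun z => rfl
  have e2 : ∀ z, -xc * ∑ h, dh a χ h z * (sg h * e (op h) * E a φ h z)
      = F2 (meshIndex a z) := by
    intro z
    simp only [dh_eq, hF2]
    rfl
  simp_rw [e1, e2]
  rw [i1, i2]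
  congr 1
  have s1 : ∀ f, F1 f = a⁻¹ * (∑ h, χ (meshPoint a f) * (e h * Y w φ f h)
      - ∑ h, χ (meshPoint a f) * (A0 e h * φ f h)) := by
    intro f
    have := h0 f
    simp only [hF1, src, A]
    simp only [Fin.sum_univ_four] at this ⊢
    linear_combination (a⁻¹ * χ (meshPoint a f)) * this
  simp_rw [s1]
  rw [← Finset.mul_sum, Finset.sum_sub_distrib, hY, ← Finset.sum_neg_distrib,
    ← Finset.sum_sub_distrib, Finset.mul_sum]
  refine Finset.sum_congr rfl fun f _ => ?_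
  -- one face
  have hcrf : ∀ h, (χ (meshPoint a (nb f h)) ≠ 0 ∨ χ (meshPoint a f) ≠ 0) → w f h = xc := by
    intro h hne
    have hm : meshIndex a (meshPoint a f) = f := meshIndex_meshPoint ha f
    have := hcr (meshPoint a f) ?_ h
    · rwa [hm] at this
    · rw [Es, hm]
      by_cases h1 : χ (meshPoint a f) = 0
      · right
        refine ⟨h, ?_⟩
        rw [dh_eq, hm, h1, sub_zero]
        exact mul_ne_zero (inv_ne_zero hane) (hne.resolve_right (by simpa using h1))
      · exact Or.inl h1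
  simp only [hF2]
  have hterm : ∀ h, -(χ (meshPoint a (nb f h)) * (sg h * w f h * e (op h) * φ f h))
      - χ (meshPoint a f) * (A0 e h * φ f h)
      = -xc * ((χ (meshPoint a (nb f h)) - χ (meshPoint a f)) * (sg h * e (op h) * φ f h)) := by
    intro h
    by_cases h1 : χ (meshPoint a (nb f h)) ≠ 0 ∨ χ (meshPoint a f) ≠ 0
    · rw [hcrf h h1]
      linear_combination (-(χ (meshPoint a f)) * φ f h) * he h
    · push Not at h1
      rw [h1.1, h1.2]
      ring
  have hs : -∑ h, χ (meshPoint a (nb f h)) * (sg h * w f h * e (op h) * φ f h)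
      - ∑ h, χ (meshPoint a f) * (A0 e h * φ f h)
      = ∑ h, (-xc * ((χ (meshPoint a (nb f h)) - χ (meshPoint a f))
        * (sg h * e (op h) * φ f h))) := by
    rw [← Finset.sum_neg_distrib, ← Finset.sum_sub_distrib]
    exact Finset.sum_congr rfl fun h _ => hterm h
  rw [hs, Finset.mul_sum, Finset.mul_sum]
  refine Finset.sum_congr rfl fun h _ => ?_
  ring

/-- **linear law** -/
theorem LD0.law0 [l.IsCountablyGenerated] [l.NeBot] (H : LD0 l D B a w φ Φ G) {χ : ℂ → ℝ}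
    {C : NNReal} (T : Test D B χ C) (hBf : volume B ≠ ⊤)
    (hcr : ∀ᶠ k in l, ∀ z ∈ B, ∀ h, w k (meshIndex (a k) z) h = xc)
    {e : Fin 4 → ℝ} (he : ∀ h, A0 e h + xc * sg h * e (op h) = 0) :
    ∫ z in B, ∑ h, χ z * (e h * G h z)
      = -xc * ∫ z in B, ∑ h, dχ χ h z * (Φ h z * (sg h * e (op h))) := by
  obtain ⟨δ, hδ, hB⟩ := T.nbd
  have : IsFiniteMeasure (volume.restrict B) := ⟨by
    rw [Measure.restrict_apply_univ]; exact lt_top_iff_ne_top.2 hBf⟩
  have hz : ∀ c : ℝ, Tendsto (fun _ : ι => eLpNorm (fun _ : ℂ => c - c) 2 (volume.restrict B)) l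
      (𝓝 0) := by
    intro c
    simp
  obtain ⟨l1, i1, j1⟩ := H.lim_src T (f := fun h _ _ => e h) (F := fun h _ => e h)
    (fun h k => aestronglyMeasurable_const) (fun h => memLp_const _) (fun h => hz _)
    H.mG H.memG H.convG
  obtain ⟨l2, i2, j2⟩ := H.lim_grad T (c := fun _ _ _ => (1 : ℝ)) (c0 := 1) (M := 1)
    (g := fun h _ _ => sg h * e (op h)) (F := fun h _ => sg h * e (op h))
    (fun h k => aestronglyMeasurable_const) (fun h => memLp_const _) (fun h => hz _)
    (fun _ _ => measurable_const) (fun _ _ _ => by simp) (fun _ _ _ => tendsto_const_nhds)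
  have lim' := l2.const_mul (-xc)
  have ee : ∀ᶠ k in l, ∫ z in B, ∑ h, Es (a k) χ z
        * (e h * E (a k) (src (a k) (w k) (φ k)) h z)
      = -xc * ∫ z in B, ∑ h, (dh (a k) χ h z * 1) * (E (a k) (φ k) h z * (sg h * e (op h))) := by
    filter_upwards [hcr, H.small hδ] with k hck hk
    have hd := disc0 (H.pos k) (w k) (φ k) (H.sym k) T.cpt he (fun z hz => hck z (by
      by_contra hzB
      rcases hz with hz | ⟨h, hz⟩
      · exact hz (Es_eq_zero (H.pos k) hk hB hzB)
      · exact hz (dh_eq_zero (H.pos k) hk hB hzB h)))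
    rw [int_B (B := B), int_B (B := B)] at hd
    · rw [hd, ← integral_const_mul]
      refine integral_congr_ae (Eventually.of_forall fun z => ?_)
      simp only [Fin.sum_univ_four]
      ring
    · intro z hz
      rw [Finset.sum_eq_zero fun h _ => by rw [dh_eq_zero (H.pos k) hk hB hz, zero_mul], mul_zero]
    · intro z hz
      exact Finset.sum_eq_zero fun h _ => by rw [Es_eq_zero (H.pos k) hk hB hz, zero_mul]
  have := tendsto_nhds_unique (l1.congr' ee) lim'
  simpa only [mul_one] using this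

/-! ### changing the data -/

theorem LD0.mono (H : LD0 l D B a w φ Φ G) {B' : Set ℂ} (hB : B' ⊆ B) (hm : MeasurableSet B') :
    LD0 l D B' a w φ Φ G where
  pos := H.pos
  lim := H.lim
  sym := H.sym
  plus := H.plus
  opn := H.opn
  meas := hm
  memΦ h := (H.memΦ h).mono_measure (Measure.restrict_mono hB le_rfl)
  memG h := (H.memG h).mono_measure (Measure.restrict_mono hB le_rfl)
  zero h := ae_mono (Measure.restrict_mono hB le_rfl) (H.zero h)
  crit := H.crit
  convΦ h := tendsto_of_tendsto_of_tendsto_of_le_of_le tendsto_const_nhds (H.convΦ h)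
    (fun _ => bot_le) fun _ => eLpNorm_mono_measure _ (Measure.restrict_mono hB le_rfl)
  convG h := tendsto_of_tendsto_of_tendsto_of_le_of_le tendsto_const_nhds (H.convG h)
    (fun _ => bot_le) fun _ => eLpNorm_mono_measure _ (Measure.restrict_mono hB le_rfl)

/-- data along a general filter -/
structure LD {ι : Type*} (l : Filter ι) (D B : Set ℂ) (a : ι → ℝ) (w φ : ι → Fld)
    (Φ G : Fin 4 → ℂ → ℝ) : Prop where
  pos : ∀ k, 0 < a k
  lim : Tendsto a l (𝓝 0)
  sym : ∀ k, Sym (w k)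
  plus : ∀ k, IsPlus (w k)
  opn : IsOpen D
  meas : MeasurableSet B
  memΦ : ∀ h, MemLp (Φ h) 2 (volume.restrict B)
  memG : ∀ h, MemLp (G h) 2 (volume.restrict B)
  zero : ∀ h, ∀ᵐ z ∂(volume.restrict B), z ∉ D → Φ h z = 0
  crit : ∀ K : Set ℂ, IsCompact K → K ⊆ D →
    ∀ᶠ k in l, ∀ z ∈ K, ∀ h, w k (meshIndex (a k) z) h ^ 2 = xc ^ 2
  convΦ : ∀ h, Tendsto (fun k => eLpNorm (fun z => E (a k) (φ k) h z - Φ h z) 2
    (volume.restrict B)) l (𝓝 0)
  convG : ∀ h, Tendsto (fun k => eLpNorm (fun z => E (a k) (src (a k) (w k) (φ k)) h z - G h z) 2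
    (volume.restrict B)) l (𝓝 0)

/-- an open set of the plane is a countable union of compact sets -/
theorem exists_compacts (hD : IsOpen D) : ∃ K : ℕ → Set ℂ, (∀ n, IsCompact (K n)) ∧
    (∀ n, K n ⊆ D) ∧ ∀ z ∈ D, ∃ n, z ∈ K n := by
  have : LocallyCompactSpace D := hD.locallyCompactSpace
  refine ⟨fun n => ((↑) : D → ℂ) '' compactCovering D n,
    fun n => (isCompact_compactCovering D n).image continuous_subtype_val,
    fun n => Subtype.coe_image_subset _ _, fun z hz => ?_⟩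
  obtain ⟨n, hn⟩ := exists_mem_compactCovering (⟨z, hz⟩ : D)
  exact ⟨n, ⟨z, hz⟩, hn, rfl⟩

/-- a countably generated filter which is coarser than `l` and still carries the data; extra
conditions `P n` may be carried along -/
theorem LD.reduce {l : Filter ι} (H : LD l D B a w φ Φ G) (P : Set ι) (hP : P ∈ l) :
    ∃ V : Filter ι, V.IsCountablyGenerated ∧ l ≤ V ∧ P ∈ V ∧ LD0 V D B a w φ Φ G := by
  obtain ⟨K, hK1, hK2, hK3⟩ := exists_compacts H.opn
  let V : Filter ι := comap a (𝓝 0) ⊓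
    (⨅ h, comap (fun k => eLpNorm (fun z => E (a k) (φ k) h z - Φ h z) 2
      (volume.restrict B)) (𝓝 0)) ⊓
    (⨅ h, comap (fun k => eLpNorm (fun z => E (a k) (src (a k) (w k) (φ k)) h z - G h z) 2
      (volume.restrict B)) (𝓝 0)) ⊓
    (⨅ n : ℕ, 𝓟 {k | ∀ z ∈ K n, ∀ h, w k (meshIndex (a k) z) h ^ 2 = xc ^ 2}) ⊓ 𝓟 P
  refine ⟨V, ?_, ?_, ?_, ?_⟩
  · infer_instance
  · refine le_inf (le_inf (le_inf (le_inf ?_ ?_) ?_) ?_) ?_
    · exact H.lim.le_comap
    · exact le_iInf fun h => (H.convΦ h).le_comap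
    · exact le_iInf fun h => (H.convG h).le_comap
    · exact le_iInf fun n => le_principal_iff.2 (H.crit (K n) (hK1 n) (hK2 n))
    · exact le_principal_iff.2 hP
  · exact mem_inf_of_right (mem_principal_self P)
  · refine ⟨H.pos, ?_, H.sym, H.plus, H.opn, H.meas, H.memΦ, H.memG, H.zero, ?_, ?_, ?_⟩
    · exact tendsto_comap.mono_left
        (inf_le_left.trans (inf_le_left.trans (inf_le_left.trans inf_le_left)))
    · intro z hz
      obtain ⟨n, hn⟩ := hK3 z hz
      have : V ≤ 𝓟 {k | ∀ z ∈ K n, ∀ h, w k (meshIndex (a k) z) h ^ 2 = xc ^ 2} :=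
        inf_le_left.trans (inf_le_right.trans (iInf_le _ n))
      exact Filter.mem_of_superset (this (mem_principal_self _)) fun k hk => hk z hn
    · intro h
      exact tendsto_comap.mono_left (inf_le_left.trans (inf_le_left.trans (inf_le_left.trans
        (inf_le_right.trans (iInf_le _ h)))))
    · intro h
      exact tendsto_comap.mono_left (inf_le_left.trans (inf_le_left.trans
        (inf_le_right.trans (iInf_le _ h))))

theorem LD.mono {l : Filter ι} (H : LD l D B a w φ Φ G) {B' : Set ℂ} (hB : B' ⊆ B)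
    (hm : MeasurableSet B') : LD l D B' a w φ Φ G where
  pos := H.pos
  lim := H.lim
  sym := H.sym
  plus := H.plus
  opn := H.opn
  meas := hm
  memΦ h := (H.memΦ h).mono_measure (Measure.restrict_mono hB le_rfl)
  memG h := (H.memG h).mono_measure (Measure.restrict_mono hB le_rfl)
  zero h := ae_mono (Measure.restrict_mono hB le_rfl) (H.zero h)
  crit := H.crit
  convΦ h := tendsto_of_tendsto_of_tendsto_of_le_of_le tendsto_const_nhds (H.convΦ h)
    (fun _ => bot_le) fun _ => eLpNorm_mono_measure _ (Measure.restrict_mono hB le_rfl)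
  convG h := tendsto_of_tendsto_of_tendsto_of_le_of_le tendsto_const_nhds (H.convG h)
    (fun _ => bot_le) fun _ => eLpNorm_mono_measure _ (Measure.restrict_mono hB le_rfl)

/-- restriction to a finer filter -/
theorem LD.le {l l' : Filter ι} (H : LD l D B a w φ Φ G) (h : l' ≤ l) :
    LD l' D B a w φ Φ G :=
  { H with
    lim := H.lim.mono_left h
    crit := fun K hK hKD => h (H.crit K hK hKD)
    convΦ := fun i => (H.convΦ i).mono_left h
    convG := fun i => (H.convG i).mono_left h }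

/-! ### the laws for general filters -/

theorem LD.law1 {l : Filter ι} [l.NeBot] (H : LD l D B a w φ Φ G) {χ : ℂ → ℝ}
    {C : NNReal} (T : Test D B χ C) (h0 : ∀ z, 0 ≤ χ z) :
    0 ≤ 2 * (∫ z in B, ∑ h, χ z * (A0c Φ h z * G h z))
        + ∫ z in B, ∑ h, (dχ χ h z * xc ^ 2) * (Φ h z * Φ h z) := by
  obtain ⟨V, hV, hl, -, H'⟩ := H.reduce univ univ_mem
  have := hV
  have : V.NeBot := NeBot.mono inferInstance hl
  exact H'.law1 T h0


theorem LD.law2 {l : Filter ι} [l.NeBot] (H : LD l D B a w φ Φ G) {χ : ℂ → ℝ}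
    {C : NNReal} (T : Test D B χ C) :
    ∫ z in B, ∑ h, dχ χ h z * (Φ h z * A0c Φ h z)
      = 2 * ∫ z in B, ∑ h, χ z * (Φ h z * G h z) := by
  obtain ⟨V, hV, hl, -, H'⟩ := H.reduce univ univ_mem
  have := hV
  have : V.NeBot := NeBot.mono inferInstance hl
  exact H'.law2 T

theorem LD.law0 {l : Filter ι} [l.NeBot] (H : LD l D B a w φ Φ G) {χ : ℂ → ℝ}
    {C : NNReal} (T : Test D B χ C) (hBf : volume B ≠ ⊤)
    (hcr : ∀ᶠ k in l, ∀ z ∈ B, ∀ h, w k (meshIndex (a k) z) h = xc)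
    {e : Fin 4 → ℝ} (he : ∀ h, A0 e h + xc * sg h * e (op h) = 0) :
    ∫ z in B, ∑ h, χ z * (e h * G h z)
      = -xc * ∫ z in B, ∑ h, dχ χ h z * (Φ h z * (sg h * e (op h))) := by
  obtain ⟨V, hV, hl, hP, H'⟩ := H.reduce _ hcr
  have := hV
  have : V.NeBot := NeBot.mono inferInstance hl
  exact H'.law0 T hBf hP he

end Crest.Agent.R165.LimRx610
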