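import Crest.Agent.R165.Tr1_40
import Crest.Agent.R165.RIface_891

-- ▼ part R165/Dual_485
section

/-!
# Row 165 (S0250), block R: the dual half-edge variables (free boundary conditions)

Nodes of the dual system are the primal vertices `v = (i,j)` (lower left corner of the face
`(i,j)`).  For a symmetric weight `w` with `1 + w ≠ 0` put

* `dw w v h = (1 - y) / (1 + y)`, `y` the weight of the primal edge leaving `v` in direction `h`;
* `df w φ v` = `(1 + y)/2` times (sum / difference) of the two half-edge values across that edge.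

Main statement `A_df`: `A (dw w) (df w φ) v` is an explicit combination of the values of `A w φ`
at the four faces around `v`.  Hence free boundary conditions (`y ∈ {x_c, 1}`) for `φ` are plus
boundary conditions (`dw w ∈ {x_c, 0}`) for `df w φ`.
-/

set_option autoImplicit false

noncomputable section

namespace Crest.Agent.R165.Dualx485

open Finset Crest.Agent.R165.Tr1x40

/-- weight of the primal edge leaving the vertex `v` in direction `h` -/
def ew (w : Fld) (v : Face) (h : Fin 4) : ℝ :=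
  match h with
  | 0 => w (v.1, v.2 - 1) 3
  | 1 => w (v.1, v.2) 0
  | 2 => w (v.1, v.2) 3
  | 3 => w (v.1 - 1, v.2) 0

@[simp] theorem ew_zero (w : Fld) (v : Face) : ew w v 0 = w (v.1, v.2 - 1) 3 := rfl
@[simp] theorem ew_one (w : Fld) (v : Face) : ew w v 1 = w (v.1, v.2) 0 := rfl
@[simp] theorem ew_two (w : Fld) (v : Face) : ew w v 2 = w (v.1, v.2) 3 := rfl
@[simp] theorem ew_three (w : Fld) (v : Face) : ew w v 3 = w (v.1 - 1, v.2) 0 := rfl

/-- dual weight -/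
def dy (y : ℝ) : ℝ := (1 - y) / (1 + y)

/-- dual weights -/
def dw (w : Fld) : Fld := fun v h => dy (ew w v h)

/-- dual field -/
def df (w φ : Fld) : Fld := fun v h =>
  match h with
  | 0 => -((1 + ew w v 0) / 2) * (φ (v.1 - 1, v.2 - 1) 1 + φ (v.1, v.2 - 1) 3)
  | 1 => ((1 + ew w v 1) / 2) * (φ (v.1, v.2) 0 - φ (v.1, v.2 - 1) 2)
  | 2 => -((1 + ew w v 2) / 2) * (φ (v.1, v.2) 3 - φ (v.1 - 1, v.2) 1)
  | 3 => ((1 + ew w v 3) / 2) * (φ (v.1 - 1, v.2 - 1) 2 + φ (v.1 - 1, v.2) 0)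

theorem df_zero (w φ : Fld) (v : Face) : df w φ v 0
    = -((1 + ew w v 0) / 2) * (φ (v.1 - 1, v.2 - 1) 1 + φ (v.1, v.2 - 1) 3) := rfl
theorem df_one (w φ : Fld) (v : Face) : df w φ v 1
    = ((1 + ew w v 1) / 2) * (φ (v.1, v.2) 0 - φ (v.1, v.2 - 1) 2) := rfl
theorem df_two (w φ : Fld) (v : Face) : df w φ v 2
    = -((1 + ew w v 2) / 2) * (φ (v.1, v.2) 3 - φ (v.1 - 1, v.2) 1) := rfl
theorem df_three (w φ : Fld) (v : Face) : df w φ v 3
    = ((1 + ew w v 3) / 2) * (φ (v.1 - 1, v.2 - 1) 2 + φ (v.1 - 1, v.2) 0) := rfl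

theorem ew_sym (w : Fld) (v : Face) (h : Fin 4) :
    ew w (nb v h) (op h) = ew w v h := by
  fin_cases h <;> simp [ew, nb, op]

theorem sym_dw (w : Fld) : Sym (dw w) := by
  intro v h; unfold dw; rw [ew_sym]

/-- the four residual combinations around the vertex `v`: one for each adjacent face -/
def r1 (g : Fld) (v : Face) : ℝ := g (v.1, v.2) 0 + g (v.1, v.2) 3
def r2 (g : Fld) (v : Face) : ℝ := g (v.1 - 1, v.2) 0 - g (v.1 - 1, v.2) 1
def r3 (g : Fld) (v : Face) : ℝ := g (v.1 - 1, v.2 - 1) 1 - g (v.1 - 1, v.2 - 1) 2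
def r4 (g : Fld) (v : Face) : ℝ := g (v.1, v.2 - 1) 2 - g (v.1, v.2 - 1) 3

/-- the local operator `T'` with `A* T = T' A` -/
def dg (g : Fld) : Fld := fun v h =>
  match h with
  | 0 => (-r1 g v + r2 g v + r3 g v - r4 g v) / 2
  | 1 => (-r1 g v + r2 g v + r3 g v + r4 g v) / 2
  | 2 => (r1 g v + r2 g v + r3 g v + r4 g v) / 2
  | 3 => (r1 g v - r2 g v + r3 g v + r4 g v) / 2

/-- local hypothesis: symmetry of the weights on the four edges at `v` -/
structure SymAt (w : Fld) (v : Face) : Prop where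
  s : w (v.1 - 1, v.2 - 1) 1 = w (v.1, v.2 - 1) 3
  e : w (v.1, v.2 - 1) 2 = w (v.1, v.2) 0
  n : w (v.1 - 1, v.2) 1 = w (v.1, v.2) 3
  w' : w (v.1 - 1, v.2 - 1) 2 = w (v.1 - 1, v.2) 0

theorem symAt_of {w : Fld} (hw : Sym w) (v : Face) : SymAt w v := by
  refine ⟨?_, ?_, ?_, ?_⟩
  · have := hw (v.1, v.2 - 1) 3; simpa using this
  · have := hw (v.1, v.2) 0; simpa using this
  · have := hw (v.1, v.2) 3; simpa using this
  · have := hw (v.1 - 1, v.2) 0; simpa using this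

theorem mul_dy {y : ℝ} (h : 1 + y ≠ 0) (a : ℝ) : dy y * ((1 + y) / 2 * a) = (1 - y) / 2 * a := by
  unfold dy; field_simp

/-- **A* T = T' A**, pointwise, arbitrary weights -/
theorem A_df {w : Fld} (φ : Fld) (v : Face) (hs : SymAt w v) (hy : ∀ h, 1 + ew w v h ≠ 0)
    (h : Fin 4) : A (dw w) (df w φ) v h = dg (A w φ) v h := by
  obtain ⟨hS, hE, hN, hW⟩ := hs
  have y0 := hy 0
  have y1 := hy 1
  have y2 := hy 2
  have y3 := hy 3
  simp only [ew_zero, ew_one, ew_two, ew_three] at y0 y1 y2 y3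
  -- the four partner terms
  have p0 : dw w v 0 * df w φ (v.1, v.2 - 1) 2
      = -((1 - w (v.1, v.2 - 1) 3) / 2 * (φ (v.1, v.2 - 1) 3 - φ (v.1 - 1, v.2 - 1) 1)) := by
    simp only [dw, df_two, ew_zero, ew_two]
    rw [neg_mul, mul_neg, mul_dy y0]
  have p1 : dw w v 1 * df w φ (v.1 + 1, v.2) 3
      = (1 - w (v.1, v.2) 0) / 2 * (φ (v.1, v.2 - 1) 2 + φ (v.1, v.2) 0) := by
    simp only [dw, df_three, ew_one, ew_three, add_sub_cancel_right]
    rw [mul_dy y1]
  have p2 : dw w v 2 * df w φ (v.1, v.2 + 1) 0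
      = -((1 - w (v.1, v.2) 3) / 2 * (φ (v.1 - 1, v.2) 1 + φ (v.1, v.2) 3)) := by
    simp only [dw, df_zero, ew_zero, ew_two, add_sub_cancel_right]
    rw [neg_mul, mul_neg, mul_dy y2]
  have p3 : dw w v 3 * df w φ (v.1 - 1, v.2) 1
      = (1 - w (v.1 - 1, v.2) 0) / 2 * (φ (v.1 - 1, v.2) 0 - φ (v.1 - 1, v.2 - 1) 2) := by
    simp only [dw, df_one, ew_one, ew_three]
    rw [mul_dy y3]
  fin_cases h
  · show A (dw w) (df w φ) v 0 = dg (A w φ) v 0
    rw [A_S, p0]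
    simp only [dg, r1, r2, r3, r4, A_S, A_E, A_N, A_W, df_one, df_two, df_three, ew_one, ew_two,
      ew_three, sub_add_cancel, hS, hE, hN, hW]
    ring
  · show A (dw w) (df w φ) v 1 = dg (A w φ) v 1
    rw [A_E, p1]
    simp only [dg, r1, r2, r3, r4, A_S, A_E, A_N, A_W, df_zero, df_two, df_three, ew_zero, ew_two,
      ew_three, sub_add_cancel, hS, hE, hN, hW]
    ring
  · show A (dw w) (df w φ) v 2 = dg (A w φ) v 2
    rw [A_N, p2]
    simp only [dg, r1, r2, r3, r4, A_S, A_E, A_N, A_W, df_zero, df_one, df_three, ew_zero, ew_one,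
      ew_three, sub_add_cancel, hS, hE, hN, hW]
    ring
  · show A (dw w) (df w φ) v 3 = dg (A w φ) v 3
    rw [A_W, p3]
    simp only [dg, r1, r2, r3, r4, A_S, A_E, A_N, A_W, df_zero, df_one, df_two, ew_zero, ew_one,
      ew_two, sub_add_cancel, hS, hE, hN, hW]
    ring

/-- global form -/
theorem A_df_global {w : Fld} (hw : Sym w) (hy : ∀ f h, 1 + w f h ≠ 0) (φ : Fld) :
    A (dw w) (df w φ) = dg (A w φ) := by
  funext v h
  refine A_df φ v (symAt_of hw v) ?_ h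
  intro h
  fin_cases h <;> exact hy _ _

/-! ### the inverse transformation -/

/-- face field of a vertex field -/
def fd (w ψ : Fld) : Fld := fun f h =>
  match h with
  | 0 => (ψ (f.1 + 1, f.2) 3 + ψ (f.1, f.2) 1) / (1 + w f 0)
  | 1 => (ψ (f.1 + 1, f.2) 2 - ψ (f.1 + 1, f.2 + 1) 0) / (1 + w f 1)
  | 2 => (ψ (f.1 + 1, f.2 + 1) 3 - ψ (f.1, f.2 + 1) 1) / (1 + w f 2)
  | 3 => -(ψ (f.1, f.2) 2 + ψ (f.1, f.2 + 1) 0) / (1 + w f 3)

theorem fd_df {w : Fld} (hw : Sym w) (hy : ∀ f h, 1 + w f h ≠ 0) (φ : Fld) :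
    fd w (df w φ) = φ := by
  funext f h
  have e1 : w (f.1 + 1, f.2) 3 = w f 1 := by have := hw f 1; simpa using this
  have e2 : w (f.1, f.2 + 1) 0 = w f 2 := by have := hw f 2; simpa using this
  have e3 : w (f.1, f.2) 3 = w f 3 := rfl
  have e0 : w (f.1, f.2) 0 = w f 0 := rfl
  fin_cases h
  · show fd w (df w φ) f 0 = φ f 0
    simp only [fd, df_one, df_three, ew_one, ew_three, add_sub_cancel_right, e0]
    have := hy f 0
    field_simp
    ring
  · show fd w (df w φ) f 1 = φ f 1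
    simp only [fd, df_zero, df_two, ew_zero, ew_two, add_sub_cancel_right, e1]
    have := hy f 1
    field_simp
    ring
  · show fd w (df w φ) f 2 = φ f 2
    simp only [fd, df_one, df_three, ew_one, ew_three, add_sub_cancel_right, e2]
    have := hy f 2
    field_simp
    ring
  · show fd w (df w φ) f 3 = φ f 3
    simp only [fd, df_zero, df_two, ew_zero, ew_two, add_sub_cancel_right, e3]
    have := hy f 3
    field_simp
    ring






/-! ### critical and free weights -/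

theorem dy_xc : dy xc = xc := by
  have h := xc_sq
  have h0 := xc_pos
  unfold dy
  rw [div_eq_iff (by positivity)]
  nlinarith

theorem dy_one : dy 1 = 0 := by simp [dy]

/-- free background: every weight is `x_c` or `1` -/
def IsFree (w : Fld) : Prop := ∀ f h, w f h = xc ∨ w f h = 1

theorem IsFree.ew {w : Fld} (hw : IsFree w) (v : Face) (h : Fin 4) : ew w v h = xc ∨ ew w v h = 1 := by
  fin_cases h <;> exact hw _ _

theorem IsFree.isPlus {w : Fld} (hw : IsFree w) : IsPlus (dw w) := by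
  intro v h
  rcases hw.ew v h with h1 | h1
  · left; unfold dw; rw [h1, dy_xc]
  · right; unfold dw; rw [h1, dy_one]

theorem IsFree.ne {w : Fld} (hw : IsFree w) (f : Face) (h : Fin 4) : 1 + w f h ≠ 0 := by
  rcases hw f h with h1 | h1 <;> rw [h1]
  · have := xc_pos; positivity
  · norm_num

theorem IsFree.nonneg {w : Fld} (hw : IsFree w) (f : Face) (h : Fin 4) : 0 ≤ w f h := by
  rcases hw f h with h1 | h1 <;> rw [h1]
  · exact xc_pos.le
  · norm_num

theorem IsFree.le_one {w : Fld} (hw : IsFree w) (f : Face) (h : Fin 4) : w f h ≤ 1 := by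
  rcases hw f h with h1 | h1 <;> rw [h1]
  exact xc_lt_one.le

/-! ### norms -/

/-- vertices of the faces of `K` are contained in `V` -/
def Vts (K V : Finset Face) : Prop :=
  ∀ f ∈ K, f ∈ V ∧ (f.1 + 1, f.2) ∈ V ∧ (f.1, f.2 + 1) ∈ V ∧ (f.1 + 1, f.2 + 1) ∈ V

/-- faces around the vertices of `V` are contained in `K` -/
def Fcs (V K : Finset Face) : Prop :=
  ∀ v ∈ V, v ∈ K ∧ (v.1 - 1, v.2) ∈ K ∧ (v.1, v.2 - 1) ∈ K ∧ (v.1 - 1, v.2 - 1) ∈ K

/-- shifted sums of nonnegative functions -/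
theorem sum_shift_le (K V : Finset Face) (t : Face → Face) (ht : Function.Injective t)
    (h : ∀ f ∈ K, t f ∈ V) (F : Face → ℝ) (hF : ∀ v, 0 ≤ F v) :
    ∑ f ∈ K, F (t f) ≤ ∑ v ∈ V, F v := by
  classical
  rw [← sum_image (f := F) (s := K) (g := t) (fun a _ b _ hab => ht hab)]
  refine sum_le_sum_of_subset_of_nonneg ?_ fun v _ _ => hF v
  intro v hv
  rw [mem_image] at hv
  obtain ⟨f, hf, rfl⟩ := hv
  exact h f hf

theorem inj_add (a b : ℤ) : Function.Injective (fun f : Face => (f.1 + a, f.2 + b)) := by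
  intro f g h
  simp only [Prod.mk.injEq, add_left_inj] at h
  exact Prod.ext h.1 h.2

theorem sq_div_le {a b y : ℝ} (hy : 0 ≤ y) : ((a + b) / (1 + y)) ^ 2 ≤ 2 * (a ^ 2 + b ^ 2) := by
  rw [div_pow, div_le_iff₀ (by positivity)]
  have h1 : (a + b) ^ 2 ≤ 2 * (a ^ 2 + b ^ 2) := by nlinarith [sq_nonneg (a - b)]
  have h2 : 2 * (a ^ 2 + b ^ 2) * 1 ≤ 2 * (a ^ 2 + b ^ 2) * (1 + y) ^ 2 :=
    mul_le_mul_of_nonneg_left (by nlinarith) (by positivity)
  linarith

theorem sq_mul_le {a b y : ℝ} (hy : 0 ≤ y) (hy1 : y ≤ 1) :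
    ((1 + y) / 2 * (a + b)) ^ 2 ≤ 2 * (a ^ 2 + b ^ 2) := by
  rw [mul_pow]
  have h1 : (a + b) ^ 2 ≤ 2 * (a ^ 2 + b ^ 2) := by nlinarith [sq_nonneg (a - b)]
  have h2 : ((1 + y) / 2) ^ 2 ≤ 1 := by
    rw [sq_le_one_iff_abs_le_one, abs_le]
    constructor <;> linarith
  have h3 : 0 ≤ ((1 + y) / 2) ^ 2 := sq_nonneg _
  nlinarith [sq_nonneg (a + b)]

/-- the field is controlled by the dual field -/
theorem sum_fd_le {w : Fld} (hy : ∀ f h, 0 ≤ w f h) (ψ : Fld) (K V : Finset Face)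
    (hKV : Vts K V) : ∑ f ∈ K, nsq (fd w ψ f) ≤ 4 * ∑ v ∈ V, nsq (ψ v) := by
  have hp : ∀ f ∈ K, nsq (fd w ψ f) ≤
      2 * (ψ (f.1 + 1, f.2) 3 ^ 2 + ψ (f.1 + 1, f.2) 2 ^ 2)
      + 2 * (ψ (f.1, f.2) 1 ^ 2 + ψ (f.1, f.2) 2 ^ 2)
      + 2 * (ψ (f.1 + 1, f.2 + 1) 0 ^ 2 + ψ (f.1 + 1, f.2 + 1) 3 ^ 2)
      + 2 * (ψ (f.1, f.2 + 1) 1 ^ 2 + ψ (f.1, f.2 + 1) 0 ^ 2) := by
    intro f _
    rw [nsq_eq]
    have h0 := sq_div_le (a := ψ (f.1 + 1, f.2) 3) (b := ψ (f.1, f.2) 1) (hy f 0)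
    have h1 := sq_div_le (a := ψ (f.1 + 1, f.2) 2) (b := -ψ (f.1 + 1, f.2 + 1) 0) (hy f 1)
    have h2 := sq_div_le (a := ψ (f.1 + 1, f.2 + 1) 3) (b := -ψ (f.1, f.2 + 1) 1) (hy f 2)
    have h3 := sq_div_le (a := -ψ (f.1, f.2) 2) (b := -ψ (f.1, f.2 + 1) 0) (hy f 3)
    rw [← sub_eq_add_neg] at h1 h2
    rw [show -ψ (f.1, f.2) 2 + -ψ (f.1, f.2 + 1) 0 = -(ψ (f.1, f.2) 2 + ψ (f.1, f.2 + 1) 0) by
      ring] at h3
    simp only [fd]
    nlinarith
  refine (sum_le_sum hp).trans ?_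
  rw [sum_add_distrib, sum_add_distrib, sum_add_distrib]
  have s1 := sum_shift_le K V (fun f => (f.1 + 1, f.2 + 0)) (inj_add 1 0)
    (fun f hf => by simpa using (hKV f hf).2.1) (fun v => 2 * (ψ v 3 ^ 2 + ψ v 2 ^ 2))
    (fun v => by positivity)
  have s2 := sum_shift_le K V (fun f => (f.1 + 0, f.2 + 0)) (inj_add 0 0)
    (fun f hf => by simpa using (hKV f hf).1) (fun v => 2 * (ψ v 1 ^ 2 + ψ v 2 ^ 2))
    (fun v => by positivity)
  have s3 := sum_shift_le K V (fun f => (f.1 + 1, f.2 + 1)) (inj_add 1 1)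
    (fun f hf => by simpa using (hKV f hf).2.2.2) (fun v => 2 * (ψ v 0 ^ 2 + ψ v 3 ^ 2))
    (fun v => by positivity)
  have s4 := sum_shift_le K V (fun f => (f.1 + 0, f.2 + 1)) (inj_add 0 1)
    (fun f hf => by simpa using (hKV f hf).2.2.1) (fun v => 2 * (ψ v 1 ^ 2 + ψ v 0 ^ 2))
    (fun v => by positivity)
  simp only [add_zero] at s1 s2 s3 s4
  have e : ∑ v ∈ V, 2 * (ψ v 3 ^ 2 + ψ v 2 ^ 2) + ∑ v ∈ V, 2 * (ψ v 1 ^ 2 + ψ v 2 ^ 2)
      + ∑ v ∈ V, 2 * (ψ v 0 ^ 2 + ψ v 3 ^ 2) + ∑ v ∈ V, 2 * (ψ v 1 ^ 2 + ψ v 0 ^ 2)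
      = 4 * ∑ v ∈ V, nsq (ψ v) := by
    rw [← sum_add_distrib, ← sum_add_distrib, ← sum_add_distrib, mul_sum]
    refine sum_congr rfl fun v _ => ?_
    rw [nsq_eq]; ring
  linarith

/-- the dual field is controlled by the field -/
theorem sum_df_le {w : Fld} (hy : ∀ f h, 0 ≤ w f h) (hy1 : ∀ f h, w f h ≤ 1) (φ : Fld)
    (V K : Finset Face) (hVK : Fcs V K) :
    ∑ v ∈ V, nsq (df w φ v) ≤ 4 * ∑ f ∈ K, nsq (φ f) := by
  have hp : ∀ v ∈ V, nsq (df w φ v) ≤
      2 * (φ (v.1 - 1, v.2 - 1) 1 ^ 2 + φ (v.1 - 1, v.2 - 1) 2 ^ 2)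
      + 2 * (φ (v.1, v.2 - 1) 3 ^ 2 + φ (v.1, v.2 - 1) 2 ^ 2)
      + 2 * (φ (v.1, v.2) 0 ^ 2 + φ (v.1, v.2) 3 ^ 2)
      + 2 * (φ (v.1 - 1, v.2) 1 ^ 2 + φ (v.1 - 1, v.2) 0 ^ 2) := by
    intro v _
    rw [nsq_eq]
    have h0 := sq_mul_le (a := φ (v.1 - 1, v.2 - 1) 1) (b := φ (v.1, v.2 - 1) 3)
      (hy (v.1, v.2 - 1) 3) (hy1 _ _)
    have h1 := sq_mul_le (a := φ (v.1, v.2) 0) (b := -φ (v.1, v.2 - 1) 2)
      (hy (v.1, v.2) 0) (hy1 _ _)
    have h2 := sq_mul_le (a := φ (v.1, v.2) 3) (b := -φ (v.1 - 1, v.2) 1)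
      (hy (v.1, v.2) 3) (hy1 _ _)
    have h3 := sq_mul_le (a := φ (v.1 - 1, v.2 - 1) 2) (b := φ (v.1 - 1, v.2) 0)
      (hy (v.1 - 1, v.2) 0) (hy1 _ _)
    simp only [df, ew, neg_mul, neg_sq]
    rw [← sub_eq_add_neg] at h1 h2
    nlinarith
  refine (sum_le_sum hp).trans ?_
  rw [sum_add_distrib, sum_add_distrib, sum_add_distrib]
  have s1 := sum_shift_le V K (fun f => (f.1 + (-1), f.2 + (-1))) (inj_add (-1) (-1))
    (fun f hf => by simpa [sub_eq_add_neg] using (hVK f hf).2.2.2)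
    (fun v => 2 * (φ v 1 ^ 2 + φ v 2 ^ 2)) (fun v => by positivity)
  have s2 := sum_shift_le V K (fun f => (f.1 + 0, f.2 + (-1))) (inj_add 0 (-1))
    (fun f hf => by simpa [sub_eq_add_neg] using (hVK f hf).2.2.1)
    (fun v => 2 * (φ v 3 ^ 2 + φ v 2 ^ 2)) (fun v => by positivity)
  have s3 := sum_shift_le V K (fun f => (f.1 + 0, f.2 + 0)) (inj_add 0 0)
    (fun f hf => by simpa using (hVK f hf).1)
    (fun v => 2 * (φ v 0 ^ 2 + φ v 3 ^ 2)) (fun v => by positivity)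
  have s4 := sum_shift_le V K (fun f => (f.1 + (-1), f.2 + 0)) (inj_add (-1) 0)
    (fun f hf => by simpa [sub_eq_add_neg] using (hVK f hf).2.1)
    (fun v => 2 * (φ v 1 ^ 2 + φ v 0 ^ 2)) (fun v => by positivity)
  simp only [add_zero, ← sub_eq_add_neg] at s1 s2 s3 s4
  have e : ∑ v ∈ K, 2 * (φ v 1 ^ 2 + φ v 2 ^ 2) + ∑ v ∈ K, 2 * (φ v 3 ^ 2 + φ v 2 ^ 2)
      + ∑ v ∈ K, 2 * (φ v 0 ^ 2 + φ v 3 ^ 2) + ∑ v ∈ K, 2 * (φ v 1 ^ 2 + φ v 0 ^ 2)
      = 4 * ∑ v ∈ K, nsq (φ v) := by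
    rw [← sum_add_distrib, ← sum_add_distrib, ← sum_add_distrib, mul_sum]
    refine sum_congr rfl fun v _ => ?_
    rw [nsq_eq]; ring
  linarith

/-- the residual of the dual field is controlled by the residual -/
theorem sum_dg_le (g : Fld) (V K : Finset Face) (hVK : Fcs V K) :
    ∑ v ∈ V, nsq (dg g v) ≤ 16 * ∑ f ∈ K, nsq (g f) := by
  have hp : ∀ v ∈ V, nsq (dg g v) ≤
      8 * (g (v.1, v.2) 0 ^ 2 + g (v.1, v.2) 3 ^ 2)
      + 8 * (g (v.1 - 1, v.2) 0 ^ 2 + g (v.1 - 1, v.2) 1 ^ 2)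
      + 8 * (g (v.1 - 1, v.2 - 1) 1 ^ 2 + g (v.1 - 1, v.2 - 1) 2 ^ 2)
      + 8 * (g (v.1, v.2 - 1) 2 ^ 2 + g (v.1, v.2 - 1) 3 ^ 2) := by
    intro v _
    rw [nsq_eq]
    have a1 : r1 g v ^ 2 ≤ 2 * (g (v.1, v.2) 0 ^ 2 + g (v.1, v.2) 3 ^ 2) := by
      unfold r1; nlinarith [sq_nonneg (g (v.1, v.2) 0 - g (v.1, v.2) 3)]
    have a2 : r2 g v ^ 2 ≤ 2 * (g (v.1 - 1, v.2) 0 ^ 2 + g (v.1 - 1, v.2) 1 ^ 2) := by
      unfold r2; nlinarith [sq_nonneg (g (v.1 - 1, v.2) 0 + g (v.1 - 1, v.2) 1)]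
    have a3 : r3 g v ^ 2 ≤ 2 * (g (v.1 - 1, v.2 - 1) 1 ^ 2 + g (v.1 - 1, v.2 - 1) 2 ^ 2) := by
      unfold r3; nlinarith [sq_nonneg (g (v.1 - 1, v.2 - 1) 1 + g (v.1 - 1, v.2 - 1) 2)]
    have a4 : r4 g v ^ 2 ≤ 2 * (g (v.1, v.2 - 1) 2 ^ 2 + g (v.1, v.2 - 1) 3 ^ 2) := by
      unfold r4; nlinarith [sq_nonneg (g (v.1, v.2 - 1) 2 + g (v.1, v.2 - 1) 3)]
    have hq : ∀ a b c d : ℝ, ((a + b + c + d) / 2) ^ 2 ≤ a ^ 2 + b ^ 2 + c ^ 2 + d ^ 2 := by
      intro a b c d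
      nlinarith [sq_nonneg (a - b), sq_nonneg (a - c), sq_nonneg (a - d), sq_nonneg (b - c),
        sq_nonneg (b - d), sq_nonneg (c - d)]
    have b0 := hq (-r1 g v) (r2 g v) (r3 g v) (-r4 g v)
    have b1 := hq (-r1 g v) (r2 g v) (r3 g v) (r4 g v)
    have b2 := hq (r1 g v) (r2 g v) (r3 g v) (r4 g v)
    have b3 := hq (r1 g v) (-r2 g v) (r3 g v) (r4 g v)
    rw [← sub_eq_add_neg] at b0
    rw [← sub_eq_add_neg] at b3
    simp only [neg_sq] at b0 b1 b3
    simp only [dg]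
    linarith
  refine (sum_le_sum hp).trans ?_
  rw [sum_add_distrib, sum_add_distrib, sum_add_distrib]
  have s1 := sum_shift_le V K (fun f => (f.1 + 0, f.2 + 0)) (inj_add 0 0)
    (fun f hf => by simpa using (hVK f hf).1)
    (fun v => 8 * (g v 0 ^ 2 + g v 3 ^ 2)) (fun v => by positivity)
  have s2 := sum_shift_le V K (fun f => (f.1 + (-1), f.2 + 0)) (inj_add (-1) 0)
    (fun f hf => by simpa [sub_eq_add_neg] using (hVK f hf).2.1)
    (fun v => 8 * (g v 0 ^ 2 + g v 1 ^ 2)) (fun v => by positivity)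
  have s3 := sum_shift_le V K (fun f => (f.1 + (-1), f.2 + (-1))) (inj_add (-1) (-1))
    (fun f hf => by simpa [sub_eq_add_neg] using (hVK f hf).2.2.2)
    (fun v => 8 * (g v 1 ^ 2 + g v 2 ^ 2)) (fun v => by positivity)
  have s4 := sum_shift_le V K (fun f => (f.1 + 0, f.2 + (-1))) (inj_add 0 (-1))
    (fun f hf => by simpa [sub_eq_add_neg] using (hVK f hf).2.2.1)
    (fun v => 8 * (g v 2 ^ 2 + g v 3 ^ 2)) (fun v => by positivity)
  simp only [add_zero, ← sub_eq_add_neg] at s1 s2 s3 s4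
  have e : ∑ v ∈ K, 8 * (g v 0 ^ 2 + g v 3 ^ 2) + ∑ v ∈ K, 8 * (g v 0 ^ 2 + g v 1 ^ 2)
      + ∑ v ∈ K, 8 * (g v 1 ^ 2 + g v 2 ^ 2) + ∑ v ∈ K, 8 * (g v 2 ^ 2 + g v 3 ^ 2)
      = 16 * ∑ v ∈ K, nsq (g v) := by
    rw [← sum_add_distrib, ← sum_add_distrib, ← sum_add_distrib, mul_sum]
    refine sum_congr rfl fun v _ => ?_
    rw [nsq_eq]; ring
  linarith

/-! ### gauge transformations -/

/-- gauge transformed weights -/
def gw (s : Face → ℝ) (w : Fld) : Fld := fun f h => s f * s (nb f h) * w f h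

/-- gauge transformed field -/
def gf (s : Face → ℝ) (φ : Fld) : Fld := fun f h => s f * φ f h

theorem A0_smul (c : ℝ) (p : Fin 4 → ℝ) (h : Fin 4) : A0 (fun k => c * p k) h = c * A0 p h := by
  fin_cases h <;> simp [A0] <;> ring

/-- `A_{sw} (s φ) = s A_w φ` when `s² = 1` at the neighbour -/
theorem A_gauge (s : Face → ℝ) (w φ : Fld) (f : Face) (h : Fin 4)
    (hs : s (nb f h) ^ 2 = 1) : A (gw s w) (gf s φ) f h = gf s (A w φ) f h := by
  have e : gf s φ f = fun k => s f * φ f k := rfl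
  simp only [A, Y, e, A0_smul, gf, gw]
  have : s f * s (nb f h) * w f h * (s (nb f h) * φ (nb f h) (op h))
      = s f * (w f h * φ (nb f h) (op h)) * s (nb f h) ^ 2 := by ring
  rw [mul_assoc (sg h), this, hs]; ring




/-! ### free boundary conditions: consequences of the plus case -/


theorem df_zero_off {w φ : Fld} {K V : Finset Face} (h : ∀ f, f ∉ K → ∀ k, φ f k = 0)
    (hKV : Vts K V) (v : Face) (hv : v ∉ V) (k : Fin 4) : df w φ v k = 0 := by
  have a1 : (v.1, v.2) ∉ K := fun hc => hv (hKV _ hc).1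
  have a2 : (v.1 - 1, v.2) ∉ K := fun hc => hv (by simpa using (hKV _ hc).2.1)
  have a3 : (v.1, v.2 - 1) ∉ K := fun hc => hv (by simpa using (hKV _ hc).2.2.1)
  have a4 : (v.1 - 1, v.2 - 1) ∉ K := fun hc => hv (by simpa using (hKV _ hc).2.2.2)
  fin_cases k <;> simp [df, h _ a1, h _ a2, h _ a3, h _ a4]


/-- exact solutions: `A φ = 0` on `K2` gives `A* (df φ) = 0` on `V` -/
theorem A_df_eq_zero {w φ : Fld} (hw : Sym w) (hy : ∀ f h, 1 + w f h ≠ 0) {V K2 : Finset Face}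
    (h2 : Fcs V K2) (h0 : ∀ f ∈ K2, ∀ h, A w φ f h = 0) : ∀ v ∈ V, ∀ h, A (dw w) (df w φ) v h = 0 := by
  intro v hv h
  obtain ⟨a1, a2, a3, a4⟩ := h2 v hv
  rw [A_df_global hw hy]
  have b1 : A w φ (v.1, v.2) = 0 := funext (h0 _ a1)
  have b2 : A w φ (v.1 - 1, v.2) = 0 := funext (h0 _ a2)
  have b3 : A w φ (v.1, v.2 - 1) = 0 := funext (h0 _ a3)
  have b4 : A w φ (v.1 - 1, v.2 - 1) = 0 := funext (h0 _ a4)
  fin_cases h <;> simp [dg, r1, r2, r3, r4, b1, b2, b3, b4]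

/-! ### the light modes -/







end Crest.Agent.R165.Dualx485
end
private theorem rz_0cfed3a8f7 : type_of% @_root_.Crest.Agent.R165.Dualx485.df.eq_1 := @_root_.Crest.Agent.R165.Dualx485.df.eq_1 -- L45
private theorem rz_5f786922b4 : type_of% @_root_.Crest.Agent.R165.Dualx485.dg.eq_1 := @_root_.Crest.Agent.R165.Dualx485.dg.eq_1 -- L75
private theorem rz_7ebfc17877 : type_of% @_root_.Crest.Agent.R165.Dualx485.ew.eq_1 := @_root_.Crest.Agent.R165.Dualx485.ew.eq_1 -- L26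
private theorem rz_5849d0ccd9 : type_of% @_root_.Crest.Agent.R165.Dualx485.fd.eq_1 := @_root_.Crest.Agent.R165.Dualx485.fd.eq_1 -- L158
end

-- ▼ part R165/FreeLoc_485
section

/-!
# Row 165 (S0250), block R: free boundary conditions, local statements

Transfer of the local statements (gap, exact solutions) from plus type backgrounds to free ones
through the dual variables of `Dual_485`.  `Qn x n` is the box of faces (or vertices) of sup
radius `n` around `x`.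
-/

set_option autoImplicit false

noncomputable section

namespace Crest.Agent.R165.FreeLocx485

open Finset Crest.Agent.R165.Tr1x40 Crest.Agent.R165.Dualx485










/-- the edge carrying the half-edge `(f,h)` touches the box -/
def Tch (Q : Finset Face) (f : Face) (h : Fin 4) : Prop := f ∈ Q ∨ nb f h ∈ Q

theorem tch_bar {Q : Finset Face} {f : Face} {h : Fin 4} :
    Tch Q (nb f h) (op h) ↔ Tch Q f h := by
  unfold Tch; rw [nb_nb_op]; exact or_comm

/-- the background `w` is free on the edges touching `Q`, in the gauge `s` -/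
structure FreeOn (w : Fld) (s : Face → ℝ) (Q : Finset Face) : Prop where
  sym : Sym w
  sq : ∀ f, s f ^ 2 = 1
  val : ∀ f h, Tch Q f h → s f * s (nb f h) * w f h = xc ∨ s f * s (nb f h) * w f h = 1

open Classical in
/-- global free model of a background which is free on `Q` -/
def model (w : Fld) (s : Face → ℝ) (Q : Finset Face) : Fld := fun f h =>
  if Tch Q f h then s f * s (nb f h) * w f h else xc

theorem model_of_tch {w : Fld} {s : Face → ℝ} {Q : Finset Face} {f : Face} {h : Fin 4}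
    (ht : Tch Q f h) : model w s Q f h = s f * s (nb f h) * w f h := if_pos ht

theorem sym_model {w : Fld} {s : Face → ℝ} {Q : Finset Face} (hw : Sym w) :
    Sym (model w s Q) := by
  intro f h
  unfold model
  by_cases ht : Tch Q f h
  · rw [if_pos ht, if_pos (tch_bar.2 ht), nb_nb_op, hw f h]; ring
  · rw [if_neg ht, if_neg (fun hc => ht (tch_bar.1 hc))]

theorem isFree_model {w : Fld} {s : Face → ℝ} {Q : Finset Face} (hw : FreeOn w s Q) :
    IsFree (model w s Q) := by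
  intro f h
  unfold model
  by_cases ht : Tch Q f h
  · rw [if_pos ht]; exact hw.val f h ht
  · rw [if_neg ht]; exact Or.inl rfl

/-- on `Q` the operator of the model is the gauge transform of the operator of `w` -/
theorem A_model {w : Fld} {s : Face → ℝ} {Q : Finset Face} (hw : FreeOn w s Q) (φ : Fld)
    (f : Face) (h : Fin 4) (ht : Tch Q f h) :
    A (model w s Q) (gf s φ) f h = gf s (A w φ) f h := by
  have e1 : A (model w s Q) (gf s φ) f h = A (gw s w) (gf s φ) f h := by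
    simp only [A, Y, gw, model_of_tch ht]
  rw [e1]
  exact A_gauge s w φ f h (hw.sq _)

/-- for a field supported in `Q` this holds everywhere -/
theorem A_model_supp {w : Fld} {s : Face → ℝ} {Q : Finset Face} (hw : FreeOn w s Q) (φ : Fld)
    (hφ : ∀ f, f ∉ Q → ∀ h, φ f h = 0) (f : Face) (h : Fin 4) :
    A (model w s Q) (gf s φ) f h = gf s (A w φ) f h := by
  by_cases ht : Tch Q f h
  · exact A_model hw φ f h ht
  · have h1 : f ∉ Q := fun hc => ht (Or.inl hc)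
    have h2 : nb f h ∉ Q := fun hc => ht (Or.inr hc)
    have e1 : φ f = 0 := funext fun k => hφ f h1 k
    have e2 : ∀ k, gf s φ f k = 0 := fun k => by simp [gf, e1]
    have e3 : A0 (gf s φ f) h = 0 := by
      have : gf s φ f = 0 := funext e2
      rw [this]; fin_cases h <;> simp [A0]
    have e4 : A0 (φ f) h = 0 := by rw [e1]; fin_cases h <;> simp [A0]
    simp only [A, Y, e3, gf, hφ _ h2, e4, mul_zero, add_zero]







theorem fd_sub (w ψ χ : Fld) : fd w (ψ - χ) = fd w ψ - fd w χ := by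
  funext f h
  fin_cases h <;> simp [fd] <;> ring

theorem fd_smul (w : Fld) (c : ℝ) (ψ : Fld) : fd w (c • ψ) = c • fd w ψ := by
  funext f h
  fin_cases h <;> simp [fd] <;> ring

theorem df_sub (w ψ χ : Fld) : df w (ψ - χ) = df w ψ - df w χ := by
  funext f h
  fin_cases h <;> simp [df] <;> ring

theorem df_smul (w : Fld) (c : ℝ) (ψ : Fld) : df w (c • ψ) = c • df w ψ := by
  funext f h
  fin_cases h <;> simp [df] <;> ring


end Crest.Agent.R165.FreeLocx485
end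
end

-- ▼ part R165/FreeReg_485

/-!
# Row 165 (S0250), block R: regularity at a free boundary (helper485)

* `FreeFlat w s x r n ε`: free boundary, `ε`-flat with outward normal `n`, arbitrary (free) inside
  the strip; `IsFreeOn w s x r`: free background on a box
* `gapF`: `GapOn` for free backgrounds from `GapU`
* `dual_plusFlat`: the dual background of a `FreeFlat` one is `PlusFlat`
* `exf_of`: `EXf` (growth of exact solutions and one mode) from `EXb`
* `regF`: Reg1/Reg2 at a free boundary from the leaves `GapU`, `EXb`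
* `modeF_eq`: the mode is the constant light mode of amplitude `-i c` away from the strip
-/

set_option autoImplicit false

noncomputable section

namespace Crest.Agent.R165.FreeRegx485

open Finset Crest.Agent.R165.Tr1x40 Crest.Agent.R165.Campx891 Crest.Agent.R165.RIfx891
open Crest.Agent.R165.Dualx485
open Crest.Agent.R165.FreeLocx485 (FreeOn Tch model model_of_tch sym_model isFree_model A_model
  A_model_supp fd_sub fd_smul df_sub df_smul)

/-! ### boxes and norms -/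

theorem vts_bx (x : Face) (r : ℝ) : Vts (bx x r) (bx x (r + 1)) := by
  intro f hf
  rw [mem_bx_real] at hf
  obtain ⟨h1, h2⟩ := hf
  rw [abs_le] at h1 h2
  simp only [mem_bx_real, abs_le]
  push_cast
  refine ⟨⟨⟨?_, ?_⟩, ?_, ?_⟩, ⟨⟨?_, ?_⟩, ?_, ?_⟩, ⟨⟨?_, ?_⟩, ?_, ?_⟩, ⟨⟨?_, ?_⟩, ?_, ?_⟩⟩ <;>
    linarith [h1.1, h1.2, h2.1, h2.2]

theorem fcs_bx (x : Face) (r : ℝ) : Fcs (bx x r) (bx x (r + 1)) := by
  intro f hf
  rw [mem_bx_real] at hf
  obtain ⟨h1, h2⟩ := hf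
  rw [abs_le] at h1 h2
  simp only [mem_bx_real, abs_le]
  push_cast
  refine ⟨⟨⟨?_, ?_⟩, ?_, ?_⟩, ⟨⟨?_, ?_⟩, ?_, ?_⟩, ⟨⟨?_, ?_⟩, ?_, ?_⟩, ⟨⟨?_, ?_⟩, ?_, ?_⟩⟩ <;>
    linarith [h1.1, h1.2, h2.1, h2.2]

theorem le_of_sq_le' {a b c : ℝ} (hc : 0 ≤ c) (hb : 0 ≤ b) (h : a ^ 2 ≤ c ^ 2 * b ^ 2) :
    a ≤ c * b := by
  rw [← mul_pow] at h
  exact le_of_sq_le_sq h (by positivity)
where
  le_of_sq_le_sq {a b : ℝ} (h : a ^ 2 ≤ b ^ 2) (hb : 0 ≤ b) : a ≤ b := by
    by_contra hc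
    push Not at hc
    nlinarith

theorem NB_fd {w : Fld} (hy : ∀ f h, 0 ≤ w f h) (ψ : Fld) (x : Face) (t : ℝ) :
    NB x t (fd w ψ) ≤ 2 * NB x (t + 1) ψ := by
  refine le_of_sq_le' (by norm_num) (apply_nonneg _ _) ?_
  rw [NB_sq, NB_sq]
  have := sum_fd_le hy ψ (bx x t) (bx x (t + 1)) (vts_bx x t)
  linarith

theorem NB_df {w : Fld} (hy : ∀ f h, 0 ≤ w f h) (hy1 : ∀ f h, w f h ≤ 1) (φ : Fld) (x : Face)
    (t : ℝ) : NB x t (df w φ) ≤ 2 * NB x (t + 1) φ := by
  refine le_of_sq_le' (by norm_num) (apply_nonneg _ _) ?_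
  rw [NB_sq, NB_sq]
  have := sum_df_le hy hy1 φ (bx x t) (bx x (t + 1)) (fcs_bx x t)
  linarith

theorem NB_dg (g : Fld) (x : Face) (t : ℝ) : NB x t (dg g) ≤ 4 * NB x (t + 1) g := by
  refine le_of_sq_le' (by norm_num) (apply_nonneg _ _) ?_
  rw [NB_sq, NB_sq]
  have := sum_dg_le g (bx x t) (bx x (t + 1)) (fcs_bx x t)
  linarith

theorem NB_eq_of_supp {φ : Fld} {x : Face} {r t : ℝ} (hrt : r ≤ t) (hφ : Supp (bx x r) φ) :
    NB x t φ = NB x r φ := by
  have h1 : NB x t φ ^ 2 = NB x r φ ^ 2 := by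
    rw [NB_sq, NB_sq]
    symm
    refine sum_subset (bx_mono x hrt) fun f _ hf => ?_
    rw [hφ f hf]; simp [nsq]
  have h2 : 0 ≤ NB x t φ := apply_nonneg _ _
  have h3 : 0 ≤ NB x r φ := apply_nonneg _ _
  nlinarith [sq_nonneg (NB x t φ - NB x r φ)]

theorem gf_eq_gm (s : Face → ℝ) (φ : Fld) : gf s φ = gm s φ := rfl

/-! ### background classes -/

/-- free background on a box, up to a gauge -/
structure IsFreeOn (w : Fld) (s : Face → ℝ) (x : Face) (r : ℝ) : Prop where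
  sym : Sym w
  gauge : Gauge s
  free : ∀ f ∈ bx x r, ∀ h, w f h = s f * s (nb f h) * xc ∨ w f h = s f * s (nb f h)

/-- free boundary, `ε`-flat with outward normal `n`; arbitrary (free) inside the strip -/
structure FreeFlat (w : Fld) (s : Face → ℝ) (x : Face) (r : ℝ) (n : ℂ) (ε : ℝ) : Prop where
  sym : Sym w
  gauge : Gauge s
  free : ∀ f ∈ bx x r, ∀ h, w f h = s f * s (nb f h) * xc ∨ w f h = s f * s (nb f h)
  inside : ∀ f ∈ bx x r, dotn n x f ≤ -(ε * r) → ∀ h, w f h = s f * s (nb f h) * xc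
  outside : ∀ f ∈ bx x r, ε * r ≤ dotn n x f → ∀ h, w f h = s f * s (nb f h)

theorem FreeFlat.isFreeOn {w : Fld} {s : Face → ℝ} {x : Face} {r : ℝ} {n : ℂ} {ε : ℝ}
    (H : FreeFlat w s x r n ε) : IsFreeOn w s x r := ⟨H.sym, H.gauge, H.free⟩

theorem IsFreeOn.mono {w : Fld} {s : Face → ℝ} {x : Face} {r r' : ℝ} (h : r' ≤ r)
    (H : IsFreeOn w s x r) : IsFreeOn w s x r' :=
  ⟨H.sym, H.gauge, fun f hf => H.free f (bx_mono x h hf)⟩

theorem FreeFlat.mono {w : Fld} {s : Face → ℝ} {x : Face} {r r' ε ε' : ℝ} {n : ℂ} (h : r' ≤ r)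
    (h' : ε * r ≤ ε' * r') (H : FreeFlat w s x r n ε) : FreeFlat w s x r' n ε' :=
  ⟨H.sym, H.gauge, fun f hf => H.free f (bx_mono x h hf),
    fun f hf hd => H.inside f (bx_mono x h hf) (by linarith),
    fun f hf hd => H.outside f (bx_mono x h hf) (by linarith)⟩

theorem gauge_cancel {s : Face → ℝ} (hs : Gauge s) (f g : Face) (a : ℝ) :
    s f * s g * (s f * s g * a) = a := by
  have h1 := hs f
  have h2 := hs g
  calc s f * s g * (s f * s g * a) = s f ^ 2 * s g ^ 2 * a := by ring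
    _ = a := by rw [h1, h2]; ring

theorem IsFreeOn.freeOn {w : Fld} {s : Face → ℝ} {x : Face} {r : ℝ} (H : IsFreeOn w s x r) :
    FreeOn w s (bx x r) where
  sym := H.sym
  sq := H.gauge
  val := by
    have key : ∀ f ∈ bx x r, ∀ h, s f * s (nb f h) * w f h = xc ∨ s f * s (nb f h) * w f h = 1 := by
      intro f hf h
      rcases H.free f hf h with e | e
      · left; rw [e, gauge_cancel H.gauge]
      · right
        have := gauge_cancel H.gauge f (nb f h) 1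
        rw [e]; rwa [mul_one] at this
    intro f h ht
    rcases ht with hf | hf
    · exact key f hf h
    · have := key _ hf (op h)
      rw [nb_nb_op, H.sym f h] at this
      rwa [mul_comm (s f)]

/-- the model on the box is the gauge transform -/
theorem model_bx {w : Fld} {s : Face → ℝ} {x : Face} {r : ℝ} {f : Face} (hf : f ∈ bx x r)
    (h : Fin 4) : model w s (bx x r) f h = gw s w f h := model_of_tch (Or.inl hf)

theorem fd_congr {w w' ψ : Fld} {f : Face} (h : ∀ k, w f k = w' f k) : fd w ψ f = fd w' ψ f := by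
  funext k
  fin_cases k <;> simp only [fd, h]

/-! ### gap -/

/-- **gap for free backgrounds** -/
theorem gapF {C : ℝ} (hC : 0 ≤ C) (H : GapU C) {w : Fld} {s : Face → ℝ} {x : Face} {r : ℝ}
    (hr : 1 ≤ r) (hw : IsFreeOn w s x r) : GapOn w x r (16 * C) := by
  intro φ hφ
  set w' := model w s (bx x r) with hw'
  set φ' := gf s φ with hφ'
  have hO := hw.freeOn
  have hS : Sym w' := sym_model hw.sym
  have hF : IsFree w' := isFree_model hO
  have hs' : Supp (bx x r) φ' := fun f hf => by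
    funext h; simp only [φ', gf, hφ f hf, Pi.zero_apply, mul_zero]
  have hd : Supp (bx x (r + 1)) (df w' φ') := fun v hv => funext fun k =>
    df_zero_off (fun f hf k => congrFun (hs' f hf) k) (vts_bx x r) v hv k
  have hp : IsPlusOn (dw w') x (r + 1) := fun f _ h => hF.isPlus f h
  have h1 := H (dw w') x (r + 1) (by linarith) (sym_dw w') hp (df w' φ') hd
  have h2 : NB x r φ' ≤ 2 * NB x (r + 1) (df w' φ') := by
    have := NB_fd hF.nonneg (df w' φ') x r
    rwa [fd_df hS hF.ne] at this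
  have e1 : A w' φ' = gm s (A w φ) := by
    funext f h
    exact A_model_supp hO φ (fun f hf k => congrFun (hφ f hf) k) f h
  have h3 : NB x (r + 1 + 1) (A (dw w') (df w' φ')) ≤ 4 * NB x (r + 1) (A w φ) := by
    rw [A_df_global hS hF.ne]
    have := NB_dg (A w' φ') x (r + 1 + 1)
    rw [e1, NB_gm hw.gauge, NB_eq_of_supp (by linarith) (supp_A hφ)] at this
    rwa [e1]
  have h4 : NB x r φ = NB x r φ' := (NB_gm hw.gauge x r φ).symm
  rw [h4]
  have h5 : 0 ≤ NB x (r + 1) (A w φ) := apply_nonneg _ _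
  have h6 : C * (r + 1) * NB x (r + 1 + 1) (A (dw w') (df w' φ'))
      ≤ C * (2 * r) * (4 * NB x (r + 1) (A w φ)) :=
    mul_le_mul (mul_le_mul_of_nonneg_left (by linarith) hC) h3 (apply_nonneg _ _) (by positivity)
  calc NB x r φ' ≤ 2 * NB x (r + 1) (df w' φ') := h2
    _ ≤ 2 * (C * (r + 1) * NB x (r + 1 + 1) (A (dw w') (df w' φ'))) := by linarith
    _ ≤ 2 * (C * (2 * r) * (4 * NB x (r + 1) (A w φ))) := by linarith
    _ = 16 * C * r * NB x (r + 1) (A w φ) := by ring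

/-! ### the dual background -/

theorem dotn_shift {n : ℂ} (hn : ‖n‖ = 1) (x v : Face) (a b : ℝ) (c d : ℤ)
    (hc : (c : ℝ) = v.1 + a) (hd : (d : ℝ) = v.2 + b) (hab : |a| + |b| ≤ 1) :
    |dotn n x (c, d) - dotn n x v| ≤ 1 := by
  have h1 : |n.re| ≤ 1 := (Complex.abs_re_le_norm n).trans hn.le
  have h2 : |n.im| ≤ 1 := (Complex.abs_im_le_norm n).trans hn.le
  have e : dotn n x (c, d) - dotn n x v = n.re * a + n.im * b := by
    simp only [dotn, hc, hd]; ring
  rw [e]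
  calc |n.re * a + n.im * b| ≤ |n.re * a| + |n.im * b| := abs_add_le _ _
    _ = |n.re| * |a| + |n.im| * |b| := by rw [abs_mul, abs_mul]
    _ ≤ 1 * |a| + 1 * |b| := by gcongr
    _ ≤ 1 := by linarith

/-- the dual background of a `FreeFlat` background is `PlusFlat` -/
theorem dual_plusFlat {w : Fld} {s : Face → ℝ} {x : Face} {r : ℝ} {n : ℂ} {ε ε' : ℝ}
    (hn : ‖n‖ = 1) (H : FreeFlat w s x r n ε) (hε : ε * r + 1 ≤ ε' * (r - 1)) :
    PlusFlat (dw (model w s (bx x r))) (fun _ => 1) x (r - 1) n ε' := by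
  have hO := H.isFreeOn.freeOn
  have hF : IsFree (model w s (bx x r)) := isFree_model hO
  -- the four faces
  have hfc := fcs_bx x (r - 1)
  rw [sub_add_cancel] at hfc
  have key : ∀ (P : ℝ → Prop) (v : Face), v ∈ bx x (r - 1) →
      (∀ f, f ∈ bx x r → |dotn n x f - dotn n x v| ≤ 1 → ∀ h, P (model w s (bx x r) f h)) →
      ∀ h, P (ew (model w s (bx x r)) v h) := by
    intro P v hv hP h
    obtain ⟨a1, a2, a3, a4⟩ := hfc v hv
    have b1 : |dotn n x (v.1, v.2) - dotn n x v| ≤ 1 :=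
      dotn_shift hn x v 0 0 _ _ (by simp) (by simp) (by simp)
    have b2 : |dotn n x (v.1 - 1, v.2) - dotn n x v| ≤ 1 :=
      dotn_shift hn x v (-1) 0 _ _ (by push_cast; ring) (by simp) (by simp)
    have b3 : |dotn n x (v.1, v.2 - 1) - dotn n x v| ≤ 1 :=
      dotn_shift hn x v 0 (-1) _ _ (by simp) (by push_cast; ring) (by simp)
    fin_cases h
    · exact hP _ a3 b3 3
    · exact hP _ a1 b1 0
    · exact hP _ a1 b1 3
    · exact hP _ a2 b2 0
  refine ⟨sym_dw _, fun _ => by norm_num, fun f _ h => hF.isPlus f h, ?_, ?_⟩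
  · intro v hv hd h
    have : ew (model w s (bx x r)) v h = xc := by
      refine key (fun y => y = xc) v hv (fun f hf hfd h => ?_) h
      rw [model_bx hf, gw, H.inside f hf ?_ h, gauge_cancel H.gauge]
      rw [abs_le] at hfd
      linarith [hfd.2]
    simp only [dw, this, dy_xc, one_mul]
  · intro v hv hd h
    have : ew (model w s (bx x r)) v h = 1 := by
      refine key (fun y => y = 1) v hv (fun f hf hfd h => ?_) h
      have e := gauge_cancel H.gauge f (nb f h) 1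
      rw [mul_one] at e
      rw [model_bx hf, gw, H.outside f hf ?_ h, e]
      rw [abs_le] at hfd
      linarith [hfd.1]
    simp only [dw, this, dy_one]

/-! ### exact solutions -/

/-- boundary mode of a free background -/
def modeF (w : Fld) (s : Face → ℝ) (x : Face) (n c : ℂ) : Fld :=
  gm s (fd (gw s w) (modeB (fun _ => 1) x n c))

/-- growth of exact solutions and one mode at a free boundary -/
def EXf (C : ℝ) : Prop :=
  ∀ (m : ℕ) (η : ℝ), 0 < η → ∃ r0 ε0 : ℝ, 0 < ε0 ∧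
    ∀ (w : Fld) (s : Face → ℝ) (x : Face) (r : ℝ) (n c : ℂ), r0 ≤ r → ‖n‖ = 1 →
      c ^ 2 = (starRingEnd ℂ) n → FreeFlat w s x r n ε0 →
      Ex1On w x r (r * q ^ (2 * m)) (C * q ^ (2 * m) + η) ∧
      Ex2On w x r (r * q ^ (2 * m)) (modeF w s x n c) (C * q ^ (4 * m) + η)

theorem NB_modeF {w : Fld} {s : Face → ℝ} {x : Face} {r t : ℝ} (hs : Gauge s) (ht : t ≤ r)
    (e u : Fld) (κ : ℝ) :
    NB x t (e - κ • gm s (fd (gw s w) u))
      = NB x t (gf s e - κ • fd (model w s (bx x r)) u) := by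
  rw [← NB_gm hs x t (e - κ • gm s (fd (gw s w) u))]
  refine N2_congr fun f hf => ?_
  rw [map_sub, map_smul, gm_gm hs]
  have : fd (model w s (bx x r)) u f = fd (gw s w) u f :=
    fd_congr fun k => model_bx (bx_mono x ht hf) k
  simp only [Pi.sub_apply, Pi.smul_apply, this, gf_eq_gm]

/-- transfer of the growth estimate -/
theorem ex1_transfer {w : Fld} {s : Face → ℝ} {x : Face} {r t M : ℝ} (hw : IsFreeOn w s x r)
    (hM : 0 ≤ M) (H : Ex1On (dw (model w s (bx x r))) x (r - 1) (t + 1) M) :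
    Ex1On w x r t (4 * M) := by
  intro e he
  set w' := model w s (bx x r) with hw'
  have hO := hw.freeOn
  have hS : Sym w' := sym_model hw.sym
  have hF : IsFree w' := isFree_model hO
  have h0 : ∀ f ∈ bx x r, ∀ h, A w' (gf s e) f h = 0 := by
    intro f hf h
    rw [A_model hO e f h (Or.inl hf), gf, he f hf]; simp
  have hfc := fcs_bx x (r - 1)
  rw [sub_add_cancel] at hfc
  have h1 := H (df w' (gf s e)) fun v hv => funext fun h => A_df_eq_zero hS hF.ne hfc h0 v hv h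
  have h2 : NB x t (gf s e) ≤ 2 * NB x (t + 1) (df w' (gf s e)) := by
    have := NB_fd hF.nonneg (df w' (gf s e)) x t
    rwa [fd_df hS hF.ne] at this
  have h3 : NB x (r - 1) (df w' (gf s e)) ≤ 2 * NB x r (gf s e) := by
    have := NB_df hF.nonneg hF.le_one (gf s e) x (r - 1)
    rwa [sub_add_cancel] at this
  rw [gf_eq_gm, NB_gm hw.gauge] at h2 h3
  rw [gf_eq_gm] at h1
  calc NB x t e ≤ 2 * NB x (t + 1) (df w' (gm s e)) := h2
    _ ≤ 2 * (M * NB x (r - 1) (df w' (gm s e))) := by linarith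
    _ ≤ 2 * (M * (2 * NB x r e)) := by
        have := mul_le_mul_of_nonneg_left h3 hM
        linarith
    _ = 4 * M * NB x r e := by ring

/-- transfer of the one-mode estimate -/
theorem ex2_transfer {w : Fld} {s : Face → ℝ} {x : Face} {r t M : ℝ} (u : Fld)
    (hw : IsFreeOn w s x r) (ht : t ≤ r)
    (hM : 0 ≤ M) (H : Ex2On (dw (model w s (bx x r))) x (r - 1) (t + 1) u M) :
    Ex2On w x r t (gm s (fd (gw s w) u)) (4 * M) := by
  intro e he
  set w' := model w s (bx x r) with hw'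
  have hO := hw.freeOn
  have hS : Sym w' := sym_model hw.sym
  have hF : IsFree w' := isFree_model hO
  have h0 : ∀ f ∈ bx x r, ∀ h, A w' (gf s e) f h = 0 := by
    intro f hf h
    rw [A_model hO e f h (Or.inl hf), gf, he f hf]; simp
  have hfc := fcs_bx x (r - 1)
  rw [sub_add_cancel] at hfc
  obtain ⟨κ, h1⟩ := H (df w' (gf s e))
    fun v hv => funext fun h => A_df_eq_zero hS hF.ne hfc h0 v hv h
  refine ⟨κ, ?_⟩
  rw [NB_modeF hw.gauge ht, ← hw']
  have h2 : NB x t (gf s e - κ • fd w' u) ≤ 2 * NB x (t + 1) (df w' (gf s e) - κ • u) := by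
    have := NB_fd hF.nonneg (df w' (gf s e) - κ • u) x t
    rwa [fd_sub, fd_smul, fd_df hS hF.ne] at this
  have h3 : NB x (r - 1) (df w' (gf s e)) ≤ 2 * NB x r (gf s e) := by
    have := NB_df hF.nonneg hF.le_one (gf s e) x (r - 1)
    rwa [sub_add_cancel] at this
  have h4 : NB x r (gf s e) = NB x r e := NB_gm hw.gauge x r e
  rw [h4] at h3
  calc NB x t (gf s e - κ • fd w' u) ≤ 2 * NB x (t + 1) (df w' (gf s e) - κ • u) := h2
    _ ≤ 2 * (M * NB x (r - 1) (df w' (gf s e))) := by linarith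
    _ ≤ 2 * (M * (2 * NB x r e)) := by
        have := mul_le_mul_of_nonneg_left h3 hM
        linarith
    _ = 4 * M * NB x r e := by ring

theorem ex1On_anti {w : Fld} {x : Face} {r t t' M : ℝ} (h : t' ≤ t) (H : Ex1On w x r t M) :
    Ex1On w x r t' M := fun e he => (NB_mono x h e).trans (H e he)

theorem ex2On_anti {w : Fld} {x : Face} {r t t' M : ℝ} {u : Fld} (h : t' ≤ t)
    (H : Ex2On w x r t u M) : Ex2On w x r t' u M := fun e he => by
  obtain ⟨κ, hκ⟩ := H e he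
  exact ⟨κ, (NB_mono x h _).trans hκ⟩

theorem ex1On_le {w : Fld} {x : Face} {r t M M' : ℝ} (h : M ≤ M') (H : Ex1On w x r t M) :
    Ex1On w x r t M' := fun e he =>
  (H e he).trans (mul_le_mul_of_nonneg_right h (apply_nonneg _ _))

theorem ex2On_le {w : Fld} {x : Face} {r t M M' : ℝ} {u : Fld} (h : M ≤ M')
    (H : Ex2On w x r t u M) : Ex2On w x r t u M' := fun e he => by
  obtain ⟨κ, hκ⟩ := H e he
  exact ⟨κ, hκ.trans (mul_le_mul_of_nonneg_right h (apply_nonneg _ _))⟩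

/-- **free boundary: exact solutions**, from the plus boundary -/
theorem exf_of {C : ℝ} (hC : 0 ≤ C) (hE : EXb C) : EXf (16 * C + 1) := by
  intro m η hη
  have hq := q_pos
  rcases Nat.eq_zero_or_pos m with rfl | hm
  · -- nothing to prove at the scale of the box
    refine ⟨0, 1, one_pos, fun w s x r n c _ _ _ _ => ⟨fun e _ => ?_, fun e _ => ⟨0, ?_⟩⟩⟩
    · have h0 : 0 ≤ NB x r e := apply_nonneg _ _
      simp only [mul_zero, pow_zero, mul_one]
      nlinarith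
    · have h0 : 0 ≤ NB x r e := apply_nonneg _ _
      simp only [mul_zero, pow_zero, mul_one, zero_smul, sub_zero]
      nlinarith
  · obtain ⟨k, rfl⟩ : ∃ k, m = k + 1 := ⟨m - 1, by omega⟩
    obtain ⟨r1, ε1, hε1, hX⟩ := hE k (η / 4) (by positivity)
    have hqk : 0 < q ^ (2 * (k + 1)) := by positivity
    refine ⟨max (max (r1 + 1) (3 / q ^ (2 * (k + 1)))) (max 3 (2 * (1 + ε1) / ε1)), ε1 / 2,
      by positivity, ?_⟩
    intro w s x r n c hr hn hc H
    have g1 : r1 + 1 ≤ r := (le_max_left _ _).trans ((le_max_left _ _).trans hr)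
    have g2 : 3 / q ^ (2 * (k + 1)) ≤ r := (le_max_right _ _).trans ((le_max_left _ _).trans hr)
    have g3 : 3 ≤ r := (le_max_left _ _).trans ((le_max_right _ _).trans hr)
    have g4 : 2 * (1 + ε1) / ε1 ≤ r := (le_max_right _ _).trans ((le_max_right _ _).trans hr)
    rw [div_le_iff₀ hqk] at g2
    rw [div_le_iff₀ hε1] at g4
    have hP := dual_plusFlat (ε' := ε1) hn H (by nlinarith)
    obtain ⟨hX1, hX2⟩ := hX _ _ x (r - 1) n c (by linarith) hn hc hP
    have e1 : q ^ (2 * (k + 1)) = q ^ (2 * k) / 2 := by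
      rw [show 2 * (k + 1) = 2 * k + 2 by ring, pow_add, q_sq]; ring
    have e2 : q ^ (4 * (k + 1)) = q ^ (4 * k) / 4 := by
      rw [show 4 * (k + 1) = 4 * k + 2 + 2 by ring, pow_add, pow_add, q_sq]; ring
    have e3 : q ^ (2 * (k + 1)) ≤ 1 := pow_le_one₀ hq.le q_le_one
    have ht : r * q ^ (2 * (k + 1)) + 1 ≤ (r - 1) * q ^ (2 * k) := by
      have : (r - 1) * q ^ (2 * k) = 2 * (r * q ^ (2 * (k + 1))) - 2 * q ^ (2 * (k + 1)) := by
        rw [e1]; ring
      rw [this]; linarith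
    have ht2 : r * q ^ (2 * (k + 1)) ≤ r := mul_le_of_le_one_right (by linarith) e3
    have p1 : 0 < q ^ (2 * k) := by positivity
    have p2 : 0 < q ^ (4 * k) := by positivity
    refine ⟨?_, ?_⟩
    · refine ex1On_le ?_ (ex1_transfer H.isFreeOn (by positivity) (ex1On_anti ht hX1))
      rw [e1]; nlinarith
    · refine ex2On_le ?_ (ex2_transfer _ H.isFreeOn ht2 (by positivity) (ex2On_anti ht hX2))
      rw [e2]; nlinarith

/-! ### regularity -/

/-- **Reg1/Reg2 at a free boundary** from `GapU` and `EXf` -/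
theorem regF' {C Cs : ℝ} (hC : 0 ≤ C) (hCs : 0 ≤ Cs) (hG : GapU Cs) (hE : EXf C) :
    ∀ J : ℕ, ∃ r0 ε0 : ℝ, 0 < ε0 ∧
    ∀ (w : Fld) (s : Face → ℝ) (x : Face) (ρ : ℝ) (n c : ℂ), r0 ≤ ρ → ‖n‖ = 1 →
      c ^ 2 = (starRingEnd ℂ) n → FreeFlat w s x ρ n ε0 →
      ∀ f : Fld, NB x ρ f ≤ 1 → NB x ρ (A w f) ≤ 1 / ρ → NB x ρ (A w (A w f)) ≤ 1 / ρ ^ 2 →
        NB x (ρ * q ^ (2 * J)) f ≤ K2 C (16 * Cs) * q ^ (2 * J) ∧
        ∃ κ : ℝ, NB x (ρ * q ^ (2 * J)) (f - κ • modeF w s x n c)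
          ≤ K2 C (16 * Cs) * q ^ (3 * J) := by
  intro J
  have hq := q_pos
  choose r0 ε0 hε0 hEX using fun m : ℕ => hE m (q ^ (3 * J)) (by positivity)
  -- uniform thresholds over m ≤ J
  obtain ⟨R, hR⟩ : ∃ R, ∀ m ≤ J, r0 m ≤ R := by
    refine ⟨(range (J + 1)).sup' (nonempty_range_iff.2 (by omega)) r0, fun m hm => ?_⟩
    exact le_sup' r0 (mem_range.2 (by omega))
  obtain ⟨E, hE0, hE⟩ : ∃ E, 0 < E ∧ ∀ m ≤ J, E ≤ ε0 m := by
    refine ⟨(range (J + 1)).inf' (nonempty_range_iff.2 (by omega)) ε0, ?_, fun m hm => ?_⟩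
    · rw [lt_inf'_iff]; exact fun m _ => hε0 m
    · exact inf'_le ε0 (mem_range.2 (by omega))
  refine ⟨max 1 (max 1 R / q ^ (2 * J)), E * q ^ (2 * J), by positivity, ?_⟩
  intro w s x ρ n c hρ hn hc H f h0 h1 h2
  have hρ1 : max 1 R / q ^ (2 * J) ≤ ρ := (le_max_right _ _).trans hρ
  have hρ2 : max 1 R ≤ ρ * q ^ (2 * J) := by rwa [div_le_iff₀ (by positivity)] at hρ1
  have hρ3 : (1 : ℝ) ≤ ρ := (le_max_left _ _).trans hρ
  have hρ0 : 0 < ρ := by linarith
  have hsc : ∀ j ≤ J, max 1 R ≤ ρ * q ^ (2 * j) := fun j hj =>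
    hρ2.trans (mul_le_mul_of_nonneg_left (q_pow_le (by omega)) hρ0.le)
  have hle : ∀ j : ℕ, ρ * q ^ (2 * j) ≤ ρ := fun j =>
    mul_le_of_le_one_right hρ0.le (pow_le_one₀ hq.le q_le_one)
  have hcl : ∀ j ≤ J, ∀ m ≤ J, FreeFlat w s x (ρ * q ^ (2 * j)) n (ε0 m) := by
    intro j hj m hm
    refine H.mono (hle j) ?_
    have e1 : q ^ (2 * J) ≤ q ^ (2 * j) := q_pow_le (by omega)
    have e2 := hE m hm
    calc E * q ^ (2 * J) * ρ ≤ ε0 m * q ^ (2 * j) * ρ := by gcongr; exact (hε0 m).le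
      _ = ε0 m * (ρ * q ^ (2 * j)) := by ring
  have key : Hyp (AL w) (fun j => NB x (ρ * q ^ (2 * j))) (modeF w s x n c) 2 J ρ C (16 * Cs)
      (q ^ (3 * J)) := by
    refine hyp_of H.sym (by norm_num) le_rfl hρ0 hC (by positivity) (by positivity) le_rfl
      ?_ ?_ ?_
    · intro j hj
      exact gapF hCs hG ((le_max_left _ _).trans (hsc j hj)) (H.isFreeOn.mono (hle j))
    · intro j i hji hi
      have := (hEX (i - j) w s x (ρ * q ^ (2 * j)) n c
        ((hR _ (by omega)).trans ((le_max_right _ _).trans (hsc j (by omega)))) hn hc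
        (hcl j (by omega) _ (by omega))).1
      have e1 : ρ * q ^ (2 * j) * q ^ (2 * (i - j)) = ρ * q ^ (2 * i) := by
        rw [mul_assoc, ← pow_add]; congr 2; omega
      rwa [e1] at this
    · intro j hj
      have := (hEX (J - j) w s x (ρ * q ^ (2 * j)) n c
        ((hR _ (by omega)).trans ((le_max_right _ _).trans (hsc j (by omega)))) hn hc
        (hcl j (by omega) _ (by omega))).2
      have e1 : ρ * q ^ (2 * j) * q ^ (2 * (J - j)) = ρ * q ^ (2 * J) := by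
        rw [mul_assoc, ← pow_add]; congr 2; omega
      rwa [e1] at this
  have a0 : (fun j => NB x (ρ * q ^ (2 * j))) 0 f ≤ 1 := by simpa using h0
  have a1 : (fun j => NB x (ρ * q ^ (2 * j))) 0 (AL w f) ≤ 1 / ρ := by simpa using h1
  have a2 : (fun j => NB x (ρ * q ^ (2 * j))) 0 (AL w (AL w f)) ≤ 1 / ρ ^ 2 := by simpa using h2
  exact level2 key f a0 a1 a2

/-- **Reg1/Reg2 at a free boundary** from the leaves `GapU`, `EXb` -/
theorem regF {C Cs : ℝ} (hC : 0 ≤ C) (hCs : 0 ≤ Cs) (hG : GapU Cs) (hE : EXb C) :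
    ∀ J : ℕ, ∃ r0 ε0 : ℝ, 0 < ε0 ∧
    ∀ (w : Fld) (s : Face → ℝ) (x : Face) (ρ : ℝ) (n c : ℂ), r0 ≤ ρ → ‖n‖ = 1 →
      c ^ 2 = (starRingEnd ℂ) n → FreeFlat w s x ρ n ε0 →
      ∀ f : Fld, NB x ρ f ≤ 1 → NB x ρ (A w f) ≤ 1 / ρ → NB x ρ (A w (A w f)) ≤ 1 / ρ ^ 2 →
        NB x (ρ * q ^ (2 * J)) f ≤ K2 (16 * C + 1) (16 * Cs) * q ^ (2 * J) ∧
        ∃ κ : ℝ, NB x (ρ * q ^ (2 * J)) (f - κ • modeF w s x n c)
          ≤ K2 (16 * C + 1) (16 * Cs) * q ^ (3 * J) :=
  regF' (by positivity) hCs hG (exf_of hC hE)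

/-! ### the mode in the interior -/




end Crest.Agent.R165.FreeRegx485
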