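import Crest.Agent.R165.GeoLat1_416

-- ▼ part R165/GeoLat2_416
section

/-!
R165, block GEO, lattice part 2: paths, and consequences of a lattice chart `LocEpi`
(Taylor bound, tangent balls, number of boundary sites, local connectivity).
-/

set_option autoImplicit false

namespace Crest.Agent.R165.Geo

open Complex Set
open Crest.ProbabilityR.IsingModel

/-! ### paths -/

/-- nearest neighbour path with `n` steps inside `T` -/
def PathIn (T : Set (ℤ × ℤ)) (u v : ℤ × ℤ) (n : ℕ) : Prop :=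
  ∃ w : ℕ → ℤ × ℤ, w 0 = u ∧ w n = v ∧ (∀ i ≤ n, w i ∈ T) ∧ ∀ i < n, nn (w i) (w (i+1))

theorem nn.symm {u v : ℤ × ℤ} (h : nn u v) : nn v u := by
  rcases h with ⟨h1, h2⟩ | ⟨h1, h2⟩
  · exact Or.inl ⟨h1.symm, by rw [abs_sub_comm]; exact h2⟩
  · exact Or.inr ⟨h1.symm, by rw [abs_sub_comm]; exact h2⟩


theorem nn_rotate {u v : ℤ × ℤ} : nn (rotate u) (rotate v) ↔ nn u v := by
  simp only [nn, rotate]
  have : |(-u.2) - (-v.2)| = |u.2 - v.2| := by rw [abs_sub_comm]; congr 1; ring
  rw [this, neg_inj]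
  tauto

theorem nn_rotate_iter (k : ℕ) {u v : ℤ × ℤ} : nn (rotate^[k] u) (rotate^[k] v) ↔ nn u v := by
  induction k with
  | zero => simp
  | succ k ih => rw [Function.iterate_succ_apply', Function.iterate_succ_apply', nn_rotate, ih]

theorem nn_add (z : ℤ × ℤ) {u v : ℤ × ℤ} : nn (z + u) (z + v) ↔ nn u v := by
  simp [nn]

theorem PathIn.refl {T : Set (ℤ × ℤ)} {u : ℤ × ℤ} (h : u ∈ T) : PathIn T u u 0 :=
  ⟨fun _ => u, rfl, rfl, fun _ _ => h, fun _ h => absurd h (by omega)⟩


theorem PathIn.right_mem {T : Set (ℤ × ℤ)} {u v : ℤ × ℤ} {n : ℕ} (h : PathIn T u v n) : v ∈ T := by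
  obtain ⟨w, -, h1, h2, -⟩ := h; rw [← h1]; exact h2 n le_rfl

theorem PathIn.mono {T T' : Set (ℤ × ℤ)} (hT : T ⊆ T') {u v : ℤ × ℤ} {n : ℕ} (h : PathIn T u v n) :
    PathIn T' u v n := by
  obtain ⟨w, h0, h1, h2, h3⟩ := h; exact ⟨w, h0, h1, fun i hi => hT (h2 i hi), h3⟩

theorem PathIn.symm {T : Set (ℤ × ℤ)} {u v : ℤ × ℤ} {n : ℕ} (h : PathIn T u v n) : PathIn T v u n := by
  obtain ⟨w, h0, h1, h2, h3⟩ := h
  refine ⟨fun i => w (n - i), by simpa using h1, by simpa using h0, fun i _ => h2 _ (by omega), ?_⟩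
  intro i hi
  have := h3 (n - (i+1)) (by omega)
  rw [show n - (i+1) + 1 = n - i by omega] at this
  exact this.symm

theorem PathIn.trans {T : Set (ℤ × ℤ)} {u v x : ℤ × ℤ} {n m : ℕ} (h : PathIn T u v n) (h' : PathIn T v x m) :
    PathIn T u x (n + m) := by
  obtain ⟨w, h0, h1, h2, h3⟩ := h
  obtain ⟨w', h0', h1', h2', h3'⟩ := h'
  refine ⟨fun i => if i ≤ n then w i else w' (i - n), by simpa using h0, ?_, ?_, ?_⟩
  · by_cases hm : m = 0
    · subst hm; simp [h1, ← h1', h0']
    · have : ¬ n + m ≤ n := by omega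
      simp only [this, if_false, Nat.add_sub_cancel_left, h1']
  · intro i hi
    by_cases hin : i ≤ n
    · simp only [hin, if_true]; exact h2 i hin
    · simp only [hin, if_false]; exact h2' _ (by omega)
  · intro i hi
    by_cases hin : i + 1 ≤ n
    · have : i ≤ n := by omega
      simp only [hin, this, if_true]; exact h3 i (by omega)
    · by_cases hin' : i ≤ n
      · have : i = n := by omega
        subst this
        simp only [le_rfl, if_true, hin, if_false, Nat.add_sub_cancel_left, h1]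
        rw [← h0']; exact h3' 0 (by omega)
      · simp only [hin', hin, if_false]
        have := h3' (i - n) (by omega)
        rwa [show i - n + 1 = i + 1 - n by omega] at this

theorem PathIn.step {T : Set (ℤ × ℤ)} {u v : ℤ × ℤ} (hu : u ∈ T) (hv : v ∈ T) (h : nn u v) : PathIn T u v 1 := by
  refine ⟨fun i => if i = 0 then u else v, by simp, by simp, ?_, ?_⟩
  · intro i _; by_cases hi : i = 0 <;> simp [hi, hu, hv]
  · intro i hi; have : i = 0 := by omega
    subst this; simpa using h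

theorem PathIn.joinIn {T : Set (ℤ × ℤ)} {u v : ℤ × ℤ} {n : ℕ} (h : PathIn T u v n) : JoinIn T u v := by
  obtain ⟨w, h0, h1, h2, h3⟩ := h
  have : ∀ i ≤ n, JoinIn T (w 0) (w i) := by
    intro i
    induction i with
    | zero => intro _; exact Relation.ReflTransGen.refl
    | succ i ih =>
      intro hi
      exact (ih (by omega)).tail ⟨h2 i (by omega), h2 _ hi, h3 i (by omega)⟩
  rw [← h0, ← h1]; exact this n le_rfl


theorem JoinIn.symm {T : Set (ℤ × ℤ)} {u v : ℤ × ℤ} (h : JoinIn T u v) : JoinIn T v u := by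
  induction h with
  | refl => exact Relation.ReflTransGen.refl
  | tail _ hbc ih => exact Relation.ReflTransGen.head ⟨hbc.2.1, hbc.1, hbc.2.2.symm⟩ ih

/-- transport of a path by a lattice motion -/
theorem PathIn.map {T T' : Set (ℤ × ℤ)} {f : ℤ × ℤ → ℤ × ℤ} (hf : ∀ x y, nn x y → nn (f x) (f y))
    (hT : ∀ x ∈ T, f x ∈ T') {u v : ℤ × ℤ} {n : ℕ} (h : PathIn T u v n) : PathIn T' (f u) (f v) n := by
  obtain ⟨w, h0, h1, h2, h3⟩ := h
  exact ⟨fun i => f (w i), congrArg f h0, congrArg f h1, fun i hi => hT _ (h2 i hi), fun i hi => hf _ _ (h3 i hi)⟩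

/-- vertical segment -/
theorem PathIn.vert {T : Set (ℤ × ℤ)} {x y : ℤ} (n : ℕ) (h : ∀ i : ℤ, 0 ≤ i → i ≤ n → (x, y + i) ∈ T) :
    PathIn T (x, y) (x, y + n) n := by
  refine ⟨fun i => (x, y + i), by simp, rfl, fun i hi => h i (by positivity) (by exact_mod_cast hi), ?_⟩
  intro i _; right; simp

/-- horizontal segment -/
theorem PathIn.horiz {T : Set (ℤ × ℤ)} {x y : ℤ} (n : ℕ) (h : ∀ i : ℤ, 0 ≤ i → i ≤ n → (x + i, y) ∈ T) :
    PathIn T (x, y) (x + n, y) n := by
  refine ⟨fun i => (x + i, y), by simp, rfl, fun i hi => h i (by positivity) (by exact_mod_cast hi), ?_⟩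
  intro i _; left; simp

theorem PathIn.horiz' {T : Set (ℤ × ℤ)} {x x' y : ℤ} (h : ∀ i : ℤ, min x x' ≤ i → i ≤ max x x' → (i, y) ∈ T) :
    PathIn T (x, y) (x', y) (x' - x).natAbs := by
  rcases le_total x x' with hx | hx
  · have h1 := PathIn.horiz (T := T) (x := x) (y := y) (x' - x).natAbs (by
      intro i h0 h1
      apply h <;> rw [Int.natCast_natAbs, abs_of_nonneg (by omega)] at h1 <;> simp [hx] <;> omega)
    have : x + ((x' - x).natAbs : ℤ) = x' := by rw [Int.natCast_natAbs, abs_of_nonneg (by omega)]; ring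
    rwa [this] at h1
  · have h1 := PathIn.horiz (T := T) (x := x') (y := y) (x' - x).natAbs (by
      intro i h0 h1
      apply h <;> rw [Int.natCast_natAbs, abs_of_nonpos (by omega)] at h1 <;> simp [hx] <;> omega)
    have : x' + ((x' - x).natAbs : ℤ) = x := by rw [Int.natCast_natAbs, abs_of_nonpos (by omega)]; ring
    rw [this] at h1
    exact h1.symm

theorem PathIn.vert' {T : Set (ℤ × ℤ)} {x y y' : ℤ} (h : ∀ i : ℤ, min y y' ≤ i → i ≤ max y y' → (x, i) ∈ T) :
    PathIn T (x, y) (x, y') (y' - y).natAbs := by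
  rcases le_total y y' with hx | hx
  · have h1 := PathIn.vert (T := T) (x := x) (y := y) (y' - y).natAbs (by
      intro i h0 h1
      apply h <;> rw [Int.natCast_natAbs, abs_of_nonneg (by omega)] at h1 <;> simp [hx] <;> omega)
    have : y + ((y' - y).natAbs : ℤ) = y' := by rw [Int.natCast_natAbs, abs_of_nonneg (by omega)]; ring
    rwa [this] at h1
  · have h1 := PathIn.vert (T := T) (x := x) (y := y') (y' - y).natAbs (by
      intro i h0 h1
      apply h <;> rw [Int.natCast_natAbs, abs_of_nonpos (by omega)] at h1 <;> simp [hx] <;> omega)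
    have : y' + ((y' - y).natAbs : ℤ) = y := by rw [Int.natCast_natAbs, abs_of_nonpos (by omega)]; ring
    rw [this] at h1
    exact h1.symm

/-! ### rotations of the lattice -/

theorem rotate_rotate (x : ℤ × ℤ) : rotate (rotate x) = -x := rfl

theorem rotate_four (x : ℤ × ℤ) : rotate^[4] x = x := by
  show rotate (rotate (rotate (rotate x))) = x
  rw [rotate_rotate, rotate_rotate, neg_neg]

theorem rotate_iter_add (k : ℕ) (x y : ℤ × ℤ) : rotate^[k] (x + y) = rotate^[k] x + rotate^[k] y := by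
  induction k with
  | zero => rfl
  | succ k ih =>
    rw [Function.iterate_succ_apply', Function.iterate_succ_apply', Function.iterate_succ_apply', ih]
    simp only [rotate, Prod.mk_add_mk, Prod.fst_add, Prod.snd_add]
    ring_nf

/-- the inverse rotation -/
theorem rotate_iter_inv (k : ℕ) : ∃ m : ℕ, (∀ x, rotate^[m] (rotate^[k] x) = x) ∧
    (∀ x, rotate^[k] (rotate^[m] x) = x) := by
  refine ⟨3 * k, ?_, ?_⟩
  · intro x
    rw [← Function.iterate_add_apply, show 3 * k + k = 4 * k by ring, Function.iterate_mul]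
    have : rotate^[4] = id := funext rotate_four
    rw [this]; simp
  · intro x
    rw [← Function.iterate_add_apply, show k + 3 * k = 4 * k by ring, Function.iterate_mul]
    have : rotate^[4] = id := funext rotate_four
    rw [this]; simp

/-- sup norm of a site -/
def sn (w : ℤ × ℤ) : ℤ := max |w.1| |w.2|

theorem sn_rotate (w : ℤ × ℤ) : sn (rotate w) = sn w := by
  simp only [sn, rotate, abs_neg]; exact max_comm _ _

theorem sn_rotate_iter (k : ℕ) (w : ℤ × ℤ) : sn (rotate^[k] w) = sn w := by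
  induction k with
  | zero => rfl
  | succ k ih => rw [Function.iterate_succ_apply', sn_rotate, ih]

theorem sn_le {w : ℤ × ℤ} {b : ℤ} : sn w ≤ b ↔ |w.1| ≤ b ∧ |w.2| ≤ b := by simp [sn]

theorem sn_le_real {w : ℤ × ℤ} {b : ℝ} : (sn w : ℝ) ≤ b ↔ |(w.1:ℝ)| ≤ b ∧ |(w.2:ℝ)| ≤ b := by
  simp only [sn]
  push_cast
  exact max_le_iff


theorem sn_add (u v : ℤ × ℤ) : sn (u + v) ≤ sn u + sn v := by
  rw [sn_le]
  have h1 := (sn_le (w := u)).1 le_rfl
  have h2 := (sn_le (w := v)).1 le_rfl
  constructor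
  · exact (abs_add_le _ _).trans (add_le_add h1.1 h2.1)
  · exact (abs_add_le _ _).trans (add_le_add h1.2 h2.2)



theorem sn_nn {u v : ℤ × ℤ} (h : nn u v) : sn (u - v) = 1 := by
  rcases h with ⟨h1, h2⟩ | ⟨h1, h2⟩
  · have : (u - v).2 = 0 := by simp [h1]
    simp only [sn, this, abs_zero]
    have : (u - v).1 = u.1 - v.1 := rfl
    rw [this, h2]; rfl
  · have : (u - v).1 = 0 := by simp [h1]
    simp only [sn, this, abs_zero]
    have : (u - v).2 = u.2 - v.2 := rfl
    rw [this, h2]; rfl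

/-! ### consequences of a chart -/

section Epi

variable {T : Set (ℤ × ℤ)} {z : ℤ × ℤ} {ρ κ : ℝ} {k : ℕ} {G G' : ℝ → ℝ}

theorem LocEpi.lipG (h : LocEpi T z ρ κ k G G') (x y : ℝ) : |G x - G y| ≤ 3/2 * |x - y| := by
  have := Convex.norm_image_sub_le_of_norm_hasDerivWithin_le (f := G) (f' := G') (s := univ) (C := 3/2)
    (x := y) (y := x) (fun t _ => (h.hd t).hasDerivWithinAt) (fun t _ => by simpa using h.slope t)
    convex_univ (mem_univ _) (mem_univ _)
  simpa using this

theorem LocEpi.taylor (h : LocEpi T z ρ κ k G G') (x y : ℝ) :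
    |G y - G x - G' x * (y - x)| ≤ κ * (y - x)^2 := by
  set S : Set ℝ := uIcc x y with hS
  have hder : ∀ t ∈ S, HasDerivWithinAt (fun s => G s - G' x * s) (G' t - G' x) S t := fun t _ => by
    have := ((h.hd t).sub ((hasDerivAt_id t).const_mul (G' x))).hasDerivWithinAt (s := S)
    rw [mul_one] at this
    exact this
  have hb : ∀ t ∈ S, ‖G' t - G' x‖ ≤ κ * |y - x| := by
    intro t ht
    rw [Real.norm_eq_abs]
    refine (h.lip t x).trans ?_
    have h1 : |t - x| ≤ |y - x| := by
      have := abs_sub_left_of_mem_uIcc ht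
      exact this
    by_cases hκ : 0 ≤ κ
    · exact mul_le_mul_of_nonneg_left h1 hκ
    · exfalso
      have := h.lip 0 1
      have h2 : (0:ℝ) ≤ κ * |(0:ℝ) - 1| := (abs_nonneg _).trans this
      norm_num at h2
      exact hκ h2
  have := Convex.norm_image_sub_le_of_norm_hasDerivWithin_le hder hb (convex_uIcc x y)
    (left_mem_uIcc) (right_mem_uIcc)
  have e : G y - G' x * y - (G x - G' x * x) = G y - G x - G' x * (y - x) := by ring
  simp only [Real.norm_eq_abs] at this
  rw [e] at this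
  calc |G y - G x - G' x * (y - x)| ≤ κ * |y - x| * |y - x| := this
    _ = κ * (y - x)^2 := by rw [mul_assoc, ← sq, sq_abs]

theorem LocEpi.kappa_nonneg (h : LocEpi T z ρ κ k G G') : 0 ≤ κ := by
  have := h.lip 0 1
  have h2 : (0:ℝ) ≤ κ * |(0:ℝ) - 1| := (abs_nonneg _).trans this
  norm_num at h2
  exact h2

/-- the position of a site in the frame of the chart -/
theorem LocEpi.mem_T (h : LocEpi T z ρ κ k G G') {m : ℕ} (hm : ∀ x, rotate^[k] (rotate^[m] x) = x)
    {u : ℤ × ℤ} (hu : (sn (u - z) : ℝ) ≤ ρ) :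
    u ∈ T ↔ G (rotate^[m] (u - z)).1 < (rotate^[m] (u - z)).2 := by
  have h1 : ((sn (rotate^[m] (u - z)) : ℤ) : ℝ) ≤ ρ := by rw [sn_rotate_iter]; exact hu
  rw [sn_le_real] at h1
  have := h.mem (rotate^[m] (u - z)) h1.1 h1.2
  rw [hm] at this
  rw [← this]
  simp

/-- a boundary site is close to the graph -/
theorem LocEpi.near_graph (h : LocEpi T z ρ κ k G G') (hρ : 2 ≤ ρ) {u : ℤ × ℤ} (hzu : nn z u)
    (hdiff : (z ∈ T ∧ u ∉ T) ∨ (z ∉ T ∧ u ∈ T)) : |G 0| ≤ 3/2 := by
  obtain ⟨m, -, hm⟩ := rotate_iter_inv k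
  have hz := h.mem_T hm (u := z) (by simp [sn]; linarith)
  have hsn : sn (u - z) = 1 := sn_nn hzu.symm
  have hu := h.mem_T hm (u := u) (by rw [hsn]; norm_num; linarith)
  simp only [sub_self] at hz
  have h0 : rotate^[m] (0 : ℤ × ℤ) = 0 := by
    have : ∀ m : ℕ, rotate^[m] (0 : ℤ × ℤ) = 0 := by
      intro m; induction m with
      | zero => rfl
      | succ m ih => rw [Function.iterate_succ_apply', ih]; simp [rotate]
    exact this m
  rw [h0] at hz
  simp only [Prod.fst_zero, Prod.snd_zero, Int.cast_zero] at hz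
  -- the rotated neighbour
  have hn : nn (rotate^[m] (u - z)) 0 := by
    have : nn (rotate^[m] (u - z)) (rotate^[m] (z - z)) := by
      rw [nn_rotate_iter, sub_eq_add_neg, sub_eq_add_neg, add_comm u, add_comm z, nn_add]
      exact hzu.symm
    simpa [h0] using this
  set v := rotate^[m] (u - z) with hv
  have hl := h.lipG (v.1 : ℝ) 0
  rw [sub_zero] at hl
  rcases hn with ⟨h1, h2⟩ | ⟨h1, h2⟩
  · -- horizontal
    have hv2 : v.2 = 0 := h1
    have hv1 : |(v.1 : ℝ)| = 1 := by
      have : |v.1 - 0| = 1 := h2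
      rw [sub_zero] at this
      exact_mod_cast this
    rw [hv1] at hl
    rw [hv2, Int.cast_zero] at hu
    have hl' := abs_le.1 hl
    rw [abs_le]
    rcases hdiff with ⟨ha, hb⟩ | ⟨ha, hb⟩
    · rw [hz] at ha; rw [hu] at hb; push Not at hb; constructor <;> linarith
    · rw [hz] at ha; rw [hu] at hb; push Not at ha; constructor <;> linarith
  · have hv1 : v.1 = 0 := h1
    have hv2 : |(v.2 : ℝ)| = 1 := by
      have : |v.2 - 0| = 1 := h2
      rw [sub_zero] at this
      exact_mod_cast this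
    rw [hv1, Int.cast_zero] at hu
    rw [abs_le]
    have := abs_le.1 hv2.le
    rcases hdiff with ⟨ha, hb⟩ | ⟨ha, hb⟩
    · rw [hz] at ha; rw [hu] at hb; push Not at hb; constructor <;> linarith
    · rw [hz] at ha; rw [hu] at hb; push Not at ha; constructor <;> linarith

end Epi

end Crest.Agent.R165.Geo
end

-- ▼ part R165/GeoLat3_416

/-!
R165, block GEO, lattice part 3: tangent balls, number of boundary sites, local connectivity, from a lattice chart.
-/

set_option autoImplicit false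

namespace Crest.Agent.R165.Geo

open Complex Set
open Crest.ProbabilityR.IsingModel

/-- position of a site -/
noncomputable abbrev pos (w : ℤ × ℤ) : ℂ := meshPoint 1 w

theorem pos_eq (w : ℤ × ℤ) : pos w = (w.1 : ℂ) + (w.2 : ℂ) * I := by
  apply Complex.ext <;> simp [pos, meshPoint]

theorem pos_re (w : ℤ × ℤ) : (pos w).re = w.1 := by simp [pos, meshPoint]
theorem pos_im (w : ℤ × ℤ) : (pos w).im = w.2 := by simp [pos, meshPoint]

theorem pos_add (u v : ℤ × ℤ) : pos (u + v) = pos u + pos v := meshPoint_add 1 u v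

theorem pos_rot (k : ℕ) (w : ℤ × ℤ) : pos (rotate^[k] w) = I ^ k * pos w := meshPoint_rotate_iter 1 k w

theorem norm_I_pow (k : ℕ) : ‖(I:ℂ) ^ k‖ = 1 := by simp

theorem sn_le_norm (w : ℤ × ℤ) : (sn w : ℝ) ≤ ‖pos w‖ := by
  rw [sn_le_real]
  constructor
  · have := Complex.abs_re_le_norm (pos w); rwa [pos_re] at this
  · have := Complex.abs_im_le_norm (pos w); rwa [pos_im] at this

theorem norm_le_sn (w : ℤ × ℤ) : ‖pos w‖ ≤ 2 * sn w := by
  have h := (sn_le_real (w := w) (b := (sn w : ℝ))).1 le_rfl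
  have := Complex.norm_le_abs_re_add_abs_im (pos w)
  rw [pos_re, pos_im] at this
  linarith [h.1, h.2]

section Epi

variable {T : Set (ℤ × ℤ)} {z : ℤ × ℤ} {ρ κ : ℝ} {k : ℕ} {G G' : ℝ → ℝ}

/-- tangent balls at the graph point above the centre of the chart:
    there are a point `q` with `‖q - pos z‖ ≤ |G 0|` and a unit vector `n` such that for every admissible radius
    the balls of centre `q ± R n` are inside resp. outside `T`. -/
theorem LocEpi.balls (h : LocEpi T z ρ κ k G G') :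
    ∃ q n : ℂ, ‖n‖ = 1 ∧ ‖q - pos z‖ = |G 0| ∧ ∀ R : ℝ, 0 < R → |G 0| + 2 * R ≤ ρ → 2 * R * κ ≤ 1 →
      (∀ w, ‖pos w - (q + R * n)‖ < R → w ∈ T) ∧ (∀ w, ‖pos w - (q - R * n)‖ < R → w ∉ T) := by
  obtain ⟨m, hm', hm⟩ := rotate_iter_inv k
  set N : ℝ := Real.sqrt (1 + (G' 0)^2) with hN
  have hN0 : 0 < N := Real.sqrt_pos.2 (by positivity)
  have hN1 : 1 ≤ N := by rw [hN]; exact Real.one_le_sqrt.2 (by nlinarith [sq_nonneg (G' 0)])
  have hN2 : N ^ 2 = 1 + (G' 0)^2 := Real.sq_sqrt (by positivity)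
  set n0 : ℂ := ((-(G' 0) / N : ℝ) : ℂ) + ((1 / N : ℝ) : ℂ) * I with hn0
  have hn0re : n0.re = -(G' 0) / N := by simp [hn0]
  have hn0im : n0.im = 1 / N := by simp [hn0]
  have hnorm0 : ‖n0‖ = 1 := by
    have : ‖n0‖ ^ 2 = 1 := by
      rw [← Complex.normSq_eq_norm_sq, Complex.normSq_apply, hn0re, hn0im]
      field_simp
      rw [hN2]; ring
    have h0 := norm_nonneg n0
    nlinarith
  refine ⟨pos z + I ^ k * ((G 0 : ℝ) * I), I ^ k * n0, ?_, ?_, ?_⟩
  · rw [norm_mul, norm_I_pow, hnorm0, one_mul]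
  · rw [add_sub_cancel_left, norm_mul, norm_I_pow, one_mul, norm_mul, Complex.norm_I, mul_one,
      Complex.norm_real, Real.norm_eq_abs]
  · intro R hR hRρ hRκ
    -- the common computation
    have key : ∀ (w : ℤ × ℤ) (σ : ℝ), (σ = 1 ∨ σ = -1) →
        ‖pos w - (pos z + I ^ k * ((G 0 : ℝ) * I) + σ * (R * (I ^ k * n0)))‖ < R →
        ∃ x y : ℝ, (w ∈ T ↔ G x < y) ∧ (0 < σ * (y - G 0 - G' 0 * x) ∧
          κ * x^2 < σ * (y - G 0 - G' 0 * x)) := by
      intro w σ hσ hw
      have hσ2 : σ ^ 2 = 1 := by rcases hσ with h | h <;> rw [h] <;> norm_num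
      set v := rotate^[m] (w - z) with hv
      have hwz : pos w - pos z = I ^ k * pos v := by
        rw [hv, ← pos_rot, hm]
        have : w = (w - z) + z := by ring
        conv_lhs => rw [this, pos_add]
        ring
      have e1 : pos w - (pos z + I ^ k * ((G 0 : ℝ) * I) + σ * (R * (I ^ k * n0))) =
          I ^ k * (pos v - ((G 0 : ℝ) * I + σ * (R * n0))) := by
        linear_combination hwz
      rw [e1, norm_mul, norm_I_pow, one_mul] at hw
      set c : ℂ := ((G 0 : ℝ) : ℂ) * I + σ * (R * n0) with hc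
      have hcre : c.re = - σ * R * (G' 0) / N := by
        rw [hc]
        simp only [Complex.add_re, Complex.mul_re, Complex.ofReal_re, Complex.ofReal_im, Complex.I_re,
          Complex.I_im, hn0re, hn0im, Complex.mul_im]
        ring
      have hcim : c.im = G 0 + σ * R / N := by
        rw [hc]
        simp only [Complex.add_im, Complex.mul_im, Complex.ofReal_re, Complex.ofReal_im, Complex.I_re,
          Complex.I_im, hn0re, hn0im, Complex.mul_re]
        ring
      have hsq : ((v.1:ℝ) - c.re)^2 + ((v.2:ℝ) - c.im)^2 < R^2 := by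
        have h1 : ‖pos v - c‖ ^ 2 < R ^ 2 := by
          apply pow_lt_pow_left₀ hw (norm_nonneg _) two_ne_zero
        rw [← Complex.normSq_eq_norm_sq, Complex.normSq_apply, Complex.sub_re, Complex.sub_im, pos_re,
          pos_im] at h1
        nlinarith [h1]
      set x : ℝ := (v.1:ℝ) with hx
      set y : ℝ := (v.2:ℝ) with hy
      -- the site is in the box of the chart
      have hbox : (sn (w - z) : ℝ) ≤ ρ := by
        have h2 : ‖pos v‖ ≤ |G 0| + 2 * R := by
          have h3 : ‖c‖ ≤ |G 0| + R := by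
            rw [hc]
            refine (norm_add_le _ _).trans ?_
            rw [norm_mul, Complex.norm_real, Complex.norm_I, mul_one, norm_mul, norm_mul, hnorm0,
              Complex.norm_real, Complex.norm_real, Real.norm_eq_abs, Real.norm_eq_abs, Real.norm_eq_abs]
            have : |σ| = 1 := by rcases hσ with h | h <;> rw [h] <;> simp
            rw [this, abs_of_pos hR]; linarith
          calc ‖pos v‖ = ‖(pos v - c) + c‖ := by rw [sub_add_cancel]
            _ ≤ ‖pos v - c‖ + ‖c‖ := norm_add_le _ _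
            _ ≤ |G 0| + 2 * R := by linarith
        calc (sn (w - z) : ℝ) = sn v := by rw [hv, sn_rotate_iter]
          _ ≤ ‖pos v‖ := sn_le_norm v
          _ ≤ ρ := h2.trans hRρ
      refine ⟨x, y, h.mem_T hm hbox, ?_⟩
      -- expand the square
      set s : ℝ := y - G 0 with hs
      have hexp : x^2 + s^2 < 2 * R * (σ * (s - G' 0 * x)) / N := by
        rw [hcre, hcim] at hsq
        have e2 : (x - -σ * R * (G' 0) / N)^2 + (y - (G 0 + σ * R / N))^2 =
            x^2 + s^2 - 2 * R * (σ * (s - G' 0 * x)) / N + R^2 * (σ^2 * (1 + (G' 0)^2)) / N^2 := by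
          rw [hs]; field_simp; ring
        have hNN : R ^ 2 * N ^ 2 / N ^ 2 = R ^ 2 := by field_simp
        rw [e2, hσ2, ← hN2, one_mul, hNN] at hsq
        linarith
      set A : ℝ := σ * (s - G' 0 * x) with hA
      have hApos : 0 < A := by
        by_contra hneg
        push Not at hneg
        have : 2 * R * A / N ≤ 0 := div_nonpos_of_nonpos_of_nonneg (by nlinarith) hN0.le
        nlinarith [sq_nonneg x, sq_nonneg s]
      have hx2 : x^2 < 2 * R * A := by
        have h4 : 2 * R * A / N ≤ 2 * R * A := div_le_self (by positivity) hN1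
        nlinarith [sq_nonneg s]
      refine ⟨hApos, ?_⟩
      have hκ := h.kappa_nonneg
      rcases eq_or_lt_of_le hκ with h0 | h0
      · rw [← h0, zero_mul]; exact hApos
      · have h5 : κ * x^2 < κ * (2 * R * A) := mul_lt_mul_of_pos_left hx2 h0
        have h6 : κ * (2 * R * A) = (2 * R * κ) * A := by ring
        have h7 : (2 * R * κ) * A ≤ 1 * A := mul_le_mul_of_nonneg_right hRκ hApos.le
        linarith
    constructor
    · intro w hw
      obtain ⟨x, y, hiff, -, h2⟩ := key w 1 (Or.inl rfl) (by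
        convert hw using 2; push_cast; ring)
      rw [hiff]
      have := (abs_le.1 (h.taylor 0 x)).2
      rw [sub_zero] at this
      linarith
    · intro w hw
      obtain ⟨x, y, hiff, -, h2⟩ := key w (-1) (Or.inr rfl) (by
        convert hw using 2; push_cast; ring)
      rw [hiff]
      have := (abs_le.1 (h.taylor 0 x)).1
      rw [sub_zero] at this
      linarith

end Epi

/-- tangent balls at a boundary site, for a regular set. -/
theorem LatReg.balls {T : Set (ℤ × ℤ)} {ρ κ : ℝ} (h : LatReg T ρ κ) (hρ : 2 ≤ ρ) {z u : ℤ × ℤ}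
    (hzu : nn z u) (hdiff : (z ∈ T ∧ u ∉ T) ∨ (z ∉ T ∧ u ∈ T)) :
    ∃ q n : ℂ, ‖n‖ = 1 ∧ ‖q - pos z‖ ≤ 3/2 ∧ ∀ R : ℝ, 0 < R → 2 * R + 3/2 ≤ ρ → 2 * R * κ ≤ 1 →
      (∀ w, ‖pos w - (q + R * n)‖ < R → w ∈ T) ∧ (∀ w, ‖pos w - (q - R * n)‖ < R → w ∉ T) := by
  obtain ⟨k, G, G', hG⟩ := h z
  have hng := hG.near_graph hρ hzu hdiff
  obtain ⟨q, n, hn, hq, hb⟩ := hG.balls
  exact ⟨q, n, hn, by rw [hq]; exact hng, fun R hR hRρ hRκ => hb R hR (by linarith) hRκ⟩

end Crest.Agent.R165.Geo
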