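import Mathlib
import Crest.Agent.R165.GeoLat3_416
import Crest.Agent.R165.GeoD_65
import Crest.Agent.R165.BridgeReg_386
import Crest.Agent.R165.FreeReg_485
import Crest.Agent.R165.GeoLat4_416
import Crest.Agent.R165.RegG_893
import Crest.Agent.R165.BridgeRB2_386
import Crest.Agent.R165.RFlat_65

-- ▼ part R165/GeoG_65
section

/-!
# Row 165, block GEO (helper65), file G: macroscopic lattice/continuum comparison

* `meshIndex` facts: `norm_meshPoint_meshIndex`: `‖a·(index of x) - x‖ ≤ 2a`;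
* `eventually_mem_of_compact`, `eventually_notMem_of_compact`: compact subsets of `D` / of the exterior are
  eventually seen correctly, with an additional fattening by `C a`;
* `dist_frontier_le_of_notMem`: sites outside are at distance `≥ dist(az, ∂D)`; `exists_site_out`,
  `exists_site_in`: there are sites outside / inside at distance `≤ dist(az, ∂D) + 4a`.
-/

set_option autoImplicit false

open Set Topology Filter Metric

namespace Crest.Agent.R165.GeoGx65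

open Crest.Agent.R165.Geo
open Crest.Agent.R165.GeoDx65 (ball_infDist_subset)
open Crest.ProbabilityR.IsingModel
open Complex (I)

variable {D : Set ℂ} {r M a : ℝ}


theorem meshPoint_eq_mul_pos (a : ℝ) (z : ℤ × ℤ) : meshPoint a z = (a : ℂ) * pos z := by
  rw [pos_eq, meshPoint_eq]; push_cast; ring


/-- the index of a point -/
theorem norm_meshPoint_meshIndex (ha : 0 < a) (x : ℂ) : ‖meshPoint a (meshIndex a x) - x‖ ≤ 2 * a := by
  have h : ∀ y : ℝ, |a * (⌊y / a⌋ : ℝ) - y| ≤ a := fun y => by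
    have h1 := Int.floor_le (y / a)
    have h2 := Int.lt_floor_add_one (y / a)
    rw [le_div_iff₀ ha] at h1
    rw [div_lt_iff₀ ha] at h2
    rw [abs_le]
    constructor <;> nlinarith
  refine (Complex.norm_le_abs_re_add_abs_im _).trans ?_
  have h1 := h x.re
  have h2 := h x.im
  simp only [meshPoint, meshIndex, Complex.sub_re, Complex.sub_im]
  linarith
















end Crest.Agent.R165.GeoGx65
end

-- ▼ part R165/Flat_838
section

/-!
# Row 165 (S0250): flat strips at the boundary (helper838)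

* `flat_core`: a face `y` near a point `q` with two tangent balls of radius `S` (lattice units): the
  corners of the faces of `bx y R` are inside resp. outside `T` off the strip `|dotn| ≤ ε R`
* `ray_gauge`, `wl_wX_gauge`: insertions outside the box of radius `R + 1` are pure gauge (any weights)
* `plusFlat_of_balls`, `freeFlat_of_balls`: literal `PlusFlat` / `FreeFlat` for `wX (wDom T b) X`
* `LatReg.plusFlat`, `LatReg.freeFlat`: for regular lattice sets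
* `CD.plusFlat`, `CD.freeFlat`: for the domains `domainSites D a`
-/

set_option autoImplicit false

noncomputable section

open Complex Metric
open Crest.ProbabilityR.IsingModel
open Crest.Agent.R165.Geo
open Crest.Agent.R165.Latx683 (BW wDom wX ray yE yN)
open Crest.Agent.R165.RIfx891 (bx mem_bx_real dotn PlusFlat PlaneOn BranchOn Gauge IsPlusOn)
open Crest.Agent.R165.Tr1x40 (nb op xc)
open Crest.Agent.R165.Bridgex386 (wl sym_wl pf)
open Crest.Agent.R165.FreeRegx485 (FreeFlat IsFreeOn)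

namespace Crest.Agent.R165.Flatx838

/-- faces of block R -/
abbrev Face := Crest.Agent.R165.Tr1x40.Face

/-! ### geometry -/

/-- `z` is a corner of the face `f` -/
def Corner (f z : ℤ × ℤ) : Prop := (z.1 = f.1 ∨ z.1 = f.1 + 1) ∧ (z.2 = f.2 ∨ z.2 = f.2 + 1)

theorem Corner.cast {f z : ℤ × ℤ} (h : Corner f z) :
    (0 ≤ (z.1 : ℝ) - f.1 ∧ (z.1 : ℝ) - f.1 ≤ 1) ∧ (0 ≤ (z.2 : ℝ) - f.2 ∧ (z.2 : ℝ) - f.2 ≤ 1) := by
  obtain ⟨h1, h2⟩ := h
  constructor
  · rcases h1 with h | h <;> rw [h] <;> push_cast <;> constructor <;> linarith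
  · rcases h2 with h | h <;> rw [h] <;> push_cast <;> constructor <;> linarith

theorem norm_le_of_sq {v : ℂ} {b : ℝ} (hb : 0 ≤ b) (h : v.re ^ 2 + v.im ^ 2 ≤ b ^ 2) : ‖v‖ ≤ b := by
  have h1 : ‖v‖ ^ 2 ≤ b ^ 2 := by
    rw [← Complex.normSq_eq_norm_sq, Complex.normSq_apply]; nlinarith
  exact (pow_le_pow_iff_left₀ (norm_nonneg _) hb two_ne_zero).1 h1

/-- the scalar product -/
def sp (n v : ℂ) : ℝ := n.re * v.re + n.im * v.im

theorem abs_sp_le {n : ℂ} (hn : ‖n‖ = 1) (v : ℂ) : |sp n v| ≤ ‖v‖ := by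
  have h1 : sp n v = ((starRingEnd ℂ) n * v).re := by
    simp [sp, Complex.mul_re]
  rw [h1]
  refine (Complex.abs_re_le_norm _).trans ?_
  rw [norm_mul, Complex.norm_conj, hn, one_mul]

/-- the ball of centre `S n`, radius `S` -/
theorem mem_tangent {n v : ℂ} {S : ℝ} (hn : ‖n‖ = 1) (hS : 0 < S) (h : ‖v‖ ^ 2 < 2 * S * sp n v) :
    ‖v - S * n‖ < S := by
  have hn2 : n.re * n.re + n.im * n.im = 1 := by
    have := Complex.normSq_eq_norm_sq n
    rw [hn, Complex.normSq_apply] at this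
    linarith
  have hv : ‖v‖ ^ 2 = v.re * v.re + v.im * v.im := by
    rw [← Complex.normSq_eq_norm_sq, Complex.normSq_apply]
  have h1 : ‖v - S * n‖ ^ 2 < S ^ 2 := by
    rw [← Complex.normSq_eq_norm_sq, Complex.normSq_apply]
    simp only [Complex.sub_re, Complex.sub_im, Complex.mul_re, Complex.mul_im, Complex.ofReal_re,
      Complex.ofReal_im, zero_mul, sub_zero, add_zero]
    rw [hv] at h
    unfold sp at h
    have e : (v.re - S * n.re) * (v.re - S * n.re) + (v.im - S * n.im) * (v.im - S * n.im) =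
        (v.re * v.re + v.im * v.im) - 2 * S * (n.re * v.re + n.im * v.im) +
          S ^ 2 * (n.re * n.re + n.im * n.im) := by ring
    rw [e, hn2]
    linarith
  exact (pow_lt_pow_iff_left₀ (norm_nonneg _) hS.le two_ne_zero).1 h1

/-- **flatness from two tangent balls**; `n` is the inner normal -/
theorem flat_core {T : Set (ℤ × ℤ)} {q n : ℂ} {S : ℝ} (hn : ‖n‖ = 1) (hS : 0 < S)
    (hin : ∀ w, ‖pos w - (q + S * n)‖ < S → w ∈ T) (hout : ∀ w, ‖pos w - (q - S * n)‖ < S → w ∉ T)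
    {y : Face} {B ε R : ℝ} (hB : 0 ≤ B) (hy : ‖pos y - q‖ ≤ B) (hR : 4 * B + 20 ≤ R)
    (hεR : 4 * (B + 2) ≤ ε * R) (hRS : 8 * R ≤ ε * S) {f : Face} {z : ℤ × ℤ} (hf : f ∈ bx y R)
    (hz : Corner f z) :
    (dotn (-n) y f ≤ -(ε * R) → z ∈ T) ∧ (ε * R ≤ dotn (-n) y f → z ∉ T) := by
  have hR0 : 0 < R := by linarith
  rw [mem_bx_real, abs_le, abs_le] at hf
  obtain ⟨⟨hz1, hz2⟩, hz3, hz4⟩ := hz.cast
  set v : ℂ := pos z - q with hv
  have hvR : ‖v‖ ≤ 2 * R := by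
    have e : v = (pos z - pos y) + (pos y - q) := by rw [hv]; ring
    have h1 : ‖pos z - pos y‖ ≤ 3 / 2 * (R + 1) := by
      apply norm_le_of_sq (by linarith)
      rw [Complex.sub_re, Complex.sub_im, pos_re, pos_im, pos_re, pos_im]
      have a1 : |(z.1 : ℝ) - y.1| ≤ R + 1 := by rw [abs_le]; constructor <;> linarith [hf.1.1, hf.1.2]
      have a2 : |(z.2 : ℝ) - y.2| ≤ R + 1 := by rw [abs_le]; constructor <;> linarith [hf.2.1, hf.2.2]
      have b1 : ((z.1 : ℝ) - y.1) ^ 2 ≤ (R + 1) ^ 2 := by rw [← sq_abs]; gcongr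
      have b2 : ((z.2 : ℝ) - y.2) ^ 2 ≤ (R + 1) ^ 2 := by rw [← sq_abs]; gcongr
      nlinarith
    rw [e]
    refine (norm_add_le _ _).trans ?_
    linarith
  have hv2 : ‖v‖ ^ 2 ≤ 4 * R ^ 2 := by
    have := mul_self_le_mul_self (norm_nonneg v) hvR
    nlinarith
  -- the scalar product
  set e : ℂ := (pos z - pos f) + (pos y - q) with he
  have hen : ‖e‖ ≤ 2 + B := by
    refine (norm_add_le _ _).trans (add_le_add ?_ hy)
    apply norm_le_of_sq (by norm_num)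
    rw [Complex.sub_re, Complex.sub_im, pos_re, pos_im, pos_re, pos_im]
    nlinarith
  have hsp : sp n v = -dotn (-n) y f + sp n e := by
    simp only [sp, dotn, hv, he, Complex.add_re, Complex.add_im, Complex.sub_re, Complex.sub_im,
      pos_re, pos_im, Complex.neg_re, Complex.neg_im]
    ring
  have hse := abs_le.1 ((abs_sp_le hn e).trans hen)
  have hSR : 0 < S * R := mul_pos hS hR0
  have key : 4 * R ^ 2 < 2 * S * (3 / 4 * (ε * R)) := by
    have h1 : 8 * R * R ≤ ε * S * R := mul_le_mul_of_nonneg_right hRS hR0.le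
    nlinarith [mul_pos hR0 hR0]
  constructor
  · intro hd
    apply hin
    have h1 : 3 / 4 * (ε * R) ≤ sp n v := by rw [hsp]; linarith
    have h2 : ‖v - S * n‖ < S := by
      refine mem_tangent hn hS (hv2.trans_lt (key.trans_le ?_))
      exact mul_le_mul_of_nonneg_left h1 (by positivity)
    rwa [hv, sub_sub] at h2
  · intro hd
    apply hout
    have h1 : 3 / 4 * (ε * R) ≤ sp (-n) v := by
      have e1 : sp (-n) v = -sp n v := by simp only [sp, Complex.neg_re, Complex.neg_im]; ring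
      rw [e1, hsp]; linarith
    have h2 : ‖v - S * (-n)‖ < S := by
      refine mem_tangent (by rwa [norm_neg]) hS (hv2.trans_lt (key.trans_le ?_))
      exact mul_le_mul_of_nonneg_left h1 (by positivity)
    rw [hv, sub_sub] at h2
    have e2 : q + (S : ℂ) * -n = q - S * n := by ring
    rwa [e2] at h2

/-! ### weights of the half-edges -/

/-- the bond crossed by the half-edge `(f, h)` -/
def bz (f : Face) (h : Fin 4) : (ℤ × ℤ) × Fin 2 :=
  match h with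
  | 0 => (f, 0)
  | 1 => ((f.1 + 1, f.2), 1)
  | 2 => ((f.1, f.2 + 1), 0)
  | 3 => (f, 1)

theorem wl_eq (w : BW ℤ) (f : Face) (h : Fin 4) : wl w f h = w (bz f h).1 (bz f h).2 := by
  fin_cases h <;>
    simp [wl, Crest.Agent.R165.Tr1x40.ofEN, yE, yN, bz, pf]

theorem bz_corner (f : Face) (h : Fin 4) : Corner f (bz f h).1 := by
  fin_cases h <;> simp [bz, Corner]

theorem bz_corner' (f : Face) (h : Fin 4) : Corner f ((bz f h).1 + unitVec (bz f h).2) := by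
  fin_cases h <;> simp [bz, Corner, unitVec]

/-! ### the gauge of the rays -/

/-- the gauge of the insertions `X` seen from the face `y` -/
def rg {n : ℕ} (X : Fin n → ℤ × ℤ) (y : Face) (f : Face) : ℝ :=
  ∏ i, if (X i).1 ≤ y.1 ∧ f.2 < (X i).2 then -1 else 1

theorem rg_gauge {n : ℕ} (X : Fin n → ℤ × ℤ) (y : Face) : Gauge (rg X y) := by
  intro f
  rw [rg, ← Finset.prod_pow]
  refine Finset.prod_eq_one fun i _ => ?_
  split_ifs <;> norm_num

/-- the box of radius `R + 1` around `y` does not contain the point `v` -/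
def FarX (y : Face) (R : ℝ) (v : ℤ × ℤ) : Prop := R + 1 < |(v.1 : ℝ) - y.1| ∨ R + 1 < |(v.2 : ℝ) - y.2|

theorem ray_gauge {n : ℕ} {X : Fin n → ℤ × ℤ} {y : Face} {R : ℝ} (hR : 0 ≤ R)
    (hX : ∀ i, FarX y R (X i)) {f : Face} (hf : f ∈ bx y R) (h : Fin 4) :
    ray X (bz f h).1 (bz f h).2 = rg X y f * rg X y (nb f h) := by
  rw [mem_bx_real, abs_le, abs_le] at hf
  obtain ⟨⟨f1, f2⟩, f3, f4⟩ := hf
  rw [ray, rg, rg, ← Finset.prod_mul_distrib]
  refine Finset.prod_congr rfl fun i _ => ?_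
  -- vertical bonds
  have hv : ∀ g : Face, g.2 = f.2 → ((if (X i).1 ≤ y.1 ∧ f.2 < (X i).2 then (-1 : ℝ) else 1) *
      if (X i).1 ≤ y.1 ∧ g.2 < (X i).2 then (-1 : ℝ) else 1) = 1 := by
    intro g hg
    rw [hg]
    split_ifs <;> norm_num
  -- horizontal bonds: `z` the bond, between the faces of ordinates `z.2 - 1` and `z.2`
  have hh : ∀ t : ℤ, (t = f.2 ∨ t = f.2 + 1) →
      (if (X i).2 = t ∧ (X i).1 ≤ f.1 then (-1 : ℝ) else 1) =
        (if (X i).1 ≤ y.1 ∧ t - 1 < (X i).2 then (-1 : ℝ) else 1) *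
          if (X i).1 ≤ y.1 ∧ t < (X i).2 then (-1 : ℝ) else 1 := by
    intro t ht
    by_cases e : (X i).2 = t
    · have ht' : |((X i).2 : ℝ) - y.2| ≤ R + 1 := by
        rw [e, abs_le]
        rcases ht with ht | ht <;> rw [ht] <;> push_cast <;> constructor <;> linarith
      have h1 : R + 1 < |((X i).1 : ℝ) - y.1| := by
        rcases hX i with h | h
        · exact h
        · exact absurd h (not_lt.2 ht')
      rcases lt_abs.1 h1 with h2 | h2
      · have a1 : ¬ (X i).1 ≤ y.1 := by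
          intro hc
          have : ((X i).1 : ℝ) ≤ y.1 := by exact_mod_cast hc
          linarith
        have a2 : ¬ (X i).1 ≤ f.1 := by
          intro hc
          have : ((X i).1 : ℝ) ≤ f.1 := by exact_mod_cast hc
          linarith
        rw [if_neg (fun hc => a2 hc.2), if_neg (fun hc => a1 hc.1), if_neg (fun hc => a1 hc.1),
          one_mul]
      · have a1 : (X i).1 ≤ y.1 := by
          have : ((X i).1 : ℝ) ≤ y.1 := by linarith
          exact_mod_cast this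
        have a2 : (X i).1 ≤ f.1 := by
          have : ((X i).1 : ℝ) ≤ f.1 := by linarith
          exact_mod_cast this
        rw [if_pos ⟨e, a2⟩, if_pos ⟨a1, by omega⟩, if_neg (fun hc => by omega), mul_one]
    · rw [if_neg (fun hc => e hc.1)]
      by_cases a1 : (X i).1 ≤ y.1
      · by_cases a2 : t < (X i).2
        · rw [if_pos ⟨a1, by omega⟩, if_pos ⟨a1, a2⟩]; norm_num
        · rw [if_neg (fun hc => by omega), if_neg (fun hc => a2 hc.2)]; norm_num
      · rw [if_neg (fun hc => a1 hc.1), if_neg (fun hc => a1 hc.1), one_mul]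
  fin_cases h
  · have := hh f.2 (Or.inl rfl)
    simp only [bz, nb, true_and] at this ⊢
    rw [this, mul_comm]
    rfl
  · have := hv (nb f 1) rfl
    simp only [bz, nb, one_ne_zero, false_and, if_false] at this ⊢
    exact this.symm
  · have := hh (f.2 + 1) (Or.inr rfl)
    simp only [bz, nb, true_and, add_sub_cancel_right] at this ⊢
    rw [this]
    rfl
  · have := hv (nb f 3) rfl
    simp only [bz, nb, one_ne_zero, false_and, if_false] at this ⊢
    exact this.symm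

/-- **insertions outside the box are pure gauge**, any weights -/
theorem wl_wX_gauge {n : ℕ} (w : BW ℤ) {X : Fin n → ℤ × ℤ} {y : Face} {R : ℝ} (hR : 0 ≤ R)
    (hX : ∀ i, FarX y R (X i)) {f : Face} (hf : f ∈ bx y R) (h : Fin 4) :
    wl (wX w X) f h = rg X y f * rg X y (nb f h) * wl w f h := by
  rw [wl_eq, wl_eq, wX, ray_gauge hR hX hf h]

/-! ### domain weights -/

theorem wl_plus_in {T : Set (ℤ × ℤ)} {f : Face} (h : ∀ z, Corner f z → z ∈ T) (k : Fin 4) :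
    wl (wDom T false) f k = xc := by
  rw [wl_eq, wDom]
  simp only [Bool.false_eq_true, if_false]
  rw [if_pos (Or.inl (h _ (bz_corner f k)))]
  rfl

theorem wl_plus_out {T : Set (ℤ × ℤ)} {f : Face} (h : ∀ z, Corner f z → z ∉ T) (k : Fin 4) :
    wl (wDom T false) f k = 0 := by
  rw [wl_eq, wDom]
  simp only [Bool.false_eq_true, if_false]
  rw [if_neg (fun hc => hc.elim (h _ (bz_corner f k)) (h _ (bz_corner' f k)))]

theorem wl_free_in {T : Set (ℤ × ℤ)} {f : Face} (h : ∀ z, Corner f z → z ∈ T) (k : Fin 4) :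
    wl (wDom T true) f k = xc := by
  rw [wl_eq, wDom]
  simp only [if_true]
  rw [if_pos ⟨h _ (bz_corner f k), h _ (bz_corner' f k)⟩]
  rfl

theorem wl_free_out {T : Set (ℤ × ℤ)} {f : Face} (h : ∀ z, Corner f z → z ∉ T) (k : Fin 4) :
    wl (wDom T true) f k = 1 := by
  rw [wl_eq, wDom]
  simp only [if_true]
  rw [if_neg (fun hc => h _ (bz_corner f k) hc.1)]

theorem wl_plus_or (T : Set (ℤ × ℤ)) (f : Face) (k : Fin 4) :
    wl (wDom T false) f k = xc ∨ wl (wDom T false) f k = 0 := by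
  rw [wl_eq, wDom]
  simp only [Bool.false_eq_true, if_false]
  split_ifs
  · exact Or.inl rfl
  · exact Or.inr rfl

theorem wl_free_or (T : Set (ℤ × ℤ)) (f : Face) (k : Fin 4) :
    wl (wDom T true) f k = xc ∨ wl (wDom T true) f k = 1 := by
  rw [wl_eq, wDom]
  simp only [if_true]
  split_ifs
  · exact Or.inl rfl
  · exact Or.inr rfl

/-! ### the classes -/

/-- corners off the strip; `n` the outward normal -/
def SiteFlat (T : Set (ℤ × ℤ)) (y : Face) (R : ℝ) (n : ℂ) (ε : ℝ) : Prop :=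
  ∀ f ∈ bx y R, ∀ z, Corner f z → (dotn n y f ≤ -(ε * R) → z ∈ T) ∧ (ε * R ≤ dotn n y f → z ∉ T)

theorem plusFlat_of {T : Set (ℤ × ℤ)} {m : ℕ} {X : Fin m → ℤ × ℤ} {y : Face} {R ε : ℝ} {n : ℂ}
    (hR : 0 ≤ R) (hX : ∀ i, FarX y R (X i)) (H : SiteFlat T y R n ε) :
    PlusFlat (wl (wX (wDom T false) X)) (rg X y) y R n ε where
  sym := sym_wl _
  gauge := rg_gauge X y
  plus := by
    intro f hf h
    rw [wl_wX_gauge _ hR hX hf h]
    rcases wl_plus_or T f h with e | e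
    · left; rw [e, Crest.Agent.R165.RIfx891.sq_of (rg_gauge X y)]
    · right; rw [e, mul_zero]
  inside := by
    intro f hf hd h
    rw [wl_wX_gauge _ hR hX hf h, wl_plus_in (fun z hz => (H f hf z hz).1 hd)]
  outside := by
    intro f hf hd h
    rw [wl_wX_gauge _ hR hX hf h, wl_plus_out (fun z hz => (H f hf z hz).2 hd), mul_zero]

theorem freeFlat_of {T : Set (ℤ × ℤ)} {m : ℕ} {X : Fin m → ℤ × ℤ} {y : Face} {R ε : ℝ} {n : ℂ}
    (hR : 0 ≤ R) (hX : ∀ i, FarX y R (X i)) (H : SiteFlat T y R n ε) :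
    FreeFlat (wl (wX (wDom T true) X)) (rg X y) y R n ε where
  sym := sym_wl _
  gauge := rg_gauge X y
  free := by
    intro f hf h
    rw [wl_wX_gauge _ hR hX hf h]
    rcases wl_free_or T f h with e | e
    · left; rw [e]
    · right; rw [e, mul_one]
  inside := by
    intro f hf hd h
    rw [wl_wX_gauge _ hR hX hf h, wl_free_in (fun z hz => (H f hf z hz).1 hd)]
  outside := by
    intro f hf hd h
    rw [wl_wX_gauge _ hR hX hf h, wl_free_out (fun z hz => (H f hf z hz).2 hd), mul_one]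





/-! ### regular lattice sets -/

section Lat

variable {T : Set (ℤ × ℤ)} {ρ κ : ℝ}

/-- flatness of a regular lattice set near a boundary site; `n` the outward normal -/
theorem LatReg.siteFlat (h : LatReg T ρ κ) (hρ : 2 ≤ ρ) {z u : ℤ × ℤ} (hzu : nn z u)
    (hdiff : (z ∈ T ∧ u ∉ T) ∨ (z ∉ T ∧ u ∈ T)) :
    ∃ n : ℂ, ‖n‖ = 1 ∧ ∀ (S B : ℝ) (y : Face), 0 < S → 2 * S + 3 / 2 ≤ ρ → 2 * S * κ ≤ 1 →
      0 ≤ B → ‖pos y - pos z‖ ≤ B → ∀ ε R : ℝ, 4 * B + 26 ≤ R → 4 * B + 14 ≤ ε * R →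
      8 * R ≤ ε * S → SiteFlat T y R n ε := by
  obtain ⟨q, n, hn, hq, hb⟩ := h.balls hρ hzu hdiff
  refine ⟨-n, by rwa [norm_neg], fun S B y hS hSρ hSκ hB hy ε R h1 h2 h3 f hf w hw => ?_⟩
  obtain ⟨hin, hout⟩ := hb S hS hSρ hSκ
  have hyq : ‖pos y - q‖ ≤ B + 3 / 2 := by
    have e : pos y - q = (pos y - pos z) - (q - pos z) := by ring
    rw [e]
    exact (norm_sub_le _ _).trans (add_le_add hy hq)
  exact flat_core hn hS hin hout (by linarith) hyq (by linarith) (by linarith) h3 hf hw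


end Lat

/-! ### domains -/

section Dom

variable {D : Set ℂ} {r M : ℝ}

open Crest.Agent.R165.GeoDx65 Crest.Agent.R165.GeoGx65

/-- flatness of the site set of a domain at a frontier point; `n` the outward normal -/
theorem CD.siteFlat (h : CD D r M) {p : ℂ} (hp : p ∈ frontier D) :
    ∃ n : ℂ, ‖n‖ = 1 ∧ ∀ (a B ρ : ℝ) (y : Face), 0 < a → 0 < ρ → 2 * ρ ≤ r → 2 * M * ρ ≤ 1 →
      0 ≤ B → ‖meshPoint a y - p‖ ≤ B * a → ∀ ε R : ℝ, 4 * B + 20 ≤ R → 4 * (B + 2) ≤ ε * R →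
      8 * (a * R) ≤ ε * ρ → SiteFlat (domainSites D a) y R n ε := by
  obtain ⟨n, hn, hb⟩ := CD.ball_open h hp
  refine ⟨-n, by rwa [norm_neg], fun a B ρ y ha hρ hρr hρM hB hy ε R h1 h2 h3 f hf w hw => ?_⟩
  obtain ⟨hin, hout⟩ := hb ρ hρ hρr hρM
  have ha' : (a : ℂ) ≠ 0 := by exact_mod_cast ha.ne'
  have key : ∀ (w : ℤ × ℤ) (σ : ℂ), a * ‖pos w - (p / a + σ * (((ρ / a : ℝ) : ℂ) * n))‖ =
      ‖meshPoint a w - (p + σ * (ρ * n))‖ := by
    intro w σ
    have e : meshPoint a w - (p + σ * (ρ * n)) =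
        (a : ℂ) * (pos w - (p / a + σ * (((ρ / a : ℝ) : ℂ) * n))) := by
      rw [meshPoint_eq_mul_pos]
      push_cast
      field_simp
    rw [e, norm_mul, Complex.norm_real, Real.norm_of_nonneg ha.le]
  refine flat_core (q := p / a) (S := ρ / a) hn (by positivity) ?_ ?_ hB ?_ h1 h2 ?_ hf hw
  · intro w hw
    apply hin
    rw [mem_ball, Complex.dist_eq]
    have e := key w 1
    rw [one_mul, one_mul] at e
    rw [← e]
    calc a * _ < a * (ρ / a) := mul_lt_mul_of_pos_left hw ha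
      _ = ρ := by field_simp
  · intro w hw hwD
    have : meshPoint a w ∈ (D ∪ frontier D)ᶜ := by
      apply hout
      rw [mem_ball, Complex.dist_eq]
      have e := key w (-1)
      rw [neg_one_mul, neg_one_mul, ← sub_eq_add_neg, ← sub_eq_add_neg] at e
      rw [← e]
      calc a * _ < a * (ρ / a) := mul_lt_mul_of_pos_left hw ha
        _ = ρ := by field_simp
    exact this (Or.inl hwD)
  · have e : meshPoint a y - p = (a : ℂ) * (pos y - p / a) := by
      rw [meshPoint_eq_mul_pos]; field_simp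
    rw [e, norm_mul, Complex.norm_real, Real.norm_of_nonneg ha.le, mul_comm B] at hy
    exact le_of_mul_le_mul_left hy ha
  · rw [← mul_div_assoc, le_div_iff₀ ha]
    linarith






end Dom

end Crest.Agent.R165.Flatx838
end
private theorem rz_0a8218e003 : type_of% @_root_.Crest.Agent.R165.Flatx838.bz.eq_1 := @_root_.Crest.Agent.R165.Flatx838.bz.eq_1 -- L150
end

-- ▼ part R165/RegI_485
section

/-!
# Row 165 (S0250), block R: regularity classes at all ratios (helper485)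

`U3 w x R f`: `|f|, R |Af|, R² |A²f| ≤ 1` in `l²` of the box `bx x R`.
* `Reg1T`, `Reg2T`: growth / one-mode statement from radius `R` to radius `r`
* `rd_plus`, `rd_free`: `Reg1T .. (C r/R)`, `Reg2T .. (C (r/R)^{3/2})` at flat plus / free boundaries
* `rx_branch`: `Reg1T .. (C (r/R)^{1/2})`, `Reg2T .. (C r/R)` at a branch vertex
* exterior backgrounds: `ext_plus` (weights `0`), `ext_free` (weights `s s'`)
-/

set_option autoImplicit false

noncomputable section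

namespace Crest.Agent.R165.RegIx485

open Finset Crest.Agent.R165.Tr1x40 Crest.Agent.R165.Campx891 Crest.Agent.R165.RIfx891
open Crest.Agent.R165.Dualx485 (dw df fd dg gf gw IsFree fd_df A_df_global sym_dw dy dy_one ew)
open Crest.Agent.R165.FreeLocx485 (FreeOn Tch model sym_model isFree_model A_model)
open Crest.Agent.R165.FreeRegx485

/-- normalised hypothesis of the regularity theorems -/
def U3 (w : Fld) (x : Face) (R : ℝ) (f : Fld) : Prop :=
  NB x R f ≤ 1 ∧ NB x R (A w f) ≤ 1 / R ∧ NB x R (A w (A w f)) ≤ 1 / R ^ 2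

/-- growth statement -/
def Reg1T (w : Fld) (x : Face) (r R c : ℝ) : Prop := ∀ f, U3 w x R f → NB x r f ≤ c

/-- one-mode statement -/
def Reg2T (w : Fld) (x : Face) (r R : ℝ) (u : Fld) (c : ℝ) : Prop :=
  ∀ f, U3 w x R f → ∃ κ : ℝ, NB x r (f - κ • u) ≤ c

theorem Reg1T.mono {w : Fld} {x : Face} {r r' R c c' : ℝ} (hr : r' ≤ r) (hc : c ≤ c')
    (H : Reg1T w x r R c) : Reg1T w x r' R c' :=
  fun f hf => (NB_mono x hr f).trans ((H f hf).trans hc)

theorem Reg2T.mono {w : Fld} {x : Face} {r r' R c c' : ℝ} {u : Fld} (hr : r' ≤ r) (hc : c ≤ c')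
    (H : Reg2T w x r R u c) : Reg2T w x r' R u c' := fun f hf => by
  obtain ⟨κ, hκ⟩ := H f hf
  exact ⟨κ, (NB_mono x hr _).trans (hκ.trans hc)⟩

/-! ### non dyadic ratios -/

theorem exists_J {r R : ℝ} (hr : 0 < r) (hrR : r ≤ R) :
    ∃ J : ℕ, (2 : ℝ) ^ J ≤ R / r ∧ r ≤ R * q ^ (2 * J) ∧ q ^ (2 * J) ≤ 2 * (r / R) := by
  have h1 : 1 ≤ R / r := by rwa [le_div_iff₀ hr, one_mul]
  obtain ⟨J, h2, h3⟩ := exists_nat_pow_near h1 (by norm_num : (1 : ℝ) < 2)
  have hR : 0 < R := hr.trans_le hrR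
  have e : q ^ (2 * J) = (1 / 2 : ℝ) ^ J := by rw [pow_mul, q_sq]
  have e2 : (2 : ℝ) ^ J * (1 / 2 : ℝ) ^ J = 1 := by rw [← mul_pow]; norm_num
  have p1 : (0 : ℝ) < (1 / 2 : ℝ) ^ J := by positivity
  refine ⟨J, h2, ?_, ?_⟩
  · rw [le_div_iff₀ hr] at h2
    rw [e]
    have := mul_le_mul_of_nonneg_right h2 p1.le
    calc r = 2 ^ J * r * (1 / 2) ^ J := by rw [mul_comm (2 ^ J) r, mul_assoc, e2, mul_one]
      _ ≤ R * (1 / 2) ^ J := this
  · rw [pow_succ, div_lt_iff₀ hr] at h3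
    rw [e, ← mul_div_assoc, le_div_iff₀ hR]
    have := mul_le_mul_of_nonneg_left h3.le p1.le
    calc (1 / 2 : ℝ) ^ J * R ≤ (1 / 2) ^ J * (2 ^ J * 2 * r) := this
      _ = (2 ^ J * (1 / 2) ^ J) * (2 * r) := by ring
      _ = 2 * r := by rw [e2, one_mul]

theorem J_le {J : ℕ} {Λ : ℝ} (h : (2 : ℝ) ^ J ≤ Λ) : J ≤ ⌈Λ⌉₊ := by
  have h1 : (J : ℝ) ≤ 2 ^ J := by
    have : J < 2 ^ J := Nat.lt_two_pow_self
    exact_mod_cast this.le
  have h2 : (J : ℝ) ≤ ⌈Λ⌉₊ := h1.trans (h.trans (Nat.le_ceil _))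
  exact_mod_cast h2

/-- uniform thresholds -/
theorem exists_sup (f : ℕ → ℝ) (N : ℕ) : ∃ R, ∀ m ≤ N, f m ≤ R :=
  ⟨(range (N + 1)).sup' (nonempty_range_iff.2 (by omega)) f,
    fun m hm => le_sup' f (mem_range.2 (by omega))⟩

theorem exists_inf (f : ℕ → ℝ) (hf : ∀ m, 0 < f m) (N : ℕ) : ∃ E, 0 < E ∧ ∀ m ≤ N, E ≤ f m := by
  refine ⟨(range (N + 1)).inf' (nonempty_range_iff.2 (by omega)) f, ?_, fun m hm =>
    inf'_le f (mem_range.2 (by omega))⟩
  rw [lt_inf'_iff]; exact fun m _ => hf m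

theorem K2_nonneg {C1 Cs : ℝ} (h1 : 0 ≤ C1) (h2 : 0 ≤ Cs) : 0 ≤ K2 C1 Cs := by
  have := K1_nonneg h1 h2
  unfold K2; positivity

theorem q_pow_three {t : ℝ} {J : ℕ} (ht : 0 ≤ t) (h : q ^ (2 * J) ≤ 2 * t) :
    q ^ (3 * J) ≤ 3 * t ^ (3 / 2 : ℝ) := by
  have hq := q_pos
  have e : q ^ (3 * J) = (q ^ (2 * J)) ^ (3 / 2 : ℝ) := by
    rw [← Real.rpow_natCast, ← Real.rpow_natCast, ← Real.rpow_mul hq.le]
    congr 1; push_cast; ring
  rw [e]
  calc (q ^ (2 * J)) ^ (3 / 2 : ℝ) ≤ (2 * t) ^ (3 / 2 : ℝ) :=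
        Real.rpow_le_rpow (by positivity) h (by norm_num)
    _ = 2 ^ (3 / 2 : ℝ) * t ^ (3 / 2 : ℝ) := Real.mul_rpow (by norm_num) ht
    _ ≤ 3 * t ^ (3 / 2 : ℝ) := by
        refine mul_le_mul_of_nonneg_right ?_ (by positivity)
        have h1 : (2 : ℝ) ^ (3 / 2 : ℝ) = 2 * Real.sqrt 2 := by
          rw [show (3 / 2 : ℝ) = 1 + 1 / 2 by norm_num, Real.rpow_add (by norm_num),
            Real.rpow_one, Real.sqrt_eq_rpow]
        rw [h1]
        have h2 : Real.sqrt 2 ≤ 3 / 2 := by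
          rw [Real.sqrt_le_left (by norm_num)]; norm_num
        linarith

theorem q_pow_one {t : ℝ} {J : ℕ} (ht : 0 ≤ t) (h : q ^ (2 * J) ≤ 2 * t) :
    q ^ J ≤ 2 * t ^ (1 / 2 : ℝ) := by
  have hq := q_pos
  have e : q ^ J = (q ^ (2 * J)) ^ (1 / 2 : ℝ) := by
    rw [← Real.rpow_natCast, ← Real.rpow_natCast, ← Real.rpow_mul hq.le]
    congr 1; push_cast; ring
  rw [e]
  calc (q ^ (2 * J)) ^ (1 / 2 : ℝ) ≤ (2 * t) ^ (1 / 2 : ℝ) :=
        Real.rpow_le_rpow (by positivity) h (by norm_num)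
    _ = 2 ^ (1 / 2 : ℝ) * t ^ (1 / 2 : ℝ) := Real.mul_rpow (by norm_num) ht
    _ ≤ 2 * t ^ (1 / 2 : ℝ) := by
        refine mul_le_mul_of_nonneg_right ?_ (by positivity)
        rw [← Real.sqrt_eq_rpow, Real.sqrt_le_left (by norm_num)]; norm_num

/-! ### boundary classes -/

/-- **flat plus boundary**, all ratios up to `Λ` -/
theorem rd_plus {C Cs : ℝ} (hC : 0 ≤ C) (hCs : 0 ≤ Cs) (hG : GapU Cs) (hE : EXb C) (Λ : ℝ) :
    ∃ r0 ε0 : ℝ, 1 ≤ r0 ∧ 0 < ε0 ∧
    ∀ (w : Fld) (s : Face → ℝ) (x : Face) (r R : ℝ) (n c : ℂ), r0 ≤ r → r ≤ R → R ≤ Λ * r →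
      ‖n‖ = 1 → c ^ 2 = (starRingEnd ℂ) n → PlusFlat w s x R n ε0 →
      Reg1T w x r R (2 * K2 C Cs * (r / R)) ∧
      Reg2T w x r R (modeB s x n c) (3 * K2 C Cs * (r / R) ^ (3 / 2 : ℝ)) := by
  choose r1 ε1 hε1 H using regB hC hCs hG hE
  obtain ⟨R1, hR1⟩ := exists_sup r1 ⌈Λ⌉₊
  obtain ⟨E1, hE1, hE1'⟩ := exists_inf ε1 hε1 ⌈Λ⌉₊
  refine ⟨max 1 R1, E1, le_max_left _ _, hE1, ?_⟩
  intro w s x r R n c hr hrR hΛ hn hc hP
  have hr0 : 0 < r := lt_of_lt_of_le one_pos ((le_max_left _ _).trans hr)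
  have hR0 : 0 < R := hr0.trans_le hrR
  obtain ⟨J, hJ1, hJ2, hJ3⟩ := exists_J hr0 hrR
  have hJ : J ≤ ⌈Λ⌉₊ := J_le (hJ1.trans (by rwa [div_le_iff₀ hr0]))
  have hPF : PlusFlat w s x R n (ε1 J) :=
    hP.mono le_rfl (mul_le_mul_of_nonneg_right (hE1' J hJ) hR0.le)
  have hK : 0 ≤ K2 C Cs := K2_nonneg hC hCs
  have ht : 0 ≤ r / R := by positivity
  have key := fun f (hf : U3 w x R f) => H J w s x R n c
    ((hR1 J hJ).trans ((le_max_right _ _).trans (hr.trans hrR))) hn hc hPF f hf.1 hf.2.1 hf.2.2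
  refine ⟨fun f hf => ?_, fun f hf => ?_⟩
  · calc NB x r f ≤ NB x (R * q ^ (2 * J)) f := NB_mono x hJ2 f
      _ ≤ K2 C Cs * q ^ (2 * J) := (key f hf).1
      _ ≤ K2 C Cs * (2 * (r / R)) := mul_le_mul_of_nonneg_left hJ3 hK
      _ = 2 * K2 C Cs * (r / R) := by ring
  · obtain ⟨κ, hκ⟩ := (key f hf).2
    refine ⟨κ, ?_⟩
    calc NB x r (f - κ • modeB s x n c) ≤ NB x (R * q ^ (2 * J)) (f - κ • modeB s x n c) :=
          NB_mono x hJ2 _
      _ ≤ K2 C Cs * q ^ (3 * J) := hκ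
      _ ≤ K2 C Cs * (3 * (r / R) ^ (3 / 2 : ℝ)) :=
          mul_le_mul_of_nonneg_left (q_pow_three ht hJ3) hK
      _ = 3 * K2 C Cs * (r / R) ^ (3 / 2 : ℝ) := by ring

/-- **flat free boundary**, all ratios up to `Λ` -/
theorem rd_free {C Cs : ℝ} (hC : 0 ≤ C) (hCs : 0 ≤ Cs) (hG : GapU Cs) (hE : EXb C) (Λ : ℝ) :
    ∃ r0 ε0 : ℝ, 1 ≤ r0 ∧ 0 < ε0 ∧
    ∀ (w : Fld) (s : Face → ℝ) (x : Face) (r R : ℝ) (n c : ℂ), r0 ≤ r → r ≤ R → R ≤ Λ * r →
      ‖n‖ = 1 → c ^ 2 = (starRingEnd ℂ) n → FreeFlat w s x R n ε0 →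
      Reg1T w x r R (2 * K2 (16 * C + 1) (16 * Cs) * (r / R)) ∧
      Reg2T w x r R (modeF w s x n c)
        (3 * K2 (16 * C + 1) (16 * Cs) * (r / R) ^ (3 / 2 : ℝ)) := by
  choose r1 ε1 hε1 H using regF hC hCs hG hE
  obtain ⟨R1, hR1⟩ := exists_sup r1 ⌈Λ⌉₊
  obtain ⟨E1, hE1, hE1'⟩ := exists_inf ε1 hε1 ⌈Λ⌉₊
  refine ⟨max 1 R1, E1, le_max_left _ _, hE1, ?_⟩
  intro w s x r R n c hr hrR hΛ hn hc hP
  have hr0 : 0 < r := lt_of_lt_of_le one_pos ((le_max_left _ _).trans hr)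
  have hR0 : 0 < R := hr0.trans_le hrR
  obtain ⟨J, hJ1, hJ2, hJ3⟩ := exists_J hr0 hrR
  have hJ : J ≤ ⌈Λ⌉₊ := J_le (hJ1.trans (by rwa [div_le_iff₀ hr0]))
  have hPF : FreeFlat w s x R n (ε1 J) :=
    hP.mono le_rfl (mul_le_mul_of_nonneg_right (hE1' J hJ) hR0.le)
  set K := K2 (16 * C + 1) (16 * Cs) with hKd
  have hK : 0 ≤ K := K2_nonneg (by positivity) (by positivity)
  have ht : 0 ≤ r / R := by positivity
  have key := fun f (hf : U3 w x R f) => H J w s x R n c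
    ((hR1 J hJ).trans ((le_max_right _ _).trans (hr.trans hrR))) hn hc hPF f hf.1 hf.2.1 hf.2.2
  refine ⟨fun f hf => ?_, fun f hf => ?_⟩
  · calc NB x r f ≤ NB x (R * q ^ (2 * J)) f := NB_mono x hJ2 f
      _ ≤ K * q ^ (2 * J) := (key f hf).1
      _ ≤ K * (2 * (r / R)) := mul_le_mul_of_nonneg_left hJ3 hK
      _ = 2 * K * (r / R) := by ring
  · obtain ⟨κ, hκ⟩ := (key f hf).2
    refine ⟨κ, ?_⟩
    calc NB x r (f - κ • modeF w s x n c) ≤ NB x (R * q ^ (2 * J)) (f - κ • modeF w s x n c) :=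
          NB_mono x hJ2 _
      _ ≤ K * q ^ (3 * J) := hκ
      _ ≤ K * (3 * (r / R) ^ (3 / 2 : ℝ)) :=
          mul_le_mul_of_nonneg_left (q_pow_three ht hJ3) hK
      _ = 3 * K * (r / R) ^ (3 / 2 : ℝ) := by ring

/-- **branch vertex**, all ratios up to `Λ` -/
theorem rx_branch {C Cs : ℝ} (hC : 0 ≤ C) (hCs : 0 ≤ Cs) (hG : GapU Cs) (hE : EXbr C) (Λ : ℝ) :
    ∃ r0 : ℝ, 1 ≤ r0 ∧
    ∀ (w : Fld) (s : Face → ℝ) (v : Face) (r R : ℝ), r0 ≤ r → r ≤ R → R ≤ Λ * r →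
      BranchOn w s v R →
      Reg1T w v r R (2 * K2 C Cs * (r / R) ^ (1 / 2 : ℝ)) ∧
      Reg2T w v r R (modeBr s v) (2 * K2 C Cs * (r / R)) := by
  choose r1 H using regBr hC hCs hG hE
  obtain ⟨R1, hR1⟩ := exists_sup r1 ⌈Λ⌉₊
  refine ⟨max 1 R1, le_max_left _ _, ?_⟩
  intro w s v r R hr hrR hΛ hP
  have hr0 : 0 < r := lt_of_lt_of_le one_pos ((le_max_left _ _).trans hr)
  have hR0 : 0 < R := hr0.trans_le hrR
  obtain ⟨J, hJ1, hJ2, hJ3⟩ := exists_J hr0 hrR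
  have hJ : J ≤ ⌈Λ⌉₊ := J_le (hJ1.trans (by rwa [div_le_iff₀ hr0]))
  have hK : 0 ≤ K2 C Cs := K2_nonneg hC hCs
  have ht : 0 ≤ r / R := by positivity
  have key := fun f (hf : U3 w v R f) => H J w s v R
    ((hR1 J hJ).trans ((le_max_right _ _).trans (hr.trans hrR))) hP f hf.1 hf.2.1 hf.2.2
  refine ⟨fun f hf => ?_, fun f hf => ?_⟩
  · calc NB v r f ≤ NB v (R * q ^ (2 * J)) f := NB_mono v hJ2 f
      _ ≤ K2 C Cs * q ^ J := (key f hf).1
      _ ≤ K2 C Cs * (2 * (r / R) ^ (1 / 2 : ℝ)) :=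
          mul_le_mul_of_nonneg_left (q_pow_one ht hJ3) hK
      _ = 2 * K2 C Cs * (r / R) ^ (1 / 2 : ℝ) := by ring
  · obtain ⟨κ, hκ⟩ := (key f hf).2
    refine ⟨κ, ?_⟩
    calc NB v r (f - κ • modeBr s v) ≤ NB v (R * q ^ (2 * J)) (f - κ • modeBr s v) :=
          NB_mono v hJ2 _
      _ ≤ K2 C Cs * q ^ (2 * J) := hκ
      _ ≤ K2 C Cs * (2 * (r / R)) := mul_le_mul_of_nonneg_left hJ3 hK
      _ = 2 * K2 C Cs * (r / R) := by ring

/-! ### exterior backgrounds -/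

/-- the intra-face matrix is invertible -/
theorem nsq_le_A0 (p : Fin 4 → ℝ) : nsq p ≤ 9 * nsq (A0 p) := by
  have e0 : p 0 = -A0 p 1 + A0 p 2 - A0 p 3 := by simp only [A0]; ring
  have e1 : p 1 = A0 p 0 - A0 p 2 + A0 p 3 := by simp only [A0]; ring
  have e2 : p 2 = -A0 p 0 + A0 p 1 - A0 p 3 := by simp only [A0]; ring
  have e3 : p 3 = A0 p 0 - A0 p 1 + A0 p 2 := by simp only [A0]; ring
  have k : ∀ a b c : ℝ, (a + b + c) ^ 2 ≤ 3 * (a ^ 2 + b ^ 2 + c ^ 2) := by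
    intro a b c
    nlinarith [sq_nonneg (a - b), sq_nonneg (b - c), sq_nonneg (a - c)]
  have k0 := k (-A0 p 1) (A0 p 2) (-A0 p 3)
  have k1 := k (A0 p 0) (-A0 p 2) (A0 p 3)
  have k2 := k (-A0 p 0) (A0 p 1) (-A0 p 3)
  have k3 := k (A0 p 0) (-A0 p 1) (A0 p 2)
  rw [← sub_eq_add_neg] at k0 k2
  rw [show A0 p 0 + -A0 p 2 + A0 p 3 = A0 p 0 - A0 p 2 + A0 p 3 by ring] at k1
  rw [show A0 p 0 + -A0 p 1 + A0 p 2 = A0 p 0 - A0 p 1 + A0 p 2 by ring] at k3
  rw [← e0] at k0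
  rw [← e1] at k1
  rw [← e2] at k2
  rw [← e3] at k3
  simp only [neg_sq] at k0 k1 k2 k3
  rw [nsq_eq p, nsq_eq (A0 p)]
  linarith

/-- exterior of a plus domain: all weights of the box vanish -/
theorem ext_plus {w : Fld} {x : Face} {t : ℝ} (hw : ∀ f ∈ bx x t, ∀ h, w f h = 0) (φ : Fld) :
    NB x t φ ≤ 3 * NB x t (A w φ) := by
  refine le_of_sq_le' (by norm_num) (apply_nonneg _ _) ?_
  rw [NB_sq, NB_sq]
  have : ∀ f ∈ bx x t, nsq (φ f) ≤ 9 * nsq (A w φ f) := by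
    intro f hf
    have e : A w φ f = A0 (φ f) := by
      funext h; simp only [A, Y, hw f hf h, mul_zero, zero_mul, add_zero]
    rw [e]; exact nsq_le_A0 _
  calc ∑ f ∈ bx x t, nsq (φ f) ≤ ∑ f ∈ bx x t, 9 * nsq (A w φ f) := sum_le_sum this
    _ = 3 ^ 2 * ∑ f ∈ bx x t, nsq (A w φ f) := by rw [← mul_sum]; norm_num

/-- exterior of a free domain: all weights of the box are `s s'` -/
theorem ext_free {w : Fld} {s : Face → ℝ} {x : Face} {t : ℝ} (hS : Sym w) (hs : Gauge s)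
    (hw : ∀ f ∈ bx x (t + 2), ∀ h, w f h = s f * s (nb f h)) (φ : Fld) :
    NB x t φ ≤ 24 * NB x (t + 2) (A w φ) := by
  have hF0 : IsFreeOn w s x (t + 2) := ⟨hS, hs, fun f hf h => Or.inr (hw f hf h)⟩
  have hO := hF0.freeOn
  set w' := model w s (bx x (t + 2)) with hw'
  have hS' : Sym w' := sym_model hS
  have hF : IsFree w' := isFree_model hO
  have h1 : NB x t (gf s φ) ≤ 2 * NB x (t + 1) (df w' (gf s φ)) := by
    have := NB_fd hF.nonneg (df w' (gf s φ)) x t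
    rwa [fd_df hS' hF.ne] at this
  -- the dual weights vanish
  have h0 : ∀ v ∈ bx x (t + 1), ∀ h, dw w' v h = 0 := by
    intro v hv h
    have hfc := fcs_bx x (t + 1)
    rw [show t + 1 + 1 = t + 2 by ring] at hfc
    obtain ⟨a1, a2, a3, a4⟩ := hfc v hv
    have e : ∀ f ∈ bx x (t + 2), ∀ k, w' f k = 1 := by
      intro f hf k
      have := gauge_cancel hs f (nb f k) 1
      rw [mul_one] at this
      rw [hw', model_bx hf, gw, hw f hf k, this]
    have : ew w' v h = 1 := by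
      fin_cases h
      · exact e _ a3 3
      · exact e _ a1 0
      · exact e _ a1 3
      · exact e _ a2 0
    rw [dw, this, dy_one]
  have h2 := ext_plus h0 (df w' (gf s φ))
  have h3 : NB x (t + 1) (A (dw w') (df w' (gf s φ))) ≤ 4 * NB x (t + 2) (A w' (gf s φ)) := by
    rw [A_df_global hS' hF.ne]
    have := NB_dg (A w' (gf s φ)) x (t + 1)
    rwa [show t + 1 + 1 = t + 2 by ring] at this
  have h4 : NB x (t + 2) (A w' (gf s φ)) = NB x (t + 2) (A w φ) := by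
    rw [← NB_gm hs x (t + 2) (A w φ)]
    refine N2_congr fun f hf => ?_
    funext h
    exact A_model hO φ f h (Or.inl hf)
  have h5 : NB x t φ = NB x t (gf s φ) := (NB_gm hs x t φ).symm
  rw [h5]; rw [h4] at h3
  linarith

theorem rb_ext_plus {w : Fld} {x : Face} {r R : ℝ} (hr : 1 ≤ r) (hrR : r ≤ R)
    (hw : ∀ f ∈ bx x R, ∀ h, w f h = 0) : Reg1T w x r R (3 * (r / R)) := by
  intro f hf
  have h1 := ext_plus (fun f hf h => hw f (bx_mono x hrR hf) h) f
  have h2 : NB x r (A w f) ≤ 1 / R := (NB_mono x hrR _).trans hf.2.1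
  have hR : 0 < R := by linarith
  have h3 : 1 / R ≤ r / R := by gcongr
  linarith

theorem rb_ext_free {w : Fld} {s : Face → ℝ} {x : Face} {r R : ℝ} (hr : 1 ≤ r)
    (hrR : r + 2 ≤ R) (hS : Sym w) (hs : Gauge s)
    (hw : ∀ f ∈ bx x R, ∀ h, w f h = s f * s (nb f h)) : Reg1T w x r R (24 * (r / R)) := by
  intro f hf
  have h1 := ext_free hS hs (fun f hf h => hw f (bx_mono x hrR hf) h) f
  have h2 : NB x (r + 2) (A w f) ≤ 1 / R := (NB_mono x hrR _).trans hf.2.1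
  have hR : 0 < R := by linarith
  have h3 : 1 / R ≤ r / R := by gcongr
  linarith

end Crest.Agent.R165.RegIx485
end
end

-- ▼ part R165/RegF_485
section

/-!
# Row 165 (S0250), block G2: free boundary and exterior classes on the objects of block G
(helper485)

* `reg1_of`, `reg2_of` : from the statements on `ℤ × ℤ` (`RegI_485`) to 893's `Reg1`, `Reg2`, any
  coordinate ring `G` in which the box is embedded
* `rd_freeFlat` : `RD` at a centre with `FreeFlat` at all radii; `rd_plusFlat`, `rx_branchOn`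
* `rb_zero`, `rb_one` : `RB` in a ball of zero background / weight-one background
-/

set_option autoImplicit false
set_option linter.unusedSectionVars false

noncomputable section

open Crest.Agent.R165.Gr0x606 Crest.Agent.R165.Latx683 Crest.Agent.R165.GDefx387
  Crest.Agent.R165.NWidthx386 Crest.Agent.R165.RankOnex386 Crest.Agent.R165.Bridgex386
  Crest.Agent.R165.RIfx891 Crest.Agent.R165.Campx891 Crest.Agent.R165.BridgeRegx386
  Crest.Agent.R165.RegGx893 Crest.Agent.R165.FreeRegx485 Crest.Agent.R165.RegIx485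
  Crest.Agent.R165.Wtx898

namespace Crest.Agent.R165.RegFx485

section transfer

variable {G : Type} [CommRing G] [CN G] [CNL G]

theorem u3_lift {w : BW G} {X : Face} {R : ℕ} (hR : 1 ≤ R) (hI : Inj G R) {f : HE G → ℝ}
    (h : RegGx893.U3 w (pf X) R f) : RegIx485.U3 (wl w) X R (lift f) := ub_lift hR hI h

theorem reg1_of {w : BW G} {X : Face} {r R : ℕ} {c : ℝ} (hR : 1 ≤ R) (hI : Inj G R)
    (H : Reg1T (wl w) X r R c) : Reg1 w (pf X) r R c := fun f hf =>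
  (l2_le_NB X r f).trans (H _ (u3_lift hR hI hf))

theorem reg2_of {w : BW G} {X : Face} {r R : ℕ} {c : ℝ} {u : FR} (hR : 1 ≤ R) (hI : Inj G R)
    (hr : r ≤ R) (H : Reg2T (wl w) X r R u c) : Reg2 w (pf X) r R (desc X u) c := fun f hf => by
  obtain ⟨κ, hκ⟩ := H _ (u3_lift hR hI hf)
  refine ⟨κ, (l2_le_NB X r _).trans ?_⟩
  rw [NB_lift_sub_desc X (hI.mono hr)]
  exact hκ

/-- zero background: exterior of a plus domain -/
theorem rb_zero {w : BW G} {X : Face} {R0 : ℕ} (hI : Inj G R0)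
    (hw : ∀ f ∈ bx X (R0 : ℝ), ∀ h, wl w f h = 0) (Λ : ℕ) : RB w (pf X) 3 Λ 1 R0 := by
  intro r R h1 h2 _ h4
  have hR : (R : ℝ) ≤ R0 := by exact_mod_cast h4
  exact reg1_of (h1.trans h2) (hI.mono h4)
    (rb_ext_plus (by exact_mod_cast h1) (by exact_mod_cast h2)
      fun f hf h => hw f (bx_mono X hR hf) h)

/-- weight-one background: exterior of a free domain -/
theorem rb_one {w : BW G} {s : Face → ℝ} {X : Face} {R0 : ℕ} (hI : Inj G R0) (hs : Gauge s)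
    (hw : ∀ f ∈ bx X (R0 : ℝ), ∀ h, wl w f h = s f * s (Tr1x40.nb f h)) (Λ : ℕ) :
    RB w (pf X) 24 Λ 1 R0 := by
  intro r R h1 h2 _ h4
  have hR : (R : ℝ) ≤ R0 := by exact_mod_cast h4
  have hr0 : (1 : ℝ) ≤ r := by exact_mod_cast h1
  rcases Nat.lt_or_ge R (r + 2) with h | h
  · intro f hf
    have hf1 : L2on (ball (pf X) r) f ≤ 1 :=
      (L2on_mono (ball_mono _ h2) (ball_finite _ _) f).trans hf.1
    have hRp : (0 : ℝ) < R := by exact_mod_cast lt_of_lt_of_le h1 h2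
    have hRr : (R : ℝ) ≤ 3 * r := by
      have : R ≤ 3 * r := by omega
      exact_mod_cast this
    have : (1 : ℝ) ≤ 24 * (r / R) := by
      rw [← mul_div_assoc, le_div_iff₀ hRp]
      nlinarith
    linarith
  · exact reg1_of (h1.trans h2) (hI.mono h4)
      (rb_ext_free hr0 (by exact_mod_cast h) (sym_wl w) hs
        fun f hf h => hw f (bx_mono X hR hf) h)

end transfer

/-- the conjugate of a complex number is a square -/
theorem exists_sq (n : ℂ) : ∃ c : ℂ, c ^ 2 = (starRingEnd ℂ) n := by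
  obtain ⟨c, hc⟩ := IsAlgClosed.exists_pow_nat_eq ((starRingEnd ℂ) n) (n := 2) (by norm_num)
  exact ⟨c, hc⟩

theorem rpow_three_halves {t : ℝ} (ht : 0 ≤ t) : t ^ (3 / 2 : ℝ) = t * Real.sqrt t := by
  rcases ht.eq_or_lt with h | h
  · rw [← h, Real.zero_rpow (by norm_num), zero_mul]
  · rw [show (3 / 2 : ℝ) = 1 + 1 / 2 by norm_num, Real.rpow_add h, Real.rpow_one,
      Real.sqrt_eq_rpow]

/-- constant of the free boundary -/
def CF (C Cs : ℝ) : ℝ := 3 * K2 (16 * C + 1) (16 * Cs)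

/-- constant of the plus boundary and of the branch vertex -/
def CP (C Cs : ℝ) : ℝ := 3 * K2 C Cs

/-- **RD at a flat free boundary** -/
theorem rd_freeFlat {C Cs : ℝ} (hC : 0 ≤ C) (hCs : 0 ≤ Cs) (hG : GapU Cs) (hE : EXb C) (Λ : ℕ) :
    ∃ (r0 : ℕ) (ε0 : ℝ), 1 ≤ r0 ∧ 0 < ε0 ∧ ∀ (G : Type) [CommRing G] [CN G] [CNL G] (w : BW G)
      (X : Face) (R0 : ℕ), Inj G R0 →
      (∀ R : ℕ, r0 ≤ R → R ≤ R0 → ∃ (s : Face → ℝ) (n : ℂ), ‖n‖ = 1 ∧
        FreeFlat (wl w) s X R n ε0) →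
      RD w (pf X) (CF C Cs) Λ r0 R0 := by
  obtain ⟨r1, ε1, hr1, hε1, H⟩ := rd_free hC hCs hG hE Λ
  refine ⟨⌈r1⌉₊, ε1, Nat.one_le_iff_ne_zero.2 (by
    intro h; rw [Nat.ceil_eq_zero] at h; linarith), hε1, ?_⟩
  intro G _ _ _ w X R0 hI hF r R h1 h2 h3 h4
  obtain ⟨s, n, hn, hFF⟩ := hF R (h1.trans h2) h4
  obtain ⟨c, hc⟩ := exists_sq n
  have h1' : r1 ≤ r := (Nat.le_ceil r1).trans (by exact_mod_cast h1)
  have h2' : (r : ℝ) ≤ R := by exact_mod_cast h2
  have h3' : (R : ℝ) ≤ Λ * r := by exact_mod_cast h3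
  obtain ⟨a, b⟩ := H (wl w) s X r R n c h1' h2' h3' hn hc hFF
  have hR1 : 1 ≤ R := by
    have : (1 : ℝ) ≤ R := hr1.trans (h1'.trans h2')
    exact_mod_cast this
  have hK : 0 ≤ K2 (16 * C + 1) (16 * Cs) := RegIx485.K2_nonneg (by positivity) (by positivity)
  have ht : (0 : ℝ) ≤ (r : ℝ) / R := by positivity
  refine ⟨(reg1_of hR1 (hI.mono h4) a).mono ?_, desc X (modeF (wl w) s X n c),
    (reg2_of hR1 (hI.mono h4) h2 b).mono ?_⟩
  · unfold CF; nlinarith
  · rw [rpow_three_halves ht]; unfold CF; exact le_rfl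

/-- **RD at a flat plus boundary** -/
theorem rd_plusFlat {C Cs : ℝ} (hC : 0 ≤ C) (hCs : 0 ≤ Cs) (hG : GapU Cs) (hE : EXb C) (Λ : ℕ) :
    ∃ (r0 : ℕ) (ε0 : ℝ), 1 ≤ r0 ∧ 0 < ε0 ∧ ∀ (G : Type) [CommRing G] [CN G] [CNL G] (w : BW G)
      (X : Face) (R0 : ℕ), Inj G R0 →
      (∀ R : ℕ, r0 ≤ R → R ≤ R0 → ∃ (s : Face → ℝ) (n : ℂ), ‖n‖ = 1 ∧
        PlusFlat (wl w) s X R n ε0) →
      RD w (pf X) (CP C Cs) Λ r0 R0 := by
  obtain ⟨r1, ε1, hr1, hε1, H⟩ := rd_plus hC hCs hG hE Λ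
  refine ⟨⌈r1⌉₊, ε1, Nat.one_le_iff_ne_zero.2 (by
    intro h; rw [Nat.ceil_eq_zero] at h; linarith), hε1, ?_⟩
  intro G _ _ _ w X R0 hI hF r R h1 h2 h3 h4
  obtain ⟨s, n, hn, hFF⟩ := hF R (h1.trans h2) h4
  obtain ⟨c, hc⟩ := exists_sq n
  have h1' : r1 ≤ r := (Nat.le_ceil r1).trans (by exact_mod_cast h1)
  have h2' : (r : ℝ) ≤ R := by exact_mod_cast h2
  have h3' : (R : ℝ) ≤ Λ * r := by exact_mod_cast h3
  obtain ⟨a, b⟩ := H (wl w) s X r R n c h1' h2' h3' hn hc hFF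
  have hR1 : 1 ≤ R := by
    have : (1 : ℝ) ≤ R := hr1.trans (h1'.trans h2')
    exact_mod_cast this
  have hK : 0 ≤ K2 C Cs := RegIx485.K2_nonneg hC hCs
  have ht : (0 : ℝ) ≤ (r : ℝ) / R := by positivity
  refine ⟨(reg1_of hR1 (hI.mono h4) a).mono ?_, desc X (modeB s X n c),
    (reg2_of hR1 (hI.mono h4) h2 b).mono ?_⟩
  · unfold CP; nlinarith
  · rw [rpow_three_halves ht]; unfold CP; exact le_rfl

/-- **RX at a branch vertex** -/
theorem rx_branchOn {C Cs : ℝ} (hC : 0 ≤ C) (hCs : 0 ≤ Cs) (hG : GapU Cs) (hE : EXbr C) (Λ : ℕ) :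
    ∃ r0 : ℕ, 1 ≤ r0 ∧ ∀ (G : Type) [CommRing G] [CN G] [CNL G] (w : BW G)
      (X : Face) (R0 : ℕ), Inj G R0 →
      (∀ R : ℕ, r0 ≤ R → R ≤ R0 → ∃ s : Face → ℝ, BranchOn (wl w) s X R) →
      RX w (pf X) (CP C Cs) Λ r0 R0 := by
  obtain ⟨r1, hr1, H⟩ := rx_branch hC hCs hG hE Λ
  refine ⟨⌈r1⌉₊, Nat.one_le_iff_ne_zero.2 (by
    intro h; rw [Nat.ceil_eq_zero] at h; linarith), ?_⟩
  intro G _ _ _ w X R0 hI hF r R h1 h2 h3 h4
  obtain ⟨s, hFF⟩ := hF R (h1.trans h2) h4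
  have h1' : r1 ≤ r := (Nat.le_ceil r1).trans (by exact_mod_cast h1)
  have h2' : (r : ℝ) ≤ R := by exact_mod_cast h2
  have h3' : (R : ℝ) ≤ Λ * r := by exact_mod_cast h3
  obtain ⟨a, b⟩ := H (wl w) s X r R h1' h2' h3' hFF
  have hR1 : 1 ≤ R := by
    have : (1 : ℝ) ≤ R := hr1.trans (h1'.trans h2')
    exact_mod_cast this
  have hK : 0 ≤ K2 C Cs := RegIx485.K2_nonneg hC hCs
  have ht : (0 : ℝ) ≤ (r : ℝ) / R := by positivity
  refine ⟨(reg1_of hR1 (hI.mono h4) a).mono ?_, desc X (modeBr s X),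
    (reg2_of hR1 (hI.mono h4) h2 b).mono ?_⟩
  · rw [← Real.sqrt_eq_rpow]
    have : 0 ≤ Real.sqrt ((r : ℝ) / R) := Real.sqrt_nonneg _
    unfold CP; nlinarith
  · unfold CP; nlinarith

end Crest.Agent.R165.RegFx485
end
end

-- ▼ part R165/GeoRD_838

/-!
# Row 165 (S0250): regularity classes of the domain backgrounds (helper838)

* `flat_unif`: `CD.flat` with the threshold `r0` independent of the domain, any lattice
  approximations `X i` of the points `x i`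
* `rd_dom`: boundary faces are of class `RD`, both boundary conditions
* `geo_dom`: all faces of a domain: `RD` at the mixed faces, `RX` at the insertions, `RB` at every
  face up to the scale `R0` or to the distance to the nearest defect
-/

set_option autoImplicit false

noncomputable section

open Complex Metric
open Crest.ProbabilityR.IsingModel
open Crest.Agent.R165.Geo
open Crest.Agent.R165.Latx683 (BW wDom wX ray yE yN)
open Crest.Agent.R165.RIfx891 (bx mem_bx_real dotn PlusFlat PlaneOn BranchOn Gauge IsPlusOn GapU EXb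
  EXbr)
open Crest.Agent.R165.Tr1x40 (nb op xc)
open Crest.Agent.R165.Bridgex386 (wl sym_wl pf inj_int)
open Crest.Agent.R165.FreeRegx485 (FreeFlat IsFreeOn)
open Crest.Agent.R165.RegGx893 (RB RD RX)
open Crest.Agent.R165.RegFx485 (CF CP rd_plusFlat rd_freeFlat rx_branchOn rb_zero rb_one)
open Crest.Agent.R165.Flatx838

namespace Crest.Agent.R165.GeoRDx838

section Dom

variable {D : Set ℂ} {r M : ℝ}



end Dom

theorem pf_int (y : Face) : (pf y : ℤ × ℤ) = y := by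
  ext <;> simp [pf]

open Crest.Agent.R165.Bridgex386 Crest.Agent.R165.RegFx485 Crest.Agent.R165.RegIx485
  Crest.Agent.R165.RegGx893 Crest.Agent.R165.RIfx891 Crest.Agent.R165.GDefx387 in
/-- **RD at a flat plus boundary**, any larger threshold (`rd_plusFlat` of helper485) -/
theorem rd_plus_thr {C Cs : ℝ} (hC : 0 ≤ C) (hCs : 0 ≤ Cs) (hG : GapU Cs) (hE : EXb C) (Λ : ℕ) :
    ∃ (r0 : ℕ) (ε0 : ℝ), 1 ≤ r0 ∧ 0 < ε0 ∧ ∀ (r1 : ℕ), r0 ≤ r1 → ∀ (G : Type) [CommRing G] [CN G]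
      [CNL G] (w : BW G) (X : Flatx838.Face) (R0 : ℕ), Inj G R0 →
      (∀ R : ℕ, r1 ≤ R → R ≤ R0 → ∃ (s : Flatx838.Face → ℝ) (n : ℂ), ‖n‖ = 1 ∧
        PlusFlat (wl w) s X R n ε0) →
      RD w (pf X) (CP C Cs) Λ r1 R0 := by
  obtain ⟨r1, ε1, hr1, hε1, H⟩ := rd_plus hC hCs hG hE Λ
  refine ⟨⌈r1⌉₊, ε1, Nat.one_le_iff_ne_zero.2 (by
    intro h; rw [Nat.ceil_eq_zero] at h; linarith), hε1, ?_⟩
  intro r2 hr2 G _ _ _ w X R0 hI hF r R h1 h2 h3 h4
  obtain ⟨s, n, hn, hFF⟩ := hF R (h1.trans h2) h4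
  obtain ⟨c, hc⟩ := exists_sq n
  have h1' : r1 ≤ r := (Nat.le_ceil r1).trans (by exact_mod_cast hr2.trans h1)
  have h2' : (r : ℝ) ≤ R := by exact_mod_cast h2
  have h3' : (R : ℝ) ≤ Λ * r := by exact_mod_cast h3
  obtain ⟨a, b⟩ := H (wl w) s X r R n c h1' h2' h3' hn hc hFF
  have hR1 : 1 ≤ R := by
    have : (1 : ℝ) ≤ R := hr1.trans (h1'.trans h2')
    exact_mod_cast this
  have hK : 0 ≤ Crest.Agent.R165.Campx891.K2 C Cs := RegIx485.K2_nonneg hC hCs
  have ht : (0 : ℝ) ≤ (r : ℝ) / R := by positivity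
  refine ⟨(reg1_of hR1 (hI.mono h4) a).mono ?_, desc X (modeB s X n c),
    (reg2_of hR1 (hI.mono h4) h2 b).mono ?_⟩
  · unfold CP; nlinarith
  · rw [rpow_three_halves ht]; unfold CP; exact le_rfl

open Crest.Agent.R165.Bridgex386 Crest.Agent.R165.RegFx485 Crest.Agent.R165.RegIx485
  Crest.Agent.R165.RegGx893 Crest.Agent.R165.RIfx891 Crest.Agent.R165.GDefx387
  Crest.Agent.R165.FreeRegx485 in
/-- **RD at a flat free boundary**, any larger threshold (`rd_freeFlat` of helper485) -/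
theorem rd_free_thr {C Cs : ℝ} (hC : 0 ≤ C) (hCs : 0 ≤ Cs) (hG : GapU Cs) (hE : EXb C) (Λ : ℕ) :
    ∃ (r0 : ℕ) (ε0 : ℝ), 1 ≤ r0 ∧ 0 < ε0 ∧ ∀ (r1 : ℕ), r0 ≤ r1 → ∀ (G : Type) [CommRing G] [CN G]
      [CNL G] (w : BW G) (X : Flatx838.Face) (R0 : ℕ), Inj G R0 →
      (∀ R : ℕ, r1 ≤ R → R ≤ R0 → ∃ (s : Flatx838.Face → ℝ) (n : ℂ), ‖n‖ = 1 ∧
        FreeFlat (wl w) s X R n ε0) →
      RD w (pf X) (CF C Cs) Λ r1 R0 := by
  obtain ⟨r1, ε1, hr1, hε1, H⟩ := rd_free hC hCs hG hE Λ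
  refine ⟨⌈r1⌉₊, ε1, Nat.one_le_iff_ne_zero.2 (by
    intro h; rw [Nat.ceil_eq_zero] at h; linarith), hε1, ?_⟩
  intro r2 hr2 G _ _ _ w X R0 hI hF r R h1 h2 h3 h4
  obtain ⟨s, n, hn, hFF⟩ := hF R (h1.trans h2) h4
  obtain ⟨c, hc⟩ := exists_sq n
  have h1' : r1 ≤ r := (Nat.le_ceil r1).trans (by exact_mod_cast hr2.trans h1)
  have h2' : (r : ℝ) ≤ R := by exact_mod_cast h2
  have h3' : (R : ℝ) ≤ Λ * r := by exact_mod_cast h3
  obtain ⟨a, b⟩ := H (wl w) s X r R n c h1' h2' h3' hn hc hFF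
  have hR1 : 1 ≤ R := by
    have : (1 : ℝ) ≤ R := hr1.trans (h1'.trans h2')
    exact_mod_cast this
  have hK : 0 ≤ Crest.Agent.R165.Campx891.K2 (16 * C + 1) (16 * Cs) :=
    RegIx485.K2_nonneg (by positivity) (by positivity)
  have ht : (0 : ℝ) ≤ (r : ℝ) / R := by positivity
  refine ⟨(reg1_of hR1 (hI.mono h4) a).mono ?_, desc X (modeF (wl w) s X n c),
    (reg2_of hR1 (hI.mono h4) h2 b).mono ?_⟩
  · unfold CF; nlinarith
  · rw [rpow_three_halves ht]; unfold CF; exact le_rfl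

/-- the constant of the boundary class -/
def KD (C Cs : ℝ) : ℝ := max (CP C Cs) (CF C Cs)


/-! ### mixed faces -/

open Crest.Agent.R165.RFlatx65


/-- class `RB` in a box without defect -/
theorem rb_of_cls {w : BW ℤ} {f : Flatx838.Face} {R : ℕ} (h : Cls (wl w) f R) (Λ : ℕ) :
    RB w f (max BridgeRBx386.CRB 24) Λ 1 R := by
  rcases h with ⟨s, hs⟩ | h0 | ⟨s, hs, h1⟩
  · have := BridgeRBx386.rb_plane (inj_int R) hs Λ
    rw [pf_int] at this
    exact this.mono (le_max_left _ _) le_rfl le_rfl le_rfl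
  · have := rb_zero (inj_int R) h0 Λ
    rw [pf_int] at this
    exact this.mono (le_trans (by norm_num) (le_max_right _ _)) le_rfl le_rfl le_rfl
  · have := rb_one (inj_int R) hs h1 Λ
    rw [pf_int] at this
    exact this.mono (le_max_right _ _) le_rfl le_rfl le_rfl

/-- the constant of all classes -/
def KG (C C' Cs : ℝ) : ℝ := max (KD C Cs) (max (CP C' Cs) (max BridgeRBx386.CRB 24))

theorem one_le_KG (C C' Cs : ℝ) : 1 ≤ KG C C' Cs :=
  le_trans (by norm_num) ((le_max_right _ _).trans ((le_max_right _ _).trans (le_max_right _ _)))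


end Crest.Agent.R165.GeoRDx838
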