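import Crest.Agent.R165.RegI_893
import Crest.Agent.R165.Comp2_889
import Crest.Agent.R165.GeoRD_838
import Crest.Agent.R165.W0S_897
import Crest.Agent.R165.RFlat2_65

/-!
# Row 165 (S0250), block G2: WPack, the linear step on composite backgrounds (helper893)

* `dcount_near`, `dcount_mix` : counting of the boundary faces
* `geo_of` : the structure `Geo` of `RegI_893` from the output of `GeoRD_838`, marks included
* `GamOK`, `CFc` : the condition on `Γ`, the constant of the first order quantities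
* `stepOK_of_geo` : `StepOK` of `Comp2_889` for the systems of `GSys_387`
-/

set_option autoImplicit false
set_option linter.unusedSectionVars false

noncomputable section

open scoped ENNReal
open Crest.Agent.R165.Gr0x606 Crest.Agent.R165.Gr1x606 Crest.Agent.R165.Latx683
  Crest.Agent.R165.PNormx417 Crest.Agent.R165.GDefx387 Crest.Agent.R165.Wtx898
  Crest.Agent.R165.RegGx893 Crest.Agent.R165.RegIx893 Crest.Agent.R165.Packx915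
  Crest.Agent.R165.NSumx915 Crest.Agent.R165.DefRecx915 Crest.Agent.R165.GeOpsx337
  Crest.Agent.R165.KFlowx337 Crest.Agent.R165.GSysx387 Crest.Agent.R165.FRDPolyx439
  Crest.Agent.R165.Compx889

namespace Crest.Agent.R165.WPackx893

/-! ### counting -/




/-! ### the structure `Geo` -/

section geo

variable {G : Type} [CommRing G] [CN G] {ι : Type*} {w : BW G} {C : ℝ} {Λ r0 R0 : ℕ}
  {loc : ι → G × G} {B Z : Set (G × G)}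


end geo

/-! ### the condition on `Γ` and the first order constant -/

/-- condition on `Γ` -/
def GamOK (C : ℝ) (D L : ℕ) (Γ : ℝ≥0∞) : Prop :=
  Γ ≠ ∞ ∧ 8 * ((3 * ENNReal.ofReal (1 + 4 * EE C D)) ^ 2 * (((2 * L + 3) ^ 2 : ℕ) : ℝ≥0∞)) ≤ Γ

/-- constant of the first order quantities -/
def CFc (C : ℝ) (D L : ℕ) (CX : ℝ≥0∞) : ℝ≥0∞ :=
  (1 + 3 * ENNReal.ofReal (1 + 4 * EE C D) + 2 * (3 * CX)) * (((2 * L + 3) ^ 2 : ℕ) : ℝ≥0∞)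

theorem CFc_ne_top {C : ℝ} {D L : ℕ} {CX : ℝ≥0∞} (h : CX ≠ ∞) : CFc C D L CX ≠ ∞ := by
  unfold CFc
  refine ENNReal.mul_ne_top (ENNReal.add_ne_top.2 ⟨ENNReal.add_ne_top.2 ⟨ENNReal.one_ne_top,
    ENNReal.mul_ne_top (by norm_num) ENNReal.ofReal_ne_top⟩, ENNReal.mul_ne_top (by norm_num)
    (ENNReal.mul_ne_top (by norm_num) h)⟩) (ENNReal.natCast_ne_top _)

theorem GamOK.mono {C : ℝ} {D L : ℕ} {Γ Γ' : ℝ≥0∞} (h : GamOK C D L Γ) (hΓ : Γ ≤ Γ')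
    (ht : Γ' ≠ ∞) : GamOK C D L Γ' := ⟨ht, h.2.trans hΓ⟩

theorem GamOK.sq_le {C : ℝ} {D L : ℕ} {Γ : ℝ≥0∞} (h : GamOK C D L Γ) :
    (3 * ENNReal.ofReal (1 + 4 * EE C D)) ^ 2 ≤ Γ := by
  refine le_trans ?_ h.2
  have h1 : (1 : ℝ≥0∞) ≤ (((2 * L + 3) ^ 2 : ℕ) : ℝ≥0∞) := by
    exact_mod_cast Nat.one_le_pow _ _ (by omega)
  calc (3 * ENNReal.ofReal (1 + 4 * EE C D)) ^ 2
      = 1 * ((3 * ENNReal.ofReal (1 + 4 * EE C D)) ^ 2 * 1) := by ring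
    _ ≤ _ := mul_le_mul' (by norm_num) (mul_le_mul' le_rfl h1)

theorem GamOK.small {C : ℝ} {D L : ℕ} {Γ : ℝ≥0∞} (h : GamOK C D L Γ) :
    (3 * ENNReal.ofReal (1 + 4 * EE C D)) ^ 2 * Γ⁻¹ * (((2 * L + 3) ^ 2 : ℕ) : ℝ≥0∞) ≤ 1 / 8 := by
  have h3 : (3 * ENNReal.ofReal (1 + 4 * EE C D)) ^ 2 * (((2 * L + 3) ^ 2 : ℕ) : ℝ≥0∞) ≤
      Γ * (1 / 8) := by
    calc (3 * ENNReal.ofReal (1 + 4 * EE C D)) ^ 2 * (((2 * L + 3) ^ 2 : ℕ) : ℝ≥0∞)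
        = (8 * (1 / 8)) * ((3 * ENNReal.ofReal (1 + 4 * EE C D)) ^ 2 *
          (((2 * L + 3) ^ 2 : ℕ) : ℝ≥0∞)) := by
          rw [one_div, ENNReal.mul_inv_cancel (by norm_num) (by norm_num), one_mul]
      _ = 8 * ((3 * ENNReal.ofReal (1 + 4 * EE C D)) ^ 2 *
          (((2 * L + 3) ^ 2 : ℕ) : ℝ≥0∞)) * (1 / 8) := by ring
      _ ≤ _ := mul_le_mul' h.2 le_rfl
  calc (3 * ENNReal.ofReal (1 + 4 * EE C D)) ^ 2 * Γ⁻¹ * (((2 * L + 3) ^ 2 : ℕ) : ℝ≥0∞)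
      = ((3 * ENNReal.ofReal (1 + 4 * EE C D)) ^ 2 * (((2 * L + 3) ^ 2 : ℕ) : ℝ≥0∞)) * Γ⁻¹ := by
        ring
    _ ≤ (Γ * (1 / 8)) * Γ⁻¹ := mul_le_mul' h3 le_rfl
    _ = Γ * Γ⁻¹ * (1 / 8) := by ring
    _ ≤ 1 * (1 / 8) := mul_le_mul' (ENNReal.mul_inv_le_one _) le_rfl
    _ = 1 / 8 := one_mul _

/-- the condition on `Γ` holds for large `Γ` -/
theorem exists_gam (C : ℝ) (D L : ℕ) :
    ∃ Γ0 : ℝ≥0∞, Γ0 ≠ ∞ ∧ ∀ Γ, Γ0 ≤ Γ → Γ ≠ ∞ → GamOK C D L Γ :=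
  ⟨8 * ((3 * ENNReal.ofReal (1 + 4 * EE C D)) ^ 2 * (((2 * L + 3) ^ 2 : ℕ) : ℝ≥0∞)),
    ENNReal.mul_ne_top (by norm_num) (ENNReal.mul_ne_top (ENNReal.pow_ne_top
      (ENNReal.mul_ne_top (by norm_num) ENNReal.ofReal_ne_top)) (ENNReal.natCast_ne_top _)),
    fun _ h ht => ⟨ht, h⟩⟩

/-! ### `StepOK` -/

section step

variable {G : Type} [CommRing G] [CN G] [DecidableEq G] {ι : Type*}
variable {w : BW G} {C : ℝ} {Λ r0 R0 D l k0 n : ℕ} {loc : ι → G × G} {B Z Ac : Set (G × G)}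
  {a a' : ℝ}

/-- **`StepOK` of `Comp2_889`** for a system whose covariance is `slC`, on a composite background -/
theorem stepOK_of_geo [Fintype ι] {Nm : ℕ} (hL : BigL C D Nm (1 / 8) (2 ^ l))
    (H : Geo w C Λ r0 R0 loc B Z Ac) {M K : ℕ} (F : FRD 16 M K) (hM : MM + 1 ≤ M)
    (hw : ∀ z j, |w z j| ≤ 1) {S : Sys (G × G) (Fld G)} (hS : S.S n = slC F w l k0 n)
    {Γ CX : ℝ≥0∞} (hΓ : GamOK C D (2 ^ l) Γ) {ac em : Finset (G × G) → Prop}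
    {Rc : ℕ} (hLΛ : 2 ^ l ≤ Λ) (hr0 : r0 ≤ rr l k0 n) (hR : 32 * rr l k0 (n + 1) ≤ R0)
    (ha : 0 < a) (ha2 : a' ≤ 2 * a) (hcW : W0Sx897.cW0 F l k0 n ≤ a')
    (hact : ∀ U, ac U → ∀ x ∈ U, x ∈ Ac)
    (hcon : ∀ U, ac U → Packx915.Conn fd Rc U)
    (hRc : 4 * Rc + 3 * rr l k0 n + 2 ≤ rr l k0 (n + 1))
    (hsep : ∀ i j, i ≠ j → 2 * (rr l k0 (n + 1) + D * rr l k0 n) < fd (loc i) (loc j))
    (hnear : ∀ U, ac U → size (rr l k0 n) U ≤ 1 → ¬ em U → ∃ x ∈ U,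
      (∃ y ∈ B, fd y x + rr l k0 n ≤ D * rr l k0 n) ∨
      (∃ z ∈ Z, fd z x + rr l k0 n ≤ D * rr l k0 n) ∨
      ∃ i, fd (loc i) x + rr l k0 n ≤ D * rr l k0 n)
    (hNb : DCount fd B (rr l k0 (n + 1) + D * rr l k0 n) (rr l k0 n) (8 * (2 ^ l + D) + 1))
    (hNm : DCount fd Z (rr l k0 (n + 1) + D * rr l k0 n) (rr l k0 n) Nm)
    (hX : XBd w a a' (rr l k0 n) (rr l k0 (n + 1)) ac S n CX) :
    StepOK S w Γ n a a' (rr l k0 n) (rr l k0 (n + 1)) ac em (1 / 4) (CFc C D (2 ^ l) CX) := by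
  have hr : 0 < rr l k0 n := rr_pos l k0 n
  have hcp : 0 < W0Sx897.cW0 F l k0 n := W0Sx897.cW0_pos F l k0 n
  have ha' : 0 < a' := lt_of_lt_of_le hcp hcW
  have hE := EE_pos H.one_le D
  have hc3 : (1 : ℝ≥0∞) ≤ 3 := by norm_num
  have hdiv : rr l k0 (n + 1) / rr l k0 n = 2 ^ l := by
    rw [rr_succ]; exact Nat.mul_div_cancel _ hr
  refine ⟨Kd, inferInstance, dset loc B Z, fun _ => D * rr l k0 n,
    dN (8 * (2 ^ l + D) + 1) Nm, dq (EE C D) (Real.sqrt (1 / (2 ^ l : ℕ))),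
    (3 * ENNReal.ofReal (1 + 4 * EE C D)) ^ 2 * Γ⁻¹, ENNReal.ofReal (1 + 4 * EE C D), CX, ?_, hX,
    ?_, ?_⟩
  · rw [hS, rr_succ]
    rw [rr_succ] at hR hRc hNb hNm
    refine RegIx893.Geo.dstepL hL H (W0Sx897.gramS F w hw l k0 n) hLΛ hr0 hR hr ha ha'.le ha2 (fun U _ => ?_)
      hact hcon hRc (fun i j hij => ?_) hnear hNb hNm hΓ.1 hc3 hΓ.sq_le
    · rw [← rr_succ]
      exact W0Sx897.w0S F hM w hw l k0 n hcW U
    · rw [← rr_succ]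
      exact hsep i j hij
  · unfold kapD nn2
    rw [hdiv]
    have h1 := hΓ.small
    have h2 := hL.sum_le (r := rr l k0 n) (Nb := 8 * (2 ^ l + D) + 1) H.one_le hr le_rfl
    refine (add_le_add h1 h2).trans (le_of_eq ?_)
    rw [ENNReal.ofReal_div_of_pos (by norm_num), ENNReal.ofReal_one, ENNReal.ofReal_ofNat,
      ← ENNReal.add_div, ENNReal.div_eq_div_iff (by norm_num) (by norm_num) (by norm_num)
      (by norm_num)]
    norm_num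
  · unfold cF nn2 CFc
    rw [hdiv]
    refine mul_le_mul' (add_le_add (add_le_add ?_ le_rfl) le_rfl) le_rfl
    calc (3 * ENNReal.ofReal (1 + 4 * EE C D)) ^ 2 * Γ⁻¹ ≤ Γ * Γ⁻¹ := mul_le_mul' hΓ.sq_le le_rfl
      _ ≤ 1 := ENNReal.mul_inv_le_one _

end step

end Crest.Agent.R165.WPackx893
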