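import Crest.Agent.R165.EXbr0_936_Mg
import Crest.Agent.R165.Sq4_54
import Crest.Agent.R165.ModeT_841
import Crest.Agent.R158.Pv1_470
import Crest.Agent.R165.Cl7_722
import Mathlib
import Crest.Agent.R165.EXb4_811
import Crest.Agent.R165.LimR_610
import Crest.Agent.R165.EXb1_811
import Crest.Agent.R165.RIface_891
import Crest.Agent.R165.EXb3_811
import Crest.Agent.R165.Lim2_943
import Crest.Agent.R165.GeoCo_838
import Crest.Agent.R165.WPack_893
import Crest.Agent.R165.XBd_915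
import Crest.Agent.R165.HNear_485
import Crest.Agent.R165.Const_891
import Crest.Agent.R165.BkFin_806
import Crest.Agent.R165.GSysOK_439
import Crest.Agent.R165.Out_683

-- ▼ part R165/BxG_797
section

/-!
# Row 165 (S0250), block R: LEAF EX AT A BRANCH VERTEX (helper797)

`exbr : ∃ C, 0 ≤ C ∧ RIfx891.EXbr C`, unconditional.
With the limits of helper943/797, the square trick of helper54 (no concentration), the sampling of
the mode of helper841 and the reduction and transfer lemmas of helper936.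
-/

set_option autoImplicit false

noncomputable section

namespace Crest.Agent.R165.Bxx797

open Finset Filter Topology
open Crest.Agent.R165.Tr1x40 hiding pt
open Crest.Agent.R165.Campx891 (q q_pos q_le_one q_pow_le)
open Crest.Agent.R165.RIfx891

theorem isPlusOn_w0 (x : Face) (r : ℝ) : IsPlusOn w0 x r := fun f _ h => Or.inl (w0_sq f h)

/-- no concentration at a branch vertex -/
theorem ncbr : ∃ K : ℝ, 0 ≤ K ∧ NCbr K := by
  refine ⟨136 * 3000000000 + 4, by norm_num, ?_⟩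
  intro e ρ t ht htρ he
  have hρ0 : 0 < ρ := by linarith
  have hmono : NB 0 t e ^ 2 ≤ NB 0 ρ e ^ 2 :=
    pow_le_pow_left₀ (apply_nonneg _ _) (NB_mono 0 htρ e) 2
  have hN : 0 ≤ NB 0 ρ e ^ 2 := sq_nonneg _
  have htr : 0 ≤ t / ρ := by positivity
  by_cases h1 : 4 * t ≤ ρ
  · have h2 := EXbr0x936.ball_sq (C := 3000000000) (by norm_num) Sqx54.sq811 sym_w0 ht
      (by linarith : 2 * t ≤ ρ) (by linarith) (isPlusOn_w0 0 ρ) he
    refine h2.trans (mul_le_mul_of_nonneg_right ?_ hN)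
    linarith
  · push Not at h1
    have h2 : 1 ≤ 4 * (t / ρ) := by
      rw [← mul_div_assoc, one_le_div hρ0]; exact h1.le
    calc NB 0 t e ^ 2 ≤ 1 * NB 0 ρ e ^ 2 := by rw [one_mul]; exact hmono
      _ ≤ (136 * 3000000000 + 4) * (t / ρ) * NB 0 ρ e ^ 2 :=
          mul_le_mul_of_nonneg_right (by linarith) hN

theorem norm_sq_le_of {z a : ℂ} {C τ : ℝ} (h : ‖a‖ ≤ LL C * Real.sqrt ‖z‖)
    (hz : ‖z‖ ≤ 2 * τ) : ‖a‖ ^ 2 ≤ 2 * LL C ^ 2 * τ := by
  have h1 : ‖a‖ ^ 2 ≤ (LL C * Real.sqrt ‖z‖) ^ 2 := pow_le_pow_left₀ (norm_nonneg _) h 2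
  rw [mul_pow, Real.sq_sqrt (norm_nonneg _)] at h1
  nlinarith [sq_nonneg (LL C)]

/-- **EX at a branch vertex, sequence form** -/
theorem exbrSeq : ∃ C : ℝ, 0 ≤ C ∧ EXbrSeq C := by
  obtain ⟨K, hK0, hK⟩ := ncbr
  have hq := q_pos
  set C0 : ℝ := 8 * 2700 ^ 2 * K with hC0
  have hC00 : 0 ≤ C0 := by positivity
  set B : ℝ := 2 * LL C0 ^ 2 with hB
  have hB0 : 0 ≤ B := by positivity
  refine ⟨Real.sqrt K + 6 * Real.sqrt B + 32, by positivity, ?_⟩
  intro U r hr e hex hnorm m η hη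
  have hsK := Real.sqrt_nonneg K
  have hsB := Real.sqrt_nonneg B
  constructor
  · filter_upwards [hex, hnorm, hr.eventually_gt_atTop 0,
      hr.eventually_ge_atTop (1 / q ^ (2 * m))] with n he hn hr0 hr1
    have ht1 : 1 ≤ r n * q ^ (2 * m) := by
      rw [div_le_iff₀ (by positivity)] at hr1; exact hr1
    have ht2 : r n * q ^ (2 * m) ≤ r n :=
      mul_le_of_le_one_right hr0.le (pow_le_one₀ hq.le q_le_one)
    have h1 := hK (e n) (r n) (r n * q ^ (2 * m)) ht1 ht2 he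
    have h2 : NB 0 (r n) (e n) ^ 2 ≤ 1 := by
      have := apply_nonneg (NB 0 (r n)) (e n)
      nlinarith
    have e1 : r n * q ^ (2 * m) / r n = (q ^ m) ^ 2 := by
      rw [mul_div_assoc, mul_comm, div_mul_cancel₀ _ hr0.ne', ← pow_mul, mul_comm]
    rw [e1] at h1
    have h3 : NB 0 (r n * q ^ (2 * m)) (e n) ^ 2 ≤ (Real.sqrt K * q ^ m) ^ 2 := by
      rw [mul_pow, Real.sq_sqrt hK0]
      refine h1.trans ?_
      have : 0 ≤ K * (q ^ m) ^ 2 := by positivity
      nlinarith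
    have h4 : NB 0 (r n * q ^ (2 * m)) (e n) ≤ Real.sqrt K * q ^ m :=
      (abs_le_of_sq_le_sq' h3 (by positivity)).2
    have h5 : 0 ≤ (6 * Real.sqrt B + 32) * q ^ m := by positivity
    nlinarith
  · by_cases hm : m ≤ 3
    · filter_upwards [hnorm, hr.eventually_gt_atTop 0] with n hn hr0
      refine ⟨0, ?_⟩
      rw [zero_smul, sub_zero]
      have ht2 : r n * q ^ (2 * m) ≤ r n :=
        mul_le_of_le_one_right hr0.le (pow_le_one₀ hq.le q_le_one)
      have h1 := (NB_mono 0 ht2 (e n)).trans hn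
      have h2 : q ^ 10 ≤ q ^ (3 * m) := q_pow_le (by omega)
      have h3 : q ^ 10 = 1 / 32 := by
        have : q ^ 10 = (q ^ 2) ^ 5 := by ring
        rw [this, EXbr0x936.q_sq]; norm_num
      have h4 : 0 ≤ (Real.sqrt K + 6 * Real.sqrt B) * q ^ (3 * m) := by positivity
      nlinarith
    · push Not at hm
      have hτ : q ^ (2 * m) < 1 / 8 := by
        have h2 : q ^ (2 * m) ≤ q ^ 8 := q_pow_le (by omega)
        have h3 : q ^ 8 = 1 / 16 := by
          have : q ^ 8 = (q ^ 2) ^ 4 := by ring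
          rw [this, EXbr0x936.q_sq]; norm_num
        linarith
      obtain ⟨F1, F2, H⟩ := exists_charts hr hex hnorm hK0 hK
      obtain ⟨g, -, h1, h2⟩ := H.exists_g hC00
      have hg : g.im = 0 := H.g_real hr hex h1 h2
      have hg' : ((g.re : ℝ) : ℂ) = g := Complex.ext (by simp) (by simp [hg])
      have hnz : ∀ z : ℂ, |z.re| ≤ q ^ (2 * m) → |z.im| ≤ q ^ (2 * m) →
          ‖z‖ ≤ 2 * q ^ (2 * m) := by
        intro z a b
        have := Complex.norm_le_abs_re_add_abs_im z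
        linarith
      have hb : ∀ z : ℂ, |z.re| ≤ q ^ (2 * m) → |z.im| ≤ q ^ (2 * m) →
          z ∈ Metric.ball (0 : ℂ) 1 := by
        intro z a b
        rw [mem_ball_zero_iff]
        have := hnz z a b
        linarith
      have NC : ∀ᶠ n in (U : Filter ℕ), ∀ t, 1 ≤ t → 2 * t ≤ r n →
          NB 0 t (e n) ^ 2 ≤ K * (t / r n) := by
        filter_upwards [hex, hnorm, hr.eventually_gt_atTop 0] with n he hn hr0 t ht1 ht2
        have a1 := hK (e n) (r n) t ht1 (by linarith) he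
        have a2 : NB 0 (r n) (e n) ^ 2 ≤ 1 := by
          have := apply_nonneg (NB 0 (r n)) (e n)
          nlinarith
        have a3 : 0 ≤ K * (t / r n) := by positivity
        nlinarith
      have key := BxTx936.one_mode (m := m) (B := B) (P0 := g.re) (K := K) (K' := 256) hr hB0
        (Ω1 := Ob1) (Ω2 := Ob2) (F1 := F1) (F2 := F2)
        (fun z hz a b => ⟨hz, hb z a b⟩) (fun z hz a b => ⟨hz, hb z a b⟩) H.lim1 H.lim2
        ModeTx841.modeLim hK0 (by norm_num) NC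
        (fun z hz a b => by
          rw [hg']
          exact norm_sq_le_of (h1 z ⟨hz, hb z a b⟩ (by have := hnz z a b; linarith)) (hnz z a b))
        (fun z hz a b => by
          rw [hg']
          exact norm_sq_le_of (h2 z ⟨hz, hb z a b⟩ (by have := hnz z a b; linarith)) (hnz z a b))
        hη
      filter_upwards [key] with n hn
      obtain ⟨κ, hκ⟩ := hn
      refine ⟨κ, hκ.trans ?_⟩
      have h4 : 0 ≤ (Real.sqrt K + 32) * q ^ (3 * m) := by positivity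
      nlinarith

/-- **LEAF EX, branch vertex** -/
theorem exbr : ∃ C : ℝ, 0 ≤ C ∧ EXbr C := by
  obtain ⟨C, hC, h⟩ := exbrSeq
  exact ⟨C, hC, EXbr0x936.EXbr_of_seq hC h⟩


end Crest.Agent.R165.Bxx797
end
end

-- ▼ part R158/Rf1_266
section

/-!
R158, block RF (helper266), part 1: local Schwarz reflection + Schwarz lemma (doc 1824, section 3 (ii)).

`refl_bound`: `g` bounded by `B`, continuous on the closed half disc minus the centre, holomorphic
inside, real on the real axis, `≥ 0` on the right, `≤ 0` on the left: `‖g z‖ ≤ B ‖z‖ / r`.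
-/

set_option autoImplicit false
open Complex Set Metric Filter Topology Function
open scoped ComplexConjugate

namespace Crest.Agent.R158.Rf266

/-- the closed half disc of radius `r` minus its centre -/
def Hd (r : ℝ) : Set ℂ := {z | 0 ≤ z.im ∧ z ≠ 0 ∧ ‖z‖ < r}

/-- the reflected function -/
noncomputable def rx (g : ℂ → ℂ) (z : ℂ) : ℂ := if 0 ≤ z.im then g z else conj (g (conj z))

theorem rx_up {g : ℂ → ℂ} {z : ℂ} (h : 0 ≤ z.im) : rx g z = g z := if_pos h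

theorem rx_dn {g : ℂ → ℂ} {r : ℝ} (hr : ∀ z ∈ Hd r, z.im = 0 → (g z).im = 0) {z : ℂ}
    (h : z.im ≤ 0) (h0 : z ≠ 0) (h1 : ‖z‖ < r) : rx g z = conj (g (conj z)) := by
  rcases h.lt_or_eq with h | h
  · exact if_neg (not_le.2 h)
  · have hc : conj z = z := conj_eq_iff_im.2 h
    rw [rx_up h.ge, hc]
    exact (conj_eq_iff_im.2 (hr z ⟨h.ge, h0, h1⟩ h)).symm

theorem rx_cont {g : ℂ → ℂ} {r : ℝ} (hg : ContinuousOn g (Hd r))
    (hr : ∀ z ∈ Hd r, z.im = 0 → (g z).im = 0) : ContinuousOn (rx g) (ball 0 r \ {0}) := by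
  have hU : IsOpen (ball (0 : ℂ) r \ {0}) := isOpen_ball.sdiff isClosed_singleton
  intro z hz
  have hUz := hU.mem_nhds hz
  have hz0 : z ≠ 0 := hz.2
  have hz1 : ‖z‖ < r := by simpa using hz.1
  refine ContinuousAt.continuousWithinAt ?_
  -- upper side
  have key : ∀ w : ℂ, 0 ≤ w.im → w ≠ 0 → ‖w‖ < r → ContinuousWithinAt g {x : ℂ | 0 ≤ x.im} w := by
    intro w h1 h2 h3
    have hw : ball (0 : ℂ) r \ {0} ∈ 𝓝 w := hU.mem_nhds ⟨by simpa using h3, h2⟩
    have := hg w ⟨h1, h2, h3⟩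
    refine (this.mono_of_mem_nhdsWithin ?_)
    rw [mem_nhdsWithin_iff_exists_mem_nhds_inter]
    refine ⟨_, hw, ?_⟩
    rintro x ⟨hx1, hx2⟩
    exact ⟨hx2, hx1.2, by simpa using hx1.1⟩
  rw [← continuousWithinAt_univ]
  have huniv : (univ : Set ℂ) = {x : ℂ | 0 ≤ x.im} ∪ {x : ℂ | x.im ≤ 0} := by
    ext x; simp [le_total]
  rw [huniv, continuousWithinAt_union]
  constructor
  · rcases le_or_gt 0 z.im with h | h
    · exact (key z h hz0 hz1).congr (fun x hx => rx_up hx) (rx_up h)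
    · -- z not in the closure of the upper half plane
      have : {x : ℂ | x.im < 0} ∈ 𝓝 z := (isOpen_lt continuous_im continuous_const).mem_nhds h
      refine ContinuousWithinAt.mono_of_mem_nhdsWithin (t := ∅) ?_ ?_
      · simp [ContinuousWithinAt]
      · rw [mem_nhdsWithin_iff_exists_mem_nhds_inter]
        exact ⟨_, this, fun x hx =>
          absurd (show (0 : ℝ) ≤ x.im from hx.2) (not_le.2 (show x.im < 0 from hx.1))⟩
  · rcases le_or_gt z.im 0 with h | h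
    · have hc : ContinuousWithinAt (fun x => conj (g (conj x))) {x : ℂ | x.im ≤ 0} z := by
        have h1 := key (conj z) (by simpa using h) (by simpa using hz0) (by simpa using hz1)
        have h2 : ContinuousWithinAt (fun x : ℂ => g (conj x)) {x : ℂ | x.im ≤ 0} z :=
          h1.comp (s := {x : ℂ | x.im ≤ 0}) (f := fun x : ℂ => conj x) continuous_conj.continuousWithinAt
            (fun x hx => by simpa using hx)
        exact continuous_conj.continuousAt.comp_continuousWithinAt h2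
      have hU' : ball (0 : ℂ) r \ {0} ∈ 𝓝 z := hUz
      refine hc.congr_of_eventuallyEq ?_ (rx_dn hr h hz0 hz1)
      filter_upwards [self_mem_nhdsWithin, mem_nhdsWithin_of_mem_nhds hU'] with x hx hx'
      exact rx_dn hr hx hx'.2 (by simpa using hx'.1)
    · have : {x : ℂ | 0 < x.im} ∈ 𝓝 z := (isOpen_lt continuous_const continuous_im).mem_nhds h
      refine ContinuousWithinAt.mono_of_mem_nhdsWithin (t := ∅) ?_ ?_
      · simp [ContinuousWithinAt]
      · rw [mem_nhdsWithin_iff_exists_mem_nhds_inter]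
        exact ⟨_, this, fun x hx =>
          absurd (show x.im ≤ 0 from hx.2) (not_le.2 (show 0 < x.im from hx.1))⟩

theorem rx_diff {g : ℂ → ℂ} {r : ℝ} (hg : ContinuousOn g (Hd r))
    (hd : DifferentiableOn ℂ g {z | 0 < z.im ∧ ‖z‖ < r})
    (hr : ∀ z ∈ Hd r, z.im = 0 → (g z).im = 0) : DifferentiableOn ℂ (rx g) (ball 0 r \ {0}) := by
  have hU : IsOpen (ball (0 : ℂ) r \ {0}) := isOpen_ball.sdiff isClosed_singleton
  have hV : IsOpen {z : ℂ | 0 < z.im ∧ ‖z‖ < r} :=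
    (isOpen_lt continuous_const continuous_im).inter (isOpen_lt continuous_norm continuous_const)
  refine Pv470.holo_off_hor hU (rx_cont hg hr) 0 ?_
  rintro z ⟨hz, hzi⟩
  have hz1 : ‖z‖ < r := by simpa using hz.1
  refine DifferentiableAt.differentiableWithinAt ?_
  rcases lt_or_gt_of_ne (show z.im ≠ 0 from hzi) with h | h
  · have h1 : DifferentiableAt ℂ g (conj z) :=
      hd.differentiableAt (hV.mem_nhds ⟨by simpa using h, by simpa using hz1⟩)
    have h2 : DifferentiableAt ℂ (fun x => conj (g (conj x))) z := by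
      have h3 := h1.hasDerivAt.conj_conj
      rw [conj_conj] at h3
      exact h3.differentiableAt
    refine h2.congr_of_eventuallyEq ?_
    filter_upwards [(isOpen_lt continuous_im continuous_const).mem_nhds h] with x hx
    exact if_neg (not_le.2 hx)
  · have h1 : DifferentiableAt ℂ g z := hd.differentiableAt (hV.mem_nhds ⟨h, hz1⟩)
    refine h1.congr_of_eventuallyEq ?_
    filter_upwards [(isOpen_lt continuous_const continuous_im).mem_nhds h] with x hx
    exact rx_up (le_of_lt hx)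


end Crest.Agent.R158.Rf266
end

-- ▼ part R165/Cl8_722
section

/-!
# Row 165, block R-f: the square on the real line; the half disc theorem
-/

open MeasureTheory Set Filter Topology Complex Metric
open scoped ENNReal NNReal ContDiff Convolution ComplexConjugate

namespace Crest.Agent.R165.Cl8x722

open Cl1x722 Cl2x722 Cl3x722 Cl4x722 Cl5x722 Cl6x722 Cl7x722

lemma dbar_of_hol {V : ℂ → ℂ} {z : ℂ} (h : DifferentiableAt ℂ V z) : dbar V z = 0 := by
  have : HasFDerivAt V ((fderiv ℂ V z).restrictScalars ℝ) z := h.hasFDerivAt.restrictScalars ℝ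
  rw [dbar, this.fderiv]
  have h2 : (fderiv ℂ V z) I = I * (fderiv ℂ V z) 1 := by
    have := (fderiv ℂ V z).map_smul I 1
    rw [smul_eq_mul, mul_one, smul_eq_mul] at this
    exact this
  simp only [ContinuousLinearMap.coe_restrictScalars', h2]
  linear_combination (1 / 2 * (fderiv ℂ V z) 1) * I_mul_I

/-- holomorphic times test function is `C^1` -/
lemma contDiff_hol_mul {B : Set ℂ} (hB : IsOpen B) {V χ : ℂ → ℂ} (hV : DifferentiableOn ℂ V B)
    (h1 : ContDiff ℝ 1 χ) (h3 : tsupport χ ⊆ B) : ContDiff ℝ 1 (fun z => V z * χ z) := by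
  rw [contDiff_iff_contDiffAt]
  intro z
  by_cases hz : z ∈ B
  · have h4 : ContDiffAt ℂ 1 V z := (hV.contDiffOn hB).contDiffAt (hB.mem_nhds hz)
    exact (h4.restrict_scalars ℝ).mul h1.contDiffAt
  · have hz' : z ∉ tsupport χ := fun h => hz (h3 h)
    have h5 : (fun z => V z * χ z) =ᶠ[𝓝 z] fun _ => 0 := by
      filter_upwards [(isClosed_tsupport χ).isOpen_compl.mem_nhds hz'] with w hw
      have : χ w = 0 := by
        by_contra h; exact hw (subset_tsupport _ h)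
      simp [this]
    exact contDiffAt_const.congr_of_eventuallyEq h5

/-- Green's formula for a holomorphic function against a test function. -/
theorem green_hol {B : Set ℂ} (hB : IsOpen B) {V χ : ℂ → ℂ} (hV : DifferentiableOn ℂ V B)
    (h1 : ContDiff ℝ 1 χ) (h2 : HasCompactSupport χ) (h3 : tsupport χ ⊆ B) :
    ∫ z in B ∩ HP, V z * dbar χ z = -(I / 2) * ∫ x : ℝ, V x * χ x := by
  rw [← green_half (contDiff_hol_mul hB hV h1 h3) h2.mul_left]
  have hd : ∀ z, dbar (fun z => V z * χ z) z = B.indicator (fun z => V z * dbar χ z) z := by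
    intro z
    by_cases hz : z ∈ B
    · have h4 := hV.differentiableAt (hB.mem_nhds hz)
      rw [indicator_of_mem hz, dbar_mul (h4.restrictScalars ℝ) (h1.differentiable one_ne_zero z),
        dbar_of_hol h4, zero_mul, zero_add]
    · rw [indicator_of_notMem hz]
      refine dbar_zero_of_notMem fun h => hz ?_
      exact h3 ((closure_mono fun w hw => right_ne_zero_of_mul hw) h)
  simp_rw [hd]
  rw [setIntegral_indicator hB.measurableSet, inter_comm]

/-- sign of a continuous function tested against bumps -/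
lemma nonneg_of_test {g : ℝ → ℝ} (hg : ContinuousOn g (Ioo (-1) 1))
    (h : ∀ χ : ℂ → ℝ, RTest (ball 0 1) χ → (∀ z, 0 ≤ χ z) → 0 ≤ ∫ x : ℝ, g x * χ x) :
    ∀ x ∈ Ioo (-1 : ℝ) 1, 0 ≤ g x := by
  intro x0 hx0
  by_contra hneg
  push Not at hneg
  have hcont : ContinuousAt g x0 := hg.continuousAt (Ioo_mem_nhds hx0.1 hx0.2)
  have hev : ∀ᶠ x in 𝓝 x0, g x < 0 := hcont.eventually (gt_mem_nhds hneg)
  obtain ⟨δ, hδ, hball⟩ := Metric.eventually_nhds_iff_ball.mp
    (hev.and (Ioo_mem_nhds hx0.1 hx0.2))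
  have hsub : closedBall (x0 : ℂ) (δ / 2) ⊆ ball (0 : ℂ) 1 := by
    intro z hz
    rw [mem_closedBall, dist_eq_norm] at hz
    rw [mem_ball_zero_iff]
    have h1 : |x0| + δ / 2 < 1 := by
      have ha := (hball (x0 + δ / 2) (by rw [mem_ball, Real.dist_eq]; simp; rw [abs_of_pos (by positivity)]; linarith)).2
      have hb := (hball (x0 - δ / 2) (by rw [mem_ball, Real.dist_eq]; simp; rw [abs_of_pos (by positivity)]; linarith)).2
      rcases abs_cases x0 with ⟨h, _⟩ | ⟨h, _⟩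
      · rw [h]; exact ha.2
      · rw [h]; linarith [hb.1]
    calc ‖z‖ = ‖(x0 : ℂ) + (z - x0)‖ := by congr 1; ring
      _ ≤ ‖(x0 : ℂ)‖ + ‖z - x0‖ := norm_add_le _ _
      _ ≤ |x0| + δ / 2 := by rw [norm_real, Real.norm_eq_abs]; linarith
      _ < 1 := h1
  let f : ContDiffBump (x0 : ℂ) := ⟨δ / 4, δ / 2, by positivity, by linarith⟩
  have hf : RTest (ball 0 1) f := ⟨f.contDiff, f.hasCompactSupport, by rw [f.tsupport_eq]; exact hsub⟩
  have hint := h f hf (fun z => f.nonneg)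
  have hcs : HasCompactSupport (fun x : ℝ => f (x : ℂ)) := by
    refine f.hasCompactSupport.comp_isClosedEmbedding ?_
    refine Isometry.isClosedEmbedding (Isometry.of_dist_eq fun a b => ?_)
    simp [dist_eq_norm, ← Complex.ofReal_sub]
  have hts : tsupport (fun x : ℝ => g x * f (x : ℂ)) ⊆ Ioo (-1) 1 := by
    have h2 : tsupport (fun x : ℝ => g x * f (x : ℂ)) ⊆ {x : ℝ | (x : ℂ) ∈ closedBall (x0 : ℂ) (δ / 2)} := by
      refine closure_minimal ?_ (isClosed_closedBall.preimage continuous_ofReal)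
      intro x hx
      have : f (x : ℂ) ≠ 0 := right_ne_zero_of_mul hx
      have h3 : (x : ℂ) ∈ Function.support f := this
      rw [f.support_eq] at h3
      exact ball_subset_closedBall h3
    intro x hx
    have h3 := hsub (h2 hx)
    rw [mem_ball_zero_iff, norm_real, Real.norm_eq_abs, abs_lt] at h3
    exact h3
  have hc : Continuous (fun x : ℝ => g x * f (x : ℂ)) := by
    refine ContinuousOn.continuous_of_tsupport_subset ?_ isOpen_Ioo hts
    exact hg.mul (f.continuous.comp continuous_ofReal).continuousOn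
  have hpos : 0 < ∫ x : ℝ, -(g x * f (x : ℂ)) := by
    refine (hc.neg).integral_pos_of_hasCompactSupport_nonneg_nonzero ?_ ?_ (x := x0) ?_
    · exact hcs.mul_left.neg
    · intro x
      simp only [Pi.zero_apply, Left.nonneg_neg_iff]
      by_cases hx : x ∈ ball x0 δ
      · exact mul_nonpos_of_nonpos_of_nonneg (hball x hx).1.le f.nonneg
      · have : f (x : ℂ) = 0 := by
          refine f.zero_of_le_dist ?_
          rw [mem_ball, Real.dist_eq, not_lt] at hx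
          have h5 : dist (x : ℂ) (x0 : ℂ) = |x - x0| := by
            rw [dist_eq_norm, ← Complex.ofReal_sub, norm_real, Real.norm_eq_abs]
          show δ / 2 ≤ _
          rw [h5]; linarith
        simp [this]
    · have : f (x0 : ℂ) = 1 := f.one_of_mem_closedBall (mem_closedBall_self (by positivity))
      simp only [this, mul_one]
      linarith
  rw [integral_neg] at hpos
  linarith

/-- The square: under the quadratic boundary relations the reflected square is holomorphic and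
nonnegative on the real line. -/
theorem square_hol {q : ℂ → ℂ}
    (hq : IntegrableOn q (ball 0 1 ∩ HP)) (hw : WDbar (ball 0 1 ∩ HP) q 0)
    (hre : ∀ χ : ℂ → ℝ, RTest (ball 0 1) χ → (∫ z in ball 0 1 ∩ HP, q z * dbar (cx χ) z).re = 0)
    (hpos : ∀ χ : ℂ → ℝ, RTest (ball 0 1) χ → (∀ z, 0 ≤ χ z) →
      0 ≤ (2 * I * ∫ z in ball 0 1 ∩ HP, q z * dbar (cx χ) z).re) :
    ∃ V : ℂ → ℂ, DifferentiableOn ℂ V (ball 0 1) ∧ (∀ᵐ z, z ∈ ball (0 : ℂ) 1 → refl q z = V z) ∧
      ∀ x : ℝ, x ∈ Ioo (-1 : ℝ) 1 → (V x).im = 0 ∧ 0 ≤ (V x).re := by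
  have hconj : ∀ z : ℂ, conj z ∈ ball (0 : ℂ) 1 ↔ z ∈ ball (0 : ℂ) 1 := by
    intro z; simp
  obtain ⟨hi, hwr⟩ := wdbar_refl isOpen_ball hconj hq hw hre
  obtain ⟨V, hV, hae⟩ := weyl isOpen_ball hi.locallyIntegrableOn hwr
  have hgreen : ∀ χ : ℂ → ℝ, RTest (ball 0 1) χ →
      ∫ z in ball 0 1 ∩ HP, q z * dbar (cx χ) z = -(I / 2) * ∫ x : ℝ, V x * cx χ x := by
    intro χ hχ
    have hc1 : ContDiff ℝ 1 (cx χ) := hχ.cx_smooth.of_le (by exact_mod_cast le_top)
    rw [← green_hol isOpen_ball hV hc1 hχ.cx_cpt hχ.cx_supp]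
    refine integral_congr_ae ?_
    rw [Filter.EventuallyEq, ae_restrict_iff' (measurableSet_ball.inter measurableSet_HP)]
    filter_upwards [hae] with z hz hz2
    rw [← hz hz2.1, refl_up hz2.2]
  have hVc : ContinuousOn (fun x : ℝ => V x) (Ioo (-1) 1) := by
    refine hV.continuousOn.comp continuous_ofReal.continuousOn ?_
    intro x hx
    rw [mem_ball_zero_iff, norm_real, Real.norm_eq_abs, abs_lt]; exact hx
  have hVi : ∀ χ : ℂ → ℝ, RTest (ball 0 1) χ → Integrable (fun x : ℝ => V x * cx χ x) := by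
    intro χ hχ
    have hts : tsupport (fun x : ℝ => V x * cx χ x) ⊆ Ioo (-1) 1 := by
      have h2 : tsupport (fun x : ℝ => V x * cx χ x) ⊆ {x : ℝ | (x : ℂ) ∈ tsupport (cx χ)} := by
        refine closure_minimal ?_ ((isClosed_tsupport _).preimage continuous_ofReal)
        intro x hx
        exact subset_tsupport _ (right_ne_zero_of_mul hx)
      intro x hx
      have h3 := hχ.cx_supp (h2 hx)
      rw [mem_ball_zero_iff, norm_real, Real.norm_eq_abs, abs_lt] at h3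
      exact h3
    have hc : Continuous (fun x : ℝ => V x * cx χ x) := by
      refine ContinuousOn.continuous_of_tsupport_subset ?_ isOpen_Ioo hts
      exact hVc.mul (hχ.cx_smooth.continuous.comp continuous_ofReal).continuousOn
    have hcs : HasCompactSupport (fun x : ℝ => V x * cx χ x) := by
      have : HasCompactSupport (fun x : ℝ => cx χ x) := by
        refine hχ.cx_cpt.comp_isClosedEmbedding ?_
        refine Isometry.isClosedEmbedding (Isometry.of_dist_eq fun a b => ?_)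
        simp [dist_eq_norm, ← Complex.ofReal_sub]
      exact this.mul_left
    exact hc.integrable_of_hasCompactSupport hcs
  have hreI : ∀ χ : ℂ → ℝ, RTest (ball 0 1) χ →
      (∫ x : ℝ, V x * cx χ x).re = ∫ x : ℝ, (V x).re * χ x := by
    intro χ hχ
    have := reCLM.integral_comp_comm (hVi χ hχ)
    rw [← reCLM_apply, ← this]
    refine integral_congr_ae (Eventually.of_forall fun x => ?_)
    simp [cx]
  have himI : ∀ χ : ℂ → ℝ, RTest (ball 0 1) χ →
      (∫ x : ℝ, V x * cx χ x).im = ∫ x : ℝ, (V x).im * χ x := by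
    intro χ hχ
    have := imCLM.integral_comp_comm (hVi χ hχ)
    rw [← imCLM_apply, ← this]
    refine integral_congr_ae (Eventually.of_forall fun x => ?_)
    simp [cx]
  refine ⟨V, hV, hae, ?_⟩
  have hi0 : ∀ χ : ℂ → ℝ, RTest (ball 0 1) χ → ∫ x : ℝ, (V x).im * χ x = 0 := by
    intro χ hχ
    have h1 := hre χ hχ
    rw [hgreen χ hχ] at h1
    rw [← himI χ hχ]
    simp at h1
    linarith
  have hr0 : ∀ χ : ℂ → ℝ, RTest (ball 0 1) χ → (∀ z, 0 ≤ χ z) →
      0 ≤ ∫ x : ℝ, (V x).re * χ x := by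
    intro χ hχ hχ0
    have h1 := hpos χ hχ hχ0
    rw [hgreen χ hχ] at h1
    rw [← hreI χ hχ]
    have h2 : 2 * I * (-(I / 2) * ∫ x : ℝ, V x * cx χ x) = ∫ x : ℝ, V x * cx χ x := by
      linear_combination (-(∫ x : ℝ, V x * cx χ x)) * I_mul_I
    rw [h2] at h1; exact h1
  have hA := nonneg_of_test (g := fun x : ℝ => (V x).re) (continuous_re.comp_continuousOn hVc)
    (fun χ hχ h0 => hr0 χ hχ h0)
  have hB := nonneg_of_test (g := fun x : ℝ => (V x).im) (continuous_im.comp_continuousOn hVc)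
    (fun χ hχ _ => (hi0 χ hχ).ge)
  have hC := nonneg_of_test (g := fun x : ℝ => -(V x).im)
    (continuous_im.comp_continuousOn hVc).neg
    (fun χ hχ _ => by
      have : ∫ x : ℝ, -(V x).im * χ x = 0 := by
        simp_rw [neg_mul]; rw [integral_neg, hi0 χ hχ, neg_zero]
      exact this.ge)
  intro x hx
  exact ⟨le_antisymm (by linarith [hC x hx]) (hB x hx), hA x hx⟩

end Crest.Agent.R165.Cl8x722
end

-- ▼ part R165/Cl9_722
section

/-!
# Row 165, block R-f: the half disc theorem (BD): reflection of the field itself and the estimates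
-/

open MeasureTheory Set Filter Topology Complex Metric
open scoped ENNReal NNReal ContDiff Convolution ComplexConjugate

namespace Crest.Agent.R165.Cl9x722

open Cl1x722 Cl2x722 Cl3x722 Cl4x722 Cl5x722 Cl6x722 Cl7x722 Cl8x722

/-- Continuous reflection up to and including the centre. -/
theorem rx_diff_full {g : ℂ → ℂ} (hg : ContinuousOn g {z : ℂ | 0 ≤ z.im ∧ ‖z‖ < 1})
    (hd : DifferentiableOn ℂ g {z | 0 < z.im ∧ ‖z‖ < 1})
    (hr : ∀ x : ℝ, x ∈ Ioo (-1 : ℝ) 1 → (g x).im = 0) :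
    DifferentiableOn ℂ (R158.Rf266.rx g) (ball 0 1) := by
  have hreal : ∀ z : ℂ, z.im = 0 → ‖z‖ < 1 → (g z).im = 0 := by
    intro z hz hz1
    have h1 : ((z.re : ℝ) : ℂ) = z := by apply Complex.ext <;> simp [hz]
    rw [← h1]
    refine hr _ ?_
    rw [← h1, norm_real, Real.norm_eq_abs, abs_lt] at hz1
    exact hz1
  have h1 : DifferentiableOn ℂ (R158.Rf266.rx g) (ball 0 1 \ {0}) := by
    refine R158.Rf266.rx_diff (hg.mono fun z hz => ⟨hz.1, hz.2.2⟩) hd ?_
    intro z hz hz0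
    exact hreal z hz0 hz.2.2
  have hcont : ContinuousAt (R158.Rf266.rx g) 0 := by
    have hopen : ball (0 : ℂ) 1 ∈ 𝓝 (0 : ℂ) := ball_mem_nhds _ one_pos
    have hg0 : ContinuousWithinAt g {z : ℂ | 0 ≤ z.im ∧ ‖z‖ < 1} 0 := hg 0 (by simp)
    have hup : ContinuousWithinAt (R158.Rf266.rx g) {z : ℂ | 0 ≤ z.im ∧ ‖z‖ < 1} 0 := by
      refine hg0.congr (fun z hz => R158.Rf266.rx_up hz.1) (R158.Rf266.rx_up (by simp))
    have hdn : ContinuousWithinAt (R158.Rf266.rx g) {z : ℂ | z.im ≤ 0 ∧ ‖z‖ < 1} 0 := by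
      have h2 : ContinuousWithinAt (fun z => conj (g (conj z))) {z : ℂ | z.im ≤ 0 ∧ ‖z‖ < 1} 0 := by
        have h3 : ContinuousWithinAt g {z : ℂ | 0 ≤ z.im ∧ ‖z‖ < 1} (conj (0 : ℂ)) := by
          rw [map_zero]; exact hg0
        have h4 : ContinuousWithinAt (fun z : ℂ => conj z) {z : ℂ | z.im ≤ 0 ∧ ‖z‖ < 1} 0 :=
          continuous_conj.continuousWithinAt
        have h5 := h3.comp h4 (fun z hz => ⟨by simpa using hz.1, by simpa using hz.2⟩)
        exact continuous_conj.continuousAt.comp_continuousWithinAt h5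
      have hval : ∀ z : ℂ, z.im ≤ 0 → ‖z‖ < 1 → R158.Rf266.rx g z = conj (g (conj z)) := by
        intro z hz hz1
        rcases hz.lt_or_eq with h | h
        · exact if_neg (not_le.2 h)
        · have hc : conj z = z := conj_eq_iff_im.2 h
          rw [R158.Rf266.rx_up h.ge, hc]
          exact (conj_eq_iff_im.2 (hreal z h hz1)).symm
      exact h2.congr (fun z hz => hval z hz.1 hz.2) (hval 0 (by simp) (by simp))
    have hU : ContinuousWithinAt (R158.Rf266.rx g)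
        ({z : ℂ | 0 ≤ z.im ∧ ‖z‖ < 1} ∪ {z : ℂ | z.im ≤ 0 ∧ ‖z‖ < 1}) 0 := hup.union hdn
    refine hU.continuousAt ?_
    filter_upwards [hopen] with z hz
    rw [mem_ball_zero_iff] at hz
    rcases le_total 0 z.im with h | h
    · left; exact ⟨h, hz⟩
    · right; exact ⟨h, hz⟩
  exact (differentiableOn_compl_singleton_and_continuousAt_iff (ball_mem_nhds _ one_pos)).mp
    ⟨h1, hcont⟩

lemma mem_closure_half {x : ℝ} (hx : x ∈ Ioo (-1 : ℝ) 1) : (x : ℂ) ∈ closure (ball (0 : ℂ) 1 ∩ HP) := by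
  have hx1 : (x : ℂ) ∈ ball (0 : ℂ) 1 := by
    rw [mem_ball_zero_iff, norm_real, Real.norm_eq_abs, abs_lt]; exact hx
  have ht : Tendsto (fun t : ℝ => (x : ℂ) + t * I) (𝓝[>] 0) (𝓝 (x : ℂ)) := by
    have : Continuous (fun t : ℝ => (x : ℂ) + t * I) := by fun_prop
    have h2 := this.tendsto 0
    simp only [ofReal_zero, zero_mul, add_zero] at h2
    exact h2.mono_left nhdsWithin_le_nhds
  refine mem_closure_of_tendsto ht ?_
  have h3 : ∀ᶠ t : ℝ in 𝓝[>] 0, (x : ℂ) + t * I ∈ ball (0 : ℂ) 1 :=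
    ht.eventually (isOpen_ball.mem_nhds hx1)
  filter_upwards [h3, self_mem_nhdsWithin] with t ht1 ht2
  refine ⟨ht1, ?_⟩
  show 0 < ((x : ℂ) + t * I).im
  simpa using ht2

/-- A holomorphic function on the half disc whose square extends holomorphically across the real
line, with nonnegative real values there, extends continuously with real values. -/
theorem limit_real {f V : ℂ → ℂ} (hf : DifferentiableOn ℂ f (ball 0 1 ∩ HP))
    (hV : DifferentiableOn ℂ V (ball 0 1)) (hsq : ∀ z ∈ ball 0 1 ∩ HP, f z ^ 2 = V z)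
    (hpos : ∀ x : ℝ, x ∈ Ioo (-1 : ℝ) 1 → (V x).im = 0 ∧ 0 ≤ (V x).re)
    {x : ℝ} (hx : x ∈ Ioo (-1 : ℝ) 1) :
    ∃ y : ℂ, y.im = 0 ∧ Tendsto f (𝓝[ball 0 1 ∩ HP] (x : ℂ)) (𝓝 y) := by
  have hx1 : (x : ℂ) ∈ ball (0 : ℂ) 1 := by
    rw [mem_ball_zero_iff, norm_real, Real.norm_eq_abs, abs_lt]; exact hx
  have hVc : ContinuousAt V x := (hV.differentiableAt (isOpen_ball.mem_nhds hx1)).continuousAt
  obtain ⟨him, hre⟩ := hpos x hx
  rcases hre.eq_or_lt with h0 | hp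
  · -- zero of the square
    refine ⟨0, by simp, ?_⟩
    have hV0 : V x = 0 := Complex.ext (by simpa using h0.symm) (by simpa using him)
    rw [tendsto_zero_iff_norm_tendsto_zero]
    have h1 : Tendsto (fun z => ‖V z‖) (𝓝[ball 0 1 ∩ HP] (x : ℂ)) (𝓝 0) := by
      have := (hVc.tendsto.norm).mono_left (nhdsWithin_le_nhds (s := ball 0 1 ∩ HP))
      rwa [hV0, norm_zero] at this
    have h2 : Tendsto (fun z => Real.sqrt ‖V z‖) (𝓝[ball 0 1 ∩ HP] (x : ℂ)) (𝓝 0) := by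
      have := (Real.continuous_sqrt.tendsto 0).comp h1
      rwa [Real.sqrt_zero] at this
    refine h2.congr' ?_
    filter_upwards [self_mem_nhdsWithin] with z hz
    rw [← hsq z hz, norm_pow, Real.sqrt_sq (norm_nonneg _)]
  · -- positive value
    have hev : ∀ᶠ z in 𝓝 (x : ℂ), 0 < (V z).re ∧ z ∈ ball (0 : ℂ) 1 :=
      ((continuous_re.continuousAt.comp hVc).eventually (lt_mem_nhds hp)).and
        (isOpen_ball.mem_nhds hx1)
    obtain ⟨δ, hδ, hball⟩ := Metric.eventually_nhds_iff_ball.mp hev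
    set g : ℂ → ℂ := fun z => exp (log (V z) / 2) with hg
    have hslit : ∀ z ∈ ball (x : ℂ) δ, V z ∈ slitPlane := fun z hz => Or.inl (hball z hz).1
    have hgsq : ∀ z ∈ ball (x : ℂ) δ, g z ^ 2 = V z := by
      intro z hz
      have hne : V z ≠ 0 := slitPlane_ne_zero (hslit z hz)
      simp only [hg]
      rw [← exp_nat_mul]
      have : ((2 : ℕ) : ℂ) * (log (V z) / 2) = log (V z) := by push_cast; ring
      rw [this, exp_log hne]
    have hgc : ContinuousOn g (ball (x : ℂ) δ) := by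
      have h1 : ContinuousOn V (ball (x : ℂ) δ) := hV.continuousOn.mono fun z hz => (hball z hz).2
      exact continuous_exp.comp_continuousOn ((h1.clog hslit).div_const 2)
    have hW : IsPreconnected (ball (x : ℂ) δ ∩ HP) := by
      refine ((convex_ball _ _).inter ?_).isPreconnected
      exact convex_halfSpace_im_gt 0
    have hsub : ball (x : ℂ) δ ∩ HP ⊆ ball 0 1 ∩ HP := fun z hz => ⟨(hball z hz.1).2, hz.2⟩
    have hor := hW.eq_or_eq_neg_of_sq_eq (f := f) (g := g)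
      (hf.continuousOn.mono hsub) (hgc.mono inter_subset_left)
      (fun z hz => by
        simp only [Pi.pow_apply]
        rw [hsq z (hsub hz), hgsq z hz.1])
      (fun {z} _ => exp_ne_zero _)
    have hxb : (x : ℂ) ∈ ball (x : ℂ) δ := mem_ball_self hδ
    have hgx : Tendsto g (𝓝[ball 0 1 ∩ HP] (x : ℂ)) (𝓝 (g x)) :=
      ((hgc.continuousAt (isOpen_ball.mem_nhds hxb)).tendsto).mono_left nhdsWithin_le_nhds
    have hgim : (g x).im = 0 := by
      simp only [hg]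
      have h5 : V x = ((V x).re : ℂ) := Complex.ext (by simp) (by simpa using him)
      rw [h5, ← ofReal_log hre]
      have : ((Real.log (V x).re : ℝ) : ℂ) / 2 = ((Real.log (V x).re / 2 : ℝ) : ℂ) := by push_cast; ring
      rw [this, ← ofReal_exp]; exact ofReal_im _
    have hmem : ball (x : ℂ) δ ∩ HP ∈ 𝓝[ball 0 1 ∩ HP] (x : ℂ) := by
      refine inter_mem (mem_nhdsWithin_of_mem_nhds (isOpen_ball.mem_nhds hxb)) ?_
      filter_upwards [self_mem_nhdsWithin] with z hz using hz.2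
    rcases hor with h | h
    · refine ⟨g x, hgim, hgx.congr' ?_⟩
      filter_upwards [hmem] with z hz
      exact (h hz).symm
    · refine ⟨-g x, by simp [hgim], hgx.neg.congr' ?_⟩
      filter_upwards [hmem] with z hz
      simpa using (h hz).symm

/-- **(BD), qualitative part.** -/
theorem half_disc_ext {F : ℂ → ℂ}
    (hF : MemLp F 2 (volume.restrict (ball 0 1 ∩ HP)))
    (hw : WDbar (ball 0 1 ∩ HP) F 0)
    (hre : ∀ χ : ℂ → ℝ, RTest (ball 0 1) χ →
      (∫ z in ball 0 1 ∩ HP, F z ^ 2 * dbar (cx χ) z).re = 0)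
    (hpos : ∀ χ : ℂ → ℝ, RTest (ball 0 1) χ → (∀ z, 0 ≤ χ z) →
      0 ≤ (2 * I * ∫ z in ball 0 1 ∩ HP, F z ^ 2 * dbar (cx χ) z).re) :
    ∃ G : ℂ → ℂ, DifferentiableOn ℂ G (ball 0 1) ∧
      (∀ᵐ z, z ∈ ball (0 : ℂ) 1 ∩ HP → F z = G z) ∧
      ∀ z ∈ ball (0 : ℂ) 1, G (conj z) = conj (G z) := by
  have hUo : IsOpen (ball (0 : ℂ) 1 ∩ HP) := isOpen_ball.inter isOpen_HP
  have hfin : IsFiniteMeasure (volume.restrict (ball (0 : ℂ) 1 ∩ HP)) := by
    refine ⟨?_⟩
    rw [Measure.restrict_apply_univ]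
    exact (measure_mono inter_subset_left).trans_lt measure_ball_lt_top
  have hFi : IntegrableOn F (ball 0 1 ∩ HP) := hF.integrable (by norm_num)
  obtain ⟨f, hf, hFf⟩ := weyl hUo hFi.locallyIntegrableOn hw
  have hq : IntegrableOn (fun z => F z ^ 2) (ball 0 1 ∩ HP) := by
    have := hF.integrable_norm_pow (p := 2) (by norm_num)
    have h2 : AEStronglyMeasurable (fun z => F z ^ 2) (volume.restrict (ball 0 1 ∩ HP)) :=
      hF.aestronglyMeasurable.pow 2
    refine (integrable_norm_iff h2).mp ?_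
    simpa [norm_pow] using this
  have hqw : WDbar (ball 0 1 ∩ HP) (fun z => F z ^ 2) 0 := by
    refine wdbar_of_hol hUo (v := fun z => f z ^ 2) (hf.pow 2) ?_
    filter_upwards [hFf] with z hz hz2
    rw [hz hz2]
  obtain ⟨V, hV, hVae, hVpos⟩ := square_hol hq hqw hre hpos
  have hsq : ∀ z ∈ ball (0 : ℂ) 1 ∩ HP, f z ^ 2 = V z := by
    have hae : (fun z => f z ^ 2) =ᵐ[volume.restrict (ball 0 1 ∩ HP)] V := by
      rw [Filter.EventuallyEq, ae_restrict_iff' hUo.measurableSet]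
      filter_upwards [hFf, hVae] with z hz1 hz2 hz
      have h3 := hz2 hz.1
      rw [refl_up hz.2] at h3
      rw [← h3, hz1 hz]
    exact fun z hz => Measure.eqOn_open_of_ae_eq hae hUo (hf.continuousOn.pow 2)
      (hV.continuousOn.mono inter_subset_left) hz
  have hlim := fun {x : ℝ} (hx : x ∈ Ioo (-1 : ℝ) 1) => limit_real hf hV hsq hVpos hx
  set g : ℂ → ℂ := extendFrom (ball 0 1 ∩ HP) f with hg
  have hcl : ∀ z : ℂ, 0 ≤ z.im → ‖z‖ < 1 → z ∈ closure (ball (0 : ℂ) 1 ∩ HP) := by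
    intro z hz hz1
    rcases hz.eq_or_lt with h | h
    · have h1 : ((z.re : ℝ) : ℂ) = z := by apply Complex.ext <;> simp [← h]
      rw [← h1]
      refine mem_closure_half ?_
      rw [← h1, norm_real, Real.norm_eq_abs, abs_lt] at hz1
      exact hz1
    · exact subset_closure ⟨mem_ball_zero_iff.mpr hz1, h⟩
  have hlimz : ∀ z : ℂ, 0 ≤ z.im → ‖z‖ < 1 →
      ∃ y, Tendsto f (𝓝[ball 0 1 ∩ HP] z) (𝓝 y) := by
    intro z hz hz1
    rcases hz.eq_or_lt with h | h
    · have h1 : ((z.re : ℝ) : ℂ) = z := by apply Complex.ext <;> simp [← h]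
      rw [← h1, norm_real, Real.norm_eq_abs, abs_lt] at hz1
      obtain ⟨y, -, hy⟩ := hlim hz1
      rw [← h1]; exact ⟨y, hy⟩
    · exact ⟨f z, (hf.continuousOn z ⟨mem_ball_zero_iff.mpr hz1, h⟩)⟩
  have hgc : ContinuousOn g {z : ℂ | 0 ≤ z.im ∧ ‖z‖ < 1} :=
    continuousOn_extendFrom (fun z hz => hcl z hz.1 hz.2) (fun z hz => hlimz z hz.1 hz.2)
  have hgf : ∀ z ∈ ball (0 : ℂ) 1 ∩ HP, g z = f z := by
    intro z hz
    exact extendFrom_eq (subset_closure hz) (hf.continuousOn z hz)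
  have hgd : DifferentiableOn ℂ g {z | 0 < z.im ∧ ‖z‖ < 1} := by
    have hset : {z : ℂ | 0 < z.im ∧ ‖z‖ < 1} = ball (0 : ℂ) 1 ∩ HP := by
      ext z; simp only [HP, mem_inter_iff, mem_ball_zero_iff]; exact And.comm
    rw [hset]
    exact hf.congr hgf
  have hgr : ∀ x : ℝ, x ∈ Ioo (-1 : ℝ) 1 → (g x).im = 0 := by
    intro x hx
    obtain ⟨y, hy0, hy⟩ := hlim hx
    rw [hg, extendFrom_eq (mem_closure_half hx) hy]
    exact hy0
  have hG := rx_diff_full hgc hgd hgr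
  refine ⟨R158.Rf266.rx g, hG, ?_, ?_⟩
  · filter_upwards [hFf] with z hz hz2
    rw [hz hz2, R158.Rf266.rx_up (le_of_lt hz2.2), hgf z hz2]
  · intro z hz
    rw [mem_ball_zero_iff] at hz
    rcases lt_trichotomy z.im 0 with h | h | h
    · have h2 : 0 ≤ (conj z).im := by simp [h.le]
      rw [R158.Rf266.rx_up h2]
      have : R158.Rf266.rx g z = conj (g (conj z)) := if_neg (not_le.2 h)
      rw [this, conj_conj]
    · have hc : conj z = z := conj_eq_iff_im.2 h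
      rw [hc, R158.Rf266.rx_up h.ge]
      have h1 : ((z.re : ℝ) : ℂ) = z := by apply Complex.ext <;> simp [h]
      have h3 : (g z).im = 0 := by
        rw [← h1]
        refine hgr _ ?_
        rw [← h1, norm_real, Real.norm_eq_abs, abs_lt] at hz
        exact hz
      exact (conj_eq_iff_im.2 h3).symm
    · have h2 : ¬ 0 ≤ (conj z).im := by simp [h]
      rw [R158.Rf266.rx_up h.le]
      have : R158.Rf266.rx g (conj z) = conj (g (conj (conj z))) := if_neg h2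
      rw [this, conj_conj]

end Crest.Agent.R165.Cl9x722
end

-- ▼ part R165/Cl10_722
section

/-!
# Row 165, block R-f: estimates for holomorphic functions in the unit disc, (BD) with constants
-/

open MeasureTheory Set Filter Topology Complex Metric
open scoped ENNReal NNReal ContDiff Convolution ComplexConjugate

namespace Crest.Agent.R165.Cl10x722

open Cl1x722 Cl2x722 Cl3x722 Cl4x722 Cl5x722 Cl6x722 Cl7x722 Cl8x722 Cl9x722

/-- Interior bounds in terms of the `L¹` norm. -/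
theorem hol_bounds : ∃ C : ℝ, 0 < C ∧ ∀ V : ℂ → ℂ, DifferentiableOn ℂ V (ball 0 1) →
    IntegrableOn V (ball 0 1) → ∀ z ∈ ball (0 : ℂ) (1 / 4),
      ‖V z‖ ≤ C * ∫ w in ball 0 1, ‖V w‖ ∧ ‖V z - V 0‖ ≤ C * ‖z‖ * ∫ w in ball 0 1, ‖V w‖ := by
  obtain ⟨ψ, h1, h2, h3, h4, h5, -⟩ := exists_cutoff (0 : ℂ) (r := 1 / 2) (R := 3 / 4)
    (by norm_num) (by norm_num)
  have h1' : ContDiff ℝ 1 ψ := h1.of_le (by exact_mod_cast le_top)
  obtain ⟨M, hM⟩ := (hasCompactSupport_dbar h2).exists_bound_of_continuous (continuous_dbar h1')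
  have hM0 : 0 ≤ M := (norm_nonneg _).trans (hM 0)
  have hsub : closedBall (0 : ℂ) (3 / 4) ⊆ ball 0 1 := closedBall_subset_ball (by norm_num)
  set C1 : ℝ := (Real.pi * (1 / 4))⁻¹ * M with hC1
  set C2 : ℝ := (Real.pi * (1 / 4) ^ 2)⁻¹ * M with hC2
  have hC10 : 0 ≤ C1 := by positivity
  have hC20 : 0 ≤ C2 := by positivity
  refine ⟨C1 + C2 + 1, by positivity, ?_⟩
  intro V hV hVi z hz
  have hw : WDbar (ball 0 1) V 0 := wdbar_of_hol isOpen_ball hV (Eventually.of_forall fun _ _ => rfl)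
  have hg : LocallyIntegrableOn (0 : ℂ → ℂ) (ball 0 1) := (locallyIntegrable_zero).locallyIntegrableOn _
  have hrep := rep hVi.locallyIntegrableOn hg hw h1 h2 (h3.trans hsub)
  set k : ℂ → ℂ := fun w => V w * dbar ψ w + (0 : ℂ → ℂ) w * ψ w with hk
  have hkeq : k = fun w => V w * dbar ψ w := by funext w; simp [hk]
  have hki : Integrable k := by
    rw [hkeq]
    exact integrable_mul_test hVi.locallyIntegrableOn (continuous_dbar h1')
      (hasCompactSupport_dbar h2) ((tsupport_dbar_subset ψ).trans (h3.trans hsub))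
  have hk0 : ∀ w ∈ ball (0 : ℂ) (1 / 2), k w = 0 := by
    intro w hw; rw [hkeq]; simp [h5 w hw]
  have hVk : ∀ w ∈ ball (0 : ℂ) (1 / 2), V w = cau k w := by
    have hae : V =ᵐ[volume.restrict (ball (0 : ℂ) (1 / 2))] cau k := by
      rw [Filter.EventuallyEq, ae_restrict_iff' measurableSet_ball]
      filter_upwards [hrep] with w hw hw2
      rw [← hw, h4 w (ball_subset_closedBall hw2), one_mul]
    exact fun w hw => Measure.eqOn_open_of_ae_eq hae isOpen_ball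
      (hV.continuousOn.mono (ball_subset_ball (by norm_num))) (differentiableOn_cau hki hk0).continuousOn hw
  have hkn : ∫ w, ‖k w‖ ≤ M * ∫ w in ball 0 1, ‖V w‖ := by
    have h6 : ∫ w, ‖k w‖ = ∫ w in ball (0 : ℂ) 1, ‖k w‖ := by
      rw [setIntegral_eq_integral_of_forall_compl_eq_zero]
      intro w hw
      have : dbar ψ w = 0 := dbar_zero_of_notMem fun h => hw (hsub (h3 h))
      rw [hkeq]; simp [this]
    rw [h6, ← integral_const_mul]
    refine setIntegral_mono_on hki.norm.integrableOn (hVi.norm.const_mul M) measurableSet_ball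
      (fun w _ => ?_)
    rw [hkeq]
    simp only [norm_mul]
    rw [mul_comm]
    exact mul_le_mul_of_nonneg_right (hM w) (norm_nonneg _)
  have hfar : ∀ y ∈ ball (0 : ℂ) (1 / 4), ∀ w, k w ≠ 0 → 1 / 4 ≤ ‖y - w‖ := by
    intro y hy w hw
    have h7 : 1 / 2 ≤ ‖w‖ := by
      by_contra hlt
      push Not at hlt
      exact hw (hk0 w (mem_ball_zero_iff.mpr hlt))
    rw [mem_ball_zero_iff] at hy
    have h8 : ‖w‖ - ‖y‖ ≤ ‖y - w‖ := by
      rw [norm_sub_rev]; exact norm_sub_norm_le _ _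
    linarith
  have hI0 : 0 ≤ ∫ w in ball (0 : ℂ) 1, ‖V w‖ := integral_nonneg fun _ => norm_nonneg _
  have hz2 : z ∈ ball (0 : ℂ) (1 / 2) := ball_subset_ball (by norm_num) hz
  have h02 : (0 : ℂ) ∈ ball (0 : ℂ) (1 / 2) := mem_ball_self (by norm_num)
  constructor
  · rw [hVk z hz2]
    calc ‖cau k z‖ ≤ (Real.pi * (1 / 4))⁻¹ * ∫ w, ‖k w‖ :=
          norm_cau_le hki (by norm_num) (hfar z hz)
      _ ≤ (Real.pi * (1 / 4))⁻¹ * (M * ∫ w in ball 0 1, ‖V w‖) := by
          gcongr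
      _ = C1 * ∫ w in ball 0 1, ‖V w‖ := by rw [hC1]; ring
      _ ≤ _ := by
          refine mul_le_mul_of_nonneg_right ?_ hI0
          linarith
  · rw [hVk z hz2, hVk 0 h02]
    calc ‖cau k z - cau k 0‖ ≤ (Real.pi * (1 / 4) ^ 2)⁻¹ * ‖z - 0‖ * ∫ w, ‖k w‖ :=
          norm_cau_sub_le hki (by norm_num) (hfar z hz) (hfar 0 (mem_ball_self (by norm_num)))
      _ ≤ (Real.pi * (1 / 4) ^ 2)⁻¹ * ‖z - 0‖ * (M * ∫ w in ball 0 1, ‖V w‖) := by
          gcongr
      _ = C2 * ‖z‖ * ∫ w in ball 0 1, ‖V w‖ := by rw [hC2, sub_zero]; ring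
      _ ≤ _ := by
          refine mul_le_mul_of_nonneg_right ?_ hI0
          refine mul_le_mul_of_nonneg_right ?_ (norm_nonneg _)
          linarith

/-- Cauchy-Schwarz on a set of finite measure, real form. -/
lemma integral_norm_sq_le {S : Set ℂ} (hSf : volume S ≠ ⊤) {F : ℂ → ℂ}
    (hF : MemLp F 2 (volume.restrict S)) :
    (∫ z in S, ‖F z‖) ^ 2 ≤ (volume S).toReal * ∫ z in S, ‖F z‖ ^ 2 := by
  have : IsFiniteMeasure (volume.restrict S) := ⟨by
    rw [Measure.restrict_apply_univ]; exact lt_top_iff_ne_top.mpr hSf⟩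
  have hn : MemLp (fun z => ‖F z‖) (ENNReal.ofReal 2) (volume.restrict S) := by
    have := hF.norm
    simpa using this
  have h1 : MemLp (fun _ : ℂ => (1 : ℝ)) (ENNReal.ofReal 2) (volume.restrict S) := memLp_const 1
  have h := integral_mul_le_Lp_mul_Lq_of_nonneg Real.HolderConjugate.two_two
    (μ := volume.restrict S) (f := fun _ => (1 : ℝ)) (g := fun z => ‖F z‖)
    (Eventually.of_forall fun _ => zero_le_one) (Eventually.of_forall fun _ => norm_nonneg _) h1 hn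
  simp only [one_mul, Real.one_rpow, integral_const, smul_eq_mul, mul_one] at h
  have h0 : 0 ≤ ∫ z in S, ‖F z‖ := integral_nonneg fun _ => norm_nonneg _
  have h3 : (volume.restrict S).real univ = (volume S).toReal := by
    simp [Measure.real]
  rw [h3] at h
  have h4 : ∀ z, ‖F z‖ ^ (2 : ℝ) = ‖F z‖ ^ 2 := fun z => by norm_cast
  simp_rw [h4] at h
  have hA : 0 ≤ (volume S).toReal := ENNReal.toReal_nonneg
  have hB : 0 ≤ ∫ z in S, ‖F z‖ ^ 2 := integral_nonneg fun _ => by positivity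
  calc (∫ z in S, ‖F z‖) ^ 2 ≤ ((volume S).toReal ^ (1 / (2 : ℝ)) *
        (∫ z in S, ‖F z‖ ^ 2) ^ (1 / (2 : ℝ))) ^ 2 := by gcongr
    _ = _ := by
        rw [mul_pow, ← Real.rpow_natCast, ← Real.rpow_natCast, ← Real.rpow_mul hA,
          ← Real.rpow_mul hB]
        norm_num

lemma volume_ball_toReal {t : ℝ} (ht : 0 ≤ t) : (volume (ball (0 : ℂ) t)).toReal = Real.pi * t ^ 2 := by
  rw [Complex.volume_ball]
  simp [ENNReal.toReal_mul, ENNReal.toReal_pow, ENNReal.toReal_ofReal ht, mul_comm]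

end Crest.Agent.R165.Cl10x722
end

-- ▼ part R165/Cl11_722
section

/-!
# Row 165, block R-f: (BD), the half disc theorem with constants, canonical and rotated form
-/

open MeasureTheory Set Filter Topology Complex Metric
open scoped ENNReal NNReal ContDiff Convolution ComplexConjugate

namespace Crest.Agent.R165.Cl11x722

open Cl1x722 Cl2x722 Cl3x722 Cl4x722 Cl5x722 Cl6x722 Cl7x722 Cl8x722 Cl9x722 Cl10x722

lemma conj_mem_ball (z : ℂ) : conj z ∈ ball (0 : ℂ) 1 ↔ z ∈ ball (0 : ℂ) 1 := by simp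

lemma ball_ae_split : (ball (0 : ℂ) 1) =ᵐ[volume]
    ((ball 0 1 ∩ HP) ∪ (ball 0 1 ∩ HM) : Set ℂ) := by
  have h0 : ∀ᵐ z : ℂ, ¬ z.im = 0 := by
    rw [ae_iff]; simpa using volume_im_eq_zero
  filter_upwards [h0] with z hz
  refine propext ⟨fun h => ?_, fun h => ?_⟩
  · rcases lt_or_gt_of_ne hz with h1 | h1
    · right; exact ⟨h, h1⟩
    · left; exact ⟨h, h1⟩
  · rcases h with h | h
    · exact h.1
    · exact h.1

/-- **(BD)** the half disc theorem, canonical form, with an absolute constant. -/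
theorem half_disc : ∃ C : ℝ, 0 < C ∧ ∀ F : ℂ → ℂ,
    MemLp F 2 (volume.restrict (ball 0 1 ∩ HP)) →
    WDbar (ball 0 1 ∩ HP) F 0 →
    (∀ χ : ℂ → ℝ, RTest (ball 0 1) χ →
      (∫ z in ball 0 1 ∩ HP, F z ^ 2 * dbar (cx χ) z).re = 0) →
    (∀ χ : ℂ → ℝ, RTest (ball 0 1) χ → (∀ z, 0 ≤ χ z) →
      0 ≤ (2 * I * ∫ z in ball 0 1 ∩ HP, F z ^ 2 * dbar (cx χ) z).re) →
    ∃ κ : ℝ, κ ^ 2 ≤ C * ∫ z in ball 0 1 ∩ HP, ‖F z‖ ^ 2 ∧
      ∀ t : ℝ, 0 < t → t ≤ 1 →
        ∫ z in ball 0 t ∩ HP, ‖F z‖ ^ 2 ≤ C * t ^ 2 * ∫ z in ball 0 1 ∩ HP, ‖F z‖ ^ 2 ∧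
        ∫ z in ball 0 t ∩ HP, ‖F z - κ‖ ^ 2 ≤ C * t ^ 4 * ∫ z in ball 0 1 ∩ HP, ‖F z‖ ^ 2 := by
  obtain ⟨C1, hC1, hb⟩ := hol_bounds
  set A : ℝ := 4 * Real.pi * C1 ^ 2 with hA
  have hpi := Real.pi_pos
  have hA0 : 0 < A := by positivity
  refine ⟨Real.pi * A + 16 + 256 * (2 + 2 * Real.pi * A) + A, by positivity, ?_⟩
  intro F hF hw hre hpos
  obtain ⟨G, hG, hFG, hsym⟩ := half_disc_ext hF hw hre hpos
  set N2 : ℝ := ∫ z in ball 0 1 ∩ HP, ‖F z‖ ^ 2 with hN2
  have hN20 : 0 ≤ N2 := integral_nonneg fun _ => by positivity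
  have hmU : MeasurableSet (ball (0 : ℂ) 1 ∩ HP) := measurableSet_ball.inter measurableSet_HP
  have hfinU : volume (ball (0 : ℂ) 1 ∩ HP) ≠ ⊤ :=
    ((measure_mono inter_subset_left).trans_lt measure_ball_lt_top).ne
  have : IsFiniteMeasure (volume.restrict (ball (0 : ℂ) 1 ∩ HP)) := ⟨by
    rw [Measure.restrict_apply_univ]; exact lt_top_iff_ne_top.mpr hfinU⟩
  have hFi : IntegrableOn F (ball 0 1 ∩ HP) := hF.integrable (by norm_num)
  have haeU : F =ᵐ[volume.restrict (ball 0 1 ∩ HP)] G := by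
    rw [Filter.EventuallyEq, ae_restrict_iff' hmU]; exact hFG
  have hGU : IntegrableOn G (ball 0 1 ∩ HP) := hFi.congr haeU
  have hGM : IntegrableOn G (ball 0 1 ∩ HM) := by
    refine integrableOn_conj_HM conj_mem_ball ?_
    have h1 : IntegrableOn (fun z => conj (G z)) (ball 0 1 ∩ HP) := by
      have := (conjCLE : ℂ ≃L[ℝ] ℂ).toContinuousLinearMap.integrable_comp hGU
      exact this
    refine h1.congr_fun (fun z hz => ?_) hmU
    exact (hsym z hz.1).symm
  have hGB : IntegrableOn G (ball 0 1) := by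
    rw [integrableOn_congr_set_ae ball_ae_split]
    exact hGU.union hGM
  have hdisj : Disjoint (ball (0 : ℂ) 1 ∩ HP) (ball 0 1 ∩ HM) := by
    rw [Set.disjoint_left]
    rintro z ⟨_, h1⟩ ⟨_, h2⟩
    exact lt_asymm (show 0 < z.im from h1) h2
  have hL1 : ∫ w in ball 0 1, ‖G w‖ = 2 * ∫ w in ball 0 1 ∩ HP, ‖F w‖ := by
    rw [setIntegral_congr_set ball_ae_split,
      setIntegral_union hdisj (measurableSet_ball.inter measurableSet_HM) hGU.norm hGM.norm]
    have e1 : ∫ w in ball 0 1 ∩ HP, ‖G w‖ = ∫ w in ball 0 1 ∩ HP, ‖F w‖ :=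
      integral_congr_ae (haeU.mono fun z hz => by simp only [hz])
    have e2 : ∫ w in ball 0 1 ∩ HM, ‖G w‖ = ∫ w in ball 0 1 ∩ HP, ‖G w‖ := by
      have hemb : MeasurableEmbedding (fun z : ℂ => conj z) :=
        (conjLIE : ℂ ≃ₗᵢ[ℝ] ℂ).toHomeomorph.measurableEmbedding
      rw [← mp_conj.setIntegral_preimage_emb hemb (fun z => ‖G z‖) (ball 0 1 ∩ HM)]
      have hs : (fun z : ℂ => conj z) ⁻¹' (ball 0 1 ∩ HM) = ball 0 1 ∩ HP := by
        ext z
        simp [HM, HP]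
      rw [hs]
      refine setIntegral_congr_fun hmU fun z hz => ?_
      rw [hsym z hz.1, Complex.norm_conj]
    rw [e2, e1]; ring
  have hvolU : (volume (ball (0 : ℂ) 1 ∩ HP)).toReal ≤ Real.pi := by
    have h1 := volume_ball_toReal (t := 1) zero_le_one
    calc (volume (ball (0 : ℂ) 1 ∩ HP)).toReal ≤ (volume (ball (0 : ℂ) 1)).toReal :=
          ENNReal.toReal_mono measure_ball_lt_top.ne (measure_mono inter_subset_left)
      _ = Real.pi := by rw [h1]; ring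
  have hL1' : (∫ w in ball 0 1, ‖G w‖) ^ 2 ≤ 4 * Real.pi * N2 := by
    rw [hL1, mul_pow]
    have := integral_norm_sq_le hfinU hF
    calc (2 : ℝ) ^ 2 * (∫ w in ball 0 1 ∩ HP, ‖F w‖) ^ 2
        ≤ 2 ^ 2 * ((volume (ball (0 : ℂ) 1 ∩ HP)).toReal * N2) := by gcongr
      _ ≤ 2 ^ 2 * (Real.pi * N2) := by gcongr
      _ = _ := by ring
  have hsup : ∀ z ∈ ball (0 : ℂ) (1 / 4), ‖G z‖ ^ 2 ≤ A * N2 := by
    intro z hz
    calc ‖G z‖ ^ 2 ≤ (C1 * ∫ w in ball 0 1, ‖G w‖) ^ 2 := by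
          gcongr; exact (hb G hG hGB z hz).1
      _ = C1 ^ 2 * (∫ w in ball 0 1, ‖G w‖) ^ 2 := by ring
      _ ≤ C1 ^ 2 * (4 * Real.pi * N2) := by gcongr
      _ = _ := by rw [hA]; ring
  have hlip : ∀ z ∈ ball (0 : ℂ) (1 / 4), ‖G z - G 0‖ ^ 2 ≤ A * ‖z‖ ^ 2 * N2 := by
    intro z hz
    calc ‖G z - G 0‖ ^ 2 ≤ (C1 * ‖z‖ * ∫ w in ball 0 1, ‖G w‖) ^ 2 := by
          gcongr; exact (hb G hG hGB z hz).2
      _ = C1 ^ 2 * ‖z‖ ^ 2 * (∫ w in ball 0 1, ‖G w‖) ^ 2 := by ring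
      _ ≤ C1 ^ 2 * ‖z‖ ^ 2 * (4 * Real.pi * N2) := by gcongr
      _ = _ := by rw [hA]; ring
  have h0im : (G 0).im = 0 := by
    have := hsym 0 (mem_ball_self one_pos)
    rw [map_zero] at this
    exact conj_eq_iff_im.mp this.symm
  have hκ : ((G 0).re : ℂ) = G 0 := Complex.ext (by simp) (by simp [h0im])
  have hκ2 : (G 0).re ^ 2 ≤ A * N2 := by
    have := hsup 0 (mem_ball_self (by norm_num))
    rw [← hκ, norm_real, Real.norm_eq_abs, sq_abs] at this
    exact this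
  have hvolt : ∀ t : ℝ, 0 < t → (volume (ball (0 : ℂ) t ∩ HP)).toReal ≤ Real.pi * t ^ 2 := by
    intro t ht
    rw [← volume_ball_toReal ht.le]
    exact ENNReal.toReal_mono measure_ball_lt_top.ne (measure_mono inter_subset_left)
  have hsqi : IntegrableOn (fun z => ‖F z‖ ^ 2) (ball 0 1 ∩ HP) := by
    show Integrable (fun z => ‖F z‖ ^ 2) (volume.restrict (ball 0 1 ∩ HP))
    simpa using hF.integrable_norm_pow (p := 2) (by norm_num)
  refine ⟨(G 0).re, ?_, ?_⟩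
  · refine hκ2.trans (mul_le_mul_of_nonneg_right ?_ hN20)
    nlinarith [mul_pos hpi hA0]
  intro t ht ht1
  have hsubt : ball (0 : ℂ) t ∩ HP ⊆ ball 0 1 ∩ HP := inter_subset_inter_left _ (ball_subset_ball ht1)
  have hmt : MeasurableSet (ball (0 : ℂ) t ∩ HP) := measurableSet_ball.inter measurableSet_HP
  have haet : F =ᵐ[volume.restrict (ball 0 t ∩ HP)] G :=
    haeU.filter_mono (ae_mono (Measure.restrict_mono hsubt le_rfl))
  have hfint : volume (ball (0 : ℂ) t ∩ HP) ≠ ⊤ :=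
    ((measure_mono inter_subset_left).trans_lt measure_ball_lt_top).ne
  -- bound of a set integral by a sup
  have hbd : ∀ (g : ℂ → ℝ) (K : ℝ), (∀ z ∈ ball (0 : ℂ) t ∩ HP, ‖g z‖ ≤ K) →
      ∫ z in ball 0 t ∩ HP, g z ≤ K * (Real.pi * t ^ 2) := by
    intro g K hg
    have hK : 0 ≤ K := by
      have hp : ((t / 2 : ℝ) : ℂ) * I ∈ ball (0 : ℂ) t ∩ HP := by
        refine ⟨?_, ?_⟩
        · rw [mem_ball_zero_iff, norm_mul, norm_I, mul_one, norm_real, Real.norm_eq_abs,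
            abs_of_pos (by positivity)]
          linarith
        · show 0 < (((t / 2 : ℝ) : ℂ) * I).im
          rw [mul_I_im, ofReal_re]; positivity
      exact (norm_nonneg _).trans (hg _ hp)
    have h1 := norm_setIntegral_le_of_norm_le_const (μ := (volume : Measure ℂ)) (f := g) (C := K)
      (s := ball (0 : ℂ) t ∩ HP) (lt_top_iff_ne_top.mpr hfint) (fun z hz => hg z hz)
    calc ∫ z in ball 0 t ∩ HP, g z ≤ ‖∫ z in ball 0 t ∩ HP, g z‖ := Real.le_norm_self _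
      _ ≤ K * (volume (ball (0 : ℂ) t ∩ HP)).toReal := h1
      _ ≤ K * (Real.pi * t ^ 2) := by
          gcongr; exact hvolt t ht
  constructor
  · by_cases h4 : t ≤ 1 / 4
    · have h5 : ∫ z in ball 0 t ∩ HP, ‖F z‖ ^ 2 = ∫ z in ball 0 t ∩ HP, ‖G z‖ ^ 2 :=
        integral_congr_ae (haet.mono fun z hz => by simp only [hz])
      rw [h5]
      have h6 := hbd (fun z => ‖G z‖ ^ 2) (A * N2) (fun z hz => by
        rw [Real.norm_of_nonneg (by positivity)]
        exact hsup z (ball_subset_ball h4 hz.1))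
      refine h6.trans ?_
      have h7 : A * N2 * (Real.pi * t ^ 2) = (Real.pi * A) * (t ^ 2 * N2) := by ring
      have h8 : (Real.pi * A + 16 + 256 * (2 + 2 * Real.pi * A) + A) * t ^ 2 * N2 =
        (Real.pi * A + 16 + 256 * (2 + 2 * Real.pi * A) + A) * (t ^ 2 * N2) := by ring
      rw [h7, h8]
      refine mul_le_mul_of_nonneg_right ?_ (by positivity)
      nlinarith [mul_pos hpi hA0]
    · push Not at h4
      have h5 : ∫ z in ball 0 t ∩ HP, ‖F z‖ ^ 2 ≤ N2 :=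
        setIntegral_mono_set hsqi (Eventually.of_forall fun _ => by positivity) hsubt.eventuallyLE
      refine h5.trans ?_
      have h6 : (1 : ℝ) ≤ 16 * t ^ 2 := by nlinarith
      calc N2 = 1 * N2 := (one_mul _).symm
        _ ≤ (16 * t ^ 2) * N2 := by gcongr
        _ ≤ (Real.pi * A + 16 + 256 * (2 + 2 * Real.pi * A) + A) * t ^ 2 * N2 := by
            gcongr
            nlinarith [mul_pos hpi hA0]
  · by_cases h4 : t ≤ 1 / 4
    · have h5 : ∫ z in ball 0 t ∩ HP, ‖F z - (G 0).re‖ ^ 2 =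
          ∫ z in ball 0 t ∩ HP, ‖G z - G 0‖ ^ 2 :=
        integral_congr_ae (haet.mono fun z hz => by simp only [hz, hκ])
      rw [h5]
      have h6 := hbd (fun z => ‖G z - G 0‖ ^ 2) (A * t ^ 2 * N2) (fun z hz => by
        rw [Real.norm_of_nonneg (by positivity)]
        refine (hlip z (ball_subset_ball h4 hz.1)).trans ?_
        have : ‖z‖ ≤ t := (mem_ball_zero_iff.mp hz.1).le
        gcongr)
      refine h6.trans ?_
      have h7 : A * t ^ 2 * N2 * (Real.pi * t ^ 2) = (Real.pi * A) * (t ^ 4 * N2) := by ring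
      have h8 : (Real.pi * A + 16 + 256 * (2 + 2 * Real.pi * A) + A) * t ^ 4 * N2 =
        (Real.pi * A + 16 + 256 * (2 + 2 * Real.pi * A) + A) * (t ^ 4 * N2) := by ring
      rw [h7, h8]
      refine mul_le_mul_of_nonneg_right ?_ (by positivity)
      nlinarith [mul_pos hpi hA0]
    · push Not at h4
      set κ : ℝ := (G 0).re with hκdef
      have hsqt : IntegrableOn (fun z => ‖F z‖ ^ 2) (ball 0 t ∩ HP) := hsqi.mono_set hsubt
      have h5 : ∫ z in ball 0 t ∩ HP, ‖F z - κ‖ ^ 2 ≤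
          ∫ z in ball 0 t ∩ HP, (2 * ‖F z‖ ^ 2 + 2 * κ ^ 2) := by
        refine integral_mono_of_nonneg (Eventually.of_forall fun _ => by positivity) ?_
          (Eventually.of_forall fun z => ?_)
        · exact (hsqt.const_mul 2).add (integrableOn_const (hs := hfint))
        · have h6 : ‖F z - κ‖ ≤ ‖F z‖ + |κ| := by
            refine (norm_sub_le _ _).trans ?_
            rw [norm_real, Real.norm_eq_abs]
          calc ‖F z - κ‖ ^ 2 ≤ (‖F z‖ + |κ|) ^ 2 := by gcongr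
            _ ≤ 2 * ‖F z‖ ^ 2 + 2 * κ ^ 2 := by
                nlinarith [sq_nonneg (‖F z‖ - |κ|), sq_abs κ]
      have h6 : ∫ z in ball 0 t ∩ HP, (2 * ‖F z‖ ^ 2 + 2 * κ ^ 2) ≤ 2 * N2 + 2 * (A * N2) * Real.pi := by
        rw [integral_add (hsqt.const_mul 2) (integrableOn_const (hs := hfint)), integral_const_mul,
          setIntegral_const, smul_eq_mul]
        have h7 : ∫ z in ball 0 t ∩ HP, ‖F z‖ ^ 2 ≤ N2 :=
          setIntegral_mono_set hsqi (Eventually.of_forall fun _ => by positivity) hsubt.eventuallyLE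
        have h8 : (volume : Measure ℂ).real (ball 0 t ∩ HP) ≤ Real.pi := by
          refine (hvolt t ht).trans ?_
          have h20 : t ^ 2 ≤ 1 := pow_le_one₀ ht.le ht1
          calc Real.pi * t ^ 2 ≤ Real.pi * 1 := by gcongr
            _ = Real.pi := mul_one _
        have h9 : 0 ≤ (volume : Measure ℂ).real (ball 0 t ∩ HP) := ENNReal.toReal_nonneg
        have h10 : (volume : Measure ℂ).real (ball 0 t ∩ HP) * (2 * κ ^ 2) ≤
            Real.pi * (2 * (A * N2)) := by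
          gcongr
        linarith
      have h11 : (1 : ℝ) ≤ 256 * t ^ 4 := by
        have h12 : (1 : ℝ) / 16 ≤ t ^ 2 := by nlinarith
        nlinarith
      calc ∫ z in ball 0 t ∩ HP, ‖F z - κ‖ ^ 2 ≤ 2 * N2 + 2 * (A * N2) * Real.pi := h5.trans h6
        _ = 1 * ((2 + 2 * Real.pi * A) * N2) := by ring
        _ ≤ (256 * t ^ 4) * ((2 + 2 * Real.pi * A) * N2) := by gcongr
        _ = (256 * (2 + 2 * Real.pi * A)) * (t ^ 4 * N2) := by ring
        _ ≤ (Real.pi * A + 16 + 256 * (2 + 2 * Real.pi * A) + A) * (t ^ 4 * N2) := by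
            gcongr
            nlinarith [mul_pos hpi hA0]
        _ = _ := by ring

end Crest.Agent.R165.Cl11x722
end

-- ▼ part R165/Cl12_722
section

/-!
# Row 165, block R-f: (BD), rotated form
-/

open MeasureTheory Set Filter Topology Complex Metric
open scoped ENNReal NNReal ContDiff Convolution ComplexConjugate

namespace Crest.Agent.R165.Cl12x722

open Cl1x722 Cl2x722 Cl3x722 Cl4x722 Cl5x722 Cl6x722 Cl7x722 Cl8x722 Cl9x722 Cl10x722 Cl11x722

/-- the half plane `{Im (z conj τ) > 0}` -/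
def HPr (τ : ℂ) : Set ℂ := {z | 0 < (z * conj τ).im}

lemma isOpen_HPr (τ : ℂ) : IsOpen (HPr τ) :=
  isOpen_lt continuous_const (by fun_prop)

lemma measurableSet_HPr (τ : ℂ) : MeasurableSet (HPr τ) := (isOpen_HPr τ).measurableSet

/-- multiplication by a unit complex number as a linear isometry equivalence -/
noncomputable def rotL (τ : ℂ) (hτ : ‖τ‖ = 1) : ℂ ≃ₗᵢ[ℝ] ℂ :=
  rotation ⟨τ, mem_sphere_zero_iff_norm.mpr hτ⟩

lemma rotL_apply (τ : ℂ) (hτ : ‖τ‖ = 1) (z : ℂ) : rotL τ hτ z = τ * z :=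
  rotation_apply _ _

lemma mul_conj_one {τ : ℂ} (hτ : ‖τ‖ = 1) : τ * conj τ = 1 := by
  rw [mul_conj, normSq_eq_norm_sq, hτ]; simp

lemma mp_rot {τ : ℂ} (hτ : ‖τ‖ = 1) : MeasurePreserving (fun z : ℂ => τ * z) volume volume := by
  have h := (rotL τ hτ).measurePreserving
  have h2 : (fun z : ℂ => τ * z) = rotL τ hτ := by funext z; rw [rotL_apply]
  rw [h2]; exact h

lemma emb_rot {τ : ℂ} (hτ : ‖τ‖ = 1) : MeasurableEmbedding (fun z : ℂ => τ * z) := by
  have h := (rotL τ hτ).toHomeomorph.measurableEmbedding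
  have h2 : (fun z : ℂ => τ * z) = rotL τ hτ := by funext z; rw [rotL_apply]
  rw [h2]; exact h

lemma preimage_rot {τ : ℂ} (hτ : ‖τ‖ = 1) (t : ℝ) :
    (fun z : ℂ => τ * z) ⁻¹' (ball 0 t ∩ HPr τ) = ball 0 t ∩ HP := by
  ext z
  have h1 : τ * z * conj τ = z := by
    calc τ * z * conj τ = (τ * conj τ) * z := by ring
      _ = z := by rw [mul_conj_one hτ, one_mul]
  simp only [mem_preimage, mem_inter_iff, mem_ball_zero_iff, norm_mul, hτ, one_mul, HPr, HP,
    mem_ofPred_eq, h1]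

lemma setIntegral_rot {E : Type*} [NormedAddCommGroup E] [NormedSpace ℝ E] {τ : ℂ} (hτ : ‖τ‖ = 1)
    (t : ℝ) (f : ℂ → E) :
    ∫ z in ball 0 t ∩ HPr τ, f z = ∫ z in ball 0 t ∩ HP, f (τ * z) := by
  rw [← (mp_rot hτ).setIntegral_preimage_emb (emb_rot hτ) f, preimage_rot hτ]

/-- `∂̄` and multiplication by a constant inside -/
lemma dbar_comp_mul {χ : ℂ → ℂ} (m : ℂ) {z : ℂ} (h : DifferentiableAt ℝ χ (m * z)) :
    dbar (fun w => χ (m * w)) z = conj m * dbar χ (m * z) := by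
  have h1 : HasFDerivAt (fun w : ℂ => m * w) (m • (ContinuousLinearMap.id ℝ ℂ)) z :=
    (hasFDerivAt_id z).const_mul m
  have h2 := h.hasFDerivAt.comp z h1
  have h3 : fderiv ℝ (fun w => χ (m * w)) z =
      (fderiv ℝ χ (m * z)).comp (m • (ContinuousLinearMap.id ℝ ℂ)) := h2.fderiv
  have e1 : ∀ e : ℂ, fderiv ℝ (fun w => χ (m * w)) z e = fderiv ℝ χ (m * z) (m * e) := by
    intro e; rw [h3]; simp
  set L := fderiv ℝ χ (m * z) with hL
  have hm : ∀ e : ℂ, L e = e.re * L 1 + e.im * L I := by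
    intro e
    have : e = e.re • (1 : ℂ) + e.im • I := by
      simp
    conv_lhs => rw [this]
    rw [map_add, map_smul, map_smul, real_smul, real_smul]
  rw [dbar, dbar, e1, e1, hm (m * 1), hm (m * I)]
  have hc : conj m = m.re - m.im * I := by
    apply Complex.ext <;> simp
  rw [hc]
  simp only [mul_one, mul_I_re, mul_I_im]
  push_cast
  linear_combination ((m.im : ℂ) * L I / 2) * I_mul_I

/-- **(BD)**, rotated form: half plane `{Im (z conj τ) > 0}`, sign `s`; the mode is `κ b` with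
`b ^ 2 = s i conj τ`, `κ` real. -/
theorem half_disc_rot : ∃ C : ℝ, 0 < C ∧ ∀ (τ : ℂ) (s : ℝ) (b : ℂ) (F : ℂ → ℂ),
    ‖τ‖ = 1 → s ^ 2 = 1 → b ^ 2 = s * I * conj τ →
    MemLp F 2 (volume.restrict (ball 0 1 ∩ HPr τ)) →
    WDbar (ball 0 1 ∩ HPr τ) F 0 →
    (∀ χ : ℂ → ℝ, RTest (ball 0 1) χ →
      (∫ z in ball 0 1 ∩ HPr τ, F z ^ 2 * dbar (cx χ) z).im = 0) →
    (∀ χ : ℂ → ℝ, RTest (ball 0 1) χ → (∀ z, 0 ≤ χ z) →
      0 ≤ s * (∫ z in ball 0 1 ∩ HPr τ, F z ^ 2 * dbar (cx χ) z).re) →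
    ∃ κ : ℝ, κ ^ 2 ≤ C * ∫ z in ball 0 1 ∩ HPr τ, ‖F z‖ ^ 2 ∧
      ∀ t : ℝ, 0 < t → t ≤ 1 →
        ∫ z in ball 0 t ∩ HPr τ, ‖F z‖ ^ 2 ≤ C * t ^ 2 * ∫ z in ball 0 1 ∩ HPr τ, ‖F z‖ ^ 2 ∧
        ∫ z in ball 0 t ∩ HPr τ, ‖F z - κ * b‖ ^ 2 ≤
          C * t ^ 4 * ∫ z in ball 0 1 ∩ HPr τ, ‖F z‖ ^ 2 := by
  obtain ⟨C, hC, hmain⟩ := half_disc
  refine ⟨C, hC, ?_⟩
  intro τ s b F hτ hs hb hF hw him hpos
  have hττ := mul_conj_one hτ
  have hs0 : s ≠ 0 := by rintro rfl; norm_num at hs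
  have hbn : ‖b‖ = 1 := by
    have h1 : ‖b‖ ^ 2 = 1 := by
      rw [← norm_pow, hb, norm_mul, norm_mul, norm_I, Complex.norm_conj, hτ, norm_real,
        Real.norm_eq_abs, mul_one, mul_one]
      have h5 : |s| ^ 2 = 1 := by rw [sq_abs]; exact hs
      exact (pow_eq_one_iff_of_nonneg (abs_nonneg s) two_ne_zero).mp h5
    nlinarith [norm_nonneg b]
  have hb0 : b ≠ 0 := by intro h; rw [h, norm_zero] at hbn; norm_num at hbn
  set a : ℂ := b⁻¹ with ha
  have ha2 : a ^ 2 * conj τ = -(s * I) := by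
    rw [ha, inv_pow, hb]
    have h1 : (s : ℂ) ^ 2 = 1 := by exact_mod_cast hs
    have h2 : (s : ℂ) ≠ 0 := by exact_mod_cast hs0
    have h3 : conj τ ≠ 0 := by
      intro h; rw [h, mul_zero] at hττ; exact zero_ne_one hττ
    field_simp
    rw [h1, I_sq]; ring
  set Fh : ℂ → ℂ := fun z => a * F (τ * z) with hFh
  have hFh' : MemLp Fh 2 (volume.restrict (ball 0 1 ∩ HP)) := by
    have h1 : MeasurePreserving (fun z : ℂ => τ * z) (volume.restrict (ball 0 1 ∩ HP))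
        (volume.restrict (ball 0 1 ∩ HPr τ)) := by
      have := (mp_rot hτ).restrict_preimage_emb (emb_rot hτ) (ball 0 1 ∩ HPr τ)
      rwa [preimage_rot hτ] at this
    exact (hF.comp_measurePreserving h1).const_mul a
  -- transfer of test functions
  have htest : ∀ χ : ℂ → ℂ, DifferentiableOn ℝ χ univ → ∀ z,
      dbar χ z = conj τ * dbar (fun w => χ (conj τ * w)) (τ * z) := by
    intro χ hχ z
    have h1 : conj τ * (τ * z) = z := by
      calc conj τ * (τ * z) = (τ * conj τ) * z := by ring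
        _ = z := by rw [hττ, one_mul]
    have hd : DifferentiableAt ℝ χ (conj τ * (τ * z)) := (hχ _ trivial).differentiableAt univ_mem
    rw [dbar_comp_mul (conj τ) hd, h1, conj_conj, ← mul_assoc, mul_comm (conj τ), hττ, one_mul]
  have hcpt : ∀ {E : Type} [NormedAddCommGroup E] {χ : ℂ → E}, HasCompactSupport χ →
      HasCompactSupport (fun w => χ (conj τ * w)) := by
    intro E _ χ h
    have h1 : ‖conj τ‖ = 1 := by rw [Complex.norm_conj, hτ]
    have := h.comp_homeomorph (rotL (conj τ) h1).toHomeomorph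
    have h2 : (fun w => χ (conj τ * w)) = χ ∘ (rotL (conj τ) h1).toHomeomorph := by
      funext w
      show χ _ = χ (rotL (conj τ) h1 w)
      rw [rotL_apply]
    rw [h2]; exact this
  have hsupp : ∀ {E : Type} [NormedAddCommGroup E] {χ : ℂ → E},
      tsupport (fun w => χ (conj τ * w)) = (fun w => conj τ * w) ⁻¹' tsupport χ := by
    intro E _ χ
    have h1 : ‖conj τ‖ = 1 := by rw [Complex.norm_conj, hτ]
    have := tsupport_comp_eq_preimage χ (rotL (conj τ) h1).toHomeomorph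
    have h2 : (fun w => χ (conj τ * w)) = χ ∘ (rotL (conj τ) h1).toHomeomorph := by
      funext w
      show χ _ = χ (rotL (conj τ) h1 w)
      rw [rotL_apply]
    have h3 : (fun w : ℂ => conj τ * w) = (rotL (conj τ) h1).toHomeomorph := by
      funext w
      show _ = rotL (conj τ) h1 w
      rw [rotL_apply]
    rw [h2, this, h3]
  have hwh : WDbar (ball 0 1 ∩ HP) Fh 0 := by
    intro χ h1 h2 h3
    set χt : ℂ → ℂ := fun w => χ (conj τ * w) with hχt
    have t1 : ContDiff ℝ ∞ χt := h1.comp (contDiff_const.mul contDiff_id)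
    have t2 : HasCompactSupport χt := hcpt h2
    have t3 : tsupport χt ⊆ ball 0 1 ∩ HPr τ := by
      rw [hχt, hsupp]
      intro w hw
      have := h3 hw
      refine ⟨?_, ?_⟩
      · have h4 := this.1
        rw [mem_ball_zero_iff, norm_mul, Complex.norm_conj, hτ, one_mul] at h4
        exact mem_ball_zero_iff.mpr h4
      · have h4 : 0 < (conj τ * w).im := this.2
        show 0 < (w * conj τ).im
        rwa [mul_comm]
    have h5 := hw χt t1 t2 t3
    have h6 : ∫ z, (Fh z * dbar χ z + (0 : ℂ → ℂ) z * χ z) =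
        ∫ z, (a * conj τ) * (F (τ * z) * dbar χt (τ * z)) := by
      refine integral_congr_ae (Eventually.of_forall fun z => ?_)
      simp only [hFh, Pi.zero_apply, zero_mul, add_zero]
      rw [htest χ (h1.differentiable (by simp)).differentiableOn z]
      ring
    rw [h6, integral_const_mul]
    have h7 := (mp_rot hτ).integral_comp (emb_rot hτ) (fun w => F w * dbar χt w)
    rw [h7]
    simp only [Pi.zero_apply, zero_mul, add_zero] at h5
    rw [h5, mul_zero]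
  have hquad : ∀ χ : ℂ → ℝ, RTest (ball 0 1) χ → ∃ χt : ℂ → ℝ, RTest (ball 0 1) χt ∧
      ((∀ z, 0 ≤ χ z) → ∀ z, 0 ≤ χt z) ∧
      ∫ z in ball 0 1 ∩ HP, Fh z ^ 2 * dbar (cx χ) z =
        -(s * I) * ∫ z in ball 0 1 ∩ HPr τ, F z ^ 2 * dbar (cx χt) z := by
    intro χ hχ
    refine ⟨fun w => χ (conj τ * w), ⟨hχ.smooth.comp (contDiff_const.mul contDiff_id),
      hcpt hχ.cpt, ?_⟩, fun h z => h _, ?_⟩
    · rw [hsupp]
      intro w hw
      have h4 := hχ.supp hw
      rw [mem_ball_zero_iff, norm_mul, Complex.norm_conj, hτ, one_mul] at h4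
      exact mem_ball_zero_iff.mpr h4
    · rw [setIntegral_rot hτ, ← integral_const_mul, ← ha2]
      refine integral_congr_ae (Eventually.of_forall fun z => ?_)
      simp only [hFh]
      rw [htest (cx χ) (hχ.cx_smooth.differentiable (by simp)).differentiableOn z]
      have : (fun w => cx χ (conj τ * w)) = cx (fun w => χ (conj τ * w)) := rfl
      rw [this]
      ring
  obtain ⟨κ, hκ, hest⟩ := hmain Fh hFh' hwh
    (by
      intro χ hχ
      obtain ⟨χt, ht, -, he⟩ := hquad χ hχ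
      rw [he]
      have := him χt ht
      simp [this])
    (by
      intro χ hχ h0
      obtain ⟨χt, ht, ht0, he⟩ := hquad χ hχ
      rw [he]
      have h1 := hpos χt ht (ht0 h0)
      have h2 : 2 * I * (-(s * I) * ∫ z in ball 0 1 ∩ HPr τ, F z ^ 2 * dbar (cx χt) z) =
          2 * (s * ∫ z in ball 0 1 ∩ HPr τ, F z ^ 2 * dbar (cx χt) z) := by
        linear_combination (-2 * s * ∫ z in ball 0 1 ∩ HPr τ, F z ^ 2 * dbar (cx χt) z) * I_mul_I
      rw [h2]
      have h3 : (2 * (s * ∫ z in ball 0 1 ∩ HPr τ, F z ^ 2 * dbar (cx χt) z) : ℂ).re =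
          2 * (s * (∫ z in ball 0 1 ∩ HPr τ, F z ^ 2 * dbar (cx χt) z).re) := by
        simp
      rw [h3]; positivity)
  have han : ‖a‖ = 1 := by rw [ha, norm_inv, hbn, inv_one]
  have hN : ∀ t, ∫ z in ball 0 t ∩ HP, ‖Fh z‖ ^ 2 = ∫ z in ball 0 t ∩ HPr τ, ‖F z‖ ^ 2 := by
    intro t
    rw [setIntegral_rot hτ]
    refine integral_congr_ae (Eventually.of_forall fun z => ?_)
    simp only [hFh, norm_mul, han, one_mul]
  have hN2 : ∀ t, ∫ z in ball 0 t ∩ HP, ‖Fh z - κ‖ ^ 2 =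
      ∫ z in ball 0 t ∩ HPr τ, ‖F z - κ * b‖ ^ 2 := by
    intro t
    rw [setIntegral_rot hτ]
    refine integral_congr_ae (Eventually.of_forall fun z => ?_)
    simp only [hFh]
    have h4 : a * F (τ * z) - κ = a * (F (τ * z) - κ * b) := by
      rw [ha]; field_simp
    rw [h4, norm_mul, han, one_mul]
  refine ⟨κ, by rw [← hN 1]; exact hκ, fun t ht ht1 => ?_⟩
  have := hest t ht ht1
  rw [hN, hN, hN2] at this
  exact this

end Crest.Agent.R165.Cl12x722
end

-- ▼ part R165/EXb5_811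
section

/-!
# EX at a plus boundary, part 5: the limit laws and the half disc lemma (row 165, helper811)
-/

set_option autoImplicit false

noncomputable section

namespace Crest.Agent.R165.EXb5x811

open Crest.Agent.R165.Tr1x40 hiding sq2 Ph

open Finset Filter Topology MeasureTheory Crest.Agent.R165.Tr2x40
  Crest.Agent.R165.Intx811 Crest.Agent.R165.NcCutx811 Crest.Agent.R165.RIfx891
  Crest.Agent.R165.EXb1x811 Crest.Agent.R165.EXb2x811 Crest.Agent.R165.EXb3x811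
  Crest.Agent.R165.EXb4x811

open Crest.Agent.R165.PotAx894 (Q mem_Q)
open Crest.Agent.R165.Lim1x943 (pt flr LocBd LocUnif)
open Crest.Agent.R165.Lim2x943 (sq2)
open Crest.Agent.R165.LimRx610 (LD Test dχ A0c)
open Crest.Agent.R165.LimQx610 (E src dir)
open Crest.Agent.R165.Cl1x722 (dbar)
open Crest.Agent.R165.Cl7x722 (cx RTest)
open Crest.Agent.R165.Cl12x722 (HPr)
open Crest.ProbabilityR.IsingModel (meshIndex meshPoint)

variable {U : Ultrafilter ℕ} {n : ℂ} (S : Sq U n)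

/-- scale, always at least one -/
def R (k : ℕ) : ℝ := max 1 (S.r k)

/-- mesh -/
def aa (k : ℕ) : ℝ := 1 / R S k

/-- weights, cut to the box -/
def ww (k : ℕ) : Fld := if 0 ≤ S.r k then wcut 0 ⌊S.r k⌋₊ (S.w k) else 0

/-- rescaled field -/
def ff (k : ℕ) : Fld := fun f h => S.r k * S.φ k f h

theorem R_pos (k : ℕ) : 0 < R S k := lt_of_lt_of_le one_pos (le_max_left _ _)

theorem R_ev : ∀ᶠ k in (U : Filter ℕ), R S k = S.r k := by
  filter_upwards [S.hr.eventually_ge_atTop 1] with k hk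
  exact max_eq_right hk

theorem mesh_eq (k : ℕ) (z : ℂ) : meshIndex (aa S k) z = flr (R S k) z := by
  have h := (R_pos S k).ne'
  unfold meshIndex aa
  simp only [flr, Prod.mk.injEq]
  constructor <;> · congr 1; field_simp

theorem sym_ww (k : ℕ) : Sym (ww S k) := by
  unfold ww
  split_ifs
  · exact sym_wcut _ _ (S.sym k)
  · intro f h; rfl

theorem plus_ww (k : ℕ) : IsPlus (ww S k) := by
  unfold ww
  split_ifs with h
  · exact isPlus_wcut _ _ fun f hf h' => S.plus k f (Q_sub_bx (Nat.floor_le h) hf) h'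
  · intro f h'; right; rfl

theorem ww_eq {k : ℕ} (hk : 0 ≤ S.r k) {f : Face} (hf : f ∈ bx (0 : Face) (S.r k)) {h : Fin 4}
    (hn : nb f h ∈ bx (0 : Face) (S.r k)) : ww S k f h = S.w k f h := by
  unfold ww wcut
  rw [if_pos hk]
  rw [if_pos ⟨bx_sub_Q hk hf, bx_sub_Q hk hn⟩]

theorem A_eq_of {w w' φ : Fld} {f : Face} {h : Fin 4} (e : w f h = w' f h) :
    A w φ f h = A w' φ f h := by
  simp only [A, Y, e]

theorem A_mul (w φ : Fld) (r : ℝ) (f : Face) (h : Fin 4) :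
    A w (fun g b => r * φ g b) f h = r * A w φ f h := by
  have : (fun g b => r * φ g b) = r • φ := by funext g b; rfl
  rw [this]
  exact congrFun (congrFun ((AL w).map_smul r φ) f) h

theorem tendsto_aa : Tendsto (aa S) U (𝓝 0) := by
  have h1 : Tendsto (R S) U atTop := by
    refine tendsto_atTop_mono (fun k => le_max_right _ _) S.hr
  exact tendsto_const_nhds.div_atTop h1

theorem crit_ww (K : Set ℂ) (hK : IsCompact K) (hKΩ : K ⊆ Om n) :
    ∀ᶠ k in (U : Filter ℕ), ∀ z ∈ K, ∀ h, ww S k (meshIndex (aa S k) z) h ^ 2 = xc ^ 2 := by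
  obtain ⟨δ, hδ, K', hK', hK'Ω, -, hnb⟩ := Lim1x943.exists_nbhd (isOpen_Om n) hK hKΩ
  obtain ⟨δ', hδ', hev⟩ := geo S hK' hK'Ω
  filter_upwards [hev, R_ev S, Lim1x943.eventually_two_div_le S.hr hδ,
    S.hr.eventually_ge_atTop (1 / δ')] with k hk hR hrd hr2 z hz h
  obtain ⟨hr1, hg⟩ := hk
  rw [mesh_eq, hR]
  set f := flr (S.r k) z with hf
  have hpt : pt (S.r k) f ∈ K' := hnb z hz _ ((Lim1x943.d1_pt_flr _ hrd.1 z).trans hrd.2)
  have hρ : (1 : ℕ) ≤ δ' * S.r k := by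
    rw [div_le_iff₀ hδ'] at hr2
    push_cast; linarith
  have h1 := hg f hpt 1 hρ
  have hf1 : f ∈ Q f 1 := PotAx894.self_mem_Q f 1
  have hf2 : nb f h ∈ Q f 1 := by
    rw [mem_Q]
    fin_cases h <;> simp [nb]
  rw [ww_eq S (by linarith) (h1 f hf1).1 (h1 _ hf2).1, (h1 f hf1).2 h]

theorem src_zero {s : ℝ} (hs : s < 1) : ∀ᶠ k in (U : Filter ℕ), ∀ z ∈ bC s, ∀ h,
    E (aa S k) (src (aa S k) (ww S k) (ff S k)) h z = 0 := by
  have h1s : 0 < 1 - s := by linarith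
  filter_upwards [R_ev S, S.hr.eventually_ge_atTop (2 / (1 - s)),
    S.hr.eventually_gt_atTop 0] with k hR hk hr0 z hz h
  have hr : 2 ≤ (1 - s) * S.r k := by rw [div_le_iff₀ h1s] at hk; linarith
  unfold E src
  rw [mesh_eq, hR]
  set f := flr (S.r k) z with hf
  have hf1 : f ∈ bx (0 : Face) (S.r k - 1) := by
    rw [mem_bx_real]
    simp only [Prod.fst_zero, Prod.snd_zero, Int.cast_zero, sub_zero]
    have key : ∀ x : ℝ, |x| ≤ s → |(⌊S.r k * x⌋ : ℝ)| ≤ S.r k - 1 := by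
      intro x hx
      rw [abs_le] at hx
      have h1 := Int.floor_le (S.r k * x)
      have h2 := Int.lt_floor_add_one (S.r k * x)
      rw [abs_le]
      constructor
      · nlinarith
      · nlinarith
    exact ⟨key _ hz.1, key _ hz.2⟩
  have hf2 : nb f h ∈ bx (0 : Face) (S.r k) := by
    have := nb_mem_bx hf1 h
    rwa [sub_add_cancel] at this
  have hf3 : f ∈ bx (0 : Face) (S.r k) := bx_mono 0 (by linarith) hf1
  rw [A_eq_of (ww_eq S hr0.le hf3 hf2)]
  have h3 : A (S.w k) (ff S k) f h = S.r k * A (S.w k) (S.φ k) f h := A_mul _ _ _ _ _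
  rw [h3, congrFun (S.exact k f hf3) h]
  simp

theorem memLp_Ph {F : ℂ → ℂ} (hF : DifferentiableOn ℂ F (Om n))
    (hlim : ∀ a, LocUnif U S.r (Om n) (v S a) (fun z => lv (F z) a)) {s : ℝ}
    (hs0 : 0 < s) (hs : s < 1) (a : Fin 4) : MemLp (Ph n F a) 2 (volume.restrict (bC s)) := by
  refine ⟨(meas_Ph hF a).aestronglyMeasurable, ?_⟩
  rw [← Lim2x943.nrm_eq_eLpNorm]
  unfold Lim2x943.nrm
  refine ENNReal.rpow_lt_top_of_nonneg (by norm_num) ?_
  have h1 := mass_P S hF hlim hs0 hs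
  have h2 : ∫⁻ z in bC s, sq2 (Ph n F a z) ≤ 1 :=
    (single_le_sum (f := fun a => ∫⁻ z in bC s, sq2 (Ph n F a z)) (fun _ _ => zero_le)
      (mem_univ a)).trans h1
  exact (h2.trans_lt ENNReal.one_lt_top).ne

theorem ld {F : ℂ → ℂ} (hF : DifferentiableOn ℂ F (Om n))
    (hlim : ∀ a, LocUnif U S.r (Om n) (v S a) (fun z => lv (F z) a)) {s : ℝ}
    (hs0 : 0 < s) (hs : s < 1) :
    LD (U : Filter ℕ) (Om n) (bC s) (aa S) (ww S) (ff S) (Ph n F) (fun _ _ => 0) where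
  pos k := by unfold aa; have := R_pos S k; positivity
  lim := tendsto_aa S
  sym := sym_ww S
  plus := plus_ww S
  opn := isOpen_Om n
  meas := (isClosed_bC s).measurableSet
  memΦ h := memLp_Ph S hF hlim hs0 hs h
  memG h := MemLp.zero
  zero h := Eventually.of_forall fun z hz => Set.indicator_of_notMem hz _
  crit := crit_ww S
  convΦ h := by
    have h1 := Lim2x943.nrm_tendsto_zero (strongP S hF hlim h hs0 hs)
    refine h1.congr' ?_
    filter_upwards [R_ev S] with k hR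
    rw [Lim2x943.nrm_eq_eLpNorm]
    congr 1
    funext z
    unfold E ff v
    rw [mesh_eq, hR]
  convG h := by
    refine tendsto_const_nhds.congr' ?_
    filter_upwards [src_zero S hs] with k hk
    symm
    rw [eLpNorm_congr_ae (g := fun _ => 0)]
    · simp
    · rw [Filter.EventuallyEq, ae_restrict_iff' (isClosed_bC s).measurableSet]
      exact Eventually.of_forall fun z hz => by rw [hk z hz h, sub_zero]

/-! ### the algebra of the light fields -/

theorem sum_dir (L : ℂ →L[ℝ] ℝ) (c : ℂ) :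
    ∑ h, L (dir h) * (lv c h * lv c h) = 2 * (c ^ 2 * ((L 1 + Complex.I * L Complex.I) / 2)).re := by
  have h2 : Real.sqrt 2 * Real.sqrt 2 = 2 := Real.mul_self_sqrt (by norm_num)
  have h3 : (0:ℝ) < Real.sqrt 2 := by positivity
  rw [Fin.sum_univ_four, LimQx610.dir_zero, LimQx610.dir_one, LimQx610.dir_two,
    LimQx610.dir_three, map_neg, map_neg]
  simp only [lv]
  have e : (c ^ 2 * (((L 1 : ℂ) + Complex.I * (L Complex.I : ℂ)) / 2)).re
      = ((c.re ^ 2 - c.im ^ 2) * L 1 - 2 * c.re * c.im * L Complex.I) / 2 := by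
    have e1 : (c ^ 2).re = c.re ^ 2 - c.im ^ 2 := by rw [pow_two, Complex.mul_re]; ring
    have e2 : (c ^ 2).im = 2 * c.re * c.im := by rw [pow_two, Complex.mul_im]; ring
    have e3 : (((L 1 : ℂ) + Complex.I * (L Complex.I : ℂ)) / 2).re = L 1 / 2 := by simp
    have e4 : (((L 1 : ℂ) + Complex.I * (L Complex.I : ℂ)) / 2).im = L Complex.I / 2 := by simp
    rw [Complex.mul_re, e1, e2, e3, e4]
    ring
  rw [e]
  field_simp
  ring_nf
  rw [show Real.sqrt 2 ^ 2 = 2 from by rw [pow_two, h2]]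
  ring

theorem A0_lv (c : ℂ) (h : Fin 4) : A0 (lv c) h = -(xc * sg h * lv c (op h)) := by
  have h2 : Real.sqrt 2 * Real.sqrt 2 = 2 := Real.mul_self_sqrt (by norm_num)
  have h3 : (0:ℝ) < Real.sqrt 2 := by positivity
  fin_cases h <;> simp [A0, lv, op, sg, xc] <;> field_simp <;> ring_nf <;>
    rw [show Real.sqrt 2 ^ 2 = 2 from by rw [pow_two, h2]] <;> ring

theorem sum_dir2 (L : ℂ →L[ℝ] ℝ) (c : ℂ) :
    ∑ h, L (dir h) * (lv c h * A0 (lv c) h)
      = 2 * xc * (c ^ 2 * ((L 1 + Complex.I * L Complex.I) / 2)).im := by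
  have h2 : Real.sqrt 2 * Real.sqrt 2 = 2 := Real.mul_self_sqrt (by norm_num)
  have h3 : (0:ℝ) < Real.sqrt 2 := by positivity
  simp only [A0_lv]
  rw [Fin.sum_univ_four, LimQx610.dir_zero, LimQx610.dir_one, LimQx610.dir_two,
    LimQx610.dir_three, map_neg, map_neg]
  have e : (c ^ 2 * (((L 1 : ℂ) + Complex.I * (L Complex.I : ℂ)) / 2)).im
      = ((c.re ^ 2 - c.im ^ 2) * L Complex.I + 2 * c.re * c.im * L 1) / 2 := by
    have e1 : (c ^ 2).re = c.re ^ 2 - c.im ^ 2 := by rw [pow_two, Complex.mul_re]; ring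
    have e2 : (c ^ 2).im = 2 * c.re * c.im := by rw [pow_two, Complex.mul_im]; ring
    have e3 : (((L 1 : ℂ) + Complex.I * (L Complex.I : ℂ)) / 2).re = L 1 / 2 := by simp
    have e4 : (((L 1 : ℂ) + Complex.I * (L Complex.I : ℂ)) / 2).im = L Complex.I / 2 := by simp
    rw [Complex.mul_im, e1, e2, e3, e4]
    ring
  rw [e]
  simp [lv, op, sg]
  field_simp
  linear_combination (-(xc * (L Complex.I * (c.re ^ 2 - c.im ^ 2)))) * h2

end Crest.Agent.R165.EXb5x811
end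
end

-- ▼ part R165/EXb6_811
section

/-!
# EX at a plus boundary, part 6: the half disc lemma for the limit (row 165, helper811)
-/

set_option autoImplicit false

noncomputable section

namespace Crest.Agent.R165.EXb6x811

open Crest.Agent.R165.Tr1x40 hiding sq2 Ph

open Finset Filter Topology MeasureTheory Crest.Agent.R165.Tr2x40
  Crest.Agent.R165.Intx811 Crest.Agent.R165.NcCutx811 Crest.Agent.R165.RIfx891
  Crest.Agent.R165.EXb1x811 Crest.Agent.R165.EXb2x811 Crest.Agent.R165.EXb3x811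
  Crest.Agent.R165.EXb4x811 Crest.Agent.R165.EXb5x811 ComplexConjugate

open Crest.Agent.R165.PotAx894 (Q mem_Q)
open Crest.Agent.R165.Lim1x943 (pt flr LocBd LocUnif)
open Crest.Agent.R165.Lim2x943 (sq2)
open Crest.Agent.R165.LimRx610 (LD Test dχ A0c)
open Crest.Agent.R165.LimQx610 (E src dir)
open Crest.Agent.R165.Cl1x722 (dbar)
open Crest.Agent.R165.Cl7x722 (cx RTest)
open Crest.Agent.R165.Cl12x722 (HPr)
open Crest.ProbabilityR.IsingModel (meshIndex meshPoint)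

variable {U : Ultrafilter ℕ} {n : ℂ} (S : Sq U n)

/-- rotation -/
def τ (n : ℂ) : ℂ := Complex.I * n

theorem mem_HPr (n z : ℂ) : z ∈ HPr (τ n) ↔ lin n z < 0 := by
  have e : (z * conj (τ n)).im = -lin n z := by
    unfold τ lin
    simp
    ring
  show 0 < (z * conj (τ n)).im ↔ _
  rw [e, neg_pos]

/-- the half disc -/
def Hd (n : ℂ) : Set ℂ := Metric.ball 0 1 ∩ HPr (τ n)

theorem meas_Hd (n : ℂ) : MeasurableSet (Hd n) :=
  Metric.isOpen_ball.measurableSet.inter (Cl12x722.measurableSet_HPr _)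

theorem isOpen_Hd (n : ℂ) : IsOpen (Hd n) := Metric.isOpen_ball.inter (Cl12x722.isOpen_HPr _)

theorem Hd_sub (n : ℂ) : Hd n ⊆ Om n := by
  intro z hz
  have h1 : ‖z‖ < 1 := mem_ball_zero_iff.1 hz.1
  exact ⟨(Complex.abs_re_le_norm z).trans_lt h1, (Complex.abs_im_le_norm z).trans_lt h1,
    (mem_HPr n z).1 hz.2⟩

theorem memLp_F {F : ℂ → ℂ} (hF : DifferentiableOn ℂ F (Om n))
    (hm : ∫⁻ z in Om n, ENNReal.ofReal (2 * ‖F z‖ ^ 2) ≤ 1) :
    MemLp F 2 (volume.restrict (Hd n)) := by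
  refine ⟨(hF.continuousOn.mono (Hd_sub n)).aestronglyMeasurable (meas_Hd n), ?_⟩
  rw [eLpNorm_lt_top_iff_lintegral_rpow_enorm_lt_top (by norm_num) (by norm_num)]
  refine lt_of_le_of_lt ?_ ENNReal.one_lt_top
  refine le_trans ?_ hm
  refine (lintegral_mono_set (Hd_sub n)).trans ?_
  refine lintegral_mono fun z => ?_
  rw [ENNReal.toReal_ofNat, show (2 : ℝ) = ((2 : ℕ) : ℝ) by norm_num, ENNReal.rpow_natCast,
    ← ofReal_norm, ← ENNReal.ofReal_pow (norm_nonneg _)]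
  apply ENNReal.ofReal_le_ofReal
  have := sq_nonneg ‖F z‖
  push_cast
  linarith

/-- mass as a real integral -/
theorem int_F_le {F : ℂ → ℂ} (hm : ∫⁻ z in Om n, ENNReal.ofReal (2 * ‖F z‖ ^ 2) ≤ 1) :
    ∫ z in Hd n, ‖F z‖ ^ 2 ≤ 1 := by
  by_cases hi : Integrable (fun z => ‖F z‖ ^ 2) (volume.restrict (Hd n))
  · have h1 := ofReal_integral_eq_lintegral_ofReal hi (Eventually.of_forall fun z => sq_nonneg _)
    have h2 : ENNReal.ofReal (∫ z in Hd n, ‖F z‖ ^ 2) ≤ ENNReal.ofReal 1 := by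
      rw [h1, ENNReal.ofReal_one]
      refine le_trans ?_ hm
      refine (lintegral_mono_set (Hd_sub n)).trans ?_
      refine lintegral_mono fun z => ?_
      apply ENNReal.ofReal_le_ofReal
      have := sq_nonneg ‖F z‖
      linarith
    rwa [ENNReal.ofReal_le_ofReal_iff (by norm_num)] at h2
  · rw [integral_undef hi]; norm_num

theorem integrable_F2 {F : ℂ → ℂ} (hF : MemLp F 2 (volume.restrict (Hd n))) {χ : ℂ → ℝ}
    (hχ : RTest (Metric.ball 0 1) χ) :
    Integrable (fun z => F z ^ 2 * dbar (cx χ) z) (volume.restrict (Hd n)) := by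
  have h1 : Integrable (fun z => F z * F z) (volume.restrict (Hd n)) := hF.integrable_mul hF
  have hc : Continuous (dbar (cx χ)) :=
    Cl3x722.continuous_dbar (hχ.cx_smooth.of_le (by exact_mod_cast le_top))
  have hs : HasCompactSupport (dbar (cx χ)) := Cl4x722.hasCompactSupport_dbar hχ.cx_cpt
  obtain ⟨M, hM⟩ := hs.exists_bound_of_continuous hc
  have h2 := h1.mul_bdd (c := M) hc.aestronglyMeasurable (Eventually.of_forall hM)
  refine h2.congr (Eventually.of_forall fun z => ?_)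
  simp only [pow_two]

theorem dbar_cx {χ : ℂ → ℝ} {z : ℂ} (hχ : DifferentiableAt ℝ χ z) :
    dbar (cx χ) z = ((fderiv ℝ χ z 1 : ℝ) + Complex.I * (fderiv ℝ χ z Complex.I : ℝ)) / 2 := by
  have h1 : HasFDerivAt (cx χ) (Complex.ofRealCLM.comp (fderiv ℝ χ z)) z :=
    Complex.ofRealCLM.hasFDerivAt.comp z hχ.hasFDerivAt
  unfold dbar
  rw [h1.fderiv]
  simp

theorem set_eq {g : ℂ → ℝ} {T : Set ℂ} {s : ℝ} (hT : T ⊆ Metric.ball 0 1) (hTs : T ⊆ bC s)
    (hg : ∀ z, z ∉ T → g z = 0) :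
    ∫ z in bC s, (Om n).indicator g z = ∫ z in Hd n, g z := by
  rw [← integral_indicator (isClosed_bC s).measurableSet, ← integral_indicator (meas_Hd n)]
  congr 1
  funext z
  by_cases hz : z ∈ T
  · rw [Set.indicator_of_mem (hTs hz)]
    by_cases hO : z ∈ Om n
    · rw [Set.indicator_of_mem hO, Set.indicator_of_mem]
      exact ⟨hT hz, (mem_HPr n z).2 hO.2.2⟩
    · rw [Set.indicator_of_notMem hO, Set.indicator_of_notMem fun h => hO (Hd_sub n h)]
  · have h0 := hg z hz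
    have e1 : (Hd n).indicator g z = 0 := by
      by_cases h : z ∈ Hd n
      · rw [Set.indicator_of_mem h, h0]
      · rw [Set.indicator_of_notMem h]
    have e2 : (Om n).indicator g z = 0 := by
      by_cases h : z ∈ Om n
      · rw [Set.indicator_of_mem h, h0]
      · rw [Set.indicator_of_notMem h]
    rw [e1]
    by_cases h : z ∈ bC s
    · rw [Set.indicator_of_mem h, e2]
    · rw [Set.indicator_of_notMem h]

/-- test functions of the half disc lemma are test functions of the limit laws -/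
theorem exists_test {χ : ℂ → ℝ} (hχ : RTest (Metric.ball 0 1) χ) :
    ∃ s : ℝ, 0 < s ∧ s < 1 ∧ tsupport χ ⊆ bC s ∧ ∃ C : NNReal, Test (Om n) (bC s) χ C := by
  obtain ⟨δ, hδ, hsub⟩ := hχ.cpt.isCompact.exists_cthickening_subset_open Metric.isOpen_ball hχ.supp
  obtain ⟨s, hs, hsub'⟩ := exists_pos_lt_subset_ball (one_pos : (0:ℝ) < 1)
    Metric.isClosed_cthickening hsub
  have hb : Metric.ball (0 : ℂ) s ⊆ bC s := by
    intro z hz
    have h1 : ‖z‖ < s := mem_ball_zero_iff.1 hz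
    exact ⟨(Complex.abs_re_le_norm z).trans h1.le, (Complex.abs_im_le_norm z).trans h1.le⟩
  have h1 : ContDiff ℝ 1 χ := hχ.smooth.of_le (by exact_mod_cast le_top)
  obtain ⟨C, hC⟩ := h1.lipschitzWith_of_hasCompactSupport hχ.cpt one_ne_zero
  refine ⟨s, hs.1, hs.2, (Metric.self_subset_cthickening _).trans (hsub'.trans hb), C, ?_⟩
  refine Test.of_contDiffOn (isOpen_Om n) hC hχ.cpt ⟨δ, hδ, ?_⟩ h1.contDiffOn
  exact (Metric.thickening_subset_cthickening _ _).trans (hsub'.trans hb)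

section laws

variable {F : ℂ → ℂ} (hF : DifferentiableOn ℂ F (Om n))
    (hlim : ∀ a, LocUnif U S.r (Om n) (v S a) (fun z => lv (F z) a))

include hF hlim

theorem law_re {χ : ℂ → ℝ} (hχ : RTest (Metric.ball 0 1) χ) (h0 : ∀ z, 0 ≤ χ z) :
    0 ≤ (∫ z in Hd n, F z ^ 2 * dbar (cx χ) z).re := by
  obtain ⟨s, hs0, hs1, hsupp, C, T⟩ := exists_test (n := n) hχ
  have hm := mass_Om S hF hlim
  have hint := integrable_F2 (memLp_F hF hm) hχ
  have h1 := (ld S hF hlim hs0 hs1).law1 T h0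
  simp only [mul_zero, Finset.sum_const_zero, integral_zero, zero_add] at h1
  have hd : ∀ z, DifferentiableAt ℝ χ z := fun z => hχ.smooth.differentiable (by simp) z
  have e1 : ∀ z, ∑ h, (dχ χ h z * xc ^ 2) * (Ph n F h z * Ph n F h z)
      = (Om n).indicator (fun z => (2 * xc ^ 2) * (F z ^ 2 * dbar (cx χ) z).re) z := by
    intro z
    by_cases hz : z ∈ Om n
    · rw [Set.indicator_of_mem hz, dbar_cx (hd z)]
      have h2 := sum_dir (fderiv ℝ χ z) (F z)
      simp only [Ph, Set.indicator_of_mem hz, dχ]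
      rw [mul_comm (2 : ℝ), mul_assoc, ← h2, mul_sum]
      exact sum_congr rfl fun h _ => by ring
    · simp [Ph, Set.indicator_of_notMem hz]
  simp only [e1] at h1
  rw [set_eq (T := tsupport χ) hχ.supp hsupp, integral_const_mul] at h1
  · have h3 : ∫ z in Hd n, (F z ^ 2 * dbar (cx χ) z).re
        = (∫ z in Hd n, F z ^ 2 * dbar (cx χ) z).re := integral_re hint
    rw [h3] at h1
    have hx : 0 < 2 * xc ^ 2 := by have := xc_pos; positivity
    exact nonneg_of_mul_nonneg_right h1 hx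
  · intro z hz
    have : fderiv ℝ χ z = 0 := by
      by_contra hne
      exact hz (support_fderiv_subset ℝ hne)
    rw [dbar_cx (hd z), this]
    simp

theorem law_im {χ : ℂ → ℝ} (hχ : RTest (Metric.ball 0 1) χ) :
    (∫ z in Hd n, F z ^ 2 * dbar (cx χ) z).im = 0 := by
  obtain ⟨s, hs0, hs1, hsupp, C, T⟩ := exists_test (n := n) hχ
  have hm := mass_Om S hF hlim
  have hint := integrable_F2 (memLp_F hF hm) hχ
  have h1 := (ld S hF hlim hs0 hs1).law2 T
  simp only [mul_zero, Finset.sum_const_zero, integral_zero, zero_add] at h1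
  have hd : ∀ z, DifferentiableAt ℝ χ z := fun z => hχ.smooth.differentiable (by simp) z
  have e1 : ∀ z, ∑ h, dχ χ h z * (Ph n F h z * A0c (Ph n F) h z)
      = (Om n).indicator (fun z => (2 * xc) * (F z ^ 2 * dbar (cx χ) z).im) z := by
    intro z
    by_cases hz : z ∈ Om n
    · rw [Set.indicator_of_mem hz, dbar_cx (hd z)]
      have h2 := sum_dir2 (fderiv ℝ χ z) (F z)
      simp only [Ph, A0c, Set.indicator_of_mem hz, dχ]
      rw [← h2]
    · simp [Ph, Set.indicator_of_notMem hz]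
  simp only [e1] at h1
  rw [set_eq (T := tsupport χ) hχ.supp hsupp, integral_const_mul] at h1
  · have h3 : ∫ z in Hd n, (F z ^ 2 * dbar (cx χ) z).im
        = (∫ z in Hd n, F z ^ 2 * dbar (cx χ) z).im := integral_im hint
    rw [h3] at h1
    have hx : 0 < 2 * xc := by have := xc_pos; positivity
    rcases mul_eq_zero.1 h1 with h | h
    · exact absurd h hx.ne'
    · exact h
  · intro z hz
    have : fderiv ℝ χ z = 0 := by
      by_contra hne
      exact hz (support_fderiv_subset ℝ hne)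
    rw [dbar_cx (hd z), this]
    simp

end laws

/-- **the half disc lemma for the limit** -/
theorem half : ∃ C : ℝ, 0 < C ∧ ∀ (U : Ultrafilter ℕ) (n c : ℂ) (S : Sq U n) (F : ℂ → ℂ),
    c ^ 2 = conj n → DifferentiableOn ℂ F (Om n) →
    (∀ a, LocUnif U S.r (Om n) (v S a) (fun z => lv (F z) a)) →
    ∃ κ : ℝ, ∀ t : ℝ, 0 < t → t ≤ 1 →
      ∫ z in Metric.ball 0 t ∩ HPr (τ n), ‖F z‖ ^ 2 ≤ C * t ^ 2 ∧
      ∫ z in Metric.ball 0 t ∩ HPr (τ n), ‖F z - κ * c‖ ^ 2 ≤ C * t ^ 4 := by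
  obtain ⟨C, hC, H⟩ := Cl12x722.half_disc_rot
  refine ⟨C, hC, ?_⟩
  intro U n c S F hc hF hlim
  have hm := mass_Om S hF hlim
  have hτ : ‖τ n‖ = 1 := by
    unfold τ; rw [norm_mul, Complex.norm_I, one_mul, S.n1]
  have hb : c ^ 2 = ((1 : ℝ) : ℂ) * Complex.I * conj (τ n) := by
    rw [hc]; unfold τ
    rw [map_mul, Complex.conj_I]
    push_cast
    linear_combination (conj n) * Complex.I_mul_I
  obtain ⟨κ, -, h⟩ := H (τ n) 1 c F hτ (by norm_num) hb (memLp_F hF hm)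
    (Cl5x722.wdbar_of_hol (isOpen_Hd n) (hF.mono (Hd_sub n)) (Eventually.of_forall fun _ _ => rfl))
    (fun χ hχ => law_im S hF hlim hχ)
    (fun χ hχ h0 => by rw [one_mul]; exact law_re S hF hlim hχ h0)
  have h1 := int_F_le hm
  refine ⟨κ, fun t ht ht1 => ?_⟩
  obtain ⟨a1, a2⟩ := h t ht ht1
  have b1 : C * t ^ 2 * ∫ z in Hd n, ‖F z‖ ^ 2 ≤ C * t ^ 2 * 1 :=
    mul_le_mul_of_nonneg_left h1 (by positivity)
  have b2 : C * t ^ 4 * ∫ z in Hd n, ‖F z‖ ^ 2 ≤ C * t ^ 4 * 1 :=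
    mul_le_mul_of_nonneg_left h1 (by positivity)
  rw [mul_one] at b1 b2
  exact ⟨a1.trans b1, a2.trans b2⟩

end Crest.Agent.R165.EXb6x811
end
end

-- ▼ part R165/EXb0_682
section

/-!
# EX at a plus boundary, part 0: reduction of `EXb` to sequences (row 165, helper682)

* `ExSq C` : for every ultrafilter `U ≤ atTop` and every normalised sequence `S : Sq U n`
  (`EXb1_811`) with modes `cc k → c`, the two estimates of `EXb` hold eventually along `U`;
  (the sequences satisfy in addition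
  `NB 0 (r k) (φ k) = 1`, `‖nn k‖ = 1`, `cc k ^ 2 = conj (nn k)`, `k ≤ r k`, `0 < ε k`);
* `EXb_of_sq : ExSq C → EXb C`.
-/

set_option autoImplicit false

noncomputable section

namespace Crest.Agent.R165.EXb0x682

open Finset Filter Topology Crest.Agent.R165.Tr1x40 Crest.Agent.R165.RIfx891
  Crest.Agent.R165.EXb1x811

open Crest.Agent.R165.Campx891 (q q_pos q_le_one)

/-! ### translation and gauge -/

theorem nb_add (f x : Face) (h : Fin 4) : nb (f + x) h = nb f h + x := by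
  fin_cases h <;> ext <;> simp [nb] <;> ring

/-- the weights seen from `x` after removing the gauge `s` -/
def tw (s : Face → ℝ) (x : Face) (w : Fld) : Fld :=
  fun f h => s (f + x) * s (nb (f + x) h) * w (f + x) h

/-- the field seen from `x` after removing the gauge `s` -/
def tf (s : Face → ℝ) (x : Face) : Fld →ₗ[ℝ] Fld where
  toFun φ f h := s (f + x) * φ (f + x) h
  map_add' φ ψ := by funext f h; simp only [Pi.add_apply]; ring
  map_smul' c φ := by funext f h; simp only [Pi.smul_apply, smul_eq_mul, RingHom.id_apply]; ring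

theorem tf_apply (s : Face → ℝ) (x : Face) (φ : Fld) (f : Face) (h : Fin 4) :
    tf s x φ f h = s (f + x) * φ (f + x) h := rfl

theorem sym_tw {s : Face → ℝ} {x : Face} {w : Fld} (hw : Sym w) : Sym (tw s x w) := by
  intro f h
  have e1 : nb f h + x = nb (f + x) h := (nb_add f x h).symm
  have e2 := hw (f + x) h
  simp only [tw, e1, nb_nb_op, e2]
  ring

theorem mul_self_of {s : Face → ℝ} (hs : Gauge s) (f : Face) : s f * s f = 1 := by
  rw [← pow_two]; exact hs f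

theorem tw_sq {s : Face → ℝ} (hs : Gauge s) (x : Face) (w : Fld) (f : Face) (h : Fin 4) :
    tw s x w f h ^ 2 = w (f + x) h ^ 2 := sq_of hs _ _ _

theorem tw_eq {s : Face → ℝ} (hs : Gauge s) {x : Face} {w : Fld} {f : Face} {h : Fin 4} {a : ℝ}
    (e : w (f + x) h = s (f + x) * s (nb (f + x) h) * a) : tw s x w f h = a := by
  unfold tw
  rw [e]
  linear_combination (s (nb (f + x) h) ^ 2 * a) * hs (f + x) + a * hs (nb (f + x) h)

theorem A_tf {s : Face → ℝ} (hs : Gauge s) (x : Face) (w φ : Fld) (f : Face) (h : Fin 4) :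
    A (tw s x w) (tf s x φ) f h = s (f + x) * A w φ (f + x) h := by
  have e0 : A0 (tf s x φ f) h = s (f + x) * A0 (φ (f + x)) h := by
    have : tf s x φ f = s (f + x) • φ (f + x) := by funext k; rfl
    rw [this, A0_smul]
  have e1 : Y (tw s x w) (tf s x φ) f h = s (f + x) * Y w φ (f + x) h := by
    have e2 : nb f h + x = nb (f + x) h := (nb_add f x h).symm
    simp only [Y, tf_apply, tw, e2]
    linear_combination (s (f + x) * sg h * w (f + x) h * φ (nb (f + x) h) (op h)) *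
      hs (nb (f + x) h)
  simp only [A]
  rw [e0, e1]; ring

theorem mem_bx_add {x f : Face} {r : ℝ} : f + x ∈ bx x r ↔ f ∈ bx 0 r := by
  rw [mem_bx, mem_bx]
  simp

theorem nsq_tf {s : Face → ℝ} (hs : Gauge s) (x : Face) (φ : Fld) (f : Face) :
    nsq (tf s x φ f) = nsq (φ (f + x)) := by
  unfold nsq
  refine sum_congr rfl fun h _ => ?_
  rw [tf_apply, mul_pow, hs, one_mul]

theorem NB_tf {s : Face → ℝ} (hs : Gauge s) (x : Face) (r : ℝ) (φ : Fld) :
    NB 0 r (tf s x φ) = NB x r φ := by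
  have h1 : NB 0 r (tf s x φ) ^ 2 = NB x r φ ^ 2 := by
    rw [NB_sq, NB_sq]
    refine sum_bij (fun f _ => f + x) (fun f hf => mem_bx_add.2 hf)
      (fun a _ b _ h => add_right_cancel h) (fun g hg => ⟨g - x, ?_, sub_add_cancel g x⟩)
      (fun f _ => nsq_tf hs x φ f)
    rw [← mem_bx_add (x := x), sub_add_cancel]
    exact hg
  exact (pow_left_inj₀ (apply_nonneg _ _) (apply_nonneg _ _) two_ne_zero).1 h1

theorem dotn_add (n : ℂ) (x f : Face) : dotn n x (f + x) = dotn n 0 f := by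
  unfold dotn
  simp

theorem tf_modeB {s : Face → ℝ} (hs : Gauge s) (x : Face) (n c : ℂ) :
    tf s x (modeB s x n c) = modeB (fun _ => 1) 0 n c := by
  funext f h
  rw [tf_apply]
  unfold modeB
  rw [dotn_add]
  split_ifs
  · rw [← mul_assoc, mul_self_of hs]
  · rw [mul_zero]

/-! ### the statement about sequences -/

/-- the statement about normalised sequences -/
def ExSq (C : ℝ) : Prop :=
  ∀ (U : Ultrafilter ℕ) (n c : ℂ) (S : Sq U n) (cc : ℕ → ℂ), (U : Filter ℕ) ≤ atTop →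
    c ^ 2 = (starRingEnd ℂ) n → Tendsto cc U (𝓝 c) →
    (∀ k, ‖S.nn k‖ = 1) → (∀ k, cc k ^ 2 = (starRingEnd ℂ) (S.nn k)) →
    (∀ k : ℕ, (k : ℝ) ≤ S.r k) → (∀ k, 0 < S.ε k) → (∀ k, NB 0 (S.r k) (S.φ k) = 1) →
    ∀ (m : ℕ) (η : ℝ), 0 < η →
      (∀ᶠ k in (U : Filter ℕ), NB 0 (S.r k * q ^ (2 * m)) (S.φ k) ≤ C * q ^ (2 * m) + η) ∧
      (∀ᶠ k in (U : Filter ℕ), ∃ κ : ℝ,
        NB 0 (S.r k * q ^ (2 * m)) (S.φ k - κ • modeB (fun _ => 1) 0 (S.nn k) (cc k)) ≤
          C * q ^ (4 * m) + η)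

/-- one failing solution at one scale, normalised -/
theorem fail_one {C : ℝ} (hC : 0 ≤ C) {m : ℕ} {η : ℝ} (hη : 0 < η) {w : Fld} {s : Face → ℝ}
    {x : Face} {r : ℝ} {n c : ℂ} {ε : ℝ} (hr : 0 ≤ r) (H : PlusFlat w s x r n ε)
    (hf : ¬ (Ex1On w x r (r * q ^ (2 * m)) (C * q ^ (2 * m) + η) ∧
      Ex2On w x r (r * q ^ (2 * m)) (modeB s x n c) (C * q ^ (4 * m) + η))) :
    ∃ (w' φ : Fld), Sym w' ∧ IsPlusOn w' 0 r ∧
      (∀ f ∈ bx 0 r, dotn n 0 f ≤ -(ε * r) → ∀ h, w' f h = xc) ∧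
      (∀ f ∈ bx 0 r, ε * r ≤ dotn n 0 f → ∀ h, w' f h = 0) ∧
      (∀ f ∈ bx 0 r, A w' φ f = 0) ∧ NB 0 r φ = 1 ∧
      (C * q ^ (2 * m) + η < NB 0 (r * q ^ (2 * m)) φ ∨
        ∀ κ : ℝ, C * q ^ (4 * m) + η <
          NB 0 (r * q ^ (2 * m)) (φ - κ • modeB (fun _ => 1) 0 n c)) := by
  have hq := q_pos
  have hs := H.gauge
  have htr : r * q ^ (2 * m) ≤ r :=
    mul_le_of_le_one_right hr (pow_le_one₀ hq.le q_le_one)
  -- a failing exact solution
  obtain ⟨e, he, hpos, hbad⟩ : ∃ e : Fld, (∀ f ∈ bx x r, A w e f = 0) ∧ 0 < NB x r e ∧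
      ((C * q ^ (2 * m) + η) * NB x r e < NB x (r * q ^ (2 * m)) e ∨
        ∀ κ : ℝ, (C * q ^ (4 * m) + η) * NB x r e <
          NB x (r * q ^ (2 * m)) (e - κ • modeB s x n c)) := by
    rw [not_and_or] at hf
    rcases hf with hf | hf
    · unfold Ex1On at hf
      push Not at hf
      obtain ⟨e, he, hlt⟩ := hf
      refine ⟨e, he, ?_, Or.inl hlt⟩
      have h1 : 0 ≤ (C * q ^ (2 * m) + η) * NB x r e := by
        have : 0 ≤ NB x r e := apply_nonneg _ _
        positivity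
      have h2 : NB x (r * q ^ (2 * m)) e ≤ NB x r e := NB_mono x htr e
      linarith
    · unfold Ex2On at hf
      push Not at hf
      obtain ⟨e, he, hlt⟩ := hf
      refine ⟨e, he, ?_, Or.inr hlt⟩
      have h0 := hlt 0
      rw [zero_smul, sub_zero] at h0
      have h1 : 0 ≤ (C * q ^ (4 * m) + η) * NB x r e := by
        have : 0 ≤ NB x r e := apply_nonneg _ _
        positivity
      have h2 : NB x (r * q ^ (2 * m)) e ≤ NB x r e := NB_mono x htr e
      linarith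
  set N := NB x r e with hN
  have hNi : 0 < N⁻¹ := inv_pos.2 hpos
  have hsm : ∀ (t : ℝ) (ψ : Fld), NB 0 t (N⁻¹ • ψ) = N⁻¹ * NB 0 t ψ := by
    intro t ψ
    rw [map_smul_eq_mul, Real.norm_eq_abs, abs_of_pos hNi]
  refine ⟨tw s x w, N⁻¹ • tf s x e, sym_tw H.sym, ?_, ?_, ?_, ?_, ?_, ?_⟩
  · intro f hf h
    have h1 := H.plus (f + x) (mem_bx_add.2 hf) h
    rcases h1 with h1 | h1
    · left; rw [tw_sq hs, h1]
    · right; unfold tw; rw [h1, mul_zero]
  · intro f hf hd h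
    refine tw_eq hs (H.inside (f + x) (mem_bx_add.2 hf) ?_ h)
    rwa [dotn_add]
  · intro f hf hd h
    have h1 := H.outside (f + x) (mem_bx_add.2 hf) (by rwa [dotn_add]) h
    unfold tw
    rw [h1, mul_zero]
  · intro f hf
    have h1 : A (tw s x w) (tf s x e) f = 0 := by
      funext h
      rw [A_tf hs, he (f + x) (mem_bx_add.2 hf)]
      simp
    have h2 : A (tw s x w) (N⁻¹ • tf s x e) = N⁻¹ • A (tw s x w) (tf s x e) :=
      (AL (tw s x w)).map_smul N⁻¹ (tf s x e)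
    rw [h2, Pi.smul_apply, h1, smul_zero]
  · rw [hsm, NB_tf hs, ← hN, inv_mul_cancel₀ hpos.ne']
  · rcases hbad with hb | hb
    · left
      rw [hsm, NB_tf hs, inv_mul_eq_div, lt_div_iff₀ hpos]
      exact hb
    · right
      intro κ
      have e1 : N⁻¹ • tf s x e - κ • modeB (fun _ => 1) 0 n c =
          N⁻¹ • tf s x (e - (N * κ) • modeB s x n c) := by
        rw [map_sub, map_smul, tf_modeB hs, smul_sub, smul_smul, ← mul_assoc,
          inv_mul_cancel₀ hpos.ne', one_mul]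
      rw [e1, hsm, NB_tf hs, inv_mul_eq_div, lt_div_iff₀ hpos]
      exact hb (N * κ)

theorem norm_one_of_sq {c n : ℂ} (hn : ‖n‖ = 1) (hc : c ^ 2 = (starRingEnd ℂ) n) : ‖c‖ = 1 := by
  have h1 : ‖c‖ ^ 2 = 1 := by rw [← norm_pow, hc, RCLike.norm_conj, hn]
  exact (pow_eq_one_iff_of_nonneg (norm_nonneg c) two_ne_zero).1 h1

/-- **reduction of `EXb` to sequences** -/
theorem EXb_of_sq {C : ℝ} (hC : 0 ≤ C) (H : ExSq C) : EXb C := by
  intro m η hη
  by_contra hcon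
  have hk : ∀ k : ℕ, ∃ (w : Fld) (s : Face → ℝ) (x : Face) (r : ℝ) (n c : ℂ), (k : ℝ) ≤ r ∧
      ‖n‖ = 1 ∧ c ^ 2 = (starRingEnd ℂ) n ∧ PlusFlat w s x r n (1 / ((k : ℝ) + 1)) ∧
      ¬ (Ex1On w x r (r * q ^ (2 * m)) (C * q ^ (2 * m) + η) ∧
        Ex2On w x r (r * q ^ (2 * m)) (modeB s x n c) (C * q ^ (4 * m) + η)) := by
    intro k
    by_contra hcon2
    push Not at hcon2
    refine hcon ⟨k, 1 / ((k : ℝ) + 1), by positivity, ?_⟩
    intro w s x r n c hr hn hc hP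
    exact hcon2 w s x r n c hr hn hc hP
  choose w s x r n c hr hn hc hP hbad using hk
  have hr0 : ∀ k, 0 ≤ r k := fun k => (Nat.cast_nonneg k).trans (hr k)
  choose w' φ hsym hplus hin hout hex hnorm hfail using
    fun k => fail_one hC hη (hr0 k) (hP k) (hbad k)
  -- the ultrafilter
  set U : Ultrafilter ℕ := hyperfilter ℕ with hU
  have hUle : (U : Filter ℕ) ≤ atTop := by
    rw [← Nat.cofinite_eq_atTop]
    exact hyperfilter_le_cofinite
  have hcpt : IsCompact (Metric.closedBall (0 : ℂ) 1) := isCompact_closedBall 0 1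
  have hlim : ∀ z : ℕ → ℂ, (∀ k, ‖z k‖ = 1) → ∃ z0 : ℂ, Tendsto z U (𝓝 z0) := by
    intro z hz
    obtain ⟨z0, -, hz0⟩ := hcpt.ultrafilter_le_nhds' (U.map z) (by
      rw [Ultrafilter.mem_map]
      exact Filter.univ_mem' fun k => by
        rw [Set.mem_preimage, mem_closedBall_zero_iff, hz k])
    exact ⟨z0, hz0⟩
  obtain ⟨n0, hn0⟩ := hlim n hn
  have hcn : ∀ k, ‖c k‖ = 1 := fun k => norm_one_of_sq (hn k) (hc k)
  obtain ⟨c0, hc0⟩ := hlim c hcn
  have hn01 : ‖n0‖ = 1 := by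
    refine tendsto_nhds_unique hn0.norm ?_
    simp only [hn]
    exact tendsto_const_nhds
  have hc02 : c0 ^ 2 = (starRingEnd ℂ) n0 := by
    refine tendsto_nhds_unique (hc0.pow 2) ?_
    simp only [hc]
    exact (Complex.continuous_conj.tendsto n0).comp hn0
  have hrt : Tendsto r U atTop :=
    (tendsto_atTop_mono hr tendsto_natCast_atTop_atTop).mono_left hUle
  have hεt : Tendsto (fun k : ℕ => 1 / ((k : ℝ) + 1)) U (𝓝 0) :=
    tendsto_one_div_add_atTop_nhds_zero_nat.mono_left hUle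
  let S : Sq U n0 :=
    { r := r, ε := fun k => 1 / ((k : ℝ) + 1), nn := n, w := w', φ := φ, hr := hrt, hε := hεt,
      hn := hn0, n1 := hn01, sym := hsym, plus := hplus, inside := hin, outside := hout,
      exact := hex, norm := fun k => (hnorm k).le }
  obtain ⟨h1, h2⟩ := H U n0 c0 S c hUle hc02 hc0 hn hc hr (fun k => by
    show 0 < 1 / ((k : ℝ) + 1); positivity) hnorm m η hη
  obtain ⟨k, hk1, hk2⟩ := (h1.and h2).exists
  rcases hfail k with hf | hf
  · exact absurd hk1 (not_le.2 hf)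
  · obtain ⟨κ, hκ⟩ := hk2
    exact absurd hκ (not_le.2 (hf κ))

end Crest.Agent.R165.EXb0x682
end
end

-- ▼ part R165/NBlim_54
section

/-!
Row 165 (helper54 for helper811): discrete transfer. Strong `L²` convergence of the rescaled
components on the closed box `bC s` gives eventual bounds of the discrete norms on `bx 0 (t r)`.
-/

set_option autoImplicit false

noncomputable section

namespace Crest.Agent.R165.NBlimx54

open Finset Filter Topology MeasureTheory Crest.Agent.R165.Tr1x40 Crest.Agent.R165.RIfx891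
  Crest.Agent.R165.Lim1x943 Crest.Agent.R165.Lim2x943

/-- the cells of the faces of the box are inside the larger box -/
theorem cell_subset {r t s : ℝ} (hr : 0 < r) (h : 1 / r ≤ s - t) {f : Face}
    (hf : f ∈ bx 0 (t * r)) : cell r f ⊆ EXb3x811.bC s := by
  intro z hz
  rw [mem_cell] at hz
  rw [mem_bx_real] at hf
  simp only [Prod.fst_zero, Prod.snd_zero, Int.cast_zero, sub_zero] at hf
  have h1 := abs_floor_div r hr z.re
  have h2 := abs_floor_div r hr z.im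
  have e1 : ⌊r * z.re⌋ = f.1 := congrArg Prod.fst hz
  have e2 : ⌊r * z.im⌋ = f.2 := congrArg Prod.snd hz
  rw [e1] at h1
  rw [e2] at h2
  have b1 : |(f.1 : ℝ) / r| ≤ t := by
    rw [abs_div, abs_of_pos hr, div_le_iff₀ hr]; exact hf.1
  have b2 : |(f.2 : ℝ) / r| ≤ t := by
    rw [abs_div, abs_of_pos hr, div_le_iff₀ hr]; exact hf.2
  rw [abs_le] at h1 h2 b1 b2
  constructor
  · rw [abs_le]; constructor <;> linarith
  · rw [abs_le]; constructor <;> linarith

/-- lower bound of the integral of a component -/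
theorem comp_le {r t s : ℝ} (hr : 0 < r) (h : 1 / r ≤ s - t) (φ : Fld) (a : Fin 4) :
    ∑ f ∈ bx 0 (t * r), ENNReal.ofReal (φ f a ^ 2) ≤
      ∫⁻ z in EXb3x811.bC s, sq2 (r * φ (flr r z) a) := by
  refine le_trans (le_of_eq ?_) (sum_le_lintegral_flr (A := EXb3x811.bC s) hr
    (fun f hf => cell_subset (s := s) hr h hf) (fun f => sq2 (r * φ f a)))
  refine Finset.sum_congr rfl fun f _ => ?_
  rw [Lim2x943.sq2, ← ENNReal.ofReal_mul (sq_nonneg _)]
  congr 1
  field_simp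

/-- the norm of the box in terms of the components -/
theorem NB_le {r t s : ℝ} (hr : 0 < r) (h : 1 / r ≤ s - t) (φ : Fld) :
    ENNReal.ofReal (NB 0 (t * r) φ ^ 2) ≤
      ∑ a : Fin 4, ∫⁻ z in EXb3x811.bC s, sq2 (r * φ (flr r z) a) := by
  rw [NB_sq]
  have e : ∑ f ∈ bx 0 (t * r), nsq (φ f) = ∑ a : Fin 4, ∑ f ∈ bx 0 (t * r), φ f a ^ 2 := by
    rw [Finset.sum_comm]; rfl
  rw [e, ENNReal.ofReal_sum_of_nonneg (fun a _ => Finset.sum_nonneg fun f _ => sq_nonneg _)]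
  refine Finset.sum_le_sum fun a _ => ?_
  rw [ENNReal.ofReal_sum_of_nonneg (fun f _ => sq_nonneg _)]
  exact comp_le hr h φ a

/-- **discrete transfer** -/
theorem NB_ev {U : Filter ℕ} [U.NeBot] {r : ℕ → ℝ} (hr : Tendsto r U atTop) {φ : ℕ → Fld}
    {G : Fin 4 → ℂ → ℝ} (hG : ∀ a, Measurable (G a)) {t s : ℝ} (_ht : 0 < t) (hts : t < s)
    (hlim : ∀ a, Tendsto (fun k => ∫⁻ z in EXb3x811.bC s,
      Lim2x943.sq2 (r k * φ k (Lim1x943.flr (r k) z) a - G a z)) U (𝓝 0))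
    {M : ℝ} (hM : 0 ≤ M)
    (hGM : ∑ a, ∫⁻ z in EXb3x811.bC s, Lim2x943.sq2 (G a z) ≤ ENNReal.ofReal (M ^ 2))
    {η : ℝ} (he : 0 < η) : ∀ᶠ k in U, RIfx891.NB 0 (t * r k) (φ k) ≤ M + η := by
  have h1 : ∀ a : Fin 4, Tendsto (fun k => ∫⁻ z in EXb3x811.bC s, sq2 (r k * φ k (flr (r k) z) a))
      U (𝓝 (∫⁻ z in EXb3x811.bC s, sq2 (G a z))) := by
    intro a
    have h2 := norm_tendsto (v := fun k f => r k * φ k f a) (r := r) (hG a) (hlim a)
    have h3 := ENNReal.Tendsto.pow (n := 2) h2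
    simp only [nrm_sq] at h3
    exact h3
  have h2 : Tendsto (fun k => ∑ a : Fin 4, ∫⁻ z in EXb3x811.bC s, sq2 (r k * φ k (flr (r k) z) a))
      U (𝓝 (∑ a : Fin 4, ∫⁻ z in EXb3x811.bC s, sq2 (G a z))) :=
    tendsto_finsetSum _ fun a _ => h1 a
  have h3 : ∑ a : Fin 4, ∫⁻ z in EXb3x811.bC s, sq2 (G a z) < ENNReal.ofReal ((M + η) ^ 2) := by
    refine lt_of_le_of_lt hGM ?_
    rw [ENNReal.ofReal_lt_ofReal_iff (by positivity)]
    nlinarith
  have h4 := h2.eventually_lt_const h3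
  have h5 : ∀ᶠ k in U, 1 / r k ≤ s - t := by
    have : Tendsto (fun k => 1 / r k) U (𝓝 0) := by
      simp only [one_div]
      exact tendsto_inv_atTop_zero.comp hr
    exact this.eventually_le_const (by linarith)
  filter_upwards [h4, h5, hr.eventually_gt_atTop 0] with k hk4 hk5 hk0
  have h6 := (NB_le hk0 hk5 (φ k)).trans hk4.le
  have h7 := (ENNReal.ofReal_le_ofReal_iff (by positivity)).1 h6
  exact le_of_sq_le_sq h7 (by positivity)
where
  le_of_sq_le_sq {a b : ℝ} (h : a ^ 2 ≤ b ^ 2) (hb : 0 ≤ b) : a ≤ b := by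
    by_contra hc
    push Not at hc
    nlinarith

end Crest.Agent.R165.NBlimx54
end
end

-- ▼ part R165/EXb7_811
section

/-!
# EX at a plus boundary, part 7: the leaf `EXb` (row 165, helper811)
-/

set_option autoImplicit false

noncomputable section

namespace Crest.Agent.R165.EXb7x811

open Crest.Agent.R165.Tr1x40 hiding sq2 Ph

open Finset Filter Topology MeasureTheory Crest.Agent.R165.Tr2x40
  Crest.Agent.R165.RIfx891 Crest.Agent.R165.EXb1x811 Crest.Agent.R165.EXb2x811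
  Crest.Agent.R165.EXb3x811 Crest.Agent.R165.EXb4x811 Crest.Agent.R165.EXb5x811
  Crest.Agent.R165.EXb6x811 ComplexConjugate

open Crest.Agent.R165.Lim1x943 (pt flr LocBd LocUnif)
open Crest.Agent.R165.Lim2x943 (sq2)
open Crest.Agent.R165.Cl12x722 (HPr)

variable {U : Ultrafilter ℕ} {n : ℂ}

/-- half discs -/
def Ht (n : ℂ) (t : ℝ) : Set ℂ := Metric.ball 0 t ∩ HPr (τ n)


theorem Ht_sub (n : ℂ) {t : ℝ} (ht : t ≤ 1) : Ht n t ⊆ Hd n :=
  Set.inter_subset_inter_left _ (Metric.ball_subset_ball ht)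

theorem bC_Om_sub {s t : ℝ} (hs : 0 < s) (hst : 2 * s ^ 2 < t ^ 2) (ht : 0 < t) :
    bC s ∩ Om n ⊆ Ht n t := by
  rintro z ⟨h1, h2⟩
  refine ⟨?_, (mem_HPr n z).2 h2.2.2⟩
  rw [mem_ball_zero_iff]
  have e1 : ‖z‖ ^ 2 = z.re ^ 2 + z.im ^ 2 := by
    rw [Complex.sq_norm, Complex.normSq_apply]; ring
  have e2 : z.re ^ 2 ≤ s ^ 2 := sq_le_sq' (abs_le.1 h1.1).1 (abs_le.1 h1.1).2
  have e3 : z.im ^ 2 ≤ s ^ 2 := sq_le_sq' (abs_le.1 h1.2).1 (abs_le.1 h1.2).2
  exact lt_of_pow_lt_pow_left₀ 2 ht.le (by linarith)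

theorem lv_sub (a b : ℂ) (κ : ℝ) (h : Fin 4) : lv (a - κ * b) h = lv a h - κ * lv b h := by
  fin_cases h <;> simp [lv] <;> ring

/-- mass of the limit minus a mode -/
theorem mass_mode {F : ℂ → ℂ} (hF : DifferentiableOn ℂ F (Om n))
    (hm : ∫⁻ z in Om n, ENNReal.ofReal (2 * ‖F z‖ ^ 2) ≤ 1) (c : ℂ) (κ : ℝ) {s t B : ℝ}
    (hs : 0 < s) (hs1 : s < 1) (hst : 2 * s ^ 2 < t ^ 2) (ht : 0 < t) (ht1 : t ≤ 1)
    (hB : ∫ z in Ht n t, ‖F z - κ * c‖ ^ 2 ≤ B) :
    ∑ a, ∫⁻ z in bC s, sq2 (Ph n F a z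
      - {z | lin n z < 0}.indicator (fun _ => κ * lv c a) z) ≤ ENNReal.ofReal (2 * B) := by
  have hH : MeasurableSet {z : ℂ | lin n z < 0} := (isOpen_lt (continuous_lin n) continuous_const).measurableSet
  rw [← lintegral_finsetSum]
  · have e1 : ∀ z ∈ bC s, ∑ a, sq2 (Ph n F a z
        - {z | lin n z < 0}.indicator (fun _ => κ * lv c a) z)
        = (Om n).indicator (fun z => ENNReal.ofReal (2 * ‖F z - κ * c‖ ^ 2)) z := by
      intro z hz
      by_cases hO : z ∈ Om n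
      · have h2 : z ∈ {z : ℂ | lin n z < 0} := hO.2.2
        rw [Set.indicator_of_mem hO]
        simp only [Ph, Set.indicator_of_mem hO, Set.indicator_of_mem h2, sq2, ← lv_sub]
        rw [← ENNReal.ofReal_sum_of_nonneg fun a _ => sq_nonneg _]
        congr 1
        have := nsq_lv (F z - κ * c)
        rw [nsq, Complex.normSq_eq_norm_sq] at this
        exact this
      · have h2 : z ∉ {z : ℂ | lin n z < 0} := fun h =>
          hO ⟨hz.1.trans_lt hs1, hz.2.trans_lt hs1, h⟩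
        rw [Set.indicator_of_notMem hO]
        simp [Ph, Set.indicator_of_notMem hO, Set.indicator_of_notMem h2, sq2]
    rw [setLIntegral_congr_fun (isClosed_bC s).measurableSet e1]
    have hint : Integrable (fun z => ‖F z - κ * c‖ ^ 2) (volume.restrict (Ht n t)) := by
      have h1 : MemLp F 2 (volume.restrict (Ht n t)) :=
        (memLp_F hF hm).mono_measure (Measure.restrict_mono (Ht_sub n ht1) le_rfl)
      have : IsFiniteMeasure (volume.restrict (Ht n t)) := ⟨by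
        rw [Measure.restrict_apply_univ]
        exact (measure_mono Set.inter_subset_left).trans_lt measure_ball_lt_top⟩
      have h2 : MemLp (fun z => F z - κ * c) 2 (volume.restrict (Ht n t)) :=
        h1.sub (memLp_const _)
      exact h2.norm.integrable_sq
    calc ∫⁻ z in bC s, (Om n).indicator (fun z => ENNReal.ofReal (2 * ‖F z - κ * c‖ ^ 2)) z
        = ∫⁻ z in bC s ∩ Om n, ENNReal.ofReal (2 * ‖F z - κ * c‖ ^ 2) := by
          rw [lintegral_indicator (isOpen_Om n).measurableSet,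
            Measure.restrict_restrict (isOpen_Om n).measurableSet, Set.inter_comm]
      _ ≤ ∫⁻ z in Ht n t, ENNReal.ofReal (2 * ‖F z - κ * c‖ ^ 2) :=
          lintegral_mono_set (bC_Om_sub hs hst ht)
      _ = ENNReal.ofReal (∫ z in Ht n t, 2 * ‖F z - κ * c‖ ^ 2) :=
          (ofReal_integral_eq_lintegral_ofReal (hint.const_mul 2)
            (Eventually.of_forall fun z => by positivity)).symm
      _ ≤ ENNReal.ofReal (2 * B) := by
          apply ENNReal.ofReal_le_ofReal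
          rw [integral_const_mul]
          linarith
  · intro a _
    exact Lim2x943.measurable_sq2.comp ((meas_Ph hF a).sub (measurable_const.indicator hH))

/-- strong convergence of the field minus a mode -/
theorem strong_mode (S : Sq U n) {cc : ℕ → ℂ} {c : ℂ} (hcc : Tendsto cc U (𝓝 c)) {F : ℂ → ℂ}
    (hF : DifferentiableOn ℂ F (Om n))
    (hlim : ∀ a, LocUnif U S.r (Om n) (v S a) (fun z => lv (F z) a)) (κ : ℝ) {s : ℝ}
    (hs0 : 0 < s) (hs : s < 1) (a : Fin 4) :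
    Tendsto (fun k => ∫⁻ z in bC s,
      sq2 (S.r k * (S.φ k - (κ / S.r k) • modeB (fun _ => 1) 0 (S.nn k) (cc k))
        (flr (S.r k) z) a
        - (Ph n F a z - {z | lin n z < 0}.indicator (fun _ => κ * lv c a) z))) U (𝓝 0) := by
  have h1 := strongP S hF hlim a hs0 hs
  have h2 := ModeTx841.modeB_lim S.hr S.hn hcc S.n1 s a
  have h3 : Tendsto (fun k => 2 * (∫⁻ z in bC s, sq2 (v S a k (flr (S.r k) z) - Ph n F a z))
      + 2 * (ENNReal.ofReal (κ ^ 2) * ∫⁻ z in bC s,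
        sq2 (modeB (fun _ => 1) 0 (S.nn k) (cc k) (flr (S.r k) z) a
          - {z | lin n z < 0}.indicator (fun _ => lv c a) z))) U (𝓝 0) := by
    have a1 := ENNReal.Tendsto.const_mul (a := 2) h1 (Or.inr (by norm_num))
    have a2 := ENNReal.Tendsto.const_mul (a := ENNReal.ofReal (κ ^ 2)) h2
      (Or.inr ENNReal.ofReal_ne_top)
    have a3 := ENNReal.Tendsto.const_mul (a := 2) a2 (Or.inr (by norm_num))
    simpa using a1.add a3
  refine tendsto_of_tendsto_of_tendsto_of_le_of_le' tendsto_const_nhds h3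
    (Eventually.of_forall fun _ => zero_le) ?_
  filter_upwards [S.hr.eventually_gt_atTop 0] with k hr
  have hH : MeasurableSet {z : ℂ | lin n z < 0} := (isOpen_lt (continuous_lin n) continuous_const).measurableSet
  have m1 : Measurable fun z => sq2 (v S a k (flr (S.r k) z) - Ph n F a z) :=
    Lim2x943.measurable_sq2.comp ((Lim2x943.measurable_comp_flr _ (v S a k)).sub (meas_Ph hF a))
  have m2 : Measurable fun z => sq2 (modeB (fun _ => 1) 0 (S.nn k) (cc k) (flr (S.r k) z) a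
          - {z | lin n z < 0}.indicator (fun _ => lv c a) z) :=
    Lim2x943.measurable_sq2.comp ((Lim2x943.measurable_comp_flr _
      (fun f => modeB (fun _ => 1) 0 (S.nn k) (cc k) f a)).sub (measurable_const.indicator hH))
  rw [← lintegral_const_mul _ m2, ← lintegral_const_mul _ m1,
    ← lintegral_const_mul _ (m2.const_mul _), ← lintegral_add_left (m1.const_mul _)]
  refine lintegral_mono fun z => ?_
  have e1 : S.r k * (S.φ k - (κ / S.r k) • modeB (fun _ => 1) 0 (S.nn k) (cc k))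
        (flr (S.r k) z) a
        - (Ph n F a z - {z | lin n z < 0}.indicator (fun _ => κ * lv c a) z)
      = (v S a k (flr (S.r k) z) - Ph n F a z)
        - κ * (modeB (fun _ => 1) 0 (S.nn k) (cc k) (flr (S.r k) z) a
          - {z | lin n z < 0}.indicator (fun _ => lv c a) z) := by
    have e2 : {z | lin n z < 0}.indicator (fun _ => κ * lv c a) z
        = κ * {z | lin n z < 0}.indicator (fun _ => lv c a) z := by
      by_cases h : z ∈ {z : ℂ | lin n z < 0}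
      · rw [Set.indicator_of_mem h, Set.indicator_of_mem h]
      · rw [Set.indicator_of_notMem h, Set.indicator_of_notMem h, mul_zero]
    rw [e2]
    simp only [v, Pi.sub_apply, Pi.smul_apply, smul_eq_mul]
    field_simp
    ring
  rw [e1]
  refine (Lim2x943.sq2_sub_le _ _).trans (le_of_eq ?_)
  congr 1
  rw [sq2, mul_pow, ENNReal.ofReal_mul (sq_nonneg _)]
  rfl

theorem exSq : ∃ C : ℝ, 0 ≤ C ∧ EXb0x682.ExSq C := by
  obtain ⟨C0, hC0, hhalf⟩ := half
  refine ⟨1 + Real.sqrt (32 * C0), by positivity, ?_⟩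
  intro U n c S cc hU hc hcc hnn hcc2 hk hε hN m η hη
  have hq := Campx891.q_pos
  rcases Nat.eq_zero_or_pos m with rfl | hm
  · constructor
    · refine Eventually.of_forall fun k => ?_
      simp only [mul_zero, pow_zero, mul_one, hN k]
      have := Real.sqrt_nonneg (32 * C0)
      linarith
    · refine Eventually.of_forall fun k => ⟨0, ?_⟩
      simp only [mul_zero, pow_zero, mul_one, zero_smul, sub_zero, hN k]
      have := Real.sqrt_nonneg (32 * C0)
      linarith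
  set T : ℝ := Campx891.q ^ (2 * m) with hT
  have hT0 : 0 < T := by positivity
  have hT1 : T ≤ 1 / 2 := by
    have e1 : Campx891.q ^ 2 = 1 / 2 := Campx891.q_sq
    rw [hT, pow_mul, e1]
    calc ((1 : ℝ) / 2) ^ m ≤ (1 / 2) ^ 1 :=
          pow_le_pow_of_le_one (by norm_num) (by norm_num) hm
      _ = 1 / 2 := pow_one _
  have hT4 : Campx891.q ^ (4 * m) = T ^ 2 := by rw [hT, ← pow_mul]; congr 1; omega
  obtain ⟨F, hF, hlim⟩ := exists_F S
  have hmass := mass_Om S hF hlim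
  obtain ⟨κ, hκ⟩ := hhalf U n c S F hc hF hlim
  obtain ⟨h1, h2⟩ := hκ (2 * T) (by positivity) (by linarith)
  have hs0 : 0 < 5 / 4 * T := by positivity
  have hs1 : 5 / 4 * T < 1 := by linarith
  have hts : T < 5 / 4 * T := by linarith
  have hst : 2 * (5 / 4 * T) ^ 2 < (2 * T) ^ 2 := by nlinarith [mul_pos hT0 hT0]
  have hH : MeasurableSet {z : ℂ | lin n z < 0} :=
    (isOpen_lt (continuous_lin n) continuous_const).measurableSet
  have hsq : Real.sqrt (32 * C0) ^ 2 = 32 * C0 := Real.sq_sqrt (by positivity)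
  have hG : ∀ κ' : ℝ, ∀ a, Measurable fun z =>
      Ph n F a z - {z | lin n z < 0}.indicator (fun _ => κ' * lv c a) z :=
    fun κ' a => (meas_Ph hF a).sub (measurable_const.indicator hH)
  have key : ∀ κ' M : ℝ, 0 ≤ M → ∫ z in Ht n (2 * T), ‖F z - κ' * c‖ ^ 2 ≤ M ^ 2 / 2 →
      ∀ᶠ k in (U : Filter ℕ), NB 0 (T * S.r k)
        (S.φ k - (κ' / S.r k) • modeB (fun _ => 1) 0 (S.nn k) (cc k)) ≤ M + η := by
    intro κ' M hM hB
    refine NBlimx54.NB_ev S.hr (hG κ') hT0 hts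
      (fun a => strong_mode S hcc hF hlim κ' hs0 hs1 a) hM ?_ hη
    refine (mass_mode hF hmass c κ' hs0 hs1 hst (by positivity) (by linarith) hB).trans ?_
    apply ENNReal.ofReal_le_ofReal
    linarith
  constructor
  · have h3 := key 0 (Real.sqrt (32 * C0) * T) (by positivity) (by
      have e : ∀ z, F z - ((0 : ℝ) : ℂ) * c = F z := fun z => by simp
      simp only [e]
      refine h1.trans ?_
      rw [mul_pow (Real.sqrt _), hsq]
      nlinarith [mul_pos hC0 (mul_pos hT0 hT0)])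
    filter_upwards [h3] with k hk3
    simp only [zero_div, zero_smul, sub_zero] at hk3
    rw [mul_comm (S.r k)]
    refine hk3.trans ?_
    nlinarith
  · have h3 := key κ (Real.sqrt (32 * C0) * T ^ 2) (by positivity) (by
      refine h2.trans (le_of_eq ?_)
      rw [mul_pow (Real.sqrt _), hsq]
      ring)
    filter_upwards [h3] with k hk3
    refine ⟨κ / S.r k, ?_⟩
    rw [mul_comm (S.r k), hT4]
    refine hk3.trans ?_
    have : 0 < T ^ 2 := by positivity
    nlinarith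

/-- **the leaf `EXb`** -/
theorem exb : ∃ C : ℝ, 0 ≤ C ∧ EXb C := by
  obtain ⟨C, hC, H⟩ := exSq
  exact ⟨C, hC, EXb0x682.EXb_of_sq hC H⟩

end Crest.Agent.R165.EXb7x811
end
end

-- ▼ part R165/StepOK_838

/-!
# Row 165 (S0250): `StepOK` of `Comp2_889` for all backgrounds (helper838)

* `KA`, `geo_abs` : the absolute constant, the structures `Geo` without hypotheses
* `CstOK` : the conditions on the constants, `ev_cstOK`
* `stepOK_gen` : `StepOK` for `sys`, any coordinate ring, from `Geo`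
* `Good c CF C1` : `StepOK` for plane, branch vertices, domains (fine discs), clusters (coarse discs)
* `stepOK_ev` : `EvC fun c => ∃ CF ≠ ∞, ∃ C1, Good c CF C1`
-/

set_option autoImplicit false
set_option linter.unusedSectionVars false

noncomputable section

open scoped ENNReal
open Filter Topology
open Crest.ProbabilityR.IsingModel
open Crest.Agent.R165.Geo (LatReg bdS)
open Crest.Agent.R165.Gr0x606 Crest.Agent.R165.Gr1x606 Crest.Agent.R165.GeOpsx337
open Crest.Agent.R165.Latx683 (BW wDom wX wPl Fld)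
open Crest.Agent.R165.GDefx387 Crest.Agent.R165.GSysx387 Crest.Agent.R165.FRDPolyx439
open Crest.Agent.R165.Packx915 (Conn)
open Crest.Agent.R165.NSumx915 (DCount)
open Crest.Agent.R165.DefRecx915 Crest.Agent.R165.Compx889 Crest.Agent.R165.WPackx893
open Crest.Agent.R165.RegIx893 (Geo BigL EE exists_D ev_bigL bd_count)
open Crest.Agent.R165.KFlowx337 Crest.Agent.R165.BgIsox432 Crest.Agent.R165.Bridgex915
open Crest.Agent.R165.PEndx683 Crest.Agent.R165.Constx891 Crest.Agent.R165.Outx683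
open Crest.Agent.R165.GeoIx838 (Sep SepP wX_zero)
open Crest.Agent.R165.GeoCox838

namespace Crest.Agent.R165.StepOKx838

/-! ### the absolute constant -/

/-- **the absolute constant** of all regularity classes -/
def KA : ℝ :=
  KC (Classical.choose EXb7x811.exb) (Classical.choose Bxx797.exbr) 110000000000

theorem one_le_KA : 1 ≤ KA := one_le_KC _ _ _

/-- **`Geo` of all backgrounds, no hypotheses** -/
theorem geo_abs (Λ : ℕ) :
    ∃ r0 C0 : ℕ, 2 ≤ r0 ∧ 1 ≤ C0 ∧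
      (∀ (T : Set (ℤ × ℤ)) (ρ κ : ℝ), LatReg T ρ κ → κ * ρ ≤ 1 →
      ∀ (m : ℕ) (X : Fin m → ℤ × ℤ) (Z : Set (ℤ × ℤ)) (b : Bool) (R0 : ℕ), (C0 : ℝ) * R0 ≤ ρ →
      Sep T X Z R0 → Geo (wX (wDom T b) X) KA Λ r0 R0 X (bdS T) Z Set.univ) ∧
      (∀ (m : ℕ) (X : Fin m → ℤ × ℤ) (Z : Set (ℤ × ℤ)) (R0 : ℕ), SepP X Z R0 →
      Geo (wX (wPl ℤ) X) KA Λ r0 R0 X ∅ Z Set.univ) ∧
      (∀ (T : Set (ℤ × ℤ)) (ρ κ : ℝ), LatReg T ρ κ → κ * ρ ≤ 1 →
      ∀ (m : ℕ) (X : Fin m → ℤ × ℤ) (z0 : ℤ × ℤ) (Z : Set (ℤ × ℤ)) (b : Bool) (R1 R0 : ℕ),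
      (C0 : ℝ) * R0 ≤ ρ → Clu T X z0 Z R1 R0 → ∀ loc : Fin 0 → ℤ × ℤ,
      Geo (wX (wDom T b) X) KA Λ (max r0 (4 * R1 + 8)) R0 loc (bdS T) Z Set.univ) :=
  geo_all (Classical.choose_spec EXb7x811.exb).1 (Classical.choose_spec Bxx797.exbr).1
    (by norm_num) Sqx54.gapU (Classical.choose_spec EXb7x811.exb).2
    (Classical.choose_spec Bxx797.exbr).2 Λ

/-- thresholds of the structures `Geo`, ratio `L = 2 ^ p` -/
def r0v (p : ℕ) : ℕ := Classical.choose (geo_abs (2 ^ p))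

/-- flatness of the structures `Geo`, ratio `L = 2 ^ p` -/
def C0v (p : ℕ) : ℕ := Classical.choose (Classical.choose_spec (geo_abs (2 ^ p)))

theorem geo_v (p : ℕ) :
    2 ≤ r0v p ∧ 1 ≤ C0v p ∧
      (∀ (T : Set (ℤ × ℤ)) (ρ κ : ℝ), LatReg T ρ κ → κ * ρ ≤ 1 →
      ∀ (m : ℕ) (X : Fin m → ℤ × ℤ) (Z : Set (ℤ × ℤ)) (b : Bool) (R0 : ℕ),
      (C0v p : ℝ) * R0 ≤ ρ →
      Sep T X Z R0 → Geo (wX (wDom T b) X) KA (2 ^ p) (r0v p) R0 X (bdS T) Z Set.univ) ∧
      (∀ (m : ℕ) (X : Fin m → ℤ × ℤ) (Z : Set (ℤ × ℤ)) (R0 : ℕ), SepP X Z R0 →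
      Geo (wX (wPl ℤ) X) KA (2 ^ p) (r0v p) R0 X ∅ Z Set.univ) ∧
      (∀ (T : Set (ℤ × ℤ)) (ρ κ : ℝ), LatReg T ρ κ → κ * ρ ≤ 1 →
      ∀ (m : ℕ) (X : Fin m → ℤ × ℤ) (z0 : ℤ × ℤ) (Z : Set (ℤ × ℤ)) (b : Bool) (R1 R0 : ℕ),
      (C0v p : ℝ) * R0 ≤ ρ → Clu T X z0 Z R1 R0 → ∀ loc : Fin 0 → ℤ × ℤ,
      Geo (wX (wDom T b) X) KA (2 ^ p) (max (r0v p) (4 * R1 + 8)) R0 loc (bdS T) Z Set.univ) :=
  Classical.choose_spec (Classical.choose_spec (geo_abs (2 ^ p)))

/-! ### the constants -/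

/-- the constant of the extraction maps -/
def CX0 (Cb : ℝ) : ℝ≥0∞ := 12 * ENNReal.ofReal (320000 * Cb) ^ 2

theorem CX0_ne_top (Cb : ℝ) : CX0 Cb ≠ ∞ :=
  ENNReal.mul_ne_top (by norm_num) (ENNReal.pow_ne_top ENNReal.ofReal_ne_top)

/-- bound of the extraction maps, `a' ≤ 2 a` -/
theorem cX_le {Cb a a' : ℝ} (hC : 0 ≤ Cb) (ha : 0 < a) (h2 : a' ≤ 2 * a) {r r' : ℕ}
    (hr : 0 < r) (hrr : r ≤ r') : XBdx915.cX Cb a a' r r' ≤ CX0 Cb := by
  unfold XBdx915.cX CX0
  refine mul_le_mul' le_rfl (pow_le_pow_left' ?_ 2)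
  unfold XBdx915.pX
  refine ENNReal.ofReal_le_ofReal ?_
  have h1 : (0 : ℝ) < r := by exact_mod_cast hr
  have h3 : (r : ℝ) ≤ r' := by exact_mod_cast hrr
  have h4 : (0 : ℝ) < r' := lt_of_lt_of_le h1 h3
  have h5 : a' * √r' / (a * √r) ≤ 2 * (√r' / √r) := by
    rw [mul_div_mul_comm]
    refine mul_le_mul_of_nonneg_right ?_ (by positivity)
    rw [div_le_iff₀ ha]
    exact h2
  have h6 : √(r' : ℝ) / √r * ((r : ℝ) / r') ≤ 1 := by
    have e1 : √(r' : ℝ) / √r * ((r : ℝ) / r') = √r / √r' := by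
      have hs : (0 : ℝ) < √r := Real.sqrt_pos.2 h1
      have hs' : (0 : ℝ) < √r' := Real.sqrt_pos.2 h4
      have q1 : (r : ℝ) = √r * √r := (Real.mul_self_sqrt h1.le).symm
      have q2 : (r' : ℝ) = √r' * √r' := (Real.mul_self_sqrt h4.le).symm
      rw [div_mul_div_comm, div_eq_div_iff (by positivity) (by positivity)]
      calc √(r' : ℝ) * r * √r' = (√r' * √r') * r := by ring
        _ = r' * (√r * √r) := by rw [← q2, ← q1]
        _ = √r * (√r * r') := by ring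
    rw [e1]
    exact div_le_one_of_le₀ (Real.sqrt_le_sqrt h3) (Real.sqrt_nonneg _)
  calc a' * √r' / (a * √r) * (160000 * Cb * ((r : ℝ) / r'))
      ≤ 2 * (√r' / √r) * (160000 * Cb * ((r : ℝ) / r')) :=
        mul_le_mul_of_nonneg_right h5 (by positivity)
    _ = 320000 * Cb * (√r' / √r * ((r : ℝ) / r')) := by ring
    _ ≤ 320000 * Cb * 1 := mul_le_mul_of_nonneg_left h6 (by positivity)
    _ = 320000 * Cb := by ring

/-- **the conditions on the constants** -/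
structure CstOK (Dn : ℕ) (c : Cst) : Prop where
  hD : s2 + 3 ≤ Dn
  big : BigL KA Dn 1 (1 / 8) (2 ^ c.p)
  gam : GamOK KA Dn (2 ^ c.p) (ENNReal.ofReal c.Γ)
  r0 : ∀ n, r0v c.p ≤ rr c.p c.k0 n
  six : ∀ n, 6 ≤ rr c.p c.k0 n
  A0 : 0 < c.A0
  cw : ∀ n, W0Sx897.cW0 DD c.p c.k0 n ≤ c.A0
  cold : GSysOKx439.c0 DD.C c.p c.k0 ≤ 1 / 2 * c.A0

/-- the constant of the first order quantities -/
def CFv (Dn : ℕ) (Cb : ℝ) (p : ℕ) : ℝ≥0∞ := CFc KA Dn (2 ^ p) (CX0 Cb)

theorem CFv_ne_top (Dn : ℕ) (Cb : ℝ) (p : ℕ) : CFv Dn Cb p ≠ ∞ := CFc_ne_top (CX0_ne_top Cb)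

/-! ### `StepOK` from `Geo` -/

section gen

variable {G : Type} [CommRing G] [CN G] [CNZ G] [DecidableEq G] [GoodG G] {ι : Type*} [Fintype ι]

/-- the extraction maps are bounded with an absolute constant -/
theorem xbd_v {Dn : ℕ} {c : Cst} (hc : CstOK Dn c) {Cb : ℝ} (hb : W2x812.BkReg Cb) (hb0 : 0 < Cb)
    {w : BW G} (hw : ∀ z j, |w z j| ≤ 1) {mk : Finset (G × G)}
    {K0 : Finset (G × G) → Ge (Fld G)} (hOK : (sys DD w mk c.p c.k0 K0).OK ⊥) {n : ℕ} {a a' : ℝ}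
    (ha : c.A0 ≤ a) (ha' : c.A0 ≤ a') (h2 : a' ≤ 2 * a) (ac : Finset (G × G) → Prop) :
    XBd w a a' (rr c.p c.k0 n) (rr c.p c.k0 (n + 1)) ac (sys DD w mk c.p c.k0 K0) n (CX0 Cb) := by
  have h0 : 0 < a := lt_of_lt_of_le hc.A0 ha
  have h0' : 0 < a' := lt_of_lt_of_le hc.A0 ha'
  have h1 := XBdx915.xbd_sys DD hb hb0 h0 h0' (n := n) hOK (W0Sx897.gramS DD w hw c.p c.k0 n)
    (ac := ac) (fun U _ _ => by
      intro x _ m _
      refine (GSysOKx439.gw_step_le_old DD (by decide) w hw c.p c.k0 n h0 x m).trans ?_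
      refine mul_le_mul' ?_ le_rfl
      rw [show (1 / 2 : ℝ≥0∞) = ENNReal.ofReal (1 / 2) by
        rw [ENNReal.ofReal_div_of_pos (by norm_num)]; norm_num]
      refine ENNReal.ofReal_le_ofReal ?_
      rw [div_le_iff₀ h0]
      have := hc.cold
      linarith)
  intro U hU
  refine (h1 U hU).trans (mul_le_mul' ?_ le_rfl)
  exact cX_le hb0.le h0 h2 (rr_pos _ _ _) (rr_mono _ _ (Nat.le_succ n))

/-- **`StepOK` from `Geo`** -/
theorem stepOK_gen {Dn : ℕ} {c : Cst} (hc : CstOK Dn c) {Cb : ℝ} (hb : W2x812.BkReg Cb)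
    (hb0 : 0 < Cb) {w : BW G} (hw : ∀ z j, |w z j| ≤ 1) {mk : Finset (G × G)}
    {K0 : Finset (G × G) → Ge (Fld G)} (hOK : (sys DD w mk c.p c.k0 K0).OK ⊥) {n : ℕ}
    {r0' R0 : ℕ} {loc : ι → G × G} {B Z Ac : Set (G × G)}
    (H : Geo w KA (2 ^ c.p) r0' R0 loc B Z Ac) (hr0 : r0' ≤ rr c.p c.k0 n)
    (hR : 32 * rr c.p c.k0 (n + 1) ≤ R0) {a a' : ℝ}
    (ha : c.A0 ≤ a) (ha' : c.A0 ≤ a') (h2 : a' ≤ 2 * a) {ac : Finset (G × G) → Prop}
    (hcon : ∀ U, ac U → Conn fd (nearR c.p c.k0 n) U) (hact : ∀ U, ac U → ∀ x ∈ U, x ∈ Ac)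
    {em : Finset (G × G) → Prop}
    (hsep : ∀ i j, i ≠ j → 10 * rr c.p c.k0 (n + 1) < fd (loc i) (loc j))
    (hnear : ∀ U, ac U → size (rr c.p c.k0 n) U ≤ 1 → ¬ em U → ∃ x ∈ U,
      (∃ y ∈ B, fd y x + rr c.p c.k0 n ≤ Dn * rr c.p c.k0 n) ∨
      (∃ z ∈ Z, fd z x + rr c.p c.k0 n ≤ Dn * rr c.p c.k0 n) ∨
      ∃ i, fd (loc i) x + rr c.p c.k0 n ≤ Dn * rr c.p c.k0 n)
    (hNb : DCount fd B (rr c.p c.k0 (n + 1) + Dn * rr c.p c.k0 n) (rr c.p c.k0 n)
      (8 * (2 ^ c.p + Dn) + 1))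
    (hNm : DCount fd Z (rr c.p c.k0 (n + 1) + Dn * rr c.p c.k0 n) (rr c.p c.k0 n) 1) :
    StepOK (sys DD w mk c.p c.k0 K0) w (ENNReal.ofReal c.Γ) n a a' (rr c.p c.k0 n)
      (rr c.p c.k0 (n + 1)) ac em (1 / 4) (CFv Dn Cb c.p) := by
  have h0 : 0 < a := lt_of_lt_of_le hc.A0 ha
  have hDL : Dn * rr c.p c.k0 n ≤ 4 * rr c.p c.k0 (n + 1) := by
    rw [rr_succ, ← mul_assoc]
    refine Nat.mul_le_mul_right _ ?_
    have := hc.big.hD
    omega
  refine stepOK_of_geo hc.big H DD (by decide) hw rfl hc.gam le_rfl hr0 hR h0 h2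
    ((hc.cw n).trans ha') hact hcon ?_ (fun i j hij => ?_) hnear hNb hNm
    (xbd_v hc hb hb0 hw hOK ha ha' h2 ac)
  · have h1 : 10 * rr c.p c.k0 n ≤ rr c.p c.k0 (n + 1) := by
      rw [rr_succ]
      exact Nat.mul_le_mul_right _ hc.big.ten
    have h3 := rr_pos c.p c.k0 n
    unfold nearR
    omega
  · refine lt_of_le_of_lt ?_ (hsep i j hij)
    omega

end gen

/-! ### weights -/

theorem abs_xc_le : |Latx683.xc| ≤ 1 := by
  have h0 : (0 : ℝ) ≤ √2 := Real.sqrt_nonneg _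
  have h2 : √2 ^ 2 = (2 : ℝ) := Real.sq_sqrt (by norm_num)
  have e : Latx683.xc = √2 - 1 := rfl
  rw [e, abs_le]
  constructor <;> nlinarith

theorem abs_ray {n : ℕ} (X : Fin n → ℤ × ℤ) (z : ℤ × ℤ) (j : Fin 2) : |Latx683.ray X z j| = 1 := by
  unfold Latx683.ray
  rw [Finset.abs_prod]
  refine Finset.prod_eq_one fun i _ => ?_
  split_ifs <;> simp

theorem abs_wDom_le (T : Set (ℤ × ℤ)) (b : Bool) (z : ℤ × ℤ) (j : Fin 2) :
    |wDom T b z j| ≤ 1 := by
  have h := abs_xc_le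
  unfold wDom
  split_ifs
  · exact h
  · simp
  · exact h
  · simp

theorem abs_wX_dom (T : Set (ℤ × ℤ)) (b : Bool) {n : ℕ} (X : Fin n → ℤ × ℤ) (z : ℤ × ℤ)
    (j : Fin 2) : |wX (wDom T b) X z j| ≤ 1 := by
  unfold wX
  rw [abs_mul, abs_ray, one_mul]
  exact abs_wDom_le T b z j

theorem abs_wX_pl {n : ℕ} (X : Fin n → ℤ × ℤ) (z : ℤ × ℤ) (j : Fin 2) :
    |wX (wPl ℤ) X z j| ≤ 1 := by
  unfold wX
  rw [abs_mul, abs_ray, one_mul]
  exact abs_xc_le

/-! ### marks -/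

/-- marks: pairwise at distance `≤ r` or `> R` -/
def MkOK (Z : Set (ℤ × ℤ)) (r R : ℕ) : Prop := ∀ u ∈ Z, ∀ v ∈ Z, fd u v ≤ r ∨ R < fd u v

theorem MkOK.empty (r R : ℕ) : MkOK ∅ r R := fun u hu => absurd hu (Set.notMem_empty u)

theorem MkOK.single (f : ℤ × ℤ) (r R : ℕ) : MkOK {f} r R := by
  intro u hu v hv
  rw [Set.mem_singleton_iff.1 hu, Set.mem_singleton_iff.1 hv, fd_self]
  exact Or.inl (Nat.zero_le _)

theorem MkOK.of_le {Z : Set (ℤ × ℤ)} {r R : ℕ} (h : ∀ u ∈ Z, ∀ v ∈ Z, fd u v ≤ r) : MkOK Z r R :=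
  fun u hu v hv => Or.inl (h u hu v hv)

theorem MkOK.mono {Z : Set (ℤ × ℤ)} {r r' R R' : ℕ} (h : MkOK Z r R) (hr : r ≤ r') (hR : R' ≤ R) :
    MkOK Z r' R' := fun u hu v hv => (h u hu v hv).imp (fun h => h.trans hr)
      (fun h => lt_of_le_of_lt hR h)

theorem MkOK.dcount {Z : Set (ℤ × ℤ)} {r R R' : ℕ} (h : MkOK Z r R) (hR : 2 * R' ≤ R) :
    DCount fd Z R' r 1 := by
  intro f S hS hs
  refine Finset.card_le_one.2 fun x hx y hy => ?_
  by_contra hne
  have h1 : r < fd x y := hs x hx y hy hne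
  rcases h x (hS x hx).1 y (hS y hy).1 with h2 | h2
  · omega
  · have h3 := (hS x hx).2
    have h4 := (hS y hy).2
    have h5 := fd_triangle x f y
    rw [fd_comm x f] at h5
    omega

/-! ### the instances -/

section inst

variable {Dn : ℕ} {c : Cst} {Cb : ℝ}

theorem sum_le_ten (hc : CstOK Dn c) (n : ℕ) :
    2 * (rr c.p c.k0 (n + 1) + Dn * rr c.p c.k0 n) ≤ 10 * rr c.p c.k0 (n + 1) := by
  have hDL : Dn * rr c.p c.k0 n ≤ 4 * rr c.p c.k0 (n + 1) := by
    rw [rr_succ, ← mul_assoc]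
    refine Nat.mul_le_mul_right _ ?_
    have := hc.big.hD
    omega
  omega

/-- counting of the boundary sites -/
theorem dcount_bd_v (hc : CstOK Dn c) {T : Set (ℤ × ℤ)} {ρ κ : ℝ} (h : LatReg T ρ κ) {n : ℕ}
    (hρ : (6 : ℝ) * rr c.p c.k0 (n + 1) ≤ ρ) :
    DCount fd (bdS T) (rr c.p c.k0 (n + 1) + Dn * rr c.p c.k0 n) (rr c.p c.k0 n)
      (8 * (2 ^ c.p + Dn) + 1) := by
  have h1 := sum_le_ten hc n
  have h2 := rr_pos c.p c.k0 (n + 1)
  have h3 : rr c.p c.k0 (n + 1) + Dn * rr c.p c.k0 n + 1 ≤ 6 * rr c.p c.k0 (n + 1) := by omega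
  refine (DBdx915.dcount_bd h (R := rr c.p c.k0 (n + 1) + Dn * rr c.p c.k0 n)
    (r := rr c.p c.k0 n) ?_ (hc.six n)).mono (Set.Subset.refl _) le_rfl le_rfl ?_
  · refine le_trans ?_ hρ
    exact_mod_cast h3
  · rw [rr_succ]
    exact bd_count (hc.six n)

/-- **`StepOK`, domains** (and discs, fine phase) -/
theorem stepOK_dom (hc : CstOK Dn c) (hb : W2x812.BkReg Cb) (hb0 : 0 < Cb) {T : Set (ℤ × ℤ)}
    {ρ κ : ℝ} (hT : LatReg T ρ κ) (hκ : κ * ρ ≤ 1) {m : ℕ} {X : Fin m → ℤ × ℤ}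
    {mk : Finset (ℤ × ℤ)} {b : Bool} {K0 : Finset (ℤ × ℤ) → Ge (Fld ℤ)}
    (hOK : (sys DD (wX (wDom T b) X) mk c.p c.k0 K0).OK ⊥) {n q : ℕ} {a a' : ℝ}
    {ac : Finset (ℤ × ℤ) → Prop} (hρ : ((32 * C0v c.p : ℕ) : ℝ) * rr c.p c.k0 (n + 1) ≤ ρ)
    (hS : Sep T X mk (32 * rr c.p c.k0 (n + 1)))
    (hmk : MkOK mk (rr c.p c.k0 n) (10 * rr c.p c.k0 (n + 1))) (hq : q ≤ s2 * rr c.p c.k0 n)
    (hcon : ∀ U, ac U → Conn fd (nearR c.p c.k0 n) U)
    (hact : ∀ U, ac U → ∃ u ∈ U, ∃ z ∈ T, fd u z ≤ q)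
    (ha : c.A0 ≤ a) (ha' : c.A0 ≤ a') (h2 : a' ≤ 2 * a) :
    StepOK (sys DD (wX (wDom T b) X) mk c.p c.k0 K0) (wX (wDom T b) X) (ENNReal.ofReal c.Γ) n a a'
      (rr c.p c.k0 n) (rr c.p c.k0 (n + 1)) ac
      (emM (wX (wDom T b) X) (mk : Set (ℤ × ℤ)) (rr c.p c.k0 n)) (1 / 4) (CFv Dn Cb c.p) := by
  obtain ⟨-, hC1, H, -, -⟩ := geo_v c.p
  have hG := H T ρ κ hT hκ m X mk b (32 * rr c.p c.k0 (n + 1)) (by
    refine le_trans (le_of_eq ?_) hρ
    push_cast; ring) hS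
  have h6 : (6 : ℝ) * rr c.p c.k0 (n + 1) ≤ ρ := by
    refine le_trans (mul_le_mul_of_nonneg_right ?_ (Nat.cast_nonneg _)) hρ
    have : 6 ≤ 32 * C0v c.p := by omega
    exact_mod_cast this
  refine stepOK_gen hc hb hb0 (abs_wX_dom T b X) hOK hG (hc.r0 n) le_rfl ha ha' h2 hcon
    (fun U _ x _ => Set.mem_univ x) (fun i j hij => ?_) (fun U hU hs hne => ?_)
    (dcount_bd_v hc hT h6) (hmk.dcount (sum_le_ten hc n))
  · have h1 := hS.sep i j hij
    omega
  · obtain ⟨x, hx, h | h | h⟩ := HNearx485.hnear_bdS (rr_pos c.p c.k0 n) hc.hD hs (hact U hU) hq hne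
    · exact ⟨x, hx, Or.inl h⟩
    · exact ⟨x, hx, Or.inr (Or.inr h)⟩
    · exact ⟨x, hx, Or.inr (Or.inl h)⟩

/-- **`StepOK`, the plane with insertions** -/
theorem stepOK_pl (hc : CstOK Dn c) (hb : W2x812.BkReg Cb) (hb0 : 0 < Cb) {m : ℕ}
    {X : Fin m → ℤ × ℤ} {mk : Finset (ℤ × ℤ)} {K0 : Finset (ℤ × ℤ) → Ge (Fld ℤ)}
    (hOK : (sys DD (wX (wPl ℤ) X) mk c.p c.k0 K0).OK ⊥) {n : ℕ} {a a' : ℝ}
    {ac : Finset (ℤ × ℤ) → Prop}
    (hS : SepP X mk (32 * rr c.p c.k0 (n + 1)))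
    (hmk : MkOK mk (rr c.p c.k0 n) (10 * rr c.p c.k0 (n + 1)))
    (hcon : ∀ U, ac U → Conn fd (nearR c.p c.k0 n) U) (hne : ∀ U, ac U → U.Nonempty)
    (ha : c.A0 ≤ a) (ha' : c.A0 ≤ a') (h2 : a' ≤ 2 * a) :
    StepOK (sys DD (wX (wPl ℤ) X) mk c.p c.k0 K0) (wX (wPl ℤ) X) (ENNReal.ofReal c.Γ) n a a'
      (rr c.p c.k0 n) (rr c.p c.k0 (n + 1)) ac
      (emM (wX (wPl ℤ) X) (mk : Set (ℤ × ℤ)) (rr c.p c.k0 n)) (1 / 4) (CFv Dn Cb c.p) := by
  obtain ⟨-, -, -, H, -⟩ := geo_v c.p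
  have hG := H m X mk (32 * rr c.p c.k0 (n + 1)) hS
  refine stepOK_gen hc hb hb0 (abs_wX_pl X) hOK hG (hc.r0 n) le_rfl ha ha' h2 hcon
    (fun U _ x _ => Set.mem_univ x) (fun i j hij => ?_) (fun U hU hs hnem => ?_)
    ?_ (hmk.dcount (sum_le_ten hc n))
  · have h1 := hS.sep i j hij
    omega
  · rw [← GeoIx838.wDom_univ false] at hnem
    obtain ⟨u, hu⟩ := hne U hU
    obtain ⟨x, hx, h | h | h⟩ := HNearx485.hnear_bdS (T := Set.univ) (q := 0)
      (rr_pos c.p c.k0 n) hc.hD hs ⟨u, hu, u, Set.mem_univ u, by rw [fd_self]⟩ (Nat.zero_le _) hnem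
    · obtain ⟨y, hy, -⟩ := h
      rw [GeoIx838.bdS_univ] at hy
      exact absurd hy (Set.notMem_empty y)
    · exact ⟨x, hx, Or.inr (Or.inr h)⟩
    · exact ⟨x, hx, Or.inr (Or.inl h)⟩
  · intro f S hS _
    have : S = ∅ := Finset.eq_empty_of_forall_notMem fun x hx =>
      absurd (hS x hx).1 (Set.notMem_empty x)
    rw [this]
    simp

/-- **`StepOK`, cluster** (discs, coarse phase) -/
theorem stepOK_clu (hc : CstOK Dn c) (hb : W2x812.BkReg Cb) (hb0 : 0 < Cb) {T : Set (ℤ × ℤ)}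
    {ρ κ : ℝ} (hT : LatReg T ρ κ) (hκ : κ * ρ ≤ 1) {m : ℕ} {X : Fin m → ℤ × ℤ}
    {mk : Finset (ℤ × ℤ)} {b : Bool} {z0 : ℤ × ℤ} {R1 : ℕ}
    {K0 : Finset (ℤ × ℤ) → Ge (Fld ℤ)}
    (hOK : (sys DD (wX (wDom T b) X) mk c.p c.k0 K0).OK ⊥) {n q : ℕ} {a a' : ℝ}
    {ac : Finset (ℤ × ℤ) → Prop} (hρ : ((32 * C0v c.p : ℕ) : ℝ) * rr c.p c.k0 (n + 1) ≤ ρ)
    (hS : Clu T X z0 ((mk : Set (ℤ × ℤ)) ∪ Set.range X) R1 (32 * rr c.p c.k0 (n + 1)))
    (hR1 : 4 * R1 + 8 ≤ rr c.p c.k0 n) (hq : q ≤ s2 * rr c.p c.k0 n)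
    (hcon : ∀ U, ac U → Conn fd (nearR c.p c.k0 n) U)
    (hact : ∀ U, ac U → ∃ u ∈ U, ∃ z ∈ T, fd u z ≤ q)
    (ha : c.A0 ≤ a) (ha' : c.A0 ≤ a') (h2 : a' ≤ 2 * a) :
    StepOK (sys DD (wX (wDom T b) X) mk c.p c.k0 K0) (wX (wDom T b) X) (ENNReal.ofReal c.Γ) n a a'
      (rr c.p c.k0 n) (rr c.p c.k0 (n + 1)) ac
      (emM (wX (wDom T b) X) (mk : Set (ℤ × ℤ)) (rr c.p c.k0 n)) (1 / 4) (CFv Dn Cb c.p) := by
  obtain ⟨-, hC1, -, -, H⟩ := geo_v c.p
  have hG := H T ρ κ hT hκ m X z0 _ b R1 (32 * rr c.p c.k0 (n + 1)) (by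
    refine le_trans (le_of_eq ?_) hρ
    push_cast; ring) hS Fin.elim0
  have h6 : (6 : ℝ) * rr c.p c.k0 (n + 1) ≤ ρ := by
    refine le_trans (mul_le_mul_of_nonneg_right ?_ (Nat.cast_nonneg _)) hρ
    have : 6 ≤ 32 * C0v c.p := by omega
    exact_mod_cast this
  have hZ : MkOK ((mk : Set (ℤ × ℤ)) ∪ Set.range X) (rr c.p c.k0 n)
      (10 * rr c.p c.k0 (n + 1)) := MkOK.of_le fun u hu v hv => by
    have h1 := hS.box u hu
    have h3 := hS.box v hv
    have h4 := fd_triangle u z0 v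
    rw [fd_comm u z0] at h4
    omega
  refine stepOK_gen hc hb hb0 (abs_wX_dom T b X) hOK hG (max_le (hc.r0 n) hR1) le_rfl ha ha' h2 hcon
    (fun U _ x _ => Set.mem_univ x) (fun i => Fin.elim0 i) (fun U hU hs hne => ?_)
    (dcount_bd_v hc hT h6) (hZ.dcount (sum_le_ten hc n))
  obtain ⟨x, hx, h | h | h⟩ := HNearx485.hnear_bdS (rr_pos c.p c.k0 n) hc.hD hs (hact U hU) hq hne
  · exact ⟨x, hx, Or.inl h⟩
  · obtain ⟨i, hi⟩ := h
    exact ⟨x, hx, Or.inr (Or.inl ⟨X i, Or.inr ⟨i, rfl⟩, hi⟩)⟩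
  · obtain ⟨z, hz, h⟩ := h
    exact ⟨x, hx, Or.inr (Or.inl ⟨z, Or.inl hz, h⟩)⟩

end inst

/-! ### the choice of the constants -/

theorem ev_cstOK : ∃ Dn : ℕ, EvC (CstOK Dn) := by
  obtain ⟨Dn, hD, hD2⟩ := exists_D KA (s2 + 3)
  refine ⟨Dn, ?_⟩
  have h1 : ∀ᶠ p : ℕ in atTop, BigL KA Dn 1 (1 / 8) (2 ^ p) :=
    (tendsto_pow_atTop_atTop_of_one_lt (by norm_num : 1 < 2)).eventually
      (ev_bigL hD2 1 (by norm_num))
  unfold EvC
  filter_upwards [h1, eventually_ge_atTop 1] with p hp hp1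
  obtain ⟨Γ0, hΓ0, hΓ⟩ := exists_gam KA Dn (2 ^ p)
  filter_upwards [eventually_ge_atTop Γ0.toReal] with Γ hΓ1
  have hrr : ∀ k0 n : ℕ, k0 ≤ rr p k0 n := fun k0 n => by
    unfold rr
    refine Nat.lt_two_pow_self.le.trans (Nat.pow_le_pow_right (by norm_num) ?_)
    calc k0 ≤ 1 * (k0 + n) := by omega
      _ ≤ p * (k0 + n) := Nat.mul_le_mul_right _ hp1
  filter_upwards [eventually_ge_atTop (r0v p), eventually_ge_atTop 6] with k0 hk hk6
  filter_upwards [eventually_gt_atTop (0 : ℝ), eventually_ge_atTop (W0Sx897.cW0 DD p k0 0),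
    eventually_ge_atTop (2 * GSysOKx439.c0 DD.C p k0)] with A0 hA hA1 hA2
  filter_upwards with δ
  exact
    { hD := hD
      big := hp
      gam := hΓ _ (by
        rw [← ENNReal.ofReal_toReal hΓ0]
        exact ENNReal.ofReal_le_ofReal hΓ1) ENNReal.ofReal_ne_top
      r0 := fun n => hk.trans (hrr k0 n)
      six := fun n => hk6.trans (hrr k0 n)
      A0 := hA
      cw := fun n => (W0Sx897.cW0_le_zero DD p k0 n).trans hA1
      cold := by simp only; linarith }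

/-- **`StepOK` of all backgrounds on `ℤ`** with the constants `c` -/
structure Good (c : Cst) (CF : ℝ≥0∞) (C1 : ℕ) : Prop where
  one_le : 32 ≤ C1
  rr6 : ∀ n, 6 ≤ rr c.p c.k0 n
  A0 : 0 < c.A0
  dom : ∀ (T : Set (ℤ × ℤ)) (ρ κ : ℝ), LatReg T ρ κ → κ * ρ ≤ 1 →
    ∀ (m : ℕ) (X : Fin m → ℤ × ℤ) (mk : Finset (ℤ × ℤ)) (b : Bool)
      (K0 : Finset (ℤ × ℤ) → Ge (Fld ℤ)),
    (sys DD (wX (wDom T b) X) mk c.p c.k0 K0).OK ⊥ →
    ∀ (n q : ℕ) (a a' : ℝ) (ac : Finset (ℤ × ℤ) → Prop),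
    (C1 : ℝ) * rr c.p c.k0 (n + 1) ≤ ρ → Sep T X mk (32 * rr c.p c.k0 (n + 1)) →
    MkOK mk (rr c.p c.k0 n) (10 * rr c.p c.k0 (n + 1)) → q ≤ s2 * rr c.p c.k0 n →
    (∀ U, ac U → Conn fd (nearR c.p c.k0 n) U) →
    (∀ U, ac U → ∃ u ∈ U, ∃ z ∈ T, fd u z ≤ q) →
    c.A0 ≤ a → c.A0 ≤ a' → a' ≤ 2 * a →
    StepOK (sys DD (wX (wDom T b) X) mk c.p c.k0 K0) (wX (wDom T b) X) (ENNReal.ofReal c.Γ) n a a'
      (rr c.p c.k0 n) (rr c.p c.k0 (n + 1)) ac
      (emM (wX (wDom T b) X) (mk : Set (ℤ × ℤ)) (rr c.p c.k0 n)) (1 / 4) CF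
  pl : ∀ (m : ℕ) (X : Fin m → ℤ × ℤ) (mk : Finset (ℤ × ℤ))
      (K0 : Finset (ℤ × ℤ) → Ge (Fld ℤ)),
    (sys DD (wX (wPl ℤ) X) mk c.p c.k0 K0).OK ⊥ →
    ∀ (n : ℕ) (a a' : ℝ) (ac : Finset (ℤ × ℤ) → Prop),
    SepP X mk (32 * rr c.p c.k0 (n + 1)) →
    MkOK mk (rr c.p c.k0 n) (10 * rr c.p c.k0 (n + 1)) →
    (∀ U, ac U → Conn fd (nearR c.p c.k0 n) U) → (∀ U, ac U → U.Nonempty) →
    c.A0 ≤ a → c.A0 ≤ a' → a' ≤ 2 * a →
    StepOK (sys DD (wX (wPl ℤ) X) mk c.p c.k0 K0) (wX (wPl ℤ) X) (ENNReal.ofReal c.Γ) n a a'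
      (rr c.p c.k0 n) (rr c.p c.k0 (n + 1)) ac
      (emM (wX (wPl ℤ) X) (mk : Set (ℤ × ℤ)) (rr c.p c.k0 n)) (1 / 4) CF
  clu : ∀ (T : Set (ℤ × ℤ)) (ρ κ : ℝ), LatReg T ρ κ → κ * ρ ≤ 1 →
    ∀ (m : ℕ) (X : Fin m → ℤ × ℤ) (mk : Finset (ℤ × ℤ)) (b : Bool) (z0 : ℤ × ℤ) (R1 : ℕ)
      (K0 : Finset (ℤ × ℤ) → Ge (Fld ℤ)),
    (sys DD (wX (wDom T b) X) mk c.p c.k0 K0).OK ⊥ →
    ∀ (n q : ℕ) (a a' : ℝ) (ac : Finset (ℤ × ℤ) → Prop),
    (C1 : ℝ) * rr c.p c.k0 (n + 1) ≤ ρ →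
    Clu T X z0 ((mk : Set (ℤ × ℤ)) ∪ Set.range X) R1 (32 * rr c.p c.k0 (n + 1)) →
    4 * R1 + 8 ≤ rr c.p c.k0 n → q ≤ s2 * rr c.p c.k0 n →
    (∀ U, ac U → Conn fd (nearR c.p c.k0 n) U) →
    (∀ U, ac U → ∃ u ∈ U, ∃ z ∈ T, fd u z ≤ q) →
    c.A0 ≤ a → c.A0 ≤ a' → a' ≤ 2 * a →
    StepOK (sys DD (wX (wDom T b) X) mk c.p c.k0 K0) (wX (wDom T b) X) (ENNReal.ofReal c.Γ) n a a'
      (rr c.p c.k0 n) (rr c.p c.k0 (n + 1)) ac
      (emM (wX (wDom T b) X) (mk : Set (ℤ × ℤ)) (rr c.p c.k0 n)) (1 / 4) CF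

/-- the plane itself, with marks -/
theorem Good.plane {c : Cst} {CF : ℝ≥0∞} {C1 : ℕ} (H : Good c CF C1) (mk : Finset (ℤ × ℤ))
    (K0 : Finset (ℤ × ℤ) → Ge (Fld ℤ)) (hOK : (sys DD (wPl ℤ) mk c.p c.k0 K0).OK ⊥)
    (n : ℕ) (a a' : ℝ) (ac : Finset (ℤ × ℤ) → Prop)
    (hmk : MkOK mk (rr c.p c.k0 n) (10 * rr c.p c.k0 (n + 1)))
    (hcon : ∀ U, ac U → Conn fd (nearR c.p c.k0 n) U) (hne : ∀ U, ac U → U.Nonempty)
    (ha : c.A0 ≤ a) (ha' : c.A0 ≤ a') (h2 : a' ≤ 2 * a) :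
    StepOK (sys DD (wPl ℤ) mk c.p c.k0 K0) (wPl ℤ) (ENNReal.ofReal c.Γ) n a a'
      (rr c.p c.k0 n) (rr c.p c.k0 (n + 1)) ac
      (emM (wPl ℤ) (mk : Set (ℤ × ℤ)) (rr c.p c.k0 n)) (1 / 4) CF := by
  have h := H.pl 0 Fin.elim0 mk K0
  rw [wX_zero] at h
  exact h hOK n a a' ac ⟨fun i => Fin.elim0 i, fun _ _ i => Fin.elim0 i⟩ hmk hcon hne ha ha' h2

/-- **THE THEOREM**: `StepOK` for all backgrounds on `ℤ`, no hypotheses -/
theorem stepOK_ev : EvC fun c => ∃ CF : ℝ≥0∞, CF ≠ ∞ ∧ ∃ C1 : ℕ, Good c CF C1 := by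
  obtain ⟨Dn, h⟩ := ev_cstOK
  obtain ⟨Cb, hb0, hb⟩ : ∃ Cb : ℝ, 0 < Cb ∧ W2x812.BkReg Cb :=
    ⟨50000000 * (16 * 10 ^ 9), by norm_num, BkFinx806.bkReg⟩
  refine h.mono fun c hc => ⟨CFv Dn Cb c.p, CFv_ne_top _ _ _, 32 * C0v c.p, ?_⟩
  refine ⟨?_, hc.six, hc.A0, ?_, ?_, ?_⟩
  · have := (geo_v c.p).2.1
    omega
  · intro T ρ κ hT hκ m X mk b K0 hOK n q a a' ac hρ hS hmk hq hcon hact ha ha' h2
    exact stepOK_dom hc hb hb0 hT hκ hOK hρ hS hmk hq hcon hact ha ha' h2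
  · intro m X mk K0 hOK n a a' ac hS hmk hcon hne ha ha' h2
    exact stepOK_pl hc hb hb0 hOK hS hmk hcon hne ha ha' h2
  · intro T ρ κ hT hκ m X mk b z0 R1 K0 hOK n q a a' ac hρ hS hR1 hq hcon hact ha ha' h2
    exact stepOK_clu hc hb hb0 hT hκ hOK hρ hS hR1 hq hcon hact ha ha' h2

end Crest.Agent.R165.StepOKx838
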