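import Crest.Agent.R165.PlMacH_811
import Crest.Agent.R165.MacL2_943_Mg
import Crest.Agent.R165.PlLd_817_Mg
import Crest.Agent.R165.U3Uniq_719
import Crest.Agent.R165.MacC6_943
import Crest.Agent.R165.LatSeq_416
import Crest.Agent.R165.LogE_813
import Mathlib
import Crest.Agent.R165.U3Loc1_67
import Crest.Agent.R165.Cl5_722
import Crest.Agent.R165.Eta3_576
import Crest.Agent.R165.U3Vil_719
import Crest.Agent.R165.MacV_610
import Crest.Agent.R165.UB3_641
import Crest.Agent.R165.Eta5_644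
import Crest.Agent.R165.MacLf_304
import Crest.Agent.R165.Spin_930
import Crest.Agent.R165.BoxRay_432
import Crest.Agent.R165.Bridge_915
import Crest.Agent.R165.SpinDom_432
import Crest.Agent.R165.PTop_386
import Crest.Agent.R165.JVol_950
import Crest.Agent.R165.XBd_915
import Crest.Agent.R165.Const_891
import Crest.Agent.R165.FlN_387
import Crest.Agent.R165.StepOK_838
import Crest.Agent.R165.DeepBg_898
import Crest.Agent.R165.Out_683
import Crest.Agent.R165.SData_900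
import Crest.Agent.R165.Comp2_889
import Crest.Agent.R165.SRdomA_900
import Crest.Agent.R165.SpinDom2_432
import Crest.Agent.R165.Comp4_889
import Crest.Agent.R165.StrS_897
import Crest.Agent.R165.JRunE_445
import Crest.Agent.R165.Fin4_315
import Crest.Agent.R165.DiscK_892
import Crest.Agent.R165.DiscComp_722
import Crest.Agent.R165.Comp5_889
import Crest.Agent.R165.DomAc_117
import Crest.Agent.R165.C0_950
import Crest.Agent.R165.GeoScA_485
import Crest.Agent.R165.U5Props_422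
import Crest.Agent.R165.J4K0Sym_126
import Crest.Agent.R165.PlB_117

-- ▼ part R165/PlMacG_422
section

/-!
# Row 165 (S0250), plane MAC (helper422): gluing of local `L²` limits

`glue` : local strong limits in an open `O` of full measure in `ball 0 (T + 1)`, and no
concentration off the compacts of `O`, give the strong limit on `ball 0 T`.
-/

set_option autoImplicit false

noncomputable section

namespace Crest.Agent.R165.PlMacGx422

open Filter Topology MeasureTheory Metric Set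
open Crest.ProbabilityR.IsingModel
open Crest.Agent.R165.Tr1x40 hiding sq2
open Crest.Agent.R165.RIfx891 (lv)
open Crest.Agent.R165.PotAx894 (FS)
open Crest.Agent.R165.Embx622 (emb)
open Crest.Agent.R165.MacC3x943 Crest.Agent.R165.MacC4x943

open Classical in
/-- cut at radius `R` -/
def ct (a R : ℝ) (φ : Fld) : Fld := fun f h => if ‖meshPoint a f‖ ≤ R then φ f h else 0

theorem ct_FS {a : ℝ} (ha : 0 < a) (R : ℝ) (φ : Fld) (h : Fin 4) : FS fun f => ct a R φ f h := by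
  refine PotAx894.FS.of_finset (MacNCx917.disc a (R + 1)) fun f hf => ?_
  rw [MacNCx917.mem_disc ha, not_lt] at hf
  unfold ct
  rw [if_neg (by linarith)]

theorem ct_sum (a R : ℝ) (φ : Fld) (S : Finset Face) :
    ∃ S' : Finset Face, (∀ f ∈ S', f ∈ S ∧ ‖meshPoint a f‖ ≤ R) ∧
      ∑ f ∈ S, nsq (ct a R φ f) = ∑ f ∈ S', nsq (φ f) := by
  classical
  refine ⟨S.filter fun f => ‖meshPoint a f‖ ≤ R, fun f hf => Finset.mem_filter.1 hf, ?_⟩
  rw [Finset.sum_filter]
  refine Finset.sum_congr rfl fun f _ => ?_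
  unfold ct nsq
  split_ifs with hf <;> simp

theorem ct_eq {a T : ℝ} {φ : Fld} (hm : ∀ z, ‖meshPoint a (meshIndex a z) - z‖ ≤ 1) {z : ℂ}
    (hz : z ∈ ball (0 : ℂ) T) (h : Fin 4) :
    emb a (fun f => ct a (T + 1) φ f h) z = emb a (fun f => φ f h) z := by
  have h1 : ‖meshPoint a (meshIndex a z)‖ ≤ T + 1 := by
    rw [mem_ball_zero_iff] at hz
    have h2 := norm_sub_norm_le (meshPoint a (meshIndex a z)) z
    have h3 := hm z
    linarith
  exact if_pos h1

theorem Cv.cover {U : Filter ℕ} {a : ℕ → ℝ} {u : ℕ → Face → ℝ} {O L : Set ℂ} (hL : IsCompact L)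
    (hLO : L ⊆ O) (hloc : ∀ z ∈ O, ∃ ρ > 0, Cv U a u (ball z ρ)) :
    ∃ B, MeasurableSet B ∧ L ⊆ B ∧ Cv U a u B := by
  refine hL.induction_on (p := fun S => ∃ B, MeasurableSet B ∧ S ⊆ B ∧ Cv U a u B)
    ⟨∅, MeasurableSet.empty, Set.Subset.rfl, Cv.empty _ _ _⟩ ?_ ?_ ?_
  · rintro s t hst ⟨B, h1, h2, h3⟩
    exact ⟨B, h1, hst.trans h2, h3⟩
  · rintro s t ⟨B, h1, h2, h3⟩ ⟨B', h1', h2', h3'⟩
    exact ⟨B ∪ B', h1.union h1', Set.union_subset_union h2 h2', h3.union h1 h1' h3'⟩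
  · intro z hz
    obtain ⟨ρ, hρ, hΦ⟩ := hloc z (hLO hz)
    exact ⟨ball z ρ, mem_nhdsWithin_of_mem_nhds (ball_mem_nhds z hρ), ball z ρ,
      measurableSet_ball, Set.Subset.rfl, hΦ⟩

section
variable {U : Filter ℕ} [U.NeBot] {a : ℕ → ℝ} {O : Set ℂ} {φ : ℕ → Fld} {F : ℂ → ℂ} {T : ℝ}

/-- global limit of each component -/
theorem exists_comp (hU : U ≤ atTop) (hpos : ∀ k, 0 < a k) (hlim : Tendsto a atTop (𝓝 0))
    (hO : IsOpen O) (h : Fin 4)
    (hloc : ∀ z ∈ O, ∃ ρ > 0, Cv U a (fun k f => φ k f h) (ball z ρ))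
    (hnc : ∀ η : ℝ, 0 < η → ∃ L : Set ℂ, IsCompact L ∧ L ⊆ O ∧ ∀ᶠ k in U, ∀ S : Finset Face,
      (∀ f ∈ S, ‖meshPoint (a k) f‖ ≤ T + 1 ∧ meshPoint (a k) f ∉ L) →
        a k ^ 2 * ∑ f ∈ S, nsq (φ k f) ≤ η) :
    ∃ Φ : ℂ → ℝ, MemLp Φ 2 (volume.restrict (ball 0 T)) ∧
      Tendsto (fun k => E (volume.restrict (ball 0 T))
        (fun z => emb (a k) (fun f => φ k f h) z - Φ z)) U (𝓝 0) := by
  have hm1 : ∀ᶠ k in U, ∀ z, ‖meshPoint (a k) (meshIndex (a k) z) - z‖ ≤ 1 :=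
    hU (MacSx610.mesh_eventually hpos hlim one_pos)
  have hsmall : ∀ δ : ℝ, 0 < δ → ∀ᶠ k in U, 2 * a k ≤ δ := by
    intro δ hδ
    refine hU ?_
    have := hlim.eventually (eventually_le_nhds (show (0 : ℝ) < δ / 2 by positivity))
    filter_upwards [this] with k hk
    linarith
  have hmem : ∀ k, MemLp (emb (a k) (fun f => ct (a k) (T + 1) (φ k) f h)) 2
      (volume.restrict (ball 0 T)) := fun k =>
    (memLp_emb (hpos k) (ct_FS (hpos k) (T + 1) (φ k) h)).restrict _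
  obtain ⟨Φ, hΦ, hlimΦ⟩ := Relx943.exists_L2_lim (U := U) (μ := volume.restrict (ball 0 T))
    (fun k => emb (a k) (fun f => ct (a k) (T + 1) (φ k) f h)) hmem (by
    intro ε hε
    obtain ⟨L, hLc, hLO, hL⟩ := hnc ((ε / 2) ^ 2) (by positivity)
    obtain ⟨δ, hδ, hsub⟩ := hLc.exists_cthickening_subset_open hO hLO
    obtain ⟨B, hBm, hLB, Φ, hΦ, hc⟩ := Cv.cover hLc.cthickening hsub hloc
    refine ⟨B.indicator Φ, ((memLp_indicator_iff_restrict hBm).2 hΦ).restrict _, ?_⟩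
    have hev : ∀ᶠ k in U, E (volume.restrict B)
        (fun z => emb (a k) (fun f => φ k f h) z - Φ z) < ENNReal.ofReal (ε / 2) :=
      hc.eventually (eventually_lt_nhds (by rw [ENNReal.ofReal_pos]; positivity))
    filter_upwards [hev, hL, hsmall δ hδ, hm1] with k h1 h2 h3 h4
    set u := fun f => φ k f h with hu
    set v := fun f => ct (a k) (T + 1) (φ k) f h with hv
    have h5 : E (volume.restrict Bᶜ) (emb (a k) v) ≤ ENNReal.ofReal (ε / 2) := by
      have := out_mass (φ := ct (a k) (T + 1) (φ k)) (hpos k) h3 hBm (L := L)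
        (fun z hz w hw => hLB (mem_cthickening_of_dist_le w z δ L hz
          (by rw [dist_eq_norm]; exact hw))) (η := (ε / 2) ^ 2) (by positivity) (fun S hS => by
            obtain ⟨S', hS', e⟩ := ct_sum (a k) (T + 1) (φ k) S
            rw [e]
            exact h2 S' fun f hf => ⟨(hS' f hf).2, hS f (hS' f hf).1⟩) h
      rwa [Real.sqrt_sq (by positivity)] at this
    have hm : AEStronglyMeasurable (fun z => emb (a k) u z - Φ z) (volume.restrict B) :=
      (Embx622.emb_measurable _ _).aestronglyMeasurable.sub hΦ.1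
    change E (volume.restrict (ball 0 T)) (fun z => emb (a k) v z - B.indicator Φ z) ≤ _
    calc E (volume.restrict (ball 0 T)) (fun z => emb (a k) v z - B.indicator Φ z)
        = E (volume.restrict (ball 0 T)) (fun z => B.indicator (fun z => emb (a k) u z - Φ z) z +
          Bᶜ.indicator (emb (a k) v) z) := by
          refine E_congr ?_
          rw [EventuallyEq, ae_restrict_iff' measurableSet_ball]
          refine Eventually.of_forall fun z hz => ?_
          have e : emb (a k) v z = emb (a k) u z := ct_eq h4 hz h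
          by_cases hzB : z ∈ B
          · simp [Set.indicator, hzB, e]
          · simp [Set.indicator, hzB]
      _ ≤ E (volume.restrict (ball 0 T)) (B.indicator fun z => emb (a k) u z - Φ z) +
          E (volume.restrict (ball 0 T)) (Bᶜ.indicator (emb (a k) v)) :=
          E_add_le ((aestronglyMeasurable_indicator_iff hBm).2 hm).restrict
            ((Embx622.emb_measurable _ _).indicator hBm.compl).aestronglyMeasurable
      _ ≤ E volume (B.indicator fun z => emb (a k) u z - Φ z) +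
          E volume (Bᶜ.indicator (emb (a k) v)) :=
          add_le_add (E_restrict_le _ _) (E_restrict_le _ _)
      _ ≤ ENNReal.ofReal (ε / 2) + ENNReal.ofReal (ε / 2) := by
          rw [E_indicator hBm, E_indicator hBm.compl]
          exact add_le_add h1.le h5
      _ = ENNReal.ofReal ε := by
          rw [← ENNReal.ofReal_add (by positivity) (by positivity)]
          congr 1
          ring)
  refine ⟨Φ, hΦ, hlimΦ.congr' ?_⟩
  filter_upwards [hm1] with k hk
  refine E_congr ?_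
  rw [EventuallyEq, ae_restrict_iff' measurableSet_ball]
  refine Eventually.of_forall fun z hz => ?_
  exact congrArg (fun t => t - Φ z) (ct_eq hk hz h)

/-- uniqueness of the limit -/
theorem ae_eq_of_tendsto {μ : Measure ℂ} {u : ℕ → ℂ → ℝ} {Φ Ψ : ℂ → ℝ}
    (hu : ∀ k, Measurable (u k)) (hΦ : AEStronglyMeasurable Φ μ) (hΨ : AEStronglyMeasurable Ψ μ)
    (h1 : Tendsto (fun k => E μ (fun z => u k z - Φ z)) U (𝓝 0))
    (h2 : Tendsto (fun k => E μ (fun z => u k z - Ψ z)) U (𝓝 0)) : Φ =ᵐ[μ] Ψ := by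
  have h3 := h1.add h2
  rw [add_zero] at h3
  have h4 : E μ (fun z => Φ z - Ψ z) ≤ 0 := by
    refine ge_of_tendsto h3 (Eventually.of_forall fun k => ?_)
    calc E μ (fun z => Φ z - Ψ z) = E μ (fun z => (Φ z - u k z) + (u k z - Ψ z)) := by
          congr 1; funext z; ring
      _ ≤ E μ (fun z => Φ z - u k z) + E μ (fun z => u k z - Ψ z) :=
          E_add_le (hΦ.sub (hu k).aestronglyMeasurable) ((hu k).aestronglyMeasurable.sub hΨ)
      _ = E μ (fun z => u k z - Φ z) + E μ (fun z => u k z - Ψ z) := by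
          congr 1
          exact eLpNorm_congr_norm_ae (Eventually.of_forall fun z => norm_sub_rev _ _)
  have h5 := (eLpNorm_eq_zero_iff (hΦ.sub hΨ) (by norm_num)).1 (le_antisymm h4 zero_le)
  filter_upwards [h5] with z hz
  exact sub_eq_zero.1 hz

/-- **gluing** -/
theorem glue (hU : U ≤ atTop) (hpos : ∀ k, 0 < a k) (hlim : Tendsto a atTop (𝓝 0))
    (hO : IsOpen O) (hloc : ∀ z0 ∈ O, ∃ ρ > 0, MemLp F 2 (volume.restrict (ball z0 ρ)) ∧
      ∀ h, Tendsto (fun k => ∫⁻ z in ball z0 ρ, ENNReal.ofReal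
        ((emb (a k) (fun f => φ k f h) z - lv (F z) h) ^ 2)) U (𝓝 0))
    (hnull : volume (ball (0 : ℂ) (T + 1) \ O) = 0)
    (hnc : ∀ η : ℝ, 0 < η → ∃ L : Set ℂ, IsCompact L ∧ L ⊆ O ∧ ∀ᶠ k in U, ∀ S : Finset Face,
      (∀ f ∈ S, ‖meshPoint (a k) f‖ ≤ T + 1 ∧ meshPoint (a k) f ∉ L) →
        a k ^ 2 * ∑ f ∈ S, nsq (φ k f) ≤ η) :
    MemLp F 2 (volume.restrict (ball 0 T)) ∧
      ∀ h, Tendsto (fun k => eLpNorm (fun z => emb (a k) (fun f => φ k f h) z - lv (F z) h) 2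
        (volume.restrict (ball 0 T))) U (𝓝 0) := by
  have hloc' : ∀ z ∈ O, ∃ ρ > 0, ∀ h, MemLp (fun z => lv (F z) h) 2 (volume.restrict (ball z ρ)) ∧
      Tendsto (fun k => E (volume.restrict (ball z ρ))
        (fun z => emb (a k) (fun f => φ k f h) z - lv (F z) h)) U (𝓝 0) := by
    intro z hz
    obtain ⟨ρ, hρ, h1, h2⟩ := hloc z hz
    exact ⟨ρ, hρ, fun h => ⟨MacSx610.memLp_lv h1 h, MacSx610.tendsto_eLpNorm (h2 h)⟩⟩
  have hex : ∀ h, ∃ Φ : ℂ → ℝ, MemLp Φ 2 (volume.restrict (ball 0 T)) ∧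
      Tendsto (fun k => E (volume.restrict (ball 0 T))
        (fun z => emb (a k) (fun f => φ k f h) z - Φ z)) U (𝓝 0) := by
    intro h
    refine exists_comp hU hpos hlim hO h (fun z hz => ?_) hnc
    obtain ⟨ρ, hρ, h1⟩ := hloc' z hz
    exact ⟨ρ, hρ, _, (h1 h).1, (h1 h).2⟩
  choose Φ hΦ hlimΦ using hex
  have hid : ∀ h, Φ h =ᵐ[volume.restrict (ball 0 T)] fun z => lv (F z) h := by
    intro h
    have h1 : ∀ᵐ z, z ∈ O → z ∈ ball (0 : ℂ) T → Φ h z = lv (F z) h := by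
      refine MacC6x943.ae_of_local hO.measurableSet fun z hz => ?_
      obtain ⟨ρ, hρ, h1⟩ := hloc' z hz
      refine ⟨ρ, hρ, ?_⟩
      have hs1 : ball z ρ ∩ ball 0 T ⊆ ball z ρ := inter_subset_left
      have hs2 : ball z ρ ∩ ball 0 T ⊆ ball 0 T := inter_subset_right
      have h2 := ae_eq_of_tendsto (U := U) (μ := volume.restrict (ball z ρ ∩ ball 0 T))
        (u := fun k => emb (a k) (fun f => φ k f h)) (Φ := Φ h) (Ψ := fun z => lv (F z) h)
        (fun k => Embx622.emb_measurable _ _)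
        ((hΦ h).1.mono_measure (Measure.restrict_mono_set _ hs2))
        ((h1 h).1.1.mono_measure (Measure.restrict_mono_set _ hs1))
        (tendsto_of_tendsto_of_tendsto_of_le_of_le tendsto_const_nhds (hlimΦ h)
          (fun _ => zero_le) fun k => E_mono_set hs2 _)
        (tendsto_of_tendsto_of_tendsto_of_le_of_le tendsto_const_nhds (h1 h).2
          (fun _ => zero_le) fun k => E_mono_set hs1 _)
      rw [EventuallyEq, ae_restrict_iff' (measurableSet_ball.inter measurableSet_ball)] at h2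
      rw [ae_restrict_iff' measurableSet_ball]
      filter_upwards [h2] with u hu h3 h4
      exact hu ⟨h3, h4⟩
    have h2 : ∀ᵐ z : ℂ, z ∉ ball (0 : ℂ) (T + 1) \ O :=
      measure_eq_zero_iff_ae_notMem.1 hnull
    rw [EventuallyEq, ae_restrict_iff' measurableSet_ball]
    filter_upwards [h1, h2] with z hz1 hz2 hz
    refine hz1 ?_ hz
    by_contra hc
    exact hz2 ⟨ball_subset_ball (by linarith) hz, hc⟩
  refine ⟨?_, fun h => ?_⟩
  · have h1 : MemLp (fun z => ((Φ 1 z : ℝ) : ℂ) + ((-Φ 3 z : ℝ) : ℂ) * Complex.I) 2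
        (volume.restrict (ball 0 T)) := by
      refine MemLp.add (hΦ 1).ofReal ?_
      have := ((hΦ 3).neg.ofReal (K := ℂ)).mul_const Complex.I
      exact this
    refine h1.ae_eq ?_
    filter_upwards [hid 1, hid 3] with z hz1 hz3
    rw [hz1, hz3]
    simp only [lv, neg_neg]
    exact Complex.re_add_im (F z)
  · refine (hlimΦ h).congr fun k => E_congr ?_
    filter_upwards [hid h] with z hz
    rw [hz]

end

/-- the `Prop` of `PlMacH_811` -/
theorem glue_prop : PlHx811.Glue := by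
  intro U _ hU a hpos hlim O hO φ F hloc T hnull hnc
  exact glue hU hpos hlim hO hloc hnull hnc

end Crest.Agent.R165.PlMacGx422
end
end

-- ▼ part R165/UPlane_641
section

/-! # Row 165 (S0250): resolvent convergence on the plane, closed (helper641) -/

set_option autoImplicit false

noncomputable section

namespace Crest.Agent.R165.UPlanex641

theorem locComp : PlHx811.LocComp := by
  intro O n x a w V H hO hx K hK g φ hg hbg hbφ he U hU
  exact MacL2x943.comp_loc H hO hx hK (Filter.Eventually.of_forall hg) hbg hbφ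
    (Filter.Eventually.of_forall he) U hU

theorem resPl : ∀ n : ℕ, Even n → ∀ x : Fin n → ℂ, Function.Injective x →
      ∃ Q, MacIx622.ResConv (Mac0x622.Om Set.univ x) x (PlOutx304.PlSeq x) Q :=
  PlRx654.resPl locComp PlMacGx422.glue_prop

end Crest.Agent.R165.UPlanex641
end
end

-- ▼ part R165/UOpen_641
section

/-!
# Row 165 (S0250): the open leaves of block U (helper641)

`UOpen` : the list; `uLim : UOpen → ULimB`
-/

set_option autoImplicit false

noncomputable section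

open Filter Topology Set MeasureTheory
open Crest.ProbabilityR.IsingModel

namespace Crest.Agent.R165.UOpenx641

open Crest.Agent.R165.UB3x641 Crest.Agent.R165.UAsmx641 Crest.Agent.R165.UFreex641
open Crest.Agent.R165.Red2x541

/-- uniqueness of `L²` spinors (719) in `C²` domains -/
theorem uniqL2 (D : Set ℂ) (hD : IsC2JordanDomain D) : MacIx610.UniqL2 D := by
  rcases D.eq_empty_or_nonempty with rfl | hne
  · intro n x _ _ K _ _ F₁ F₂ _ _ _ _ d _ _
    have : (volume.restrict (∅ : Set ℂ)) = 0 := Measure.restrict_empty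
    rw [this, ae_zero]
    exact Filter.eventually_bot
  · obtain ⟨r, M, h⟩ := GeoCx65.exists_CD hD hne
    exact U3x719.uniqL2 h

/-- compactness of the lattice resolvents (943) in `C²` domains -/
theorem comp (D : Set ℂ) (hD : IsC2JordanDomain D) : MacIx610.Comp D :=
  MacC6x943.comp' (Red2x541.isOpen_of_C2 hD) (Redx541.bounded_of_C2 hD)
    (LatSeqx416.volume_frontier hD)


/-- the leaves of block U which are still open -/
structure UOpen : Prop where
  /-- branch limits (576, 644) -/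
  brK : LogEx813.BrLeafK

/-- **block U** from the open leaves -/
theorem uLim (H : UOpen) : ULimB :=
  ulimB3 ⟨comp, uniqL2, LogEx813.brLeaf_of H.brK, LogEx813.ldLeaf_of H.brK U3x719.uniq,
    U3x719.uniq, UPlanex641.resPl,
    PlLdx817.plLd_of UPlanex641.resPl⟩

end Crest.Agent.R165.UOpenx641
end
end

-- ▼ part R165/U3Loc2_67
section

/-!
R165, block U3 (helper67): residue signs.

* `local_sign` : `x_j ∉ K` implies `g(x_j)² = -I wX x j k`, `k ≥ 0`;
* `residue_sign` : `K = {x_i}`, `g` holomorphic on `D` implies `g(x_i)² = I wX x i t`, `t ≥ 0`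
  (helper871's test function `1 - θ`).
-/

set_option autoImplicit false

open Complex Set Metric Filter Topology MeasureTheory
open scoped ComplexConjugate ENNReal

namespace Crest.Agent.R165.U3Covx67

open Crest.Agent.R165.U3x719
open Crest.Agent.R165.Geo (CD)
open Crest.Agent.R165.Cl1x722 Crest.Agent.R165.Cl3x722 Crest.Agent.R165.Cl4x722
  Crest.Agent.R165.Cl5x722

variable {n : ℕ}

theorem db_eq_dbar {χ : ℂ → ℝ} {z : ℂ} (h : DifferentiableAt ℝ χ z) :
    db χ z = 2 * dbar (fun w => (χ w : ℂ)) z := by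
  have h1 : HasFDerivAt (fun w => (χ w : ℂ)) (ofRealCLM.comp (fderiv ℝ χ z)) z :=
    ofRealCLM.hasFDerivAt.comp z h.hasFDerivAt
  unfold db dbar
  rw [h1.fderiv]
  simp only [ContinuousLinearMap.comp_apply, ofRealCLM_apply]
  ring

theorem cauchy_pompeiu {χ : ℂ → ℂ} (h1 : ContDiff ℝ 1 χ) (h2 : HasCompactSupport χ) (c : ℂ) :
    ∫ z, (z - c)⁻¹ * dbar χ z = -(Real.pi : ℂ) * χ c := by
  have h3 : ContDiff ℝ 1 (fun w => χ (w + c)) := h1.comp (contDiff_id.add contDiff_const)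
  have h4 : HasCompactSupport (fun w => χ (w + c)) := by
    have := h2.comp_homeomorph (Homeomorph.addRight c)
    exact this
  have h5 := cauchy_pompeiu_zero h3 h4
  rw [zero_add] at h5
  rw [← h5, ← integral_add_right_eq_self (μ := volume) (fun z => (z - c)⁻¹ * dbar χ z) c]
  refine integral_congr_ae (Eventually.of_forall fun w => ?_)
  simp only [add_sub_cancel_right]
  congr 1
  unfold dbar
  rw [fderiv_comp_add_right]

/-- the local computation: `F² = -m/(z - c)` near `c`, `θ = 1` near `c` -/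
theorem residue_test {c : ℂ} {δ : ℝ} {m : ℂ → ℂ} (hm : DifferentiableOn ℂ m (ball c δ))
    (hδ : 0 < δ) {θ : ℂ → ℝ} (h1 : ContDiff ℝ 1 θ) (h2 : HasCompactSupport θ)
    (h3 : tsupport θ ⊆ ball c δ) (hθ : θ c = 1) {S : Set ℂ}
    (hS : ball c δ ⊆ S) {Q : ℂ → ℂ}
    (hQ : ∀ᵐ z ∂volume.restrict (ball c δ), Q z = -(m z) / (z - c)) :
    Integrable (fun z => Q z * db θ z) (volume.restrict S) ∧
      ∫ z in S, Q z * db θ z = 2 * Real.pi * m c := by
  set Θ : ℂ → ℂ := fun w => (θ w : ℂ) with hΘ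
  have g1 : ContDiff ℝ 1 Θ := ofRealCLM.contDiff.comp h1
  have g2 : HasCompactSupport Θ := h2.comp_left (g := fun x : ℝ => (x : ℂ)) (by simp)
  have g3 : tsupport Θ ⊆ ball c δ := by
    refine (closure_mono fun z hz => ?_).trans h3
    intro h
    apply hz
    simp only [hΘ]
    have : θ z = 0 := h
    rw [this]; simp
  have hdbar : ∀ z, db θ z = 2 * dbar Θ z := fun z =>
    db_eq_dbar ((h1.differentiable one_ne_zero) z)
  have hc := mem_ball_self (x := c) hδ
  have hds : DifferentiableOn ℂ (dslope m c) (ball c δ) :=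
    (Complex.differentiableOn_dslope (isOpen_ball.mem_nhds hc)).2 hm
  have hcd : Continuous (dbar Θ) := continuous_dbar g1
  have hcs : HasCompactSupport (dbar Θ) := hasCompactSupport_dbar g2
  have hts : tsupport (dbar Θ) ⊆ ball c δ := (tsupport_dbar_subset Θ).trans g3
  have i1 : Integrable (fun z => (z - c)⁻¹ * dbar Θ z) := by
    have hl : LocallyIntegrable (fun z : ℂ => (z - c)⁻¹) := by
      have h := locallyIntegrable_inv
      have hmap : Measure.map (Homeomorph.subRight c) (volume : Measure ℂ) = volume :=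
        (measurePreserving_sub_right volume c).map_eq
      rw [← hmap] at h
      exact (locallyIntegrable_map_homeomorph (Homeomorph.subRight c)).1 h
    exact integrable_mul_test (hl.locallyIntegrableOn (ball c δ)) hcd hcs hts
  have i2 : Integrable (fun z => dslope m c z * dbar Θ z) :=
    integrable_mul_test (locallyIntegrableOn_of_differentiableOn isOpen_ball hds) hcd hcs hts
  have e1 := cauchy_pompeiu g1 g2 c
  have e2 := integral_hol_dbar isOpen_ball hds g1 g2 g3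
  have hae : ∀ᵐ z ∂volume.restrict S, Q z * db θ z =
      -2 * m c * ((z - c)⁻¹ * dbar Θ z) + -2 * (dslope m c z * dbar Θ z) := by
    rw [ae_restrict_iff' measurableSet_ball] at hQ
    refine ae_restrict_of_ae ?_
    have hne : ∀ᵐ z : ℂ ∂volume, z ≠ c := by simp [ae_iff, measure_singleton]
    filter_upwards [hQ, hne] with z hz hzc
    rw [hdbar z]
    by_cases hzb : z ∈ ball c δ
    · rw [hz hzb, dslope_of_ne _ hzc, slope_def_field]
      have : z - c ≠ 0 := sub_ne_zero.2 hzc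
      field_simp
      ring
    · have : dbar Θ z = 0 := dbar_zero_of_notMem (fun h => hzb (g3 h))
      rw [this]; ring
  have i3 : Integrable (fun z => -2 * m c * ((z - c)⁻¹ * dbar Θ z) +
      -2 * (dslope m c z * dbar Θ z)) := (i1.const_mul _).add (i2.const_mul _)
  refine ⟨(i3.integrableOn (s := S)).congr (hae.mono fun z hz => hz.symm), ?_⟩
  rw [integral_congr_ae hae]
  have hzero : ∀ z, z ∉ S → -2 * m c * ((z - c)⁻¹ * dbar Θ z) +
      -2 * (dslope m c z * dbar Θ z) = 0 := by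
    intro z hz
    have : dbar Θ z = 0 := dbar_zero_of_notMem (fun h => hz (hS (g3 h)))
    rw [this]; ring
  rw [setIntegral_eq_integral_of_forall_compl_eq_zero hzero,
    integral_add (i1.const_mul _) (i2.const_mul _), integral_const_mul, integral_const_mul,
    e1, e2]
  have : Θ c = 1 := by simp [hΘ, hθ]
  rw [this]; ring

/-- cut-off functions -/
theorem exists_bump (c : ℂ) {r R : ℝ} (hr : 0 < r) (hR : r < R) :
    ∃ θ : ℂ → ℝ, ContDiff ℝ 1 θ ∧ HasCompactSupport θ ∧ (∃ C, LipschitzWith C θ) ∧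
      tsupport θ ⊆ closedBall c R ∧ (∀ z ∈ closedBall c r, θ z = 1) ∧ (∀ z, 0 ≤ θ z) ∧
      ∀ z, θ z ≤ 1 := by
  let f : ContDiffBump c := ⟨r, R, hr, hR⟩
  have h1 : ContDiff ℝ 1 (f : ℂ → ℝ) := f.contDiff
  refine ⟨f, h1, f.hasCompactSupport, h1.lipschitzWith_of_hasCompactSupport f.hasCompactSupport
    one_ne_zero, ?_, fun z hz => f.one_of_mem_closedBall hz, fun z => f.nonneg, fun z => f.le_one⟩
  rw [f.tsupport_eq]

/-- the common computation: `F² = -m/(z - c)` near `c` -/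
theorem spin_sq_near {D : Set ℂ} {x : Fin n → ℂ} {F g : ℂ → ℂ} {j : Fin n}
    {δ : ℝ} (hball : ∀ i, x i ∈ closedBall (x j) δ → x i = x j) (hxi : Function.Injective x)
    (hg : DifferentiableOn ℂ g (ball (x j) δ)) (hsub : ball (x j) δ ⊆ D)
    (hae : ∀ᵐ z ∂volume.restrict D, F z * rX x z = g z) :
    ∃ m : ℂ → ℂ, DifferentiableOn ℂ m (ball (x j) δ) ∧ m (x j) = g (x j) ^ 2 / wX x j ∧
      ∀ᵐ z ∂volume.restrict (ball (x j) δ), F z ^ 2 = -(m z) / (z - x j) := by
  have hP : ∀ z ∈ ball (x j) δ, ∏ i ∈ Finset.univ.erase j, (x i - z) ≠ 0 := by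
    intro z hz
    rw [Finset.prod_ne_zero_iff]
    intro i hi h0
    have h1 : x i = z := sub_eq_zero.1 h0
    have h2 : x i = x j := hball i (by rw [h1]; exact ball_subset_closedBall hz)
    exact (Finset.ne_of_mem_erase hi) (hxi h2)
  refine ⟨fun z => g z ^ 2 / ∏ i ∈ Finset.univ.erase j, (x i - z), ?_, rfl, ?_⟩
  · refine (hg.pow 2).div ?_ hP
    have : Differentiable ℂ (fun z : ℂ => ∏ i ∈ Finset.univ.erase j, (x i - z)) := by fun_prop
    exact this.differentiableOn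
  · have h1 : ∀ᵐ z ∂volume.restrict (ball (x j) δ), F z * rX x z = g z :=
      ae_mono (Measure.restrict_mono hsub le_rfl) hae
    rw [ae_restrict_iff' measurableSet_ball] at h1 ⊢
    filter_upwards [h1, ae_off x (x j)] with z hz hz2 hzb
    have h3 := rX_ne hz2.2
    have h4 : F z = g z / rX x z := by rw [eq_div_iff h3]; exact hz hzb
    have h5 : z - x j ≠ 0 := sub_ne_zero.2 hz2.1
    rw [h4, div_pow, rX_sq]
    unfold PX
    rw [← Finset.mul_prod_erase _ _ (Finset.mem_univ j)]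
    have h6 : x j - z = -(z - x j) := by ring
    have h7 := hP z hzb
    rw [h6]
    field_simp

/-- **local sign** at a branch point which is not a source -/
theorem local_sign {D : Set ℂ} {x : Fin n → ℂ} {K : Set ℂ} {F g : ℂ → ℂ} (hD : IsOpen D)
    (hK : IsClosed K) (h : IsSpin D x K F) (hxi : Function.Injective x)
    (hg : DifferentiableOn ℂ g (D \ K)) (hae : ∀ᵐ z ∂volume.restrict (D \ K), F z * rX x z = g z)
    {j : Fin n} (hj : x j ∈ D) (hjK : x j ∉ K) :
    ∃ k : ℝ, 0 ≤ k ∧ g (x j) ^ 2 = -I * wX x j * k := by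
  obtain ⟨δ, hδ, h1, h2, h3⟩ := exists_small_ball hD hK (x := x) hj hjK
  have hsub : ball (x j) δ ⊆ D \ K := fun z hz =>
    ⟨h1 (ball_subset_closedBall hz),
      fun hzK => Set.disjoint_left.1 h2 (ball_subset_closedBall hz) hzK⟩
  obtain ⟨m, hm, hmj, hsq⟩ := spin_sq_near h3 hxi (hg.mono hsub) hsub hae
  obtain ⟨θ, t1, t2, t3, t4, t5, t6, t7⟩ := exists_bump (x j) (show 0 < δ / 4 by positivity)
    (show δ / 4 < δ / 2 by linarith)
  have hts : tsupport θ ⊆ ball (x j) δ :=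
    t4.trans (closedBall_subset_ball (by linarith))
  have hθ : θ (x j) = 1 := t5 _ (mem_closedBall_self (by positivity))
  obtain ⟨hint, hval⟩ := residue_test hm hδ t1 t2 hts hθ
    (fun z hz => (hsub hz).1) hsq
  have hdisj : Disjoint (tsupport θ) K :=
    Set.disjoint_left.2 (fun z hz hzK => (hsub (hts hz)).2 hzK)
  have hc := h.curl θ t3 t2 t1.contDiffOn hdisj
  have hd := h.div θ t3 t2 t1.contDiffOn hdisj t6
  have hre : ∫ z in D, (F z ^ 2 * db θ z).re = (2 * Real.pi * m (x j)).re := by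
    rw [← hval]; exact integral_re hint
  have him : ∫ z in D, (F z ^ 2 * db θ z).im = (2 * Real.pi * m (x j)).im := by
    rw [← hval]; exact integral_im hint
  rw [hre] at hc
  rw [him] at hd
  have e : (2 * Real.pi * m (x j) : ℂ) = ((2 * Real.pi : ℝ) : ℂ) * m (x j) := by push_cast; ring
  rw [e, Complex.re_ofReal_mul] at hc
  rw [e, Complex.im_ofReal_mul] at hd
  have hpi := Real.pi_pos
  have hmre : (m (x j)).re = 0 := by
    rcases mul_eq_zero.1 hc with h0 | h0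
    · exact absurd h0 (by positivity)
    · exact h0
  have hmim : (m (x j)).im ≤ 0 := by
    by_contra hcon
    push Not at hcon
    have := mul_pos (show 0 < 2 * Real.pi by positivity) hcon
    linarith
  refine ⟨-(m (x j)).im, by linarith, ?_⟩
  have hm2 : m (x j) = I * ((m (x j)).im : ℂ) := by
    apply Complex.ext <;> simp [hmre]
  have hw := wX_ne hxi j
  have h8 : g (x j) ^ 2 = m (x j) * wX x j := by rw [hmj, div_mul_cancel₀ _ hw]
  rw [h8, hm2]
  simp only [Complex.ofReal_neg, Complex.mul_im, Complex.I_re, Complex.I_im, Complex.ofReal_re,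
    Complex.ofReal_im, zero_mul, one_mul, zero_add]
  ring

/-- **residue sign** at the source (helper576's (RS), helper871's proof) -/
theorem residue_sign {D : Set ℂ} {x : Fin n → ℂ} {g : ℂ → ℂ} (hD : IsOpen D)
    (hb : Bornology.IsBounded D) {i : Fin n} (h : IsSpin D x {x i} (fun z => g z / rX x z))
    (hxi : Function.Injective x) (hi : x i ∈ D) (hg : DifferentiableOn ℂ g D) :
    ∃ t : ℝ, 0 ≤ t ∧ g (x i) ^ 2 = I * wX x i * t := by
  obtain ⟨δ, hδ, h1, -, h3⟩ := exists_small_ball hD isClosed_empty (x := x) hi (notMem_empty _)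
  have hsub : ball (x i) δ ⊆ D := fun z hz => h1 (ball_subset_closedBall hz)
  set F : ℂ → ℂ := fun z => g z / rX x z with hF
  have hae : ∀ᵐ z ∂volume.restrict D, F z * rX x z = g z := by
    refine ae_restrict_of_ae ?_
    filter_upwards [ae_off x (x i)] with z hz
    rw [hF]
    exact div_mul_cancel₀ _ (rX_ne hz.2)
  obtain ⟨m, hm, hmj, hsq⟩ := spin_sq_near h3 hxi (hg.mono hsub) hsub hae
  obtain ⟨θ, t1, t2, t3, t4, t5, t6, t7⟩ := exists_bump (x i) (show 0 < δ / 4 by positivity)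
    (show δ / 4 < δ / 2 by linarith)
  have hts : tsupport θ ⊆ ball (x i) δ :=
    t4.trans (closedBall_subset_ball (by linarith))
  have hθ : θ (x i) = 1 := t5 _ (mem_closedBall_self (by positivity))
  obtain ⟨hint, hval⟩ := residue_test hm hδ t1 t2 hts hθ hsub hsq
  -- the large cut-off
  obtain ⟨R, hR⟩ := hb.subset_ball (0:ℂ)
  have hR0 : 0 < max R 1 := lt_max_of_lt_right one_pos
  obtain ⟨κ, k1, k2, k3, k4, k5, k6, k7⟩ := exists_bump (0:ℂ) hR0
    (show max R 1 < max R 1 + 1 by linarith)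
  set χ : ℂ → ℝ := fun z => κ z * (1 - θ z) with hχ
  have c1 : ContDiff ℝ 1 χ := k1.mul (contDiff_const.sub t1)
  have c2 : HasCompactSupport χ := k2.mul_right
  have c3 : ∃ C, LipschitzWith C χ := c1.lipschitzWith_of_hasCompactSupport c2 one_ne_zero
  have c4 : ∀ z, 0 ≤ χ z := fun z => mul_nonneg (k6 z) (by linarith [t7 z])
  have c5 : Disjoint (tsupport χ) {x i} := by
    rw [Set.disjoint_singleton_right]
    intro hmem
    have hev : χ =ᶠ[𝓝 (x i)] fun _ => 0 := by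
      filter_upwards [ball_mem_nhds (x i) (show 0 < δ / 4 by positivity)] with z hz
      simp only [hχ]
      rw [t5 z (ball_subset_closedBall hz)]; ring
    exact (notMem_tsupport_iff_eventuallyEq.2 hev) hmem
  have c6 : ∀ z ∈ D, db χ z = - db θ z := by
    intro z hz
    have hev : χ =ᶠ[𝓝 z] fun w => 1 - θ w := by
      filter_upwards [isOpen_ball.mem_nhds (hR hz)] with w hw
      simp only [hχ]
      rw [k5 w (closedBall_subset_closedBall (le_max_left _ _) (ball_subset_closedBall hw))]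
      ring
    unfold db
    rw [hev.fderiv_eq]
    have : fderiv ℝ (fun w => 1 - θ w) z = - fderiv ℝ θ z := by
      rw [fderiv_const_sub]
    rw [this]
    simp
    ring
  have hc := h.curl χ c3 c2 c1.contDiffOn c5
  have hd := h.div χ c3 c2 c1.contDiffOn c5 c4
  have hval2 : ∫ z in D, (F z ^ 2 * db χ z) = - (2 * Real.pi * m (x i)) := by
    rw [← hval, ← integral_neg]
    refine setIntegral_congr_fun hD.measurableSet (fun z hz => ?_)
    have := c6 z hz
    change F z ^ 2 * db χ z = -(F z ^ 2 * db θ z)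
    rw [this]; ring
  have hint2 : Integrable (fun z => F z ^ 2 * db χ z) (volume.restrict D) := by
    refine hint.neg.congr ?_
    rw [Filter.EventuallyEq, ae_restrict_iff' hD.measurableSet]
    refine Eventually.of_forall (fun z hz => ?_)
    simp only [Pi.neg_apply]
    rw [c6 z hz]; ring
  have hre : ∫ z in D, (F z ^ 2 * db χ z).re = (-(2 * Real.pi * m (x i))).re := by
    rw [← hval2]; exact integral_re hint2
  have him : ∫ z in D, (F z ^ 2 * db χ z).im = (-(2 * Real.pi * m (x i))).im := by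
    rw [← hval2]; exact integral_im hint2
  rw [hre] at hc
  rw [him] at hd
  have e : (2 * Real.pi * m (x i) : ℂ) = ((2 * Real.pi : ℝ) : ℂ) * m (x i) := by push_cast; ring
  rw [e, Complex.neg_re, Complex.re_ofReal_mul] at hc
  rw [e, Complex.neg_im, Complex.im_ofReal_mul] at hd
  have hpi := Real.pi_pos
  have hmre : (m (x i)).re = 0 := by
    rcases mul_eq_zero.1 (neg_eq_zero.1 hc) with h0 | h0
    · exact absurd h0 (by positivity)
    · exact h0
  have hmim : 0 ≤ (m (x i)).im := by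
    by_contra hcon
    push Not at hcon
    have := mul_neg_of_pos_of_neg (show 0 < 2 * Real.pi by positivity) hcon
    linarith
  refine ⟨(m (x i)).im, hmim, ?_⟩
  have hm2 : m (x i) = I * ((m (x i)).im : ℂ) := by
    apply Complex.ext <;> simp [hmre]
  have hw := wX_ne hxi i
  have h8 : g (x i) ^ 2 = m (x i) * wX x i := by rw [hmj, div_mul_cancel₀ _ hw]
  rw [h8]
  nth_rewrite 1 [hm2]
  ring

end Crest.Agent.R165.U3Covx67
end

-- ▼ part R165/Eta4_576
section

/-!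
# Row 165 (S0250), block U4 (helper576): the spinor with source at a branch vertex

* `l2_unique` : uniqueness of local `L²` limits
* `glue` : the limits for all radii define a spinor `g` with source at `x j`
* `exists_brn` : `IsBrN D x j g` and `ColLim` with amplitude `s_j kp e8 g / rX`
-/

set_option autoImplicit false
set_option linter.unusedVariables false
set_option linter.unusedSimpArgs false

noncomputable section

open MeasureTheory Filter Topology Set Metric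
open Crest.ProbabilityR.IsingModel
open Crest.Agent.R165.Tr1x40 Crest.Agent.R165.RIfx891 Crest.Agent.R165.Embx622
open Crest.Agent.R165.Upx622
open Crest.Agent.R165.Mac0x622 Crest.Agent.R165.Mac1x622 Crest.Agent.R165.Mac3x622
open Crest.Agent.R165.MacIx622
open Crest.Agent.R165.Eta1x576 Crest.Agent.R165.Eta2x576 Crest.Agent.R165.Eta3x576
open Crest.Agent.R165.U3x719 (IsSpin IsBr e8 db)
open Crest.Agent.R165.MacSx610 (om8 om8_sq om8_ne)
open Crest.Agent.R165.UB3x641 (gsrc gsrc_sq IsBrN)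

namespace Crest.Agent.R165.Eta4x576

variable {n : ℕ}

/-! ### uniqueness of limits -/

theorem l2_unique {B : Set ℂ} {u : ℕ → ℂ → ℝ} {U W : ℂ → ℝ}
    (hu : ∀ k, Measurable (u k)) (hU : AEMeasurable U (volume.restrict B))
    (hW : AEMeasurable W (volume.restrict B))
    (h1 : Tendsto (fun k => ∫⁻ z in B, ENNReal.ofReal ((u k z - U z) ^ 2)) atTop (𝓝 0))
    (h2 : Tendsto (fun k => ∫⁻ z in B, ENNReal.ofReal ((u k z - W z) ^ 2)) atTop (𝓝 0)) :
    ∀ᵐ z ∂volume.restrict B, U z = W z := by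
  have hL2 := ENNReal.Tendsto.const_mul (a := (2 : ENNReal)) h1 (Or.inr (by simp))
  have hE2 := ENNReal.Tendsto.const_mul (a := (2 : ENNReal)) h2 (Or.inr (by simp))
  have hsum := hL2.add hE2
  simp only [mul_zero, add_zero] at hsum
  have hle : ∀ k, ∫⁻ z in B, ENNReal.ofReal ((U z - W z) ^ 2) ≤
      2 * (∫⁻ z in B, ENNReal.ofReal ((u k z - U z) ^ 2)) +
        2 * ∫⁻ z in B, ENNReal.ofReal ((u k z - W z) ^ 2) := by
    intro k
    have hmul : ∀ f : ℂ → ENNReal, 2 * ∫⁻ u in B, f u = ∫⁻ u in B, 2 * f u :=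
      fun f => (lintegral_const_mul' _ _ (by simp)).symm
    have hmeas : AEMeasurable (fun z => (2 : ENNReal) * ENNReal.ofReal ((u k z - W z) ^ 2))
        (volume.restrict B) :=
      (((((hu k).aemeasurable.sub hW).pow_const 2).ennreal_ofReal).const_mul _)
    simp only [hmul]
    rw [← lintegral_add_right' _ hmeas]
    refine lintegral_mono fun z => ?_
    rw [show (2 : ENNReal) = ENNReal.ofReal 2 by simp, ← ENNReal.ofReal_mul (by norm_num),
      ← ENNReal.ofReal_mul (by norm_num), ← ENNReal.ofReal_add (by positivity) (by positivity)]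
    apply ENNReal.ofReal_le_ofReal
    nlinarith [sq_nonneg ((u k z - U z) + (u k z - W z))]
  have h0 : ∫⁻ z in B, ENNReal.ofReal ((U z - W z) ^ 2) = 0 :=
    le_antisymm (ge_of_tendsto' hsum hle) (zero_le)
  have h0' := (lintegral_eq_zero_iff' (((hU.sub hW).pow_const 2).ennreal_ofReal)).1 h0
  filter_upwards [h0'] with z hz
  have h3 : (U z - W z) ^ 2 ≤ 0 := ENNReal.ofReal_eq_zero.1 hz
  have h4 : U z - W z = 0 := by
    have := le_antisymm h3 (sq_nonneg _)
    exact pow_eq_zero_iff (two_ne_zero) |>.1 this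
  linarith

/-- null sets, locally -/
theorem ae_of_local {O : Set ℂ} (hO : IsOpen O) {p : ℂ → Prop}
    (h : ∀ z ∈ O, ∃ ρ > 0, ∀ᵐ u ∂volume.restrict (ball z ρ), p u) :
    ∀ᵐ u ∂volume.restrict O, p u := by
  rw [ae_restrict_iff' hO.measurableSet, ae_iff]
  have key : volume ({u | ¬ p u} ∩ O) = 0 := by
    refine measure_null_of_locally_null _ fun z hz => ?_
    obtain ⟨ρ, hρ, h1⟩ := h z hz.2
    refine ⟨{u | ¬ p u} ∩ ball z ρ, ?_, ?_⟩
    · rw [mem_nhdsWithin]
      exact ⟨ball z ρ, isOpen_ball, mem_ball_self hρ, fun u hu => ⟨hu.2.1, hu.1⟩⟩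
    · rw [ae_restrict_iff' measurableSet_ball, ae_iff] at h1
      refine measure_mono_null (fun u hu => ?_) h1
      exact fun hc => hu.1 (hc hu.2)
  refine measure_mono_null (fun u hu => ?_) key
  rw [mem_ofPred_eq, Classical.not_imp] at hu
  exact ⟨hu.2, hu.1⟩

theorem colLim_unique {O : Set ℂ} (hO : IsOpen O) {x : Fin n → ℂ} {j : Fin n} {a : ℕ → ℝ} {w : ℕ → Fld}
    {V : ℕ → Fin n → Face} {S : ℕ → Face × Fin 4 → Face × Fin 4 → ℝ} {E E' : ℂ → ℂ}
    (hE : AEMeasurable E) (hE' : AEMeasurable E')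
    (h1 : ColLim O x j a w V S E) (h2 : ColLim O x j a w V S E') :
    ∀ᵐ z ∂volume.restrict O, E z = E' z := by
  refine ae_of_local hO fun z₀ hz₀ => ?_
  obtain ⟨ρ1, hρ1, k1⟩ := h1 z₀ hz₀
  obtain ⟨ρ2, hρ2, k2⟩ := h2 z₀ hz₀
  refine ⟨min ρ1 ρ2, by positivity, ?_⟩
  have key : ∀ h : Fin 4, ∀ᵐ z ∂volume.restrict (ball z₀ (min ρ1 ρ2)), lv (E z) h = lv (E' z) h := by
    intro h
    have e1 := tendsto_of_tendsto_of_tendsto_of_le_of_le tendsto_const_nhds (k1 h)
      (fun _ => zero_le) fun k => lintegral_mono_set (ball_subset_ball (min_le_left ρ1 ρ2))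
    have e2 := tendsto_of_tendsto_of_tendsto_of_le_of_le tendsto_const_nhds (k2 h)
      (fun _ => zero_le) fun k => lintegral_mono_set (ball_subset_ball (min_le_right ρ1 ρ2))
    exact l2_unique (fun k => emb_measurable _ _)
      ((lv_continuous h).measurable.comp_aemeasurable hE.restrict)
      ((lv_continuous h).measurable.comp_aemeasurable hE'.restrict) e1 e2
  filter_upwards [key 1, key 3] with z h1 h3
  exact lv_inj h1 h3

theorem ColLim.congr {O : Set ℂ} (hO : IsOpen O) {x : Fin n → ℂ} {j : Fin n} {a : ℕ → ℝ}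
    {w : ℕ → Fld} {V : ℕ → Fin n → Face} {S : ℕ → Face × Fin 4 → Face × Fin 4 → ℝ} {E E' : ℂ → ℂ}
    (h : ColLim O x j a w V S E) (hE : ∀ᵐ z ∂volume.restrict O, E z = E' z) :
    ColLim O x j a w V S E' := by
  intro z₀ hz₀
  obtain ⟨ρ1, hρ1, k1⟩ := h z₀ hz₀
  obtain ⟨ρ2, hρ2, h2⟩ := Metric.isOpen_iff.1 hO z₀ hz₀
  refine ⟨min ρ1 ρ2, by positivity, fun h => ?_⟩
  have e1 := tendsto_of_tendsto_of_tendsto_of_le_of_le tendsto_const_nhds (k1 h)
    (fun _ => zero_le) fun k => lintegral_mono_set (ball_subset_ball (min_le_left ρ1 ρ2))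
  refine e1.congr fun k => ?_
  refine lintegral_congr_ae ?_
  have h3 : ball z₀ (min ρ1 ρ2) ⊆ O := (ball_subset_ball (min_le_right _ _)).trans h2
  filter_upwards [ae_restrict_of_ae_restrict_of_subset h3 hE] with z hz
  rw [hz]

/-! ### the spinor from the limits -/

theorem om8_e8 : om8 * e8 = 1 := by
  unfold om8 e8
  rw [← Complex.exp_add, neg_add_cancel, Complex.exp_zero]

theorem om8_I : om8 * Complex.I = e8 := by
  have h1 : e8 ^ 2 = Complex.I := UB3x641.e8_sq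
  calc om8 * Complex.I = (om8 * e8) * e8 := by rw [← h1]; ring
    _ = e8 := by rw [om8_e8, one_mul]

/-- `-1` to the number of rays through `x j` -/
def sj (x : Fin n → ℂ) (j : Fin n) : ℝ := by
  classical exact ∏ l ∈ Finset.univ.erase j,
    if (x l).im = (x j).im ∧ (x l).re < (x j).re then -1 else 1

theorem sj_sq (x : Fin n → ℂ) (j : Fin n) : sj x j ^ 2 = 1 := by
  classical
  unfold sj
  rw [← Finset.prod_pow]
  refine Finset.prod_eq_one fun i _ => ?_
  split_ifs <;> norm_num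

theorem gsrc_eq (x : Fin n → ℂ) (j : Fin n) : gsrc x j = sj x j * (e8 * hj x j (x j)) := by
  classical
  unfold gsrc sj hj
  rw [Finset.prod_mul_distrib]
  have e : ∏ l ∈ Finset.univ.erase j, (((if rel (x l) (x j) ∧ (x l).im < (x j).im then (-1 : ℝ)
      else 1 : ℝ) : ℂ) * (x l - x j) ^ (1 / 2 : ℂ)) =
      ∏ l ∈ Finset.univ.erase j, (x l - x j) ^ (1 / 2 : ℂ) := by
    refine Finset.prod_congr rfl fun l _ => ?_
    rw [if_neg]
    · push_cast; ring
    · rintro ⟨h1, h2⟩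
      exact absurd h1.1 h2.ne
  have e2 : ((∏ l ∈ Finset.univ.erase j, (if (x l).im = (x j).im ∧ (x l).re < (x j).re
      then (-1 : ℝ) else 1) : ℝ) : ℂ) = ∏ l ∈ Finset.univ.erase j,
      (if (x l).im = (x j).im ∧ (x l).re < (x j).re then (-1 : ℂ) else 1) := by
    rw [Complex.ofReal_prod]
    refine Finset.prod_congr rfl fun l _ => ?_
    split_ifs <;> simp
  rw [e, e2]
  ring

/-- the limits for all radii -/
structure Lims (D : Set ℂ) (x : Fin n → ℂ) (j : Fin n) (ρ : ℝ) (E : ℂ → ℂ) : Prop where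
  rad : Rad D x j ρ
  lim : ∀ r, 0 < r → r ≤ ρ → ∃ (F : ℂ → ℂ) (χ : ℂ → ℝ), Cut (x j) r χ ∧
    IsSpin D x (Anr (x j) r) (fun z => om8 * F z) ∧
    ∀ᵐ z ∂volume.restrict D, E z = F z + ba x j χ z

theorem ba_zero {x : Fin n → ℂ} {j : Fin n} {r : ℝ} {χ : ℂ → ℝ} (hχ : Cut (x j) r χ) {z : ℂ}
    (hz : 3 * r / 4 ≤ ‖z - x j‖) : ba x j χ z = 0 := by
  unfold ba
  rw [hχ.zero z hz]
  simp

theorem ae_ne_tip (x : Fin n → ℂ) (s : Set ℂ) : ∀ᵐ z ∂(volume : Measure ℂ).restrict s,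
    ∀ i, x i ≠ z := by
  refine ae_restrict_of_ae ?_
  rw [ae_all_iff]
  intro i
  rw [ae_iff]
  simp

theorem rX_same (x : Fin n → ℂ) (z : ℂ) : rX x z = U3x719.rX x z := rfl

/-- the holomorphic function `om8 E rX` -/
theorem exists_gT {D : Set ℂ} (hD : IsOpen D) {x : Fin n → ℂ} {j : Fin n} {ρ : ℝ}
    {E : ℂ → ℂ} (L : Lims D x j ρ E) :
    ∃ (g G : ℂ → ℂ), DifferentiableOn ℂ g D ∧
      (∀ᵐ z ∂volume.restrict D, om8 * E z * rX x z = g z) ∧
      (∃ F : ℂ → ℂ, IsSpin D x (Anr (x j) ρ) (fun z => om8 * F z) ∧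
        DifferentiableOn ℂ G (D \ Anr (x j) ρ) ∧
        ∀ᵐ z ∂volume.restrict (D \ Anr (x j) ρ), om8 * F z * rX x z = G z) ∧
      g (x j) = G (x j) + Br5x644.kp * (e8 * hj x j (x j)) := by
  classical
  have hρ := L.rad.pos
  obtain ⟨F1, χ1, hχ1, hS1, hE1⟩ := L.lim (ρ / 8) (by positivity) (by linarith)
  obtain ⟨F2, χ2, hχ2, hS2, hE2⟩ := L.lim ρ hρ le_rfl
  obtain ⟨G1, hG1, hG1a⟩ := U3Covx67.IsSpin.removable hD (Anr_closed _ _) hS1
  obtain ⟨G2, hG2, hG2a⟩ := U3Covx67.IsSpin.removable hD (Anr_closed _ _) hS2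
  set g2 : ℂ → ℂ := fun z => G2 z + Br5x644.kp * (e8 * hj x j z) with hg2
  set g : ℂ → ℂ := fun z => if ‖z - x j‖ < ρ / 4 then g2 z else G1 z with hg
  -- the two regions
  set U1 : Set ℂ := D ∩ {z | ρ / 8 < ‖z - x j‖} with hU1
  set U2 : Set ℂ := ball (x j) (ρ / 4) with hU2
  have oU1 : IsOpen U1 :=
    hD.inter (isOpen_lt continuous_const (continuous_id.sub continuous_const).norm)
  have sU1 : U1 ⊆ D \ Anr (x j) (ρ / 8) := fun z hz => ⟨hz.1, fun h => absurd h.2 (not_le.2 hz.2)⟩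
  have sU2 : U2 ⊆ D \ Anr (x j) ρ := by
    intro z hz
    rw [hU2, mem_ball, dist_eq_norm] at hz
    refine ⟨L.rad.sub (by rw [mem_closedBall, dist_eq_norm]; linarith), fun h => ?_⟩
    exact absurd h.1 (not_le.2 hz)
  have a1 : ∀ᵐ z ∂volume.restrict U1, om8 * E z * rX x z = G1 z := by
    have h1 := ae_restrict_of_ae_restrict_of_subset sU1 hG1a
    have h2 := ae_restrict_of_ae_restrict_of_subset (sU1.trans sdiff_subset) hE1
    filter_upwards [h1, h2, ae_restrict_mem oU1.measurableSet] with z h1 h2 h3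
    rw [h2, ba_zero hχ1 (by have := h3.2; rw [mem_ofPred_eq] at this; linarith), add_zero, ← h1]
    rfl
  have a2 : ∀ᵐ z ∂volume.restrict U2, om8 * E z * rX x z = g2 z := by
    have h1 := ae_restrict_of_ae_restrict_of_subset sU2 hG2a
    have h2 := ae_restrict_of_ae_restrict_of_subset (sU2.trans sdiff_subset) hE2
    filter_upwards [h1, h2, ae_restrict_mem measurableSet_ball, ae_ne_tip x U2] with z h1 h2 h3 h4
    rw [mem_ball, dist_eq_norm] at h3
    have h5 : χ2 z = 1 := hχ2.one z (by linarith)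
    have h6 := bc_rX x j (u := z) (h4 j).symm
    rw [h2, hg2]
    simp only
    rw [← h1]
    unfold ba
    rw [h5, ← om8_I]
    have : om8 * (F2 z + ((1 : ℝ) : ℂ) * ((gc x (x j) z : ℂ) * bc (z - x j))) * rX x z =
        om8 * F2 z * rX x z + om8 * (((gc x (x j) z : ℂ) * bc (z - x j)) * rX x z) := by
      push_cast; ring
    rw [this, h6, rX_same]
    ring
  have hg2d : DifferentiableOn ℂ g2 U2 := by
    refine (hG2.mono sU2).add ?_
    refine DifferentiableOn.const_mul (DifferentiableOn.const_mul ?_ _) _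
    exact L.rad.hol.mono (ball_subset_ball (by linarith))
  have hG1d : DifferentiableOn ℂ G1 U1 := hG1.mono sU1
  -- the overlap
  have hov : EqOn G1 g2 (U1 ∩ U2) := by
    refine Measure.eqOn_open_of_ae_eq (μ := volume) ?_ (oU1.inter isOpen_ball)
      (hG1d.continuousOn.mono inter_subset_left) (hg2d.continuousOn.mono inter_subset_right)
    filter_upwards [ae_restrict_of_ae_restrict_of_subset inter_subset_left a1,
      ae_restrict_of_ae_restrict_of_subset inter_subset_right a2] with z h1 h2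
    rw [← h1, ← h2]
  have hgU1 : EqOn g G1 U1 := by
    intro z hz
    rw [hg]
    by_cases h : ‖z - x j‖ < ρ / 4
    · simp only [if_pos h]
      exact (hov ⟨hz, by rw [hU2, mem_ball, dist_eq_norm]; exact h⟩).symm
    · simp only [if_neg h]
  have hgU2 : EqOn g g2 U2 := by
    intro z hz
    rw [hU2, mem_ball, dist_eq_norm] at hz
    rw [hg]
    simp only [if_pos hz]
  have hcov : ∀ z ∈ D, z ∈ U1 ∨ z ∈ U2 := by
    intro z hz
    by_cases h : ρ / 8 < ‖z - x j‖
    · exact Or.inl ⟨hz, h⟩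
    · right
      rw [hU2, mem_ball, dist_eq_norm]
      push Not at h
      linarith
  refine ⟨g, G2, ?_, ?_, ⟨F2, hS2, hG2, hG2a⟩, ?_⟩
  · intro z hz
    rcases hcov z hz with h | h
    · exact ((hG1d.congr hgU1).differentiableAt (oU1.mem_nhds h)).differentiableWithinAt
    · exact ((hg2d.congr hgU2).differentiableAt (isOpen_ball.mem_nhds h)).differentiableWithinAt
  · have b1 : ∀ᵐ z ∂volume.restrict U1, om8 * E z * rX x z = g z := by
      filter_upwards [a1, ae_restrict_mem oU1.measurableSet] with z h1 h2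
      rw [h1, hgU1 h2]
    have b2 : ∀ᵐ z ∂volume.restrict U2, om8 * E z * rX x z = g z := by
      filter_upwards [a2, ae_restrict_mem measurableSet_ball] with z h1 h2
      rw [h1, hgU2 h2]
    have b3 := (ae_restrict_union_iff U1 U2 _).2 ⟨b1, b2⟩
    exact ae_restrict_of_ae_restrict_of_subset (fun z hz => hcov z hz) b3
  · have : x j ∈ U2 := mem_ball_self (by positivity)
    rw [hgU2 this]

theorem IsSpin.congr {D : Set ℂ} {x : Fin n → ℂ} {K : Set ℂ} {F F' : ℂ → ℂ} (h : IsSpin D x K F)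
    (he : ∀ᵐ z ∂volume.restrict D, F z = F' z) : IsSpin D x K F' where
  l2 U hU hK := (memLp_congr_ae (ae_restrict_of_ae_restrict_of_subset sdiff_subset he)).1
    (h.l2 U hU hK)
  holo := by
    obtain ⟨g, hg, hae⟩ := h.holo
    refine ⟨g, hg, ?_⟩
    filter_upwards [hae, ae_restrict_of_ae_restrict_of_subset sdiff_subset he] with z h1 h2
    rw [← h2, h1]
  curl χ h1 h2 h3 h4 := by
    rw [← h.curl χ h1 h2 h3 h4]
    refine integral_congr_ae ?_
    filter_upwards [he] with z hz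
    rw [hz]
  div χ h1 h2 h3 h4 h5 := by
    refine le_trans (le_of_eq ?_) (h.div χ h1 h2 h3 h4 h5)
    refine integral_congr_ae ?_
    filter_upwards [he] with z hz
    rw [hz]

theorem Anr_sub {y : ℂ} {r r0 : ℝ} (h : r < r0) : Anr y r ⊆ ball y r0 := by
  intro z hz
  rw [mem_ball, dist_eq_norm]
  exact hz.2.trans_lt h

/-- the spinor with source at `x j` -/
theorem spin_of_lims {D : Set ℂ} (hD : IsOpen D) {x : Fin n → ℂ} {j : Fin n} {ρ : ℝ}
    {E : ℂ → ℂ} (L : Lims D x j ρ E) : IsSpin D x {x j} (fun z => om8 * E z) where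
  l2 U hU hK := by
    have hρ := L.rad.pos
    obtain ⟨r0, hr0, hsub⟩ := Metric.isOpen_iff.1 hU _ (hK rfl)
    obtain ⟨F, χ, hχ, hS, hE⟩ := L.lim (min ρ (r0 / 2)) (by positivity) (min_le_left _ _)
    have hr : min ρ (r0 / 2) ≤ r0 / 2 := min_le_right _ _
    have h1 := hS.l2 (ball (x j) r0) isOpen_ball (Anr_sub (by linarith))
    have h2 : MemLp (fun z => om8 * F z) 2 (volume.restrict (D \ U)) :=
      h1.mono_measure (Measure.restrict_mono (sdiff_subset_sdiff_right hsub) le_rfl)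
    refine (memLp_congr_ae ?_).1 h2
    filter_upwards [ae_restrict_of_ae_restrict_of_subset sdiff_subset hE,
      ae_restrict_mem (hD.measurableSet.diff hU.measurableSet)] with z h3 h4
    have h5 : r0 ≤ ‖z - x j‖ := by
      by_contra hc
      exact h4.2 (hsub (by rw [mem_ball, dist_eq_norm]; exact not_le.1 hc))
    rw [h3, ba_zero hχ (by linarith), add_zero]
  holo := by
    obtain ⟨g, G, hg, hga, -, -⟩ := exists_gT hD L
    refine ⟨g, hg.mono sdiff_subset, ?_⟩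
    filter_upwards [ae_restrict_of_ae_restrict_of_subset sdiff_subset hga] with z hz
    rw [← hz]
    rfl
  curl χ' h1 h2 h3 h4 := by
    have hρ := L.rad.pos
    have hx : x j ∉ tsupport χ' := fun h => Set.disjoint_left.1 h4 h rfl
    obtain ⟨r0, hr0, hsub⟩ := Metric.isOpen_iff.1 (isClosed_tsupport χ').isOpen_compl _ hx
    obtain ⟨F, χ, hχ, hS, hE⟩ := L.lim (min ρ (r0 / 2)) (by positivity) (min_le_left _ _)
    have hr : min ρ (r0 / 2) ≤ r0 / 2 := min_le_right _ _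
    have hdis : Disjoint (tsupport χ') (Anr (x j) (min ρ (r0 / 2))) := by
      rw [Set.disjoint_left]
      exact fun z hz hz' => hsub (Anr_sub (by linarith) hz') hz
    rw [← hS.curl χ' h1 h2 h3 hdis]
    refine integral_congr_ae ?_
    filter_upwards [hE] with z hz
    by_cases hzt : z ∈ tsupport χ'
    · have h5 : r0 ≤ ‖z - x j‖ := by
        by_contra hc
        exact hsub (by rw [mem_ball, dist_eq_norm]; exact not_le.1 hc) hzt
      rw [hz, ba_zero hχ (by linarith), add_zero]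
    · rw [U3x719.db_of_notMem hzt, mul_zero, mul_zero]
  div χ' h1 h2 h3 h4 h5 := by
    have hρ := L.rad.pos
    have hx : x j ∉ tsupport χ' := fun h => Set.disjoint_left.1 h4 h rfl
    obtain ⟨r0, hr0, hsub⟩ := Metric.isOpen_iff.1 (isClosed_tsupport χ').isOpen_compl _ hx
    obtain ⟨F, χ, hχ, hS, hE⟩ := L.lim (min ρ (r0 / 2)) (by positivity) (min_le_left _ _)
    have hr : min ρ (r0 / 2) ≤ r0 / 2 := min_le_right _ _
    have hdis : Disjoint (tsupport χ') (Anr (x j) (min ρ (r0 / 2))) := by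
      rw [Set.disjoint_left]
      exact fun z hz hz' => hsub (Anr_sub (by linarith) hz') hz
    refine le_trans (le_of_eq ?_) (hS.div χ' h1 h2 h3 hdis h5)
    refine integral_congr_ae ?_
    filter_upwards [hE] with z hz
    by_cases hzt : z ∈ tsupport χ'
    · have h5 : r0 ≤ ‖z - x j‖ := by
        by_contra hc
        exact hsub (by rw [mem_ball, dist_eq_norm]; exact not_le.1 hc) hzt
      rw [hz, ba_zero hχ (by linarith), add_zero]
    · rw [U3x719.db_of_notMem hzt, mul_zero, mul_zero]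

theorem kp_ne : Br5x644.kp ≠ 0 := by
  intro h
  have := Br5x644.kp_sq
  rw [h] at this
  norm_num at this

theorem wX_ne {x : Fin n → ℂ} (hx : Function.Injective x) (j : Fin n) : U3x719.wX x j ≠ 0 := by
  unfold U3x719.wX
  rw [Finset.prod_ne_zero_iff]
  intro i hi
  rw [Finset.mem_erase] at hi
  exact sub_ne_zero.2 fun h => hi.1 (hx h)

/-- the local coefficient of the regular part vanishes -/
theorem no_reg {p s W : ℂ} (hW : W ≠ 0) {k t : ℝ} (hk : 0 ≤ k) (h1 : p ^ 2 = -Complex.I * W * k)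
    (h2 : (p + s) ^ 2 = Complex.I * W * t) (h3 : s ^ 2 = Complex.I * W) : p = 0 := by
  have hI := Complex.I_sq
  have h4 : 2 * p * s = Complex.I * W * ((t - 1 + k : ℝ) : ℂ) := by
    push_cast
    linear_combination h2 - h1 - h3
  have h5 : (2 * p * s) ^ 2 = 4 * W ^ 2 * k := by
    calc (2 * p * s) ^ 2 = 4 * p ^ 2 * s ^ 2 := by ring
      _ = 4 * W ^ 2 * k := by rw [h1, h3]; linear_combination (-4 * W ^ 2 * k) * hI
  rw [h4] at h5
  have h6 : W ^ 2 * ((-(t - 1 + k) ^ 2 : ℝ) : ℂ) = W ^ 2 * ((4 * k : ℝ) : ℂ) := by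
    push_cast at h5 ⊢
    linear_combination h5 - (W ^ 2 * (t - 1 + k) ^ 2) * hI
  have h7 := mul_left_cancel₀ (pow_ne_zero 2 hW) h6
  have h8 : -(t - 1 + k) ^ 2 = 4 * k := by exact_mod_cast h7
  have h9 : k = 0 := by nlinarith [sq_nonneg (t - 1 + k)]
  rw [h9] at h1
  simp only [Complex.ofReal_zero, mul_zero] at h1
  exact pow_eq_zero_iff (two_ne_zero) |>.1 h1

/-- **the limits define the normalised spinor** -/
theorem brn_of_lims {D : Set ℂ} (hD : IsOpen D) (hb : Bornology.IsBounded D) {x : Fin n → ℂ}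
    (hx : Function.Injective x) {j : Fin n} (hj : x j ∈ D) {ρ : ℝ} {E : ℂ → ℂ}
    (L : Lims D x j ρ E) : ∃ g : ℂ → ℂ, IsBrN D x j g ∧
      ∀ᵐ z ∂volume.restrict D, E z = ((sj x j * Br5x644.kp : ℝ) : ℂ) * (e8 * (g z / rX x z)) := by
  obtain ⟨g0, G, hg0, hg0a, ⟨F, hF, hG, hGa⟩, hval⟩ := exists_gT hD L
  have hs := sj_sq x j
  have hk := kp_ne
  have hkC : (Br5x644.kp : ℂ) ≠ 0 := by exact_mod_cast hk
  have hsC : (sj x j : ℂ) ^ 2 = 1 := by exact_mod_cast hs
  set c : ℝ := sj x j / Br5x644.kp with hc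
  set g : ℂ → ℂ := fun z => (c : ℂ) * g0 z with hg
  have hgd : DifferentiableOn ℂ g D := hg0.const_mul _
  have hrX : ∀ᵐ z ∂volume.restrict D, rX x z ≠ 0 := by
    filter_upwards [ae_ne_tip x D] with z hz
    exact rX_ne hz
  have hspin : IsSpin D x {x j} (fun z => g z / U3x719.rX x z) := by
    refine IsSpin.congr ((U3Covx67.IsSpin.smul (spin_of_lims hD L) c)) ?_
    filter_upwards [hg0a, hrX] with z h1 h2
    rw [← rX_same, hg]
    simp only
    rw [← h1]
    field_simp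
  have hxj : x j ∉ Anr (x j) ρ := by
    intro h
    have := h.1
    rw [sub_self, norm_zero] at this
    have := L.rad.pos
    linarith
  obtain ⟨k, hk0, hk1⟩ := U3Covx67.local_sign hD (Anr_closed _ _) hF hx hG
    (by simpa only [rX_same] using hGa) hj hxj
  obtain ⟨t, ht0, ht1⟩ := U3Covx67.residue_sign hD hb hspin hx hj hgd
  have hnrm : g (x j) = gsrc x j := by
    have h1 : g (x j) = (c : ℂ) * G (x j) + gsrc x j := by
      rw [hg]
      simp only
      rw [hval, gsrc_eq, hc]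
      push_cast
      field_simp
    have h2 : ((c : ℂ) * G (x j)) ^ 2 = -Complex.I * U3x719.wX x j * ((c ^ 2 * k : ℝ) : ℂ) := by
      rw [mul_pow, hk1]
      push_cast
      ring
    rw [h1] at ht1
    have h3 := no_reg (wX_ne hx j) (mul_nonneg (sq_nonneg c) hk0) h2 ht1 (gsrc_sq x j)
    rw [h1, h3, zero_add]
  refine ⟨g, ⟨⟨hgd, hspin, ?_⟩, hnrm⟩, ?_⟩
  · rw [hnrm, gsrc_sq]
  · filter_upwards [hg0a, hrX] with z h1 h2
    rw [hg]
    simp only
    rw [← h1, hc]
    have h8 := om8_e8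
    push_cast
    field_simp
    linear_combination (-(E z)) * hsC - (E z * (sj x j : ℂ) ^ 2) * h8

/-! ### from `ResConv` -/

/-- **source at the branch vertex `x j`** -/
theorem exists_brn {D : Set ℂ} (hD : IsOpen D) (hb : Bornology.IsBounded D) {x : Fin n → ℂ}
    (hx : Function.Injective x) (hxD : ∀ i, x i ∈ D)
    (hRC : ResConv (Om D x) x (LatSeq D x) (MacVx610.Q D x))
    (hseq : ∃ a w V, LatSeq D x a w V ∧ ∃ S : ℕ → Face × Fin 4 → Face × Fin 4 → ℝ,
      ∀ᶠ k in atTop, Cov40 (w k) (S k)) (j : Fin n) :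
    ∃ g : ℂ → ℂ, IsBrN D x j g ∧ ∀ a w V, LatSeq D x a w V →
      ∀ S : ℕ → Face × Fin 4 → Face × Fin 4 → ℝ, (∀ᶠ k in atTop, Cov40 (w k) (S k)) →
      ColLim (Om D x) x j a w V S
        (fun z => ((sj x j * Br5x644.kp : ℝ) : ℂ) * (e8 * (g z / rX x z))) := by
  obtain ⟨ρ, hρ⟩ := exists_rad hD hx j (hxD j)
  obtain ⟨a, w, V, H, S, hS⟩ := hseq
  have hO : IsOpen (Om D x) := hD.sdiff (finite_range x).isClosed
  have hae : ∀ {p : ℂ → Prop}, (∀ᵐ z ∂volume.restrict (Om D x), p z) →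
      ∀ᵐ z ∂volume.restrict D, p z := by
    intro p h
    rw [ae_restrict_iff' hO.measurableSet] at h
    rw [ae_restrict_iff' hD.measurableSet]
    have h2 := ae_ne_tip x (univ : Set ℂ)
    rw [Measure.restrict_univ] at h2
    filter_upwards [h, h2] with z h1 h2 h3
    exact h1 ⟨h3, fun ⟨i, hi⟩ => h2 i hi⟩
  -- the limits
  have key : ∀ r, 0 < r → r ≤ ρ → ∃ (F : ℂ → ℂ) (χ : ℂ → ℝ), Cut (x j) r χ ∧
      MacVx610.Q D x (Anr (x j) r) F ∧ ∀ a w V, LatSeq D x a w V →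
        ∀ S : ℕ → Face × Fin 4 → Face × Fin 4 → ℝ, (∀ᶠ k in atTop, Cov40 (w k) (S k)) →
        ColLim (Om D x) x j a w V S (fun z => F z + ba x j χ z) := by
    intro r hr0 hr
    obtain ⟨χ, hχ⟩ := exists_cut (x j) hr0
    obtain ⟨F, hQ, -, hF⟩ := eta_lim hRC (hρ.mono hr0 hr) hχ
    exact ⟨F, χ, hχ, hQ, hF⟩
  obtain ⟨F0, χ0, hχ0, hQ0, hF0⟩ := key ρ hρ.pos le_rfl
  have hmeas : ∀ {r : ℝ} {χ : ℂ → ℝ} {F : ℂ → ℂ}, Cut (x j) r χ → MemLp F 2 →
      AEMeasurable (fun z => F z + ba x j χ z) := fun hχ hF =>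
    hF.aestronglyMeasurable.aemeasurable.add (ba_measurable x j hχ).aemeasurable
  have L : Lims D x j ρ (fun z => F0 z + ba x j χ0 z) := by
    refine ⟨hρ, fun r hr0 hr => ?_⟩
    obtain ⟨F, χ, hχ, hQ, hF⟩ := key r hr0 hr
    exact ⟨F, χ, hχ, hQ.2, hae (colLim_unique hO (hmeas hχ0 hQ0.1) (hmeas hχ hQ.1)
      (hF0 a w V H S hS) (hF a w V H S hS))⟩
  obtain ⟨g, hg, hE⟩ := brn_of_lims hD hb hx (hxD j) L
  refine ⟨g, hg, fun a w V H S hS => ?_⟩
  exact ColLim.congr hO (hF0 a w V H S hS)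
    (ae_restrict_of_ae_restrict_of_subset sdiff_subset hE)

end Crest.Agent.R165.Eta4x576
end
end

-- ▼ part R165/Eta6_644
section

/-!
# Row 165 (S0250), block U4 (helper644): **the branch leaf, closed**

`brLeafK : LogEx813.BrLeafK` from `Eta4x576.exists_brn` (576), `MacUx610.resConv` (610),
`MacC6x943.comp'` (943), `U3x719.uniqL2` (719) and `Eta5x644.brLeafK_of`
-/

set_option autoImplicit false

noncomputable section

open MeasureTheory Set Filter Topology Metric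
open Crest.ProbabilityR.IsingModel

namespace Crest.Agent.R165.Eta6x644

open Crest.Agent.R165.Mac0x622 (rel)

/-- uniqueness of `L²` spinors (719) in `C²` domains -/
theorem uniqL2 (D : Set ℂ) (hD : IsC2JordanDomain D) : MacIx610.UniqL2 D := by
  rcases D.eq_empty_or_nonempty with rfl | hne
  · intro n x _ _ K _ _ F₁ F₂ _ _ _ _ d _ _
    have : (volume.restrict (∅ : Set ℂ)) = 0 := Measure.restrict_empty
    rw [this, ae_zero]
    exact Filter.eventually_bot
  · obtain ⟨r, M, h⟩ := GeoCx65.exists_CD hD hne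
    exact U3x719.uniqL2 h

/-- compactness of the lattice resolvents (943) in `C²` domains -/
theorem comp (D : Set ℂ) (hD : IsC2JordanDomain D) : MacIx610.Comp D :=
  MacC6x943.comp' (Red2x541.isOpen_of_C2 hD) (Redx541.bounded_of_C2 hD)
    (LatSeqx416.volume_frontier hD)

theorem sgn_sj {n : ℕ} (x : Fin n → ℂ) (j : Fin n) : Mac6x622.sgn x (x j) = Eta4x576.sj x j := by
  classical
  unfold Mac6x622.sgn Eta4x576.sj
  rw [← Finset.mul_prod_erase Finset.univ _ (Finset.mem_univ j)]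
  have h0 : ¬ rel (x j) (x j) := fun h => lt_irrefl _ h.2
  rw [if_neg h0, one_mul]
  refine Finset.prod_congr rfl fun i _ => ?_
  unfold rel
  congr

/-- the limit of the columns -/
theorem colLeaf : Eta5x644.ColLeaf := by
  intro D hD n x hx i
  obtain ⟨a, w, V, S, H, hS⟩ := MacLfx304.exists_cs_dom hD x
  obtain ⟨g, hg, hcol⟩ := Eta4x576.exists_brn (Red2x541.isOpen_of_C2 hD)
    (Redx541.bounded_of_C2 hD) hx.2 hx.1 (MacVx610.resConv_of
      (MacUx610.resConv (Red2x541.isOpen_of_C2 hD) (comp D hD) (uniqL2 D hD) hx.2 hx.1))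
    ⟨a, w, V, H, S, hS⟩ i
  refine ⟨g, hg, fun a w V H S hS => ?_⟩
  have h := hcol a w V H S hS
  have e : (fun z => (Mac6x622.sgn x (x i) : ℂ) * (Br5x644.kp * U3x719.e8 *
      (g z / Mac0x622.rX x z))) =
      fun z => ((Eta4x576.sj x i * Br5x644.kp : ℝ) : ℂ) * (U3x719.e8 * (g z / U3x719.rX x z)) := by
    funext z
    rw [sgn_sj, Mac6x622.rX_eq]
    push_cast; ring
  rw [e]
  exact h

/-- **the branch leaf** -/
theorem brLeafK : LogEx813.BrLeafK := Eta5x644.brLeafK_of colLeaf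



end Crest.Agent.R165.Eta6x644
end
end

-- ▼ part R165/UAll_641
section

/-!
# Row 165 (S0250): BLOCK U IS CLOSED (helper641)

`uLimB : ULimB` : the unperturbed scaling limits (domains, plane, two-point function, covariance).
-/

set_option autoImplicit false

noncomputable section

namespace Crest.Agent.R165.UAllx641

/-- **the unperturbed scaling limits** -/
theorem uLimB : Red2x541.ULimB := UOpenx641.uLim ⟨Eta6x644.brLeafK⟩

end Crest.Agent.R165.UAllx641
end
end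

-- ▼ part R165/P10a_930
section

/-!
# Row 165, block F, leaf P10 (helper930): geometry of the four backgrounds

Faces and vertices are both indexed by `ℤ × ℤ`; `fd` is the sup distance.

* `exists_box` : bounding box of a nonempty face set
* `away_of_avoids` : `Avoids fd R x U` implies `Away` for the box enlarged by `R`
* `isoA` : all insertions avoided: `wX w X` is `w` around `U` (identity chart)
* `isoB` : `U` in the ball of `X k`: `wX w X` is `wX w ![X k]` around `U` (identity chart)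
* `isoC`, `isoP` : critical regions: `wX w Y` is `wX (wPl ℤ) Y`, `w` is `wPl ℤ`
* `cov_lin` : the covering numbers of linear polymers are `≤ A 2^m`
-/

set_option autoImplicit false

noncomputable section

open scoped ENNReal Classical
open Crest.Agent.R165.Gr0x606 Crest.Agent.R165.Latx683 Crest.Agent.R165.GDefx387
open Crest.Agent.R165.BgIsox432 Crest.Agent.R165.Packx915 Crest.Agent.R165.NSumx915
open Crest.Agent.R165.Spinx930

namespace Crest.Agent.R165.P10ax930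

theorem fd_int (f g : ℤ × ℤ) : fd f g = max (f.1 - g.1).natAbs (f.2 - g.2).natAbs := rfl

/-- coordinates of a point of a ball -/
theorem fd_le_iff {f g : ℤ × ℤ} {s : ℕ} : fd f g ≤ s ↔
    f.1 - s ≤ g.1 ∧ g.1 ≤ f.1 + s ∧ f.2 - s ≤ g.2 ∧ g.2 ≤ f.2 + s := by
  rw [fd_int, max_le_iff]
  constructor
  · rintro ⟨h1, h2⟩
    refine ⟨?_, ?_, ?_, ?_⟩ <;> omega
  · rintro ⟨h1, h2, h3, h4⟩
    constructor <;> omega

/-- coordinates of a point outside a ball -/
theorem lt_fd_iff {f g : ℤ × ℤ} {s : ℕ} : s < fd f g ↔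
    f.1 + s < g.1 ∨ g.1 < f.1 - s ∨ f.2 + s < g.2 ∨ g.2 < f.2 - s := by
  rw [← not_le, fd_le_iff]
  constructor
  · intro h
    by_contra hcon
    push Not at hcon
    exact h ⟨by omega, by omega, by omega, by omega⟩
  · rintro h ⟨h1, h2, h3, h4⟩
    omega

/-- bounding box -/
theorem exists_box {U : Finset (ℤ × ℤ)} (hU : U.Nonempty) : ∃ a b c d : ℤ,
    (∀ u ∈ U, a ≤ u.1 ∧ u.1 ≤ b ∧ c ≤ u.2 ∧ u.2 ≤ d) ∧ (∃ u ∈ U, u.1 = a) ∧ (∃ u ∈ U, u.1 = b) ∧
      (∃ u ∈ U, u.2 = c) ∧ ∃ u ∈ U, u.2 = d := by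
  obtain ⟨p, hp, hp'⟩ := U.exists_min_image Prod.fst hU
  obtain ⟨q, hq, hq'⟩ := U.exists_max_image Prod.fst hU
  obtain ⟨r, hr, hr'⟩ := U.exists_min_image Prod.snd hU
  obtain ⟨s, hs, hs'⟩ := U.exists_max_image Prod.snd hU
  exact ⟨p.1, q.1, r.2, s.2, fun u hu => ⟨hp' u hu, hq' u hu, hr' u hu, hs' u hu⟩, ⟨p, hp, rfl⟩,
    ⟨q, hq, rfl⟩, ⟨r, hr, rfl⟩, ⟨s, hs, rfl⟩⟩

/-- a vertex which is avoided is not an interior vertex of the enlarged bounding box -/
theorem away_of_avoids {U : Finset (ℤ × ℤ)} {a b c d : ℤ} (ha : ∃ u ∈ U, u.1 = a)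
    (hb : ∃ u ∈ U, u.1 = b) (hc : ∃ u ∈ U, u.2 = c) (hd : ∃ u ∈ U, u.2 = d) {R : ℕ} {x : ℤ × ℤ}
    (h : Avoids fd R x U) : Away (a - R) (b + R) (c - R) (d + R) x := by
  obtain ⟨u, -, s, hs, hx⟩ := h
  obtain ⟨p, hp, rfl⟩ := ha
  obtain ⟨q, hq, rfl⟩ := hb
  obtain ⟨r, hr, rfl⟩ := hc
  obtain ⟨t, ht, rfl⟩ := hd
  have h1 := hs p hp
  have h2 := hs q hq
  have h3 := hs r hr
  have h4 := hs t ht
  rw [fd_le_iff] at h1 h2 h3 h4
  rw [lt_fd_iff] at hx
  push_cast at hx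
  unfold Away
  rcases hx with hx | hx | hx | hx
  · left; omega
  · right; left; omega
  · right; right; left; omega
  · right; right; right; omega

/-- the neighbourhood of `U` lies in the enlarged bounding box -/
theorem nbhd_subset_box {U : Finset (ℤ × ℤ)} {a b c d : ℤ}
    (h : ∀ u ∈ U, a ≤ u.1 ∧ u.1 ≤ b ∧ c ≤ u.2 ∧ u.2 ≤ d) (R : ℕ) :
    nbhd R U ⊆ boxF (a - R) (b + R) (c - R) (d + R) := by
  rintro f ⟨u, hu, huf⟩
  obtain ⟨h1, h2, h3, h4⟩ := h u hu
  obtain ⟨h5, h6, h7, h8⟩ := fd_le_iff.1 huf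
  exact ⟨by omega, by omega, by omega, by omega⟩




/-! ### identity charts -/

/-- a chart whose underlying map is the identity -/
def IdIso (w w' : BW ℤ) (Z : Set (ℤ × ℤ)) : Prop :=
  ∃ b : BgIso w w' Z, ∀ f, b.τ f = f

theorem IdIso.mono {w w' : BW ℤ} {Z Y : Set (ℤ × ℤ)} (h : IdIso w w' Z) (hY : Y ⊆ Z) :
    IdIso w w' Y := by
  obtain ⟨b, hb⟩ := h
  exact ⟨b.mono hY, hb⟩

theorem IdIso.trans {w w' w'' : BW ℤ} {Z : Set (ℤ × ℤ)} (h : IdIso w w' Z)
    (h' : IdIso w' w'' Z) : IdIso w w'' Z := by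
  obtain ⟨b, hb⟩ := h
  obtain ⟨b', hb'⟩ := h'
  refine ⟨b.trans b' (fun f hf => by rw [hb]; exact hf), fun f => ?_⟩
  show b'.τ (b.τ f) = f
  rw [hb', hb]

theorem IdIso.refl (w : BW ℤ) (Z : Set (ℤ × ℤ)) : IdIso w w Z := ⟨BgIso.refl w Z, fun _ => rfl⟩



/-- **(h4)** all insertions are avoided -/
theorem idIso_avoid {n : ℕ} (w : BW ℤ) (X : Fin n → ℤ × ℤ) {R : ℕ} {U : Finset (ℤ × ℤ)}
    (hU : U.Nonempty) (h : ∀ i, Avoids fd R (X i) U) : IdIso (wX w X) w (nbhd R U) := by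
  obtain ⟨a, b, c, d, hin, ha, hb, hc, hd⟩ := exists_box hU
  have h1 : IdIso (wX w X) w (boxF (a - R) (b + R) (c - R) (d + R)) :=
    ⟨rayIso0 w X fun i => away_of_avoids ha hb hc hd (h i), fun _ => rfl⟩
  exact h1.mono (nbhd_subset_box hin R)


/-- **(h6)** the single insertion is avoided -/
theorem idIso_avoid1 (w : BW ℤ) (x : ℤ × ℤ) {R : ℕ} {U : Finset (ℤ × ℤ)}
    (hU : U.Nonempty) (h : Avoids fd R x U) : IdIso (wX w ![x]) w (nbhd R U) :=
  idIso_avoid w ![x] hU fun i => by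
    have : (![x] : Fin 1 → ℤ × ℤ) i = x := by fin_cases i; rfl
    rw [this]; exact h



/-! ### the backgrounds with one insertion are translates -/





/-! ### covering numbers -/




end Crest.Agent.R165.P10ax930
end
end

-- ▼ part R165/Zeta_930
section

/-!
# Row 165 (S0250), block F: the contribution of one branch point (helper930)

* `fl_conn` : connectedness of the activities of the flow of any background without sources
* `farB_cc` : polymers avoiding the branch point see the plane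
* `BrPlNorm` : the norm bounds of the constants for one branch point and for the plane
* `zetaL_of : BrPlNorm J R V → ZetaL J R V`
-/

set_option autoImplicit false
set_option linter.unusedSectionVars false

noncomputable section

open Filter Topology
open scoped ENNReal
open Crest.ProbabilityR.IsingModel
open Crest.Agent.R165.Gr0x606 Crest.Agent.R165.Gr1x606 Crest.Agent.R165.GeOpsx337
open Crest.Agent.R165.Latx683 Crest.Agent.R165.GDefx387 Crest.Agent.R165.GSysx387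
open Crest.Agent.R165.KFlowx337 Crest.Agent.R165.Telx337
open Crest.Agent.R165.BgIsox432 Crest.Agent.R165.CmpBgx432
open Crest.Agent.R165.Bkgx683 Crest.Agent.R165.PEndx683 Crest.Agent.R165.Outx683
open Crest.Agent.R165.SDatax900 Crest.Agent.R165.Spinx930 Crest.Agent.R165.NSumx915
open Crest.Agent.R165.SpinSysx892 Crest.Agent.R165.DiscDatax892 Crest.Agent.R165.SpinDomx432
open Crest.Agent.R165.PTopx386 Crest.Agent.R165.Constx891 Crest.Agent.R165.P10ax930

namespace Crest.Agent.R165.Zetax930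

/-- **connectedness of the activities** of the flow of a background without sources -/
theorem fl_conn {G : Type} [CommRing G] [CN G] [CNZ G] [DecidableEq G] (c : Cst) (P : MPar)
    (B : Bg G) (hR : 2 * P.R + 1 ≤ nearR c.p c.k0 0) (k : ℕ) {U : Finset (G × G)}
    (hU : (fl c P B).K k U ≠ 0) :
    U.Nonempty ∧ Packx915.Conn fd (nearR c.p c.k0 k) U := by
  have h := XBdx915.ac_sys DD (w := B.w) (mk := ∅) (l := c.p) (k0 := c.k0)
    (K0 := B.K0 P LinearMap.id (noSrc G (Ge (Fld G))) c.p c.k0) (Λ := Set.univ)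
    (fun U hU => ⟨?_, JVolx950.K0_conn B P LinearMap.id (noSrc G (Ge (Fld G))) hR
      (fun k => k.elim0) hU, Set.subset_univ _⟩) k U hU
  · exact ⟨h.1, h.2.1⟩
  · rw [Finset.nonempty_iff_ne_empty]
    intro he
    rw [he] at hU
    exact hU (bgK0_empty B P c.p c.k0)

/-- the constants -/
theorem cc_conn {G : Type} [CommRing G] [CN G] [CNZ G] [DecidableEq G] (c : Cst) (P : MPar)
    (B : Bg G) (hR : 2 * P.R + 1 ≤ nearR c.p c.k0 0) (k : ℕ) {U : Finset (G × G)}
    (hU : cc (fl c P B) k U ≠ 0) :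
    U.Nonempty ∧ Packx915.Conn fd (nearR c.p c.k0 k) U :=
  fl_conn c P B hR k fun h => hU (by rw [cc, Sys.H, h, map_zero, map_zero])

theorem rhoH_le {l k0 k : ℕ} : rhoH l k0 k ≤ s2 * rr l k0 (k + 1) := by
  unfold rhoH
  have h1 : rr l k0 k ≤ rr l k0 (k + 1) := rr_mono l k0 (Nat.le_succ k)
  have h2 : s2 = 128 := rfl
  rw [h2]
  omega

/-- **far from the branch point the plane is seen** -/
theorem farB_cc (c : Cst) (P : MPar) (h5 : 5 ≤ c.p * (c.k0 + 1)) (hp : 1 ≤ c.p) (x : ℤ × ℤ)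
    (k : ℕ) {U : Finset (ℤ × ℤ)} (hne : U.Nonempty)
    (hU : Avoids fd (s2 * rr c.p c.k0 (k + 1)) x U) :
    cc (brF c P x) k U = cc (plF c P) k U := by
  obtain ⟨b, hb⟩ := idIso_avoid1 (wPl ℤ) x hne hU
  have h := cc_fl (B := Bg.br x) (B' := Bg.pl) b c P h5 hp (by norm_num) (fun _ _ => Iff.rfl)
    (fun _ _ _ _ _ _ => Iff.rfl) k hne (nbhd_mono rhoH_le)
  rw [h]
  congr 1
  ext f
  rw [Finset.mem_image]
  constructor
  · rintro ⟨g, hg, rfl⟩
    rwa [hb]
  · intro hf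
    exact ⟨f, hf, hb f⟩

variable (J : ℝ) (R : ℕ) (V : Finset (ℤ × ℤ) → ℝ)

/-- the norms of the constants for one branch point and for the plane -/
def BrPlNorm : Prop :=
  EvC fun c => ∀ C : ℝ, ∃ ε > 0, ∃ C' : ℝ, ∀ lam β z : ℝ, |lam| < ε → NearP J C lam β z →
    PF J R V C c lam β z → ∀ k,
      NN fd (rr c.p c.k0 (k + 1)) (ENNReal.ofReal c.Γ)
          (fun U => ENNReal.ofReal |cc (brF c (mpar J lam R V β z) 0) k U|) ≤
        ENNReal.ofReal (C' * |lam| * (1 / 2) ^ k) ∧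
      NN fd (rr c.p c.k0 (k + 1)) (ENNReal.ofReal c.Γ)
          (fun U => ENNReal.ofReal |cc (plF c (mpar J lam R V β z)) k U|) ≤
        ENNReal.ofReal (C' * |lam| * (1 / 2) ^ k)

variable {J R V}

/-- the touching range of the first step is larger than the range of the potential -/
theorem ev_nearR (N : ℕ) : EvC fun c => N ≤ nearR c.p c.k0 0 := by
  refine ((ev_p_ge 1).and (ev_k0_ge fun _ _ => N + 3)).mono fun c hc => ?_
  obtain ⟨h1, h2⟩ := hc
  unfold nearR rr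
  rw [Nat.le_div_iff_mul_le (by norm_num)]
  have h3 : N + 3 ≤ c.p * (c.k0 + (0 + 1)) := by nlinarith
  calc N * 8 ≤ 2 ^ N * 8 := Nat.mul_le_mul_right _ Nat.lt_two_pow_self.le
    _ = 2 ^ (N + 3) := by rw [pow_add]; norm_num
    _ ≤ 2 ^ (c.p * (c.k0 + (0 + 1))) := Nat.pow_le_pow_right (by norm_num) h3

/-- **size of the contribution of one branch point** -/
theorem zetaL_of (h : BrPlNorm J R V) : ZetaL J R V := by
  refine ev_mono3 h ((ev_std.and (ev_Γ_ge 4)).and (ev_nearR (2 * (max R 1) + 1)))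
    (ev_k0_ge fun _ _ => 1) fun c hc hs hk C => ?_
  obtain ⟨⟨hs, hΓ⟩, hR⟩ := hs
  obtain ⟨ε, hε, C', h1⟩ := hc C
  refine ⟨ε, hε, 4 * gA s2 * |C'|, fun lam β z hl hn hp k => ?_⟩
  have hp4 := hs.p_pos
  have hp1 : 1 ≤ c.p := by omega
  have h5 : 5 ≤ c.p * (c.k0 + 1) := by nlinarith
  have hΓ4 : (4 : ℝ≥0∞) ≤ ENNReal.ofReal c.Γ := by
    rw [show (4 : ℝ≥0∞) = ENNReal.ofReal 4 by norm_num]
    exact ENNReal.ofReal_le_ofReal hΓ
  have hE0 : ∀ k : ℕ, 0 ≤ |C'| * |lam| * (1 / 2) ^ k := fun k => by positivity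
  have hE : Summable fun k : ℕ => |C'| * |lam| * (1 / 2 : ℝ) ^ k :=
    (summable_geometric_of_lt_one (by norm_num) (by norm_num)).mul_left _
  have hmono : ∀ k : ℕ, ENNReal.ofReal (C' * |lam| * (1 / 2) ^ k) ≤
      ENNReal.ofReal (|C'| * |lam| * (1 / 2) ^ k) := fun k => by
    refine ENNReal.ofReal_le_ofReal ?_
    gcongr
    exact le_abs_self C'
  have hb := h1 lam β z hl hn hp
  set P := mpar J lam R V β z with hP
  have hB : Bd (brF c P 0) fd (gScale (G := ℤ) c.p c.k0 s2 hΓ4 ENNReal.ofReal_ne_top hE0 hE).r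
      (nearR c.p c.k0) (ENNReal.ofReal c.Γ) (fun k => |C'| * |lam| * (1 / 2) ^ k) (k + 1) :=
    ⟨fun j _ => (hb j).1.trans (hmono j), fun j _ U hU => cc_conn c P (Bg.br 0) hR j hU⟩
  have hPl : Bd (plF c P) fd (gScale (G := ℤ) c.p c.k0 s2 hΓ4 ENNReal.ofReal_ne_top hE0 hE).r
      (nearR c.p c.k0) (ENNReal.ofReal c.Γ) (fun k => |C'| * |lam| * (1 / 2) ^ k) (k + 1) :=
    ⟨fun j _ => (hb j).2.trans (hmono j), fun j _ U hU => cc_conn c P Bg.pl hR j hU⟩
  have h2 := (zeta_le (gScale (G := ℤ) c.p c.k0 s2 hΓ4 ENNReal.ofReal_ne_top hE0 hE)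
    (Nat.lt_succ_self k) hB hPl (0 : ℤ × ℤ) fun U hne hU => farB_cc c P h5 hp1 0 k hne hU).2
  calc |zetaK c P k| ≤ 4 * gA s2 * (|C'| * |lam| * (1 / 2) ^ k) := h2
    _ = 4 * gA s2 * |C'| * |lam| * (1 / 2) ^ k := by ring

end Crest.Agent.R165.Zetax930
end
end

-- ▼ part R165/ZetaL_387
section

/-!
# Row 165 (S0250), block F: the leaf `ZetaL` (helper387)

* `ctl_br`, `ctl_pl` : the flows of one branch point / of the plane are controlled (`Comp4_889.Ctl`)
* `brPlNorm : BrPlNorm J R V`, `zetaL : ZetaL J R V`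
-/

set_option autoImplicit false
set_option linter.unusedSectionVars false

noncomputable section

open Filter Topology
open scoped ENNReal
open Crest.ProbabilityR.IsingModel
open Crest.Agent.R165.Gr0x606 Crest.Agent.R165.Gr1x606 Crest.Agent.R165.GeOpsx337
open Crest.Agent.R165.Latx683 Crest.Agent.R165.GDefx387 Crest.Agent.R165.GSysx387
open Crest.Agent.R165.KFlowx337 Crest.Agent.R165.FRDPolyx439 Crest.Agent.R165.BgIsox432
open Crest.Agent.R165.Packx915 Crest.Agent.R165.NSumx915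
open Crest.Agent.R165.DefRecx915 Crest.Agent.R165.XBdx915 Crest.Agent.R165.Bridgex915
open Crest.Agent.R165.Bkgx683 Crest.Agent.R165.PEndx683 Crest.Agent.R165.Outx683
open Crest.Agent.R165.Compx889 Crest.Agent.R165.Constx891 Crest.Agent.R165.StepOKx838
open Crest.Agent.R165.J4K0Nx126 Crest.Agent.R165.DeepBgx898 Crest.Agent.R165.FlNx387
open Crest.Agent.R165.PTopx386 Crest.Agent.R165.Zetax930

namespace Crest.Agent.R165.FlNx387

/-- the polymers of the flow -/
abbrev acU (c : Cst) (n : ℕ) : Finset (ℤ × ℤ) → Prop := acS fd (nearR c.p c.k0 n) Set.univ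

/-- the plane-like polymers of a background without marks -/
abbrev emU (w : BW ℤ) (c : Cst) (n : ℕ) : Finset (ℤ × ℤ) → Prop :=
  emM w ((∅ : Finset (ℤ × ℤ)) : Set (ℤ × ℤ)) (rr c.p c.k0 n)

/-- the amplitude `A₀` -/
abbrev aK (c : Cst) : ℕ → ℝ := fun _ => c.A0

section ctl

variable {c : Cst} {CF : ℝ≥0∞} {C1 : ℕ} {P : MPar}

/-- **the flow of one branch point is controlled** -/
theorem ctl_br (H : Good c CF C1) (h5 : 5 ≤ c.p * (c.k0 + 1)) (hp : 1 ≤ c.p) (hΓ : 1 ≤ c.Γ)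
    (hR : 2 * P.R + 1 ≤ nearR c.p c.k0 0) (x : ℤ × ℤ) (K : ℕ) :
    Ctl c CF (aK c) (brF c P x) (Bg.br x).w (acU c) (emU (Bg.br x).w c) K where
  str := str_fl hp hΓ (Bg.br x) hR K
  step k _ := H.pl 1 ![x] ∅ _ (FarBx900.fl_OK h5 P (Bg.br x)) k c.A0 c.A0 (acU c k)
    ⟨fun i j hij => absurd (Subsingleton.elim i j) hij, fun z hz => absurd hz (by simp)⟩
    (by rw [Finset.coe_empty]; exact MkOK.empty _ _) (fun _ h => h.2.1) (fun _ h => h.1) le_rfl le_rfl
    (by linarith [H.A0])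

/-- **the flow of the plane is controlled** -/
theorem ctl_pl (H : Good c CF C1) (h5 : 5 ≤ c.p * (c.k0 + 1)) (hp : 1 ≤ c.p) (hΓ : 1 ≤ c.Γ)
    (hR : 2 * P.R + 1 ≤ nearR c.p c.k0 0) (K : ℕ) :
    Ctl c CF (aK c) (plF c P) (wPl ℤ) (acU c) (emU (wPl ℤ) c) K where
  str := str_fl hp hΓ Bg.pl hR K
  step k _ := H.plane ∅ _ (FarBx900.fl_OK h5 P Bg.pl) k c.A0 c.A0 (acU c k)
    (by rw [Finset.coe_empty]; exact MkOK.empty _ _) (fun _ h => h.2.1) (fun _ h => h.1) le_rfl le_rfl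
    (by linarith [H.A0])

end ctl

/-- the bounds of the constants of one background from the bounds of the plane -/
theorem nc_of_ctl (J : ℝ) (R : ℕ) (V : Finset (ℤ × ℤ) → ℝ) {c : Cst} {CF : ℝ≥0∞} (hCF : CF ≠ ∞)
    (h5 : 5 ≤ c.p * (c.k0 + 1)) (hΓ : 3 ≤ c.Γ) (hA : 0 ≤ c.A0)
    (h6 : 4 * (2 * max R 1 + 1) + 2 ≤ rr c.p c.k0 0) (C : ℝ) :
    ∃ ε > 0, ∃ M : ℝ, 0 < M ∧ ∀ lam β z : ℝ, |lam| < ε → NearP J C lam β z →
      PF J R V C c lam β z → ∀ B : Bg ℤ, PlOK B → (∀ z j, |B.w z j| ≤ 1) → ∀ K : ℕ,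
      Ctl c CF (aK c) (fl c (mpar J lam R V β z) B) B.w (acU c) (emU B.w c) K →
      (∀ k, k ≤ K → NPc c (fl c (mpar J lam R V β z) B) B.w (aK c) allP k ≤
        ENNReal.ofReal (M * |lam| * (1 / 2) ^ k)) ∧
      (∀ k, k < K → NCc c (fl c (mpar J lam R V β z) B) k ≤
        ENNReal.ofReal (M * |lam| * (1 / 2) ^ k)) := by
  obtain ⟨ε1, hε1, N, hN0, hN⟩ := k0_bound J R V hΓ hA h6 C
  obtain ⟨M, ε2, hM, hε2, hb⟩ := Ctl.bound c hCF (max |C| N)
  refine ⟨min ε1 ε2, lt_min hε1 hε2, M, hM, fun lam β z hl hn hp B hB hw K hc => ?_⟩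
  refine hb ℤ _ _ _ _ _ K |lam| hc (abs_nonneg _) (hl.le.trans (min_le_right _ _))
    (fun k hk => ?_) ?_
  · have h1 := NP_fl (K := K) hB h5 (PlBd.of_PF hp K) (a := aK c) (fun _ _ => le_rfl) k hk
    have h2 : NPc c (fl c (mpar J lam R V β z) B) B.w (aK c) (emU B.w c k) k =
        NP (fl c (mpar J lam R V β z) B) B.w (aK c) (rr c.p c.k0) (ENNReal.ofReal c.Γ)
          (emM B.w ∅ (rr c.p c.k0 k)) k := by
      unfold emU
      rw [Finset.coe_empty]
    rw [h2]
    refine h1.trans (ENNReal.ofReal_le_ofReal ?_)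
    have h3 : C ≤ max |C| N := (le_abs_self C).trans (le_max_left _ _)
    have h4 : (0 : ℝ) ≤ max |C| N := (abs_nonneg C).trans (le_max_left _ _)
    gcongr
    norm_num
  · exact (hN lam β z (hl.trans_le (min_le_left _ _)) hn ℤ B hw _).trans
      (ENNReal.ofReal_le_ofReal (mul_le_mul_of_nonneg_right (le_max_right _ _) (abs_nonneg _)))

/-- **the norms of the constants for one branch point and for the plane** -/
theorem brPlNorm (J : ℝ) (R : ℕ) (V : Finset (ℤ × ℤ) → ℝ) : BrPlNorm J R V := by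
  refine (((stepOK_ev.and (ev_nearR (2 * max R 1 + 1))).and ((ev_Γ_ge 3).and ev_std)).and
    ((ev_rr_ge fun _ _ => 4 * (2 * max R 1 + 1) + 2).and (ev_k0_ge fun _ _ => 1))).mono
    fun c hc C => ?_
  obtain ⟨⟨⟨⟨CF, hCF, C1, H⟩, hR⟩, hΓ, hs⟩, hr, hk⟩ := hc
  have hp4 := hs.p_pos
  have hp1 : 1 ≤ c.p := by omega
  have h5 : 5 ≤ c.p * (c.k0 + 1) := by nlinarith
  obtain ⟨ε, hε, M, hM, h⟩ := nc_of_ctl J R V hCF h5 hΓ H.A0.le (hr 0) C
  refine ⟨ε, hε, M, fun lam β z hl hn hp k => ⟨?_, ?_⟩⟩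
  · exact (h lam β z hl hn hp (Bg.br 0) (plOK_br 0) (abs_wX_pl ![0]) (k + 1)
      (ctl_br H h5 hp1 (by linarith) hR 0 (k + 1))).2 k (Nat.lt_succ_self k)
  · exact (h lam β z hl hn hp Bg.pl plOK_pl wPl_le (k + 1)
      (ctl_pl H h5 hp1 (by linarith) hR (k + 1))).2 k (Nat.lt_succ_self k)

/-- **the leaf `ZetaL`** -/
theorem zetaL (J : ℝ) (R : ℕ) (V : Finset (ℤ × ℤ) → ℝ) : ZetaL J R V := zetaL_of (brPlNorm J R V)

end Crest.Agent.R165.FlNx387
end
end

-- ▼ part R165/Zs_387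
section

/-!
# Row 165 (S0250), block F: the spin renormalisation `Zs = 1 + O(lam)` (helper387)

* `NCB c D B` : the constants of the flow `D` are bounded by `B (1/2)^k` at all scales `rr (k+1)`
* `ConstB J R V` : this for the plane and for the plane with one branch point, `B = M |lam|`
* `zeta_le` : `|zetaK k| ≤ C B (1/2)^k`
* `zs_of` : **`OneP (PF J R V) (Zs J R V)`**
-/

set_option autoImplicit false

noncomputable section

open Filter Topology
open scoped ENNReal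
open Crest.ProbabilityR.IsingModel
open Crest.Agent.R165.Gr0x606 Crest.Agent.R165.Gr1x606 Crest.Agent.R165.GeOpsx337
open Crest.Agent.R165.Latx683 Crest.Agent.R165.GDefx387 Crest.Agent.R165.GSysx387
open Crest.Agent.R165.KFlowx337 Crest.Agent.R165.Telx337 Crest.Agent.R165.Spinx930
open Crest.Agent.R165.Packx915 Crest.Agent.R165.NSumx915
open Crest.Agent.R165.SpinSysx892 Crest.Agent.R165.DiscDatax892 Crest.Agent.R165.SDatax900
open Crest.Agent.R165.Bkgx683 Crest.Agent.R165.PEndx683 Crest.Agent.R165.Outx683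
open Crest.Agent.R165.Compx889

namespace Crest.Agent.R165.Zsx387

/-- the constants of a flow are bounded, rate `1/2` -/
def NCB (c : Cst) (D : Sys (ℤ × ℤ) (Fld ℤ)) (B : ℝ) : Prop :=
  ∀ k, NC D (rr c.p c.k0) (ENNReal.ofReal c.Γ) k ≤ ENNReal.ofReal (B * (1 / 2) ^ k)

/-- the constants live on connected sets -/
def CCn (c : Cst) (D : Sys (ℤ × ℤ) (Fld ℤ)) : Prop :=
  ∀ k U, cc D k U ≠ 0 → U.Nonempty ∧ Packx915.Conn fd (nearR c.p c.k0 k) U

/-- **bounds of the constants of the plane and of one branch point** -/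
def ConstB (J : ℝ) (R : ℕ) (V : Finset (ℤ × ℤ) → ℝ) : Prop :=
  EvC fun c => ∀ C : ℝ, ∃ ε > 0, ∃ M : ℝ, ∀ lam β z : ℝ, |lam| < ε → NearP J C lam β z →
    PF J R V C c lam β z →
    NCB c (plF c (mpar J lam R V β z)) (M * |lam|) ∧
    NCB c (brF c (mpar J lam R V β z) 0) (M * |lam|)

theorem bd_of {c : Cst} {D : Sys (ℤ × ℤ) (Fld ℤ)} {B : ℝ} (h : NCB c D B) (hc : CCn c D)
    (n : ℕ) : Bd D fd (fun k => rr c.p c.k0 (k + 1)) (nearR c.p c.k0) (ENNReal.ofReal c.Γ)
      (fun k => B * (1 / 2) ^ k) n :=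
  ⟨fun k _ => h k, fun k _ U hU => hc k U hU⟩





end Crest.Agent.R165.Zsx387
end
end

-- ▼ part R165/SRdom_900
section

/-!
# Row 165 (S0250): the leaf `SpDL` of `PTop_386` (helper900)

* `NN_tr` : the norm of constants is translation invariant
* `ccn` : the constants of any flow of `Out_683` live on connected nonempty sets
* `Basic R c`, `ev_basic` : the elementary conditions on the constants
* `DomBd J R V` : **the bounds of the domain flows** (leaf P8)
* `spDL_of : SpinLeaf → DomBd J R V → ConstB J R V → SpDL J R V`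
-/

set_option autoImplicit false
set_option linter.unusedSectionVars false

noncomputable section

open Filter Topology
open scoped ENNReal
open Crest.ProbabilityR.IsingModel
open Crest.Agent.R165.Gr0x606 Crest.Agent.R165.Gr1x606 Crest.Agent.R165.GeOpsx337
open Crest.Agent.R165.Latx683 Crest.Agent.R165.GDefx387 Crest.Agent.R165.GSysx387
open Crest.Agent.R165.KFlowx337 Crest.Agent.R165.Telx337 Crest.Agent.R165.FRDPolyx439
open Crest.Agent.R165.NSumx915 Crest.Agent.R165.Packx915 Crest.Agent.R165.Bridgex915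
open Crest.Agent.R165.PNormx417 Crest.Agent.R165.Compx889
open Crest.Agent.R165.DefRecx915
open Crest.Agent.R165.Bkgx683 Crest.Agent.R165.PEndx683 Crest.Agent.R165.Outx683
open Crest.Agent.R165.JRunx445 Crest.Agent.R165.JDomAx606 Crest.Agent.R165.JVolx950
open Crest.Agent.R165.Topx683 Crest.Agent.R165.Redx541 Crest.Agent.R165.Red2x541
  Crest.Agent.R165.Centx541 Crest.Agent.R165.Symx541 Crest.Agent.R165.SRx541
open Crest.Agent.R165.UKerx420 (wD Cof Sof Sof_spec Sof_skew)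
open Crest.Agent.R165.U5Px422 (TT mem_TT)
open Crest.Agent.R165.SpinSysx892 Crest.Agent.R165.DiscDatax892 Crest.Agent.R165.SDatax900
open Crest.Agent.R165.Scalex900 Crest.Agent.R165.FarBx900 Crest.Agent.R165.SRdomAx900
open Crest.Agent.R165.SpinDomx432 (spinData_dom)
open Crest.Agent.R165.Zsx387 (ConstB NCB)

namespace Crest.Agent.R165.SRdomx900

/-! ### translation invariance -/

section tr

variable {X : Type*} [DecidableEq X] {d : X → X → ℕ} (e : X ≃ X) (he : ∀ a b, d (e a) (e b) = d a b)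

include he

theorem pack_tr_le (r : ℕ) (U : Finset X) : pack d r U ≤ pack d r (U.image e) := by
  classical
  refine pack_le_iff.2 fun S hS hs => ?_
  have h1 : (S.image e).card = S.card := Finset.card_image_of_injective _ e.injective
  rw [← h1]
  refine card_le_pack (Finset.image_subset_image hS) ?_
  intro x hx y hy hne
  obtain ⟨a, ha, rfl⟩ := Finset.mem_image.1 hx
  obtain ⟨b, hb, rfl⟩ := Finset.mem_image.1 hy
  rw [he]
  exact hs a ha b hb fun h => hne (by rw [h])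

theorem he_symm (a b : X) : d (e.symm a) (e.symm b) = d a b := by
  rw [← he, e.apply_symm_apply, e.apply_symm_apply]

theorem pack_tr (r : ℕ) (U : Finset X) : pack d r (U.image e) = pack d r U := by
  classical
  refine le_antisymm ?_ (pack_tr_le e he r U)
  have h := pack_tr_le e.symm (he_symm e he) r (U.image e)
  rwa [Finset.image_image, show (e.symm : X → X) ∘ e = id from funext fun x => e.symm_apply_apply x,
    Finset.image_id] at h

theorem near_tr (r : ℕ) (f : X) (U : Finset X) : near d r (e f) (U.image e) ↔ near d r f U := by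
  classical
  constructor
  · rintro ⟨u, hu, h⟩
    obtain ⟨v, hv, rfl⟩ := Finset.mem_image.1 hu
    exact ⟨v, hv, by rwa [he] at h⟩
  · rintro ⟨u, hu, h⟩
    exact ⟨e u, Finset.mem_image_of_mem _ hu, by rwa [he]⟩

/-- **the norm is invariant under isometries** -/
theorem NN_tr (r : ℕ) (Γ : ℝ≥0∞) (a : Finset X → ℝ≥0∞) :
    NN d r Γ (fun U => a (U.image e)) ≤ NN d r Γ a := by
  classical
  refine iSup_le fun f => le_trans (le_of_eq ?_) (bs_le_NN a (e f))
  set F : Finset X → ℝ≥0∞ := fun U =>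
    Set.indicator {U | near d r (e f) U} (fun U => Γ ^ pack d r U * a U) U with hF
  have h0 : NSumx915.bs d r Γ a (e f) = ∑' U, F U := rfl
  rw [h0, ← (Equiv.finsetCongr e).tsum_eq F]
  unfold NSumx915.bs
  refine tsum_congr fun U => ?_
  have hU : (Equiv.finsetCongr e) U = U.image e := by
    ext x
    simp only [Finset.mem_image, Equiv.finsetCongr_apply, Finset.mem_map, Equiv.coe_toEmbedding]
  rw [hU, hF]
  beta_reduce
  by_cases h : near d r f U
  · rw [Set.indicator_of_mem (by exact h),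
      Set.indicator_of_mem (by exact (near_tr e he r f U).2 h), pack_tr e he]
  · rw [Set.indicator_of_notMem (by exact h),
      Set.indicator_of_notMem (by exact fun h' => h ((near_tr e he r f U).1 h'))]

end tr

theorem trE_iso (x a b : ℤ × ℤ) : fd (trE x a) (trE x b) = fd a b := by
  unfold fd trE
  simp

theorem cc_br_zero {c : Cst} (h5 : 5 ≤ c.p * (c.k0 + 1)) (hp : 1 ≤ c.p) (P : MPar) (x : ℤ × ℤ)
    (k : ℕ) (U : Finset (ℤ × ℤ)) :
    cc (brF c P x) k U = cc (brF c P 0) k (U.image (trE x)) := by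
  rcases U.eq_empty_or_nonempty with h | hne
  · rw [h, Finset.image_empty, FarBx900.cc_empty c P (Bg.br x) k,
      FarBx900.cc_empty c P (Bg.br 0) k]
  · exact cc_br_tr h5 hp P x k hne

theorem NCc_eq (c : Cst) (D : Sys (ℤ × ℤ) (Fld ℤ)) (k : ℕ) :
    NCc c D k = NN fd (rr c.p c.k0 (k + 1)) (ENNReal.ofReal c.Γ)
      (fun U => ENNReal.ofReal |cc D k U|) := rfl

/-- the bounds of the constants do not depend on the position of the branch point -/
theorem NC_br {c : Cst} (h5 : 5 ≤ c.p * (c.k0 + 1)) (hp : 1 ≤ c.p) (P : MPar) (x : ℤ × ℤ) (k : ℕ) :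
    NCc c (brF c P x) k ≤ NCc c (brF c P 0) k := by
  rw [NCc_eq, NCc_eq]
  have h3 : (fun U => ENNReal.ofReal |cc (brF c P x) k U|) =
      fun U : Finset (ℤ × ℤ) => ENNReal.ofReal |cc (brF c P 0) k (U.image (trE x))| := by
    funext U
    rw [cc_br_zero h5 hp P x k U]
  rw [h3]
  exact NN_tr (d := (fd : ℤ × ℤ → ℤ × ℤ → ℕ)) (trE x) (trE_iso x) (rr c.p c.k0 (k + 1))
    (ENNReal.ofReal c.Γ) (fun U => ENNReal.ofReal |cc (brF c P 0) k U|)

/-! ### connectedness -/

/-- the constants live on connected nonempty sets -/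
theorem ccn {c : Cst} {P : MPar} (hR : 2 * P.R + 1 ≤ nearR c.p c.k0 0) (B : Bg ℤ) (k : ℕ)
    (U : Finset (ℤ × ℤ)) (h : cc (fl c P B) k U ≠ 0) :
    U.Nonempty ∧ Packx915.Conn fd (nearR c.p c.k0 k) U := by
  have h1 := StrSx897.hac_sys DD B.w ∅ c.p c.k0
    (B.K0 P LinearMap.id (noSrc ℤ (Ge (Fld ℤ))) c.p c.k0) (Ac := Set.univ)
    (JVolx950.K0_empty B P LinearMap.id (noSrc ℤ (Ge (Fld ℤ))) c.p c.k0)
    (fun U hU => JVolx950.K0_conn B P LinearMap.id (noSrc ℤ (Ge (Fld ℤ))) hR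
      (noSrc_conn (G := ℤ) _ _) hU)
    (fun _ _ _ _ => Set.mem_univ _) k U (Compx889.cc_ne_zero h)
  exact ⟨h1.1, h1.2.1⟩

/-! ### the constants -/

/-- the elementary conditions on the constants -/
structure Basic (R : ℕ) (c : Cst) : Prop where
  p1 : 1 ≤ c.p
  h5 : 5 ≤ c.p * (c.k0 + 1)
  Γ4 : 4 ≤ c.Γ
  A0 : 0 < c.A0
  δ0 : 0 < c.δ
  near : 2 * max R 1 + 1 ≤ nearR c.p c.k0 0

theorem ev_basic (R : ℕ) : EvC (Basic R) := by
  filter_upwards [eventually_ge_atTop 1] with p hp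
  filter_upwards [eventually_ge_atTop (4 : ℝ)] with Γ hΓ
  filter_upwards [eventually_ge_atTop (8 * (2 * max R 1 + 1) + 5)] with k0 hk
  filter_upwards [eventually_gt_atTop (0 : ℝ)] with A0 hA
  filter_upwards [self_mem_nhdsWithin] with δ hδ
  refine ⟨hp, ?_, hΓ, hA, hδ, ?_⟩
  · show 5 ≤ p * (k0 + 1)
    calc 5 ≤ k0 + 1 := by omega
      _ ≤ p * (k0 + 1) := Nat.le_mul_of_pos_left _ hp
  · show 2 * max R 1 + 1 ≤ rr p k0 (0 + 1) / 8
    rw [Nat.le_div_iff_mul_le (by norm_num)]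
    unfold rr
    have h1 : p * (k0 + (0 + 1)) < 2 ^ (p * (k0 + (0 + 1))) := Nat.lt_two_pow_self
    have h2 : k0 ≤ p * (k0 + (0 + 1)) := by nlinarith
    omega

theorem amp_tendsto {c : Cst} (hA : 0 < c.A0) (hδ : 0 < c.δ) :
    Tendsto (Outx683.amp c) atTop atTop := by
  unfold Outx683.amp
  refine Tendsto.const_mul_atTop hA ?_
  refine tendsto_atTop_add_const_left _ _ ?_
  exact Tendsto.const_mul_atTop hδ tendsto_natCast_atTop_atTop

/-! ### the leaf -/

/-- the bounds of one flow at all scales up to the scale of the domain -/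
def BdAt (c : Cst) (P : MPar) (D : Set ℂ) (b : BoundaryCondition) {n : ℕ} (x : Fin n → ℂ)
    (C' δ a : ℝ) : Prop :=
  (∀ k ≤ lastK c.p c.k0 (δ * a⁻¹), NPc c (domF c P (TT D a) b (fun i => meshIndex a (x i)))
    (Bg.dom (TT D a) b (fun i => meshIndex a (x i))).w (Outx683.amp c) allP k ≤
      ENNReal.ofReal (C' * (1 / 2) ^ k)) ∧
  ∀ k < lastK c.p c.k0 (δ * a⁻¹),
    NCc c (domF c P (TT D a) b (fun i => meshIndex a (x i))) k ≤ ENNReal.ofReal (C' * (1 / 2) ^ k)

/-- **(P8) for domains** -/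
def DomBd (J : ℝ) (R : ℕ) (V : Finset (ℤ × ℤ) → ℝ) : Prop :=
  ForP J (PF J R V) fun c lam β z =>
    ∀ D : Set ℂ, IsC2JordanDomain D → ∀ (b : BoundaryCondition) (n : ℕ), Rel b n →
      ∀ x : Fin n → ℂ, (∀ i, x i ∈ D) → Function.Injective x →
        ∃ C' : ℝ, ∃ δ₁ > 0, ∀ δ : ℝ, 0 < δ → δ ≤ δ₁ →
          ∀ᶠ a in 𝓝[>] (0 : ℝ), BdAt c (mpar J lam R V β z) D b x C' δ a

theorem lastK_scale {p k0 : ℕ} {δ δ₀ : ℝ} (hδ : 0 < δ) (hδ₀ : δ ≤ δ₀) :
    ∀ᶠ a in 𝓝[>] (0 : ℝ), (rr p k0 (lastK p k0 (δ * a⁻¹)) : ℝ) ≤ δ₀ / a := by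
  have h1 : Tendsto (fun a : ℝ => δ * a⁻¹) (𝓝[>] 0) atTop :=
    Tendsto.const_mul_atTop hδ tendsto_inv_nhdsGT_zero
  filter_upwards [h1.eventually_ge_atTop ((2 : ℝ) ^ (p * k0)), self_mem_nhdsWithin] with a h2 ha
  have ha : 0 < a := ha
  have h3 := lastK_le h2
  have h4 : (rr p k0 (lastK p k0 (δ * a⁻¹)) : ℝ) = 2 ^ (p * (k0 + lastK p k0 (δ * a⁻¹))) := by
    unfold rr; push_cast; rfl
  rw [h4]
  refine h3.trans ?_
  rw [div_eq_mul_inv]
  exact mul_le_mul_of_nonneg_right hδ₀ (by positivity)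

/-- the norm at the last scale tends to zero -/
theorem NK_last {c : Cst} {P : MPar} {D : Set ℂ} {b : BoundaryCondition} {n : ℕ} {x : Fin n → ℂ}
    {C' δ : ℝ} (hp : 1 ≤ c.p) (hδ : 0 < δ)
    (h : ∀ᶠ a in 𝓝[>] (0 : ℝ), BdAt c P D b x C' δ a) :
    Tendsto (fun a : ℝ => NK (Bg.dom (TT D a) b (fun i => meshIndex a (x i))).w
      (Outx683.amp c (lastK c.p c.k0 (δ * a⁻¹))) (rr c.p c.k0 (lastK c.p c.k0 (δ * a⁻¹)))
      (ENNReal.ofReal c.Γ) (fun _ => True)
      (fun U => ((fl c P (Bg.dom (TT D a) b (fun i => meshIndex a (x i)))).K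
        (lastK c.p c.k0 (δ * a⁻¹)) U : Gr (Fld ℤ)))) (𝓝[>] 0) (𝓝 0) := by
  have h1 : Tendsto (fun a : ℝ => lastK c.p c.k0 (δ * a⁻¹)) (𝓝[>] 0) atTop :=
    lastK_tendsto c.k0 hp (Tendsto.const_mul_atTop hδ tendsto_inv_nhdsGT_zero)
  have h2 : Tendsto (fun k : ℕ => ENNReal.ofReal (C' * (1 / 2) ^ k)) atTop (𝓝 0) := by
    have h3 : Tendsto (fun k : ℕ => C' * (1 / 2 : ℝ) ^ k) atTop (𝓝 (C' * 0)) :=
      (tendsto_pow_atTop_nhds_zero_of_lt_one (by norm_num) (by norm_num)).const_mul C'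
    rw [mul_zero] at h3
    have h4 := ENNReal.tendsto_ofReal h3
    rwa [ENNReal.ofReal_zero] at h4
  refine tendsto_of_tendsto_of_tendsto_of_le_of_le' tendsto_const_nhds (h2.comp h1)
    (Eventually.of_forall fun _ => zero_le) ?_
  filter_upwards [h] with a ha
  exact ha.1 _ le_rfl

/-- **the leaf `SpDL`** -/
theorem spDL_of (hS : UFinx420.SpinLeaf) {J : ℝ} (hJ : 0 < J) {R : ℕ} {V : Finset (ℤ × ℤ) → ℝ}
    (hV : VHyp R V) (hD : DomBd J R V) (hB : ConstB J R V) : PTopx386.SpDL J R V := by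
  unfold DomBd ForP at hD
  unfold ConstB at hB
  unfold PTopx386.SpDL ForP
  refine (EvC.and (EvC.and hD hB) (ev_basic R)).mono fun c hc C => ?_
  obtain ⟨⟨hcD, hcB⟩, bas⟩ := hc
  obtain ⟨ε₁, hε₁, h1⟩ := hcD C
  obtain ⟨ε₂, hε₂, M, h2⟩ := hcB C
  refine ⟨min (min ε₁ ε₂) (1 / (|C| + 1)), by positivity, fun lam β z hl hn hp => ?_⟩
  have hl1 : |lam| < ε₁ := hl.trans_le ((min_le_left _ _).trans (min_le_left _ _))
  have hl2 : |lam| < ε₂ := hl.trans_le ((min_le_left _ _).trans (min_le_right _ _))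
  have hl3 : |lam| < 1 / (|C| + 1) := hl.trans_le (min_le_right _ _)
  have hdom := h1 lam β z hl1 hn hp
  obtain ⟨hpl, hbr⟩ := h2 lam β z hl2 hn hp
  have hz : 0 < 1 + z := by
    have h3 : |z| < 1 := by
      have h4 : |z| ≤ C * |lam| := by
        have := hn
        unfold NearP at this
        linarith [abs_nonneg (β - criticalBeta J)]
      have h5 : C * |lam| ≤ |C| * |lam| := mul_le_mul_of_nonneg_right (le_abs_self C) (abs_nonneg _)
      rw [lt_div_iff₀ (by positivity)] at hl3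
      nlinarith [abs_nonneg lam, abs_nonneg C]
    linarith [(abs_lt.1 h3).1]
  intro D hC2 b n hn1 hR x hx hinj
  have hbd : Bornology.IsBounded D := bounded_of_C2 hC2
  have hO : IsOpen D := isOpen_of_C2 hC2
  have hbm : b ≠ BoundaryCondition.minus := UFinx420.rel_ne_minus hR
  have hR0 : Rel b 0 := by
    rcases hR with rfl | ⟨rfl, -⟩
    · exact Or.inl rfl
    · exact Or.inr ⟨rfl, Even.zero⟩
  obtain ⟨C₁, δ₁, hδ₁, hb1⟩ := hdom D hC2 b n hR x hx hinj
  obtain ⟨C₂, δ₂, hδ₂, hb2⟩ := hdom D hC2 b 0 hR0 (fun i : Fin 0 => i.elim0) (fun i => i.elim0)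
    (Function.injective_of_subsingleton _)
  obtain ⟨δ₀, hδ₀, hsp⟩ := spinData_dom hO hx hinj
  set δ : ℝ := min δ₀ (min δ₁ δ₂) with hδdef
  have hδ : 0 < δ := lt_min hδ₀ (lt_min hδ₁ hδ₂)
  have e0 : (fun a : ℝ => fun i : Fin 0 => meshIndex a ((i.elim0 : ℂ))) =
      fun _ => fun i : Fin 0 => (i.elim0 : ℤ × ℤ) := by
    funext a i
    exact i.elim0
  have hB1 := hb1 δ hδ ((min_le_right _ _).trans (min_le_left _ _))
  have hB2 := hb2 δ hδ ((min_le_right _ _).trans (min_le_right _ _))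
  set P := mpar J lam R V β z with hP
  set X : ℝ → Fin n → ℤ × ℤ := fun a i => meshIndex a (x i) with hX
  have X0eq : ∀ a : ℝ, (fun i : Fin 0 => meshIndex a ((fun i : Fin 0 => (i.elim0 : ℂ)) i)) =
      fun i : Fin 0 => (i.elim0 : ℤ × ℤ) := fun a => funext fun i => i.elim0
  obtain ⟨Bd0, hBd0⟩ := hbd.exists_norm_le
  have hBD : ∀ w ∈ D, ‖w‖ ≤ |Bd0| := fun w hw => (hBd0 w hw).trans (le_abs_self _)
  set Λ : ℝ → Finset (ℤ × ℤ) := Lam |Bd0| (max R 1) with hΛ
  -- the error sequence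
  set E : ℕ → ℝ := fun k => (|C₁| + |C₂| + |M| * |lam|) * (1 / 2) ^ k with hE
  have hE0 : ∀ k, 0 ≤ E k := fun k => by positivity
  have hEs : Summable E := (summable_geometric_of_lt_one (by norm_num) (by norm_num)).mul_left _
  have hΓ4 : (4 : ℝ≥0∞) ≤ ENNReal.ofReal c.Γ := by
    rw [show (4 : ℝ≥0∞) = ENNReal.ofReal 4 by norm_num]
    exact ENNReal.ofReal_le_ofReal bas.Γ4
  have hΓt : ENNReal.ofReal c.Γ ≠ ∞ := ENNReal.ofReal_ne_top
  have hle1 : ∀ k, ENNReal.ofReal (C₁ * (1 / 2) ^ k) ≤ ENNReal.ofReal (E k) := fun k => by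
    refine ENNReal.ofReal_le_ofReal (mul_le_mul_of_nonneg_right ?_ (by positivity))
    have := le_abs_self C₁
    have h6 : 0 ≤ |M| * |lam| := by positivity
    linarith [abs_nonneg C₂]
  have hle2 : ∀ k, ENNReal.ofReal (C₂ * (1 / 2) ^ k) ≤ ENNReal.ofReal (E k) := fun k => by
    refine ENNReal.ofReal_le_ofReal (mul_le_mul_of_nonneg_right ?_ (by positivity))
    have := le_abs_self C₂
    have h6 : 0 ≤ |M| * |lam| := by positivity
    linarith [abs_nonneg C₁]
  have hle3 : ∀ k, ENNReal.ofReal (M * |lam| * (1 / 2) ^ k) ≤ ENNReal.ofReal (E k) := fun k => by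
    refine ENNReal.ofReal_le_ofReal (mul_le_mul_of_nonneg_right ?_ (by positivity))
    have h6 : M * |lam| ≤ |M| * |lam| := mul_le_mul_of_nonneg_right (le_abs_self M) (abs_nonneg _)
    linarith [abs_nonneg C₁, abs_nonneg C₂]
  have hPR : 2 * P.R + 1 ≤ nearR c.p c.k0 0 := bas.near
  have hKt : Tendsto (fun a : ℝ => lastK c.p c.k0 (δ * a⁻¹)) (𝓝[>] 0) atTop :=
    lastK_tendsto c.k0 bas.p1 (Tendsto.const_mul_atTop hδ tendsto_inv_nhdsGT_zero)
  have hTc : ∀ᶠ a in 𝓝[>] (0 : ℝ), ((TT D a : Finset (ℤ × ℤ)) : Set (ℤ × ℤ)) = domainSites D a := by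
    filter_upwards [self_mem_nhdsWithin] with a ha
    exact TT_coe hbd ha
  have ha1 : ∀ᶠ a in 𝓝[>] (0 : ℝ), a ≤ 1 :=
    mem_of_superset (Ioo_mem_nhdsGT one_pos) fun a ha => ha.2.le
  have hVol : ∀ᶠ a in 𝓝[>] (0 : ℝ),
      ∀ f ∈ Λ a, (fd ((0, 0) : ℤ × ℤ) f : ℝ) ≤ (|Bd0| + (max R 1 : ℕ) + 3) * a⁻¹ := by
    filter_upwards [self_mem_nhdsWithin, ha1] with a ha ha1 f hf
    exact fd_Lam (abs_nonneg _) _ ha ha1 hf
  -- the final factors
  have hΓ1 : (1 : ℝ≥0∞) ≤ ENNReal.ofReal c.Γ := le_trans (by norm_num) hΓ4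
  have fin1 : Tendsto (fun a : ℝ => Zf (domF c P (TT D a) b (X a)) (Λ a)
      (lastK c.p c.k0 (δ * a⁻¹)) (rem c (Bg.dom (TT D a) b (X a)).w
        (lastK c.p c.k0 (δ * a⁻¹)))) (𝓝[>] 0) (𝓝 1) := by
    obtain ⟨Cg, hCg, hg⟩ := goodBg_ev hS hC2 b hn1 hR (x := x) ⟨hx, hinj⟩
    exact fin_bg bas.p1 hΓ1 P hδ hCg (Cv := |Bd0| + (max R 1 : ℕ) + 3) (by positivity)
      (fun a => Bg.dom (TT D a) b (X a)) (fun a z j => Fin3x315.abs_wX_le _ _ _ z j) hg
      (amp_tendsto bas.A0 bas.δ0) Λ hVol (NK_last bas.p1 hδ hB1)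
  have fin2 : Tendsto (fun a : ℝ => Zf (domF c P (TT D a) b (fun i : Fin 0 => (i.elim0 : ℤ × ℤ)))
      (Λ a) (lastK c.p c.k0 (δ * a⁻¹)) (rem c (Bg.dom (TT D a) b
        (fun i : Fin 0 => (i.elim0 : ℤ × ℤ))).w (lastK c.p c.k0 (δ * a⁻¹)))) (𝓝[>] 0) (𝓝 1) := by
    obtain ⟨Cg, hCg, hg⟩ := goodBg_ev0 hC2 b hbm
    have h7 := NK_last bas.p1 hδ hB2
    simp only [X0eq] at h7
    exact fin_bg bas.p1 hΓ1 P hδ hCg (Cv := |Bd0| + (max R 1 : ℕ) + 3) (by positivity)
      (fun a => Bg.dom (TT D a) b (fun i : Fin 0 => (i.elim0 : ℤ × ℤ)))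
      (fun a z j => Fin3x315.abs_wX_le _ _ _ z j) hg
      (amp_tendsto bas.A0 bas.δ0) Λ hVol h7
  -- the bounds
  have bd1 : ∀ᶠ a in 𝓝[>] (0 : ℝ), Bd (domF c P (TT D a) b (X a)) fd
      (fun k => rr c.p c.k0 (k + 1)) (nearR c.p c.k0) (ENNReal.ofReal c.Γ) E
      (lastK c.p c.k0 (δ * a⁻¹)) := by
    filter_upwards [hB1] with a ha
    exact Compx889.bd_of (fun k hk => (ha.2 k hk).trans (hle1 k)) fun k _ U hU => ccn hPR _ k U hU
  have bd2 : ∀ᶠ a in 𝓝[>] (0 : ℝ),
      Bd (domF c P (TT D a) b (fun i : Fin 0 => (i.elim0 : ℤ × ℤ))) fd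
      (fun k => rr c.p c.k0 (k + 1)) (nearR c.p c.k0) (ENNReal.ofReal c.Γ) E
      (lastK c.p c.k0 (δ * a⁻¹)) := by
    filter_upwards [hB2] with a ha
    refine Compx889.bd_of (fun k hk => ?_) fun k _ U hU => ccn hPR _ k U hU
    have h8 := ha.2 k hk
    rw [X0eq a] at h8
    exact h8.trans (hle2 k)
  have bdB : ∀ (y : ℤ × ℤ) (N : ℕ), Bd (brF c P y) fd (fun k => rr c.p c.k0 (k + 1))
      (nearR c.p c.k0) (ENNReal.ofReal c.Γ) E N := fun y N =>
    Compx889.bd_of (fun k _ => ((NC_br bas.h5 bas.p1 P y k).trans (hbr k)).trans (hle3 k))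
      fun k _ U hU => ccn hPR _ k U hU
  have bdP : ∀ N : ℕ, Bd (plF c P) fd (fun k => rr c.p c.k0 (k + 1))
      (nearR c.p c.k0) (ENNReal.ofReal c.Γ) E N := fun N =>
    Compx889.bd_of (fun k _ => (hpl k).trans (hle3 k)) fun k _ U hU => ccn hPR _ k U hU
  -- the flows
  have vol : ∀ᶠ a in 𝓝[>] (0 : ℝ), Vol (TT D a) b P.R (noSrc ℤ (Ge (Fld ℤ))).Ys (Λ a) := by
    filter_upwards [self_mem_nhdsWithin] with a ha
    exact vol_Lam hBD hbd ha b (max R 1) _ fun _ => rfl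
  have ev := ev_C2 (m := 0) b hR hC2 x hx (fun i : Fin 0 => i.elim0) (fun i : Fin 0 => i.elim0)
    (fun i => i.elim0)
  have hratio : ∀ᶠ a in 𝓝[>] (0 : ℝ), spm D a b J lam R V β x / spm0 D a b x =
      Z0 (domF c P (TT D a) b (X a)) (Λ a) (Cof (Bg.dom (TT D a) b (X a)).w) /
      Z0 (domF c P (TT D a) b (fun i : Fin 0 => (i.elim0 : ℤ × ℤ))) (Λ a)
        (Cof (Bg.dom (TT D a) b (fun i : Fin 0 => (i.elim0 : ℤ × ℤ))).w) := by
    filter_upwards [ev, self_mem_nhdsWithin] with a h9 ha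
    exact spm_eq bas.h5 hJ.ne' hV.trans hV.range hV.even hz hBD hbd hbm x ha h9.2.1 h9.2.2.1
      h9.2.2.2.1.ne'
  refine ⟨_, hsp hΓ4 hΓt hE0 hEs (c := c) P bas.h5 bas.p1 b (l := 𝓝[>] (0 : ℝ)) (a := fun a => a)
    tendsto_id (fun a => TT D a) hTc (fun _ i => i.elim0) (fun a => lastK c.p c.k0 (δ * a⁻¹)) hKt
    (lastK_scale hδ (min_le_left _ _)) Λ Λ (fun a => Cof (Bg.dom (TT D a) b (X a)).w)
    (fun a => rem c (Bg.dom (TT D a) b (X a)).w (lastK c.p c.k0 (δ * a⁻¹)))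
    (fun a => Cof (Bg.dom (TT D a) b (fun i : Fin 0 => (i.elim0 : ℤ × ℤ))).w)
    (fun a => rem c (Bg.dom (TT D a) b (fun i : Fin 0 => (i.elim0 : ℤ × ℤ))).w
      (lastK c.p c.k0 (δ * a⁻¹)))
    (vol.mono fun a v => fl_Fl bas.h5 P v _) (vol.mono fun a v => fl_Fl bas.h5 P v _)
    bd1 bd2 (Eventually.of_forall fun a j => bdB _ _) (Eventually.of_forall fun a => bdP _)
    fin1 fin2 hratio⟩

end Crest.Agent.R165.SRdomx900
end
end

-- ▼ part R165/SpinDisc_67
section

/-!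
# Row 165 (S0250), discs: the spin data of large plus discs (helper67)

* `K_conn`, `bd_of_NC` : the structure `Bd` from the bounds `NC` of `Comp2_889`
* `mesh_disc` : geometry of the insertions in discs `ball 0 B`, along `dl`
* `BdDom` : the bounds of one domain flow which are used
* `fin_disc` : the final factor of the disc flows tends to one
* `spinData_disc` : **`SpinData` for large plus discs**; the only hypotheses are bounds
-/

set_option autoImplicit false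
set_option linter.unusedSectionVars false

noncomputable section

open Finset Filter Topology
open scoped ENNReal
open Crest.ProbabilityR.IsingModel

namespace Crest.Agent.R165.SpinDiscx67

open Crest.Agent.R165.Gr0x606 Crest.Agent.R165.Gr1x606 Crest.Agent.R165.GeOpsx337
  Crest.Agent.R165.KStepx892 Crest.Agent.R165.KFlowx337 Crest.Agent.R165.Telx337
  Crest.Agent.R165.KInitx892 Crest.Agent.R165.Compx889 Crest.Agent.R165.XBdx915
open Crest.Agent.R165.Latx683 (BW wDom ray wX wPl IsCov covS Fld HE xc)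
open Crest.Agent.R165.GDefx387 Crest.Agent.R165.GSysx387 Crest.Agent.R165.BgIsox432
  Crest.Agent.R165.CmpBgx432
open Crest.Agent.R165.Bkgx683 Crest.Agent.R165.PEndx683 Crest.Agent.R165.Outx683
open Crest.Agent.R165.Spinx930 Crest.Agent.R165.SpinSysx892 Crest.Agent.R165.DiscDatax892
  Crest.Agent.R165.SDatax900 Crest.Agent.R165.DomGeox900 Crest.Agent.R165.Scalex900
  Crest.Agent.R165.SpinDomx432 Crest.Agent.R165.DiscKx892 Crest.Agent.R165.SRdomAx900
open Crest.Agent.R165.Topx683 Crest.Agent.R165.Centx541 Crest.Agent.R165.SRx541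
open Crest.Agent.R165.UKerx420 (wD Cof Sof Sof_spec Sof_skew)
open Crest.Agent.R165.Fin2x315 Crest.Agent.R165.JVolx950
open Crest.Agent.R165.JRunx445 (Links links_disc)
open Crest.Agent.R165.U5Px422 (TT mem_TT)
open Crest.Agent.R165.NSumx915 Crest.Agent.R165.PNormx417 Crest.Agent.R165.Bridgex915

/-! ### bounds -/

section bd

variable {G : Type} [CommRing G] [CN G] [CNZ G] [DecidableEq G]

/-- the polymers of a flow are connected at the range of the scale -/
theorem K_conn {c : Cst} {P : MPar} (B : Bg G) (hR : 2 * P.R + 1 ≤ nearR c.p c.k0 0) (k : ℕ)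
    (U : Finset (G × G)) (hU : (fl c P B).K k U ≠ 0) :
    U.Nonempty ∧ Packx915.Conn fd (nearR c.p c.k0 k) U := by
  have h0 : ∀ U, B.K0 P LinearMap.id (noSrc G (Ge (Fld G))) c.p c.k0 U ≠ 0 →
      acS fd (nearR c.p c.k0 0) (Set.univ : Set (G × G)) U := by
    intro U hU
    refine ⟨?_, JVolx950.K0_conn B P LinearMap.id _ hR (fun k => k.elim0) hU,
      Set.subset_univ _⟩
    by_contra hne
    rw [Finset.not_nonempty_iff_eq_empty] at hne
    exact hU (by rw [hne]; exact JVolx950.K0_empty B P _ _ _ _)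
  obtain ⟨h1, h2, -⟩ := ac_sys DD (w := B.w) (mk := ∅) h0 k U hU
  exact ⟨h1, h2⟩

/-- **`Bd` from the bounds of the constants** -/
theorem bd_of_NC {c : Cst} {P : MPar} (B : Bg G) (hR : 2 * P.R + 1 ≤ nearR c.p c.k0 0) {Γ : ℝ≥0∞}
    {E : ℕ → ℝ} {N : ℕ}
    (h : ∀ k < N, NC (fl c P B) (rr c.p c.k0) Γ k ≤ ENNReal.ofReal (E k)) :
    Bd (fl c P B) fd (fun k => rr c.p c.k0 (k + 1)) (nearR c.p c.k0) Γ E N := by
  refine ⟨fun k hk => h k hk, fun k _ U hU => ?_⟩
  refine K_conn B hR k U fun h0 => hU ?_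
  rw [cc, Sys.H, h0, map_zero, map_zero]

end bd

/-! ### geometry of discs -/

/-- separation of the insertions and interior neighbourhoods -/
theorem geo_disc {n : ℕ} {x : Fin n → ℂ} (hinj : Function.Injective x) :
    ∃ c > 0, ∀ᶠ a : ℝ in 𝓝[>] 0, ∀ᶠ B : ℝ in atTop,
      (∀ i j, i ≠ j → c / a ≤ (fd (meshIndex a (x i)) (meshIndex a (x j)) : ℝ)) ∧
      ∀ i (f : ℤ × ℤ), (fd (meshIndex a (x i)) f : ℝ) ≤ c / a →
        cornersIn (domainSites (Metric.ball (0 : ℂ) B) a) f := by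
  obtain ⟨B0, hB0⟩ : ∃ B0 : ℝ, ∀ i, x i ∈ Metric.ball (0 : ℂ) B0 := by
    refine ⟨∑ i, ‖x i‖ + 1, fun i => ?_⟩
    rw [Metric.mem_ball, dist_zero_right]
    have := Finset.single_le_sum (f := fun i => ‖x i‖) (fun i _ => norm_nonneg _)
      (Finset.mem_univ i)
    linarith
  obtain ⟨c, hc, h⟩ := geo_all Metric.isOpen_ball hB0 hinj
  refine ⟨c, hc, ?_⟩
  filter_upwards [h] with a ha
  filter_upwards [eventually_ge_atTop B0] with B hB
  have hsub : domainSites (Metric.ball (0 : ℂ) B0) a ⊆ domainSites (Metric.ball (0 : ℂ) B) a :=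
    fun _ hz => Metric.ball_subset_ball hB hz
  refine ⟨ha.1, fun i f hf => ?_⟩
  have h1 := ha.2 i f hf
  exact ⟨hsub h1.1, hsub h1.2.1, hsub h1.2.2.1, hsub h1.2.2.2⟩

/-- the sites of the disc -/
abbrev TD (P : ℝ × ℝ) : Finset (ℤ × ℤ) := TT (Metric.ball (0 : ℂ) P.2) P.1

/-- the geometric hypotheses hold for large discs -/
theorem mesh_disc {n : ℕ} {x : Fin n → ℂ} (hinj : Function.Injective x) :
    ∃ c₀ > 0, ∀ᶠ P in dl, Mesh (TD P) (fun j => meshIndex P.1 (x j)) (rad c₀ 8 P.1) := by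
  obtain ⟨c₀, hc₀, h⟩ := geo_disc hinj
  refine ⟨c₀, hc₀, ?_⟩
  have h' : ∀ᶠ P : ℝ × ℝ in dl,
      (∀ i j, i ≠ j → c₀ / P.1 ≤ (fd (meshIndex P.1 (x i)) (meshIndex P.1 (x j)) : ℝ)) ∧
      ∀ i (f : ℤ × ℤ), (fd (meshIndex P.1 (x i)) f : ℝ) ≤ c₀ / P.1 →
        cornersIn (domainSites (Metric.ball (0 : ℂ) P.2) P.1) f := eventually_curry_iff.2 h
  filter_upwards [h', ev_pos] with P h1 h3
  have h4 : ((8 * rad c₀ 8 P.1 : ℕ) : ℝ) ≤ c₀ / P.1 := rad_le hc₀ (by norm_num) h3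
  have h5 : (0 : ℝ) < c₀ / P.1 := div_pos hc₀ h3
  constructor
  · intro j k hjk
    have h6 := h1.1 j k hjk
    have h7 : 8 * rad c₀ 8 P.1 ≤ fd (meshIndex P.1 (x j)) (meshIndex P.1 (x k)) := by
      exact_mod_cast h4.trans h6
    have h8 : 0 < fd (meshIndex P.1 (x j)) (meshIndex P.1 (x k)) := by
      exact_mod_cast h5.trans_le h6
    omega
  · intro j f hf
    rw [TT_coe Metric.isBounded_ball h3]
    refine h1.2 j f (le_trans ?_ h4)
    exact_mod_cast (by omega : fd (meshIndex P.1 (x j)) f ≤ 8 * rad c₀ 8 P.1)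

/-- everything about the covariances, eventually -/
theorem links_dl : ∀ᶠ P in dl, ∀ (n : ℕ) (X : Fin n → ℤ × ℤ),
    Links (Metric.ball (0 : ℂ) P.2) P.1 BoundaryCondition.plus X :=
  ev_aB fun _ ha => links_disc ha

theorem ball_norm_le {B : ℝ} : ∀ z ∈ Metric.ball (0 : ℂ) B, ‖z‖ ≤ B := fun z hz => by
  rw [Metric.mem_ball, dist_zero_right] at hz
  exact hz.le

/-- the volume -/
abbrev LD (R : ℕ) (P : ℝ × ℝ) : Finset (ℤ × ℤ) := Lam P.2 (max R 1) P.1

theorem volD {R : ℕ} {P : ℝ × ℝ} (ha : 0 < P.1) {κ : Type} (Ys : κ → Finset (ℤ × ℤ))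
    (hY : ∀ k, Ys k = ∅) : Vol (TD P) BoundaryCondition.plus (max R 1) Ys (LD R P) :=
  vol_Lam ball_norm_le Metric.isBounded_ball ha _ _ Ys hY

/-- radius of the volume -/
theorem fd_LD {R : ℕ} {P : ℝ × ℝ} (_ : 0 < P.1) (hR : 1 ≤ P.2 / P.1) {f : ℤ × ℤ}
    (hf : f ∈ LD R P) : (fd ((0, 0) : ℤ × ℤ) f : ℝ) ≤ (1 + (max R 1 : ℕ) + 3) * (P.2 / P.1) := by
  have h1 := J4Defx653.mem_bx.1 hf
  have h2 : fd ((0, 0) : ℤ × ℤ) f ≤ ⌈P.2 / P.1⌉₊ + max R 1 + 2 := by
    have e : fd ((0, 0) : ℤ × ℤ) f = max ((0 : ℤ) - f.1).natAbs ((0 : ℤ) - f.2).natAbs := rfl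
    rw [e]
    rw [Int.abs_eq_natAbs, Int.abs_eq_natAbs] at h1
    omega
  have h3 : (fd ((0, 0) : ℤ × ℤ) f : ℝ) ≤ (⌈P.2 / P.1⌉₊ : ℝ) + (max R 1 : ℕ) + 2 := by
    exact_mod_cast h2
  have h4 : (⌈P.2 / P.1⌉₊ : ℝ) ≤ P.2 / P.1 + 1 := (Nat.ceil_lt_add_one (by linarith)).le
  have h5 : (0 : ℝ) ≤ ((max R 1 : ℕ) : ℝ) := Nat.cast_nonneg _
  nlinarith

/-! ### the last scale -/

/-- **the final factor of the disc flows tends to one** -/
theorem fin_disc {c : Cst} {Γ : ℝ≥0∞} (hΓ : 1 ≤ Γ) (Q : MPar) {R m : ℕ}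
    (X : ℝ × ℝ → Fin m → ℤ × ℤ) {Kf : ℝ × ℝ → ℕ} {A : ℝ × ℝ → ℝ} (hA : Tendsto A dl atTop) {κ : ℝ}
    (hκ : 0 < κ) (hr : ∀ᶠ P in dl, κ * (P.2 / P.1) ≤ rr c.p c.k0 (Kf P))
    (hK : Tendsto (fun P => NK (Bg.dom (TD P) .plus (X P)).w (A P) (rr c.p c.k0 (Kf P)) Γ
      (fun _ => True) (fun U => ((domF c Q (TD P) .plus (X P)).K (Kf P) U : Gr (Fld ℤ)))) dl (𝓝 0)) :
    Tendsto (fun P => Zf (domF c Q (TD P) .plus (X P)) (LD R P) (Kf P)
      (rem c (Bg.dom (TD P) .plus (X P)).w (Kf P))) dl (𝓝 1) := by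
  have hRt : Tendsto (fun P : ℝ × ℝ => P.2 / P.1) dl atTop := by
    refine tendsto_aB fun a ha => ?_
    simp only
    exact tendsto_id.atTop_div_const ha
  have hR1 : ∀ᶠ P : ℝ × ℝ in dl, 1 ≤ P.2 / P.1 := hRt.eventually_ge_atTop 1
  refine Fin4x315.zf_tendsto DD (by unfold MM; norm_num) hκ Fin3x315.CPl_pos
    (Cv := 1 + ((max R 1 : ℕ) : ℝ) + 3) (by positivity) hΓ hRt
    (w := fun P => (Bg.dom (TD P) .plus (X P)).w)
    (Eventually.of_forall fun P => Fin3x315.abs_wX_le _ _ _) ?_ hA hr ?_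
    (x := fun _ => (0, 0)) ?_ hK
  · filter_upwards [hR1, ev_pos] with P h1 h2 f
    refine Fin3x315.gap_plus (X P) (c := (0, 0)) h1 (fun z hz => ?_) f
    have hz' : meshPoint P.1 z ∈ Metric.ball (0 : ℂ) P.2 := (mem_TT Metric.isBounded_ball h2).1 hz
    exact GapFinx40.sites_le ball_norm_le h2 z hz'
  · filter_upwards [links_dl] with P h1
    have h2 := (h1 m (X P)).invB
    exact ⟨_, h2, (last_eq h2 c (Kf P)).symm⟩
  · filter_upwards [hR1, ev_pos] with P h1 h2 f hf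
    exact fd_LD h2 h1 hf

/-! ### the spin data -/

/-- the bounds of one disc flow which are used: constants at the scales `k < N`, norm at the last
scale `N` with amplitude `A` -/
structure BdDom (c : Cst) (Q : MPar) (T : Finset (ℤ × ℤ)) {m : ℕ} (X : Fin m → ℤ × ℤ) (M A : ℝ)
    (N : ℕ) : Prop where
  nc : ∀ k < N, NC (domF c Q T .plus X) (rr c.p c.k0) (ENNReal.ofReal c.Γ) k ≤
    ENNReal.ofReal (M * (1 / 2) ^ k)
  last : NK (Bg.dom T .plus X).w A (rr c.p c.k0 N) (ENNReal.ofReal c.Γ) (fun _ => True)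
    (fun U => ((domF c Q T .plus X).K N U : Gr (Fld ℤ))) ≤ ENNReal.ofReal (M * (1 / 2) ^ N)

theorem kf_tendsto_of_lower {c : Cst} {Kf : ℝ × ℝ → ℕ} {κ : ℝ}
    (hκ : 0 < κ) (hr : ∀ᶠ P in dl, κ * (P.2 / P.1) ≤ rr c.p c.k0 (Kf P)) : Tendsto Kf dl atTop := by
  have hRt : Tendsto (fun P : ℝ × ℝ => κ * (P.2 / P.1)) dl atTop := by
    refine tendsto_aB fun a ha => ?_
    simp only
    exact (tendsto_id.atTop_div_const ha).const_mul_atTop hκ
  rw [tendsto_atTop]
  intro N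
  filter_upwards [hr, hRt.eventually_ge_atTop ((rr c.p c.k0 N : ℝ) + 1)] with P h1 h2
  by_contra hcon
  rw [not_le] at hcon
  have h3 : rr c.p c.k0 (Kf P) ≤ rr c.p c.k0 N := rr_mono c.p c.k0 hcon.le
  have h4 : (rr c.p c.k0 (Kf P) : ℝ) ≤ rr c.p c.k0 N := by exact_mod_cast h3
  linarith

theorem tendsto_last {M : ℝ} {Kf : ℝ × ℝ → ℕ} (hKf : Tendsto Kf dl atTop) {N : ℝ × ℝ → ℝ≥0∞}
    (h : ∀ᶠ P in dl, N P ≤ ENNReal.ofReal (M * (1 / 2) ^ Kf P)) : Tendsto N dl (𝓝 0) := by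
  have h1 : Tendsto (fun k : ℕ => ENNReal.ofReal (M * (1 / 2) ^ k)) atTop (𝓝 0) := by
    have h2 : Tendsto (fun k : ℕ => M * (1 / 2 : ℝ) ^ k) atTop (𝓝 (M * 0)) :=
      (tendsto_pow_atTop_nhds_zero_of_lt_one (by norm_num) (by norm_num)).const_mul M
    rw [mul_zero] at h2
    have h3 := ENNReal.tendsto_ofReal h2
    rwa [ENNReal.ofReal_zero] at h3
  exact tendsto_of_tendsto_of_tendsto_of_le_of_le' tendsto_const_nhds (h1.comp hKf)
    (Eventually.of_forall fun _ => zero_le) h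

/-- **`SpinData` for large plus discs** -/
theorem spinData_disc {J : ℝ} (hJ : 0 < J) {R : ℕ} {V : Finset (ℤ × ℤ) → ℝ} (hV : VHyp R V)
    {c : Cst} (hp : 1 ≤ c.p) (h5 : 5 ≤ c.p * (c.k0 + 1))
    (hR : 2 * max R 1 + 1 ≤ nearR c.p c.k0 0) (hΓ : 4 ≤ c.Γ) {n : ℕ} {x : Fin n → ℂ}
    (hinj : Function.Injective x) :
    ∃ u0 > 0, ∀ u, 0 < u → u ≤ u0 → ∀ (lam β z : ℝ), 0 < 1 + z → ∀ (Kf : ℝ × ℝ → ℕ)
      (A : ℝ × ℝ → ℝ) (M κ : ℝ), 0 ≤ M → 0 < κ → Tendsto A dl atTop →
      (∀ᶠ P in dl, k1 c.p c.k0 u P.1 ≤ Kf P) →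
      (∀ᶠ P in dl, κ * (P.2 / P.1) ≤ rr c.p c.k0 (Kf P)) →
      (∀ᶠ P in dl, BdDom c (mpar J lam R V β z) (TD P) (fun i => meshIndex P.1 (x i)) M (A P)
        (Kf P)) →
      (∀ᶠ P in dl, BdDom c (mpar J lam R V β z) (TD P) (fun i : Fin 0 => i.elim0) M (A P)
        (Kf P)) →
      (∀ y k, NC (brF c (mpar J lam R V β z) y) (rr c.p c.k0) (ENNReal.ofReal c.Γ) k ≤
        ENNReal.ofReal (M * (1 / 2) ^ k)) →
      (∀ k, NC (plF c (mpar J lam R V β z)) (rr c.p c.k0) (ENNReal.ofReal c.Γ) k ≤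
        ENNReal.ofReal (M * (1 / 2) ^ k)) →
      ∃ G : ScaleData (fd : ℤ × ℤ → ℤ × ℤ → ℕ),
        Nonempty (SpinData G ((𝓝[>] (0 : ℝ)).curry (atTop : Filter ℝ)) n
          (fun p => spm (Metric.ball 0 p.2) p.1 .plus J lam R V β x /
            spm0 (Metric.ball 0 p.2) p.1 .plus x) (zetaK c (mpar J lam R V β z))) := by
  obtain ⟨c₀, hc₀, hmesh⟩ := mesh_disc hinj
  refine ⟨c₀ / (8 * ((128 : ℕ) + 1)), by positivity, ?_⟩
  intro u hu hu0 lam β z hz Kf A M κ hM hκ hA hk1 hr hb1 hb2 hbB hbP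
  set Q := mpar J lam R V β z with hQ
  have hΓ4 : (4 : ℝ≥0∞) ≤ ENNReal.ofReal c.Γ := by
    rw [← ENNReal.ofReal_ofNat]
    exact ENNReal.ofReal_le_ofReal (by simpa using hΓ)
  have hΓ1 : (1 : ℝ≥0∞) ≤ ENNReal.ofReal c.Γ := le_trans (by norm_num) hΓ4
  have hE0 : ∀ k, 0 ≤ (fun k : ℕ => M * (1 / 2 : ℝ) ^ k) k := fun k => by positivity
  have hE : Summable (fun k : ℕ => M * (1 / 2 : ℝ) ^ k) :=
    (summable_geometric_of_lt_one (by norm_num) (by norm_num)).mul_left M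
  have hKft : Tendsto Kf dl atTop := kf_tendsto_of_lower hκ hr
  have hRQ : 2 * Q.R + 1 ≤ nearR c.p c.k0 0 := hR
  refine ⟨gScale (G := ℤ) c.p c.k0 128 hΓ4 ENNReal.ofReal_ne_top hE0 hE, ⟨?_⟩⟩
  refine (spinSys hΓ4 ENNReal.ofReal_ne_top hE0 hE Q h5 hp (SpinDomx432.rhoH_le c.p c.k0)
    (l := dl) TD .plus (fun P i => meshIndex P.1 (x i)) (fun _ i => i.elim0)
    (fun P => k1 c.p c.k0 u P.1) Kf (fun P => rad c₀ 8 P.1) (LD R) (LD R)
    (fun P => Cof (Bg.dom (TD P) .plus (fun i => meshIndex P.1 (x i))).w)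
    (fun P => rem c (Bg.dom (TD P) .plus (fun i => meshIndex P.1 (x i))).w (Kf P))
    (fun P => Cof (Bg.dom (TD P) .plus (fun i : Fin 0 => i.elim0)).w)
    (fun P => rem c (Bg.dom (TD P) .plus (fun i : Fin 0 => i.elim0)).w (Kf P))
    (k1_tendsto_dl hp c.k0 hu) (tendsto_a (rad_tendsto hc₀ (by norm_num))) hk1 hmesh ?_ ?_ ?_ ?_ ?_
    ?_ ?_ ?_ ?_).spinData ?_
  · -- scales
    have h1 : ∀ᶠ P : ℝ × ℝ in dl, (2 : ℝ) ^ (c.p * c.k0) ≤ u / P.1 := ev_a (ev_div hu)
    filter_upwards [h1, ev_pos] with P h2 h3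
    refine mesh_scale hc₀ h3 ((rr_le_k1 h2 le_rfl).trans ?_)
    gcongr
  · filter_upwards [ev_pos] with P hP
    exact fl_Fl h5 Q (volD hP _ fun k => k.elim0) (Kf P)
  · filter_upwards [ev_pos] with P hP
    exact fl_Fl h5 Q (volD hP _ fun k => k.elim0) (Kf P)
  · filter_upwards [hb1] with P h
    exact bd_of_NC _ hRQ h.nc
  · filter_upwards [hb2] with P h
    exact bd_of_NC _ hRQ h.nc
  · exact Eventually.of_forall fun P i => bd_of_NC _ hRQ fun k _ => hbB _ k
  · exact Eventually.of_forall fun P => bd_of_NC _ hRQ fun k _ => hbP k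
  · exact fin_disc hΓ1 Q _ hA hκ hr (tendsto_last hKft (hb1.mono fun P h => h.last))
  · exact fin_disc hΓ1 Q _ hA hκ hr (tendsto_last hKft (hb2.mono fun P h => h.last))
  · have h1 : ∀ᶠ P : ℝ × ℝ in dl, 0 < spm0 (Metric.ball (0 : ℂ) P.2) P.1 .plus x :=
      ev_aB fun a ha => (JDomAx606.ev_disc ha).mono fun B h => (h.2 n x).2.2
    filter_upwards [links_dl, h1, ev_pos] with P h2 h3 h4
    exact spm_eq h5 hJ.ne' hV.trans hV.range hV.even hz ball_norm_le Metric.isBounded_ball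
      (by decide) x h4 (h2 n _).lk (h2 0 _).lk h3.ne'

end Crest.Agent.R165.SpinDiscx67
end
end

-- ▼ part R165/SpPL_67
section

/-!
# Row 165 (S0250): the leaf `SpPL`, spin data of large plus discs (helper67)

* `flc_ev` : bounds of the constants for one branch point (every position) and for the plane
* `spPL : PlB J R V → SpPL J R V`
-/

set_option autoImplicit false
set_option linter.unusedSectionVars false

noncomputable section

open Filter Topology
open scoped ENNReal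
open Crest.ProbabilityR.IsingModel
open Crest.Agent.R165.Gr0x606 Crest.Agent.R165.Gr1x606 Crest.Agent.R165.GeOpsx337
open Crest.Agent.R165.Latx683 Crest.Agent.R165.GDefx387 Crest.Agent.R165.GSysx387
open Crest.Agent.R165.KFlowx337 Crest.Agent.R165.BgIsox432
open Crest.Agent.R165.DefRecx915 Crest.Agent.R165.XBdx915 Crest.Agent.R165.Bridgex915
open Crest.Agent.R165.Bkgx683 Crest.Agent.R165.PEndx683 Crest.Agent.R165.Outx683
open Crest.Agent.R165.Compx889 Crest.Agent.R165.Constx891 Crest.Agent.R165.StepOKx838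
open Crest.Agent.R165.DeepBgx898 Crest.Agent.R165.FlNx387 Crest.Agent.R165.PTopx386
open Crest.Agent.R165.DiscKx892 Crest.Agent.R165.DiscCompx722 Crest.Agent.R165.SpinDiscx67
open Crest.Agent.R165.Topx683 Crest.Agent.R165.Centx541 Crest.Agent.R165.Zetax930
open Crest.Agent.R165.U5Px422 (TT mem_TT)
open Crest.Agent.R165.TorNorm2x583 (PlB)

namespace Crest.Agent.R165.SpPLx67

/-- **the bounds of the constants for one branch point, at every position, and for the plane** -/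
theorem flc_ev (J : ℝ) (R : ℕ) (V : Finset (ℤ × ℤ) → ℝ) :
    EvC fun c => (1 ≤ c.p ∧ 5 ≤ c.p * (c.k0 + 1) ∧ 2 * max R 1 + 1 ≤ nearR c.p c.k0 0 ∧
      4 ≤ c.Γ ∧ Std c) ∧
      ∀ C : ℝ, ∃ ε > 0, ∃ M : ℝ, 0 < M ∧ ∀ lam β z : ℝ, |lam| < ε → NearP J C lam β z →
        PF J R V C c lam β z →
        (∀ y k, NC (brF c (mpar J lam R V β z) y) (rr c.p c.k0) (ENNReal.ofReal c.Γ) k ≤
          ENNReal.ofReal (M * |lam| * (1 / 2) ^ k)) ∧
        ∀ k, NC (plF c (mpar J lam R V β z)) (rr c.p c.k0) (ENNReal.ofReal c.Γ) k ≤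
          ENNReal.ofReal (M * |lam| * (1 / 2) ^ k) := by
  refine (((stepOK_ev.and (ev_nearR (2 * max R 1 + 1))).and ((ev_Γ_ge 4).and ev_std)).and
    ((ev_rr_ge fun _ _ => 4 * (2 * max R 1 + 1) + 2).and (ev_k0_ge fun _ _ => 1))).mono
    fun c hc => ?_
  obtain ⟨⟨⟨⟨CF, hCF, C1, H⟩, hR⟩, hΓ, hs⟩, hr, hk⟩ := hc
  have hp4 := hs.p_pos
  have hp1 : 1 ≤ c.p := by omega
  have h5 : 5 ≤ c.p * (c.k0 + 1) := by nlinarith
  refine ⟨⟨hp1, h5, hR, hΓ, hs⟩, fun C => ?_⟩
  obtain ⟨ε, hε, M, hM, h⟩ := nc_of_ctl J R V hCF h5 (by linarith) H.A0.le (hr 0) C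
  refine ⟨ε, hε, M, hM, fun lam β z hl hn hp => ⟨fun y k => ?_, fun k => ?_⟩⟩
  · exact (h lam β z hl hn hp (Bg.br y) (plOK_br y) (abs_wX_pl ![y]) (k + 1)
      (ctl_br H h5 hp1 (by linarith) hR y (k + 1))).2 k (Nat.lt_succ_self k)
  · exact (h lam β z hl hn hp Bg.pl plOK_pl J4K0Nx126.wPl_le (k + 1)
      (ctl_pl H h5 hp1 (by linarith) hR (k + 1))).2 k (Nat.lt_succ_self k)

/-- `0 < 1 + z` for small `lam` -/
theorem one_add_pos {J C lam β z : ℝ} (hl : |lam| < 1 / (|C| + 1)) (hn : NearP J C lam β z) :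
    0 < 1 + z := by
  have hC := abs_nonneg C
  have h0 : |z| ≤ |C| * |lam| := by
    have h1 : |β - criticalBeta J| + |z| ≤ C * |lam| := hn
    have h2 : C * |lam| ≤ |C| * |lam| :=
      mul_le_mul_of_nonneg_right (le_abs_self C) (abs_nonneg lam)
    linarith [abs_nonneg (β - criticalBeta J)]
  have h1 : |lam| * (|C| + 1) < 1 := by rwa [lt_div_iff₀ (by linarith)] at hl
  have h2 : |z| < 1 := by nlinarith [abs_nonneg lam]
  linarith [(abs_lt.1 h2).1]

/-- **the leaf `SpPL`** -/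
theorem spPL {J : ℝ} (hJ : 0 < J) {R : ℕ} {V : Finset (ℤ × ℤ) → ℝ} (hV : VHyp R V)
    (hpl : PlB J R V) : SpPL J R V := by
  unfold SpPL ForP
  refine ((ev_disc3 hpl).and (flc_ev J R V)).mono fun c hc C => ?_
  obtain ⟨⟨C1, -, c1, hc1, h3⟩, ⟨hp, h5, hR, hΓ, hs⟩, hf⟩ := hc
  obtain ⟨ε1, hε1, M0, hM0, h3⟩ := h3 C
  obtain ⟨ε2, hε2, Mf, hMf, hf⟩ := hf C
  have hC1 : (0 : ℝ) < 1 / (|C| + 1) := by positivity
  refine ⟨min (min ε1 ε2) (1 / (|C| + 1)), lt_min (lt_min hε1 hε2) hC1, ?_⟩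
  intro lam β z hl hn hPF n _ hev x hinj
  obtain ⟨⟨hl1, hl2⟩, hl3⟩ : (|lam| < ε1 ∧ |lam| < ε2) ∧ |lam| < 1 / (|C| + 1) := by
    rwa [lt_min_iff, lt_min_iff] at hl
  obtain ⟨u0, v0, hu0, huv, h3⟩ := h3 n hev x hinj
  obtain ⟨u1, hu1, hsd⟩ := spinData_disc hJ hV hp h5 hR hΓ hinj
  have hu : 0 < min u0 u1 := lt_min hu0 hu1
  obtain ⟨M, hM, h3⟩ := h3 (min u0 u1) v0 c1 hu (min_le_left _ _) le_rfl hc1 le_rfl
  have hfl := hf lam β z hl2 hn hPF
  have hab := abs_nonneg lam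
  have hMM : ∀ M' : ℝ, M' ≤ max M Mf → ∀ k : ℕ,
      ENNReal.ofReal (M' * |lam| * (1 / 2) ^ k) ≤
        ENNReal.ofReal (max M Mf * |lam| * (1 / 2) ^ k) := fun M' h k =>
    ENNReal.ofReal_le_ofReal (by gcongr)
  have h2p : (0 : ℝ) < 2 ^ c.p := by positivity
  refine hsd (min u0 u1) hu (min_le_right _ _) lam β z (one_add_pos hl3 hn) (kf c.p c.k0 c1)
    (fun P => aC c (k1 c.p c.k0 (min u0 u1) P.1) (k2 c.p c.k0 v0 P.1) (kf c.p c.k0 c1 P))
    (max M Mf * |lam|) (c1 / 2 ^ c.p) ?_ (by positivity) ?_ (k1_le_kf hp c.k0 hc1 _) ?_ ?_ ?_ ?_ ?_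
  · exact mul_nonneg (hMf.le.trans (le_max_right _ _)) hab
  · exact aD_tendsto hp c.k0 ((min_le_left _ _).trans huv) hc1 (zero_lt_one.trans_le hs.A0_ge)
      hs.δ_pos (one_pos.trans_le (one_le_qD c))
  · filter_upwards [ev_pos] with P hP
    have h6 := lt_rr_kf hp (k0 := c.k0) c1 P
    have h7 : (rr c.p c.k0 (kf c.p c.k0 c1 P + 1) : ℝ) =
        2 ^ c.p * rr c.p c.k0 (kf c.p c.k0 c1 P) := by
      rw [rr_cast, rr_cast, ← pow_add]
      congr 1
      ring
    rw [h7] at h6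
    rw [div_mul_eq_mul_div, div_le_iff₀ h2p]
    rw [mul_div_assoc] at h6
    linarith
  · filter_upwards [h3, ev_pos] with P h4 hP
    have h6 := (h4.2.2.2 lam β z hl1 hn hPF (TD P) (SRdomAx900.TT_coe Metric.isBounded_ball hP)
      .plus).1
    exact ⟨fun k hk => (h6.nc k hk).trans (hMM _ (le_max_left _ _) k),
      (h6.nk _ le_rfl).trans (hMM _ (le_max_left _ _) _)⟩
  · filter_upwards [h3, ev_pos] with P h4 hP
    have h6 := (h4.2.2.2 lam β z hl1 hn hPF (TD P) (SRdomAx900.TT_coe Metric.isBounded_ball hP)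
      .plus).2 fun i : Fin 0 => i.elim0
    exact ⟨fun k hk => (h6.nc k hk).trans (hMM _ (hM.trans (le_max_left _ _)) k),
      (h6.nk _ le_rfl).trans (hMM _ (hM.trans (le_max_left _ _)) _)⟩
  · exact fun y k => (hfl.1 y k).trans (hMM _ (le_max_right _ _) k)
  · exact fun k => (hfl.2 k).trans (hMM _ (le_max_right _ _) k)

end Crest.Agent.R165.SpPLx67
end
end

-- ▼ part R165/ConstB_67
section

/-!
# Row 165 (S0250): the bounds `ConstB` of the constants (helper67)

* `constB : ConstB J R V` (input of `SRdom_900.spDL_of`), no hypotheses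
-/

set_option autoImplicit false

noncomputable section

open scoped ENNReal
open Crest.Agent.R165.Outx683 Crest.Agent.R165.PEndx683

namespace Crest.Agent.R165.SpPLx67

/-- **the bounds of the constants for one branch point and the plane** -/
theorem constB (J : ℝ) (R : ℕ) (V : Finset (ℤ × ℤ) → ℝ) : Zsx387.ConstB J R V := by
  unfold Zsx387.ConstB
  refine (flc_ev J R V).mono fun c hc C => ?_
  obtain ⟨ε, hε, M, -, h⟩ := hc.2 C
  exact ⟨ε, hε, M, fun lam β z hl hn hp => ⟨(h lam β z hl hn hp).2, (h lam β z hl hn hp).1 0⟩⟩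

end Crest.Agent.R165.SpPLx67
end
end

-- ▼ part R165/Comp6_889
section

/-!
# Row 165, block F, leaf P8: the norm bounds of the domain flows (helper889)

* `DomCfg c C1 T X mk K` : regular configuration of size `C1 rr K`
* `ctl_dom`  : the domain flow is controlled (structure `Ctl`) up to step `K`
* `DomB`     : the bounds;  `dom_P8` : **(P8) for all domains / fine discs**, with and without
  insertions, every amplitude between `A₀` and `A₀ (1 + δ k)`
-/

set_option autoImplicit false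
set_option linter.unusedSectionVars false

noncomputable section

open scoped ENNReal
open Crest.ProbabilityR.IsingModel

namespace Crest.Agent.R165.Compx889

open Crest.Agent.R165.Gr0x606 Crest.Agent.R165.Gr1x606 Crest.Agent.R165.GeOpsx337
  Crest.Agent.R165.ExpGx337 Crest.Agent.R165.KFlowx337
open Crest.Agent.R165.Latx683 Crest.Agent.R165.PNormx417
open Crest.Agent.R165.GDefx387 Crest.Agent.R165.Packx915 Crest.Agent.R165.NSumx915
open Crest.Agent.R165.Bridgex915 Crest.Agent.R165.NKDefx915 Crest.Agent.R165.DefRecx915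
open Crest.Agent.R165.GSysx387 Crest.Agent.R165.PEndx683 Crest.Agent.R165.Telx337
open Crest.Agent.R165.FRDPolyx439 Crest.Agent.R165.FRDLatx439
open Crest.Agent.R165.PlaneSumx901
open Crest.Agent.R165.Bkgx683 Crest.Agent.R165.Outx683 Crest.Agent.R165.SpinSysx892
open Crest.Agent.R165.Geo (LatReg bdS)
open Crest.Agent.R165.GeoIx838 (Sep)
open Crest.Agent.R165.StepOKx838 (MkOK Good)

/-! ### configurations -/

/-- regular configuration of size `C1 rr K` -/
structure DomCfg (c : Cst) (C1 : ℕ) (T : Finset (ℤ × ℤ)) {m : ℕ} (X : Fin m → ℤ × ℤ)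
    (mk : Finset (ℤ × ℤ)) (K : ℕ) : Prop where
  reg : ∃ ρ κ : ℝ, LatReg (T : Set (ℤ × ℤ)) ρ κ ∧ κ * ρ ≤ 1 ∧ (C1 : ℝ) * rr c.p c.k0 K ≤ ρ
  sep : Sep (T : Set (ℤ × ℤ)) X mk (32 * rr c.p c.k0 K)
  mks : MkOK mk (rr c.p c.k0 0) (10 * rr c.p c.k0 K)

/-- the weights of a domain -/
abbrev wT (T : Finset (ℤ × ℤ)) (b : BoundaryCondition) {m : ℕ} (X : Fin m → ℤ × ℤ) : BW ℤ :=
  wX (wDom (T : Set (ℤ × ℤ)) (isF b)) X

/-- the active polymers of a domain -/
abbrev acT (c : Cst) (T : Finset (ℤ × ℤ)) (q : ℕ) (k : ℕ) : Finset (ℤ × ℤ) → Prop :=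
  StepGluex897.acS c.p c.k0 k (DomAcx117.nbT (T : Set (ℤ × ℤ)) q)

/-- **the domain flow is controlled**, without sources -/
theorem ctl_dom {c : Cst} {CF : ℝ≥0∞} {C1 : ℕ} (H : Good c CF C1) (hst : Constx891.Std c)
    {T : Finset (ℤ × ℤ)} {b : BoundaryCondition} {m : ℕ} {X : Fin m → ℤ × ℤ} {K : ℕ}
    (hT : DomCfg c C1 T X ∅ K) (P : MPar) (hR : 1 ≤ P.R) (hq : 2 * P.R + 1 ≤ rr c.p c.k0 0)
    {a : ℕ → ℝ} (ha : ∀ k, c.A0 ≤ a k) (ha2 : ∀ k, a (k + 1) ≤ 2 * a k) :
    Ctl c CF a (domF c P T b X) (wT T b X) (acT c T (2 * P.R + 1))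
      (fun k => emM (wT T b X) ((∅ : Finset (ℤ × ℤ)) : Set (ℤ × ℤ)) (rr c.p c.k0 k)) K := by
  have h5 : 5 ≤ c.p * (c.k0 + 1) := by
    have h1 := hst.p_pos
    have h2 := hst.k0_pos
    nlinarith
  refine ⟨?_, fun k hk => ?_⟩
  · refine StrSx897.str_flow (Bg.dom T b X) P DD ∅ (noSrc ℤ (Ge (Fld ℤ))) (fun k => k.elim0)
      (by omega) (fun U hU x hx => ?_) ?_ K
    · by_contra hcon
      refine hU (DomAcx117.K00_near (T := T) (b := b) (X := X) (P := P)
        (src := noSrc ℤ (Ge (Fld ℤ))) (q := 2 * P.R + 1) le_rfl (by omega) (fun k => k.elim0)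
        LinearMap.id U fun hsub => hcon ?_)
      rw [← DomAcx117.coe_nbF]
      exact hsub hx
    · rw [← ENNReal.ofReal_one]
      exact ENNReal.ofReal_le_ofReal (by linarith [hst.Γ_ge])
  · obtain ⟨ρ, κ, hreg, hκ, hρ⟩ := hT.reg
    have hle : rr c.p c.k0 (k + 1) ≤ rr c.p c.k0 K := rr_mono c.p c.k0 hk
    have hle' : (rr c.p c.k0 (k + 1) : ℝ) ≤ rr c.p c.k0 K := by exact_mod_cast hle
    refine H.dom (T : Set (ℤ × ℤ)) ρ κ hreg hκ m X ∅ (isF b) _
      (FarBx900.fl_OK h5 P (Bg.dom T b X)) k (2 * P.R + 1) (a k) (a (k + 1)) _ ?_ ?_ ?_ ?_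
      (fun U hU => hU.2.1) (fun U hU => ?_) (ha k) (ha (k + 1)) (ha2 k)
    · exact (mul_le_mul_of_nonneg_left hle' (Nat.cast_nonneg _)).trans hρ
    · exact hT.sep.mono (Nat.mul_le_mul_left _ hle)
    · rw [Finset.coe_empty]
      exact MkOK.empty _ _
    · have h1 : rr c.p c.k0 0 ≤ rr c.p c.k0 k := rr_mono c.p c.k0 (Nat.zero_le k)
      have h2 : s2 = 128 := rfl
      rw [h2]
      omega
    · obtain ⟨u, hu⟩ := hU.1
      exact ⟨u, hu, hU.2.2 u hu⟩

/-- the bounds of a domain flow, amplitudes `a` -/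
structure DomB (c : Cst) (P : MPar) (T : Finset (ℤ × ℤ)) (b : BoundaryCondition) {m : ℕ}
    (X : Fin m → ℤ × ℤ) (a : ℕ → ℝ) (M t : ℝ) (K : ℕ) : Prop where
  nk : ∀ k, k ≤ K → NPc c (domF c P T b X) (wT T b X) a allP k ≤
    ENNReal.ofReal (M * t * (1 / 2) ^ k)
  nc : ∀ k, k < K → NCc c (domF c P T b X) k ≤ ENNReal.ofReal (M * t * (1 / 2) ^ k)
  bd : Bd (domF c P T b X) fd (fun k => rr c.p c.k0 (k + 1)) (nearR c.p c.k0)
    (ENNReal.ofReal c.Γ) (fun k => M * t * (1 / 2) ^ k) K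

/-- **(P8) FOR DOMAINS**: one `C1` (geometry), and for every `C` one `ε`, one `M`, for all
configurations, all numbers of steps, all amplitudes between `A₀` and `A₀ (1 + δ k)` -/
theorem dom_P8 (J : ℝ) (R : ℕ) (V : Finset (ℤ × ℤ) → ℝ)
    (hsym : ∀ (lam β z : ℝ) (l k0 : ℕ), PlSym fun U =>
      ((Bg.pl.K0 (mpar J lam R V β z) LinearMap.id (noSrc ℤ (Ge (Fld ℤ))) l k0 U : Ge (Fld ℤ)) :
        Gr (Fld ℤ))) :
    EvC fun c => ∃ C1 : ℕ, 32 ≤ C1 ∧ ∀ C : ℝ, ∃ ε > 0, ∃ M ≥ 0, ∀ lam β z : ℝ, |lam| < ε →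
      NearP J C lam β z → PF J R V C c lam β z →
      ∀ (T : Finset (ℤ × ℤ)) (b : BoundaryCondition) (m : ℕ) (X : Fin m → ℤ × ℤ) (K : ℕ),
        DomCfg c C1 T X ∅ K → ∀ a : ℕ → ℝ, (∀ k, c.A0 ≤ a k) → (∀ k, a (k + 1) ≤ 2 * a k) →
        (∀ k, k ≤ K → a k ≤ Outx683.amp c k) →
        DomB c (mpar J lam R V β z) T b X a M |lam| K := by
  have hq := Constx891.ev_rr_ge fun _ _ => 2 * max R 1 + 1
  refine (((((plane_P8 J R V hsym).and StepOKx838.stepOK_ev).and Constx891.ev_std).and hq).and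
    (C0x950.c0_ev J R V)).mono fun c hc => ?_
  obtain ⟨⟨⟨⟨hpl, CF, hCF, C1, H⟩, hst⟩, hq⟩, hc0⟩ := hc
  refine ⟨C1, H.one_le, fun C => ?_⟩
  obtain ⟨ε₁, hε₁, M₁, hM₁, h1⟩ := hpl C
  obtain ⟨ε₂, hε₂, N, hN, h2⟩ := hc0 C
  obtain ⟨M, ε₃, hM, hε₃, h3⟩ := Ctl.bound c hCF (M₁ + N)
  refine ⟨min ε₁ (min ε₂ ε₃), lt_min hε₁ (lt_min hε₂ hε₃), M, hM.le, ?_⟩
  intro lam β z hl hn hPF T b m X K hT a ha ha2 hamp
  have l1 : |lam| < ε₁ := hl.trans_le (min_le_left _ _)
  have l2 : |lam| < ε₂ := hl.trans_le ((min_le_right _ _).trans (min_le_left _ _))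
  have l3 : |lam| < ε₃ := hl.trans_le ((min_le_right _ _).trans (min_le_right _ _))
  set P := mpar J lam R V β z with hP
  have hPR : P.R = max R 1 := rfl
  have h5 : 5 ≤ c.p * (c.k0 + 1) := by
    have h1 := hst.p_pos
    have h2 := hst.k0_pos
    nlinarith
  have hno : DeepBgx898.NoIso (T : Set (ℤ × ℤ)) := by
    obtain ⟨ρ, κ, hreg, -, hρ⟩ := hT.reg
    refine DeepBgx898.noIso_latReg hreg (le_trans ?_ hρ)
    have e1 : (1 : ℝ) ≤ C1 := by exact_mod_cast (by have := H.one_le; omega : 1 ≤ C1)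
    have e2 : (1 : ℝ) ≤ rr c.p c.k0 K := by exact_mod_cast rr_pos c.p c.k0 K
    nlinarith
  have hctl := ctl_dom (b := b) H hst hT P (by rw [hPR]; exact le_max_right _ _)
    (by rw [hPR]; exact hq 0) ha ha2
  have ha0 : a 0 = c.A0 := le_antisymm (by
    have := hamp 0 (Nat.zero_le _)
    rwa [show Outx683.amp c 0 = c.A0 from amp_zero c.A0 c.δ] at this) (ha 0)
  have hdeep : ∀ k, k ≤ K → NPc c (domF c P T b X) (wT T b X) a
      (emM (wT T b X) ((∅ : Finset (ℤ × ℤ)) : Set (ℤ × ℤ)) (rr c.p c.k0 k)) k ≤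
      ENNReal.ofReal ((M₁ + N) * |lam| * (1 / 2) ^ k) := by
    intro k hk
    have hX : DeepBgx898.PlBd c P (Outx683.amp c) (ENNReal.ofReal c.Γ) K
        fun n => ENNReal.ofReal (M₁ * |lam| * (1 / 2) ^ n) := fun k _ => h1 lam β z l1 hn hPF k
    have h4 := DeepBgx898.NP_fl (c := c) (P := P) (a := a) (B := Bg.dom T b X)
      (DeepBgx898.plOK_dom hno b X) h5 hX hamp k hk
    rw [Finset.coe_empty]
    refine h4.trans (ENNReal.ofReal_le_ofReal ?_)
    gcongr
    linarith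
  have hc0 : NPc c (domF c P T b X) (wT T b X) a
      (fun U => ¬ emM (wT T b X) ((∅ : Finset (ℤ × ℤ)) : Set (ℤ × ℤ)) (rr c.p c.k0 0) U) 0 ≤
      ENNReal.ofReal ((M₁ + N) * |lam|) := by
    have h4 := h2 lam β z l2 hn ℤ (Bg.dom T b X) (C0ax950.W1_dom T b X) (wT T b X)
      (fun U => ¬ emM (wT T b X) ((∅ : Finset (ℤ × ℤ)) : Set (ℤ × ℤ)) (rr c.p c.k0 0) U)
    have e : NPc c (domF c P T b X) (wT T b X) a
      (fun U => ¬ emM (wT T b X) ((∅ : Finset (ℤ × ℤ)) : Set (ℤ × ℤ)) (rr c.p c.k0 0) U) 0 =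
      NK (wT T b X) c.A0 (rr c.p c.k0 0) (ENNReal.ofReal c.Γ)
      (fun U => ¬ emM (wT T b X) ((∅ : Finset (ℤ × ℤ)) : Set (ℤ × ℤ)) (rr c.p c.k0 0) U)
      (fun U => (((fl c P (Bg.dom T b X)).K 0 U : Ge (Fld ℤ)) : Gr (Fld ℤ))) := by
      unfold NPc NP
      rw [ha0]
    rw [e]
    refine h4.trans (ENNReal.ofReal_le_ofReal ?_)
    have := mul_nonneg hM₁ (abs_nonneg lam)
    linarith
  obtain ⟨k1, k2⟩ := h3 ℤ (domF c P T b X) (wT T b X) a _ _ K |lam| hctl (abs_nonneg _) l3.le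
    hdeep hc0
  exact ⟨k1, k2, bd_of_ac k2 fun k hk U hU =>
    ⟨(hctl.str.hac k hk U hU).1, (hctl.str.hac k hk U hU).2.1⟩⟩

end Crest.Agent.R165.Compx889
end
end

-- ▼ part R165/Comp7_889
section

/-!
# Row 165, block F, leaf P8: `C²` Jordan domains, final form (helper889)

* `ev_domCfg` : the lattice domains of a `C²` Jordan domain are configurations `DomCfg` of the scale
  `d / a`, insertions at the faces of given points
* `dom_bd`    : **the bounds (P8) for `C²` Jordan domains**, uniform constant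
* `dom_forP`  : the same in the form `ForP` (hypothesis `DomBd` of helper900)
-/

set_option autoImplicit false
set_option linter.unusedSectionVars false

noncomputable section

open Filter Topology
open scoped ENNReal
open Crest.ProbabilityR.IsingModel

namespace Crest.Agent.R165.Compx889

open Crest.Agent.R165.Gr0x606 Crest.Agent.R165.Gr1x606 Crest.Agent.R165.GeOpsx337
  Crest.Agent.R165.KFlowx337
open Crest.Agent.R165.Latx683 Crest.Agent.R165.GDefx387 Crest.Agent.R165.Packx915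
open Crest.Agent.R165.NSumx915
open Crest.Agent.R165.Bridgex915 Crest.Agent.R165.GSysx387 Crest.Agent.R165.PEndx683
open Crest.Agent.R165.Bkgx683 Crest.Agent.R165.Outx683 Crest.Agent.R165.SpinSysx892
open Crest.Agent.R165.Geo (LatReg bdS)
open Crest.Agent.R165.GeoIx838 (Sep)
open Crest.Agent.R165.StepOKx838 (MkOK)
open Crest.Agent.R165.Scalex900 (lastK lastK_le)
open Crest.Agent.R165.U5Px422 (TT mem_TT)
open Crest.Agent.R165.Red2x541 (Rel)
open Crest.Agent.R165.PlaneSumx901 (PlSym)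
open Crest.Agent.R165.DefRecx915

theorem coe_TT {D : Set ℂ} (hD : Bornology.IsBounded D) {a : ℝ} (ha : 0 < a) :
    (TT D a : Set (ℤ × ℤ)) = domainSites D a := by
  ext z
  exact mem_TT hD ha

/-- scales below `lastK` -/
theorem rr_lastK {l k0 : ℕ} {x : ℝ} (h : (2 : ℝ) ^ (l * k0) ≤ x) :
    (rr l k0 (lastK l k0 x) : ℝ) ≤ x := by
  have h1 := lastK_le h
  unfold rr
  push_cast
  exact h1

/-- **the lattice domains of a `C²` Jordan domain are configurations of the scale `d / a`** -/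
theorem ev_domCfg (c : Cst) (C1 : ℕ) {D : Set ℂ} (hD : IsC2JordanDomain D) {n : ℕ}
    {x : Fin n → ℂ} (hx : ∀ i, x i ∈ D) (hinj : Function.Injective x) :
    ∃ d1 > 0, ∀ d : ℝ, 0 < d → d ≤ d1 → ∀ᶠ a : ℝ in 𝓝[>] 0,
      DomCfg c C1 (TT D a) (fun i => meshIndex a (x i)) ∅ (lastK c.p c.k0 (d * a⁻¹)) := by
  obtain ⟨δ, hδ, H⟩ := GeoScAx485.cfg_C2 hD hx hinj (p := 0) (y := fun j => j.elim0)
    (fun j => j.elim0) (fun _ j => j.elim0) 0
  have hC1 : (0 : ℝ) < C1 + 33 := by positivity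
  refine ⟨δ / (C1 + 33), by positivity, fun d hd hd1 => ?_⟩
  have e1 : ∀ᶠ a : ℝ in 𝓝[>] 0, (2 : ℝ) ^ (c.p * c.k0) ≤ d * a⁻¹ :=
    (Tendsto.const_mul_atTop hd tendsto_inv_nhdsGT_zero).eventually_ge_atTop _
  have e2 : ∀ᶠ a : ℝ in 𝓝[>] 0, a ≤ δ / 2 :=
    mem_of_superset (Ioc_mem_nhdsGT (by positivity : (0 : ℝ) < δ / 2)) fun a ha => ha.2
  filter_upwards [H, e1, e2, self_mem_nhdsWithin] with a hH h1 h2 ha0
  have ha : (0 : ℝ) < a := ha0
  have hcfg := hH (fun i => meshIndex a (x i)) (fun i => by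
    have := GeoGx65.norm_meshPoint_meshIndex ha (x i)
    linarith) ∅ (fun u hu => absurd hu (Set.notMem_empty u))
  have hr := rr_lastK (l := c.p) (k0 := c.k0) h1
  set r : ℕ := rr c.p c.k0 (lastK c.p c.k0 (d * a⁻¹)) with hrdef
  have hr1 : (1 : ℝ) ≤ r := by exact_mod_cast rr_pos c.p c.k0 _
  have hmain : ((C1 : ℝ) + 33) * r ≤ δ / a := by
    have h3 : d * (C1 + 33) ≤ δ := by rwa [le_div_iff₀ hC1] at hd1
    calc ((C1 : ℝ) + 33) * r ≤ (C1 + 33) * (d * a⁻¹) :=
          mul_le_mul_of_nonneg_left hr hC1.le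
      _ = (d * (C1 + 33)) / a := by rw [div_eq_mul_inv]; ring
      _ ≤ δ / a := by gcongr
  have hC0 : (0 : ℝ) ≤ C1 := Nat.cast_nonneg _
  have hTT : (TT D a : Set (ℤ × ℤ)) = domainSites D a :=
    coe_TT (GeoHx65.isBounded_C2 hD) ha
  refine ⟨?_, ?_, ?_⟩
  · rw [hTT]
    obtain ⟨ρ, κ, g1, g2, g3⟩ := hcfg.reg
    exact ⟨ρ, κ, g1, g2, by nlinarith⟩
  · rw [hTT, Finset.coe_empty]
    refine hcfg.sepI ?_
    push_cast
    nlinarith
  · rw [Finset.coe_empty]
    exact MkOK.empty _ _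

variable (J : ℝ) (R : ℕ) (V : Finset (ℤ × ℤ) → ℝ)

/-- symmetry of the initial activities of the plane -/
def SymL : Prop := ∀ (lam β z : ℝ) (l k0 : ℕ), PlSym fun U =>
  ((Bg.pl.K0 (mpar J lam R V β z) LinearMap.id (noSrc ℤ (Ge (Fld ℤ))) l k0 U : Ge (Fld ℤ)) :
    Gr (Fld ℤ))

variable {J R V}

/-- **the bounds (P8) for `C²` Jordan domains**, uniform constant `M |lam|` -/
theorem dom_bd (hsym : SymL J R V) : EvC fun c => ∀ C : ℝ, ∃ ε > 0, ∃ M ≥ 0,
    ∀ lam β z : ℝ, |lam| < ε → NearP J C lam β z → PF J R V C c lam β z →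
      ∀ D : Set ℂ, IsC2JordanDomain D → ∀ (b : BoundaryCondition) (n : ℕ) (x : Fin n → ℂ),
        (∀ i, x i ∈ D) → Function.Injective x → ∃ d1 > 0, ∀ d : ℝ, 0 < d → d ≤ d1 →
          ∀ᶠ a : ℝ in 𝓝[>] 0, DomB c (mpar J lam R V β z) (TT D a) b
            (fun i => meshIndex a (x i)) (Outx683.amp c) M |lam|
            (lastK c.p c.k0 (d * a⁻¹)) := by
  refine ((dom_P8 J R V hsym).and Constx891.ev_std).mono fun c hc C => ?_
  obtain ⟨⟨C1, -, h1⟩, hst⟩ := hc
  obtain ⟨ε, hε, M, hM, h2⟩ := h1 C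
  refine ⟨ε, hε, M, hM, fun lam β z hl hn hPF D hD b n x hx hinj => ?_⟩
  obtain ⟨d1, hd1, h3⟩ := ev_domCfg c C1 hD hx hinj
  refine ⟨d1, hd1, fun d hd hdd => (h3 d hd hdd).mono fun a ha => ?_⟩
  have hA0 : 0 ≤ c.A0 := by linarith [hst.A0_ge]
  have hge : ∀ k, c.A0 ≤ Outx683.amp c k := fun k => amp_ge hA0 hst.δ_pos.le k
  have hsucc : ∀ k, Outx683.amp c (k + 1) ≤ 2 * Outx683.amp c k := fun k => by
    have h4 : Outx683.amp c (k + 1) ≤ (1 + c.δ) * Outx683.amp c k :=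
      amp_succ_le hA0 hst.δ_pos.le k
    have h5 := hge k
    have h6 := hst.δ_le
    nlinarith
  exact h2 lam β z hl hn hPF (TT D a) b n _ _ ha (Outx683.amp c) hge hsucc fun k _ => le_rfl

/-- **the bounds (P8) for `C²` Jordan domains**, form `ForP` (`DomBd` of helper900): with (`n ≥ 1`)
and without (`n = 0`) insertions -/
theorem dom_forP (hsym : SymL J R V) : ForP J (PF J R V) fun c lam β z =>
    ∀ D : Set ℂ, IsC2JordanDomain D → ∀ (b : BoundaryCondition) (n : ℕ), Rel b n →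
      ∀ x : Fin n → ℂ, (∀ i, x i ∈ D) → Function.Injective x →
        ∃ C' : ℝ, ∃ d1 > 0, ∀ d : ℝ, 0 < d → d ≤ d1 → ∀ᶠ a : ℝ in 𝓝[>] 0,
          (∀ k, k ≤ lastK c.p c.k0 (d * a⁻¹) →
            NPc c (domF c (mpar J lam R V β z) (TT D a) b fun i => meshIndex a (x i))
              (Bg.dom (TT D a) b fun i => meshIndex a (x i)).w (Outx683.amp c) allP k ≤
              ENNReal.ofReal (C' * (1 / 2) ^ k)) ∧
          (∀ k, k < lastK c.p c.k0 (d * a⁻¹) →
            NCc c (domF c (mpar J lam R V β z) (TT D a) b fun i => meshIndex a (x i)) k ≤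
              ENNReal.ofReal (C' * (1 / 2) ^ k)) := by
  refine (dom_bd hsym).mono fun c hc C => ?_
  obtain ⟨ε, hε, M, hM, h⟩ := hc C
  refine ⟨ε, hε, fun lam β z hl hn hPF D hD b n _ x hx hinj => ?_⟩
  obtain ⟨d1, hd1, h1⟩ := h lam β z hl hn hPF D hD b n x hx hinj
  exact ⟨M * |lam|, d1, hd1, fun d hd hdd => (h1 d hd hdd).mono fun a ha => ⟨ha.nk, ha.nc⟩⟩

end Crest.Agent.R165.Compx889
end
end

-- ▼ part R165/SpDAll_67
section

/-!
# Row 165 (S0250): the leaf `SpDL` from the U-leaf `SpinLeaf` (helper67)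

* `symL` : `SymL J R V` under `VHyp R V`
* `domBd` : `DomBd J R V`
* `spd` : field `spd` of `PTop3_386.Leaves3`
-/

set_option autoImplicit false

noncomputable section

open Filter Topology
open scoped ENNReal
open Crest.Agent.R165.Topx683 Crest.Agent.R165.PTopx386 Crest.Agent.R165.SRdomx900

namespace Crest.Agent.R165.SpPLx67

/-- the symmetry of the initial activities of the plane -/
theorem symL {J : ℝ} {R : ℕ} {V : Finset (ℤ × ℤ) → ℝ} (hV : VHyp R V) : Compx889.SymL J R V :=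
  fun _ _ _ l k0 =>
    J4K0Symx126.K0_plSym (fun A z => hV.trans A z) (fun A h => hV.range A h)
      (fun S => hV.rot S) (fun S => hV.refl S) l k0

/-- **the bounds of the domain flows** -/
theorem domBd {J : ℝ} {R : ℕ} {V : Finset (ℤ × ℤ) → ℝ} (hV : VHyp R V) : DomBd J R V := by
  refine PTopx386.ForP.imp (Compx889.dom_forP (symL hV)) ?_
  intro c lam β z h D hD b n hR x hx hinj
  obtain ⟨C', d1, hd1, h⟩ := h D hD b n hR x hx hinj
  exact ⟨C', d1, hd1, fun δ h0 h1 => (h δ h0 h1).mono fun a ha => ha⟩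

/-- **the leaf `SpDL`** (field `spd` of `Leaves3`) from the U-leaf `SpinLeaf` -/
theorem spd (hS : UFinx420.SpinLeaf) (J : ℝ) (hJ : 0 < J) (R : ℕ) (V : Finset (ℤ × ℤ) → ℝ)
    (hV : VHyp R V) : SpDL J R V := spDL_of hS hJ hV (domBd hV) (constB J R V)

end Crest.Agent.R165.SpPLx67
end
end

-- ▼ part R165/SpPLAll_67
section

/-!
# Row 165 (S0250): the leaf `SpPL` without hypotheses (helper67)

* `spp` : field `spp` of `PTop3_386.Leaves3`
-/

set_option autoImplicit false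

noncomputable section

open Crest.Agent.R165.Topx683 Crest.Agent.R165.PTopx386

namespace Crest.Agent.R165.SpPLx67

/-- **the leaf `SpPL`**, no hypotheses (field `spp` of `Leaves3`) -/
theorem spp (J : ℝ) (hJ : 0 < J) (R : ℕ) (V : Finset (ℤ × ℤ) → ℝ) (hV : VHyp R V) :
    SpPL J R V := spPL hJ hV (PlBx117.plB hV)

end Crest.Agent.R165.SpPLx67
end
end

-- ▼ part R165/SpDCl_67

/-!
# Row 165 (S0250): the leaf `SpDL` without hypotheses (helper67)

* `uLeaves`, `spinLeaf` : the U-leaf, closed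
* `spd'` : field `spd` of `Leaves3` / `POpen`, no hypotheses
-/

set_option autoImplicit false

noncomputable section

open Crest.Agent.R165.Topx683 Crest.Agent.R165.PTopx386

namespace Crest.Agent.R165.SpPLx67

/-- the leaves of block U, all closed -/
theorem uLeaves : UFreex641.ULeaves3 :=
  ⟨UOpenx641.comp, UOpenx641.uniqL2, LogEx813.brLeaf_of Eta6x644.brLeafK,
    LogEx813.ldLeaf_of Eta6x644.brLeafK U3x719.uniq, U3x719.uniq, UPlanex641.resPl,
    PlLdx817.plLd_of UPlanex641.resPl⟩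

/-- the spin limits of the unperturbed model -/
theorem spinLeaf : UFinx420.SpinLeaf := UFreex641.spinLeaf uLeaves

/-- **the leaf `SpDL`**, no hypotheses (field `spd` of `Leaves3`) -/
theorem spd' (J : ℝ) (hJ : 0 < J) (R : ℕ) (V : Finset (ℤ × ℤ) → ℝ) (hV : VHyp R V) :
    SpDL J R V := spd spinLeaf J hJ R V hV

end Crest.Agent.R165.SpPLx67
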