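import Crest.Prelude.Def_PerturbedIsing
import Crest.Agent.R165.Lat_683
import Crest.Agent.R165.J1b_606

-- ▼ part R165/UDomA_420
section

/-!
# Row 165 (S0250), U6-DOM part A (helper420)

Finite Gibbs averages of the unperturbed model in a finite site set `T` (free / plus / minus) as
ratios of "wall sums", first over configurations on `T`, then over configurations on any finite box
`B ⊇ T` (spins outside `B` frozen to `+`), with edge weights
* plus : `x_c` for edges meeting `T`, `0` for all other edges (needs: `Tᶜ` connected)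
* free : `x_c` for edges inside `T`, `1` for all other edges.
-/

set_option autoImplicit false

noncomputable section

open Crest.ProbabilityR.IsingModel Finset

namespace Crest.Agent.R165.UDomAx420

/-- lattice sites -/
abbrev Site : Type := ℤ × ℤ

/-- primal edges: `(z, j)` is the bond `{z, z + e_j}` -/
abbrev PEdge : Type := (ℤ × ℤ) × Fin 2

/-- second endpoint -/
def tip (e : PEdge) : Site := e.1 + unitVec e.2

/-- bond variable -/
def eps (s : Site → Bool) (e : PEdge) : ℝ := spinSign (s e.1) * spinSign (s (tip e))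

theorem spinSign_sq (b : Bool) : spinSign b * spinSign b = 1 := by
  cases b <;> simp [spinSign]

theorem eps_eq (s : Site → Bool) (e : PEdge) :
    eps s e = if s e.1 = s (tip e) then 1 else -1 := by
  unfold eps
  cases s e.1 <;> cases s (tip e) <;> simp [spinSign]

/-- the bonds with both endpoints in `T` -/
def EFree (T : Finset Site) : Finset PEdge :=
  (T ×ˢ (univ : Finset (Fin 2))).filter fun e => tip e ∈ T

/-- the bonds with at least one endpoint in `T` -/
def EPlus (T : Finset Site) : Finset PEdge :=
  (T ×ˢ (univ : Finset (Fin 2))) ∪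
    (T ×ˢ (univ : Finset (Fin 2))).image fun e => (e.1 - unitVec e.2, e.2)

theorem mem_EFree {T : Finset Site} {e : PEdge} : e ∈ EFree T ↔ e.1 ∈ T ∧ tip e ∈ T := by
  simp [EFree]

theorem mem_EPlus {T : Finset Site} {e : PEdge} : e ∈ EPlus T ↔ e.1 ∈ T ∨ tip e ∈ T := by
  simp only [EPlus, mem_union, mem_product, mem_univ, and_true, mem_image, tip]
  constructor
  · rintro (h | ⟨f, hf, rfl⟩)
    · exact Or.inl h
    · right; simpa using hf
  · rintro (h | h)
    · exact Or.inl h
    · right; exact ⟨(e.1 + unitVec e.2, e.2), h, by simp⟩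

/-- the bonds of the model in `T` with boundary condition `b` -/
def EB (T : Finset Site) (b : BoundaryCondition) : Finset PEdge :=
  if b = BoundaryCondition.free then EFree T else EPlus T

/-- the unperturbed energy -/
theorem energy_zero (T : Finset Site) (b : BoundaryCondition) (J : ℝ) (R : ℕ)
    (V : Finset (ℤ × ℤ) → ℝ) (s : Site → Bool) :
    domainEnergy T b J 0 R V s = -J * ∑ e ∈ EB T b, eps s e := by
  unfold domainEnergy
  rw [zero_mul, sub_zero]
  congr 1
  rw [← Finset.sum_product', ← Finset.sum_product']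
  unfold EB
  by_cases hb : b = BoundaryCondition.free
  · simp only [hb, true_and, ne_eq, not_true_eq_false, false_and, if_false, Finset.sum_const_zero,
      add_zero, if_true]
    unfold EFree
    rw [Finset.sum_filter]
    refine Finset.sum_congr rfl fun e _ => ?_
    unfold eps tip
    by_cases h : e.1 + unitVec e.2 ∈ T <;> simp [h]
  · simp only [hb, false_and, if_false, ne_eq, not_false_eq_true, true_and]
    have hsplit : EPlus T = (T ×ˢ (univ : Finset (Fin 2))) ∪
        ((T ×ˢ (univ : Finset (Fin 2))).filter fun e => e.1 - unitVec e.2 ∉ T).image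
          fun e => (e.1 - unitVec e.2, e.2) := by
      ext e
      simp only [mem_EPlus, mem_union, mem_product, mem_univ, and_true, mem_image, mem_filter, tip]
      constructor
      · rintro (h | h)
        · exact Or.inl h
        · by_cases h' : e.1 ∈ T
          · exact Or.inl h'
          · right; exact ⟨(e.1 + unitVec e.2, e.2), ⟨h, by simpa using h'⟩, by simp⟩
      · rintro (h | ⟨f, ⟨hf, _⟩, rfl⟩)
        · exact Or.inl h
        · right; simpa using hf
    rw [hsplit, Finset.sum_union]
    · congr 1
      rw [Finset.sum_image, Finset.sum_filter]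
      · refine Finset.sum_congr rfl fun e _ => ?_
        unfold eps tip
        simp
      · intro e _ f _ h
        simp only [Prod.mk.injEq] at h
        have h2 := h.2
        have h1 := h.1
        rw [h2] at h1
        exact Prod.ext (sub_left_injective h1) h2
    · rw [Finset.disjoint_left]
      rintro e he hf
      simp only [mem_product, mem_univ, and_true] at he
      simp only [mem_image, mem_filter, mem_product, mem_univ, and_true] at hf
      obtain ⟨f, ⟨_, hf2⟩, rfl⟩ := hf
      exact hf2 he

/-- the critical weight `√2 - 1` -/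
def xc : ℝ := Real.sqrt 2 - 1

theorem xc_pos : 0 < xc := by
  have : (1 : ℝ) < Real.sqrt 2 := by
    rw [Real.lt_sqrt (by norm_num)]; norm_num
  unfold xc; linarith

theorem xc_mul : xc * (Real.sqrt 2 + 1) = 1 := by
  have : Real.sqrt 2 * Real.sqrt 2 = 2 := Real.mul_self_sqrt (by norm_num)
  unfold xc; linear_combination this

theorem exp_neg_two_criticalBeta : Real.exp (-(2 * criticalBeta 1)) = xc := by
  unfold criticalBeta
  have h : -(2 * (Real.log (1 + Real.sqrt 2) / (2 * 1))) = -Real.log (1 + Real.sqrt 2) := by ring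
  have hpos : (0 : ℝ) < 1 + Real.sqrt 2 := by positivity
  rw [h, Real.exp_neg, Real.exp_log hpos]
  have := xc_mul
  rw [add_comm] at this
  exact (eq_inv_of_mul_eq_one_left this).symm

/-- weight of a bond: `w` on walls, `1` otherwise -/
def wt (w : PEdge → ℝ) (s : Site → Bool) (e : PEdge) : ℝ :=
  if s e.1 = s (tip e) then 1 else w e

/-- wall weight of a configuration -/
def wallW (E : Finset PEdge) (w : PEdge → ℝ) (s : Site → Bool) : ℝ := ∏ e ∈ E, wt w s e

theorem exp_eps (β : ℝ) (s : Site → Bool) (e : PEdge) :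
    Real.exp (β * eps s e) = Real.exp β * wt (fun _ => Real.exp (-(2 * β))) s e := by
  rw [eps_eq]; unfold wt
  split_ifs
  · simp
  · rw [← Real.exp_add]; congr 1; ring

theorem exp_energy_zero (T : Finset Site) (b : BoundaryCondition) (J β : ℝ) (R : ℕ)
    (V : Finset (ℤ × ℤ) → ℝ) (s : Site → Bool) :
    Real.exp (-β * domainEnergy T b J 0 R V s) =
      Real.exp (β * J) ^ (EB T b).card *
        wallW (EB T b) (fun _ => Real.exp (-(2 * (β * J)))) s := by
  rw [energy_zero]
  have : -β * (-J * ∑ e ∈ EB T b, eps s e) = ∑ e ∈ EB T b, (β * J) * eps s e := by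
    rw [← Finset.mul_sum]; ring
  rw [this, Real.exp_sum]
  simp only [exp_eps]
  rw [Finset.prod_mul_distrib, Finset.prod_const, wallW]

/-- wall average on the configurations of `T`, extended by the exterior spin -/
def wallAvg (T : Finset Site) (b : BoundaryCondition) (x : ℝ) (f : (Site → Bool) → ℝ) : ℝ :=
  (∑ σ : T → Bool, f (extendConfig T b σ) * wallW (EB T b) (fun _ => x) (extendConfig T b σ)) /
    ∑ σ : T → Bool, wallW (EB T b) (fun _ => x) (extendConfig T b σ)

/-- the Gibbs average of the unperturbed model is a wall average -/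
theorem domainExpect_eq (D : Set ℂ) (a : ℝ) (h : (domainSites D a).Finite)
    (b : BoundaryCondition) (J β : ℝ) (R : ℕ) (V : Finset (ℤ × ℤ) → ℝ)
    (f : (ℤ × ℤ → Bool) → ℝ) :
    domainExpect D a b J 0 R V β f = wallAvg h.toFinset b (Real.exp (-(2 * (β * J)))) f := by
  unfold domainExpect wallAvg
  rw [dif_pos h]
  simp only [exp_energy_zero]
  have hc : Real.exp (β * J) ^ (EB h.toFinset b).card ≠ 0 := pow_ne_zero _ (Real.exp_pos _).ne'
  have e1 : ∀ σ : h.toFinset → Bool,
      f (extendConfig h.toFinset b σ) * (Real.exp (β * J) ^ (EB h.toFinset b).card *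
        wallW (EB h.toFinset b) (fun _ => Real.exp (-(2 * (β * J)))) (extendConfig h.toFinset b σ)) =
      Real.exp (β * J) ^ (EB h.toFinset b).card * (f (extendConfig h.toFinset b σ) *
        wallW (EB h.toFinset b) (fun _ => Real.exp (-(2 * (β * J)))) (extendConfig h.toFinset b σ)) := by
    intro σ; ring
  simp only [e1]
  rw [← Finset.mul_sum, ← Finset.mul_sum, mul_div_mul_left _ _ hc]

theorem domainExpect_crit (D : Set ℂ) (a : ℝ) (h : (domainSites D a).Finite)
    (b : BoundaryCondition) (R : ℕ) (V : Finset (ℤ × ℤ) → ℝ) (f : (ℤ × ℤ → Bool) → ℝ) :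
    domainExpect D a b 1 0 R V (criticalBeta 1) f = wallAvg h.toFinset b xc f := by
  rw [domainExpect_eq D a h, mul_one, exp_neg_two_criticalBeta]

end Crest.Agent.R165.UDomAx420
end
end

-- ▼ part R165/UDomC_420

/-!
# Row 165 (S0250), U6-DOM part C (helper420): Gibbs averages as sums over sets of minus spins

* `conf N` : the configuration whose minus spins are the sites of the finite set `N`
* `sum_conf` : `Σ_{σ : T → Bool} G (ext σ) = Σ_{N ⊆ T} G (conf N)` (exterior `+`)
* `wallW_plus`, `wallW_free` : the wall weight as `Π_{e ∈ walls N} wDom T e`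
* `domainExpect_N` : the critical Gibbs average (free, plus) as a ratio of `N`-sums
* `domainExpect_minus` : minus = plus after a global flip
* `prod_ray` : `Π_i σ_{X i} = Π_{e ∈ walls N} ray X e` (horizontal rays to `+∞`)
* `wallProd_eps` : multiplication by a bond variable flips the sign of its weight
-/

set_option autoImplicit false

noncomputable section

open Crest.ProbabilityR.IsingModel Finset

namespace Crest.Agent.R165.UDomCx420

open Crest.Agent.R165.UDomAx420 Crest.Agent.R165.J1ax606 Crest.Agent.R165.J1bx606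
open Crest.Agent.R165.Latx683 (BW wDom ray wX)

/-- the configuration with minus set `N` -/
def conf (N : Finset (ℤ × ℤ)) (z : ℤ × ℤ) : Bool := decide (z ∉ N)

theorem conf_true {N : Finset (ℤ × ℤ)} {z : ℤ × ℤ} : conf N z = true ↔ z ∉ N := by simp [conf]

theorem conf_eq_iff {N : Finset (ℤ × ℤ)} {z z' : ℤ × ℤ} :
    conf N z = conf N z' ↔ (z ∈ N ↔ z' ∈ N) := by
  unfold conf
  by_cases h : z ∈ N <;> by_cases h' : z' ∈ N <;> simp [h, h']

theorem uv_eq (j : Fin 2) : (uv j : ℤ × ℤ) = unitVec j := rfl

theorem mem_walls_conf {N : Finset (ℤ × ℤ)} {e : EG ℤ} :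
    e ∈ walls N ↔ conf N e.1 ≠ conf N (tip e) := by
  rw [mem_walls, Ne, conf_eq_iff]
  exact Iff.rfl

/-- configurations on `T` with exterior `+` are the sets of minus spins -/
theorem sum_conf (T : Finset (ℤ × ℤ)) (b : BoundaryCondition)
    (hb : b ≠ BoundaryCondition.minus) (G : (ℤ × ℤ → Bool) → ℝ) :
    ∑ σ : T → Bool, G (extendConfig T b σ) = ∑ N ∈ T.powerset, G (conf N) := by
  have hext : b.exterior = true := by cases b <;> simp_all [BoundaryCondition.exterior]
  refine Finset.sum_bij' (fun σ _ => (T.attach.filter fun z => σ z = false).map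
      ⟨Subtype.val, Subtype.val_injective⟩) (fun N _ => fun z => conf N z) ?_ ?_ ?_ ?_ ?_
  · intro σ _
    rw [Finset.mem_powerset]
    intro z hz
    simp only [Finset.mem_map, Finset.mem_filter, Finset.mem_attach, true_and,
      Function.Embedding.coeFn_mk] at hz
    obtain ⟨w, _, rfl⟩ := hz
    exact w.2
  · intro N _; exact Finset.mem_univ _
  · intro σ _
    funext z
    simp only [conf, Finset.mem_map, Finset.mem_filter, Finset.mem_attach, true_and,
      Function.Embedding.coeFn_mk, Subtype.exists, exists_and_right, exists_eq_right, not_exists]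
    cases h : σ z
    · simp only [decide_eq_false_iff_not, not_forall]
      exact ⟨z.2, by simpa using h⟩
    · simp only [decide_eq_true_eq]
      intro hz
      simpa using h
  · intro N hN
    rw [Finset.mem_powerset] at hN
    ext z
    simp only [conf, Finset.mem_map, Finset.mem_filter, Finset.mem_attach, true_and,
      Function.Embedding.coeFn_mk, Subtype.exists, exists_and_right, exists_eq_right,
      decide_eq_false_iff_not, not_not]
    exact ⟨fun ⟨_, h⟩ => h, fun h => ⟨hN h, h⟩⟩
  · intro σ _
    congr 1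
    funext z
    unfold extendConfig
    split_ifs with h
    · simp only [conf, Finset.mem_map, Finset.mem_filter, Finset.mem_attach, true_and,
        Function.Embedding.coeFn_mk, Subtype.exists, exists_and_right, exists_eq_right, not_exists]
      cases h' : σ ⟨z, h⟩
      · symm
        simp only [decide_eq_false_iff_not, not_forall]
        exact ⟨h, by simpa using h'⟩
      · symm
        simp only [decide_eq_true_eq]
        intro hz
        simpa using h'
    · rw [hext]
      symm
      rw [conf_true]
      simp only [Finset.mem_map, Finset.mem_filter, Finset.mem_attach, true_and,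
        Function.Embedding.coeFn_mk, Subtype.exists, exists_and_right, exists_eq_right, not_exists]
      intro hz
      exact absurd hz h

theorem wallW_eq_prod (E : Finset PEdge) (w : PEdge → ℝ) (N : Finset (ℤ × ℤ)) :
    wallW E w (conf N) = ∏ e ∈ E ∩ walls N, w e := by
  unfold wallW wt
  rw [← Finset.prod_filter_mul_prod_filter_not E (fun e => conf N e.1 = conf N (tip e))]
  rw [Finset.prod_congr rfl (g := fun _ => (1 : ℝ))
    (fun e he => if_pos (Finset.mem_filter.1 he).2), Finset.prod_const_one, one_mul]
  refine Finset.prod_congr ?_ fun e he => ?_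
  · ext e
    rw [Finset.mem_filter, Finset.mem_inter, mem_walls_conf]
  · rw [if_neg]
    rw [Finset.mem_inter, mem_walls_conf] at he
    exact he.2

theorem wDom_plus {T : Finset (ℤ × ℤ)} {e : EG ℤ} (h : e.1 ∈ T ∨ e.1 + unitVec e.2 ∈ T) :
    wDom (T : Set (ℤ × ℤ)) false e.1 e.2 = UDomAx420.xc := by
  unfold wDom
  simp only [Bool.false_eq_true, if_false, Finset.mem_coe]
  rw [if_pos h]
  rfl

theorem wDom_free (T : Finset (ℤ × ℤ)) (e : EG ℤ) :
    wDom (T : Set (ℤ × ℤ)) true e.1 e.2 = if e ∈ EFree T then UDomAx420.xc else 1 := by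
  unfold wDom
  simp only [if_true, Finset.mem_coe, mem_EFree, tip]
  rfl

theorem wallW_dom (T : Finset (ℤ × ℤ)) (b : BoundaryCondition) {N : Finset (ℤ × ℤ)} (hN : N ⊆ T) :
    wallW (EB T b) (fun _ => UDomAx420.xc) (conf N) =
      ∏ e ∈ walls N, wDom (T : Set (ℤ × ℤ)) (decide (b = BoundaryCondition.free)) e.1 e.2 := by
  rw [wallW_eq_prod]
  unfold EB
  by_cases hf : b = BoundaryCondition.free
  · rw [if_pos hf, decide_eq_true hf]
    rw [← Finset.prod_filter_mul_prod_filter_not (walls N) (fun e => e ∈ EFree T)]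
    have h2 : ∏ e ∈ (walls N).filter (fun e => ¬ e ∈ EFree T),
        wDom (T : Set (ℤ × ℤ)) true e.1 e.2 = 1 := by
      refine Finset.prod_eq_one fun e he => ?_
      rw [wDom_free, if_neg (Finset.mem_filter.1 he).2]
    rw [h2, mul_one]
    have h3 : EFree T ∩ walls N = (walls N).filter (fun e => e ∈ EFree T) := by
      ext e; rw [Finset.mem_inter, Finset.mem_filter, and_comm]
    rw [h3]
    refine Finset.prod_congr rfl fun e he => ?_
    rw [wDom_free, if_pos (Finset.mem_filter.1 he).2]
  · rw [if_neg hf, decide_eq_false hf]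
    have h3 : EPlus T ∩ walls N = walls N := by
      rw [Finset.inter_eq_right]
      intro e he
      rw [mem_walls] at he
      rw [mem_EPlus]
      by_contra hc
      rw [not_or] at hc
      apply he
      exact ⟨fun h' => absurd (hN h') hc.1, fun h' => absurd (hN h') hc.2⟩
    rw [h3]
    refine Finset.prod_congr rfl fun e he => ?_
    rw [wDom_plus]
    rw [mem_walls] at he
    by_contra hc
    rw [not_or] at hc
    exact he ⟨fun h' => absurd (hN h') hc.1, fun h' => absurd (hN h') hc.2⟩

/-- `N`-sum of an observable in the background `w` -/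
def Nsum (T : Finset (ℤ × ℤ)) (w : BW ℤ) (f : (ℤ × ℤ → Bool) → ℝ) : ℝ :=
  ∑ N ∈ T.powerset, f (conf N) * ∏ e ∈ walls N, w e.1 e.2

/-- **critical Gibbs average (free, plus) as a ratio of sums over minus sets** -/
theorem domainExpect_N (D : Set ℂ) (a : ℝ) (h : (domainSites D a).Finite)
    (b : BoundaryCondition) (hb : b ≠ BoundaryCondition.minus) (R : ℕ)
    (V : Finset (ℤ × ℤ) → ℝ) (f : (ℤ × ℤ → Bool) → ℝ) :
    domainExpect D a b 1 0 R V (criticalBeta 1) f =
      Nsum h.toFinset (wDom (domainSites D a) (decide (b = BoundaryCondition.free))) f /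
      Nsum h.toFinset (wDom (domainSites D a) (decide (b = BoundaryCondition.free)))
        (fun _ => 1) := by
  rw [domainExpect_crit D a h, wallAvg]
  have hc : ((h.toFinset : Finset (ℤ × ℤ)) : Set (ℤ × ℤ)) = domainSites D a := h.coe_toFinset
  have key : ∀ g : (ℤ × ℤ → Bool) → ℝ, ∑ σ : h.toFinset → Bool, g (extendConfig h.toFinset b σ) *
      wallW (EB h.toFinset b) (fun _ => UDomAx420.xc) (extendConfig h.toFinset b σ) =
      Nsum h.toFinset (wDom (domainSites D a) (decide (b = BoundaryCondition.free))) g := by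
    intro g
    rw [sum_conf h.toFinset b hb (fun s => g s *
      wallW (EB h.toFinset b) (fun _ => UDomAx420.xc) s)]
    unfold Nsum
    refine Finset.sum_congr rfl fun N hN => ?_
    rw [wallW_dom h.toFinset b (Finset.mem_powerset.1 hN), hc]
  rw [key f, ← key (fun _ => 1)]
  simp only [one_mul]

/-! ### minus boundary condition -/




/-! ### spin insertions -/

theorem spinSign_mul (b c : Bool) : spinSign b * spinSign c = if b = c then 1 else -1 := by
  cases b <;> cases c <;> simp [spinSign]

theorem walk (c : ℕ → Bool) (K : ℕ) :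
    ∏ k ∈ Finset.range K, (if c k = c (k + 1) then (1 : ℝ) else -1) =
      spinSign (c 0) * spinSign (c K) := by
  induction K with
  | zero => rw [Finset.prod_range_zero, UDomAx420.spinSign_sq]
  | succ K ih =>
    rw [Finset.prod_range_succ, ih, ← spinSign_mul]
    have := UDomAx420.spinSign_sq (c K)
    linear_combination (spinSign (c 0) * spinSign (c (K + 1))) * this

/-- one ray -/
theorem prod_ray_one (N : Finset (ℤ × ℤ)) (x : ℤ × ℤ) :
    ∏ e ∈ walls N, (if e.2 = 0 ∧ x.2 = e.1.2 ∧ x.1 ≤ e.1.1 then (-1 : ℝ) else 1) =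
      spinSign (conf N x) := by
  obtain ⟨K, hK⟩ : ∃ K : ℕ, ∀ z ∈ N, z.1 < x.1 + K := by
    refine ⟨(∑ z ∈ N, |z.1| - x.1 + 1).toNat, fun z hz => ?_⟩
    have h1 : |z.1| ≤ ∑ z ∈ N, |z.1| :=
      Finset.single_le_sum (f := fun z : ℤ × ℤ => |z.1|) (fun z _ => abs_nonneg _) hz
    have h2 := le_abs_self z.1
    have h3 := Int.self_le_toNat (∑ z ∈ N, |z.1| - x.1 + 1)
    omega
  set c : ℕ → Bool := fun k => conf N (x.1 + k, x.2) with hc
  have h0 : c 0 = conf N x := by simp [hc]
  have hK' : c K = true := by
    simp only [hc, conf_true]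
    intro h
    exact absurd (hK _ h) (lt_irrefl _)
  have hw := walk c K
  rw [h0, hK'] at hw
  have e1 : spinSign true = 1 := by simp [spinSign]
  rw [e1, mul_one] at hw
  rw [← hw, Finset.prod_ite, Finset.prod_ite, Finset.prod_const_one, Finset.prod_const_one, mul_one,
    one_mul]
  symm
  refine Finset.prod_bij (fun k _ => (((x.1 + (k : ℤ), x.2) : ℤ × ℤ), (0 : Fin 2))) ?_ ?_ ?_ ?_
  · intro k hk
    rw [Finset.mem_filter] at hk
    rw [Finset.mem_filter, mem_walls_conf]
    refine ⟨?_, rfl, rfl, by simp⟩
    have := hk.2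
    simp only [hc] at this
    have e2 : tip (((x.1 + (k : ℤ), x.2) : ℤ × ℤ), (0 : Fin 2)) = (x.1 + ((k + 1 : ℕ) : ℤ), x.2) := by
      simp [tip, unitVec, add_assoc]
    rw [e2]
    exact this
  · intro k _ k' _ h
    simpa using h
  · intro e he
    rw [Finset.mem_filter, mem_walls_conf] at he
    obtain ⟨hw', hj, h2, h1⟩ := he
    obtain ⟨⟨z1, z2⟩, j⟩ := e
    simp only at hj h2 h1
    subst hj
    subst h2
    obtain ⟨k, rfl⟩ : ∃ k : ℕ, z1 = x.1 + k := ⟨(z1 - x.1).toNat, by omega⟩
    have e2 : tip (((x.1 + (k : ℤ), x.2) : ℤ × ℤ), (0 : Fin 2)) = (x.1 + ((k + 1 : ℕ) : ℤ), x.2) := by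
      simp [tip, unitVec, add_assoc]
    refine ⟨k, ?_, rfl⟩
    rw [Finset.mem_filter, Finset.mem_range]
    rw [e2] at hw'
    refine ⟨?_, hw'⟩
    by_contra hkK
    apply hw'
    have a1 : conf N (x.1 + (k : ℤ), x.2) = true := by
      rw [conf_true]; intro h; have := hK _ h; simp only at this; omega
    have a2 : conf N (x.1 + ((k + 1 : ℕ) : ℤ), x.2) = true := by
      rw [conf_true]; intro h; have := hK _ h; simp only at this; push_cast at this; omega
    simp only at a1 ⊢
    rw [a1, a2]
  · intro k _; rfl

/-- **spin insertions are ray signs** -/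
theorem prod_ray {n : ℕ} (N : Finset (ℤ × ℤ)) (X : Fin n → ℤ × ℤ) :
    ∏ e ∈ walls N, ray X e.1 e.2 = ∏ i, spinSign (conf N (X i)) := by
  unfold ray
  rw [Finset.prod_comm]
  exact Finset.prod_congr rfl fun i _ => prod_ray_one N (X i)

theorem Nsum_ray (T : Finset (ℤ × ℤ)) (w : BW ℤ) {n : ℕ} (X : Fin n → ℤ × ℤ)
    (f : (ℤ × ℤ → Bool) → ℝ) :
    Nsum T w (fun s => (∏ i, spinSign (s (X i))) * f s) = Nsum T (wX w X) f := by
  unfold Nsum
  refine Finset.sum_congr rfl fun N _ => ?_
  have : ∏ e ∈ walls N, wX w X e.1 e.2 =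
      (∏ i, spinSign (conf N (X i))) * ∏ e ∈ walls N, w e.1 e.2 := by
    rw [← prod_ray, ← Finset.prod_mul_distrib]
    rfl
  rw [this]
  ring

/-! ### bond insertions -/




end Crest.Agent.R165.UDomCx420
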