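import Crest.Agent.R165.DisL_892
import Crest.Agent.R165.PTop4_683
import Crest.Agent.R165.C0G_583
import Crest.Agent.R165.SpDCl_67
import Crest.Agent.R165.P7N_337
import Crest.Agent.R165.TorRep_599
import Crest.Agent.R165.Bkg_683
import Crest.Agent.R165.TorWrap_723
import Crest.Agent.R165.FRDRest_439
import Crest.Agent.R165.FinB_900
import Crest.Agent.R165.KFlow_337
import Crest.Agent.R165.Bridge_915
import Crest.Agent.R165.GDef_387
import Crest.Agent.R165.PPb_63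
import Crest.Agent.R165.TorGapB_63
import Crest.Agent.R165.CovT_359
import Crest.Agent.R165.GSysOK_439
import Crest.Agent.R165.TorChart_723
import Crest.Agent.R165.TorK_723
import Crest.Agent.R165.Comp2_889
import Crest.Agent.R165.Tel_337
import Crest.Agent.R165.PinLim_723
import Crest.Agent.R165.TorIso_723
import Crest.Agent.R165.MarkEq_723
import Crest.Agent.R165.TorNorm2_583
import Crest.Agent.R165.K0SrcT_722
import Crest.Agent.R165.C0_950
import Crest.Agent.R165.K0Big_806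
import Crest.Agent.R165.K0Src_722
import Crest.Agent.R165.Crude_386
import Crest.Agent.R165.JVol_950
import Crest.Agent.R165.SrcReal_583
import Crest.Agent.R165.PlB_117
import Crest.Agent.R165.SR_541
import Crest.Agent.R165.UZs_420
import Crest.Agent.R165.Step_470

-- ▼ part R165/DisL3_892
section

/-!
# Row 165 (S0250): the leaf `DisL3` from the smallness of the initial activities (helper892)
-/

set_option autoImplicit false

noncomputable section

open Crest.Agent.R165.Topx683 (VHyp)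

namespace Crest.Agent.R165.DisLx892

/-- **the leaf `DisL3`** -/
theorem disL3 {J : ℝ} (hJ : 0 < J) {R : ℕ} {V : Finset (ℤ × ℤ) → ℝ} (hV : VHyp R V)
    (hc0 : DisGx892.C0R J R V) : PTop4x683.DisL3 J R V := disL_box hJ.ne' hV hc0

end Crest.Agent.R165.DisLx892
end
end

-- ▼ part R165/C0R_583
section

/-!
# Row 165 (S0250): the leaf `DisL3` (helper583, from 892's `DisL3_892` and `C0G_583`)
-/

set_option autoImplicit false

noncomputable section

open Crest.Agent.R165.Topx683 (VHyp)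

namespace Crest.Agent.R165.C0Rx583

/-- **the initial activities with a real source are small**: 892's form -/
theorem c0R (J : ℝ) (R : ℕ) (V : Finset (ℤ × ℤ) → ℝ) : DisGx892.C0R J R V := by
  refine (C0Gx583.c0G J R V).mono fun c hc C η hη => ?_
  obtain ⟨ε, hε, H⟩ := hc C η hη
  refine ⟨ε, hε, fun lam β z hl hn Y hY S => ?_⟩
  obtain ⟨t0, ht0, H⟩ := H Y.card S.card
  exact ⟨t0, ht0, fun t ht B hB src hs =>
    H lam β z t hl hn ht ℤ B hB Y S src hs hY le_rfl le_rfl B.w (fun _ => True)⟩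

/-- **the leaf `DisL3`** -/
theorem disL3 {J : ℝ} (hJ : 0 < J) {R : ℕ} {V : Finset (ℤ × ℤ) → ℝ} (hV : VHyp R V) :
    PTop4x683.DisL3 J R V := DisLx892.disL3 hJ hV (c0R J R V)

end Crest.Agent.R165.C0Rx583
end
end

-- ▼ part R165/POpen5_641
section

/-!
# Row 165 (S0250): the two open leaves of the universality half (helper641)

`Open2` : `en` (energies) and `tor` (torus);  `pFlow2 : Open2 → PFlow`.
-/

set_option autoImplicit false

noncomputable section

open Crest.ProbabilityR.IsingModel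

namespace Crest.Agent.R165.POpenx641

open Crest.Agent.R165.Topx683 Crest.Agent.R165.PEndx683 Crest.Agent.R165.PTopx386

/-- the leaves of the universality half which are still open -/
structure Open2 : Prop where
  /-- energies (441, 541, 54, 697, 811, 484) -/
  en : ∀ J : ℝ, 0 < J → ∀ (R : ℕ) (V : Finset (ℤ × ℤ) → ℝ), VHyp R V →
    ∃ (Ze : Cst → ℝ → ℝ → ℝ → ℝ) (eb : Cst → ℝ → ℝ → ℝ → Fin 2 → ℝ), EnR J R V Ze eb
  /-- torus (599, 583, 723) -/
  tor : ∀ J : ℝ, 0 < J → ∀ (R : ℕ) (V : Finset (ℤ × ℤ) → ℝ), VHyp R V → PTop4x683.TorL3 J R V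

/-- **the universality half** from the two open leaves -/
theorem pFlow2 (H : Open2) : SRx541.PFlow :=
  PTop4x683.pflow_of_leaves4 ⟨P7x337.p7, fun J _ R V _ => FlNx387.zetaL J R V, SpPLx67.spd',
    SpPLx67.spp, H.en, H.tor, fun _ hJ _ _ hV => C0Rx583.disL3 hJ hV⟩

end Crest.Agent.R165.POpenx641
end
end

-- ▼ part R165/TorFin_599
section

/-!
# Row 165 (S0250), torus, leaf T9: assembly (helper599)

* `torBonds_of_sectors` : sector sums with and without the real source `1 + τ eps_S`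
* `torBonds_of_flow`    : TEXT P13 (723): the flow data `E s u L`, last steps `z`, `p`, give
  `torBonds → (exp e - 1) / τ`
-/

set_option autoImplicit false
set_option linter.unusedSectionVars false

noncomputable section

open Finset Filter Topology
open Crest.ProbabilityR.IsingModel

namespace Crest.Agent.R165.TorFinx599

open Crest.Agent.R165.Gr0x606 Crest.Agent.R165.Gr1x606 Crest.Agent.R165.J1ax606
open Crest.Agent.R165.GeOpsx337 Crest.Agent.R165.J4Defx653 Crest.Agent.R165.J4RRx653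
open Crest.Agent.R165.J4Pathx653 Crest.Agent.R165.J4Lnkx653
open Crest.Agent.R165.KStepx892 (ZZ)
open Crest.Agent.R165.TorusCombx922 Crest.Agent.R165.TorusJ1x922 Crest.Agent.R165.TorusJ2x922
open Crest.Agent.R165.TorChartx723 (wTor)
open Crest.Agent.R165.PPdx63 (ZS)
open Crest.Agent.R165.Latx683 (BW xc)
open Crest.Agent.R165.TorRepx599

theorem ZS_add {M : ℕ} [NeZero M] (s : Fin 2 × Fin 2) (F F' : RR (Ed M)) :
    ZS s (F + F') = ZS s F + ZS s F' := by
  unfold ZS THG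
  rw [map_add, ZE_add]

theorem ZS_smul {M : ℕ} [NeZero M] (s : Fin 2 × Fin 2) (c : ℝ) (F : RR (Ed M)) :
    ZS s (c • F) = c * ZS s F := by
  unfold ZS THG
  rw [map_smul, ZE_smul]

/-- bonds from sector sums with a real source -/
theorem torBonds_of_sectors {J : ℝ} (hJ : 0 < J) {R : ℕ} {V : Finset (ℤ × ℤ) → ℝ}
    (hV : Topx683.VHyp R V) (lam β : ℝ)
    (S : Finset ((ℤ × ℤ) × Fin 2)) {τ : ℝ} (hτ : τ ≠ 0)
    {a b : Fin 2 × Fin 2 → ℕ → ℝ} {e : ℝ}
    (hrep : ∀ᶠ L : ℕ in atTop, ∃ c : ℝ, c ≠ 0 ∧ ∀ s,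
      a s L = c * ZS s (GTor (L + 1) (max R 1) (tpot J lam β V) * (1 + τ • epTor (L + 1) S)) ∧
      b s L = c * ZS s (GTor (L + 1) (max R 1) (tpot J lam β V)))
    (hpos : ∀ s, s ≠ (0, 0) → ∀ᶠ L in atTop, 0 < b s L)
    (hlim : ∀ s, s ≠ (0, 0) → Tendsto (fun L => a s L / b s L) atTop (𝓝 (Real.exp e)))
    (ha : Tendsto (fun L => a (0, 0) L / b (1, 1) L) atTop (𝓝 0))
    (hb : Tendsto (fun L => b (0, 0) L / b (1, 1) L) atTop (𝓝 0)) :
    Tendsto (fun L : ℕ => Symx541.torBonds L J lam R V β S) atTop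
      (𝓝 ((Real.exp e - 1) / τ)) := by
  have h1 := PPdx63.sector_tendsto hpos hlim ha hb
  have h2 : ∀ᶠ L in atTop, (∑ s, b s L) ≠ 0 := by
    filter_upwards [h1.eventually (lt_mem_nhds (Real.exp_pos e))] with L hL h0
    rw [h0, div_zero] at hL
    exact lt_irrefl _ hL
  have h3 : Tendsto (fun L => ((∑ s, a s L) / (∑ s, b s L) - 1) / τ) atTop
      (𝓝 ((Real.exp e - 1) / τ)) := (h1.sub_const 1).div_const τ
  refine h3.congr' ?_
  filter_upwards [hrep, eventually_ge_atTop 1, h2] with L hL h1L hne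
  obtain ⟨c, hc, hab⟩ := hL
  set GG := GTor (L + 1) (max R 1) (tpot J lam β V) with hGG
  have hT := torBonds_link h1L hJ.ne' lam β R V hV.trans hV.range hV.even S
  rw [hT, ← hGG]
  have e1 : (∑ s, a s L) = c * (Z4 GG + τ * Z4 (epTor (L + 1) S * GG)) := by
    rw [PPdx63.Z4_eq, PPdx63.Z4_eq, mul_sum, ← sum_add_distrib, mul_sum]
    refine sum_congr rfl fun s _ => ?_
    rw [(hab s).1, mul_add, mul_one, ZS_add, mul_smul_comm, ZS_smul, mul_comm GG]
  have e2 : (∑ s, b s L) = c * Z4 GG := by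
    rw [PPdx63.Z4_eq, mul_sum]
    exact sum_congr rfl fun s _ => (hab s).2
  rw [e2] at hne
  have hZ : Z4 GG ≠ 0 := right_ne_zero_of_mul hne
  rw [e1, e2]
  field_simp
  ring


end Crest.Agent.R165.TorFinx599
end
end

-- ▼ part R165/TorRep2_599
section

/-!
# Row 165 (S0250), torus: T6 and T9 on the literal names of `Bkg_683` (helper599)

* `Srcs.Real src a` : the constants of the source are the real numbers `a k`, supports nonempty
* `ZS_bg`     : `ZS s (GTor * ∏_k (1 + a_k Fs_k)) = c_M ZE (ZZ (near 0) univ K0)`, any source record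
* `ZS_bg_nz`  : sectors `s ≠ (0,0)`, any `IsCov` kernel;  `ZS_bg_PP` : the doubly periodic sector
* `ez_injOn`  : the bonds of `ℤ²` in a finite set have different images in large tori
* `torBonds_of_bg` : **T9** for the flows of `Bkg_683`, any two source records
-/

set_option autoImplicit false
set_option linter.unusedSectionVars false

noncomputable section

open Finset Filter Topology
open Crest.ProbabilityR.IsingModel

namespace Crest.Agent.R165.TorRepx599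

open Crest.Agent.R165.Gr0x606 Crest.Agent.R165.Gr1x606 Crest.Agent.R165.J1ax606
open Crest.Agent.R165.GeOpsx337 Crest.Agent.R165.J4Defx653 Crest.Agent.R165.J4RRx653
open Crest.Agent.R165.J4RRAx653 Crest.Agent.R165.J4Pathx653 Crest.Agent.R165.J4Lnkx653
open Crest.Agent.R165.J4K0x126 Crest.Agent.R165.J4Geox126
open Crest.Agent.R165.KStepx892 (ZZ)
open Crest.Agent.R165.TorusCombx922 Crest.Agent.R165.TorusJ1x922 Crest.Agent.R165.TorusJ2x922
open Crest.Agent.R165.TorChartx723 (wTor)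
open Crest.Agent.R165.PPdx63 (ZS)
open Crest.Agent.R165.Latx683 (BW xc IsCov covS Fld)
open Crest.Agent.R165.Bkgx683 (Bg MPar mpar Srcs noSrc realSrc frG)
open Crest.Agent.R165.FRDPolyx439

/-- the constants of the source are real numbers, the supports are nonempty -/
structure RealSrc {κ G : Type} [CommRing G] [DecidableEq G] {A : Type*} [CommRing A] [Algebra ℝ A]
    (src : Srcs κ G A) (a : κ → ℝ) : Prop where
  as : ∀ k, src.as k = algebraMap ℝ A (a k)
  ne : ∀ k, (src.Ys k).Nonempty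

section K00
variable {M : ℕ} [NeZero M] {κ : Type} [DecidableEq κ] [Fintype κ]


theorem K00_tor (ε₁ ε₂ : ℝ) (P : MPar) (hev : ∀ S, P.t S ≠ 0 → Even S.card)
    (src : Srcs κ (ZMod M) (Ge (Fld (ZMod M)))) {a : κ → ℝ} (ha : RealSrc src a) :
    ZZ (fun a b : ZMod M × ZMod M => a = b) univ
        ((Bg.tor M ε₁ ε₂).K00 P (LinearMap.id : Fld (ZMod M) →ₗ[ℝ] Fld (ZMod M)) src) =
      Ms (fun e => wTor M ε₁ ε₂ e.1 e.2) (fun _ => Real.sqrt (1 + P.z)) univ *
        J4RRx653.TH (J4Lnkx653.gs (fun e => wTor M ε₁ ε₂ e.1 e.2) (fun _ => Real.sqrt (1 + P.z)))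
          (GTor M P.R P.t * ∏ k, (1 + a k • src.Fs k)) := by
  have h := K0_real ((Bg.tor M ε₁ ε₂).bk P src) a ha.as univ
  have h1 : ((Bg.tor M ε₁ ε₂).bk P src).srcs univ = univ := by
    ext k
    unfold Bk.srcs
    rw [mem_filter]
    exact ⟨fun _ => mem_univ _, fun _ => ⟨mem_univ _, ha.ne k, subset_univ _⟩⟩
  have h2 := TorRepx599.PL_tor M ((Bg.tor M ε₁ ε₂).bk P src) (fun _ _ => trivial) hev
  have h3 : ((Bg.tor M ε₁ ε₂).bk P src).s = fun _ => Real.sqrt (1 + P.z) := by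
    funext f
    exact if_pos trivial
  rw [h1, h2, h3] at h
  exact h

/-- **T6 on `Bkg_683`** -/
theorem ZS_K00 (s : Fin 2 × Fin 2) (P : MPar) (hz : 0 < 1 + P.z)
    (hev : ∀ S, P.t S ≠ 0 → Even S.card)
    (src : Srcs κ (ZMod M) (Ge (Fld (ZMod M)))) {a : κ → ℝ} (ha : RealSrc src a) :
    ZS s (GTor M P.R P.t * ∏ k, (1 + a k • src.Fs k)) =
      ((Real.sqrt (1 + P.z) ^ 4) ^ (M ^ 2))⁻¹ *
      ZE (fun e : Ed M => sec s e * xc) (ZZ (fun a b : ZMod M × ZMod M => a = b) univ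
        ((Bg.tor M (eS s.2) (eS s.1)).K00 P
          (LinearMap.id : Fld (ZMod M) →ₗ[ℝ] Fld (ZMod M)) src)) := by
  have hρ : Real.sqrt (1 + P.z) ≠ 0 := (Real.sqrt_pos.2 hz).ne'
  rw [K00_tor _ _ P hev src ha, ← sy_wTor]
  have h := ZE_resc M (sy s (fun _ => xc)) (Real.sqrt (1 + P.z))
    (GTor M P.R P.t * ∏ k, (1 + a k • src.Fs k))
  have e1 : (fun e : Ed M => sec s e * xc) = sy s (fun _ => xc) := rfl
  rw [e1, h, ← mul_assoc, inv_mul_cancel₀ (pow_ne_zero _ (pow_ne_zero _ hρ)), one_mul, PPdx63.ZS]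

/-- the constant of the rescaling -/
def cM (M : ℕ) (P : MPar) : ℝ := ((Real.sqrt (1 + P.z) ^ 4) ^ (M ^ 2))⁻¹

theorem cM_pos (M : ℕ) (P : MPar) (hz : 0 < 1 + P.z) : 0 < cM M P := by
  unfold cM
  have := Real.sqrt_pos.2 hz
  positivity

variable {MD KD : ℕ} (D : FRD 16 MD KD) (mk : Finset (ZMod M × ZMod M)) (l k0 : ℕ)

/-- reclustering at the first touching relation -/
theorem ZZ_flow (B : Bg (ZMod M)) (P : MPar) (src : Srcs κ (ZMod M) (Ge (Fld (ZMod M)))) :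
    ZZ (fun a b : ZMod M × ZMod M => a = b) univ
        (B.K00 P (LinearMap.id : Fld (ZMod M) →ₗ[ℝ] Fld (ZMod M)) src) =
      ZZ ((B.flow P D mk src l k0).near 0) univ (B.flow P D mk src l k0).K0 := by
  refine KInitx892.ZZ_K1 (fun a b h => ?_) (fun a => ?_) univ _
  · change GDefx387.fd b a ≤ _
    rw [GDefx387.fd_comm]
    exact h
  · change GDefx387.fd a a ≤ _
    rw [GDefx387.fd_self]
    exact Nat.zero_le _

theorem ZS_bg (s : Fin 2 × Fin 2) (P : MPar) (hz : 0 < 1 + P.z)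
    (hev : ∀ S, P.t S ≠ 0 → Even S.card)
    (src : Srcs κ (ZMod M) (Ge (Fld (ZMod M)))) {a : κ → ℝ} (ha : RealSrc src a) :
    ZS s (GTor M P.R P.t * ∏ k, (1 + a k • src.Fs k)) = cM M P *
      ZE (fun e : Ed M => sec s e * xc)
        (ZZ (((Bg.tor M (eS s.2) (eS s.1)).flow P D mk src l k0).near 0) univ
          ((Bg.tor M (eS s.2) (eS s.1)).flow P D mk src l k0).K0) := by
  rw [ZS_K00 s P hz hev src ha, ZZ_flow D mk l k0, cM]

/-- the kernel of a covariance is the matrix inverse -/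
theorem isCov_kT {w : BW (ZMod M)} {S : Latx683.HE (ZMod M) → Latx683.HE (ZMod M) → ℝ}
    (hS : IsCov w S) (hd : (TorDetx599.hA w).det ≠ 0) : S = kT M w := by
  have h1 : TorDetx599.hA w * Matrix.of S = -1 := by
    ext g h'
    have h2 := hS.inv g h'
    rw [← hA_Aop] at h2
    rw [Matrix.mul_apply, Matrix.neg_apply, Matrix.one_apply]
    rw [Pi.single_apply] at h2
    exact h2
  have h3 : Matrix.of S = -(TorDetx599.hA w)⁻¹ := by
    have h4 := congrArg (fun X => (TorDetx599.hA w)⁻¹ * X) h1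
    simp only [← Matrix.mul_assoc, Matrix.nonsing_inv_mul _ (isUnit_iff_ne_zero.2 hd),
      Matrix.one_mul] at h4
    rw [h4, Matrix.mul_neg, Matrix.mul_one]
  funext h k
  exact congrFun (congrFun h3 h) k

theorem det_wTor_ne (s : Fin 2 × Fin 2) (hs : s ≠ (0, 0)) :
    (TorDetx599.hA (wTor M (eS s.2) (eS s.1))).det ≠ 0 := by
  have h := TorBrx599.det_sec_ne M s hs
  have ex : TorSecx599.xc = xc := rfl
  rw [ex, sec_wTor] at h
  exact h

theorem ZE_nz (s : Fin 2 × Fin 2) (hs : s ≠ (0, 0))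
    {S : Latx683.HE (ZMod M) → Latx683.HE (ZMod M) → ℝ}
    (hS : IsCov (wTor M (eS s.2) (eS s.1)) S) (X : Ge (Fld (ZMod M))) :
    ZE (fun e : Ed M => sec s e * xc) X =
      ZE (fun e : Ed M => sec s e * xc) 1 * EEG (covS S hS.skew) X := by
  have h := TorBrx599.ZE_sector M s hs X
  have ex : TorSecx599.xc = xc := rfl
  rw [ex, sec_wTor, cF_eq] at h
  have h1 := isCov_kT hS (det_wTor_ne s hs)
  have h2 : covS S hS.skew = covS (kT M (wTor M (eS s.2) (eS s.1))) (kT_skew M _) := by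
    subst h1; rfl
  rw [h2]
  exact h

/-- **T6 on `Bkg_683`, sectors `s ≠ (0,0)`** -/
theorem ZS_bg_nz (s : Fin 2 × Fin 2) (hs : s ≠ (0, 0)) (P : MPar) (hz : 0 < 1 + P.z)
    (hev : ∀ S, P.t S ≠ 0 → Even S.card)
    (src : Srcs κ (ZMod M) (Ge (Fld (ZMod M)))) {a : κ → ℝ} (ha : RealSrc src a)
    {S : Latx683.HE (ZMod M) → Latx683.HE (ZMod M) → ℝ}
    (hS : IsCov (wTor M (eS s.2) (eS s.1)) S) :
    ZS s (GTor M P.R P.t * ∏ k, (1 + a k • src.Fs k)) =
      cM M P * (ZE (fun e : Ed M => sec s e * xc) 1 *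
        EEG (covS S hS.skew)
          (ZZ (((Bg.tor M (eS s.2) (eS s.1)).flow P D mk src l k0).near 0) univ
            ((Bg.tor M (eS s.2) (eS s.1)).flow P D mk src l k0).K0)) := by
  rw [ZS_bg D mk l k0 s P hz hev src ha, ZE_nz s hs hS]

/-- **T6 on `Bkg_683`, doubly periodic sector** -/
theorem ZS_bg_PP (P : MPar) (hz : 0 < 1 + P.z)
    (hev : ∀ S, P.t S ≠ 0 → Even S.card)
    (src : Srcs κ (ZMod M) (Ge (Fld (ZMod M)))) {a : κ → ℝ} (ha : RealSrc src a) :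
    ZS (0, 0) (GTor M P.R P.t * ∏ k, (1 + a k • src.Fs k)) =
      cM M P * (TorSecx599.ZP M *
        Gr0x606.EE (TorBrx599.cF M (-(TorSecx599.BP M))) (dd (TorBrx599.z2 M) (dd (TorBrx599.z1 M)
          ((ZZ (((Bg.tor M 1 1).flow P D mk src l k0).near 0) univ
            ((Bg.tor M 1 1).flow P D mk src l k0).K0 : Ge (Fld (ZMod M))) :
              Gr (Fld (ZMod M)))))) := by
  have h := TorBrx599.ZE_PP M (ZZ (((Bg.tor M 1 1).flow P D mk src l k0).near 0) univ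
            ((Bg.tor M 1 1).flow P D mk src l k0).K0)
  have ex : TorSecx599.xc = xc := rfl
  rw [ex] at h
  have e1 : eS (0 : Fin 2) = 1 := if_pos rfl
  have h2 := ZS_bg D mk l k0 (0, 0) P hz hev src ha
  simp only [e1] at h2
  rw [h2]
  exact congrArg _ h

end K00

/-! ### images of bonds -/

theorem ez_injOn (S : Finset J4Pathx653.Ed) : ∀ᶠ L : ℕ in atTop,
    Set.InjOn (ez (0 : ZMod (L + 1) × ZMod (L + 1))) (S : Set J4Pathx653.Ed) := by
  obtain ⟨N, hN⟩ : ∃ N : ℕ, ∀ e ∈ S, |e.1.1| ≤ N ∧ |e.1.2| ≤ N := by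
    refine ⟨S.sup fun e => max e.1.1.natAbs e.1.2.natAbs, fun e he => ?_⟩
    have h := Finset.le_sup (f := fun e : J4Pathx653.Ed => max e.1.1.natAbs e.1.2.natAbs) he
    have h1 := (le_max_left _ _).trans h
    have h2 := (le_max_right _ _).trans h
    constructor
    · rw [Int.abs_eq_natAbs]; exact_mod_cast h1
    · rw [Int.abs_eq_natAbs]; exact_mod_cast h2
  filter_upwards [eventually_ge_atTop (2 * N)] with L hL e he e' he' h
  have key : ∀ x y : ℤ, |x| ≤ N → |y| ≤ N → ((x : ℤ) : ZMod (L + 1)) = ((y : ℤ) : ZMod (L + 1)) →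
      x = y := by
    intro x y hx hy hxy
    rw [ZMod.intCast_eq_intCast_iff_dvd_sub] at hxy
    have h3 : |y - x| < ((L + 1 : ℕ) : ℤ) := by
      rw [abs_le] at hx hy
      rw [abs_lt]
      push_cast
      constructor <;> omega
    have h4 := Int.eq_zero_of_abs_lt_dvd hxy h3
    omega
  obtain ⟨⟨x1, x2⟩, j⟩ := e
  obtain ⟨⟨y1, y2⟩, j'⟩ := e'
  have h1 := hN _ (Finset.mem_coe.1 he)
  have h2 := hN _ (Finset.mem_coe.1 he')
  unfold ez fz cz at h
  simp only [zero_add, Prod.mk.injEq] at h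
  rw [key x1 y1 h1.1 h2.1 h.1.1, key x2 y2 h1.2 h2.2 h.1.2, h.2]

theorem prod_image_ez (S : Finset J4Pathx653.Ed) : ∀ᶠ L : ℕ in atTop,
    ∏ e ∈ S.image (ez (0 : ZMod (L + 1) × ZMod (L + 1))), (ep (Finsupp.single e 1) : RR (Ed (L + 1))) =
      epTor (L + 1) S := by
  filter_upwards [ez_injOn S] with L hL
  rw [prod_image hL]
  rfl

end Crest.Agent.R165.TorRepx599
end
end

-- ▼ part R165/TorFin2_599
section

/-!
# Row 165 (S0250), torus, leaf T9 on the literal names of `Bkg_683` (helper599)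

* `core` : the four-sector bookkeeping on sequences
* `torBonds_of_bg` : the flow data of `Bg.tor` with (index `1`) and without (index `0`) the real source
  give `torBonds → (exp e - 1) / τ`
-/

set_option autoImplicit false
set_option linter.unusedSectionVars false

noncomputable section

open Finset Filter Topology
open Crest.ProbabilityR.IsingModel

namespace Crest.Agent.R165.TorFinx599

open Crest.Agent.R165.Gr0x606 Crest.Agent.R165.Gr1x606 Crest.Agent.R165.J1ax606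
open Crest.Agent.R165.GeOpsx337 Crest.Agent.R165.J4Defx653 Crest.Agent.R165.J4RRx653
open Crest.Agent.R165.J4Pathx653 Crest.Agent.R165.J4Lnkx653
open Crest.Agent.R165.KStepx892 (ZZ)
open Crest.Agent.R165.TorusCombx922 Crest.Agent.R165.TorusJ1x922 Crest.Agent.R165.TorusJ2x922
open Crest.Agent.R165.TorChartx723 (wTor)
open Crest.Agent.R165.PPdx63 (ZS)
open Crest.Agent.R165.Latx683 (BW xc IsCov covS Fld)
open Crest.Agent.R165.TorRepx599
open Crest.Agent.R165.Bkgx683 (Bg MPar mpar Srcs noSrc realSrc)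
open Crest.Agent.R165.FRDPolyx439

/-- **four-sector bookkeeping** -/
theorem core {J : ℝ} (hJ : 0 < J) {R : ℕ} {V : Finset (ℤ × ℤ) → ℝ}
    (hV : Topx683.VHyp R V) (lam β : ℝ) (S : Finset ((ℤ × ℤ) × Fin 2)) {τ : ℝ} (hτ : τ ≠ 0)
    {a b : Fin 2 × Fin 2 → ℕ → ℝ} {E₁ E₀ z₁ z₀ : Fin 2 × Fin 2 → ℕ → ℝ} {p₁ p₀ : ℕ → ℝ} {e : ℝ}
    (hrep : ∀ᶠ L : ℕ in atTop, ∃ c : ℝ, c ≠ 0 ∧ ∀ s,
      a s L = c * ZS s (GTor (L + 1) (max R 1) (tpot J lam β V) * (1 + τ • epTor (L + 1) S)) ∧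
      b s L = c * ZS s (GTor (L + 1) (max R 1) (tpot J lam β V)))
    (ha : ∀ s, s ≠ (0, 0) → ∀ᶠ L : ℕ in atTop,
      a s L = ZE (fun e : Ed (L + 1) => sec s e * xc) 1 * (Real.exp (E₁ s L) * z₁ s L))
    (hb : ∀ s, s ≠ (0, 0) → ∀ᶠ L : ℕ in atTop,
      b s L = ZE (fun e : Ed (L + 1) => sec s e * xc) 1 * (Real.exp (E₀ s L) * z₀ s L))
    (ha0 : ∀ᶠ L : ℕ in atTop,
      a (0, 0) L = TorSecx599.ZP (L + 1) * (Real.exp (E₁ (0, 0) L) * p₁ L))
    (hb0 : ∀ᶠ L : ℕ in atTop,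
      b (0, 0) L = TorSecx599.ZP (L + 1) * (Real.exp (E₀ (0, 0) L) * p₀ L))
    (hz₁ : ∀ s, s ≠ (0, 0) → Tendsto (z₁ s) atTop (𝓝 1))
    (hz₀ : ∀ s, s ≠ (0, 0) → Tendsto (z₀ s) atTop (𝓝 1))
    (hp₁ : Tendsto (fun L : ℕ => ((L : ℝ) + 1) * p₁ L) atTop (𝓝 0))
    (hp₀ : Tendsto (fun L : ℕ => ((L : ℝ) + 1) * p₀ L) atTop (𝓝 0))
    (hE : ∀ s, Tendsto (fun L => E₁ s L - E₀ s L) atTop (𝓝 e))
    (hE' : Tendsto (fun L => E₀ (0, 0) L - E₀ (1, 1) L) atTop (𝓝 0)) :
    Tendsto (fun L : ℕ => Symx541.torBonds L J lam R V β S) atTop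
      (𝓝 ((Real.exp e - 1) / τ)) := by
  have hZpos : ∀ s, s ≠ (0, 0) → ∀ L : ℕ, 0 < ZE (fun e : Ed (L + 1) => sec s e * xc) 1 :=
    fun s hs L => TorBrx599.ZE_pos (L + 1) s hs
  have hz0pos : ∀ s, s ≠ (0, 0) → ∀ᶠ L in atTop, 0 < z₀ s L :=
    fun s hs => (hz₀ s hs).eventually (lt_mem_nhds one_pos)
  -- doubly periodic sector
  have key : ∀ (x : Fin 2 × Fin 2 → ℕ → ℝ) (E : Fin 2 × Fin 2 → ℕ → ℝ) (p : ℕ → ℝ) (e' : ℝ),
      (∀ᶠ L : ℕ in atTop, x (0, 0) L = TorSecx599.ZP (L + 1) * (Real.exp (E (0, 0) L) * p L)) →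
      Tendsto (fun L : ℕ => ((L : ℝ) + 1) * p L) atTop (𝓝 0) →
      Tendsto (fun L => E (0, 0) L - E₀ (1, 1) L) atTop (𝓝 e') →
      Tendsto (fun L => x (0, 0) L / b (1, 1) L) atTop (𝓝 0) := by
    intro x E p e' h2 hp hE1
    have hE2 : Tendsto (fun L => Real.exp (E (0, 0) L - E₀ (1, 1) L)) atTop
        (𝓝 (Real.exp e')) := (Real.continuous_exp.tendsto _).comp hE1
    have h5 : Tendsto (fun L : ℕ => (2 / xc) * (Real.exp (E (0, 0) L - E₀ (1, 1) L) *
        |((L : ℝ) + 1) * p L| * |(z₀ (1, 1) L)⁻¹|)) atTop (𝓝 0) := by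
      have hz1 : Tendsto (fun L => |(z₀ (1, 1) L)⁻¹|) atTop (𝓝 |(1 : ℝ)⁻¹|) :=
        ((hz₀ (1, 1) (by decide)).inv₀ one_ne_zero).abs
      have hp1 : Tendsto (fun L : ℕ => |((L : ℝ) + 1) * p L|) atTop (𝓝 |(0 : ℝ)|) := hp.abs
      have h6 := ((hE2.mul hp1).mul hz1).const_mul (2 / xc)
      simpa using h6
    refine squeeze_zero_norm' ?_ h5
    filter_upwards [h2, hb (1, 1) (by decide), hz0pos (1, 1) (by decide)] with L e0 e1 hz0
    rw [e0, e1, Real.norm_eq_abs]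
    have hA := hZpos (1, 1) (by decide) L
    have hZP := TorBrx599.ZP_le' (L + 1)
    have ex : TorSecx599.xc = xc := rfl
    rw [ex] at hZP
    set A := ZE (fun e : Ed (L + 1) => sec (1, 1) e * xc) 1 with hAd
    set ZP := TorSecx599.ZP (L + 1) with hZPd
    have hexp : Real.exp (E (0, 0) L - E₀ (1, 1) L) =
        Real.exp (E (0, 0) L) * (Real.exp (E₀ (1, 1) L))⁻¹ := by
      rw [Real.exp_sub]; rfl
    have hx0 : 0 < Real.exp (E₀ (1, 1) L) := Real.exp_pos _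
    have h7 : ZP * (Real.exp (E (0, 0) L) * p L) /
        (A * (Real.exp (E₀ (1, 1) L) * z₀ (1, 1) L)) =
        (ZP / A) * (Real.exp (E (0, 0) L - E₀ (1, 1) L) * p L * (z₀ (1, 1) L)⁻¹) := by
      rw [hexp]
      field_simp
    rw [h7, abs_mul, abs_mul, abs_mul, abs_of_pos (Real.exp_pos _), abs_div, abs_of_pos hA]
    have h8 : |ZP| / A ≤ (2 / xc) * ((L : ℝ) + 1) := by
      rw [div_le_iff₀ hA]
      refine hZP.trans (le_of_eq ?_)
      push_cast
      ring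
    have h9 : 0 ≤ Real.exp (E (0, 0) L - E₀ (1, 1) L) * |p L| * |(z₀ (1, 1) L)⁻¹| := by
      positivity
    refine (mul_le_mul_of_nonneg_right h8 h9).trans (le_of_eq ?_)
    rw [abs_mul ((L : ℝ) + 1), abs_of_pos (by positivity : (0 : ℝ) < (L : ℝ) + 1)]
    ring
  refine torBonds_of_sectors hJ hV lam β S hτ (a := a) (b := b) (e := e) hrep ?_ ?_ ?_ ?_
  · intro s hs
    filter_upwards [hb s hs, hz0pos s hs] with L hL hL2
    rw [hL]
    exact mul_pos (hZpos s hs L) (mul_pos (Real.exp_pos _) hL2)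
  · intro s hs
    have h3 : Tendsto (fun L => Real.exp (E₁ s L - E₀ s L) * (z₁ s L / z₀ s L)) atTop
        (𝓝 (Real.exp e)) := by
      have h4 := ((Real.continuous_exp.tendsto e).comp (hE s)).mul
        ((hz₁ s hs).div (hz₀ s hs) one_ne_zero)
      rw [div_one, mul_one] at h4
      exact h4
    refine h3.congr' ?_
    filter_upwards [hb s hs, ha s hs, hz0pos s hs] with L e0 e1 hz0
    rw [e0, e1, Real.exp_sub]
    have h5 := (hZpos s hs L).ne'
    generalize ZE (fun e : Ed (L + 1) => sec s e * xc) 1 = A at h5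
    have h6 := (Real.exp_pos (E₀ s L)).ne'
    field_simp
  · refine key a E₁ p₁ (e + 0) ha0 hp₁ ?_
    refine ((hE (0, 0)).add hE').congr fun L => ?_
    ring
  · exact key b E₀ p₀ 0 hb0 hp₀ hE'

/-- **T9 on `Bkg_683`**: index `1` with the real source, index `0` without -/
theorem torBonds_of_bg {J : ℝ} (hJ : 0 < J) {R : ℕ} {V : Finset (ℤ × ℤ) → ℝ}
    (hV : Topx683.VHyp R V) (lam β z : ℝ) (hz : 0 < 1 + z) (S : Finset ((ℤ × ℤ) × Fin 2))
    {τ : ℝ} (hτ : τ ≠ 0) {MD KD : ℕ} (D : FRD 16 MD KD) (l k0 : ℕ)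
    (mk : ∀ L : ℕ, Finset (ZMod (L + 1) × ZMod (L + 1)))
    {κ₁ κ₀ : Type} [DecidableEq κ₁] [Fintype κ₁] [DecidableEq κ₀] [Fintype κ₀]
    (src₁ : ∀ L : ℕ, Srcs κ₁ (ZMod (L + 1)) (Ge (Fld (ZMod (L + 1)))))
    (src₀ : ∀ L : ℕ, Srcs κ₀ (ZMod (L + 1)) (Ge (Fld (ZMod (L + 1)))))
    {a₁ : κ₁ → ℝ} {a₀ : κ₀ → ℝ}
    (h₁ : ∀ᶠ L in atTop, RealSrc (src₁ L) a₁) (h₀ : ∀ᶠ L in atTop, RealSrc (src₀ L) a₀)
    (q₁ : ∀ᶠ L : ℕ in atTop, ∏ k, (1 + a₁ k • (src₁ L).Fs k) = 1 + τ • epTor (L + 1) S)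
    (q₀ : ∀ᶠ L : ℕ in atTop, ∏ k, (1 + a₀ k • (src₀ L).Fs k) = 1)
    {E₁ E₀ z₁ z₀ : Fin 2 × Fin 2 → ℕ → ℝ} {p₁ p₀ : ℕ → ℝ} {e : ℝ}
    (hnz₁ : ∀ s : Fin 2 × Fin 2, s ≠ (0, 0) → ∀ᶠ L : ℕ in atTop,
      ∃ (Sk : Latx683.HE (ZMod (L + 1)) → Latx683.HE (ZMod (L + 1)) → ℝ)
        (hS : IsCov (wTor (L + 1) (eS s.2) (eS s.1)) Sk),
      EEG (covS Sk hS.skew)
        (ZZ (((Bg.tor (L + 1) (eS s.2) (eS s.1)).flow (mpar J lam R V β z) D (mk L) (src₁ L) l
          k0).near 0) univ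
          ((Bg.tor (L + 1) (eS s.2) (eS s.1)).flow (mpar J lam R V β z) D (mk L) (src₁ L) l k0).K0) =
        Real.exp (E₁ s L) * z₁ s L)
    (hnz₀ : ∀ s : Fin 2 × Fin 2, s ≠ (0, 0) → ∀ᶠ L : ℕ in atTop,
      ∃ (Sk : Latx683.HE (ZMod (L + 1)) → Latx683.HE (ZMod (L + 1)) → ℝ)
        (hS : IsCov (wTor (L + 1) (eS s.2) (eS s.1)) Sk),
      EEG (covS Sk hS.skew)
        (ZZ (((Bg.tor (L + 1) (eS s.2) (eS s.1)).flow (mpar J lam R V β z) D (mk L) (src₀ L) l
          k0).near 0) univ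
          ((Bg.tor (L + 1) (eS s.2) (eS s.1)).flow (mpar J lam R V β z) D (mk L) (src₀ L) l k0).K0) =
        Real.exp (E₀ s L) * z₀ s L)
    (hPP₁ : ∀ᶠ L : ℕ in atTop,
      Gr0x606.EE (TorBrx599.cF (L + 1) (-(TorSecx599.BP (L + 1)))) (dd (TorBrx599.z2 (L + 1))
        (dd (TorBrx599.z1 (L + 1))
          ((ZZ (((Bg.tor (L + 1) 1 1).flow (mpar J lam R V β z) D (mk L) (src₁ L) l k0).near 0) univ
            ((Bg.tor (L + 1) 1 1).flow (mpar J lam R V β z) D (mk L) (src₁ L) l k0).K0 :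
              Ge (Fld (ZMod (L + 1)))) : Gr (Fld (ZMod (L + 1)))))) =
        Real.exp (E₁ (0, 0) L) * p₁ L)
    (hPP₀ : ∀ᶠ L : ℕ in atTop,
      Gr0x606.EE (TorBrx599.cF (L + 1) (-(TorSecx599.BP (L + 1)))) (dd (TorBrx599.z2 (L + 1))
        (dd (TorBrx599.z1 (L + 1))
          ((ZZ (((Bg.tor (L + 1) 1 1).flow (mpar J lam R V β z) D (mk L) (src₀ L) l k0).near 0) univ
            ((Bg.tor (L + 1) 1 1).flow (mpar J lam R V β z) D (mk L) (src₀ L) l k0).K0 :
              Ge (Fld (ZMod (L + 1)))) : Gr (Fld (ZMod (L + 1)))))) =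
        Real.exp (E₀ (0, 0) L) * p₀ L)
    (hz₁ : ∀ s, s ≠ (0, 0) → Tendsto (z₁ s) atTop (𝓝 1))
    (hz₀ : ∀ s, s ≠ (0, 0) → Tendsto (z₀ s) atTop (𝓝 1))
    (hp₁ : Tendsto (fun L : ℕ => ((L : ℝ) + 1) * p₁ L) atTop (𝓝 0))
    (hp₀ : Tendsto (fun L : ℕ => ((L : ℝ) + 1) * p₀ L) atTop (𝓝 0))
    (hE : ∀ s, Tendsto (fun L => E₁ s L - E₀ s L) atTop (𝓝 e))
    (hE' : Tendsto (fun L => E₀ (0, 0) L - E₀ (1, 1) L) atTop (𝓝 0)) :
    Tendsto (fun L : ℕ => Symx541.torBonds L J lam R V β S) atTop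
      (𝓝 ((Real.exp e - 1) / τ)) := by
  have hev : ∀ S, (mpar J lam R V β z).t S ≠ 0 → Even S.card :=
    tpot_even (J := J) (lam := lam) (β := β) hV.even
  have hcM : ∀ L : ℕ, cM (L + 1) (mpar J lam R V β z) ≠ 0 := fun L =>
    (cM_pos (L + 1) (mpar J lam R V β z) hz).ne'
  refine core hJ hV lam β S hτ
    (a := fun s L => (cM (L + 1) (mpar J lam R V β z))⁻¹ *
      ZS s (GTor (L + 1) (max R 1) (tpot J lam β V) * (1 + τ • epTor (L + 1) S)))
    (b := fun s L => (cM (L + 1) (mpar J lam R V β z))⁻¹ *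
      ZS s (GTor (L + 1) (max R 1) (tpot J lam β V)))
    (Eventually.of_forall fun L => ⟨_, inv_ne_zero (hcM L), fun s => ⟨rfl, rfl⟩⟩)
    ?_ ?_ ?_ ?_ hz₁ hz₀ hp₁ hp₀ hE hE'
  · intro s hs
    filter_upwards [h₁, q₁, hnz₁ s hs] with L e1 e2 e3
    obtain ⟨Sk, hS, e3⟩ := e3
    have h := ZS_bg_nz D (mk L) l k0 s hs (mpar J lam R V β z) hz hev (src₁ L) e1 hS
    rw [e2, e3] at h
    change (cM (L + 1) (mpar J lam R V β z))⁻¹ *
      ZS s (GTor (L + 1) (mpar J lam R V β z).R (mpar J lam R V β z).t *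
        (1 + τ • epTor (L + 1) S)) = _
    rw [h, ← mul_assoc, inv_mul_cancel₀ (hcM L), one_mul]
  · intro s hs
    filter_upwards [h₀, q₀, hnz₀ s hs] with L e1 e2 e3
    obtain ⟨Sk, hS, e3⟩ := e3
    have h := ZS_bg_nz D (mk L) l k0 s hs (mpar J lam R V β z) hz hev (src₀ L) e1 hS
    rw [e2, e3, mul_one] at h
    change (cM (L + 1) (mpar J lam R V β z))⁻¹ *
      ZS s (GTor (L + 1) (mpar J lam R V β z).R (mpar J lam R V β z).t) = _
    rw [h, ← mul_assoc, inv_mul_cancel₀ (hcM L), one_mul]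
  · filter_upwards [h₁, q₁, hPP₁] with L e1 e2 e3
    have h := ZS_bg_PP D (mk L) l k0 (mpar J lam R V β z) hz hev (src₁ L) e1
    rw [e2, e3] at h
    change (cM (L + 1) (mpar J lam R V β z))⁻¹ *
      ZS (0, 0) (GTor (L + 1) (mpar J lam R V β z).R (mpar J lam R V β z).t *
        (1 + τ • epTor (L + 1) S)) = _
    rw [h, ← mul_assoc, inv_mul_cancel₀ (hcM L), one_mul]
  · filter_upwards [h₀, q₀, hPP₀] with L e1 e2 e3
    have h := ZS_bg_PP D (mk L) l k0 (mpar J lam R V β z) hz hev (src₀ L) e1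
    rw [e2, e3, mul_one] at h
    change (cM (L + 1) (mpar J lam R V β z))⁻¹ *
      ZS (0, 0) (GTor (L + 1) (mpar J lam R V β z).R (mpar J lam R V β z).t) = _
    rw [h, ← mul_assoc, inv_mul_cancel₀ (hcM L), one_mul]

end Crest.Agent.R165.TorFinx599
end
end

-- ▼ part R165/TorLast_723
section

/-!
# Row 165 (S0250): the last step on a finite background (helper723)

TEXT P13, leaf T8: sectors AA, AP, PA of the torus of side `M`.

* `sum_le_NK`   : `∑_U |K U|_g ≤ n * NK` when `g ≤ wt` and the finite set is covered by `n` balls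
* `last_step`   : `|EE rest (ZZ) - 1| ≤ exp (n b) - 1`
* `flow_last`   : with the flow identity
-/

set_option autoImplicit false
set_option linter.unusedSectionVars false

noncomputable section

open Finset Filter Topology
open scoped ENNReal
open Crest.Agent.R165.Packx915 Crest.Agent.R165.NSumx915 Crest.Agent.R165.Bridgex915
open Crest.Agent.R165.Latx683 Crest.Agent.R165.GDefx387 Crest.Agent.R165.Gr0x606
open Crest.Agent.R165.Gr1x606 Crest.Agent.R165.PNormx417 Crest.Agent.R165.FinBx900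
open Crest.Agent.R165.FRDPolyx439 Crest.Agent.R165.FRDAbsx439 Crest.Agent.R165.FRDLatx439
open Crest.Agent.R165.FRDRestx439 Crest.Agent.R165.KStepx892 Crest.Agent.R165.KFlowx337
open Crest.Agent.R165.GeOpsx337

namespace Crest.Agent.R165.TorLastx723

section gen

variable {G : Type} [CommRing G] [CN G] [DecidableEq G]

/-- a weight below all local weights is below `wU` -/
theorem le_wU {w : BW G} {a : ℝ} {r : ℕ} {g : Fld G → ℝ≥0∞}
    (hg : ∀ x l, g l ≤ wt w a r x l) (U : Finset (G × G)) (l : Fld G) : g l ≤ wU w a r U l := by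
  classical
  unfold wU
  refine le_iInf₂ fun x _ => ?_
  split_ifs
  · exact hg x l
  · exact le_top

/-- total mass of a finite volume -/
theorem sum_le_NK {w : BW G} {a : ℝ} {r s n : ℕ} {Γ : ℝ≥0∞} (hΓ : 1 ≤ Γ)
    (hcov : Cov (fd : G × G → G × G → ℕ) s r n) (f₀ : G × G) {Λ : Finset (G × G)}
    (hΛ : ∀ f ∈ Λ, fd f₀ f ≤ s) {g : Fld G → ℝ≥0∞} (hg : ∀ x l, g l ≤ wt w a r x l)
    (K : Finset (G × G) → Gr (Fld G)) :
    ∑ U ∈ nes Λ, pnorm g (K U) ≤ n * NK w a r Γ (fun _ => True) K := by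
  classical
  obtain ⟨net, hcard, hnet⟩ := hcov f₀
  rw [NK_eq_NN]
  calc ∑ U ∈ nes Λ, pnorm g (K U)
      ≤ ∑ U ∈ nes Λ, ∑ x ∈ net, Set.indicator {U | near fd r x U}
          (fun U => Γ ^ pack fd r U * act w a r (fun _ => True) K U) U := by
        refine Finset.sum_le_sum fun U hU => ?_
        obtain ⟨hUΛ, u, hu⟩ := mem_nes.1 hU
        obtain ⟨x, hx, hxu⟩ := hnet u (hΛ u (hUΛ hu))
        refine le_trans ?_ (Finset.single_le_sum
          (f := fun x => Set.indicator {U | near fd r x U}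
            (fun U => Γ ^ pack fd r U * act w a r (fun _ => True) K U) U)
          (fun _ _ => zero_le) hx)
        rw [Set.indicator_of_mem (by exact ⟨u, hu, hxu⟩), act_of trivial]
        calc pnorm g (K U) ≤ pnorm (wU w a r U) (K U) := pnorm_le_pnorm (fun l => le_wU hg U l) _
          _ = 1 * pnorm (wU w a r U) (K U) := (one_mul _).symm
          _ ≤ Γ ^ pack fd r U * pnorm (wU w a r U) (K U) :=
              mul_le_mul_left (one_le_pow₀ hΓ) _
    _ = ∑ x ∈ net, ∑ U ∈ nes Λ, Set.indicator {U | near fd r x U}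
          (fun U => Γ ^ pack fd r U * act w a r (fun _ => True) K U) U := Finset.sum_comm
    _ ≤ ∑ x ∈ net, NN fd r Γ (act w a r (fun _ => True) K) :=
        Finset.sum_le_sum fun x _ => (ENNReal.sum_le_tsum _).trans (bs_le_NN _ x)
    _ = net.card * NN fd r Γ (act w a r (fun _ => True) K) := by
        rw [Finset.sum_const, nsmul_eq_mul]
    _ ≤ n * NN fd r Γ (act w a r (fun _ => True) K) :=
        mul_le_mul_left (Nat.cast_le.2 hcard) _

variable {Λ : ℝ} {M K' : ℕ} (D : FRD Λ M K') {w : BW G} {S : HE G → HE G → ℝ}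
  (hS : ∀ h h', S h h' = -S h' h)
  (hinv : ∀ g h', Aop w (fun h => S h h') g = -(Pi.single h' 1 : HE G → ℝ) g)
  (hfin : ∀ h', {h | S h h' ≠ 0}.Finite)

/-- **the last step**: gap `m`, scale `r ≤ 2 ^ J`, amplitude `a ≥ 7 √(C/(m r))` -/
theorem last_step (hM : MM ≤ M) {m : ℝ} (hm : 0 < m)
    (hgap : ABtw (preF (HE G)) (AopF w) (m ^ 2) Λ) {J r : ℕ} (hr1 : 1 ≤ r) (hr : r ≤ 2 ^ J)
    {a : ℝ} (ha : 0 < a) (hq : 7 * √(D.C / (m * r)) ≤ a) {Γ : ℝ≥0∞} (hΓ : 1 ≤ Γ) {s n : ℕ}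
    (hcov : Cov (fd : G × G → G × G → ℕ) s r n) (f₀ : G × G) {Vol : Finset (G × G)}
    (hVol : ∀ f ∈ Vol, fd f₀ f ≤ s) (near : G × G → G × G → Prop)
    (K : Finset (G × G) → Ge (Fld G)) {b : ℝ} (hb : 0 ≤ b)
    (hN : NK w a r Γ (fun _ => True) (fun U => (K U : Gr (Fld G))) ≤ ENNReal.ofReal b) :
    |EE (restC D hS hinv hfin J) ((ZZ near Vol K : Ge (Fld G)) : Gr (Fld G)) - 1| ≤
      Real.exp (n * b) - 1 := by
  have hgram := restC_gram D hS hinv hfin hm hgap J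
  have h0 : ABtw (preF (HE G)) (AopF w) 0 Λ := fun x =>
    ⟨(by
      rw [zero_mul]
      exact le_trans (mul_nonneg (sq_nonneg m) ((preF (HE G)).nonneg x)) (hgap x).1), (hgap x).2⟩
  have hg : ∀ x l, gr D w m J l ≤ wt w a r x l := by
    intro x l
    refine (gr_le_wt D hM hm h0 J r hr1 hr ha x l).trans ?_
    calc ENNReal.ofReal (7 * √(D.C / (m * r)) / a) * wt w a r x l
        ≤ ENNReal.ofReal 1 * wt w a r x l := by
          refine mul_le_mul_left (ENNReal.ofReal_le_ofReal ?_) _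
          rw [div_le_one ha]
          exact hq
      _ = wt w a r x l := by rw [ENNReal.ofReal_one, one_mul]
  refine EE_zz_sub_one hgram near Vol K (by positivity) ?_
  refine (sum_le_NK hΓ hcov f₀ hVol hg fun U => (K U : Gr (Fld G))).trans ?_
  rw [ENNReal.ofReal_mul (by positivity), ENNReal.ofReal_natCast]
  exact mul_le_mul_right hN _


end gen

end Crest.Agent.R165.TorLastx723
end
end

-- ▼ part R165/PPc_63
section

/-!
# Row 165 (S0250), torus block, PP sector (helper63)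

Zero modes against the local weights of `GDef_387`: a field configuration `φ` with `A φ = 0` and
`|φ|₂ ≤ 1` has `|l(φ)| ≤ (a √r)⁻¹ wt l`, so each of the two zero-mode derivations costs
`(a √r)⁻¹` at the last scale `r ~ N`.
-/

set_option autoImplicit false
set_option linter.unusedSectionVars false

noncomputable section

open scoped ENNReal
open Crest.Agent.R165.Gr0x606 Crest.Agent.R165.Latx683 Crest.Agent.R165.PNormx417
open Crest.Agent.R165.GDefx387

namespace Crest.Agent.R165.PPcx63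

variable {G : Type} [CommRing G] [CN G]

/-- a null vector is killed by all powers of `A` -/
theorem iter_zero (w : BW G) {φ : HE G → ℝ} (h : Aop w φ = 0) (n : ℕ) :
    (Aop w)^[n + 1] φ = 0 := by
  induction n with
  | zero => simpa using h
  | succ n ih => rw [Function.iterate_succ_apply', ih, map_zero]

theorem l2_zero : l2 (0 : HE G → ℝ) = 0 := by simp [l2]

theorem restr_zero (Z : Set (G × G)) : restr Z (0 : HE G → ℝ) = 0 := by
  funext h; simp [restr]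

theorem l2_restr_le (Z : Set (G × G)) {φ : HE G → ℝ} (hφ : Summable fun h => φ h ^ 2) :
    l2 (restr Z φ) ≤ l2 φ := by
  unfold l2
  refine Real.sqrt_le_sqrt ?_
  have h1 : ∀ h, restr Z φ h ^ 2 ≤ φ h ^ 2 := by
    intro h
    unfold restr
    split_ifs
    · exact le_rfl
    · simpa using sq_nonneg (φ h)
  exact (Summable.of_nonneg_of_le (fun h => sq_nonneg _) h1 hφ).tsum_le_tsum h1 hφ

/-- the test seminorm of a null vector is its local Euclidean norm -/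
theorem nnB_null_le (w : BW G) (r : ℕ) (x : G × G) {φ : HE G → ℝ} (h : Aop w φ = 0)
    (hφ : Summable fun h => φ h ^ 2) : nnB w r x φ ≤ l2 φ := by
  unfold nnB
  rw [Finset.sum_range_succ']
  have h0 : ∀ n ∈ Finset.range MM, (r : ℝ) ^ (n + 1) *
      l2 (restr (ball x (s1 * r)) ((Aop w)^[n + 1] φ)) = 0 := by
    intro n _
    rw [iter_zero w h, restr_zero, l2_zero, mul_zero]
  rw [Finset.sum_eq_zero h0, zero_add, pow_zero, one_mul]
  exact l2_restr_le _ hφ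

/-- **a normalised null vector is small against the local weight** -/
theorem pair_null_le (w : BW G) {a : ℝ} (ha : 0 < a) {r : ℕ} (hr : 0 < r) (x : G × G)
    {φ : HE G → ℝ} (h : Aop w φ = 0) (hφ : Summable fun h => φ h ^ 2) (h1 : l2 φ ≤ 1)
    (l : Fld G) :
    ENNReal.ofReal |pair l φ| ≤ ENNReal.ofReal (a * Real.sqrt r)⁻¹ * wt w a r x l := by
  have hr' : (0 : ℝ) < Real.sqrt r := Real.sqrt_pos.2 (by exact_mod_cast hr)
  have hpos : 0 < a * Real.sqrt r := mul_pos ha hr'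
  unfold wt
  rw [← mul_assoc, ← ENNReal.ofReal_mul (inv_nonneg.2 hpos.le), inv_mul_cancel₀ hpos.ne',
    ENNReal.ofReal_one, one_mul]
  exact le_iSup (fun f : {f : HE G → ℝ // nnB w r x f ≤ 1} => ENNReal.ofReal |pair l f.1|)
    ⟨φ, (nnB_null_le w r x h hφ).trans h1⟩


/-- evaluation at a configuration, as a linear form -/
def ev (φ : HE G → ℝ) : Module.Dual ℝ (Fld G) := Finsupp.linearCombination ℝ φ

theorem ev_apply (φ : HE G → ℝ) (l : Fld G) : ev φ l = pair l φ := by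
  rw [ev, Finsupp.linearCombination_apply]; rfl

theorem enorm_ev (φ : HE G → ℝ) (l : Fld G) : ‖ev φ l‖ₑ = ENNReal.ofReal |pair l φ| := by
  rw [ev_apply, ← Real.norm_eq_abs, ofReal_norm]


end Crest.Agent.R165.PPcx63
end
end

-- ▼ part R165/TorLim_917
section

/-!
# Row 165 (S0250), leaf T8i (helper917): the last step in the four sectors of the torus

* `hA_mulVec`, `wT_eq` : the matrix of 599 = `Aop` of 683; sector weights in the three notations
* `tor_gap` : gap `1 / (Kg M)` of the sectors AA, AP, PA in the form `ABtw` of 439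
* `tor_last` : `|EE rest (ZZ near univ K) - 1| ≤ exp (n0 b) - 1`, `n0 = n0 c'`
* `ZE_flow` : the weight of a sector through the flow
* PP sector: `negInvZ`, `restZ_one`, `restZ_gram`, `PP_flow`, `PP_last`, `PP_bound`
-/

set_option autoImplicit false
set_option linter.unusedSectionVars false

noncomputable section

open Finset Filter Topology
open scoped ENNReal
open Crest.Agent.R165.Packx915 Crest.Agent.R165.NSumx915 Crest.Agent.R165.Bridgex915
open Crest.Agent.R165.Latx683 Crest.Agent.R165.GDefx387 Crest.Agent.R165.Gr0x606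
open Crest.Agent.R165.Gr1x606 Crest.Agent.R165.PNormx417 Crest.Agent.R165.FinBx900
open Crest.Agent.R165.FRDPolyx439 Crest.Agent.R165.FRDAbsx439 Crest.Agent.R165.FRDLatx439
open Crest.Agent.R165.FRDInfx439
open Crest.Agent.R165.FRDRestx439 Crest.Agent.R165.KStepx892 Crest.Agent.R165.KFlowx337
open Crest.Agent.R165.GeOpsx337 Crest.Agent.R165.GSysx387 Crest.Agent.R165.Covx359
open Crest.Agent.R165.TorGapBx63 (Kg Kg_pos)

namespace Crest.Agent.R165.TorLimx917

variable {M : ℕ} [NeZero M]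

/-! ### the matrix and the operator -/

section mat

open Matrix


theorem wTor_eq (ε₁ ε₂ : ℝ) : TorChartx723.wTor M ε₁ ε₂ = TorDetx599.wS M xc ε₁ ε₂ := by
  funext z j
  unfold TorChartx723.wTor TorDetx599.wS
  ring

theorem wT_eq (s : Fin 2 × Fin 2) : Covx359.wT M s =
    TorDetx599.wS M xc (if s.2 = 0 then 1 else -1) (if s.1 = 0 then 1 else -1) :=
  TorBrx599.sec_eq M s xc

theorem wT_eq_tor (s : Fin 2 × Fin 2) : Covx359.wT M s =
    TorChartx723.wTor M (if s.2 = 0 then 1 else -1) (if s.1 = 0 then 1 else -1) := by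
  rw [wT_eq, wTor_eq]

theorem sgn_sq (i : Fin 2) : (if i = 0 then (1 : ℝ) else -1) ^ 2 = 1 := by
  split_ifs <;> norm_num

theorem abs_wT (s : Fin 2 × Fin 2) (z : ZMod M × ZMod M) (j : Fin 2) :
    |Covx359.wT M s z j| ≤ 1 := by
  rw [wT_eq]
  unfold TorDetx599.wS
  have h1 : |xc| ≤ 1 := by
    have h2 := TorGapAx63.xc_bounds
    have h3 : Tr1x40.xc = xc := rfl
    rw [← h3, abs_of_pos h2.1]
    linarith [h2.2]
  rw [abs_mul]
  refine mul_le_one₀ h1 (abs_nonneg _) ?_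
  split_ifs <;> norm_num

end mat

/-! ### the gap -/

theorem dotF_self (x : Fld (ZMod M)) :
    dotF (Latx683.HE (ZMod M)) x x = TorGapBx63.n2 (x : Latx683.HE (ZMod M) → ℝ) := by
  rw [dotF_eq_sum x x univ (subset_univ _)]
  exact sum_congr rfl fun i _ => (sq _).symm

/-- **the gap of the sectors AA, AP, PA** -/
theorem tor_gap {s : Fin 2 × Fin 2} (hs : s ≠ (0, 0)) :
    ABtw (preF (Latx683.HE (ZMod M))) (AopF (Covx359.wT M s)) (((Kg * M)⁻¹) ^ 2) 16 := by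
  have hM : (0 : ℝ) < M := by exact_mod_cast NeZero.pos M
  have hK := Kg_pos
  intro x
  refine ⟨?_, (AopF_bdd _ (abs_wT s) x).2⟩
  rw [preF_ip, preF_ip, dotF_self, dotF_self, AopF_coe, wT_eq, inv_pow,
    inv_mul_le_iff₀ (by positivity)]
  refine TorGapBx63.gap_anti (sgn_sq _) (sgn_sq _) ?_ _
  by_cases h2 : s.2 = 0
  · right
    have h1 : s.1 ≠ 0 := fun h => hs (Prod.ext h h2)
    rw [if_neg h1]
  · left; rw [if_neg h2]

/-! ### the last step in the sectors AA, AP, PA -/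

/-- number of balls at the last scale -/
def n0 (c' : ℝ) : ℝ := (1 / c' + 3) ^ 2

theorem n0_pos {c' : ℝ} (hc : 0 < c') : 0 < n0 c' := by unfold n0; positivity

theorem cov_card {c' : ℝ} (hc : 0 < c') {r : ℕ} (hr : 0 < r) (hcr : c' * M ≤ r) :
    ((((2 * ((M / 2) / r) + 3) ^ 2 : ℕ)) : ℝ) ≤ n0 c' := by
  have hr' : (0 : ℝ) < r := by exact_mod_cast hr
  have h1 : (2 * (((M / 2) / r : ℕ) : ℝ)) ≤ 1 / c' := by
    have h2 : (((M / 2) / r : ℕ) : ℝ) ≤ ((M / 2 : ℕ) : ℝ) / r := Nat.cast_div_le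
    have h3 : ((M / 2 : ℕ) : ℝ) ≤ (M : ℝ) / 2 := Nat.cast_div_le
    have h4 : ((M / 2 : ℕ) : ℝ) / r ≤ (M : ℝ) / 2 / r := by gcongr
    have h5 : 2 * ((M : ℝ) / 2 / r) ≤ 1 / c' := by
      rw [show 2 * ((M : ℝ) / 2 / r) = M / r by ring, div_le_div_iff₀ hr' hc]
      linarith
    linarith
  unfold n0
  push_cast
  have h6 : (0 : ℝ) ≤ 2 * (((M / 2) / r : ℕ) : ℝ) + 3 := by positivity
  exact pow_le_pow_left₀ h6 (by linarith) 2

/-- smallest amplitude for which the last step works -/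
def A0 (C c' : ℝ) : ℝ := 28 * √(C * Kg / c')

theorem A0_pos {C c' : ℝ} (hC : 0 < C) (hc : 0 < c') : 0 < A0 C c' := by
  have := Kg_pos
  unfold A0; positivity

theorem amp_le {C c' : ℝ} (hC : 0 < C) (hc : 0 < c') {r : ℕ} (hr : 0 < r) (hcr : c' * M ≤ r) :
    7 * √(C / ((Kg * M)⁻¹ * r)) ≤ A0 C c' / 4 := by
  have hr' : (0 : ℝ) < r := by exact_mod_cast hr
  have hM : (0 : ℝ) < M := by exact_mod_cast NeZero.pos M
  have hK := Kg_pos
  have h1 : C / ((Kg * M)⁻¹ * r) ≤ C * Kg / c' := by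
    have e1 : C / ((Kg * M)⁻¹ * r) = C * Kg * (M / r) := by field_simp
    have e2 : C * Kg / c' = C * Kg * (1 / c') := by ring
    rw [e1, e2]
    refine mul_le_mul_of_nonneg_left ?_ (by positivity)
    rw [div_le_div_iff₀ hr' hc]
    linarith
  have h2 := Real.sqrt_le_sqrt h1
  unfold A0
  linarith

section last

variable {Mm K' : ℕ} (D : FRD 16 Mm K') {s : Fin 2 × Fin 2}
  {S : Latx683.HE (ZMod M) → Latx683.HE (ZMod M) → ℝ}




end last

end Crest.Agent.R165.TorLimx917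
end
end

-- ▼ part R165/TorRest_63
section

/-!
# Row 165 (S0250): the last covariance on the torus (helper63)

* `Aop_eq_hA`  : the operator of `Lat_683` is the matrix of `TorDet_599` (torus)
* `abtw`       : `m² |l|² ≤ |A l|²` in the three nonsingular sectors, `m = 1 / (Kg M)`
* `isNegInvZ`  : the covariance `-BP` of the doubly periodic sector is `-A⁻¹` off the zero modes
* `cF_PP`      : `-BP = ∑ slices + rest`; `restPP_gram` : Gram weight `gr` of the rest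
* `ZE_PP_split`: the doubly periodic sector after the slices
-/

set_option autoImplicit false
set_option linter.unusedSectionVars false

noncomputable section

namespace Crest.Agent.R165.TorRestx63

open scoped ENNReal
open Matrix
open Polynomial Crest.Agent.R165.Gr0x606 Crest.Agent.R165.PNormx417
  Crest.Agent.R165.GDefx387 Crest.Agent.R165.FRDAbsx439 Crest.Agent.R165.FRDPolyx439
  Crest.Agent.R165.FRDInfx439 Crest.Agent.R165.FRDLatx439 Crest.Agent.R165.FRDRestx439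
open Crest.Agent.R165.Latx683 (HE BW Aop Fld yE yN)
open Crest.Agent.R165.TorDetx599 (hA hA_t wS)
open Crest.Agent.R165.TorSecx599 (BP ZP u1 u2 ker2_PP hA_mulVec_face)
open Crest.Agent.R165.TorBrx599 Crest.Agent.R165.TorGapBx63

variable {M : ℕ} [NeZero M]

/-! ### the operator is the matrix -/

theorem Aop_eq_hA (w : BW (ZMod M)) (φ : HE (ZMod M) → ℝ) : Aop w φ = hA w *ᵥ φ := by
  funext h
  obtain ⟨⟨i, j⟩, k⟩ := h
  rw [hA_mulVec_face]
  fin_cases k
  · simp [Latx683.Aop_S, yN, TorDetx599.sgn4, Fin.sum_univ_four]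
  · simp [Latx683.Aop_E, yE, TorDetx599.sgn4, Fin.sum_univ_four]
  · simp [Latx683.Aop_N, yN, TorDetx599.sgn4, Fin.sum_univ_four]
    ring
  · simp [Latx683.Aop_W, yE, TorDetx599.sgn4, Fin.sum_univ_four]
    ring

theorem dotF_eq (x y : Fld (ZMod M)) : dotF (HE (ZMod M)) x y = ∑ h, x h * y h :=
  dotF_eq_sum x y Finset.univ (Finset.subset_univ _)

theorem dotF_self (x : Fld (ZMod M)) : dotF (HE (ZMod M)) x x = n2 (x : HE (ZMod M) → ℝ) := by
  rw [dotF_eq, n2]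
  exact Finset.sum_congr rfl fun h _ => by ring

/-! ### gap of the nonsingular sectors -/

/-- the gap -/
def mg (M : ℕ) : ℝ := 1 / (Kg * M)

theorem mg_pos : 0 < mg M := by
  have := Kg_pos
  have : (0 : ℝ) < M := by exact_mod_cast NeZero.pos M
  unfold mg; positivity

theorem xc_le_one : |Tr1x40.xc| ≤ 1 := by
  rw [abs_of_pos Tr1x40.xc_pos]; linarith [Tr1x40.xc_lt_half]

theorem wT_abs {a b : ℝ} (ha : a ^ 2 = 1) (hb : b ^ 2 = 1) (z : ZMod M × ZMod M) (j : Fin 2) :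
    |wT M a b z j| ≤ 1 := by
  have ha' : |a| = 1 := by
    have : |a| ^ 2 = 1 := by rw [sq_abs, ha]
    nlinarith [abs_nonneg a]
  have hb' : |b| = 1 := by
    have : |b| ^ 2 = 1 := by rw [sq_abs, hb]
    nlinarith [abs_nonneg b]
  unfold wT TorDetx599.wS
  rw [abs_mul]
  have h1 : |if j = 1 then (if z.1 = 0 then a else 1) else if z.2 = 0 then b else 1| = 1 := by
    split_ifs <;> simp [ha', hb']
  rw [h1, mul_one]
  exact xc_le_one

theorem abtw0 {a b : ℝ} (ha : a ^ 2 = 1) (hb : b ^ 2 = 1) :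
    ABtw (preF (HE (ZMod M))) (AopF (wT M a b)) 0 16 := AopF_bdd _ (wT_abs ha hb)


/-! ### the doubly periodic sector -/

/-- linear maps on the fields from maps on functions -/
def un (T : (HE (ZMod M) → ℝ) →ₗ[ℝ] (HE (ZMod M) → ℝ)) : Fld (ZMod M) →ₗ[ℝ] Fld (ZMod M) :=
  (Finsupp.linearEquivFunOnFinite ℝ ℝ (HE (ZMod M))).symm.toLinearMap ∘ₗ T ∘ₗ
    (Finsupp.linearEquivFunOnFinite ℝ ℝ (HE (ZMod M))).toLinearMap

theorem un_coe (T : (HE (ZMod M) → ℝ) →ₗ[ℝ] (HE (ZMod M) → ℝ)) (x : Fld (ZMod M)) :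
    (un T x : HE (ZMod M) → ℝ) = T (x : HE (ZMod M) → ℝ) := by
  unfold un
  funext h
  simp only [LinearMap.comp_apply, LinearEquiv.coe_coe]
  have := congrFun (LinearEquiv.apply_symm_apply (Finsupp.linearEquivFunOnFinite ℝ ℝ (HE (ZMod M)))
    (T (x : HE (ZMod M) → ℝ))) h
  exact this

theorem fld_ext {x y : Fld (ZMod M)} (h : (x : HE (ZMod M) → ℝ) = y) : x = y := DFunLike.ext' h

/-- projection on the zero modes, on functions -/
def Zf : (HE (ZMod M) → ℝ) →ₗ[ℝ] (HE (ZMod M) → ℝ) :=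
  (vecMulVec (u1 M) (u1 M) + vecMulVec (u2 M) (u2 M)).mulVecLin

theorem Zf_apply (φ : HE (ZMod M) → ℝ) :
    Zf φ = (u1 M ⬝ᵥ φ) • u1 M + (u2 M ⬝ᵥ φ) • u2 M := by
  unfold Zf
  rw [mulVecLin_apply, add_mulVec, vecMulVec_mulVec, vecMulVec_mulVec]
  simp

/-- projection on the zero modes -/
def ZF (M : ℕ) [NeZero M] : Fld (ZMod M) →ₗ[ℝ] Fld (ZMod M) := un Zf

/-- the operator `-BP` -/
def SB (M : ℕ) [NeZero M] : Fld (ZMod M) →ₗ[ℝ] Fld (ZMod M) := un (-(BP M)).mulVecLin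

theorem ZF_coe (x : Fld (ZMod M)) : (ZF M x : HE (ZMod M) → ℝ) =
    (u1 M ⬝ᵥ (x : HE (ZMod M) → ℝ)) • u1 M + (u2 M ⬝ᵥ (x : HE (ZMod M) → ℝ)) • u2 M := by
  rw [ZF, un_coe, Zf_apply]

theorem SB_coe (x : Fld (ZMod M)) : (SB M x : HE (ZMod M) → ℝ) = -(BP M) *ᵥ x := by
  rw [SB, un_coe, mulVecLin_apply]

theorem A_coe (x : Fld (ZMod M)) : (AopF (wT M 1 1) x : HE (ZMod M) → ℝ) =
    hA (wS M TorSecx599.xc 1 1) *ᵥ (x : HE (ZMod M) → ℝ) := by
  rw [AopF_coe, Aop_eq_hA]; rfl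

theorem preF_eq (x y : Fld (ZMod M)) : (preF (HE (ZMod M))).ip x y =
    (x : HE (ZMod M) → ℝ) ⬝ᵥ (y : HE (ZMod M) → ℝ) := by
  rw [preF_ip, dotF_eq]; rfl

theorem ba : BP M * hA (wS M TorSecx599.xc 1 1) =
    1 - vecMulVec (u1 M) (u1 M) - vecMulVec (u2 M) (u2 M) := by
  have h := ker2_PP M
  have h1 := congrArg transpose h.ab
  rw [transpose_mul, h.anti, h.banti, neg_mul_neg] at h1
  rw [h1, transpose_sub, transpose_sub, transpose_one, transpose_vecMulVec, transpose_vecMulVec]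

theorem isNegInvZ : IsNegInvZ (preF (HE (ZMod M))) (AopF (wT M 1 1)) (SB M) (ZF M) := by
  have h := ker2_PP M
  have hproj : ∀ φ : HE (ZMod M) → ℝ,
      (1 - vecMulVec (u1 M) (u1 M) - vecMulVec (u2 M) (u2 M)) *ᵥ φ =
        φ - ((u1 M ⬝ᵥ φ) • u1 M + (u2 M ⬝ᵥ φ) • u2 M) := by
    intro φ
    rw [sub_mulVec, sub_mulVec, one_mulVec, vecMulVec_mulVec, vecMulVec_mulVec]
    simp [sub_sub]
  refine ⟨fun x => fld_ext ?_, fun x => fld_ext ?_, fun x => fld_ext ?_, fun x y => ?_,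
    fun x => fld_ext ?_, fun x => fld_ext ?_⟩
  · rw [A_coe, SB_coe, neg_mulVec, mulVec_neg, mulVec_mulVec, h.ab, hproj, Finsupp.coe_neg,
      Finsupp.coe_sub, ZF_coe]
  · rw [SB_coe, A_coe, neg_mulVec, mulVec_mulVec, ba, hproj, Finsupp.coe_neg,
      Finsupp.coe_sub, ZF_coe]
  · rw [ZF_coe, ZF_coe]
    simp only [dotProduct_add, dotProduct_smul, smul_eq_mul]
    rw [h.n1, h.n2, h.o, dotProduct_comm (u2 M) (u1 M), h.o]
    simp
  · rw [preF_eq, preF_eq, ZF_coe, ZF_coe]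
    simp only [dotProduct_add, add_dotProduct, dotProduct_smul, smul_dotProduct, smul_eq_mul]
    rw [dotProduct_comm (x : HE (ZMod M) → ℝ) (u1 M), dotProduct_comm (x : HE (ZMod M) → ℝ) (u2 M)]
    ring
  · rw [A_coe, ZF_coe, mulVec_add, mulVec_smul, mulVec_smul, h.a1, h.a2]
    simp
  · rw [ZF_coe, SB_coe]
    have e : ∀ (u : HE (ZMod M) → ℝ), BP M *ᵥ u = 0 → u ⬝ᵥ (-(BP M) *ᵥ (x : HE (ZMod M) → ℝ)) = 0 := by
      intro u hu
      rw [dotProduct_mulVec, ← mulVec_transpose, transpose_neg, h.banti, neg_neg, hu,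
        zero_dotProduct]
    rw [e _ h.b1, e _ h.b2]
    simp

/-- the gap off the zero modes -/
theorem gapZ (x : Fld (ZMod M)) : mg M ^ 2 * (preF (HE (ZMod M))).ip (x - ZF M x) (x - ZF M x) ≤
    (preF (HE (ZMod M))).ip (AopF (wT M 1 1) x) (AopF (wT M 1 1) x) := by
  have h := ker2_PP M
  have hz := isNegInvZ (M := M)
  have e1 : AopF (wT M 1 1) x = AopF (wT M 1 1) (x - ZF M x) := by
    rw [map_sub, hz.AZ, sub_zero]
  rw [e1]
  set y := x - ZF M x with hy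
  have hu : ∀ u : HE (ZMod M) → ℝ, (u = u1 M ∨ u = u2 M) → ∑ h, u h * y h = 0 := by
    intro u hu
    have e2 : u ⬝ᵥ (y : HE (ZMod M) → ℝ) = 0 := by
      rw [hy, Finsupp.coe_sub, ZF_coe]
      simp only [dotProduct_sub, dotProduct_add, dotProduct_smul, smul_eq_mul]
      rcases hu with rfl | rfl
      · rw [h.n1, h.o]; ring
      · rw [h.n2, dotProduct_comm (u2 M) (u1 M), h.o]; ring
    exact e2
  have hg := gap_per (y : HE (ZMod M) → ℝ) (hu _ (Or.inl rfl)) (hu _ (Or.inr rfl))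
  rw [preF_ip, preF_ip, dotF_self, dotF_self, AopF_coe]
  have hK := Kg_pos
  have hM : (0 : ℝ) < M := by exact_mod_cast NeZero.pos M
  have h1 : mg M ^ 2 * (Kg * M) ^ 2 = 1 := by
    unfold mg; field_simp
  calc mg M ^ 2 * n2 (y : HE (ZMod M) → ℝ)
      ≤ mg M ^ 2 * ((Kg * M) ^ 2 * n2 (Aop (wT M 1 1) (y : HE (ZMod M) → ℝ))) := by gcongr
    _ = n2 (Aop (wT M 1 1) (y : HE (ZMod M) → ℝ)) := by rw [← mul_assoc, h1, one_mul]

theorem mg_sq_le : mg M ^ 2 ≤ 16 := by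
  have hM : (1 : ℝ) ≤ M := by exact_mod_cast NeZero.pos M
  have hc := Tr2x40.c0_pos
  have hc1 := c0_lt
  have hK : (1 : ℝ) ≤ Kg := by
    unfold Kg; rw [le_div_iff₀ hc]; linarith
  have h1 : mg M ≤ 1 := by
    unfold mg; rw [div_le_one (by positivity)]; nlinarith
  have := mg_pos (M := M)
  nlinarith

/-- the rest covariance of the doubly periodic sector -/
def restPP {N K : ℕ} (D : FRD 16 N K) (M : ℕ) [NeZero M] (J : ℕ) : Cov (Fld (ZMod M)) :=
  restZ (AopF_asy (wT M 1 1)) (isNegInvZ (M := M)) (D.r J)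

/-- Gram weight of the rest, doubly periodic sector -/
theorem restPP_gram {N K : ℕ} (D : FRD 16 N K) (J : ℕ) :
    Gram (restPP D M J) (gr D (wT M 1 1) (mg M) J) := by
  intro L
  have o : (1 : ℝ) ^ 2 = 1 := one_pow 2
  have hm := mg_pos (M := M)
  have hA := AopF_asy (wT M 1 1)
  have hb := abtw0 (M := M) o o
  have hp : ∀ t, 0 ≤ t → t ≤ (16 : ℝ) → 0 ≤ (D.r J).eval t := fun t h1 h2 => D.r_nonneg J t h1 h2
  have h1 : |EE (restPP D M J) (L.map fi).prod| ≤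
      (L.map fun x => √(((mg M)⁻¹ • Crest.Agent.R165.FRDAbsx439.BP (preF (HE (ZMod M)))
        (QA (AopF (wT M 1 1))) (D.r J)) x x)).prod := by
    refine Crest.Agent.R165.GramHx439.gram_hadamard _ ((mg M)⁻¹ • Crest.Agent.R165.FRDAbsx439.BP
      (preF (HE (ZMod M))) (QA (AopF (wT M 1 1))) (D.r J)) ?_ ?_
      (restZ_le hA isNegInvZ hm mg_sq_le hb gapZ (D.r J) hp) L
    · intro x y
      simp only [LinearMap.smul_apply]
      rw [BP_symm hA.sy]
    · intro x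
      simp only [LinearMap.smul_apply, smul_eq_mul]
      have := BP_nonneg hA.sy (hb.btw hA) (D.r J) hp x
      positivity
  unfold gr
  rw [mwt_ofReal (fun l => √(((mg M)⁻¹ • Crest.Agent.R165.FRDAbsx439.BP (preF (HE (ZMod M)))
    (QA (AopF (wT M 1 1))) (D.r J)) l l)) (fun l => Real.sqrt_nonneg _), Real.enorm_eq_ofReal_abs]
  exact ENNReal.ofReal_le_ofReal h1

/-- **decomposition of the covariance of the doubly periodic sector** -/
theorem cF_PP {N K : ℕ} (D : FRD 16 N K) (J : ℕ) :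
    cF M (-(BP M)) = SopC D (wT M 1 1) 0 J + restPP D M J := by
  have h := sum_slice_add_restZ D (AopF_asy (wT M 1 1)) (isNegInvZ (M := M)) J
  have h1 : SopC D (wT M 1 1) 0 J =
      ∑ j ∈ Finset.range J, FRDInfx439.slice D (AopF_asy (wT M 1 1)) j := by
    unfold SopC; rw [Nat.Ico_zero_eq_range]
  unfold restPP
  rw [h1, h]
  apply Cov.ext
  refine LinearMap.ext fun x => LinearMap.ext fun y => ?_
  have hB : (-(BP M))ᵀ = -(-(BP M)) := by
    rw [transpose_neg, (ker2_PP M).banti]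
  show (Pfx599.cv (-(BP M))).b (kp M x) (kp M y) =
    (preF (HE (ZMod M))).ip x (SB M (Polynomial.aeval (QA (AopF (wT M 1 1))) 1 y))
  rw [map_one, Module.End.one_apply, preF_eq, SB_coe, Pfx599.cv_b hB]
  rfl


end Crest.Agent.R165.TorRestx63
end
end

-- ▼ part R165/TorRest2_63
section

/-!
# Row 165 (S0250): the torus sectors after the slices (helper63)

* `wT_eq_wTor`, `wT359` : one background under its three names
* `gapS`        : the gap of the sectors `s ≠ (0, 0)` in the form used by `restC_gram`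
* `ZE_sector_split` : `ZE` in the sectors `s ≠ (0, 0)` after the slices `j < J`
* `pp_last_step`: the last step in the sector with two zero modes
* `pp_flow`     : exact identity of the flow in this sector
* `pp_flow_last`, `pp_flow_last'` : the bound, absolute and relative to the antiperiodic sector
-/

set_option autoImplicit false
set_option linter.unusedSectionVars false

noncomputable section

namespace Crest.Agent.R165.TorRest2x63

open Finset
open scoped ENNReal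
open Crest.Agent.R165.Packx915 Crest.Agent.R165.NSumx915 Crest.Agent.R165.Bridgex915
open Crest.Agent.R165.Gr0x606 Crest.Agent.R165.Gr1x606 Crest.Agent.R165.PNormx417
  Crest.Agent.R165.GDefx387 Crest.Agent.R165.FRDAbsx439 Crest.Agent.R165.FRDPolyx439
  Crest.Agent.R165.FRDInfx439 Crest.Agent.R165.FRDLatx439 Crest.Agent.R165.FRDRestx439
  Crest.Agent.R165.KStepx892 Crest.Agent.R165.KFlowx337 Crest.Agent.R165.GeOpsx337
  Crest.Agent.R165.FinBx900 Crest.Agent.R165.ExpGx337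
open Crest.Agent.R165.Latx683 (HE BW Aop Fld IsCov covS)
open Crest.Agent.R165.TorDetx599 (hA wS)
open Crest.Agent.R165.TorSecx599 (BP ZP u1 u2 ker2_PP)
open Crest.Agent.R165.TorusJ1x922 (ZE sec)
open Crest.Agent.R165.TorusCombx922 (Ed)
open Crest.Agent.R165.TorBrx599 Crest.Agent.R165.TorGapBx63 Crest.Agent.R165.TorRestx63

variable {M : ℕ} [NeZero M]

/-! ### names -/




theorem wT_eq_wTor (a b : ℝ) : wT M a b = TorChartx723.wTor M a b := by
  funext z j
  simp only [wT, wS, TorChartx723.wTor]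
  have hj : j = 0 ∨ j = 1 := by omega
  rcases hj with rfl | rfl
  · simp [Tr1x40.xc, Latx683.xc, mul_comm]
  · simp [Tr1x40.xc, Latx683.xc, mul_comm]


/-! ### nonsingular sectors -/




/-! ### the sector with two zero modes -/

/-- the common local weight -/
def wI (w : BW (ZMod M)) (a : ℝ) (r : ℕ) (l : Fld (ZMod M)) : ℝ≥0∞ := ⨅ x, wt w a r x l

theorem wI_le (w : BW (ZMod M)) (a : ℝ) (r : ℕ) (x : ZMod M × ZMod M) (l : Fld (ZMod M)) :
    wI w a r l ≤ wt w a r x l := iInf_le _ x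

theorem gr4_le {N K : ℕ} (D : FRD 16 N K) (hN : MM ≤ N) {J r : ℕ} (hr1 : 1 ≤ r) (hr : r ≤ 2 ^ J)
    {a : ℝ} (ha : 0 < a) (hq : 28 * √(D.C / (mg M * r)) ≤ a) (l : Fld (ZMod M)) :
    4 * gr D (wT M 1 1) (mg M) J l ≤ wI (wT M 1 1) a r l := by
  have hm := mg_pos (M := M)
  refine le_iInf fun x => ?_
  have h := gr_le_wt D hN hm (abtw0 (M := M) (one_pow 2) (one_pow 2)) J r hr1 hr ha x l
  have h1 : 7 * √(D.C / (mg M * r)) / a ≤ 1 / 4 := by
    rw [div_le_iff₀ ha]; linarith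
  calc 4 * gr D (wT M 1 1) (mg M) J l
      ≤ 4 * (ENNReal.ofReal (7 * √(D.C / (mg M * r)) / a) * wt (wT M 1 1) a r x l) := by gcongr
    _ ≤ 4 * (ENNReal.ofReal (1 / 4) * wt (wT M 1 1) a r x l) := by gcongr
    _ = wt (wT M 1 1) a r x l := by
        rw [← mul_assoc]
        have h4 : (4 : ℝ≥0∞) = ENNReal.ofReal 4 := by norm_num
        rw [h4, ← ENNReal.ofReal_mul (by norm_num)]
        norm_num

theorem summable_tor (φ : HE (ZMod M) → ℝ) : Summable fun h => φ h ^ 2 :=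
  summable_of_hasFiniteSupport (Set.toFinite _)

theorem l2_tor (φ : HE (ZMod M) → ℝ) : l2 φ = √(∑ h, φ h ^ 2) := by
  unfold l2; rw [tsum_fintype]

theorem l2_u1 : l2 (u1 M) ≤ 1 := by
  have h := (ker2_PP M).n1
  rw [l2_tor]
  have e : ∑ h, u1 M h ^ 2 = 1 := by
    rw [← h]; exact Finset.sum_congr rfl fun h _ => by ring
  rw [e, Real.sqrt_one]

theorem l2_u2 : l2 (u2 M) ≤ 1 := by
  have h := (ker2_PP M).n2
  rw [l2_tor]
  have e : ∑ h, u2 M h ^ 2 = 1 := by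
    rw [← h]; exact Finset.sum_congr rfl fun h _ => by ring
  rw [e, Real.sqrt_one]

theorem A_u1 : Aop (wT M 1 1) (u1 M) = 0 := by
  rw [Aop_eq_hA]; exact (ker2_PP M).a1

theorem A_u2 : Aop (wT M 1 1) (u2 M) = 0 := by
  rw [Aop_eq_hA]; exact (ker2_PP M).a2

theorem z1_eq : z1 M = PPcx63.ev (u1 M) := by
  refine Finsupp.lhom_ext fun h c => ?_
  have e1 : (Finsupp.single h c : Fld (ZMod M)) = c • Finsupp.single h 1 := by
    rw [Finsupp.smul_single, smul_eq_mul, mul_one]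
  rw [e1, map_smul, map_smul, z1_single, PPcx63.ev_apply]
  simp [pair]

theorem z2_eq : z2 M = PPcx63.ev (u2 M) := by
  refine Finsupp.lhom_ext fun h c => ?_
  have e1 : (Finsupp.single h c : Fld (ZMod M)) = c • Finsupp.single h 1 := by
    rw [Finsupp.smul_single, smul_eq_mul, mul_one]
  rw [e1, map_smul, map_smul, z2_single, PPcx63.ev_apply]
  simp [pair]


/-- a normalised null vector against the common local weight -/
theorem ev_wI {a : ℝ} (ha : 0 < a) {r : ℕ} (hr : 0 < r) {φ : HE (ZMod M) → ℝ}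
    (h : Aop (wT M 1 1) φ = 0) (h1 : l2 φ ≤ 1) (l : Fld (ZMod M)) :
    ‖PPcx63.ev φ l‖ₑ ≤ ENNReal.ofReal (a * √r)⁻¹ * wI (wT M 1 1) a r l := by
  have hr' : (0 : ℝ) < √r := Real.sqrt_pos.2 (by exact_mod_cast hr)
  have hpos : 0 < (a * √r)⁻¹ := inv_pos.2 (mul_pos ha hr')
  have hne : ENNReal.ofReal (a * √r)⁻¹ ≠ 0 := by
    rw [Ne, ENNReal.ofReal_eq_zero, not_le]; exact hpos
  unfold wI
  rw [ENNReal.mul_iInf_of_ne hne ENNReal.ofReal_ne_top, PPcx63.enorm_ev]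
  exact le_iInf fun x => PPcx63.pair_null_le _ ha hr x h (summable_tor φ) h1 l

/-- **the last step in the doubly periodic sector**: gap `mg M`, scale `r ≤ 2 ^ J`,
amplitude `a ≥ 28 √(C/(mg M * r))` -/
theorem pp_last_step {N K' : ℕ} (D : FRD 16 N K') (hN : MM ≤ N) {J r : ℕ} (hr1 : 1 ≤ r)
    (hr : r ≤ 2 ^ J) {a : ℝ} (ha : 0 < a) (hq : 28 * √(D.C / (mg M * r)) ≤ a)
    {Γ : ℝ≥0∞} (hΓ : 1 ≤ Γ) {s n : ℕ}
    (hcov : Cov (fd : ZMod M × ZMod M → ZMod M × ZMod M → ℕ) s r n) (f₀ : ZMod M × ZMod M)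
    {Vol : Finset (ZMod M × ZMod M)} (hVol : ∀ f ∈ Vol, fd f₀ f ≤ s)
    (near : ZMod M × ZMod M → ZMod M × ZMod M → Prop)
    (K : Finset (ZMod M × ZMod M) → Ge (Fld (ZMod M))) {b : ℝ} (hb : 0 ≤ b)
    (hK : NK (wT M 1 1) a r Γ (fun _ => True) (fun U => (K U : Gr (Fld (ZMod M)))) ≤
      ENNReal.ofReal b) (Z' : ℝ) :
    |Z' * EE (restPP D M J) (dd (z2 M) (dd (z1 M)
      ((ZZ near Vol K : Ge (Fld (ZMod M))) : Gr (Fld (ZMod M)))))| ≤
      |Z'| * (4 / (a ^ 2 * r)) * (Real.exp (n * b) - 1) := by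
  set w2 : Fld (ZMod M) → ℝ≥0∞ := wI (wT M 1 1) a r with hw2
  set w1 : Fld (ZMod M) → ℝ≥0∞ := fun l => ENNReal.ofReal 2⁻¹ * w2 l with hw1
  have hr' : (0 : ℝ) < √r := Real.sqrt_pos.2 (by exact_mod_cast hr1)
  have ht : 0 ≤ 2 * (a * √r)⁻¹ := by positivity
  have htwo : (2 : ℝ≥0∞) = ENNReal.ofReal 2 := by norm_num
  have h1 : ∀ l, 2 * gr D (wT M 1 1) (mg M) J l ≤ w1 l := by
    intro l
    have h := gr4_le (M := M) D hN hr1 hr ha hq l
    calc 2 * gr D (wT M 1 1) (mg M) J l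
        = ENNReal.ofReal 2⁻¹ * (4 * gr D (wT M 1 1) (mg M) J l) := by
          rw [← mul_assoc]
          congr 1
          have h4 : (4 : ℝ≥0∞) = ENNReal.ofReal 4 := by norm_num
          rw [h4, ← ENNReal.ofReal_mul (by norm_num), htwo]
          norm_num
      _ ≤ ENNReal.ofReal 2⁻¹ * w2 l := by gcongr
  have h2 : ∀ l, 2 * w1 l ≤ w2 l := by
    intro l
    rw [hw1]
    show 2 * (ENNReal.ofReal 2⁻¹ * w2 l) ≤ w2 l
    rw [← mul_assoc, htwo, ← ENNReal.ofReal_mul (by norm_num)]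
    norm_num
  have hu : ∀ φ : HE (ZMod M) → ℝ, Aop (wT M 1 1) φ = 0 → l2 φ ≤ 1 → ∀ l,
      ‖PPcx63.ev φ l‖ₑ ≤ ENNReal.ofReal (2 * (a * √r)⁻¹) * w1 l := by
    intro φ h0 hn l
    refine (ev_wI ha hr1 h0 hn l).trans (le_of_eq ?_)
    rw [hw1]
    show _ = ENNReal.ofReal (2 * (a * √r)⁻¹) * (ENNReal.ofReal 2⁻¹ * w2 l)
    rw [← mul_assoc, ← ENNReal.ofReal_mul ht]
    congr 2
    ring
  have hu2 : ∀ φ : HE (ZMod M) → ℝ, Aop (wT M 1 1) φ = 0 → l2 φ ≤ 1 → ∀ l,
      ‖PPcx63.ev φ l‖ₑ ≤ ENNReal.ofReal (2 * (a * √r)⁻¹) * w2 l := by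
    intro φ h0 hn l
    refine (ev_wI ha hr1 h0 hn l).trans ?_
    gcongr
    have : 0 < (a * √r)⁻¹ := by positivity
    linarith
  have hsum : ∑ U ∈ nes Vol, pnorm w2 (K U : Gr (Fld (ZMod M))) ≤ ENNReal.ofReal (n * b) := by
    refine (TorLastx723.sum_le_NK (w := wT M 1 1) hΓ hcov f₀ hVol
      (fun x l => wI_le _ a r x l) fun U => (K U : Gr (Fld (ZMod M)))).trans ?_
    rw [ENNReal.ofReal_mul (by positivity), ENNReal.ofReal_natCast]
    exact mul_le_mul_right hK _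
  have hF : pnorm w2 (((ZZ near Vol K : Ge (Fld (ZMod M))) : Gr (Fld (ZMod M))) -
      algebraMap ℝ _ 1) ≤ ENNReal.ofReal (Real.exp (n * b) - 1) := by
    have h3 := zz_sub_one_le (rn_pnorm w2) near Vol K (by positivity) hsum
    rw [map_one]
    exact h3
  have hη : 0 ≤ Real.exp (n * b) - 1 := by
    have : (0 : ℝ) ≤ n * b := by positivity
    have := Real.one_le_exp this
    linarith
  have h4 := PPbx63.pp_last (restPP_gram (M := M) D J) h1 h2 (PPcx63.ev (u2 M)) (PPcx63.ev (u1 M)) ht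
    (hu _ A_u2 l2_u2) (hu2 _ A_u1 l2_u1)
    ((ZZ near Vol K : Ge (Fld (ZMod M))) : Gr (Fld (ZMod M))) 1 (Z' := Z') hη hF
  rw [z1_eq, z2_eq]
  refine h4.trans (le_of_eq ?_)
  have h5 : √(r : ℝ) ^ 2 = r := Real.sq_sqrt (Nat.cast_nonneg r)
  have e : (2 * (a * √r)⁻¹) ^ 2 = 4 / (a ^ 2 * r) := by
    rw [mul_pow, inv_pow, mul_pow, h5]; ring
  rw [e]

/-! ### with the flow -/

/-- elements without fields are constants -/
theorem gr_bot {V : Type*} [AddCommGroup V] [Module ℝ V] {a : Gr V}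
    (ha : a ∈ GrLocx337.gr (⊥ : Submodule ℝ V)) : a = algebraMap ℝ (Gr V) (ct a) := by
  have h : GrLocx337.gr (⊥ : Submodule ℝ V) ≤ ⊥ := by
    unfold GrLocx337.gr
    refine Algebra.adjoin_le ?_
    rintro _ ⟨x, hx, rfl⟩
    rw [SetLike.mem_coe, Submodule.mem_bot] at hx
    rw [hx, fi_zero]
    exact zero_mem _
  obtain ⟨c, hc⟩ := Algebra.mem_bot.1 (h ha)
  rw [← hc, AlgHom.commutes]
  rfl

/-- even elements without fields are constants -/
theorem ge_bot {V : Type*} [AddCommGroup V] [Module ℝ V] {a : Ge V}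
    (ha : a ∈ grG (⊥ : Submodule ℝ V)) : a = algebraMap ℝ (Ge V) (ctG a) := by
  refine Subtype.ext ?_
  exact gr_bot ha

/-- constants and derivations -/
theorem dd_dd_const {V : Type*} [AddCommGroup V] [Module ℝ V] (u v : Module.Dual ℝ V) (c : ℝ)
    (X : Gr V) : dd u (dd v (algebraMap ℝ (Gr V) c * X)) = c • dd u (dd v X) := by
  rw [← Algebra.smul_def, map_smul, map_smul]




end Crest.Agent.R165.TorRest2x63
end
end

-- ▼ part R165/TorRest3_63
section

/-!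
# Row 165 (S0250): the doubly periodic sector in the form of `TorFin_599` (helper63)

* `pp_p` : `EE (cF (-BP)) (dd z2 (dd z1 ZZ₀)) = exp E * p`, `|p| ≤ 4 / (a² r) (exp (n b) - 1)`
-/

set_option autoImplicit false
set_option linter.unusedSectionVars false

noncomputable section

namespace Crest.Agent.R165.TorRest3x63

open Finset
open scoped ENNReal
open Crest.Agent.R165.Packx915 Crest.Agent.R165.NSumx915 Crest.Agent.R165.Bridgex915
open Crest.Agent.R165.Gr0x606 Crest.Agent.R165.Gr1x606 Crest.Agent.R165.PNormx417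
  Crest.Agent.R165.GDefx387 Crest.Agent.R165.FRDAbsx439 Crest.Agent.R165.FRDPolyx439
  Crest.Agent.R165.FRDInfx439 Crest.Agent.R165.FRDLatx439 Crest.Agent.R165.FRDRestx439
  Crest.Agent.R165.KStepx892 Crest.Agent.R165.KFlowx337 Crest.Agent.R165.GeOpsx337
  Crest.Agent.R165.FinBx900 Crest.Agent.R165.ExpGx337
open Crest.Agent.R165.Latx683 (HE BW Aop Fld IsCov covS)
open Crest.Agent.R165.TorSecx599 (BP ZP u1 u2 ker2_PP)
open Crest.Agent.R165.TorBrx599 Crest.Agent.R165.TorGapBx63 Crest.Agent.R165.TorRestx63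
  Crest.Agent.R165.TorRest2x63

variable {M : ℕ} [NeZero M]

/-- exact identity -/
theorem pp_p_eq {N K' : ℕ} (D : FRD 16 N K')
    (Sy : Sys (ZMod M × ZMod M) (Fld (ZMod M))) (hD : Sy.OK ⊥)
    {Vol : Finset (ZMod M × ZMod M)} (h0 : ∀ U, ¬ U ⊆ Vol → Sy.K0 U = 0) (k : ℕ) {J : ℕ}
    (hSl : ∑ j ∈ Finset.range k, Sy.S j = SopC D (wT M 1 1) 0 J) :
    EE (cF M (-(BP M))) (dd (z2 M) (dd (z1 M)
        ((ZZ (Sy.near 0) Vol Sy.K0 : Ge (Fld (ZMod M))) : Gr (Fld (ZMod M))))) =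
      Real.exp (ctG (Sy.E Vol k)) * EE (restPP D M J) (dd (z2 M) (dd (z1 M)
        ((ZZ (Sy.near k) Vol (Sy.K k) : Ge (Fld (ZMod M))) : Gr (Fld (ZMod M))))) := by
  have h := Sys.total hD h0 k
  rw [hSl, ge_bot (Sys.E_mem hD Vol k), gexp_algebraMap] at h
  have h2 := congrArg (fun a : Ge (Fld (ZMod M)) => (a : Gr (Fld (ZMod M)))) h
  have h3 : conv (SopC D (wT M 1 1) 0 J)
      ((ZZ (Sy.near 0) Vol Sy.K0 : Ge (Fld (ZMod M))) : Gr (Fld (ZMod M))) =
      algebraMap ℝ (Gr (Fld (ZMod M))) (Real.exp (ctG (Sy.E Vol k))) *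
        ((ZZ (Sy.near k) Vol (Sy.K k) : Ge (Fld (ZMod M))) : Gr (Fld (ZMod M))) := h2
  rw [cF_PP D J, add_comm, ← EE_conv, conv_dd, conv_dd, h3, dd_dd_const, map_smul, smul_eq_mul]


end Crest.Agent.R165.TorRest3x63
end
end

-- ▼ part R165/TorLim3_917
section

/-!
# Row 165 (S0250), leaf T8i (helper917): the last steps of the torus in the limit `L → ∞`

`KT l k0 L` steps on the torus of side `L + 1` (723), systems `sys D (wTor ..) mk l k0 K0`.

* `tor_z` : sectors AA, AP, PA: `EEG (covS kT) (ZZ_0) = exp E * z`, `z → 1`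
* `tor_p` : sector PP: `EE (cF (-BP)) (dd z2 (dd z1 ZZ_0)) = exp E * p`, `(L + 1) p → 0`
as soon as the norm at the last scale tends to zero and the amplitude tends to infinity.
-/

set_option autoImplicit false
set_option linter.unusedSectionVars false

noncomputable section

open Finset Filter Topology
open scoped ENNReal
open Crest.Agent.R165.Packx915 Crest.Agent.R165.NSumx915 Crest.Agent.R165.Bridgex915
open Crest.Agent.R165.Latx683 Crest.Agent.R165.GDefx387 Crest.Agent.R165.Gr0x606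
open Crest.Agent.R165.Gr1x606 Crest.Agent.R165.PNormx417 Crest.Agent.R165.FinBx900
open Crest.Agent.R165.FRDPolyx439 Crest.Agent.R165.FRDAbsx439 Crest.Agent.R165.FRDLatx439
open Crest.Agent.R165.FRDInfx439 Crest.Agent.R165.FRDRestx439
open Crest.Agent.R165.KStepx892 hiding wt
open Crest.Agent.R165.KFlowx337 Crest.Agent.R165.GeOpsx337 Crest.Agent.R165.GSysx387
open Crest.Agent.R165.TorGapBx63 (Kg Kg_pos)
open Crest.Agent.R165.TorChartx723 (wTor)
open Crest.Agent.R165.TorKx723 (KT KT_ratio KT_top)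
open Crest.Agent.R165.TorRepx599 (eS kT kT_skew kT_inv)
open Crest.Agent.R165.TorLimx917
open Crest.Agent.R165.Compx889 (NP)
open Crest.Agent.R165.DefRecx915 (allP)

namespace Crest.Agent.R165.TorLim3x917

/-! ### numbers -/

/-- a quantity bounded by `C (exp (c b) - 1)` for every bound `b` of a norm tending to zero -/
theorem lim_of_bound {x : ℕ → ℝ} {N : ℕ → ℝ≥0∞} (hN : Tendsto N atTop (𝓝 0)) (C c : ℝ)
    (h : ∀ᶠ L in atTop, ∀ b : ℝ, 0 ≤ b → N L ≤ ENNReal.ofReal b →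
      |x L| ≤ C * (Real.exp (c * b) - 1)) : Tendsto x atTop (𝓝 0) := by
  have h1 : Tendsto (fun L => (N L).toReal) atTop (𝓝 0) := by
    have := (ENNReal.tendsto_toReal ENNReal.zero_ne_top).comp hN
    rw [ENNReal.toReal_zero] at this
    exact this
  have h2 : ∀ᶠ L in atTop, N L < 1 := hN.eventually_lt_const one_pos
  have h3 : Tendsto (fun L => C * (Real.exp (c * (N L).toReal) - 1)) atTop (𝓝 0) := by
    have h4 := ((Real.continuous_exp.tendsto (c * 0)).comp (h1.const_mul c)).sub_const 1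
    have h5 := h4.const_mul C
    simpa using h5
  refine squeeze_zero_norm' ?_ h3
  filter_upwards [h, h2] with L h4 h5
  rw [Real.norm_eq_abs]
  refine h4 _ ENNReal.toReal_nonneg ?_
  rw [ENNReal.ofReal_toReal h5.ne_top]

/-- the ratio of the last scale -/
def cL (l : ℕ) : ℝ := 1 / (1040 * 2 ^ l)

theorem cL_pos (l : ℕ) : 0 < cL l := by unfold cL; positivity

theorem cL_le {l k0 L : ℕ} (hl : 1 ≤ l) : cL l * ((L + 1 : ℕ) : ℝ) ≤ (rr l k0 (KT l k0 L) : ℕ) := by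
  have h := KT_ratio (k0 := k0) (L := L) hl
  have h1 : ((L + 1 : ℕ) : ℝ) ≤ 1040 * 2 ^ l * (rr l k0 (KT l k0 L) : ℕ) := by exact_mod_cast h
  unfold cL
  rw [div_mul_eq_mul_div, one_mul, div_le_iff₀ (by positivity)]
  linarith

theorem rr_le_lo {l k0 n : ℕ} (hn : n ≠ 0) : rr l k0 n ≤ 2 ^ lo l k0 n := by
  unfold lo rr
  rw [if_neg hn]


theorem wT_eS {M : ℕ} [NeZero M] (s : Fin 2 × Fin 2) :
    Covx359.wT M s = wTor M (eS s.2) (eS s.1) := wT_eq_tor s

theorem det_ne {M : ℕ} [NeZero M] {s : Fin 2 × Fin 2} (hs : s ≠ (0, 0)) :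
    (TorDetx599.hA (wTor M (eS s.2) (eS s.1))).det ≠ 0 := by
  have h := TorBrx599.det_sec_ne M s hs
  have h1 : (fun (z : ZMod M × ZMod M) (j : Fin 2) => TorusJ1x922.sec s (z, j) * TorSecx599.xc) =
      wTor M (eS s.2) (eS s.1) := wT_eS s
  rw [h1] at h
  exact h

/-! ### sectors AA, AP, PA -/

section nz

variable {Mp K' : ℕ} (D : FRD 16 Mp K')

/-- the covariance left after the slices `j < J` in the sector `s` -/
def rsT {M : ℕ} [NeZero M] {s : Fin 2 × Fin 2} (hs : s ≠ (0, 0)) (J : ℕ) : Cov (Fld (ZMod M)) :=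
  restC D (kT_skew M (wTor M (eS s.2) (eS s.1))) (kT_inv M _ (det_ne hs))
    (fun _ => Set.toFinite _) J

/-- **the last step, sectors AA, AP, PA** -/
theorem tor_last' (hM : MM ≤ Mp) {M : ℕ} [NeZero M] {s : Fin 2 × Fin 2} (hs : s ≠ (0, 0)) {J r : ℕ}
    (hr1 : 1 ≤ r) (hr : r ≤ 2 ^ J) {c' : ℝ} (hc : 0 < c') (hcr : c' * M ≤ r) {a : ℝ}
    (ha : A0 D.C c' ≤ a) {Γ : ℝ≥0∞} (hΓ : 1 ≤ Γ) (near : ZMod M × ZMod M → ZMod M × ZMod M → Prop)
    (K : Finset (ZMod M × ZMod M) → Ge (Fld (ZMod M))) {b : ℝ} (hb : 0 ≤ b)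
    (hN : NK (wTor M (eS s.2) (eS s.1)) a r Γ (fun _ => True)
      (fun U => (K U : Gr (Fld (ZMod M)))) ≤ ENNReal.ofReal b) :
    |EE (rsT D hs J) ((ZZ near univ K : Ge (Fld (ZMod M))) : Gr (Fld (ZMod M))) - 1| ≤
      1 * (Real.exp (n0 c' * b) - 1) := by
  have hM0 : (0 : ℝ) < M := by exact_mod_cast NeZero.pos M
  have hK := Kg_pos
  have hA := A0_pos D.C_pos hc
  have ha0 : 0 < a := hA.trans_le ha
  have hgap : ABtw (preF (Latx683.HE (ZMod M))) (AopF (wTor M (eS s.2) (eS s.1)))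
      (((Kg * M)⁻¹) ^ 2) 16 := by
    rw [← wT_eS]; exact tor_gap hs
  have h1 := TorLastx723.last_step D (kT_skew M (wTor M (eS s.2) (eS s.1)))
    (kT_inv M _ (det_ne hs)) (fun _ => Set.toFinite _) hM
    (m := (Kg * M)⁻¹) (by positivity) hgap hr1 hr ha0
    (((amp_le D.C_pos hc hr1 hcr).trans (by linarith)).trans ha) hΓ
    (TorWrapx723.cov_zmod (M := M) hr1 (M / 2)) 0 (Vol := univ)
    (fun f _ => TorWrapx723.fd_le_half _ _) near K hb hN
  refine h1.trans ?_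
  have h2 := cov_card hc hr1 hcr
  have h3 : ((((2 * ((M / 2) / r) + 3) ^ 2 : ℕ)) : ℝ) * b ≤ n0 c' * b :=
    mul_le_mul_of_nonneg_right h2 hb
  linarith [Real.exp_le_exp.2 h3]

/-- **the sectors AA, AP, PA in the limit** -/
theorem tor_z (hMp : MM ≤ Mp) (hK' : 16 ≤ K') {l k0 : ℕ} (hl : 1 ≤ l) (hlk : 5 ≤ l * (k0 + 1))
    {s : Fin 2 × Fin 2} (hs : s ≠ (0, 0)) {Γ : ℝ≥0∞} (hΓ : 1 ≤ Γ) {a : ℕ → ℝ}
    (ha : Tendsto a atTop atTop) (mk : ∀ L : ℕ, Finset (ZMod (L + 1) × ZMod (L + 1)))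
    (K0 : ∀ L : ℕ, Finset (ZMod (L + 1) × ZMod (L + 1)) → Ge (Fld (ZMod (L + 1))))
    (hK0 : ∀ᶠ L in atTop, ∀ U, K0 L U ∈ grG (fldU U))
    (hNP : Tendsto (fun L => NP (sys D (wTor (L + 1) (eS s.2) (eS s.1)) (mk L) l k0 (K0 L))
      (wTor (L + 1) (eS s.2) (eS s.1)) a (rr l k0) Γ allP (KT l k0 L)) atTop (𝓝 0)) :
    ∃ z : ℕ → ℝ, Tendsto z atTop (𝓝 1) ∧ ∀ᶠ L in atTop,
      EEG (covS (kT (L + 1) (wTor (L + 1) (eS s.2) (eS s.1))) (kT_skew (L + 1) _))
        (ZZ (near l k0 0) univ (K0 L)) =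
        Real.exp (ctG ((sys D (wTor (L + 1) (eS s.2) (eS s.1)) (mk L) l k0 (K0 L)).E univ
          (KT l k0 L))) * z L := by
  refine ⟨fun L => EEG (rsT D hs (lo l k0 (KT l k0 L))) (ZZ (near l k0 (KT l k0 L)) univ
    ((sys D (wTor (L + 1) (eS s.2) (eS s.1)) (mk L) l k0 (K0 L)).K (KT l k0 L))), ?_, ?_⟩
  · have h1 : Tendsto (fun L => EEG (rsT D hs (lo l k0 (KT l k0 L))) (ZZ (near l k0 (KT l k0 L)) univ
        ((sys D (wTor (L + 1) (eS s.2) (eS s.1)) (mk L) l k0 (K0 L)).K (KT l k0 L))) - 1)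
        atTop (𝓝 0) := by
      refine lim_of_bound hNP 1 (n0 (cL l)) ?_
      filter_upwards [(ha.comp (KT_top l k0)).eventually_ge_atTop (A0 D.C (cL l)),
        (KT_top l k0).eventually_ge_atTop 1] with L h1 h2 b hb hN
      exact tor_last' D hMp hs (rr_pos l k0 _) (rr_le_lo (by omega)) (cL_pos l) (cL_le hl) h1 hΓ
        (near l k0 (KT l k0 L)) _ hb hN
    have h2 := h1.add_const 1
    rw [zero_add] at h2
    exact h2.congr fun L => by ring
  · filter_upwards [hK0] with L hL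
    exact GSysOKx439.total_sys D (kT_skew (L + 1) (wTor (L + 1) (eS s.2) (eS s.1)))
      (kT_inv (L + 1) _ (det_ne hs)) (fun _ => Set.toFinite _) hK' (mk L) hlk hL (Λ := univ)
      (fun U hU => absurd (subset_univ U) hU) (KT l k0 L)

end nz

/-! ### sector PP -/

section pp

variable {Mp K' : ℕ} (D : FRD 16 Mp K')

/-- **the sector PP in the limit** -/
theorem tor_p (hMp : MM ≤ Mp) (hK' : 16 ≤ K') {l k0 : ℕ} (hl : 1 ≤ l) (hlk : 5 ≤ l * (k0 + 1))
    {Γ : ℝ≥0∞} (hΓ : 1 ≤ Γ) {a : ℕ → ℝ}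
    (ha : Tendsto a atTop atTop) (mk : ∀ L : ℕ, Finset (ZMod (L + 1) × ZMod (L + 1)))
    (K0 : ∀ L : ℕ, Finset (ZMod (L + 1) × ZMod (L + 1)) → Ge (Fld (ZMod (L + 1))))
    (hK0 : ∀ᶠ L in atTop, ∀ U, K0 L U ∈ grG (fldU U))
    (hNP : Tendsto (fun L => NP (sys D (wTor (L + 1) 1 1) (mk L) l k0 (K0 L))
      (wTor (L + 1) 1 1) a (rr l k0) Γ allP (KT l k0 L)) atTop (𝓝 0)) :
    ∃ p : ℕ → ℝ, Tendsto (fun L : ℕ => ((L : ℝ) + 1) * p L) atTop (𝓝 0) ∧ ∀ᶠ L : ℕ in atTop,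
      EE (TorBrx599.cF (L + 1) (-(TorSecx599.BP (L + 1)))) (dd (TorBrx599.z2 (L + 1))
        (dd (TorBrx599.z1 (L + 1)) ((ZZ (near l k0 0) univ (K0 L) :
          Ge (Fld (ZMod (L + 1)))) : Gr (Fld (ZMod (L + 1)))))) =
        Real.exp (ctG ((sys D (wTor (L + 1) 1 1) (mk L) l k0 (K0 L)).E univ (KT l k0 L))) * p L := by
  have hw : ∀ L : ℕ, TorGapBx63.wT (L + 1) 1 1 = wTor (L + 1) 1 1 := fun L =>
    TorRest2x63.wT_eq_wTor 1 1
  refine ⟨fun L => EE (TorRestx63.restPP D (L + 1) (lo l k0 (KT l k0 L)))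
    (dd (TorBrx599.z2 (L + 1)) (dd (TorBrx599.z1 (L + 1)) ((ZZ (near l k0 (KT l k0 L)) univ
      ((sys D (wTor (L + 1) 1 1) (mk L) l k0 (K0 L)).K (KT l k0 L)) :
        Ge (Fld (ZMod (L + 1)))) : Gr (Fld (ZMod (L + 1)))))), ?_, ?_⟩
  · refine lim_of_bound hNP (4160 * 2 ^ l) (n0 (cL l)) ?_
    filter_upwards [(ha.comp (KT_top l k0)).eventually_ge_atTop (A0 D.C (cL l)),
      (ha.comp (KT_top l k0)).eventually_ge_atTop 1,
      (KT_top l k0).eventually_ge_atTop 1] with L h1 h1' h2 b hb hN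
    simp only [Function.comp] at h1 h1'
    set r := rr l k0 (KT l k0 L) with hr
    have hr0 : (0 : ℝ) < r := by exact_mod_cast rr_pos l k0 _
    have hr1 : 1 ≤ r := rr_pos l k0 _
    have hcr : cL l * ((L + 1 : ℕ) : ℝ) ≤ r := cL_le hl
    have hq : 28 * √(D.C / (TorRestx63.mg (L + 1) * r)) ≤ a (KT l k0 L) := by
      have h3 := amp_le (M := L + 1) D.C_pos (cL_pos l) hr1 hcr
      have h4 : TorRestx63.mg (L + 1) = (Kg * ((L + 1 : ℕ) : ℝ))⁻¹ := by
        unfold TorRestx63.mg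
        first
          | rfl
          | rw [one_div]
      rw [h4]
      linarith
    have h5 := TorRest2x63.pp_last_step D hMp hr1 (rr_le_lo (by omega))
      (lt_of_lt_of_le one_pos h1') hq hΓ
      (TorWrapx723.cov_zmod (M := L + 1) hr1 ((L + 1) / 2)) 0 (Vol := univ)
      (fun f _ => TorWrapx723.fd_le_half _ _) (near l k0 (KT l k0 L))
      ((sys D (wTor (L + 1) 1 1) (mk L) l k0 (K0 L)).K (KT l k0 L)) hb
      (by rw [hw]; exact hN) 1
    rw [one_mul, abs_one, one_mul] at h5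
    have h6 := cov_card (M := L + 1) (cL_pos l) hr1 hcr
    have h7 : ((((2 * (((L + 1) / 2) / r) + 3) ^ 2 : ℕ)) : ℝ) * b ≤ n0 (cL l) * b :=
      mul_le_mul_of_nonneg_right h6 hb
    have h8 : Real.exp ((((2 * (((L + 1) / 2) / r) + 3) ^ 2 : ℕ) : ℝ) * b) - 1 ≤
        Real.exp (n0 (cL l) * b) - 1 := by linarith [Real.exp_le_exp.2 h7]
    have h9 : 0 ≤ Real.exp (n0 (cL l) * b) - 1 := by
      linarith [Real.add_one_le_exp (n0 (cL l) * b), mul_nonneg (n0_pos (cL_pos l)).le hb]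
    rw [abs_mul, abs_of_pos (by positivity : (0 : ℝ) < (L : ℝ) + 1)]
    have h10 : (L : ℝ) + 1 ≤ 1040 * 2 ^ l * r := by
      have := KT_ratio (k0 := k0) (L := L) hl
      have h11 : ((L + 1 : ℕ) : ℝ) ≤ 1040 * 2 ^ l * (rr l k0 (KT l k0 L) : ℕ) := by exact_mod_cast this
      push_cast at h11
      exact h11
    have h12 : (1 : ℝ) ≤ a (KT l k0 L) ^ 2 := one_le_pow₀ h1'
    calc ((L : ℝ) + 1) * |_| ≤ ((L : ℝ) + 1) * (4 / (a (KT l k0 L) ^ 2 * r) *
          (Real.exp (n0 (cL l) * b) - 1)) := by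
          refine mul_le_mul_of_nonneg_left (h5.trans ?_) (by positivity)
          exact mul_le_mul_of_nonneg_left h8 (by positivity)
      _ = (((L : ℝ) + 1) / r * (4 / a (KT l k0 L) ^ 2)) * (Real.exp (n0 (cL l) * b) - 1) := by
          field_simp
      _ ≤ (1040 * 2 ^ l * 4) * (Real.exp (n0 (cL l) * b) - 1) := by
          refine mul_le_mul_of_nonneg_right ?_ h9
          refine mul_le_mul ?_ ?_ (by positivity) (by positivity)
          · rw [div_le_iff₀ hr0]; exact h10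
          · rw [div_le_iff₀ (by positivity)]; linarith
      _ = 4160 * 2 ^ l * (Real.exp (n0 (cL l) * b) - 1) := by ring
  · filter_upwards [hK0] with L hL
    refine TorRest3x63.pp_p_eq D (sys D (wTor (L + 1) 1 1) (mk L) l k0 (K0 L))
      (GSysOKx439.sys_OK D hK' (wTor (L + 1) 1 1) (mk L) hlk hL) (Vol := univ)
      (fun U hU => absurd (subset_univ U) hU) (KT l k0 L) ?_
    rw [hw]
    exact GSysOKx439.sum_slC D (wTor (L + 1) 1 1) l k0 (KT l k0 L)

end pp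

end Crest.Agent.R165.TorLim3x917
end
end

-- ▼ part R165/TorEnd_599
section

/-!
# Row 165 (S0250), torus: the end (helper599)

* `torBonds_end` : from the exponents (723: sums over the scales of the constants), the norms at the
  last step (583), the locality of the initial activities and 917's last steps:
  `torBonds → (exp e - 1) / τ`
-/

set_option autoImplicit false
set_option linter.unusedSectionVars false

noncomputable section

open Finset Filter Topology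
open scoped ENNReal
open Crest.ProbabilityR.IsingModel

namespace Crest.Agent.R165.TorEndx599

open Crest.Agent.R165.Gr0x606 Crest.Agent.R165.Gr1x606
open Crest.Agent.R165.GeOpsx337 Crest.Agent.R165.J4Defx653 Crest.Agent.R165.J4Lnkx653
open Crest.Agent.R165.KStepx892 (ZZ)
open Crest.Agent.R165.TorChartx723 (wTor)
open Crest.Agent.R165.TorKx723 (KT KT_ratio KT_top)
open Crest.Agent.R165.Latx683
open Crest.Agent.R165.TorRepx599
open Crest.Agent.R165.TorFinx599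
open Crest.Agent.R165.Bkgx683 (Bg MPar mpar Srcs noSrc realSrc)
open Crest.Agent.R165.FRDPolyx439 Crest.Agent.R165.FRDLatx439 Crest.Agent.R165.GDefx387 Crest.Agent.R165.GSysx387
open Crest.Agent.R165.BgIsox432 (CNZ)
open Crest.Agent.R165.Telx337 (cc)
open Crest.Agent.R165.Compx889 (NP)
open Crest.Agent.R165.DefRecx915 (allP)

/-! ### the total exponent -/

/-- the total exponent of a finite lattice is the sum of the constants -/
theorem ctG_E {G : Type} [CommRing G] [CN G] [CNZ G] [DecidableEq G] [Fintype G] {Mm K' : ℕ}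
    (D : FRD 16 Mm K') (w : BW G) (mk : Finset (G × G)) (l k0 : ℕ)
    {K0 : Finset (G × G) → Ge (Fld G)} (he : K0 ∅ = 0) (n : ℕ) :
    ctG ((sys D w mk l k0 K0).E univ n) = ∑ k ∈ range n, ∑ U, cc (sys D w mk l k0 K0) k U := by
  rw [Telx337.ctE (D := sys D w mk l k0 K0) (fun U hU => absurd (subset_univ U) hU) he
    (fun a => by
      show ctG (PStepx417.vac0 (Fld G) a) = ctG a
      rw [PStepx417.vac0_apply, AlgHom.commutes]
      rfl) n]
  refine Finset.sum_congr rfl fun k _ => ?_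
  rw [tsum_fintype]

/-! ### one index (with or without source) -/

section one

variable {Mm K' : ℕ} (D : FRD 16 Mm K') (hM : MM ≤ Mm) (hK' : 16 ≤ K') {l k0 : ℕ} (hl1 : 1 ≤ l)
  (hl : 5 ≤ l * (k0 + 1)) {Γ : ℝ≥0∞} (hΓ : 1 ≤ Γ) {a : ℕ → ℝ} (ha : Tendsto a atTop atTop)
  (P : MPar) {κ : Type} [DecidableEq κ] [Fintype κ]
  (mk : ∀ L : ℕ, Finset (ZMod (L + 1) × ZMod (L + 1)))
  (src : ∀ L : ℕ, Srcs κ (ZMod (L + 1)) (Ge (Fld (ZMod (L + 1)))))

/-- the initial activities of a sector -/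
def KI (P : MPar) (l k0 : ℕ) (src : ∀ L : ℕ, Srcs κ (ZMod (L + 1)) (Ge (Fld (ZMod (L + 1)))))
    (s : Fin 2 × Fin 2) (L : ℕ) :
    Finset (ZMod (L + 1) × ZMod (L + 1)) → Ge (Fld (ZMod (L + 1))) :=
  (Bg.tor (L + 1) (eS s.2) (eS s.1)).K0 P LinearMap.id (src L) l k0

/-- the flow of a sector -/
def SI (mk : ∀ L : ℕ, Finset (ZMod (L + 1) × ZMod (L + 1)))
    (src : ∀ L : ℕ, Srcs κ (ZMod (L + 1)) (Ge (Fld (ZMod (L + 1)))))
    (s : Fin 2 × Fin 2) (L : ℕ) :
    KFlowx337.Sys (ZMod (L + 1) × ZMod (L + 1)) (Fld (ZMod (L + 1))) :=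
  sys D (wTor (L + 1) (eS s.2) (eS s.1)) (mk L) l k0 (KI P l k0 src s L)


/-- the exponent of a sector -/
def EI (mk : ∀ L : ℕ, Finset (ZMod (L + 1) × ZMod (L + 1)))
    (src : ∀ L : ℕ, Srcs κ (ZMod (L + 1)) (Ge (Fld (ZMod (L + 1)))))
    (s : Fin 2 × Fin 2) (L : ℕ) : ℝ :=
  ∑ k ∈ range (KT l k0 L), ∑ U, cc (SI (l := l) (k0 := k0) D P mk src s L) k U

theorem KI_empty (s : Fin 2 × Fin 2) (L : ℕ) : KI P l k0 src s L ∅ = 0 := by
  unfold KI Bg.K0
  exact KInitx892.K1_empty _ _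

include hM hK' hl1 hl hΓ ha

/-- sectors AA, AP, PA -/
theorem nz_one (s : Fin 2 × Fin 2) (hs : s ≠ (0, 0))
    (hK0 : ∀ᶠ L in atTop, ∀ U, KI P l k0 src s L U ∈ grG (fldU U))
    (hNP : Tendsto (fun L => NP (SI (l := l) (k0 := k0) D P mk src s L)
      (wTor (L + 1) (eS s.2) (eS s.1)) a (rr l k0) Γ allP (KT l k0 L)) atTop (𝓝 0)) :
    ∃ z : ℕ → ℝ, Tendsto z atTop (𝓝 1) ∧ ∀ᶠ L : ℕ in atTop,
      ∃ (Sk : Latx683.HE (ZMod (L + 1)) → Latx683.HE (ZMod (L + 1)) → ℝ)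
        (hS : IsCov (wTor (L + 1) (eS s.2) (eS s.1)) Sk),
      EEG (covS Sk hS.skew)
        (ZZ (((Bg.tor (L + 1) (eS s.2) (eS s.1)).flow P D (mk L) (src L) l k0).near 0) univ
          ((Bg.tor (L + 1) (eS s.2) (eS s.1)).flow P D (mk L) (src L) l k0).K0) =
        Real.exp (EI (l := l) (k0 := k0) D P mk src s L) * z L := by
  obtain ⟨z, hz, h⟩ := TorLim3x917.tor_z D hM hK' hl1 hl hs hΓ ha mk (KI P l k0 src s) hK0 hNP
  refine ⟨z, hz, ?_⟩
  filter_upwards [h] with L hL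
  obtain ⟨Sk, hS, _, _⟩ := Covx359.exists_isCov_torus (L + 1) s hs
  rw [TorLim3x917.wT_eS s] at hS
  have h1 := isCov_kT hS (det_wTor_ne s hs)
  have h2 : covS Sk hS.skew = covS (kT (L + 1) (wTor (L + 1) (eS s.2) (eS s.1)))
      (kT_skew (L + 1) _) := by
    subst h1; rfl
  refine ⟨Sk, hS, ?_⟩
  rw [h2]
  refine hL.trans ?_
  rw [ctG_E D _ _ l k0 (KI_empty P src s L)]
  rfl

/-- sector PP -/
theorem pp_one
    (hK0 : ∀ᶠ L in atTop, ∀ U, KI P l k0 src (0, 0) L U ∈ grG (fldU U))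
    (hNP : Tendsto (fun L => NP (SI (l := l) (k0 := k0) D P mk src (0, 0) L)
      (wTor (L + 1) (eS (0 : Fin 2)) (eS (0 : Fin 2))) a (rr l k0) Γ allP (KT l k0 L)) atTop (𝓝 0)) :
    ∃ p : ℕ → ℝ, Tendsto (fun L : ℕ => ((L : ℝ) + 1) * p L) atTop (𝓝 0) ∧ ∀ᶠ L : ℕ in atTop,
      Gr0x606.EE (TorBrx599.cF (L + 1) (-(TorSecx599.BP (L + 1)))) (dd (TorBrx599.z2 (L + 1))
        (dd (TorBrx599.z1 (L + 1))
          ((ZZ (((Bg.tor (L + 1) 1 1).flow P D (mk L) (src L) l k0).near 0) univ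
            ((Bg.tor (L + 1) 1 1).flow P D (mk L) (src L) l k0).K0 :
              Ge (Fld (ZMod (L + 1)))) : Gr (Fld (ZMod (L + 1)))))) =
        Real.exp (EI (l := l) (k0 := k0) D P mk src (0, 0) L) * p L := by
  have e1 : eS (0 : Fin 2) = 1 := if_pos rfl
  have e2 : ∀ L, KI P l k0 src (0, 0) L = (Bg.tor (L + 1) 1 1).K0 P LinearMap.id (src L) l k0 := by
    intro L
    unfold KI
    simp only [e1]
  have hNP' : Tendsto (fun L => NP (sys D (wTor (L + 1) 1 1) (mk L) l k0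
      ((Bg.tor (L + 1) 1 1).K0 P LinearMap.id (src L) l k0))
      (wTor (L + 1) 1 1) a (rr l k0) Γ allP (KT l k0 L)) atTop (𝓝 0) := by
    refine hNP.congr fun L => ?_
    unfold SI
    simp only [e2, e1]
  obtain ⟨p, hp, h⟩ := TorLim3x917.tor_p D hM hK' hl1 hl hΓ ha mk
    (fun L => (Bg.tor (L + 1) 1 1).K0 P LinearMap.id (src L) l k0)
    (hK0.mono fun L hL U => by rw [← e2]; exact hL U) hNP'
  refine ⟨p, hp, ?_⟩
  filter_upwards [h] with L hL
  refine hL.trans ?_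
  rw [ctG_E D _ _ l k0 (by rw [← e2]; exact KI_empty P src (0, 0) L)]
  unfold EI SI
  simp only [e2, e1]

end one

/-- **the torus half of `DiscLim`** from the exponents, the norms at the last step and locality -/
theorem torBonds_end {J : ℝ} (hJ : 0 < J) {R : ℕ} {V : Finset (ℤ × ℤ) → ℝ}
    (hV : Topx683.VHyp R V) (lam β z : ℝ) (hz : 0 < 1 + z) (S : Finset ((ℤ × ℤ) × Fin 2))
    {τ : ℝ} (hτ : τ ≠ 0) {Mm K' : ℕ} (D : FRD 16 Mm K') (hM : MM ≤ Mm) (hK' : 16 ≤ K') {l k0 : ℕ}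
    (hl1 : 1 ≤ l) (hl : 5 ≤ l * (k0 + 1)) {Γ : ℝ≥0∞} (hΓ : 1 ≤ Γ) {a : ℕ → ℝ}
    (ha : Tendsto a atTop atTop)
    (mk : ∀ L : ℕ, Finset (ZMod (L + 1) × ZMod (L + 1)))
    {κ₁ κ₀ : Type} [DecidableEq κ₁] [Fintype κ₁] [DecidableEq κ₀] [Fintype κ₀]
    (src₁ : ∀ L : ℕ, Srcs κ₁ (ZMod (L + 1)) (Ge (Fld (ZMod (L + 1)))))
    (src₀ : ∀ L : ℕ, Srcs κ₀ (ZMod (L + 1)) (Ge (Fld (ZMod (L + 1)))))
    {a₁ : κ₁ → ℝ} {a₀ : κ₀ → ℝ}
    (h₁ : ∀ᶠ L in atTop, RealSrc (src₁ L) a₁) (h₀ : ∀ᶠ L in atTop, RealSrc (src₀ L) a₀)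
    (q₁ : ∀ᶠ L : ℕ in atTop, ∏ k, (1 + a₁ k • (src₁ L).Fs k) = 1 + τ • epTor (L + 1) S)
    (q₀ : ∀ᶠ L : ℕ in atTop, ∏ k, (1 + a₀ k • (src₀ L).Fs k) = 1)
    (m₁ : ∀ s, ∀ᶠ L in atTop, ∀ U, KI (mpar J lam R V β z) l k0 src₁ s L U ∈ grG (fldU U))
    (m₀ : ∀ s, ∀ᶠ L in atTop, ∀ U, KI (mpar J lam R V β z) l k0 src₀ s L U ∈ grG (fldU U))
    (N₁ : ∀ s : Fin 2 × Fin 2, Tendsto (fun L =>
      NP (SI (l := l) (k0 := k0) D (mpar J lam R V β z) mk src₁ s L)
        (wTor (L + 1) (eS s.2) (eS s.1)) a (rr l k0) Γ allP (KT l k0 L)) atTop (𝓝 0))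
    (N₀ : ∀ s : Fin 2 × Fin 2, Tendsto (fun L =>
      NP (SI (l := l) (k0 := k0) D (mpar J lam R V β z) mk src₀ s L)
        (wTor (L + 1) (eS s.2) (eS s.1)) a (rr l k0) Γ allP (KT l k0 L)) atTop (𝓝 0))
    {e : ℝ}
    (hE : ∀ s, Tendsto (fun L => EI (l := l) (k0 := k0) D (mpar J lam R V β z) mk src₁ s L -
      EI (l := l) (k0 := k0) D (mpar J lam R V β z) mk src₀ s L) atTop (𝓝 e))
    (hE' : Tendsto (fun L => EI (l := l) (k0 := k0) D (mpar J lam R V β z) mk src₀ (0, 0) L -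
      EI (l := l) (k0 := k0) D (mpar J lam R V β z) mk src₀ (1, 1) L) atTop (𝓝 0)) :
    Tendsto (fun L : ℕ => Symx541.torBonds L J lam R V β S) atTop
      (𝓝 ((Real.exp e - 1) / τ)) := by
  have Z₁ : ∀ s : Fin 2 × Fin 2, ∃ z₁ : ℕ → ℝ, s ≠ (0, 0) → Tendsto z₁ atTop (𝓝 1) ∧
      ∀ᶠ L : ℕ in atTop,
      ∃ (Sk : Latx683.HE (ZMod (L + 1)) → Latx683.HE (ZMod (L + 1)) → ℝ)
        (hS : IsCov (wTor (L + 1) (eS s.2) (eS s.1)) Sk),
      EEG (covS Sk hS.skew)
        (ZZ (((Bg.tor (L + 1) (eS s.2) (eS s.1)).flow (mpar J lam R V β z) D (mk L) (src₁ L) l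
          k0).near 0) univ
          ((Bg.tor (L + 1) (eS s.2) (eS s.1)).flow (mpar J lam R V β z) D (mk L) (src₁ L) l k0).K0) =
        Real.exp (EI (l := l) (k0 := k0) D (mpar J lam R V β z) mk src₁ s L) * z₁ L := by
    intro s
    by_cases hs : s = (0, 0)
    · exact ⟨fun _ => 0, fun h => absurd hs h⟩
    · obtain ⟨f, hf⟩ := nz_one D hM hK' hl1 hl hΓ ha (mpar J lam R V β z) mk src₁ s hs (m₁ s) (N₁ s)
      exact ⟨f, fun _ => hf⟩
  have Z₀ : ∀ s : Fin 2 × Fin 2, ∃ z₁ : ℕ → ℝ, s ≠ (0, 0) → Tendsto z₁ atTop (𝓝 1) ∧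
      ∀ᶠ L : ℕ in atTop,
      ∃ (Sk : Latx683.HE (ZMod (L + 1)) → Latx683.HE (ZMod (L + 1)) → ℝ)
        (hS : IsCov (wTor (L + 1) (eS s.2) (eS s.1)) Sk),
      EEG (covS Sk hS.skew)
        (ZZ (((Bg.tor (L + 1) (eS s.2) (eS s.1)).flow (mpar J lam R V β z) D (mk L) (src₀ L) l
          k0).near 0) univ
          ((Bg.tor (L + 1) (eS s.2) (eS s.1)).flow (mpar J lam R V β z) D (mk L) (src₀ L) l k0).K0) =
        Real.exp (EI (l := l) (k0 := k0) D (mpar J lam R V β z) mk src₀ s L) * z₁ L := by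
    intro s
    by_cases hs : s = (0, 0)
    · exact ⟨fun _ => 0, fun h => absurd hs h⟩
    · obtain ⟨f, hf⟩ := nz_one D hM hK' hl1 hl hΓ ha (mpar J lam R V β z) mk src₀ s hs (m₀ s) (N₀ s)
      exact ⟨f, fun _ => hf⟩
  choose z₁ hz₁ using Z₁
  choose z₀ hz₀ using Z₀
  obtain ⟨p₁, hp₁, Q₁⟩ := pp_one D hM hK' hl1 hl hΓ ha (mpar J lam R V β z) mk src₁ (m₁ (0, 0))
    (N₁ (0, 0))
  obtain ⟨p₀, hp₀, Q₀⟩ := pp_one D hM hK' hl1 hl hΓ ha (mpar J lam R V β z) mk src₀ (m₀ (0, 0))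
    (N₀ (0, 0))
  exact torBonds_of_bg hJ hV lam β z hz S hτ D l k0 mk src₁ src₀ h₁ h₀ q₁ q₀
    (E₁ := EI (l := l) (k0 := k0) D (mpar J lam R V β z) mk src₁)
    (E₀ := EI (l := l) (k0 := k0) D (mpar J lam R V β z) mk src₀)
    (z₁ := z₁) (z₀ := z₀) (p₁ := p₁) (p₀ := p₀)
    (fun s hs => (hz₁ s hs).2) (fun s hs => (hz₀ s hs).2) Q₁ Q₀
    (fun s hs => (hz₁ s hs).1) (fun s hs => (hz₀ s hs).1) hp₁ hp₀ hE hE'

end Crest.Agent.R165.TorEndx599
end
end

-- ▼ part R165/TorSys_723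
section

/-!
# Row 165 (S0250), TEXT P13: the exponents of the torus flows converge (helper723)

Flows `sys D (wTor (L+1) ε₁ ε₂) {pr f₀} l k0 K0` of growing tori against the plane flow with the
mark `f₀`.

* `Loc0`      : the initial activities of the tori are locally those of the plane
* `cc_loc`    : so are the constants at all scales
* `expo_tor`  : `∑_{k < KT L} ∑_U (cc F_t - cc F_0) → expo` in one sector
* `diff_tor`  : the exponents of two sectors have the same limit (difference `→ 0`)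
-/

set_option autoImplicit false
set_option linter.unusedSectionVars false

noncomputable section

open Finset Filter Topology
open scoped ENNReal
open Crest.Agent.R165.Gr0x606 Crest.Agent.R165.Gr1x606 Crest.Agent.R165.Latx683
open Crest.Agent.R165.GDefx387 Crest.Agent.R165.GeOpsx337 Crest.Agent.R165.KFlowx337
open Crest.Agent.R165.FRDPolyx439 Crest.Agent.R165.FRDLatx439 Crest.Agent.R165.BgIsox432
open Crest.Agent.R165.GSysx387 Crest.Agent.R165.Telx337 Crest.Agent.R165.GSysOKx439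
open Crest.Agent.R165.CmpBgx432 Crest.Agent.R165.TorChartx723 Crest.Agent.R165.TorTanx723
open Crest.Agent.R165.TorWrapx723 Crest.Agent.R165.MetGx723 Crest.Agent.R165.TorIsox723
open Crest.Agent.R165.Pinx723 Crest.Agent.R165.PinSysx723 Crest.Agent.R165.PinLimx723
open Crest.Agent.R165.TorKx723 Crest.Agent.R165.SpinSysx892

namespace Crest.Agent.R165.TorSysx723

section tor

variable {Md Kd : ℕ} (D : FRD 16 Md Kd) {l k0 : ℕ} {f₀ : ℤ × ℤ} {ε₁ ε₂ ε₁' ε₂' : ℝ}

/-- the initial activities of the tori are locally those of the plane -/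
structure Loc0 (l k0 : ℕ) (f₀ : ℤ × ℤ) (h₁ : ε₁ * ε₁ = 1) (h₂ : ε₂ * ε₂ = 1)
    (KP : Finset (ℤ × ℤ) → Ge (Fld ℤ))
    (KL : (L : ℕ) → Finset (ZMod (L + 1) × ZMod (L + 1)) → Ge (Fld (ZMod (L + 1)))) : Prop where
  memP : ∀ U, KP U ∈ grG (fldU U)
  mem : ∀ L U, KL L U ∈ grG (fldU U)
  eP : KP ∅ = 0
  eL : ∀ L, KL L ∅ = 0
  loc : ∀ R : ℕ, ∀ᶠ L in atTop, ∀ (hR : 4 * (R + 1) ≤ L + 1) (U : Finset (ℤ × ℤ)), U.Nonempty →
    nbhd (s2 * rr l k0 0) U ⊆ ball f₀ R →
    mpG (torB h₁ h₂ f₀ hR).push (KP U) = KL L (U.image (pr (L + 1)))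

/-- the constants of the tori are locally those of the plane -/
theorem cc_loc (hK : 16 ≤ Kd) (hl : 5 ≤ l * (k0 + 1)) (hl1 : 1 ≤ l) {h₁ : ε₁ * ε₁ = 1}
    {h₂ : ε₂ * ε₂ = 1} {KP : Finset (ℤ × ℤ) → Ge (Fld ℤ)}
    {KL : (L : ℕ) → Finset (ZMod (L + 1) × ZMod (L + 1)) → Ge (Fld (ZMod (L + 1)))}
    (h : Loc0 l k0 f₀ h₁ h₂ KP KL) (k E : ℕ) :
    ∀ᶠ L in atTop, ∀ U ⊆ boxG f₀ E,
      cc (sys D (wTor (L + 1) ε₁ ε₂) {pr (L + 1) f₀} l k0 (KL L)) k (U.image (pr (L + 1))) =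
        cc (sys D (wPl ℤ) {f₀} l k0 KP) k U := by
  filter_upwards [h.loc (E + rhoH l k0 k), eventually_ge_atTop (4 * (E + rhoH l k0 k + 1))]
    with L h3 h4 U hU
  exact cc_tor D h₁ h₂ hK hl hl1 f₀ h.memP h.eP (h.eL L) (by omega) (fun U hne hU' => h3 _ U hne hU')
    hU

variable {r R : ℕ → ℕ} {Γ : ℝ} {E : ℕ → ℝ}

/-- **one sector**: the exponents of the ratio converge to those of the plane -/
theorem expo_tor (hK : 16 ≤ Kd) (hl : 5 ≤ l * (k0 + 1)) (hl1 : 1 ≤ l) {h₁ : ε₁ * ε₁ = 1}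
    {h₂ : ε₂ * ε₂ = 1} {KP KP' : Finset (ℤ × ℤ) → Ge (Fld ℤ)}
    {KL KL' : (L : ℕ) → Finset (ZMod (L + 1) × ZMod (L + 1)) → Ge (Fld (ZMod (L + 1)))}
    (h : Loc0 l k0 f₀ h₁ h₂ KP KL) (h' : Loc0 l k0 f₀ h₁ h₂ KP' KL')
    (pin : ∀ᶠ L in atTop, ∀ U, pr (L + 1) f₀ ∉ U → KL L U = KL' L U)
    (pinP : ∀ U, f₀ ∉ U → KP U = KP' U) (hΓ : 1 < Γ) (hE : ∀ k, 0 ≤ E k) (hs : Summable E)
    (bd1 : ∀ᶠ L in atTop, Bd (sys D (wTor (L + 1) ε₁ ε₂) {pr (L + 1) f₀} l k0 (KL L)) fd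
      (fun k => rr l k0 (k + 1)) (nearR l k0) (ENNReal.ofReal Γ) E (KT l k0 L))
    (bd2 : ∀ᶠ L in atTop, Bd (sys D (wTor (L + 1) ε₁ ε₂) {pr (L + 1) f₀} l k0 (KL' L)) fd
      (fun k => rr l k0 (k + 1)) (nearR l k0) (ENNReal.ofReal Γ) E (KT l k0 L)) :
    Tendsto (fun L => ∑ k ∈ range (KT l k0 L),
        ∑ U, cc (sys D (wTor (L + 1) ε₁ ε₂) {pr (L + 1) f₀} l k0 (KL L)) k U -
      ∑ k ∈ range (KT l k0 L),
        ∑ U, cc (sys D (wTor (L + 1) ε₁ ε₂) {pr (L + 1) f₀} l k0 (KL' L)) k U) atTop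
      (𝓝 (expo (sys D (wPl ℤ) {f₀} l k0 KP) (sys D (wPl ℤ) {f₀} l k0 KP'))) := by
  have hp : PinData (atTop : Filter ℕ) (fun _ => fd) (fd : ℤ × ℤ → ℤ × ℤ → ℕ)
      (fun L => pr (L + 1) f₀) f₀ (fun L => pr (L + 1)) (fun D => boxG f₀ D)
      (fun k => rr l k0 (k + 1)) (nearR l k0) Γ E (KT l k0)
      (fun L => sys D (wTor (L + 1) ε₁ ε₂) {pr (L + 1) f₀} l k0 (KL L))
      (fun L => sys D (wTor (L + 1) ε₁ ε₂) {pr (L + 1) f₀} l k0 (KL' L))
      (sys D (wPl ℤ) {f₀} l k0 KP) (sys D (wPl ℤ) {f₀} l k0 KP') := by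
    refine PinData.of_growing (exh_tor f₀) (iso_tor f₀) hΓ hE hs (KT_top l k0) bd1 bd2 ?_ ?_
      (fun k E => cc_loc D hK hl hl1 h k E) (fun k E => cc_loc D hK hl hl1 h' k E)
    · filter_upwards [pin] with L hL k U hU
      exact MarkEqx723.cc_eq D _ _ l k0 (Finset.mem_singleton_self _) hL k hU
    · intro k U hU
      exact MarkEqx723.cc_eq D _ _ l k0 (Finset.mem_singleton_self _) pinP k hU
  refine hp.expo_tendsto.congr fun L => ?_
  rw [← Finset.sum_sub_distrib]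
  refine Finset.sum_congr rfl fun k _ => ?_
  rw [tsum_fintype, ← Finset.sum_sub_distrib]

/-- **two sectors**: the difference of the exponents vanishes -/
theorem diff_tor (hK : 16 ≤ Kd) (hl : 5 ≤ l * (k0 + 1)) (hl1 : 1 ≤ l) (h₁ : ε₁ * ε₁ = 1)
    (h₂ : ε₂ * ε₂ = 1) (h₁' : ε₁' * ε₁' = 1) (h₂' : ε₂' * ε₂' = 1)
    {mk : (L : ℕ) → Finset (ZMod (L + 1) × ZMod (L + 1))}
    {KL KL' : (L : ℕ) → Finset (ZMod (L + 1) × ZMod (L + 1)) → Ge (Fld (ZMod (L + 1)))}
    (mem : ∀ L U, KL L U ∈ grG (fldU U)) (eL : ∀ L, KL L ∅ = 0) (eL' : ∀ L, KL' L ∅ = 0)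
    (loc : ∀ (L : ℕ) (x₀ : ZMod (L + 1) × ZMod (L + 1)) (R : ℕ) (hR : 4 * (R + 1) ≤ L + 1)
      (U : Finset (ZMod (L + 1) × ZMod (L + 1))), U.Nonempty →
      nbhd (s2 * rr l k0 0) U ⊆ ball x₀ R →
      mpG (secB h₁ h₂ h₁' h₂' x₀ hR).push (KL L U) = KL' L U)
    (hΓ : 1 < Γ) (hE : ∀ k, 0 ≤ E k) (hs : Summable E)
    (bd1 : ∀ᶠ L in atTop, Bd (sys D (wTor (L + 1) ε₁ ε₂) (mk L) l k0 (KL L)) fd
      (fun k => rr l k0 (k + 1)) (nearR l k0) (ENNReal.ofReal Γ) E (KT l k0 L))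
    (bd2 : ∀ᶠ L in atTop, Bd (sys D (wTor (L + 1) ε₁' ε₂') (mk L) l k0 (KL' L)) fd
      (fun k => rr l k0 (k + 1)) (nearR l k0) (ENNReal.ofReal Γ) E (KT l k0 L)) :
    Tendsto (fun L => ∑ k ∈ range (KT l k0 L),
        ∑ U, cc (sys D (wTor (L + 1) ε₁ ε₂) (mk L) l k0 (KL L)) k U -
      ∑ k ∈ range (KT l k0 L),
        ∑ U, cc (sys D (wTor (L + 1) ε₁' ε₂') (mk L) l k0 (KL' L)) k U) atTop (𝓝 0) := by
  classical
  -- both systems, cut to zero for the small sides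
  obtain ⟨L₀, hL₀⟩ := eventually_atTop.1 (bd1.and bd2)
  set c : (L : ℕ) → ℕ → Finset (ZMod (L + 1) × ZMod (L + 1)) → ℝ := fun L k U =>
    if L₀ ≤ L then cc (sys D (wTor (L + 1) ε₁ ε₂) (mk L) l k0 (KL L)) k U else 0 with hc
  set c' : (L : ℕ) → ℕ → Finset (ZMod (L + 1) × ZMod (L + 1)) → ℝ := fun L k U =>
    if L₀ ≤ L then cc (sys D (wTor (L + 1) ε₁' ε₂') (mk L) l k0 (KL' L)) k U else 0 with hc'
  have hNN0 : ∀ (L : ℕ) (r : ℕ) (Γ b : ℝ≥0∞),
      Packx915.PD (fd : (ZMod (L + 1) × ZMod (L + 1)) → _ → ℕ) →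
      NSumx915.NN fd r Γ (fun U : Finset (ZMod (L + 1) × ZMod (L + 1)) =>
        ENNReal.ofReal |(0 : ℝ)|) ≤ b := by
    intro L r Γ b _
    refine iSup_le fun f => ?_
    unfold NSumx915.bs
    refine le_trans (le_of_eq ?_) zero_le
    refine ENNReal.tsum_eq_zero.2 fun U => ?_
    rw [Set.indicator_apply]
    split_ifs <;> simp
  have key := tendsto_diff (KT_geo l k0) hΓ hE hs c c' ?_ ?_ ?_ ?_ ?_ ?_
  · refine (key.congr' ?_)
    filter_upwards [eventually_ge_atTop L₀] with L hL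
    rw [← Finset.sum_sub_distrib]
    refine Finset.sum_congr rfl fun k _ => ?_
    simp only [hc, hc', if_pos hL]
  · intro L k hk U hne hU
    simp only [hc, hc']
    split_ifs with hL
    · obtain ⟨x₀, hx₀⟩ := hne
      have hgeo := (KT_geo l k0).geo L k hk
      have hrho : rhoH l k0 k ≤ s2 * rr l k0 (k + 1) := by
        unfold rhoH
        refine max_le (Nat.mul_le_mul_left _ (rr_mono l k0 (Nat.le_succ k))) ?_
        exact Nat.le_mul_of_pos_left _ (by unfold s2; norm_num)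
      refine cc_sec D h₁ h₂ h₁' h₂' hK hl hl1 (mem L) (E := Dr (fun k => rr l k0 (k + 1))
        (nearR l k0) 16 L k) (x₀ := x₀) ?_ (fun U' hne' hU' => loc L x₀ _ _ U' hne' hU')
        ⟨x₀, hx₀⟩ (hU x₀ hx₀)
      unfold Dr
      simp only at hgeo ⊢
      omega
    · rfl
  · intro L k hk
    simp only [hc, hc']
    split_ifs with hL
    · unfold cc
      rw [H_empty (D := sys D (wTor (L + 1) ε₁ ε₂) (mk L) l k0 (KL L)) (eL L),
        H_empty (D := sys D (wTor (L + 1) ε₁' ε₂') (mk L) l k0 (KL' L)) (eL' L)]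
    · rfl
  · intro L k hk
    by_cases hL : L₀ ≤ L
    · simp only [hc, if_pos hL]
      exact ((hL₀ L hL).1).nn k hk
    · simp only [hc, if_neg hL]
      exact hNN0 L _ _ _ pd_fd
  · intro L k hk
    by_cases hL : L₀ ≤ L
    · simp only [hc', if_pos hL]
      exact ((hL₀ L hL).2).nn k hk
    · simp only [hc', if_neg hL]
      exact hNN0 L _ _ _ pd_fd
  · intro L k hk U hU
    simp only [hc] at hU
    split_ifs at hU with hL
    · exact (((hL₀ L hL).1).conn k hk U hU).2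
    · exact absurd rfl hU
  · intro L k hk U hU
    simp only [hc'] at hU
    split_ifs at hU with hL
    · exact (((hL₀ L hL).2).conn k hk U hU).2
    · exact absurd rfl hU

end tor

end Crest.Agent.R165.TorSysx723
end
end

-- ▼ part R165/TorTop_599
section

/-!
# Row 165 (S0250), torus: assembly (helper599)

* `C0T J R V` : the initial activities of the tori with a real source are small (helper806)
* `tor_top`   : `PlB → C0T →` the torus bond expectations converge to `(exp (expo ..) - 1) / t`, any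
  connected support `Y ∋ 0` of the source, any plane records
-/

set_option autoImplicit false
set_option linter.unusedSectionVars false

noncomputable section

open Finset Filter Topology
open scoped ENNReal
open Crest.ProbabilityR.IsingModel

namespace Crest.Agent.R165.TorTopx599

open Crest.Agent.R165.Gr0x606 Crest.Agent.R165.Gr1x606
open Crest.Agent.R165.GeOpsx337 Crest.Agent.R165.J4Defx653 Crest.Agent.R165.J4Lnkx653
open Crest.Agent.R165.J4Geox126 Crest.Agent.R165.J4K0Mapx126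
open Crest.Agent.R165.TorChartx723 (wTor)
open Crest.Agent.R165.TorKx723
open Crest.Agent.R165.Latx683
open Crest.Agent.R165.TorRepx599 Crest.Agent.R165.TorFinx599 Crest.Agent.R165.TorEndx599
open Crest.Agent.R165.Bkgx683 (Bg MPar mpar Srcs noSrc realSrc)
open Crest.Agent.R165.FRDPolyx439 Crest.Agent.R165.FRDLatx439 Crest.Agent.R165.GDefx387
  Crest.Agent.R165.GSysx387
open Crest.Agent.R165.BgIsox432 (CNZ)
open Crest.Agent.R165.Telx337 (cc)
open Crest.Agent.R165.Compx889 (NP)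
open Crest.Agent.R165.DefRecx915 (allP)
open Crest.Agent.R165.K0Srcx722 Crest.Agent.R165.MetGx723 Crest.Agent.R165.TorSysx723
open Crest.Agent.R165.TorNorm2x583 Crest.Agent.R165.Outx683 Crest.Agent.R165.PEndx683
open Crest.Agent.R165.Packx915 Crest.Agent.R165.NSumx915 Crest.Agent.R165.Bridgex915
open Crest.Agent.R165.SpinSysx892 (Bd)
open Crest.Agent.R165.PinSysx723 (expo)
open Crest.Agent.R165.J1ax606 (EG)
open Crest.Agent.R165.J4RRx653 (RR ep RIn ep_mem_RIn)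
open Crest.Agent.R165.J4Pathx653 (Ed)
open Crest.Agent.R165.Constx891 (ev_std Std)
open Crest.Agent.R165.DomGeox900

/-! ### the source records on the tori -/

section rec

variable {G : Type} [CommRing G] [DecidableEq G]

/-- a real source with support `Y` -/
def rs (A : Type*) [CommRing A] [Algebra ℝ A] (Y : Finset (G × G)) (S : Finset (EG G)) (t : ℝ)
    (h : ∀ e ∈ S, faE e ⊆ Y) : Srcs (Fin 1) G A where
  Ys _ := Y
  as _ := algebraMap ℝ A t
  Fs _ := ∏ e ∈ S, ep (Finsupp.single e 1)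
  Fs_mem _ := by
    refine Subalgebra.prod_mem _ fun e he => ep_mem_RIn ?_
    intro x hx
    rw [Finsupp.support_single _ one_ne_zero, Finset.mem_coe, Finset.mem_singleton] at hx
    subst hx
    exact h _ he


theorem realSrc_of {A : Type*} [CommRing A] [Algebra ℝ A] {src : Srcs (Fin 1) G A}
    {Y : Finset (G × G)} {S : Finset (EG G)} {t : ℝ} (h : IsReal src Y S t) (hY : Y.Nonempty) :
    RealSrc src fun _ => t where
  as k := by
    obtain rfl : k = 0 := Subsingleton.elim _ _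
    exact h.as
  ne k := by
    obtain rfl : k = 0 := Subsingleton.elim _ _
    rw [h.Ys]
    exact hY

theorem prod_of {A : Type*} [CommRing A] [Algebra ℝ A] {src : Srcs (Fin 1) G A}
    {Y : Finset (G × G)} {S : Finset (EG G)} {t : ℝ} (h : IsReal src Y S t) :
    ∏ k, (1 + t • src.Fs k) = 1 + t • ∏ e ∈ S, (ep (Finsupp.single e 1) : RR (EG G)) := by
  rw [Fin.prod_univ_one, h.Fs]

end rec

/-! ### images on the tori -/

theorem conn_image {X X' : Type*} [DecidableEq X'] {d : X → X → ℕ} {d' : X' → X' → ℕ} {R R' : ℕ}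
    {U : Finset X} (φ : X → X') (hφ : ∀ a ∈ U, ∀ b ∈ U, d a b ≤ R → d' (φ a) (φ b) ≤ R')
    (h : Packx915.Conn d R U) : Packx915.Conn d' R' (U.image φ) := by
  classical
  intro A hA hne hneU
  obtain ⟨a, ha⟩ := hne
  obtain ⟨a', ha', rfl⟩ := Finset.mem_image.1 (hA ha)
  obtain ⟨x, hx, y, hy, hyA, hxy⟩ := h (U.filter fun u => φ u ∈ A) (Finset.filter_subset _ _)
    ⟨a', Finset.mem_filter.2 ⟨ha', ha⟩⟩ (by
      intro he
      apply hneU
      refine le_antisymm hA fun v hv => ?_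
      obtain ⟨u, hu, rfl⟩ := Finset.mem_image.1 hv
      rw [← he] at hu
      exact (Finset.mem_filter.1 hu).2)
  rw [Finset.mem_filter] at hx hyA
  refine ⟨φ x, hx.2, φ y, Finset.mem_image_of_mem _ hy, fun hc => hyA ⟨hy, hc⟩, ?_⟩
  exact hφ x hx.1 y hy hxy

theorem ebm_pr (L : ℕ) (e : Ed) :
    ebm (MetGx723.pr (L + 1)) e = ez (0 : ZMod (L + 1) × ZMod (L + 1)) e := by
  obtain ⟨⟨x, y⟩, j⟩ := e
  unfold ebm MetGx723.pr ez fz cz
  simp

theorem fz_pr (L : ℕ) : fz (0 : ZMod (L + 1) × ZMod (L + 1)) = MetGx723.pr (L + 1) := by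
  funext f
  unfold MetGx723.pr fz cz
  simp

theorem faE_ebm_pr (L : ℕ) (e : EG ℤ) :
    faE (ebm (MetGx723.pr (L + 1)) e) = (faE e).image (MetGx723.pr (L + 1)) := by
  rw [ebm_pr, faE_ez, fz_pr]

theorem hSY_tor {Y : Finset (ℤ × ℤ)} {S : Finset (EG ℤ)} (hSY : ∀ e ∈ S, faE e ⊆ Y) (L : ℕ) :
    ∀ e ∈ S.image (ebm (MetGx723.pr (L + 1))), faE e ⊆ Y.image (MetGx723.pr (L + 1)) := by
  intro e he
  obtain ⟨e', he', rfl⟩ := Finset.mem_image.1 he
  rw [faE_ebm_pr]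
  exact Finset.image_subset_image (hSY e' he')

/-- **the initial activities of the tori with a real source are small** -/
def C0T (J : ℝ) (R : ℕ) (V : Finset (ℤ × ℤ) → ℝ) : Prop :=
  EvC fun c => ∀ C : ℝ, ∃ ε > 0, ∃ m ≥ 0, ∀ (Y : Finset (ℤ × ℤ)) (S : Finset (EG ℤ)),
    (∀ e ∈ S, faE e ⊆ Y) → Packx915.Conn fd 1 Y → ∃ t0 > 0, ∃ mS ≥ 0, ∀ lam β z : ℝ, |lam| < ε →
      NearP J C lam β z → ∀ t : ℝ, 0 ≤ t → t < t0 → ∀ (L : ℕ) (ε₁ ε₂ : ℝ), ε₁ * ε₁ = 1 →
      ε₂ * ε₂ = 1 → ∀ src : Srcs (Fin 1) (ZMod (L + 1)) (Ge (Fld (ZMod (L + 1)))),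
      IsReal src (Y.image (MetGx723.pr (L + 1))) (S.image (ebm (MetGx723.pr (L + 1)))) t →
      NK (wTor (L + 1) ε₁ ε₂) c.A0 (rr c.p c.k0 0) (ENNReal.ofReal c.Γ) (fun _ => True)
        (fun U => (((Bg.tor (L + 1) ε₁ ε₂).K0 (mpar J lam R V β z) LinearMap.id src c.p c.k0 U :
          Ge (Fld (ZMod (L + 1)))) : Gr (Fld (ZMod (L + 1))))) ≤ ENNReal.ofReal (m * |lam| + mS * t)

/-! ### the local comparison of the initial activities -/

theorem fd_pr_le (L : ℕ) (f g : ℤ × ℤ) :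
    fd (MetGx723.pr (L + 1) f) (MetGx723.pr (L + 1) g) ≤ fd f g := by
  rw [TorWrapx723.fd_eq_zmod, TorWrapx723.fd_eq_int]
  exact dG_pr_le _ f g

/-- plane / torus, any position of the source relative to the ball -/
theorem loc0 {ε₁ ε₂ : ℝ} (h₁ : ε₁ * ε₁ = 1) (h₂ : ε₂ * ε₂ = 1) (P : MPar) (l k0 : ℕ)
    {sp : Srcs (Fin 1) ℤ (Ge (Fld ℤ))}
    {st : ∀ L : ℕ, Srcs (Fin 1) (ZMod (L + 1)) (Ge (Fld (ZMod (L + 1))))}
    {Y : Finset (ℤ × ℤ)} {S : Finset (EG ℤ)} {t : ℝ} (hs : IsReal sp Y S t)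
    (hst : ∀ L, IsReal (st L) (Y.image (MetGx723.pr (L + 1))) (S.image (ebm (MetGx723.pr (L + 1)))) t)
    (hSY : ∀ e ∈ S, faE e ⊆ Y) (f₀ : ℤ × ℤ) :
    Loc0 l k0 f₀ h₁ h₂ (Bg.pl.K0 P LinearMap.id sp l k0)
      (fun L => (Bg.tor (L + 1) ε₁ ε₂).K0 P LinearMap.id (st L) l k0) where
  memP U := K0_real_mem Bg.pl P hs l k0 U
  mem L U := K0_real_mem (Bg.tor (L + 1) ε₁ ε₂) P (hst L) l k0 U
  eP := K0_src_empty Bg.pl P sp l k0
  eL L := K0_src_empty (Bg.tor (L + 1) ε₁ ε₂) P (st L) l k0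
  loc R := by
    obtain ⟨N, hN⟩ : ∃ N : ℕ, ∀ y ∈ Y, fd f₀ y ≤ N :=
      ⟨Y.sup fun y => fd f₀ y, fun y hy => Finset.le_sup (f := fun y => fd f₀ y) hy⟩
    filter_upwards [eventually_ge_atTop (R + N)] with L hL hR U hne hU
    refine hK0_top_src (B := Bg.pl) (B' := Bg.tor (L + 1) ε₁ ε₂) (TorIsox723.torB h₁ h₂ f₀ hR) P l k0
      (fun _ => trivial) (fun _ => trivial) (fun _ _ => trivial) (fun _ _ => trivial) hs (hst L)
      hSY U hne hU (fun _ => ⟨rfl, rfl⟩) fun h y hy => ?_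
    obtain ⟨u, hu, huy⟩ := Finset.mem_image.1 (h (Finset.mem_image_of_mem _ hy))
    have h1 : u ∈ ball f₀ R := K0IsoBx900.ball_of_nbhd hU hu (BgIsox432.mem_ball_self u 1)
    rw [mem_ball] at h1
    have h2 : fd u y < L + 1 := by
      have := fd_triangle u f₀ y
      rw [fd_comm u f₀] at this
      have := hN y hy
      omega
    have h3 : u = y := pr_inj (by rw [← TorWrapx723.fd_eq_int]; exact h2) huy
    rw [← h3]
    exact hu

/-! ### the four sectors -/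

/-- the sources on the tori -/
def srT (Y : Finset (ℤ × ℤ)) (S : Finset (EG ℤ)) (hSY : ∀ e ∈ S, faE e ⊆ Y) (t : ℝ) (L : ℕ) :
    Srcs (Fin 1) (ZMod (L + 1)) (Ge (Fld (ZMod (L + 1)))) :=
  rs _ (Y.image (MetGx723.pr (L + 1))) (S.image (ebm (MetGx723.pr (L + 1)))) t (hSY_tor hSY L)

theorem isReal_srT (Y : Finset (ℤ × ℤ)) (S : Finset (EG ℤ)) (hSY : ∀ e ∈ S, faE e ⊆ Y) (t : ℝ)
    (L : ℕ) : IsReal (srT Y S hSY t L) (Y.image (MetGx723.pr (L + 1)))
      (S.image (ebm (MetGx723.pr (L + 1)))) t := ⟨rfl, rfl, rfl⟩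

theorem srcOK_srT {Y : Finset (ℤ × ℤ)} {S : Finset (EG ℤ)} (hSY : ∀ e ∈ S, faE e ⊆ Y) (t : ℝ)
    (L : ℕ) {f₀ : ℤ × ℤ} (h0 : f₀ ∈ Y) (hY : Packx915.Conn fd 1 Y) :
    SrcOK (srT Y S hSY t L) {MetGx723.pr (L + 1) f₀} where
  real _ := ⟨t, rfl⟩
  conn _ := conn_image (MetGx723.pr (L + 1)) (fun a _ b _ h => (fd_pr_le L a b).trans h) hY
  mark _ _ := ⟨_, Finset.mem_singleton_self _, Finset.mem_image_of_mem _ h0⟩

theorem eS_sq (i : Fin 2) : eS i * eS i = 1 := by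
  unfold eS
  split_ifs <;> norm_num

theorem amp_top {c : Cst} (hA : 0 < c.A0) (hδ : 0 < c.δ) :
    Tendsto (Outx683.amp c) atTop atTop := by
  unfold Outx683.amp
  refine Tendsto.const_mul_atTop hA ?_
  refine tendsto_atTop_add_const_left _ _ ?_
  exact Tendsto.const_mul_atTop hδ tendsto_natCast_atTop_atTop

/-- **the torus half** -/
theorem tor_top {J : ℝ} (hJ : 0 < J) {R : ℕ} {V : Finset (ℤ × ℤ) → ℝ}
    (hV : Topx683.VHyp R V) (hpl : PlB J R V) (hC0 : C0T J R V) :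
    ForP J (PF J R V) fun c lam β z => ∀ (Y : Finset (ℤ × ℤ)) (S : Finset (EG ℤ)),
      (0 : ℤ × ℤ) ∈ Y → (∀ e ∈ S, faE e ⊆ Y) → Packx915.Conn fd 1 Y → ∃ t0 > 0, ∀ t : ℝ, 0 < t →
      t < t0 → ∀ sp sp' : Srcs (Fin 1) ℤ (Ge (Fld ℤ)), IsReal sp Y S t → IsReal sp' Y S 0 →
      Tendsto (fun L : ℕ => Symx541.torBonds L J lam R V β S) atTop
        (𝓝 ((Real.exp (expo (Bg.pl.flow (mpar J lam R V β z) DD {0} sp c.p c.k0)
          (Bg.pl.flow (mpar J lam R V β z) DD {0} sp' c.p c.k0)) - 1) / t)) := by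
  refine (EvC.and (EvC.and (EvC.and ev_TC ev_std) (tor_flow hpl)) hC0).mono fun c hc C => ?_
  obtain ⟨⟨⟨hT, hS⟩, hF⟩, hC⟩ := hc
  obtain ⟨ε₁, hε₁, η, hη, C', hC', hF⟩ := hF C
  obtain ⟨ε₂, hε₂, m, hm, hC⟩ := hC C
  refine ⟨min ε₁ (min ε₂ (min (η / 2 / (m + 1)) (1 / 2 / (|C| + 1)))), by positivity, ?_⟩
  intro lam β z hlam hn hPF Y S h0 hSY hY
  rw [lt_min_iff, lt_min_iff, lt_min_iff] at hlam
  obtain ⟨hl1, hl2, hl3, hl4⟩ := hlam
  obtain ⟨t0, ht0, mS, hmS, hC⟩ := hC Y S hSY hY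
  refine ⟨min t0 (η / 2 / (mS + 1)), by positivity, fun t ht htt sp sp' hsp hsp' => ?_⟩
  rw [lt_min_iff] at htt
  obtain ⟨ht1, ht2⟩ := htt
  have hz : 0 < 1 + z := by
    unfold NearP at hn
    rw [lt_div_iff₀ (by positivity)] at hl4
    have h1 : |z| ≤ C * |lam| := by linarith [abs_nonneg (β - criticalBeta J)]
    have h2 : C * |lam| ≤ |C| * |lam| := mul_le_mul_of_nonneg_right (le_abs_self C) (abs_nonneg _)
    have h3 := neg_abs_le z
    nlinarith [abs_nonneg lam]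
  set P := mpar J lam R V β z with hP
  set s := m * |lam| + mS * t with hs
  have hs0 : 0 ≤ s := by positivity
  have hsη : s ≤ η := by
    rw [lt_div_iff₀ (by positivity)] at hl3 ht2
    nlinarith [abs_nonneg lam]
  set E : ℕ → ℝ := fun k => C' * (|lam| + s) * (1 / 2) ^ k with hE
  have hE0 : ∀ k, 0 ≤ E k := fun k => by positivity
  have hEs : Summable E :=
    (summable_geometric_of_lt_one (by norm_num) (by norm_num)).mul_left _
  have hΓ9 : 9 ≤ ENNReal.ofReal c.Γ := hT.num.Γ9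
  have hΓ : 1 < c.Γ := by linarith [hS.Γ_ge]
  have hp1 : 1 ≤ c.p := by linarith [hS.p_pos]
  have hreal := isReal_srT Y S hSY
  -- bounds in all sectors
  have key : ∀ u : ℝ, 0 ≤ u → u ≤ t → ∀ σ : Fin 2 × Fin 2, ∀ᶠ L : ℕ in atTop,
      (∀ k, k ≤ KT c.p c.k0 L → NK (wTor (L + 1) (eS σ.2) (eS σ.1)) (Outx683.amp c k)
        (rr c.p c.k0 k) (ENNReal.ofReal c.Γ) (fun _ => True)
        (fun U => ((((Bg.tor (L + 1) (eS σ.2) (eS σ.1)).flow P DD {MetGx723.pr (L + 1) 0}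
          (srT Y S hSY u L) c.p c.k0).K k U : Ge (Fld (ZMod (L + 1)))) :
            Gr (Fld (ZMod (L + 1))))) ≤ ENNReal.ofReal (C' * (|lam| + s) * (1 / 2) ^ k)) ∧
      Bd ((Bg.tor (L + 1) (eS σ.2) (eS σ.1)).flow P DD {MetGx723.pr (L + 1) 0}
        (srT Y S hSY u L) c.p c.k0) fd (fun k => rr c.p c.k0 (k + 1)) (nearR c.p c.k0)
        (ENNReal.ofReal c.Γ) E (KT c.p c.k0 L) := by
    intro u hu0 hut σ
    filter_upwards [KT_583' c.p c.k0] with L hL
    refine hF lam β z hl1 hn hPF s hs0 hsη (L + 1) (eS σ.2) (eS σ.1) (eS_sq _) (eS_sq _)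
      (KT c.p c.k0 L) hL {MetGx723.pr (L + 1) 0} (by simp) (Fin 1) (srT Y S hSY u L)
      (srcOK_srT hSY u L h0 hY) ?_
    refine (hC lam β z hl2 hn u hu0 (hut.trans_lt ht1) L (eS σ.2) (eS σ.1) (eS_sq _) (eS_sq _)
      (srT Y S hSY u L) (hreal u L)).trans (ENNReal.ofReal_le_ofReal ?_)
    rw [hs]
    have := mul_le_mul_of_nonneg_left hut hmS
    linarith
  have hNP : ∀ u : ℝ, 0 ≤ u → u ≤ t → ∀ σ : Fin 2 × Fin 2, Tendsto (fun L : ℕ =>
      NP (SI (l := c.p) (k0 := c.k0) DD P (fun L => {MetGx723.pr (L + 1) 0}) (srT Y S hSY u) σ L)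
        (wTor (L + 1) (eS σ.2) (eS σ.1)) (Outx683.amp c) (rr c.p c.k0) (ENNReal.ofReal c.Γ) allP
        (KT c.p c.k0 L)) atTop (𝓝 0) := by
    intro u hu0 hut σ
    have h1 : Tendsto (fun L : ℕ => ENNReal.ofReal (C' * (|lam| + s) * (1 / 2) ^ (KT c.p c.k0 L)))
        atTop (𝓝 0) := by
      rw [← ENNReal.ofReal_zero]
      refine ENNReal.tendsto_ofReal ?_
      have h2 := ((tendsto_pow_atTop_nhds_zero_of_lt_one (r := (1 / 2 : ℝ)) (by norm_num)
        (by norm_num)).comp (KT_top c.p c.k0)).const_mul (C' * (|lam| + s))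
      rw [mul_zero] at h2
      exact h2
    refine tendsto_of_tendsto_of_tendsto_of_le_of_le' tendsto_const_nhds h1
      (Eventually.of_forall fun _ => zero_le) ?_
    filter_upwards [key u hu0 hut σ] with L hL
    exact hL.1 _ le_rfl
  have hexp : ∀ σ : Fin 2 × Fin 2, Tendsto (fun L =>
      EI (l := c.p) (k0 := c.k0) DD P (fun L => {MetGx723.pr (L + 1) 0}) (srT Y S hSY t) σ L -
      EI (l := c.p) (k0 := c.k0) DD P (fun L => {MetGx723.pr (L + 1) 0}) (srT Y S hSY 0) σ L) atTop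
      (𝓝 (expo (Bg.pl.flow P DD {0} sp c.p c.k0) (Bg.pl.flow P DD {0} sp' c.p c.k0))) := by
    intro σ
    refine expo_tor (E := E) DD (by norm_num) hT.five hp1 (h₁ := eS_sq σ.2) (h₂ := eS_sq σ.1)
      (loc0 (eS_sq σ.2) (eS_sq σ.1) P c.p c.k0 hsp (hreal t) hSY 0)
      (loc0 (eS_sq σ.2) (eS_sq σ.1) P c.p c.k0 hsp' (hreal 0) hSY 0) ?_ ?_ hΓ hE0 hEs
      ((key t ht.le le_rfl σ).mono fun L hL => hL.2) ((key 0 le_rfl ht.le σ).mono fun L hL => hL.2)
    · exact Eventually.of_forall fun L U hU => K0_t (Bg.tor (L + 1) (eS σ.2) (eS σ.1)) P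
        LinearMap.id (hreal t L) (hreal 0 L) c.p c.k0 (Finset.mem_image_of_mem _ h0)
        (Finset.mem_image_of_mem _ h0) hU
    · exact fun U hU => K0_t Bg.pl P LinearMap.id hsp hsp' c.p c.k0 h0 h0 hU
  have hdiff : Tendsto (fun L =>
      EI (l := c.p) (k0 := c.k0) DD P (fun L => {MetGx723.pr (L + 1) 0}) (srT Y S hSY 0) (0, 0) L -
      EI (l := c.p) (k0 := c.k0) DD P (fun L => {MetGx723.pr (L + 1) 0}) (srT Y S hSY 0) (1, 1) L)
      atTop (𝓝 0) := by
    refine diff_tor (E := E) DD (by norm_num) hT.five hp1 (eS_sq _) (eS_sq _) (eS_sq _) (eS_sq _)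
      (fun L U => K0_real_mem _ P (hreal 0 L) c.p c.k0 U) (fun L => K0_src_empty _ P _ c.p c.k0)
      (fun L => K0_src_empty _ P _ c.p c.k0) ?_ hΓ hE0 hEs
      ((key 0 le_rfl ht.le (0, 0)).mono fun L hL => hL.2)
      ((key 0 le_rfl ht.le (1, 1)).mono fun L hL => hL.2)
    intro L x₀ R hR U hne hU
    exact hK0_secB (eS_sq _) (eS_sq _) (eS_sq _) (eS_sq _) x₀ hR P c.p c.k0 (hreal 0 L) (hreal 0 L)
      (hSY_tor hSY L) U hne hU
  have hne : ∀ L : ℕ, (Y.image (MetGx723.pr (L + 1))).Nonempty := fun L => ⟨_, Finset.mem_image_of_mem _ h0⟩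
  have hprod : ∀ u : ℝ, ∀ᶠ L : ℕ in atTop, ∏ k, (1 + u • (srT Y S hSY u L).Fs k) =
      1 + u • epTor (L + 1) S := by
    intro u
    filter_upwards [prod_image_ez S] with L hL
    rw [prod_of (hreal u L)]
    have h1 : (ebm (MetGx723.pr (L + 1)) : Ed → EG (ZMod (L + 1))) =
        ez (0 : ZMod (L + 1) × ZMod (L + 1)) := funext (ebm_pr L)
    rw [← hL, ← h1]
  refine torBonds_end hJ hV lam β z hz S ht.ne' DD (by norm_num [MM]) (by norm_num) hp1 hT.five
    (Γ := ENNReal.ofReal c.Γ) ((by norm_num : (1 : ℝ≥0∞) ≤ 9).trans hΓ9)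
    (amp_top hT.num.A0_pos hS.δ_pos) (fun L => {MetGx723.pr (L + 1) 0})
    (srT Y S hSY t) (srT Y S hSY 0) (a₁ := fun _ => t) (a₀ := fun _ => 0)
    (Eventually.of_forall fun L => realSrc_of (hreal t L) (hne L))
    (Eventually.of_forall fun L => realSrc_of (hreal 0 L) (hne L))
    (hprod t) ((hprod 0).mono fun L hL => by rw [hL, zero_smul, add_zero])
    (fun σ => Eventually.of_forall fun L U => K0_real_mem _ P (hreal t L) c.p c.k0 U)
    (fun σ => Eventually.of_forall fun L U => K0_real_mem _ P (hreal 0 L) c.p c.k0 U)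
    (hNP t ht.le le_rfl) (hNP 0 le_rfl ht.le) hexp hdiff

end Crest.Agent.R165.TorTopx599
end
end

-- ▼ part R165/C0Src_806
section

/-!
# Row 165 (S0250): the initial norm of the flows with a real source (helper806)

`src` is any source record with `IsReal src Y S t` (support `Y` connected by unit steps, bonds `S`,
constant `t`), `B` any background with weights at most one.

* `init_NN_of`    : 682's `init_NN` from a bound of `K0` (any family of norms)
* `shyp_real`     : `SHyp0` for a real source, `α = |t|`, `φ = wc^{#S}`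
* `c0_gen_big`    : sources of arbitrary support, any family of norms
* `c0s_NN`        : `NN (K0) ≤ C0c * tht + CSc #Y #S * |t|`
* `c0_src_ev`     : the same with the filters of `ForP`:
  `∃ ε m, ∀ nY nS, ∃ mS t0, ∀ lam β z t B src ..: NK (K0) ≤ m |lam| + mS |t|`, every amplitude
  `a ≤ 2 A0`, every weight, every class; `c0_src_flow_ev` for `(B.flow ..).K 0`
* `K0_real_struct`: nonempty, connected, local
-/

set_option autoImplicit false
set_option linter.unusedSectionVars false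

noncomputable section

open Finset Filter Topology
open scoped ENNReal
open Crest.ProbabilityR.IsingModel
open Crest.Agent.R165.Gr0x606 Crest.Agent.R165.Gr1x606 Crest.Agent.R165.GeOpsx337
open Crest.Agent.R165.GDefx387 Crest.Agent.R165.GSysx387 Crest.Agent.R165.KFlowx337
open Crest.Agent.R165.SrcDefx991 Crest.Agent.R165.TorChartx723
open Crest.Agent.R165.J4K0x126 Crest.Agent.R165.J4Geox126 Crest.Agent.R165.J4K0Bx126
open Crest.Agent.R165.J4Datx126
open Crest.Agent.R165.J4Defx653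
open Crest.Agent.R165.J4RRx653
open Crest.Agent.R165.J1ax606 (pe qe)
open Crest.Agent.R165.Latx683 (xc wPl wDom wX BW HE Fld ray)
open Crest.Agent.R165.Bkgx683 Crest.Agent.R165.PEndx683 Crest.Agent.R165.Outx683
open Crest.Agent.R165.C0ax950 Crest.Agent.R165.InitNx682 Crest.Agent.R165.KInitx892
open Crest.Agent.R165.NSumx915 Crest.Agent.R165.Bridgex915 Crest.Agent.R165.Quad2x897
open Crest.Agent.R165.PNormx417 Crest.Agent.R165.BgIsox432 Crest.Agent.R165.Quadx897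
open Crest.Agent.R165.C0x950 Crest.Agent.R165.K0Bigx806 Crest.Agent.R165.K0Srcx722

namespace Crest.Agent.R165.C0Srcx806

/-! ### the reclustering step, from a bound of `K0` -/

section gen

variable {G : Type} [CommRing G] [CN G] [GoodG G] [DecidableEq G]
variable {A : Type*} [CommRing A] [Algebra ℝ A]
variable {nm : Finset (G × G) → A → ℝ≥0∞} {Γ s : ℝ} {r' R₀ R' : ℕ}

theorem init_NN_of (hF : NormFam nm) (hΓ : 3 ≤ Γ) (hR1 : 1 ≤ R₀) (hRr : 4 * R₀ + 2 ≤ r')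
    (hs0 : 0 ≤ s) (hs : (mI r' R' : ℝ) * (24 * nI r' * s) ≤ 1) {K : Finset (G × G) → A}
    (hK : ∀ U, K U ≠ 0 → Packx915.Conn fd R₀ U)
    (h : NN fd 0 (ENNReal.ofReal Γ) (fun U => nm U (K U)) ≤ ENNReal.ofReal (2 * s)) :
    NN fd r' (ENNReal.ofReal Γ) (fun U => nm U (K1 (fun a b => fd a b ≤ R') K U)) ≤
      ENNReal.ofReal (8 * nI r' * s) := by
  have hr' : 0 < r' := by omega
  have e1 : (nI r' : ℝ≥0∞) = ENNReal.ofReal (nI r') := (ENNReal.ofReal_natCast _).symm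
  have e2 : (mI r' R' : ℝ≥0∞) = ENNReal.ofReal (mI r' R') := (ENNReal.ofReal_natCast _).symm
  have e3 : (3 : ℝ≥0∞) * nI r' * ENNReal.ofReal (2 * s) = ENNReal.ofReal (6 * nI r' * s) := by
    rw [e1, ← ENNReal.ofReal_ofNat 3, ← ENNReal.ofReal_mul (by norm_num),
      ← ENNReal.ofReal_mul (by positivity)]
    congr 1; ring
  have hsm : (mI r' R' : ℝ) * (6 * nI r' * s) ≤ 1 := by
    have h2 : (0 : ℝ) ≤ (mI r' R' : ℝ) * (nI r' * s) := by positivity
    nlinarith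
  have key := K1_NN (R' := R') (n := mI r' R') (n' := nI r') (Γ := ENNReal.ofReal Γ) pd_fd
    (three_le_ofReal hΓ) hRr (cov_fd hr' _) (cov_card r') hF hK h
    (by rw [e3, e2, ← ENNReal.ofReal_mul (by positivity), ← ENNReal.ofReal_one]
        exact ENNReal.ofReal_le_ofReal hsm) ENNReal.ofReal_ne_top
  refine key.trans ?_
  rw [e3, e2, e1, ← ENNReal.ofReal_pow (by positivity), ← ENNReal.ofReal_mul (by positivity),
    ← ENNReal.ofReal_mul (by positivity), ← ENNReal.ofReal_add (by positivity) (by positivity)]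
  refine ENNReal.ofReal_le_ofReal ?_
  have h3 : (mI r' R' : ℝ) * (6 * nI r' * s) ^ 2 ≤ 6 * nI r' * s := by
    have h4 : (0 : ℝ) ≤ 6 * nI r' * s := by positivity
    calc (mI r' R' : ℝ) * (6 * nI r' * s) ^ 2 = ((mI r' R' : ℝ) * (6 * nI r' * s)) *
          (6 * nI r' * s) := by ring
      _ ≤ 1 * (6 * nI r' * s) := mul_le_mul_of_nonneg_right hsm h4
      _ = _ := one_mul _
  linarith

variable {κ : Type*} [DecidableEq κ] [Fintype κ]
variable {fr : Fr G A} {B : Bk G κ A} {θ εs : ℝ} {α φ : κ → ℝ≥0∞}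

/-- **sources of arbitrary support, any family of norms** -/
theorem c0_gen_big {c : Cst} (hc : COK c) (hN : NHyp fr nm (cc0 c)) (hF : NormFam nm)
    (hB : BHyp B θ) (hεs : 0 ≤ εs) (hS : SHyp0 B nm (cc0 c) α φ)
    (htot : ∀ f, ∑ k with f ∈ B.Ys k,
      ENNReal.ofReal (3 * c.Γ) ^ (B.Ys k).card * (α k * φ k) ≤ ENNReal.ofReal εs)
    (hk : ∀ k, Packx915.Conn fd 1 (B.Ys k)) (h : D0c B.R c * (KA B.R c * θ + εs) ≤ 1) :
    NN fd (r0 c) (ENNReal.ofReal c.Γ)
      (fun U => nm U (K1 (near c.p c.k0 0) (B.K0 fr) U)) ≤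
      ENNReal.ofReal (8 * nI (r0 c) * (KA B.R c * θ + εs)) := by
  have hn := num hc hB.θ0 hεs h
  have hs0 : 0 ≤ KA B.R c * θ + εs := by
    have h1 := KA_nonneg B.R hc
    have h2 := hB.θ0
    positivity
  have h3 := hc.Γ
  exact init_NN_of hF hc.Γ le_rfl hn.Rr hs0 hn.sm'
    (fun U hU => K0_connR (fr := fr) (B := B) le_rfl hk hU)
    (NN_le_of fun f 𝒮 => K0_bound_big hN hB (by linarith) hεs hS htot hn.sm f 𝒮)

end gen

/-! ### a real source -/

section real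

variable {G : Type} [CommRing G] [DecidableEq G] {V : Type*} [AddCommGroup V] [Module ℝ V]

theorem nmE_prod_ep_le {w : ℝ≥0∞} (hw : 1 ≤ w) (S : Finset (EG G)) :
    nmE (fun _ => w) (∏ e ∈ S, ep (Finsupp.single e 1) : RR (EG G)) ≤ w ^ S.card := by
  classical
  refine (nmE_prod_le (fun _ => hw) _ _).trans ?_
  rw [← Finset.prod_const]
  refine Finset.prod_le_prod' fun e _ => ?_
  rw [nmE_ep, wtS, Finsupp.support_single _ one_ne_zero, Finset.prod_singleton]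

theorem shyp_real {A : Type*} [CommRing A] [Algebra ℝ A] (B : Bg G) (P : MPar)
    {src : Srcs (Fin 1) G A} {Y : Finset (G × G)} {S : Finset (EG G)} {t : ℝ}
    (hs : IsReal src Y S t) {nm : Finset (G × G) → A → ℝ≥0∞} (hnm : ∀ U, FSemi (nm U)) {c : ℝ}
    (hc : 1 ≤ c) :
    SHyp0 (B.bk P src) nm c (fun _ => ENNReal.ofReal |t|)
      (fun _ => ENNReal.ofReal (wc c ^ S.card)) where
  αt _ := ENNReal.ofReal_ne_top
  φt _ := ENNReal.ofReal_ne_top
  a k U _ := by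
    obtain rfl : k = 0 := Subsingleton.elim _ _
    change nm U (src.as 0) ≤ _
    rw [hs.as, Algebra.algebraMap_eq_smul_one]
    refine ((hnm U).smul _ _).trans ?_
    rw [Real.enorm_eq_ofReal_abs]
    calc ENNReal.ofReal |t| * nm U 1 ≤ ENNReal.ofReal |t| * 1 :=
          mul_le_mul_right (hnm U).one _
      _ = _ := mul_one _
  F k := by
    obtain rfl : k = 0 := Subsingleton.elim _ _
    change nmE _ (src.Fs 0) ≤ _
    rw [hs.Fs, ENNReal.ofReal_pow (by linarith [wc_one hc])]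
    refine nmE_prod_ep_le ?_ S
    rw [← ENNReal.ofReal_one]; exact ENNReal.ofReal_le_ofReal (wc_one hc)

/-- the size of a real source -/
def eS (Γ c : ℝ) (nY nS : ℕ) : ℝ := (3 * Γ) ^ nY * wc c ^ nS

theorem eS_nonneg {Γ c : ℝ} (hΓ : 3 ≤ Γ) (hc : 1 ≤ c) (nY nS : ℕ) : 0 ≤ eS Γ c nY nS := by
  have := wc_one hc
  unfold eS
  positivity

theorem tot_real {A : Type*} [CommRing A] [Algebra ℝ A] (B : Bg G) (P : MPar)
    {src : Srcs (Fin 1) G A} {Y : Finset (G × G)} {S : Finset (EG G)} {t : ℝ}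
    (hs : IsReal src Y S t) {Γ c : ℝ} (hΓ : 3 ≤ Γ) (hc : 1 ≤ c) {nY nS : ℕ} (hY : Y.card ≤ nY)
    (hS : S.card ≤ nS) (f : G × G) :
    ∑ k with f ∈ (B.bk P src).Ys k, ENNReal.ofReal (3 * Γ) ^ ((B.bk P src).Ys k).card *
      ((fun _ : Fin 1 => ENNReal.ofReal |t|) k *
        (fun _ : Fin 1 => ENNReal.ofReal (wc c ^ S.card)) k) ≤
      ENNReal.ofReal (eS Γ c nY nS * |t|) := by
  have hw := wc_one hc
  refine (Finset.sum_le_sum_of_subset (Finset.filter_subset _ _)).trans ?_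
  rw [Fin.sum_univ_one]
  change ENNReal.ofReal (3 * Γ) ^ (src.Ys 0).card *
    (ENNReal.ofReal |t| * ENNReal.ofReal (wc c ^ S.card)) ≤ _
  rw [hs.Ys, ← ENNReal.ofReal_pow (by linarith), ← ENNReal.ofReal_mul (abs_nonneg _),
    ← ENNReal.ofReal_mul (by positivity)]
  refine ENNReal.ofReal_le_ofReal ?_
  have h1 : (3 * Γ) ^ Y.card ≤ (3 * Γ) ^ nY := pow_le_pow_right₀ (by linarith) hY
  have h2 : wc c ^ S.card ≤ wc c ^ nS := pow_le_pow_right₀ hw hS
  calc (3 * Γ) ^ Y.card * (|t| * wc c ^ S.card) ≤ (3 * Γ) ^ nY * (|t| * wc c ^ nS) := by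
        gcongr
    _ = eS Γ c nY nS * |t| := by unfold eS; ring

end real

/-! ### the bound for the backgrounds -/

section main

variable {G : Type} [CommRing G] [CN G] [GoodG G] [DecidableEq G]

/-- the coefficient of `|t|` -/
def CSc (c : Cst) (nY nS : ℕ) : ℝ := 8 * nI (r0 c) * eS c.Γ (cc0 c) nY nS

theorem CSc_nonneg {c : Cst} (hc : COK c) (nY nS : ℕ) : 0 ≤ CSc c nY nS := by
  have := eS_nonneg hc.Γ (one_le_cB c.A0 (r0 c)) nY nS
  unfold CSc
  positivity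

/-- **the initial norm with a real source** -/
theorem c0s_NN {J : ℝ} {R : ℕ} {V : Finset (ℤ × ℤ) → ℝ} {c : Cst} (hc : COK c) {lam β z t : ℝ}
    {nY nS : ℕ} (h1 : CT J R V * tht J lam β z ≤ 1)
    (h : D0c (max R 1) c * (KA (max R 1) c * (CT J R V * tht J lam β z) +
      eS c.Γ (cc0 c) nY nS * |t|) ≤ 1)
    (B : Bg G) (hw : W1 B.w) {src : Srcs (Fin 1) G (Ge (Fld G))} {Y : Finset (G × G)}
    {S : Finset (EG G)} (hs : IsReal src Y S t) (hY : Y.card ≤ nY) (hS : S.card ≤ nS)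
    (hk : Packx915.Conn fd 1 Y) (w : BW G) :
    NN fd (r0 c) (ENNReal.ofReal c.Γ) (fun U => pG (wU w c.A0 (r0 c) U)
      (B.K0 (mpar J lam R V β z) LinearMap.id src c.p c.k0 U)) ≤
      ENNReal.ofReal (C0c J R V c * tht J lam β z + CSc c nY nS * |t|) := by
  have hcc : 1 ≤ cc0 c := one_le_cB c.A0 (r0 c)
  have he := eS_nonneg hc.Γ hcc nY nS
  have key := c0_gen_big (B := B.bk (mpar J lam R V β z) src) hc
    (nhyp_id w hc.A (r0 c)) (normFam_pG w c.A0 (r0 c)) (bhyp hw h1 _)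
    (εs := eS c.Γ (cc0 c) nY nS * |t|) (by positivity)
    (shyp_real B (mpar J lam R V β z) hs (fun U => fsemi_pG _) hcc)
    (tot_real B (mpar J lam R V β z) hs hc.Γ hcc hY hS)
    (fun k => by
      obtain rfl : k = 0 := Subsingleton.elim _ _
      change Packx915.Conn fd 1 (src.Ys 0)
      rw [hs.Ys]; exact hk) h
  refine le_trans key (le_of_eq ?_)
  congr 1
  change 8 * nI (r0 c) * (KA (max R 1) c * (CT J R V * tht J lam β z) +
    eS c.Γ (cc0 c) nY nS * |t|) = _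
  unfold C0c CSc
  ring

theorem c0s_NK {J : ℝ} {R : ℕ} {V : Finset (ℤ × ℤ) → ℝ} {c : Cst} (hc : COK c) {lam β z t : ℝ}
    {nY nS : ℕ} (h1 : CT J R V * tht J lam β z ≤ 1)
    (h : D0c (max R 1) c * (KA (max R 1) c * (CT J R V * tht J lam β z) +
      eS c.Γ (cc0 c) nY nS * |t|) ≤ 1)
    (B : Bg G) (hw : W1 B.w) {src : Srcs (Fin 1) G (Ge (Fld G))} {Y : Finset (G × G)}
    {S : Finset (EG G)} (hs : IsReal src Y S t) (hY : Y.card ≤ nY) (hS : S.card ≤ nS)
    (hk : Packx915.Conn fd 1 Y) (w : BW G) {a : ℝ} (ha : a ≤ c.A0)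
    (p : Finset (G × G) → Prop) :
    NK w a (rr c.p c.k0 0) (ENNReal.ofReal c.Γ) p
      (fun U => (B.K0 (mpar J lam R V β z) LinearMap.id src c.p c.k0 U : Gr (Fld G))) ≤
      ENNReal.ofReal (C0c J R V c * tht J lam β z + CSc c nY nS * |t|) :=
  (Crudex386.NK_amp_mono w ha _ _ p _).trans
    ((NK_le_NN w c.A0 (r0 c) _ p _).trans (c0s_NN hc h1 h B hw hs hY hS hk w))


end main

/-! ### the filters of the constants -/

/-- the amplitude `2 A0` -/
def c2 (c : Cst) : Cst := ⟨c.p, c.Γ, c.k0, 2 * c.A0, c.δ⟩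

theorem COK.two {c : Cst} (hc : COK c) : COK (c2 c) where
  Γ := hc.Γ
  A := by change 0 ≤ 2 * c.A0; linarith [hc.A]
  r := hc.r

/-- **c_0 WITH A REAL SOURCE, in the form of `ForP`**: `ε` and the coefficient `m` of `|lam|` do not
depend on the source; every background with weights at most one, every amplitude `a ≤ 2 A0`, every
weight `w` of the norm, every class `p` -/
theorem c0_src_ev (J : ℝ) (R : ℕ) (V : Finset (ℤ × ℤ) → ℝ) : EvC fun c => ∀ C : ℝ, ∃ ε > 0,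
    ∃ m ≥ 0, ∀ nY nS : ℕ, ∃ mS ≥ 0, ∃ t0 > 0, ∀ lam β z t : ℝ, |lam| < ε →
      NearP J C lam β z → |t| ≤ t0 →
      ∀ (G : Type) [CommRing G] [CN G] [GoodG G] [DecidableEq G] (B : Bg G), W1 B.w →
        ∀ (src : Srcs (Fin 1) G (Ge (Fld G))) (Y : Finset (G × G)) (S : Finset (EG G)),
          IsReal src Y S t → Y.card ≤ nY → S.card ≤ nS → Packx915.Conn fd 1 Y →
          ∀ (w : BW G) (a : ℝ), a ≤ 2 * c.A0 → ∀ p : Finset (G × G) → Prop,
            NK w a (rr c.p c.k0 0) (ENNReal.ofReal c.Γ) p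
              (fun U => (B.K0 (mpar J lam R V β z) LinearMap.id src c.p c.k0 U : Gr (Fld G))) ≤
              ENNReal.ofReal (m * |lam| + mS * |t|) := by
  refine evC_COK.mono fun c hc C => ?_
  have hc' := COK.two hc
  have h1 : 0 < 1 + |C| := by positivity
  have h2 := C0c_nonneg J R V hc'
  have hK := KA_nonneg (max R 1) hc'
  have hD := D0c_nonneg (max R 1) (c2 c)
  have hT := one_le_CT J R V
  have hD1 : 0 < 1 + D0c (max R 1) (c2 c) * (KA (max R 1) (c2 c) * CT J R V) := by positivity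
  -- the bound on `lam`
  set X : ℝ := (CT J R V + (1 + D0c (max R 1) (c2 c) * (KA (max R 1) (c2 c) * CT J R V))) *
    (1 + |C|) with hX
  have hX0 : 0 < X := by positivity
  refine ⟨1 / (2 * X), by positivity, C0c J R V (c2 c) * (1 + |C|), by positivity,
    fun nY nS => ?_⟩
  have he := eS_nonneg hc'.Γ (one_le_cB (c2 c).A0 (r0 (c2 c))) nY nS
  set E : ℝ := eS (c2 c).Γ (cc0 (c2 c)) nY nS with hE
  have hE1 : 0 < 1 + D0c (max R 1) (c2 c) * E := by positivity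
  refine ⟨CSc (c2 c) nY nS, CSc_nonneg hc' nY nS, 1 / (2 * (1 + D0c (max R 1) (c2 c) * E)),
    by positivity, ?_⟩
  intro lam β z t hl hn ht G _ _ _ _ B hw src Y S hs hY hS hk w a ha p
  have h4 := tht_le_of_near hn
  have h40 := tht_nonneg J lam β z
  have h5 : X * |lam| ≤ 1 / 2 := by
    have : |lam| ≤ 1 / (2 * X) := hl.le
    calc X * |lam| ≤ X * (1 / (2 * X)) := by gcongr
      _ = 1 / 2 := by field_simp
  have h6 : (CT J R V + (1 + D0c (max R 1) (c2 c) * (KA (max R 1) (c2 c) * CT J R V))) *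
      tht J lam β z ≤ 1 / 2 := by
    refine le_trans ?_ h5
    rw [hX, mul_assoc]
    exact mul_le_mul_of_nonneg_left h4 (by positivity)
  have h7 : 0 ≤ D0c (max R 1) (c2 c) * (KA (max R 1) (c2 c) * CT J R V) * tht J lam β z := by
    positivity
  have h8 : 0 ≤ CT J R V * tht J lam β z := by positivity
  have h9 : D0c (max R 1) (c2 c) * E * |t| ≤ 1 / 2 := by
    calc D0c (max R 1) (c2 c) * E * |t| ≤ (1 + D0c (max R 1) (c2 c) * E) * |t| := by
          have := abs_nonneg t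
          nlinarith
      _ ≤ (1 + D0c (max R 1) (c2 c) * E) * (1 / (2 * (1 + D0c (max R 1) (c2 c) * E))) := by
          gcongr
      _ = 1 / 2 := by field_simp
  have key := c0s_NK (J := J) (R := R) (V := V) (c := c2 c) (β := β) (z := z) (t := t)
    (lam := lam) (nY := nY) (nS := nS) hc' (by nlinarith)
    (by
      rw [← hE]
      have e1 : D0c (max R 1) (c2 c) * (KA (max R 1) (c2 c) * (CT J R V * tht J lam β z) +
          E * |t|) = D0c (max R 1) (c2 c) * (KA (max R 1) (c2 c) * CT J R V) * tht J lam β z +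
            D0c (max R 1) (c2 c) * E * |t| := by ring
      rw [e1]
      nlinarith)
    B hw hs hY hS hk w (a := a) ha p
  refine le_trans key (ENNReal.ofReal_le_ofReal ?_)
  have h10 : C0c J R V (c2 c) * tht J lam β z ≤ C0c J R V (c2 c) * (1 + |C|) * |lam| := by
    rw [mul_assoc]
    exact mul_le_mul_of_nonneg_left h4 h2
  linarith


end Crest.Agent.R165.C0Srcx806
end
end

-- ▼ part R165/TorL_583
section

/-!
# Row 165 (S0250): the leaf `TorL3` (helper583, from 599's `tor_top` and 806's `c0_src_ev`)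
-/

set_option autoImplicit false

noncomputable section

open Filter Topology
open scoped ENNReal
open Crest.Agent.R165.Topx683 (VHyp)
open Crest.Agent.R165.Bkgx683 Crest.Agent.R165.Bkg3x683 Crest.Agent.R165.PEndx683
open Crest.Agent.R165.Outx683 Crest.Agent.R165.NSumx915

namespace Crest.Agent.R165.TorLx583

theorem abs_le_one_of_sq {x : ℝ} (h : x * x = 1) : |x| ≤ 1 := by
  rw [abs_le]; constructor <;> nlinarith

/-- **the initial activities of the tori with a real source are small** -/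
theorem c0T (J : ℝ) (R : ℕ) (V : Finset (ℤ × ℤ) → ℝ) : TorTopx599.C0T J R V := by
  refine (PEndx683.EvC.and (C0Srcx806.c0_src_ev J R V) Constx891.ev_std).mono fun c hc C => ?_
  obtain ⟨hc, hS⟩ := hc
  obtain ⟨ε, hε, m, hm, H⟩ := hc C
  refine ⟨ε, hε, m, hm, fun Y S _ hY => ?_⟩
  obtain ⟨mS, hmS, t0, ht0, H⟩ := H Y.card S.card
  refine ⟨t0, ht0, mS, hmS, fun lam β z hl hn t ht htt L ε₁ ε₂ h₁ h₂ src hs => ?_⟩
  have h := H lam β z t hl hn (by rw [abs_of_nonneg ht]; exact htt.le) (ZMod (L + 1))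
    (Bg.tor (L + 1) ε₁ ε₂) (C0ax950.W1_tor _ (abs_le_one_of_sq h₁) (abs_le_one_of_sq h₂)) src _ _ hs Finset.card_image_le
    Finset.card_image_le (SrcRealx583.conn_image (fun x y => TorTopx599.fd_pr_le L x y) hY)
    (TorChartx723.wTor (L + 1) ε₁ ε₂) c.A0 (by linarith [hS.A0_ge]) (fun _ => True)
  rwa [abs_of_nonneg ht] at h

/-- **the leaf `TorL3`** -/
theorem torL3 {J : ℝ} (hJ : 0 < J) {R : ℕ} {V : Finset (ℤ × ℤ) → ℝ} (hV : VHyp R V) :
    PTop4x683.TorL3 J R V := by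
  refine PTopx386.ForP.imp (TorTopx599.tor_top hJ hV (PlBx117.plB hV) (c0T J R V))
    fun c lam β z H S => ?_
  obtain ⟨t0, ht0, H⟩ := H (boxS S) S (zero_mem_boxS S) (faE_boxS S) (boxS_conn S)
  exact ⟨t0, ht0, fun t ht ht' => H t ht ht' _ _ (isReal_box _ S t) (isReal_box _ S 0)⟩

end Crest.Agent.R165.TorLx583
end
end

-- ▼ part R165/SPos_894

/-!
# Row 165 (S0250): positivity of the unperturbed spin moments (helper894)

`sPos : SRx541.SPos` (Griffiths, from `UZs_420`), and the top theorem with the hypotheses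
`ULimB`, `PFlow` only (`top_of`).
-/

set_option autoImplicit false

noncomputable section

open Filter Topology Finset
open Crest.ProbabilityR.IsingModel

namespace Crest.Agent.R165.SPosx894

open Crest.Agent.R165.Centx541 Crest.Agent.R165.Redx541 Crest.Agent.R165.Red2x541
open Crest.Agent.R165.UDomAx420 Crest.Agent.R165.UDomCx420
open Crest.Agent.R165.SRx541
open Crest.Agent.R165.Latx683 (BW wDom)

/-- spin moments as ratios of sums over minus sets -/
theorem spm0_eq_N (D : Set ℂ) (a : ℝ) (h : (domainSites D a).Finite) (b : BoundaryCondition)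
    (hb : b ≠ BoundaryCondition.minus) {n : ℕ} (x : Fin n → ℂ) :
    spm0 D a b x =
      Nsum h.toFinset (wDom (domainSites D a) (decide (b = BoundaryCondition.free)))
        (fun s => ∏ i, spinSign (s (meshIndex a (x i)))) /
      Nsum h.toFinset (wDom (domainSites D a) (decide (b = BoundaryCondition.free)))
        (fun _ => 1) := by
  unfold spm0 spm domMom
  rw [domainExpect_N D a h b hb 0 (fun _ => 0)]
  congr 1
  unfold obs
  simp

/-- the spin moments do not vanish where the numerator is positive -/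
theorem spm0_pos (D : Set ℂ) (a : ℝ) (h : (domainSites D a).Finite) (b : BoundaryCondition)
    (hb : b ≠ BoundaryCondition.minus) {n : ℕ} (x : Fin n → ℂ)
    (hp : 0 < Nsum h.toFinset (wDom (domainSites D a) (decide (b = BoundaryCondition.free)))
        (fun s => ∏ i, spinSign (s (meshIndex a (x i))))) :
    0 < spm0 D a b x := by
  rw [spm0_eq_N D a h b hb]
  exact div_pos hp (Stepx470.Nsum_pos _ _ _)

/-- **the unperturbed spin moments do not vanish** -/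
theorem sPos : SPos where
  dom D hD b n hR x hx _ := by
    have hb : b ≠ BoundaryCondition.minus := by
      rcases hR with h | ⟨h, -⟩ <;> rw [h] <;> decide
    filter_upwards [UZsx420.ev_pos b n hR hD x hx, self_mem_nhdsWithin] with a ha ha0
    have h := domainSites_finite (bounded_of_C2 hD) ha0
    exact (spm0_pos D a h b hb x (ha h)).ne'
  pl n _ x _ := by
    filter_upwards [self_mem_nhdsWithin] with a ha0
    refine Eventually.of_forall fun B => ?_
    have h := domainSites_finite (D := Metric.ball (0 : ℂ) B) Metric.isBounded_ball ha0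
    refine (spm0_pos _ a h .plus (by decide) x ?_).ne'
    have := UZsx420.pos_plus h.toFinset (fun i => meshIndex a (x i))
    rwa [h.coe_toFinset] at this

/-- unperturbed leaves + flow outputs imply everything -/
theorem all_of' (hU : ULimB) (h : PFlow) : Topx683.ULim ∧ Topx683.PRatio := all_of hU sPos h

end Crest.Agent.R165.SPosx894
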