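import Crest.Agent.R165.SrcTailB_999
import Crest.Agent.R165.SrcK0_991
import Crest.Agent.R165.SrcCstE_484
import Crest.Agent.R165.EnW_359
import Crest.Agent.R165.DomAc_117

/-!
# Row 165 (S0250), tail with sources: the frozen flows (helper999)

* `cutE K₁ e2` : the extraction `e2` switched off from step `K₁` on
* `flC B P D mk e he l k0 K₁` : 683's flow with bond sources, extraction `cutE K₁ srcX`;
  equal to 991's `flowP` up to the step `K₁` (`flC_K`, `flC_E`)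
* `tB`, `tD`, `tL` : base flow, flow with sources, lead run (359's `flL`), restarted at `K₁`
* `tailOf_D`, `tailOf_L`, `tD_noS`, `tL_noS`
* `Pt` : in `GS`, and zero unless the set is nonempty and connected; `tL_P`, `PT_P`
-/

set_option autoImplicit false
set_option linter.unusedSectionVars false
set_option linter.unusedVariables false

noncomputable section

open scoped ENNReal

namespace Crest.Agent.R165.TailDx999

open Crest.Agent.R165.Gr0x606 Crest.Agent.R165.Gr1x606 Crest.Agent.R165.GeOpsx337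
  Crest.Agent.R165.ExpGx337 Crest.Agent.R165.KStepx892 Crest.Agent.R165.KFlowx337
  Crest.Agent.R165.Latx683 Crest.Agent.R165.PNormx417 Crest.Agent.R165.GDefx387
  Crest.Agent.R165.GSysx387 Crest.Agent.R165.FRDPolyx439 Crest.Agent.R165.Bkgx683
  Crest.Agent.R165.Topx683 Crest.Agent.R165.J4Defx653 Crest.Agent.R165.J4Geox126
open Crest.Agent.R165.SrcDefx991 (VS Src th th' tau tauP ext0 inG noS vacH vacS coP wS vS GS
  noS_inG noS_tau inG_mem tau_mem)
open Crest.Agent.R165.SrcSysx991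
open Crest.Agent.R165.SrcInsx991
open Crest.Agent.R165.SrcFinx441 (lead)
open Crest.Agent.R165.EnWx359 (leadB flL)
open Crest.Agent.R165.SrcTailx441 (NoX TailOf base0 PT shift shift_K shift_H)
open Crest.Agent.R165.PStepx417 (vac0)

/-! ### switching the extraction off -/

section cut

variable {F : Type*} [DecidableEq F] {V : Type*} [AddCommGroup V] [Module ℝ V]

/-- the extraction `e` switched off from step `K₁` on -/
def cutE (K₁ : ℕ) (e : ℕ → Extr F V) (n : ℕ) : Extr F V := if n < K₁ then e n else Extr.none F V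

theorem cutE_lt {K₁ n : ℕ} {e : ℕ → Extr F V} (h : n < K₁) : cutE K₁ e n = e n := if_pos h

theorem cutE_ge {K₁ n : ℕ} {e : ℕ → Extr F V} (h : K₁ ≤ n) : cutE K₁ e n = Extr.none F V :=
  if_neg (not_lt.2 h)

/-- two systems which agree below step `N` -/
theorem K_congr {D D' : Sys F V} {N : ℕ} (hS : ∀ k < N, D.S k = D'.S k) (hn : D.near = D'.near)
    (hv : D.vac = D'.vac) (he : ∀ k < N, D.e k = D'.e k) (h0 : D.K0 = D'.K0) :
    ∀ k ≤ N, D.K k = D'.K k := by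
  intro k
  induction k with
  | zero => intro _; exact h0
  | succ k ih =>
    intro hk
    have hk' : k < N := by omega
    have h1 := ih hk'.le
    have hH : D.H k = D'.H k := by
      funext U; rw [Sys.H, Sys.H, h1, hS k hk']
    have hB : D.B k = D'.B k := by
      funext U; rw [Sys.B, Sys.B, hH, hv, he k hk']
    rw [Sys.K_succ, Sys.K_succ, hH, hB, hn]

theorem E_congr {D D' : Sys F V} {N : ℕ} (hS : ∀ k < N, D.S k = D'.S k) (hn : D.near = D'.near)
    (hv : D.vac = D'.vac) (he : ∀ k < N, D.e k = D'.e k) (h0 : D.K0 = D'.K0) (Λ : Finset F) :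
    D.E Λ N = D'.E Λ N := by
  rw [Sys.E, Sys.E]
  refine Finset.sum_congr rfl fun k hk => ?_
  rw [Finset.mem_range] at hk
  rw [Sys.vacE, Sys.vacE]
  refine Finset.sum_congr rfl fun U _ => ?_
  rw [Sys.H, Sys.H, hS k hk, K_congr hS hn hv he h0 k hk.le, hv]

end cut

theorem noX_union_none {F : Type} [DecidableEq F] {V : Type} [AddCommGroup V] [Module ℝ V] {m : ℕ}
    (e0 : Extr F V) : NoX e0 (GSysx387.union (liftE m e0) (Extr.none F (VS V m))) := fun H U => by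
  rw [union_gain, union_lost, liftE_gain, liftE_lost]
  have e1 : (Extr.none F (VS V m)).gain H U = 0 := by simp [Extr.gain, Extr.none]
  have e2 : (Extr.none F (VS V m)).lost H U = 0 := by simp [Extr.lost, Extr.none]
  rw [e1, e2, add_zero, add_zero, map_sub]

/-! ### the flows -/

section flows

variable {m : ℕ} (B : Bg ℤ) (P : MPar) {M K : ℕ} (Dd : FRD 16 M K) (mk : Finset (ℤ × ℤ))
  (e : Fin m → Bkgx683.EG ℤ) (he : ∀ i, B.w (e i).1 (e i).2 ≠ 0) (l k0 K₁ : ℕ)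

/-- **the flow with bond sources**, source extraction only below `K₁` -/
def flC : Sys (ℤ × ℤ) (VS (Fld ℤ) m) :=
  B.flowS P Dd mk e (cutE K₁ (srcX B.w mk l k0 e he)) l k0


theorem flC_K {n : ℕ} (hn : n ≤ K₁) :
    (flC B P Dd mk e he l k0 K₁).K n = (flowP B P Dd mk e he l k0).K n :=
  K_congr (D := flC B P Dd mk e he l k0 K₁) (D' := flowP B P Dd mk e he l k0) (N := K₁) (fun _ _ => rfl) rfl rfl (fun k hk => by
    show GSysx387.union (liftE m ((flow0 B P Dd mk l k0).e k))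
      (cutE K₁ (srcX B.w mk l k0 e he) k) = _
    rw [cutE_lt hk]
    rfl) rfl n hn

theorem flC_E (Λ : Finset (ℤ × ℤ)) :
    (flC B P Dd mk e he l k0 K₁).E Λ K₁ = (flowP B P Dd mk e he l k0).E Λ K₁ :=
  E_congr (D := flC B P Dd mk e he l k0 K₁) (D' := flowP B P Dd mk e he l k0) (N := K₁) (fun _ _ => rfl) rfl rfl (fun k hk => by
    show GSysx387.union (liftE m ((flow0 B P Dd mk l k0).e k))
      (cutE K₁ (srcX B.w mk l k0 e he) k) = _
    rw [cutE_lt hk]
    rfl) rfl Λ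

theorem cut_noS (n : ℕ) (U T : Finset (ℤ × ℤ))
    (hT : T ∈ (cutE K₁ (srcX B.w mk l k0 e he) n).out U) (a : Ge (VS (Fld ℤ) m)) :
    noS ((cutE K₁ (srcX B.w mk l k0 e he) n).X U T a) = 0 := by
  rcases Nat.lt_or_ge n K₁ with h | h
  · rw [cutE_lt h]
    exact noS_srcE _ _ _ _ _ _ _ _ _
  · rw [cutE_ge h] at hT
    exact absurd hT (Finset.notMem_empty _)

theorem cut_GS (n : ℕ) (U T : Finset (ℤ × ℤ))
    (hT : T ∈ (cutE K₁ (srcX B.w mk l k0 e he) n).out U) (a : Ge (VS (Fld ℤ) m))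
    (_ : a ∈ GS (Fld ℤ) m) :
    (cutE K₁ (srcX B.w mk l k0 e he) n).X U T a ∈ GS (Fld ℤ) m := by
  rcases Nat.lt_or_ge n K₁ with h | h
  · rw [cutE_lt h]
    exact GS_srcE _ _ _ _ _ _ _ _ _
  · rw [cutE_ge h] at hT
    exact absurd hT (Finset.notMem_empty _)

theorem flC_noS (n : ℕ) (U : Finset (ℤ × ℤ)) :
    noS ((flC B P Dd mk e he l k0 K₁).K n U) = (flow0 B P Dd mk l k0).K n U :=
  noS_K (flow0 B P Dd mk l k0) _ _ (K0P B P e l k0) rfl
    (cut_noS B mk e he l k0 K₁) (fun U => noS_K0 B P e l k0 U) n U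

theorem flC_GS (n : ℕ) (U : Finset (ℤ × ℤ)) :
    (flC B P Dd mk e he l k0 K₁).K n U ∈ GS (Fld ℤ) m :=
  (GS_K (flow0 B P Dd mk l k0) _ _ (K0P B P e l k0) (cut_GS B mk e he l k0 K₁)
    (fun U => (K0_mem_supA B P e l k0 U).1) n U).1

/-- **connectedness of the polymers** -/
theorem flC_conn (hR : 1 ≤ nearR l k0 0) (n : ℕ) (U : Finset (ℤ × ℤ))
    (hU : (flC B P Dd mk e he l k0 K₁).K n U ≠ 0) :
    U.Nonempty ∧ Packx915.Conn fd (nearR l k0 n) U := by
  have hc : ∀ k, Packx915.Conn fd 1 ((bondSrc (Fld ℤ) e).Ys k) := fun k =>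
    JVolx950.bondSrc_conn e le_rfl k
  refine SrcCstx484.K_conn (flC B P Dd mk e he l k0 K₁) (d := fd) (R := nearR l k0)
    (fun _ _ h => nearR_mono l k0 h) (fun _ => rfl) (fun U hU => ?_) (fun k U T hT => ?_) n U hU
  · exact ⟨DomAcx117.K0_nonempty B P _ _ hU, DomAcx117.K0_conn B P _ _ hR hc hU⟩
  · have hT' : T ∈ (bulk B.w mk l k0 k).out U ∪
        (cutE K₁ (srcX B.w mk l k0 e he) k).out U := hT
    rcases Finset.mem_union.1 hT' with h | h
    · obtain ⟨_, f, _, _, rfl⟩ := mem_bulk_out.1 h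
      exact Packx915.conn_singleton f
    · rcases Nat.lt_or_ge k K₁ with hk | hk
      · rw [cutE_lt hk] at h
        obtain ⟨_, i, _, _, rfl⟩ := (mem_seOut _ _ _).1 h
        exact (hc i).mono (hR.trans (nearR_mono l k0 (Nat.zero_le _)))
      · rw [cutE_ge hk] at h
        exact absurd h (Finset.notMem_empty _)

theorem flow0_conn (hR : 1 ≤ nearR l k0 0) (n : ℕ) (U : Finset (ℤ × ℤ))
    (hU : (flow0 B P Dd mk l k0).K n U ≠ 0) :
    U.Nonempty ∧ Packx915.Conn fd (nearR l k0 n) U := by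
  have h := DomAcx117.flow_acS_univ B P Dd mk (noSrc ℤ (Ge (Fld ℤ))) hR (fun k => k.elim0) n U hU
  exact ⟨h.1, h.2.1⟩

/-! ### the tail systems -/

/-- the base flow restarted at `K₁` -/
def tB : Sys (ℤ × ℤ) (Fld ℤ) := shift (flow0 B P Dd mk l k0) K₁ ((flow0 B P Dd mk l k0).K K₁)

/-- the flow with sources restarted at `K₁` -/
def tD : Sys (ℤ × ℤ) (VS (Fld ℤ) m) :=
  shift (flC B P Dd mk e he l k0 K₁) K₁ ((flC B P Dd mk e he l k0 K₁).K K₁)

/-- the lead run -/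
def tL (Ze : ℝ) : Sys (ℤ × ℤ) (VS (Fld ℤ) m) := flL (flC B P Dd mk e he l k0 K₁) K₁ B.w e Ze

theorem tB_K (k : ℕ) : (tB B P Dd mk l k0 K₁).K k = (flow0 B P Dd mk l k0).K (K₁ + k) :=
  shift_K _ _ _

theorem tD_K (k : ℕ) :
    (tD B P Dd mk e he l k0 K₁).K k = (flC B P Dd mk e he l k0 K₁).K (K₁ + k) :=
  shift_K _ _ _

theorem tail_noX (k : ℕ) : NoX ((tB B P Dd mk l k0 K₁).e k) ((tD B P Dd mk e he l k0 K₁).e k) := by
  show NoX ((flow0 B P Dd mk l k0).e (K₁ + k))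
    (GSysx387.union (liftE m ((flow0 B P Dd mk l k0).e (K₁ + k)))
      (cutE K₁ (srcX B.w mk l k0 e he) (K₁ + k)))
  rw [cutE_ge (Nat.le_add_right _ _)]
  exact noX_union_none _

theorem tailOf_D (N : ℕ) : TailOf (tB B P Dd mk l k0 K₁) (tD B P Dd mk e he l k0 K₁) N where
  S _ _ := rfl
  near := rfl
  vac := rfl
  bvac := rfl
  e k _ := tail_noX B P Dd mk e he l k0 K₁ k

theorem tailOf_L (Ze : ℝ) (N : ℕ) :
    TailOf (tB B P Dd mk l k0 K₁) (tL B P Dd mk e he l k0 K₁ Ze) N where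
  S _ _ := rfl
  near := rfl
  vac := rfl
  bvac := rfl
  e k _ := tail_noX B P Dd mk e he l k0 K₁ k



theorem GS_leadB (w : BW ℤ) (Ze : ℝ) (U : Finset (ℤ × ℤ)) :
    leadB w e Ze U ∈ GS (Fld ℤ) m := by
  unfold leadB lead
  refine Subalgebra.sum_mem _ fun i _ => ?_
  split_ifs
  · exact Subalgebra.smul_mem _ (Subalgebra.mul_mem _ (tau_mem i) (inG_mem _)) _
  · exact Subalgebra.zero_mem _

theorem leadB_ne (w : BW ℤ) (Ze : ℝ) {U : Finset (ℤ × ℤ)} (h : leadB w e Ze U ≠ 0) :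
    ∃ i, U = faE (e i) := by
  by_contra hc
  push Not at hc
  apply h
  unfold leadB lead
  exact Finset.sum_eq_zero fun i _ => if_neg (hc i)


theorem tL_GS (Ze : ℝ) (k : ℕ) (U : Finset (ℤ × ℤ)) :
    (tL B P Dd mk e he l k0 K₁ Ze).K k U ∈ GS (Fld ℤ) m :=
  (SrcTailx999.tail_SLA (tailOf_L B P Dd mk e he l k0 K₁ Ze k) (sf := fun _ => ∅)
    (fun U => ⟨GS_leadB e B.w Ze U, fun _ _ _ _ => Finset.empty_subset _⟩) k le_rfl U).1

theorem tL_conn (hR : 1 ≤ nearR l k0 0) (Ze : ℝ) (k : ℕ) (U : Finset (ℤ × ℤ))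
    (hU : (tL B P Dd mk e he l k0 K₁ Ze).K k U ≠ 0) :
    U.Nonempty ∧ Packx915.Conn fd (nearR l k0 (K₁ + k)) U := by
  have hc : ∀ k, Packx915.Conn fd 1 ((bondSrc (Fld ℤ) e).Ys k) := fun k =>
    JVolx950.bondSrc_conn e le_rfl k
  refine SrcCstx484.K_conn (tL B P Dd mk e he l k0 K₁ Ze) (d := fd)
    (R := fun k => nearR l k0 (K₁ + k))
    (fun _ _ h => nearR_mono l k0 (Nat.add_le_add_left h K₁)) (fun _ => rfl) (fun U hU => ?_)
    (fun k U T hT => ?_) k U hU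
  · obtain ⟨i, rfl⟩ := leadB_ne e B.w Ze (U := U) hU
    exact ⟨faE_nonempty _, (hc i).mono (hR.trans (nearR_mono l k0 (Nat.zero_le _)))⟩
  · have hT' : T ∈ (bulk B.w mk l k0 (K₁ + k)).out U ∪
        (cutE K₁ (srcX B.w mk l k0 e he) (K₁ + k)).out U := hT
    rcases Finset.mem_union.1 hT' with h | h
    · obtain ⟨_, f, _, _, rfl⟩ := mem_bulk_out.1 h
      exact Packx915.conn_singleton f
    · rw [cutE_ge (Nat.le_add_right _ _)] at h
      exact absurd h (Finset.notMem_empty _)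

/-- **admissible source dependent activities** -/
def Pt (m l k0 K₁ k : ℕ) (U : Finset (ℤ × ℤ)) (X : Ge (VS (Fld ℤ) m)) : Prop :=
  X ∈ GS (Fld ℤ) m ∧ (X ≠ 0 → U.Nonempty ∧ Packx915.Conn fd (nearR l k0 (K₁ + k)) U)

theorem tL_P (hR : 1 ≤ nearR l k0 0) (Ze : ℝ) (k : ℕ) (U : Finset (ℤ × ℤ)) :
    Pt m l k0 K₁ k U ((tL B P Dd mk e he l k0 K₁ Ze).K k U) :=
  ⟨tL_GS B P Dd mk e he l k0 K₁ Ze k U, tL_conn B P Dd mk e he l k0 K₁ hR Ze k U⟩

theorem PT_P (hR : 1 ≤ nearR l k0 0) (Ze : ℝ) (k : ℕ) (U : Finset (ℤ × ℤ)) :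
    Pt m l k0 K₁ k U (PT (tB B P Dd mk l k0 K₁) (tD B P Dd mk e he l k0 K₁)
      (tL B P Dd mk e he l k0 K₁ Ze) k U) := by
  refine ⟨?_, fun h => ?_⟩
  · rw [PT, tD_K]
    exact Subalgebra.sub_mem _ (Subalgebra.sub_mem _ (flC_GS B P Dd mk e he l k0 K₁ _ U)
      (inG_mem _)) (tL_GS B P Dd mk e he l k0 K₁ Ze k U)
  · rcases SrcTailx999.PT_ne h with h | h | h
    · rw [tD_K] at h
      exact flC_conn B P Dd mk e he l k0 K₁ hR _ U h
    · rw [tB_K] at h
      exact flow0_conn B P Dd mk l k0 hR _ U h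
    · exact tL_conn B P Dd mk e he l k0 K₁ hR Ze k U h

end flows

end Crest.Agent.R165.TailDx999
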