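import Crest.Agent.R165.SpDCl_67
import Crest.Agent.R165.SPos_894_Mg
import Crest.Agent.R165.SrcTailFin_441
import Crest.Agent.R165.SrcTailB_999
import Crest.Agent.R165.SrcDom_697
import Crest.Agent.R165.TailD_999
import Crest.Agent.R165.TailNA_999
import Crest.Agent.R165.SrcDomC_697
import Crest.Agent.R165.W0S_897
import Crest.Agent.R165.EnW_359
import Crest.Agent.R165.SrcDomB_697
import Crest.Agent.R165.SRdomA_900
import Crest.Agent.R165.DiscK_892
import Crest.Agent.R165.Out_683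
import Crest.Agent.R165.SrcLin_336
import Crest.Agent.R165.SrcStep2_54
import Crest.Agent.R165.Crude_386
import Crest.Agent.R165.WPack_893
import Crest.Agent.R165.EnFine_811
import Crest.Agent.R165.DiscComp_722
import Crest.Agent.R165.DiscComp2_722
import Crest.Agent.R165.Fin4_315
import Crest.Agent.R165.SrcIns_991
import Mathlib
import Crest.Agent.R165.PlB_117

-- ▼ part R165/Fin3_641
section

/-!
# Row 165 (S0250): THE WHOLE STATEMENT FROM THE LEAF `EnR` (helper641)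

`final3 : EnAll → S0250` (the only open leaf: `en`).
-/

set_option autoImplicit false
open Crest.ProbabilityR.IsingModel
open Crest Crest.ProbabilityR Crest.ProbabilityR.IsingModel

namespace Crest.Agent.R165.Finx641

open Crest.Agent.R165.Topx683 Crest.Agent.R165.PEndx683 Crest.Agent.R165.PTopx386 in
/-- **the only open leaf**: energies (`EnR`) -/
def EnAll : Prop :=
  ∀ J : ℝ, 0 < J → ∀ (R : ℕ) (V : Finset (ℤ × ℤ) → ℝ), VHyp R V →
    ∃ (Ze : Cst → ℝ → ℝ → ℝ → ℝ) (eb : Cst → ℝ → ℝ → ℝ → Fin 2 → ℝ), EnR J R V Ze eb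

/-- the two halves -/
theorem all3 (hE : EnAll) :
    Topx683.ULim ∧ Topx683.PRatio :=
  SPosx894.all_of' (UAllx641.uLimB)
    (POpenx641.pFlow2 ⟨hE, fun _ hJ _ _ hV => TorLx583.torL3 hJ hV⟩)

/-- **S0250 from the leaf `EnR`** -/
theorem final3 (hE : EnAll)
    (J : ℝ) (hJ : 0 < J) (R : ℕ) (V : Finset (ℤ × ℤ) → ℝ)
    (hVeven : ∀ A, V A ≠ 0 → Even A.card)
    (hVrange : ∀ A, V A ≠ 0 → ∀ x ∈ A, ∀ y ∈ A, |x.1 - y.1| ≤ (R : ℤ) ∧ |x.2 - y.2| ≤ (R : ℤ))
    (hVtrans : ∀ A (z : ℤ × ℤ), V (A.image fun x => x + z) = V A)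
    (hVrot : ∀ A, V (A.image rotate) = V A) (hVrefl : ∀ A, V (A.image reflect) = V A) :
    ∃ lam₀ : ℝ, 0 < lam₀ ∧ ∃ βc Zs Ze : ℝ → ℝ,
      ContinuousAt βc 0 ∧ ContinuousAt Zs 0 ∧ ContinuousAt Ze 0 ∧
      βc 0 = criticalBeta J ∧ Zs 0 = 1 ∧ Ze 0 = 1 ∧
      (∀ lam : ℝ, |lam| < lam₀ → 0 < βc lam ∧ Zs lam ≠ 0 ∧ Ze lam ≠ 0) ∧
      (∀ D : Set ℂ, IsC2JordanDomain D → ∀ (b : BoundaryCondition) (n m : ℕ), 1 ≤ n + m →
        ∀ (x : Fin n → ℂ) (y : Fin m → ℂ) (j : Fin m → Fin 2),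
          (∀ i, x i ∈ D) → (∀ k, y k ∈ D) → Function.Injective (Fin.append x y) →
          ∃ F : ℝ, ∀ lam : ℝ, |lam| < lam₀ →
            Filter.Tendsto
              (fun a : ℝ => a ^ (-((n : ℝ) / 8 + m)) * domainMixedCorr D a b J lam R V (βc lam) x y j)
              (nhdsWithin 0 (Set.Ioi 0)) (nhds (Zs lam ^ n * Ze lam ^ m * F))) ∧
      (∀ lam : ℝ, |lam| < lam₀ → ∀ (n m : ℕ) (us : Fin n → ℤ × ℤ) (vs : Fin m → ℤ × ℤ)
          (js : Fin m → Fin 2),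
        Filter.Tendsto (fun L : ℕ => latticeMixedCorr L J lam R V (βc lam) us vs js) Filter.atTop
          (nhds (planeMixedCorr J lam R V (βc lam) us vs js))) ∧
      (∀ (n m : ℕ), 1 ≤ n + m → ∀ (x : Fin n → ℂ) (y : Fin m → ℂ) (j : Fin m → Fin 2),
        Function.Injective (Fin.append x y) →
        ∃ F : ℝ, ∀ lam : ℝ, |lam| < lam₀ →
          Filter.Tendsto
            (fun a : ℝ => a ^ (-((n : ℝ) / 8 + m)) *
              planeMixedCorr J lam R V (βc lam) (fun i => meshIndex a (x i))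
                (fun k => meshIndex a (y k)) j)
            (nhdsWithin 0 (Set.Ioi 0)) (nhds (Zs lam ^ n * Ze lam ^ m * F))) ∧
      (∃ C₀ : ℝ, C₀ ≠ 0 ∧ ∀ x y : ℂ, x ≠ y → ∀ lam : ℝ, |lam| < lam₀ →
        Filter.Tendsto
          (fun a : ℝ => a ^ (-(1 : ℝ) / 4) *
            planeMixedCorr J lam R V (βc lam) ![meshIndex a x, meshIndex a y] ![] ![])
          (nhdsWithin 0 (Set.Ioi 0))
          (nhds (Zs lam ^ 2 * C₀ * ‖x - y‖ ^ (-(1 : ℝ) / 4)))) ∧
      (∀ D D' : Set ℂ, IsC2JordanDomain D → IsC2JordanDomain D' → ∀ φ : ℂ → ℂ,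
        DifferentiableOn ℂ φ D → Set.BijOn φ D D' →
        ∀ (b : BoundaryCondition) (n m : ℕ), 1 ≤ n + m →
        ∀ (x : Fin n → ℂ) (y : Fin m → ℂ) (j : Fin m → Fin 2),
          (∀ i, x i ∈ D) → (∀ k, y k ∈ D) → Function.Injective (Fin.append x y) →
          ∀ lam : ℝ, |lam| < lam₀ → ∃ F F' : ℝ,
            Filter.Tendsto
              (fun a : ℝ => a ^ (-((n : ℝ) / 8 + m)) * domainMixedCorr D a b J lam R V (βc lam) x y j)
              (nhdsWithin 0 (Set.Ioi 0)) (nhds F) ∧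
            Filter.Tendsto
              (fun a : ℝ => a ^ (-((n : ℝ) / 8 + m)) *
                domainMixedCorr D' a b J lam R V (βc lam) (fun i => φ (x i)) (fun k => φ (y k)) j)
              (nhdsWithin 0 (Set.Ioi 0)) (nhds F') ∧
            F = (∏ i, ‖deriv φ (x i)‖ ^ ((1 : ℝ) / 8)) * (∏ k, ‖deriv φ (y k)‖) * F') :=
  Topx683.top (all3 hE).1 (all3 hE).2 J hJ R V hVeven hVrange hVtrans hVrot hVrefl

end Crest.Agent.R165.Finx641
end

-- ▼ part R165/SrcTailAll_441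
section

/-!
# Row 165 (S0250), leaf P11 item 8 (sources in large discs), the whole tail (helper441)

* `ScalarT3 J c C t0 C0` : the scalar recursion of the tail (literal target of helper54)
* `tail_all` : step hypotheses at all `k < N` + initial norms ⟹ norms of lead run and rest at all
  `k ≤ N`
* `finE_all` : ⟹ `FinE` at the last scale
-/

set_option autoImplicit false
set_option linter.unusedSectionVars false
set_option linter.unusedVariables false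

noncomputable section

namespace Crest.Agent.R165.SrcTailAllx441

open Finset Filter Topology
open scoped ENNReal Nat
open Crest.Agent.R165.FinBx900 Crest.Agent.R165.KStepx892 Crest.Agent.R165.KMapx892
open Crest.Agent.R165.Gr0x606 Crest.Agent.R165.Gr1x606 Crest.Agent.R165.GeOpsx337
  Crest.Agent.R165.ExpGx337 Crest.Agent.R165.PNormx417 Crest.Agent.R165.KFlowx337
  Crest.Agent.R165.SrcFinx441 Crest.Agent.R165.GrLocx337 Crest.Agent.R165.SrcCmpx441
  Crest.Agent.R165.ExpAx337 Crest.Agent.R165.Quadx897 Crest.Agent.R165.SrcStepx54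
  Crest.Agent.R165.SrcTailx441 Crest.Agent.R165.SrcTailFinx441
open Crest.Agent.R165.SrcDefx991 (VS Src th th' tau tauP ext0 inG noS vacH vacS coP wS vS GS
  noS_inG noS_tau EEG_ext0 vacH_tau srcM)
open Crest.Agent.R165.SrcFinBx441 (Nw ra_Nw bd_inG ra_pG)

/-- smallness quantity of one step -/
def sm (C c b T E : ℝ≥0∞) : ℝ≥0∞ := 32 * C * (b + c * T + c * E)

/-- **the scalar recursion of the tail**: `J` crude steps (factor `c`), then factor `1/8` -/
def ScalarT3 (J : ℕ) (c C : ℝ≥0∞) (t0 C0 : ℝ) : Prop :=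
  ∀ (N : ℕ) (q b T E : ℕ → ℝ≥0∞) (b0 e0 τ0 : ℝ), 0 ≤ b0 → 0 ≤ e0 → 0 ≤ τ0 → b0 ≤ t0 → e0 ≤ t0 →
    τ0 ≤ t0 → (∀ k < N, k < J → q k ≤ c) → (∀ k < N, J ≤ k → q k ≤ 8⁻¹) →
    (∀ k < N, b k ≤ ENNReal.ofReal (b0 / 2 ^ k)) → T 0 ≤ ENNReal.ofReal τ0 →
    E 0 ≤ ENNReal.ofReal e0 →
    (∀ k < N, sm C c (b k) (T k) (E k) ≤ 1 → T (k + 1) ≤ q k * T k + 40 * C * (c * T k) ^ 2) →
    (∀ k < N, sm C c (b k) (T k) (E k) ≤ 1 → E (k + 1) ≤ q k * E k +
      40 * C * ((b k + c * T k + c * E k) * (c * E k) + b k * (c * T k))) →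
    ∀ k ≤ N, T k ≤ ENNReal.ofReal (C0 * τ0 / 2 ^ k) ∧ E k ≤ ENNReal.ofReal (C0 * (e0 + b0) / 2 ^ k)

variable {F : Type} [DecidableEq F] {V : Type} [AddCommGroup V] [Module ℝ V] {m : ℕ}
variable {B : Sys F V} {D DL : Sys F (VS V m)} {β : Type}
  {nm : ℕ → Finset F → Ge (VS V m) → ℝ≥0∞}
  {Wo : ℕ → Finset F → ℝ≥0∞} {sz : ℕ → Finset F → ℕ} {nr : ℕ → β → Finset F → Prop}
  {P : ℕ → Finset F → Ge (VS V m) → Prop} {C c : ℝ≥0∞} {q : ℕ → ℝ≥0∞}

/-- **the step hypotheses of the whole tail** -/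
structure TailH (B : Sys F V) (D DL : Sys F (VS V m)) (nm : ℕ → Finset F → Ge (VS V m) → ℝ≥0∞)
    (Wo : ℕ → Finset F → ℝ≥0∞) (sz : ℕ → Finset F → ℕ) (nr : ℕ → β → Finset F → Prop)
    (P : ℕ → Finset F → Ge (VS V m) → Prop) (C c : ℝ≥0∞) (q : ℕ → ℝ≥0∞) (J N : ℕ) (b0 : ℝ) :
    Prop where
  step : ∀ k < N, TailN B nm Wo sz nr P C c (q k) k
  lead : ∀ k < N, ∀ U, P k U (DL.K k U)
  rest : ∀ k < N, ∀ U, P k U (PT B D DL k U)
  bulk : ∀ k < N, BulkIn B nm Wo sz nr k (ENNReal.ofReal (b0 / 2 ^ k))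
  crude : ∀ k < N, k < J → q k ≤ c
  good : ∀ k < N, J ≤ k → q k ≤ 8⁻¹

/-- **norms of the lead run and of the rest at all scales** -/
theorem tail_all {J N : ℕ} {t0 C0 : ℝ} (h3 : ScalarT3 J c C t0 C0) {b0 e0 τ0 : ℝ} (hb0 : 0 < b0)
    (he0 : 0 ≤ e0) (hτ0 : 0 ≤ τ0) (hbt : b0 ≤ t0) (het : e0 ≤ t0) (hτt : τ0 ≤ t0)
    (h : TailH B D DL nm Wo sz nr P C c q J N b0)
    (hL : ∀ k < N, LeadStep B DL nm Wo sz nr P C c (q k) k)
    (hR : ∀ k < N, RestStep B D DL nm Wo sz nr P C c (q k) k)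
    (hT : tn nm Wo 0 (DL.K 0) ≤ ENNReal.ofReal τ0)
    (hE : tn nm Wo 0 (PT B D DL 0) ≤ ENNReal.ofReal e0) :
    ∀ k ≤ N, tn nm Wo k (DL.K k) ≤ ENNReal.ofReal (C0 * τ0 / 2 ^ k) ∧
      tn nm Wo k (PT B D DL k) ≤ ENNReal.ofReal (C0 * (e0 + b0) / 2 ^ k) := by
  refine h3 N q (fun k => ENNReal.ofReal (b0 / 2 ^ k)) (fun k => tn nm Wo k (DL.K k))
    (fun k => tn nm Wo k (PT B D DL k)) b0 e0 τ0 hb0.le he0 hτ0 hbt het hτt h.crude h.good
    (fun k _ => le_rfl) hT hE ?_ ?_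
  · intro k hk hs
    refine hL k hk (h.step k hk) (h.lead k hk) (le_trans ?_ hs)
    unfold sm
    exact mul_le_mul_right (le_add_self.trans le_self_add) _
  · intro k hk hs
    exact hR k hk (h.step k hk) (h.lead k hk) (h.rest k hk) _
      (ENNReal.ofReal_pos.2 (by positivity)).ne' (h.bulk k hk) hs

/-- **final comparison data of the whole tail** -/
theorem finE_all {J N : ℕ} {t0 C0 : ℝ} (h3 : ScalarT3 J c C t0 C0) (hC0 : 0 ≤ C0)
    {b0 e0 τ0 : ℝ} (hb0 : 0 < b0)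
    (he0 : 0 ≤ e0) (hτ0 : 0 ≤ τ0) (hbt : b0 ≤ t0) (het : e0 ≤ t0) (hτt : τ0 ≤ t0)
    (h : TailH B D DL nm Wo sz nr P C c q J N b0)
    (hL : ∀ k < N, LeadStep B DL nm Wo sz nr P C c (q k) k)
    (hR : ∀ k < N, RestStep B D DL nm Wo sz nr P C c (q k) k)
    (hT : tn nm Wo 0 (DL.K 0) ≤ ENNReal.ofReal τ0)
    (hE : tn nm Wo 0 (PT B D DL 0) ≤ ENNReal.ofReal e0)
    (hS : ∀ k, D.S k = ext0 m (B.S k)) (hSL : ∀ k, DL.S k = D.S k)
    (hv : D.vac = vacS) (hvL : DL.vac = vacS)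
    (hnoS : ∀ k U, noS (D.K k U) = B.K k U) (hLn : ∀ k U, noS (DL.K k U) = 0)
    {Λ : Finset F} {Sf : Cov V} {g : V → ℝ≥0∞} {v : Fin m → ℝ}
    (hg : Gram Sf g) (v0 : ∀ i, 0 < v i) (hW : ∀ k U, 1 ≤ Wo k U)
    (hvac : ∀ k < N, ∀ U : Finset F, U.Nonempty → ∀ X, (X = PT B D DL k U ∨ X = DL.K k U) →
      Nw g v (vacH (cvG (ext0 m (B.S k)) X)) ≤ nm k U X)
    (hfin : ∀ U : Finset F, U.Nonempty → ∀ X, Nw g v X ≤ nm N U X)
    {ε₁ ε₂ M₀ : ℝ} (hε₁ : 0 ≤ ε₁) (hε₂ : 0 ≤ ε₂) (hM₀ : 0 ≤ M₀)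
    (hb : ∑ W ∈ nes Λ, pG g (B.K N W) ≤ ENNReal.ofReal ε₁)
    {E₁ E₁' : Ge (VS V m)} (hE₁ : vacH E₁ = E₁) (hE₁' : vacH E₁' = E₁')
    (hd : Bd (Nw g v) ((E₁ - algebraMap ℝ _ (ctG E₁)) - (E₁' - algebraMap ℝ _ (ctG E₁'))) ε₂)
    (hM : Bd (Nw g v) (E₁' - algebraMap ℝ _ (ctG E₁')) M₀) :
    FinE (D.near N) Λ (D.K N) (DL.K N) (E₁ + D.E Λ N) (E₁' + DL.E Λ N) Sf g v
      (ε₁ + ε₂ + 3 * (C0 * (e0 + b0))) (M₀ + 3 * (C0 * τ0)) := by
  have key := tail_all h3 hb0 he0 hτ0 hbt het hτt h hL hR hT hE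
  have geo : ∀ x : ℝ, 0 ≤ x → x / 2 ^ N + ∑ k ∈ range N, x / 2 ^ k ≤ 3 * x := by
    intro x hx
    have h1 : ∀ n : ℕ, ∑ k ∈ range n, x / 2 ^ k = 2 * x - 2 * x / 2 ^ n := by
      intro n
      induction n with
      | zero => simp
      | succ n ih =>
        rw [sum_range_succ, ih, pow_succ]
        field_simp
        ring
    rw [h1]
    have h2 : 0 ≤ x / 2 ^ N := by positivity
    have h3 : 2 * x / 2 ^ N = 2 * (x / 2 ^ N) := by ring
    rw [h3]
    linarith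
  have a1 : 0 ≤ C0 * (e0 + b0) := by positivity
  have a2 : 0 ≤ C0 * τ0 := by positivity
  have fin := finE_tail (B := B) (D := D) (DL := DL) (nm := nm) (Wo := Wo) (N := N) hS hSL hv hvL
    hnoS hLn hg v0 hW hvac hfin (e := fun k => C0 * (e0 + b0) / 2 ^ k)
    (T := fun k => C0 * τ0 / 2 ^ k) (fun k => by positivity) (fun k => by positivity)
    (fun k hk => (key k hk).2) (fun k hk => (key k hk).1) hε₁ hε₂ hM₀ hb hE₁ hE₁' hd hM
  have g1 := geo _ a1
  have g2 := geo _ a2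
  refine ⟨fin.gram, fin.v0, by positivity, by positivity, fin.vac, fin.vac', fin.noK', ?_, ?_, ?_, ?_⟩
  · exact fin.dK.trans (ENNReal.ofReal_le_ofReal (by linarith))
  · exact fin.bK'.trans (ENNReal.ofReal_le_ofReal (by linarith))
  · exact fin.dE.mono (by linarith)
  · exact fin.bE'.mono (by linarith)

end Crest.Agent.R165.SrcTailAllx441
end
end

-- ▼ part R165/SrcMid_441
section

/-!
# Row 165 (S0250), leaf P11 item 8 (sources in large discs), the change of regime (helper441)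

* `FinM` : the data at the scale `K1` (total norms)
* `PX` : the class of the source dependent activities of the tail (source-local, no source free
  part, connected support); `lead_PX`, `rest_PX`
* `finE_mid` : **`FinE` at the last scale** `K1 + N` from `FinM`, the step hypotheses and `ScalarT3`
-/

set_option autoImplicit false
set_option linter.unusedSectionVars false
set_option linter.unusedVariables false

noncomputable section

namespace Crest.Agent.R165.SrcMidx441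

open Finset Filter Topology
open scoped ENNReal
open Crest.Agent.R165.FinBx900 Crest.Agent.R165.KStepx892 Crest.Agent.R165.KMapx892
open Crest.Agent.R165.Gr0x606 Crest.Agent.R165.Gr1x606 Crest.Agent.R165.GeOpsx337
  Crest.Agent.R165.ExpGx337 Crest.Agent.R165.PNormx417 Crest.Agent.R165.KFlowx337
  Crest.Agent.R165.SrcFinx441 Crest.Agent.R165.GrLocx337 Crest.Agent.R165.SrcCmpx441
  Crest.Agent.R165.ExpAx337 Crest.Agent.R165.Quadx897 Crest.Agent.R165.SrcStepx54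
  Crest.Agent.R165.SrcTailx441 Crest.Agent.R165.SrcTailFinx441 Crest.Agent.R165.SrcTailAllx441
open Crest.Agent.R165.SrcDefx991 (VS Src th th' tau tauP ext0 inG noS vacH vacS coP wS vS GS
  noS_inG noS_tau EEG_ext0 vacH_tau srcM tau_mem inG_mem coP_inG)
open Crest.Agent.R165.SrcFinBx441 (Nw ra_Nw bd_inG bd_tau ra_pG)
open Crest.Agent.R165.SrcCstx484 (co co_E LD Etot Etot_mem vacH_Etot vrest_of E_mem_GS)
open Crest.Agent.R165.SrcDomx697 (KF EF LD_sub LD_const noS_lead)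
open Crest.Agent.R165.SrcTailx999 (SLA mem_SLA SLA_mono tail_SLA tail_conn PT_ne PT_SLA PT_noS
  tail_noS lead_noS leadStep restStep)
open Crest.Agent.R165.PStepx417 (vac0)

variable {F : Type} [DecidableEq F] {V : Type} [AddCommGroup V] [Module ℝ V] {m : ℕ}

/-! ### total norms of leading parts -/

theorem GN.sum_le {W : Type*} [AddCommGroup W] [Module ℝ W] {N : Ge W → ℝ≥0∞} (hN : GN N)
    {ι : Type*} (s : Finset ι) (f : ι → Ge W) : N (∑ i ∈ s, f i) ≤ ∑ i ∈ s, N (f i) := by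
  classical
  induction s using Finset.induction_on with
  | empty => simp [hN.zero]
  | insert a s ha ih =>
    rw [sum_insert ha, sum_insert ha]
    exact (hN.add _ _).trans (add_le_add le_rfl ih)

/-- total norm of a leading part -/
theorem Tout_lead {nm0 : Finset F → Ge (VS V m) → ℝ≥0∞} (hN : ∀ U, GN (nm0 U))
    (Wo0 : Finset F → ℝ≥0∞) (sf : Fin m → Finset F) (f : Fin m → Ge (VS V m)) :
    Tout Wo0 (fun U => nm0 U (lead sf f U)) ≤ ∑ i, Wo0 (sf i) * nm0 (sf i) (f i) := by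
  classical
  have h1 : ∀ U : Finset F, Set.indicator {U : Finset F | U.Nonempty}
      (fun U => Wo0 U * nm0 U (lead sf f U)) U ≤
      ∑ i, if U = sf i then Wo0 (sf i) * nm0 (sf i) (f i) else 0 := by
    intro U
    refine (Set.indicator_le_self' (fun _ _ => bot_le) U).trans ?_
    have h2 : nm0 U (lead sf f U) ≤ ∑ i, if U = sf i then nm0 (sf i) (f i) else 0 := by
      unfold lead
      refine (GN.sum_le (hN U) _ _).trans (sum_le_sum fun i _ => ?_)
      split_ifs with h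
      · rw [h]
      · rw [(hN U).zero]
    refine (mul_le_mul_right h2 _).trans (le_of_eq ?_)
    rw [mul_sum]
    refine sum_congr rfl fun i _ => ?_
    split_ifs with h
    · rw [h]
    · rw [mul_zero]
  show ∑' U : Finset F, Set.indicator {U : Finset F | U.Nonempty}
      (fun U => Wo0 U * nm0 U (lead sf f U)) U ≤ _
  refine (ENNReal.tsum_le_tsum h1).trans (le_of_eq ?_)
  rw [Summable.tsum_finsetSum (fun i _ => ENNReal.summable)]
  refine sum_congr rfl fun i _ => ?_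
  rw [tsum_ite_eq]

/-! ### the data at the change of regime -/

/-- **the data at the scale `K1`**: actual run `D` (source extraction on below `K1`), base run `B`;
total norm of the rest, running factors, constants -/
structure FinM (D : Sys F (VS V m)) (B : Sys F V) (Λ : Finset F) (K1 : ℕ)
    (sf : Fin m → Finset F) (ζ cst c0 : Fin m → ℝ) (β : Fin m → Ge V)
    (nm0 : Finset F → Ge (VS V m) → ℝ≥0∞) (Wo0 : Finset F → ℝ≥0∞)
    (v ε μ M Ze : ℝ) : Prop where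
  v0 : 0 < v
  ε0 : 0 ≤ ε
  μ0 : 0 ≤ μ
  M0 : 0 ≤ M
  vac : D.vac = vacS
  hGS : ∀ k U, D.H k U ∈ GS V m
  act : Tout Wo0 (fun W => nm0 W (D.K K1 W - inG m (B.K K1 W) - LD sf ζ β W)) ≤
    ENNReal.ofReal ε
  hβ : ∀ i, Wo0 (sf i) * nm0 (sf i) (tau i * inG m (β i)) ≤ ENNReal.ofReal μ
  hζ : ∀ i, |ζ i - Ze| ≤ ε
  hZe : |Ze| ≤ 2
  cst : ∀ i, v ^ 2 * |cst i + co {i} (D.E Λ K1) - Ze * c0 i| ≤ ε
  high : ∀ I : Finset (Fin m), 2 ≤ I.card → (v ^ 2) ^ I.card * |co I (D.E Λ K1)| ≤ ε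
  hc0 : ∀ i, v ^ 2 * |c0 i| ≤ M

section mid

variable {D : Sys F (VS V m)} {B : Sys F V} {Λ : Finset F} {K1 : ℕ}
  {sf : Fin m → Finset F} {ζ cst c0 : Fin m → ℝ} {β : Fin m → Ge V}
  {nm0 : Finset F → Ge (VS V m) → ℝ≥0∞} {Wo0 : Finset F → ℝ≥0∞} {v ε μ M Ze : ℝ}

theorem Tout_lead_le (h : FinM D B Λ K1 sf ζ cst c0 β nm0 Wo0 v ε μ M Ze) (hN : ∀ U, GN (nm0 U))
    {x : Fin m → ℝ} {X : ℝ} (hx : ∀ i, |x i| ≤ X) (hX : 0 ≤ X) :
    Tout Wo0 (fun U => nm0 U (lead sf (fun i => x i • (tau i * inG m (β i))) U)) ≤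
      ENNReal.ofReal (m * (X * μ)) := by
  have hμ := h.μ0
  refine (Tout_lead hN Wo0 sf _).trans ?_
  calc ∑ i, Wo0 (sf i) * nm0 (sf i) (x i • (tau i * inG m (β i)))
      ≤ ∑ _i : Fin m, ENNReal.ofReal (X * μ) := by
        refine sum_le_sum fun i _ => ?_
        calc Wo0 (sf i) * nm0 (sf i) (x i • (tau i * inG m (β i)))
            ≤ Wo0 (sf i) * (‖x i‖ₑ * nm0 (sf i) (tau i * inG m (β i))) :=
              mul_le_mul_right ((hN _).smul _ _) _
          _ = ‖x i‖ₑ * (Wo0 (sf i) * nm0 (sf i) (tau i * inG m (β i))) := by ring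
          _ ≤ ENNReal.ofReal X * ENNReal.ofReal μ := by
              refine mul_le_mul' ?_ (h.hβ i)
              rw [← ofReal_norm, Real.norm_eq_abs]
              exact ENNReal.ofReal_le_ofReal (hx i)
          _ = ENNReal.ofReal (X * μ) := (ENNReal.ofReal_mul hX).symm
    _ = ENNReal.ofReal (m * (X * μ)) := by
        rw [sum_const, card_univ, Fintype.card_fin, nsmul_eq_mul,
          ENNReal.ofReal_mul (Nat.cast_nonneg m), ENNReal.ofReal_natCast]

/-- the initial total norm of the lead run -/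
theorem lead_init (h : FinM D B Λ K1 sf ζ cst c0 β nm0 Wo0 v ε μ M Ze) (hN : ∀ U, GN (nm0 U)) :
    Tout Wo0 (fun U => nm0 U (KF sf Ze β U)) ≤ ENNReal.ofReal (m * (2 * μ)) :=
  Tout_lead_le h hN (x := fun _ => Ze) (fun _ => h.hZe) (by norm_num)

/-- the initial total norm of the rest -/
theorem rest_init (h : FinM D B Λ K1 sf ζ cst c0 β nm0 Wo0 v ε μ M Ze) (hN : ∀ U, GN (nm0 U)) :
    Tout Wo0 (fun U => nm0 U (D.K K1 U - inG m (B.K K1 U) - KF sf Ze β U)) ≤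
      ENNReal.ofReal (ε * (1 + m * μ)) := by
  have hε := h.ε0
  have hμ := h.μ0
  have e : ∀ W, D.K K1 W - inG m (B.K K1 W) - KF sf Ze β W =
      (D.K K1 W - inG m (B.K K1 W) - LD sf ζ β W) +
        lead sf (fun i => (ζ i - Ze) • (tau i * inG m (β i))) W := fun W => by
    rw [← LD_sub sf ζ (fun _ => Ze) β W, LD_const]; abel
  calc Tout Wo0 (fun U => nm0 U (D.K K1 U - inG m (B.K K1 U) - KF sf Ze β U))
      ≤ Tout Wo0 (fun U => nm0 U (D.K K1 U - inG m (B.K K1 U) - LD sf ζ β U) +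
          nm0 U (lead sf (fun i => (ζ i - Ze) • (tau i * inG m (β i))) U)) := by
        refine Tout_mono fun U _ => ?_
        rw [e U]
        exact (hN U).add _ _
    _ = Tout Wo0 (fun U => nm0 U (D.K K1 U - inG m (B.K K1 U) - LD sf ζ β U)) +
          Tout Wo0 (fun U => nm0 U (lead sf (fun i => (ζ i - Ze) • (tau i * inG m (β i))) U)) :=
        Tout_add _ _
    _ ≤ ENNReal.ofReal ε + ENNReal.ofReal (m * (ε * μ)) :=
        add_le_add h.act (Tout_lead_le h hN h.hζ hε)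
    _ = ENNReal.ofReal (ε * (1 + m * μ)) := by
        rw [← ENNReal.ofReal_add hε (by positivity)]
        congr 1; ring

/-- the constants -/
theorem cst_diff (h : FinM D B Λ K1 sf ζ cst c0 β nm0 Wo0 v ε μ M Ze) {g : V → ℝ≥0∞}
    (g0 : g 0 = 0) :
    Bd (Nw g fun _ => v) ((Etot cst (D.E Λ K1) - algebraMap ℝ _ (ctG (Etot cst (D.E Λ K1)))) -
      (EF V Ze c0 - algebraMap ℝ _ (ctG (EF V Ze c0)))) ((m + 2 ^ m) * ε) := by
  have hv := h.v0
  have hε := h.ε0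
  have hN := ra_Nw (V := V) (m := m) g (fun _ => v)
  have hES : D.E Λ K1 ∈ GS V m := E_mem_GS h.vac h.hGS Λ K1
  have hEv : vacH (D.E Λ K1) = D.E Λ K1 := vacH_E h.vac Λ K1
  have htau : ∀ i : Fin m, Bd (Nw g fun _ => v) (tau i : Ge (VS V m)) (v ^ 2) := fun i =>
    bd_tau g0 (v := fun _ => v) i hv
  have ctE' : ctG (EF V Ze c0 : Ge (VS V m)) = 0 := ctG_sum_tau fun i => Ze * c0 i
  have hsplit : (Etot cst (D.E Λ K1) - algebraMap ℝ _ (ctG (Etot cst (D.E Λ K1)))) -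
      (EF V Ze c0 - algebraMap ℝ _ (ctG (EF V Ze c0))) =
      (Etot cst (D.E Λ K1) - algebraMap ℝ _ (ctG (Etot cst (D.E Λ K1))) -
        ∑ i, (cst i + co {i} (D.E Λ K1)) • tau i) +
      ∑ i, (cst i + co {i} (D.E Λ K1) - Ze * c0 i) • tau i := by
    rw [ctE', map_zero, sub_zero, EF]
    simp only [sub_smul, sum_sub_distrib]
    abel
  rw [hsplit]
  have h1 := vrest_of hES hEv g0 h.high cst
  have h2 : Bd (Nw g fun _ => v) (∑ i, (cst i + co {i} (D.E Λ K1) - Ze * c0 i) •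
      (tau i : Ge (VS V m))) (m * ε) := by
    have h3 := Bd.sum hN univ (f := fun i => (cst i + co {i} (D.E Λ K1) - Ze * c0 i) •
      (tau i : Ge (VS V m))) (t := fun _ => ε) (fun i _ => by
        refine ((htau i).smul hN _).mono ?_
        have := h.cst i
        rwa [mul_comm] at this) fun _ _ => hε
    simpa using h3
  refine (h1.add hN h2 (by positivity) (by positivity)).mono (le_of_eq ?_)
  ring

/-- the free constants -/
theorem cst_free (h : FinM D B Λ K1 sf ζ cst c0 β nm0 Wo0 v ε μ M Ze) {g : V → ℝ≥0∞}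
    (g0 : g 0 = 0) :
    Bd (Nw g fun _ => v) (EF V Ze c0 - algebraMap ℝ _ (ctG (EF V Ze c0)) : Ge (VS V m))
      (m * (2 * M)) := by
  have hv := h.v0
  have hM := h.M0
  have hN := ra_Nw (V := V) (m := m) g (fun _ => v)
  have htau : ∀ i : Fin m, Bd (Nw g fun _ => v) (tau i : Ge (VS V m)) (v ^ 2) := fun i =>
    bd_tau g0 (v := fun _ => v) i hv
  have ctE' : ctG (EF V Ze c0 : Ge (VS V m)) = 0 := ctG_sum_tau fun i => Ze * c0 i
  rw [ctE', map_zero, sub_zero, EF]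
  have h3 := Bd.sum hN univ (f := fun i => (Ze * c0 i) • (tau i : Ge (VS V m)))
    (t := fun _ => 2 * M) (fun i _ => by
      refine ((htau i).smul hN _).mono ?_
      rw [abs_mul]
      calc |Ze| * |c0 i| * v ^ 2 = |Ze| * (v ^ 2 * |c0 i|) := by ring
        _ ≤ 2 * M := mul_le_mul h.hZe (h.hc0 i) (by positivity) (by norm_num))
    fun _ _ => by positivity
  simpa using h3

end mid

/-! ### the class of the source dependent activities -/

/-- **source dependent activities**: source-local, no source free part, connected support -/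
def PX (d : F → F → ℕ) (R : ℕ → ℕ) (sf : Fin m → Finset F) (k : ℕ) (U : Finset F)
    (X : Ge (VS V m)) : Prop :=
  X ∈ SLA sf U ∧ noS X = 0 ∧ (X ≠ 0 → Packx915.Conn d (R k) U)

theorem KF_SLA (sf : Fin m → Finset F) (Ze : ℝ) (β : Fin m → Ge V) (U : Finset F) :
    (KF sf Ze β U : Ge (VS V m)) ∈ SLA sf U := by
  classical
  unfold KF lead
  refine Subalgebra.sum_mem _ fun i _ => ?_
  split_ifs with h
  · refine Subalgebra.smul_mem _ (Subalgebra.mul_mem _ ?_ (SrcTailx999.inG_mem_SLA sf U _)) _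
    refine ⟨tau_mem i, fun I hI j hj => ?_⟩
    have e : (tau i : Ge (VS V m)) = tauP {i} * inG m 1 := by
      rw [SrcCstx484.tauP_singleton, map_one, mul_one]
    rw [e, SrcDefx991.coP_basis] at hI
    have hIi : I = {i} := by
      by_contra hne
      exact hI (if_neg hne)
    rw [hIi, mem_singleton] at hj
    rw [hj, h]
  · exact Subalgebra.zero_mem _

theorem noS_KF (sf : Fin m → Finset F) (Ze : ℝ) (β : Fin m → Ge V) (U : Finset F) :
    noS (KF sf Ze β U : Ge (VS V m)) = 0 := noS_lead sf (fun _ => Ze) β U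


section cls

variable {B : Sys F V} {D DL : Sys F (VS V m)} {d : F → F → ℕ} {R : ℕ → ℕ}
  {sf : Fin m → Finset F}



end cls

/-! ### the comparison at the last scale -/

section final

variable {D : Sys F (VS V m)} {B : Sys F V} {Λ : Finset F} {K1 : ℕ}
  {sf : Fin m → Finset F} {ζ cst c0 : Fin m → ℝ} {β : Fin m → Ge V} {v ε μ M Ze : ℝ}
  {bt : Type} {nm : ℕ → Finset F → Ge (VS V m) → ℝ≥0∞}
  {Wo : ℕ → Finset F → ℝ≥0∞} {sz : ℕ → Finset F → ℕ} {nr : ℕ → bt → Finset F → Prop}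
  {P : ℕ → Finset F → Ge (VS V m) → Prop} {C c : ℝ≥0∞} {q : ℕ → ℝ≥0∞}

/-- the tail condition does not see the activities -/
theorem tailOf_K0 {B : Sys F V} {D : Sys F (VS V m)} {N K1 : ℕ} {X Y : Finset F → Ge (VS V m)}
    (h : TailOf B (shift D K1 X) N) : TailOf B (shift D K1 Y) N :=
  ⟨h.S, h.near, h.vac, h.bvac, h.e⟩

/-- **`FinE` at the last scale `K1 + N`** from the data at `K1` and the steps `K1 ≤ k < K1 + N` -/
theorem finE_mid {J N : ℕ} {t0 C0 : ℝ} (h3 : ScalarT3 J c C t0 C0) (hC0 : 0 ≤ C0) (hCt : C ≠ ∞)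
    {b0 : ℝ} (hb0 : 0 < b0) (hbt : b0 ≤ t0)
    (hF : FinM D B Λ K1 sf ζ cst c0 β (nm 0) (Wo 0) v ε μ M Ze) (hnm : ∀ U, GN (nm 0 U))
    (het : ε * (1 + m * μ) ≤ t0) (hμt : m * (2 * μ) ≤ t0)
    (hTO : ∀ n, TailOf (shift B K1 (B.K K1)) (shift D K1 (D.K K1)) n)
    (hnoS : ∀ U, noS (D.K K1 U) = B.K K1 U) (hSLA : ∀ U, D.K K1 U ∈ SLA sf U)
    (h : TailH (shift B K1 (B.K K1)) (shift D K1 (D.K K1)) (shift D K1 (KF sf Ze β)) nm Wo sz nr
      P C c q J N b0)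
    {Sf : Cov V} {g : V → ℝ≥0∞} (hg : Gram Sf g) (g0 : g 0 = 0) (hW : ∀ k U, 1 ≤ Wo k U)
    (hvac : ∀ k < N, ∀ U : Finset F, U.Nonempty → ∀ X ∈ GS V m,
      Nw g (fun _ => v) (vacH (cvG (ext0 m (B.S (K1 + k))) X)) ≤ nm k U X)
    (hfin : ∀ U : Finset F, U.Nonempty → ∀ X, Nw g (fun _ => v) X ≤ nm N U X)
    {ε₁ : ℝ} (hε₁ : 0 ≤ ε₁)
    (hb : ∑ W ∈ nes Λ, pG g (B.K (K1 + N) W) ≤ ENNReal.ofReal ε₁) :
    FinE (D.near (K1 + N)) Λ (D.K (K1 + N)) ((shift D K1 (KF sf Ze β)).K N)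
      (∑ i, cst i • tau i + D.E Λ (K1 + N))
      (∑ i, (Ze * c0 i) • tau i + (shift D K1 (KF sf Ze β)).E Λ N) Sf g (fun _ => v)
      (ε₁ + (m + 2 ^ m) * ε + 3 * (C0 * (ε * (1 + m * μ) + b0)))
      (m * (2 * M) + 3 * (C0 * (m * (2 * μ)))) := by
  have hε := hF.ε0
  have hμ := hF.μ0
  have hM := hF.M0
  set B' := shift B K1 (B.K K1) with hB'
  set D' := shift D K1 (D.K K1) with hD'
  set DL := shift D K1 (KF sf Ze β) with hDL
  have hTL : ∀ n, TailOf B' DL n := fun n => tailOf_K0 (hTO n)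
  have a0 : ∀ U, noS (D'.K 0 U) = B'.K 0 U := hnoS
  have l0 : ∀ U, noS (DL.K 0 U) = 0 := noS_KF sf Ze β
  have n1 : ∀ k U, noS (D'.K k U) = B'.K k U := fun k U => tail_noS (hTO k) a0 k le_rfl U
  have n2 : ∀ k U, noS (DL.K k U) = 0 := fun k U => lead_noS (hTL k) l0 k le_rfl U
  have g1 : ∀ k U, D'.K k U ∈ SLA sf U := fun k U => tail_SLA (hTO k) hSLA k le_rfl U
  have g2 : ∀ k U, DL.K k U ∈ SLA sf U := fun k U =>
    tail_SLA (hTL k) (KF_SLA sf Ze β) k le_rfl U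
  have hR1 := rest_init hF hnm
  have hL1 := lead_init hF hnm
  have hR0 : tn nm Wo 0 (PT B' D' DL 0) ≤ ENNReal.ofReal (ε * (1 + m * μ)) := hR1
  have hL0 : tn nm Wo 0 (DL.K 0) ≤ ENNReal.ofReal (m * (2 * μ)) := hL1
  have key := finE_all (B := B') (D := D') (DL := DL) (Λ := Λ) h3 hC0 hb0 (e0 := ε * (1 + m * μ))
    (τ0 := m * (2 * μ)) (by positivity) (by positivity) hbt het hμt h
    (fun k hk => leadStep (hTL N) hk (n2 k) hCt)
    (fun k hk => restStep (hTO N) (hTL N) hk (n1 k) (n2 k))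
    hL0 hR0
    (fun k => (hTO (k + 1)).S k (Nat.lt_succ_self k)) (fun k => rfl) hF.vac hF.vac n1 n2 hg
    (fun _ => hF.v0) hW (fun k hk U hU X hX => ?_) hfin (E₁ := Etot cst (D.E Λ K1))
    (E₁' := EF V Ze c0) hε₁ (ε₂ := (m + 2 ^ m) * ε) (by positivity) (M₀ := m * (2 * M))
    (by positivity) ?_ (vacH_Etot (vacH_E hF.vac Λ K1)) (by
      rw [EF]; exact vacH_sum_tau fun i => Ze * c0 i) (cst_diff hF g0) (cst_free hF g0)
  · have e1 : Etot cst (D.E Λ K1) + D'.E Λ N = ∑ i, cst i • tau i + D.E Λ (K1 + N) := by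
      rw [Etot, add_assoc, hD', ← shift_E]
    have e2 : D'.K N = D.K (K1 + N) := shift_K D K1 N
    rw [e1, e2] at key
    exact key
  · rcases hX with rfl | rfl
    · exact hvac k hk U hU _ (PT_SLA (g1 k U) (g2 k U)).1
    · exact hvac k hk U hU _ (g2 k U).1
  · rw [hB', shift_K]
    exact hb

end final

end Crest.Agent.R165.SrcMidx441
end
end

-- ▼ part R165/TailD2_999
section

/-!
# Row 165 (S0250), tail with sources: `FinE` for the frozen flows (helper999)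

* `flC_SLA`, `flC_OK` : locality of the cut flow at the step `K₁`; the algebraic hypotheses
* `gwS_le_same`, `gram_same` : the Gram weight of the step `n` against the local weight at the SAME
  scale; `hvac_flC`, `hfin_gr` : the hypotheses `hvac`, `hfin` of 441's `finE_mid`
* `finE_flC` : **`FinE` at the last scale `K₁ + N` for 683's flow with bond sources**, in the form
  `hF` of 359's `runPack_of`
-/

set_option autoImplicit false
set_option linter.unusedSectionVars false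
set_option linter.unusedVariables false

noncomputable section

open scoped ENNReal

namespace Crest.Agent.R165.TailDx999

open Crest.Agent.R165.Gr0x606 Crest.Agent.R165.Gr1x606 Crest.Agent.R165.GeOpsx337
  Crest.Agent.R165.ExpGx337 Crest.Agent.R165.KStepx892 Crest.Agent.R165.KFlowx337
  Crest.Agent.R165.Latx683 Crest.Agent.R165.PNormx417 Crest.Agent.R165.GDefx387
  Crest.Agent.R165.GSysx387 Crest.Agent.R165.FRDPolyx439 Crest.Agent.R165.Bkgx683
  Crest.Agent.R165.Topx683 Crest.Agent.R165.J4Defx653 Crest.Agent.R165.J4Geox126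
  Crest.Agent.R165.W0Sx897 Crest.Agent.R165.FRDAbsx439 Crest.Agent.R165.FRDInfx439
  Crest.Agent.R165.FRDLatx439 Crest.Agent.R165.ExpAx337
open Crest.Agent.R165.SrcDefx991 (VS Src th th' tau tauP ext0 inG noS vacH vacS coP wS vS GS
  noS_inG noS_tau inG_mem tau_mem)
open Crest.Agent.R165.SrcSysx991
open Crest.Agent.R165.SrcInsx991
open Crest.Agent.R165.SrcFinx441 (lead)
open Crest.Agent.R165.SrcFinBx441 (Nw)
open Crest.Agent.R165.EnWx359 (leadB flL)
open Crest.Agent.R165.SrcTailx441 (NoX TailOf base0 PT shift shift_K shift_H)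
open Crest.Agent.R165.SrcTailAllx441 (TailH ScalarT3)
open Crest.Agent.R165.SrcTailx999 (SLA)
open Crest.Agent.R165.SrcDomx697 (KF)
open Crest.Agent.R165.SrcMidx441 (FinM finE_mid)
open Crest.Agent.R165.SrcCmpx441 (FinE)
open Crest.Agent.R165.TailNAx999

/-! ### the cut flow at the step `K₁` -/

section flows

variable {m : ℕ} (B : Bg ℤ) (P : MPar) {M K : ℕ} (Dd : FRD 16 M K) (mk : Finset (ℤ × ℤ))
  (e : Fin m → Bkgx683.EG ℤ) (he : ∀ i, B.w (e i).1 (e i).2 ≠ 0) (l k0 K₁ : ℕ)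

/-- **source locality** -/
theorem flC_SLA (U : Finset (ℤ × ℤ)) :
    (flC B P Dd mk e he l k0 K₁).K K₁ U ∈ SLA (fun i => faE (e i)) U := by
  refine ⟨flC_GS B P Dd mk e he l k0 K₁ K₁ U, fun I hI i hi => ?_⟩
  rw [flC_K B P Dd mk e he l k0 K₁ le_rfl] at hI
  exact SrcInvx336.sup_K (SOK_flowP B P Dd mk e l k0)
    (fun U I h i hi => K0P_sup B P e l k0 U I h i hi) hI hi


end flows

/-! ### Gram weights at the same scale -/

section gram

variable {G : Type} [CommRing G] [CN G] {M K : ℕ} (D : FRD 16 M K)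

/-- **Gram weight of the step `n` against the local weight at the same scale** -/
theorem gwS_le_same (hM : MM + 1 ≤ M) (w : BW G) (hw : ∀ z j, |w z j| ≤ 1) (l k0 n : ℕ) {A : ℝ}
    (hA : cW0 D l k0 n ≤ A) (x : G × G) (f : Fld G) :
    gwS D w l k0 n f ≤ wt w A (rr l k0 n) x f := by
  have hA0 : 0 < A := (cW0_pos D l k0 n).trans_le hA
  have hC := D.C_pos
  have key : ∀ t : ℝ, t ≤ A → ∀ y : ℝ≥0∞, ENNReal.ofReal (t / A) * y ≤ y := by
    intro t ht y
    calc ENNReal.ofReal (t / A) * y ≤ 1 * y := by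
          gcongr
          exact ENNReal.ofReal_le_one.2 (by rw [div_le_one hA0]; exact ht)
      _ = y := one_mul _
  have hL : (1 : ℝ) ≤ 2 ^ l := one_le_pow₀ (by norm_num)
  have hsq : √(D.C * 2 ^ l) ≤ √D.C * 2 ^ l := by
    rw [Real.sqrt_mul hC.le]
    refine mul_le_mul_of_nonneg_left ?_ (Real.sqrt_nonneg _)
    calc √((2 : ℝ) ^ l) ≤ √((2 ^ l) ^ 2) := Real.sqrt_le_sqrt (by nlinarith)
      _ = 2 ^ l := Real.sqrt_sq (by positivity)
  have h6 : ((2 : ℝ) ^ l) ≤ ((2 : ℝ) ^ l) ^ MM := le_self_pow₀ hL (by decide)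
  have hrr : (2 : ℝ) ^ hi l k0 n ≤ 2 ^ l * (rr l k0 n : ℕ) := by
    have e : (2 : ℝ) ^ hi l k0 n = ((rr l k0 (n + 1) : ℕ) : ℝ) := by
      rw [← hi_eq]; push_cast; rfl
    rw [e, rr_succ]
    push_cast
    exact le_rfl
  rcases n with _ | n
  · rw [cW0_zero] at hA
    have h := gw_le_wt_first D hM w (AopF_bdd w hw) (hi l k0 0) (rr l k0 0) (2 ^ l)
      (rr_pos l k0 _) hrr hA0 x f
    unfold gwS
    rw [lo_zero]
    refine h.trans (key _ ?_ _)
    refine le_trans ?_ hA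
    have hr0 : (0 : ℝ) ≤ ((rr l k0 0 : ℕ) : ℝ) ^ MM := by positivity
    calc 7 * √(D.C * 2 ^ l) * ((rr l k0 0 : ℕ) : ℝ) ^ MM
        ≤ 7 * (√D.C * ((2 : ℝ) ^ l) ^ MM) * ((rr l k0 0 : ℕ) : ℝ) ^ MM := by
          refine mul_le_mul_of_nonneg_right ?_ hr0
          refine mul_le_mul_of_nonneg_left ?_ (by norm_num)
          exact hsq.trans (mul_le_mul_of_nonneg_left h6 (Real.sqrt_nonneg _))
      _ = 7 * √D.C * ((rr l k0 1 : ℕ) : ℝ) ^ MM := by
          rw [rr_succ l k0 0]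
          push_cast
          rw [mul_pow]
          ring
  · rw [cW0_succ] at hA
    have hlo : 2 ^ lo l k0 (n + 1) = rr l k0 (n + 1) := by rw [lo_succ, hi_eq]
    have h := gw_le_wt_new D hM w (AopF_bdd w hw) (lo l k0 (n + 1)) (hi l k0 (n + 1))
      (rr l k0 (n + 1)) (2 ^ l) (by rw [hlo]) hrr hA0 x f
    refine h.trans (key _ ?_ _)
    have e : ((2 : ℝ) ^ lo l k0 (n + 1)) = ((rr l k0 (n + 1) : ℕ) : ℝ) := by
      rw [← hlo]; push_cast; rfl
    have h0 : ((rr l k0 (n + 1) : ℕ) : ℝ) ≠ 0 := by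
      have := rr_pos l k0 (n + 1)
      positivity
    rw [e, div_self h0, one_pow, mul_one]
    refine le_trans ?_ hA
    calc 7 * √(D.C * 2 ^ l) ≤ 7 * (√D.C * ((2 : ℝ) ^ l) ^ MM) := by
          refine mul_le_mul_of_nonneg_left ?_ (by norm_num)
          exact hsq.trans (mul_le_mul_of_nonneg_left h6 (Real.sqrt_nonneg _))
      _ = _ := by ring

theorem gram_le {V : Type*} [AddCommGroup V] [Module ℝ V] {S : Cov V} {g g' : V → ℝ≥0∞}
    (h : Gram S g) (hg : ∀ x, g x ≤ g' x) : Gram S g' := fun L => (h L).trans (mwt_mono hg L)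

/-- **Gram bound of the step `n` in the weights of the scale `n`** -/
theorem gram_same (hM : MM + 1 ≤ M) (w : BW G) (hw : ∀ z j, |w z j| ≤ 1) (l k0 n : ℕ) {A : ℝ}
    (hA : cW0 D l k0 n ≤ A) (U : Finset (G × G)) :
    Gram (slC D w l k0 n) (wU w A (rr l k0 n) U) := by
  classical
  refine gram_le (gramS D w hw l k0 n) fun f => ?_
  refine le_iInf₂ fun x _ => ?_
  split_ifs
  · exact gwS_le_same D hM w hw l k0 n hA x f
  · exact le_top

end gram

/-! ### `FinE` -/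

section final

variable {m : ℕ} (B : Bg ℤ) (P : MPar) {M K : ℕ} (Dd : FRD 16 M K) (mk : Finset (ℤ × ℤ))
  (e : Fin m → Bkgx683.EG ℤ) (he : ∀ i, B.w (e i).1 (e i).2 ≠ 0) (l k0 K₁ : ℕ)

/-- the hypothesis `hvac` of `finE_mid` -/
theorem hvac_flC (hM : MM + 1 ≤ M) (hw : ∀ z j, |B.w z j| ≤ 1) {g : Fld ℤ → ℝ≥0∞} (g0 : g 0 = 0)
    {v : ℝ} (hv : 0 < v) {a : ℕ → ℝ} {k : ℕ} (hA : cW0 Dd l k0 (K₁ + k) ≤ a k)
    (U : Finset (ℤ × ℤ)) {X : Ge (VS (Fld ℤ) m)} (hX : X ∈ GS (Fld ℤ) m) :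
    Nw g (fun _ => v) (vacH (cvG (ext0 m ((flow0 B P Dd mk l k0).S (K₁ + k))) X)) ≤
      nmS B.w a (fun n => rr l k0 (K₁ + n)) (fun _ => ENNReal.ofReal v) k U X :=
  SrcTailFinx441.vac_bd g0 (fun _ => hv) (gram_same Dd hM B.w hw l k0 (K₁ + k) hA U) hX

/-- the hypothesis `hfin` of `finE_mid` -/
theorem hfin_of {w : BW ℤ} {g : Fld ℤ → ℝ≥0∞} {v : ℝ} {a : ℕ → ℝ} {r : ℕ → ℕ} {N : ℕ}
    (hg : ∀ (U : Finset (ℤ × ℤ)) (x : Fld ℤ), g x ≤ wU w (a N) (r N) U x)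
    (U : Finset (ℤ × ℤ)) (X : Ge (VS (Fld ℤ) m)) :
    Nw g (fun _ => v) X ≤ nmS w a r (fun _ => ENNReal.ofReal v) N U X :=
  pnorm_le_pnorm (fun p => wS_mono (fun x => hg U x) _ p) _


theorem tL_eq (Ze : ℝ) : tL B P Dd mk e he l k0 K₁ Ze =
    shift (flC B P Dd mk e he l k0 K₁) K₁ (KF (fun i => faE (e i)) Ze fun i => beB B.w (e i)) := rfl

/-- **`FinE` at the last scale for the flow with bond sources** -/
theorem finE_flC {J N : ℕ} {C c : ℝ≥0∞} {t0 C0 : ℝ} (h3 : ScalarT3 J c C t0 C0) (hC0 : 0 ≤ C0)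
    (hCt : C ≠ ∞) {b0 : ℝ} (hb0 : 0 < b0) (hbt : b0 ≤ t0) {Λ : Finset (ℤ × ℤ)}
    {a : ℕ → ℝ} {Γ : ℝ≥0∞} (hΓ : 1 ≤ Γ) {ζ cst c0 : Fin m → ℝ} {v ε μ M' Ze : ℝ}
    (hF : FinM (flC B P Dd mk e he l k0 K₁) (flow0 B P Dd mk l k0) Λ K₁ (fun i => faE (e i)) ζ cst
      c0 (fun i => beB B.w (e i))
      (nmS B.w a (fun n => rr l k0 (K₁ + n)) (fun _ => ENNReal.ofReal v) 0)
      (WoS (fun n => rr l k0 (K₁ + n)) Γ 0) v ε μ M' Ze)
    (het : ε * (1 + m * μ) ≤ t0) (hμt : m * (2 * μ) ≤ t0)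
    {Pc : ℕ → Finset (ℤ × ℤ) → Ge (VS (Fld ℤ) m) → Prop} {q : ℕ → ℝ≥0∞}
    (h : TailH (tB B P Dd mk l k0 K₁) (tD B P Dd mk e he l k0 K₁) (tL B P Dd mk e he l k0 K₁ Ze)
      (nmS B.w a (fun n => rr l k0 (K₁ + n)) (fun _ => ENNReal.ofReal v))
      (WoS (fun n => rr l k0 (K₁ + n)) Γ) (szS fun n => rr l k0 (K₁ + n))
      (nrS fun n => rr l k0 (K₁ + n)) Pc C c q J N b0)
    (hM : MM + 1 ≤ M) (hw : ∀ z j, |B.w z j| ≤ 1) (hA : ∀ k < N, cW0 Dd l k0 (K₁ + k) ≤ a k)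
    {Sf : Cov (Fld ℤ)} {g : Fld ℤ → ℝ≥0∞} (hg : Gram Sf g) (g0 : g 0 = 0)
    (hgw : ∀ (U : Finset (ℤ × ℤ)) (x : Fld ℤ), g x ≤ wU B.w (a N) (rr l k0 (K₁ + N)) U x)
    {ε₁ : ℝ} (hε₁ : 0 ≤ ε₁)
    (hb : ∑ W ∈ nes Λ, pG g ((flow0 B P Dd mk l k0).K (K₁ + N) W) ≤ ENNReal.ofReal ε₁) :
    FinE (near l k0 (K₁ + N)) Λ ((flC B P Dd mk e he l k0 K₁).K (K₁ + N))
      ((flL (flC B P Dd mk e he l k0 K₁) K₁ B.w e Ze).K N)
      (∑ i, cst i • tau i + (flC B P Dd mk e he l k0 K₁).E Λ (K₁ + N))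
      (∑ i, (Ze * c0 i) • tau i + (flL (flC B P Dd mk e he l k0 K₁) K₁ B.w e Ze).E Λ N) Sf g
      (fun _ => v)
      (ε₁ + (m + 2 ^ m) * ε + 3 * (C0 * (ε * (1 + m * μ) + b0)))
      (m * (2 * M') + 3 * (C0 * (m * (2 * μ)))) := by
  rw [tL_eq] at h
  have H5 : ∀ k < N, ∀ U : Finset (ℤ × ℤ), U.Nonempty → ∀ X ∈ GS (Fld ℤ) m,
      Nw g (fun _ => v) (vacH (cvG (ext0 m ((flow0 B P Dd mk l k0).S (K₁ + k))) X)) ≤
        nmS B.w a (fun n => rr l k0 (K₁ + n)) (fun _ => ENNReal.ofReal v) k U X :=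
    fun k hk U _ X hX => hvac_flC B P Dd mk l k0 K₁ hM hw g0 hF.v0 (hA k hk) U hX
  have H6 : ∀ U : Finset (ℤ × ℤ), U.Nonempty → ∀ X : Ge (VS (Fld ℤ) m), Nw g (fun _ => v) X ≤
      nmS B.w a (fun n => rr l k0 (K₁ + n)) (fun _ => ENNReal.ofReal v) N U X :=
    fun U _ X => hfin_of (w := B.w) (g := g) (v := v) (a := a) (r := fun n => rr l k0 (K₁ + n))
      (N := N) hgw U X
  exact finE_mid (D := flC B P Dd mk e he l k0 K₁) (B := flow0 B P Dd mk l k0) (K1 := K₁)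
    h3 hC0 hCt hb0 hbt hF (fun U => (gfam_nmS 0).gn U) het hμt
    (fun n => tailOf_D B P Dd mk e he l k0 K₁ n)
    (fun U => flC_noS B P Dd mk e he l k0 K₁ K₁ U) (fun U => flC_SLA B P Dd mk e he l k0 K₁ U) h hg
    g0 (fun k U => one_le_WoS hΓ k U) H5 H6 hε₁ hb

end final

end Crest.Agent.R165.TailDx999
end
end

-- ▼ part R165/EnEv_359
section

/-!
# Row 165 (S0250), leaf P11 item 8: large plus discs, the eventual side (helper359)

* `sep_ev` : the lattice points are separated by `c / a`; `sep_k1` : separation of the sources at the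
  last fine step `k1 p k0 u a`, `2 ^ p * u ≤ c`
* `e2D` : the source extraction of `SrcIns_991` for the steps `< K₁`, none afterwards; `flD_OK`
* `DiscEv` : everything `runPack_of` asks from the disc, except `FinE`; `disc_ev` : it holds
  eventually along `dl`
* `DiscEv.runPack` : **`RunPack` from `FinE` only**
-/

set_option autoImplicit false
set_option linter.unusedSectionVars false
set_option linter.unusedVariables false

noncomputable section

open Filter Topology Finset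
open Crest.ProbabilityR.IsingModel

namespace Crest.Agent.R165.EnWx359

open scoped ENNReal
open Crest.Agent.R165.Gr0x606 Crest.Agent.R165.Gr1x606 Crest.Agent.R165.J1ax606
open Crest.Agent.R165.GeOpsx337 Crest.Agent.R165.ExpGx337 Crest.Agent.R165.KStepx892
  Crest.Agent.R165.KFlowx337 Crest.Agent.R165.KInitx892
open Crest.Agent.R165.SrcDefx991 (VS Src th th' tau tauP ext0 inG noS vacH vacS coP wS vS GS ext0_b)
open Crest.Agent.R165.J4Defx653 Crest.Agent.R165.J4Geox126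
open Crest.Agent.R165.JRunSx408 Crest.Agent.R165.JDomAx606
open Crest.Agent.R165.Bkgx683 (MPar mpar bondSrc Bg)
open Crest.Agent.R165.Latx683 (BW wDom ray wX IsCov covS formS Fld)
open Crest.Agent.R165.Centx541 Crest.Agent.R165.Redx541 Crest.Agent.R165.Symx541
  Crest.Agent.R165.Red2x541 Crest.Agent.R165.Topx683 Crest.Agent.R165.SRx541
open Crest.Agent.R165.UKerx420 (wD Cof Sof Sof_spec Sof_skew)
open Crest.Agent.R165.UFinx420 (isF)
open Crest.Agent.R165.GDefx387 Crest.Agent.R165.GSysx387 Crest.Agent.R165.FRDPolyx439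
  Crest.Agent.R165.BgIsox432
open Crest.Agent.R165.SrcFinx441 (lead)
open Crest.Agent.R165.SrcCmpx441 (FinE RunPack ratio ratio_lead_Ze)
open Crest.Agent.R165.SrcTailx441 (shift shift_OK ratio_run)
open Crest.Agent.R165.SrcInsx991 (uB bE beB beB_mem srcX srcD dpS)
open Crest.Agent.R165.DiscKx892 Crest.Agent.R165.CovPkgx359
open Crest.Agent.R165.SRdomAx900 (Lam)
open Crest.Agent.R165.Outx683 (DD)

/-! ### separation -/

theorem fd_real (f g : ℤ × ℤ) : (fd f g : ℝ) = PlGapx887.dm f g := by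
  have e : fd f g = max (f.1 - g.1).natAbs (f.2 - g.2).natAbs := rfl
  rw [e, Nat.cast_max, Nat.cast_natAbs, Nat.cast_natAbs]
  unfold PlGapx887.dm
  push_cast
  rw [abs_sub_comm (f.1 : ℝ), abs_sub_comm (f.2 : ℝ)]

/-- distinct points are separated by `c / a` on the lattice -/
theorem sep_ev {N : ℕ} {z : Fin N → ℂ} (hz : Function.Injective z) : ∃ c : ℝ, 0 < c ∧
    ∀ᶠ a in 𝓝[>] (0 : ℝ), ∀ i i', i ≠ i' →
      c / a ≤ (fd (meshIndex a (z i)) (meshIndex a (z i')) : ℝ) := by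
  obtain ⟨d, hd0, hd⟩ := FrDomx887.exists_sep hz
  refine ⟨d / 4, by linarith, ?_⟩
  filter_upwards [FrDomx887.lapp_sep (U5Px422.lapp_meshIndex z) hd0 hd] with a ha i i' hii
  rw [fd_real]
  exact ha i i' hii

/-- **separation at the last fine step** -/
theorem sep_k1 {N : ℕ} {z : Fin N → ℂ} (hz : Function.Injective z) : ∃ c : ℝ, 0 < c ∧
    ∀ (p k0 : ℕ) (u : ℝ), 0 < u → 2 ^ p * u ≤ c → ∀ᶠ a in 𝓝[>] (0 : ℝ), ∀ i i', i ≠ i' →
      nearR p k0 (k1 p k0 u a) + 2 < fd (meshIndex a (z i)) (meshIndex a (z i')) := by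
  obtain ⟨c, hc, h⟩ := sep_ev hz
  refine ⟨c, hc, fun p k0 u hu hpu => ?_⟩
  filter_upwards [h, ev_div (M := (2 : ℝ) ^ (p * k0)) hu, ev_div (M := 3) hc,
    self_mem_nhdsWithin] with a h1 h2 h3 ha i i' hii
  have ha : 0 < a := ha
  have h4 := h1 i i' hii
  have h5 := rr_le_k1 (p := p) (k0 := k0) h2 (le_refl (k1 p k0 u a))
  have h6 : (nearR p k0 (k1 p k0 u a) : ℝ) ≤ 2 ^ p * (u / a) / 8 := by
    unfold nearR
    refine Nat.cast_div_le.trans ?_
    rw [rr_succ]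
    push_cast
    have : (0 : ℝ) ≤ 2 ^ p := by positivity
    have := mul_le_mul_of_nonneg_left h5 this
    linarith
  have h7 : 2 ^ p * (u / a) ≤ c / a := by
    rw [← mul_div_assoc]
    exact div_le_div_of_nonneg_right hpu ha.le
  have h8 : ((nearR p k0 (k1 p k0 u a) + 2 : ℕ) : ℝ) <
      (fd (meshIndex a (z i)) (meshIndex a (z i')) : ℝ) := by
    push_cast
    linarith
  exact_mod_cast h8

/-! ### the source extraction up to `K₁` -/

/-- the extraction of the source terms for the steps `< K₁`, none afterwards -/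
def e2D {m : ℕ} (w : BW ℤ) (mk : Finset (ℤ × ℤ)) (l k0 : ℕ) (e : Fin m → EG ℤ)
    (he : ∀ i, w (e i).1 (e i).2 ≠ 0) (K₁ n : ℕ) : Extr (ℤ × ℤ) (VS (Fld ℤ) m) :=
  if n < K₁ then srcX w mk l k0 e he n else Extr.none _ _

theorem e2D_lt {m : ℕ} {w : BW ℤ} {mk : Finset (ℤ × ℤ)} {l k0 : ℕ} {e : Fin m → EG ℤ}
    {he : ∀ i, w (e i).1 (e i).2 ≠ 0} {K₁ n : ℕ} (h : n < K₁) :
    e2D w mk l k0 e he K₁ n = srcX w mk l k0 e he n := if_pos h

theorem e2D_ge {m : ℕ} {w : BW ℤ} {mk : Finset (ℤ × ℤ)} {l k0 : ℕ} {e : Fin m → EG ℤ}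
    {he : ∀ i, w (e i).1 (e i).2 ≠ 0} {K₁ n : ℕ} (h : K₁ ≤ n) :
    e2D w mk l k0 e he K₁ n = Extr.none _ _ := if_neg (not_lt.2 h)

/-- **`Sys.OK`** of the flow with bond sources -/
theorem flS_OK {m : ℕ} (B : Bg ℤ) (P : MPar) {M K : ℕ} (D : FRD 16 M K) (hK : 16 ≤ K)
    (mk : Finset (ℤ × ℤ)) {l k0 : ℕ} (h5 : 5 ≤ l * (k0 + 1)) (e : Fin m → EG ℤ)
    (he : ∀ i, B.w (e i).1 (e i).2 ≠ 0) (K₁ : ℕ) :
    (B.flowS P D mk e (e2D B.w mk l k0 e he K₁) l k0).OK (GSysx387.srcW (Fld ℤ) m) := by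
  refine GSysOKx439.sysS_OK D hK B.w mk h5 _ (fun n U T hT a ha => ?_)
    (fun U => JVolx950.K0_fldUS B P e l k0 U)
  by_cases hn : n < K₁
  · rw [e2D_lt hn]
    exact SrcSysx991.srcE_X_mem (rr l k0 n) (srcD B.w e he) (dpS B.w mk l k0 e n)
      (fun i => beB_mem B.w (e i)) U T a
  · rw [e2D_ge (not_lt.1 hn)] at hT
    exact absurd hT (by simp [Extr.none])

/-! ### the disc -/

/-- **everything the disc must satisfy**, except `FinE`; `K₁` = the last fine step -/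
structure DiscEv (p k0 R : ℕ) (a B : ℝ) {n m : ℕ} (x : Fin n → ℂ) (y : Fin m → ℂ)
    (j : Fin m → Fin 2) (K₁ : ℕ) : Prop where
  ok : SrcOK (Metric.ball (0 : ℂ) B) a .plus x y j
  apos : 0 < a
  aB : a ≤ B
  mem : ∀ i, meshIndex a (y i) ∈ domainSites (Metric.ball (0 : ℂ) B) a
  sep : ∀ i i', i ≠ i' → nearR p k0 K₁ + 2 < fd (eb a y j i).1 (eb a y j i').1

theorem faE_fd (e : EG ℤ) {f : ℤ × ℤ} (hf : f ∈ faE e) : |f.1 - e.1.1| ≤ 1 ∧ |f.2 - e.1.2| ≤ 1 := by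
  obtain ⟨⟨q, r⟩, i⟩ := e
  fin_cases i
  · simp only [faE, pe, qe, Finset.mem_insert, Finset.mem_singleton] at hf
    rcases hf with rfl | rfl <;> simp
  · simp only [faE, pe, qe, Finset.mem_insert, Finset.mem_singleton] at hf
    rcases hf with rfl | rfl <;> simp

/-- **the disc is in order**, eventually (`a → 0` after `B → ∞`) -/
theorem disc_ev {n m : ℕ} (x : Fin n → ℂ) {y : Fin m → ℂ} (j : Fin m → Fin 2)
    (hy : Function.Injective y) : ∃ c : ℝ, 0 < c ∧ ∀ (p k0 R : ℕ) (u : ℝ), 0 < u → 2 ^ p * u ≤ c →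
      ∀ᶠ P : ℝ × ℝ in dl, DiscEv p k0 R P.1 P.2 x y j (k1 p k0 u P.1) := by
  obtain ⟨c, hc, h⟩ := sep_k1 hy
  refine ⟨c, hc, fun p k0 R u hu hpu => ?_⟩
  rw [dl, eventually_curry_iff]
  filter_upwards [srcOK_disc x y j hy, h p k0 u hu hpu, self_mem_nhdsWithin] with a h1 h2 ha
  have ha : 0 < a := ha
  have hm : ∀ i, ∀ᶠ B : ℝ in atTop, meshIndex a (y i) ∈ domainSites (Metric.ball (0 : ℂ) B) a := by
    intro i
    filter_upwards [eventually_gt_atTop ‖meshPoint a (meshIndex a (y i))‖] with B hB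
    show meshPoint a (meshIndex a (y i)) ∈ Metric.ball 0 B
    rwa [mem_ball_zero_iff]
  filter_upwards [h1, eventually_ge_atTop a, eventually_all.2 hm] with B h3 h4 h5
  exact ⟨h3, ha, h4, h5, h2⟩

section disc

variable {p k0 R : ℕ} {a B : ℝ} {n m : ℕ} {x : Fin n → ℂ} {y : Fin m → ℂ} {j : Fin m → Fin 2}
  {K₁ : ℕ}

/-- the covariance package of the disc -/
theorem DiscEv.pkg (h : DiscEv p k0 R a B x y j K₁) :
    Pkg (wD (isF .plus) (Metric.ball (0 : ℂ) B) a (xb a x)) (cPl * a / B) :=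
  pkg_disc h.apos h.aB (xb a x)

/-- the background of the disc -/
abbrev discBg (h : DiscEv p k0 R a B x y j K₁) : Bg ℤ := Bg.dom h.ok.fin.toFinset .plus (xb a x)

theorem DiscEv.w_eq (h : DiscEv p k0 R a B x y j K₁) :
    (discBg h).w = wD (isF .plus) (Metric.ball (0 : ℂ) B) a (xb a x) :=
  dom_w h.ok.fin .plus (xb a x)

/-- the weights of the source bonds do not vanish -/
theorem DiscEv.ne (h : DiscEv p k0 R a B x y j K₁) (i : Fin m) :
    (discBg h).w (eb a y j i).1 (eb a y j i).2 ≠ 0 := by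
  classical
  have h1 : (eb a y j i).1 ∈ ((h.ok.fin.toFinset : Finset (ℤ × ℤ)) : Set (ℤ × ℤ)) := by
    rw [h.ok.fin.coe_toFinset]; exact h.mem i
  show wX (wDom ((h.ok.fin.toFinset : Finset (ℤ × ℤ)) : Set (ℤ × ℤ)) false) (xb a x) _ _ ≠ 0
  have h2 : Latx683.ray (xb a x) (eb a y j i).1 (eb a y j i).2 ≠ 0 := by
    rw [Covx359.ray_eq]
    intro h0
    have := Covx359.abs_cut (xb a x) (eb a y j i)
    rw [h0, abs_zero] at this
    exact zero_ne_one this
  unfold wX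
  refine mul_ne_zero h2 ?_
  unfold wDom
  simp only [Bool.false_eq_true, if_false]
  rw [if_pos (Or.inl h1)]
  exact Covx359.xc_pos.ne'

theorem DiscEv.sub_bx (h : DiscEv p k0 R a B x y j K₁) :
    h.ok.fin.toFinset ⊆ bx ⌈B / a⌉₊ := by
  intro z hz
  have h0 : z ∈ domainSites (Metric.ball (0 : ℂ) B) a := h.ok.fin.mem_toFinset.1 hz
  obtain ⟨h1, h2⟩ := GapFinx40.sites_le (B := B)
    (fun z hz => by rw [mem_ball_zero_iff] at hz; exact hz.le) h.apos z h0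
  simp only [Int.cast_zero, sub_zero] at h1 h2
  rw [mem_bx]
  have h3 : B / a ≤ (⌈B / a⌉₊ : ℝ) := Nat.le_ceil _
  constructor
  · have : |(z.1 : ℝ)| ≤ (⌈B / a⌉₊ : ℝ) := h1.trans h3
    exact_mod_cast this
  · have : |(z.2 : ℝ)| ≤ (⌈B / a⌉₊ : ℝ) := h2.trans h3
    exact_mod_cast this

theorem DiscEv.sub (h : DiscEv p k0 R a B x y j K₁) (R' : ℕ) (i : Fin m) :
    faE (eb a y j i) ⊆ Lam B R' a := by
  intro f hf
  have h1 := faE_fd _ hf
  have h2 := mem_bx.1 (h.sub_bx (h.ok.fin.mem_toFinset.2 (h.mem i)))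
  unfold Lam
  rw [mem_bx]
  have e1 : (eb a y j i).1 = meshIndex a (y i) := rfl
  rw [e1] at h1
  simp only [abs_le] at h1 h2 ⊢
  push_cast
  omega

/-- **the volume** (900's `Lam`) is admissible -/
theorem DiscEv.vol (h : DiscEv p k0 R a B x y j K₁) (R' : ℕ) :
    JVolx950.Vol h.ok.fin.toFinset .plus R' (fun k => faE (eb a y j k)) (Lam B R' a) := by
  have v := SRdomAx900.vol_bx (b := .plus) (R := R') h.sub_bx (le_refl (⌈B / a⌉₊ + R' + 2))
    (κ := Fin 0) (fun _ => ∅) (fun _ => rfl)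
  exact ⟨v.W, v.nb, v.BB, fun k => h.sub R' k⟩

/-- the flow of the disc with bond sources; source extraction for the steps `< K₁` only -/
abbrev flDisc (h : DiscEv p k0 R a B x y j K₁) (P : MPar) :
    Sys (ℤ × ℤ) (VS (Fld ℤ) m) :=
  (discBg h).flowS P DD ∅ (eb a y j) (e2D (discBg h).w ∅ p k0 (eb a y j) h.ne K₁) p k0

/-- the last covariance of the disc after `N` steps -/
abbrev sfDisc (h : DiscEv p k0 R a B x y j K₁) (N : ℕ) : Cov (Fld ℤ) := sfL h.pkg DD p k0 N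

/-- **`RunPack` in large discs from `FinE`** -/
theorem DiscEv.runPack (h : DiscEv p k0 R a B x y j K₁) (h5 : 5 ≤ p * (k0 + 1)) {J lam : ℝ}
    {V : Finset (ℤ × ℤ) → ℝ} {β z : ℝ} (hJ : J ≠ 0) (hV : VHyp R V) (hz : 0 < 1 + z) (N : ℕ)
    (Ze : ℝ) (ebv : Fin m → ℝ) {g : Fld ℤ → ℝ≥0∞} {v : Fin m → ℝ} {e M' A κ : ℝ}
    (hF : FinE (near p k0 (K₁ + N)) (Lam B (max R 1) a)
      ((flDisc h (mpar J lam R V β z)).K (K₁ + N))
      ((flL (flDisc h (mpar J lam R V β z)) K₁ (discBg h).w (eb a y j) Ze).K N)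
      (∑ i, (1 - ebv i) • tau i +
        (flDisc h (mpar J lam R V β z)).E (Lam B (max R 1) a) (K₁ + N))
      (∑ i, (Ze * c0B DD (discBg h).w p k0 K₁ (eb a y j i)) • tau i +
        (flL (flDisc h (mpar J lam R V β z)) K₁ (discBg h).w (eb a y j) Ze).E
          (Lam B (max R 1) a) N)
      (sfDisc h (K₁ + N)) g v e M')
    (hk : ∀ i, κ ≤ a * (A ^ 2 * v i ^ 2)) :
    RunPack m (domMom (Metric.ball 0 B) a .plus J lam R V β x y j ebv /
        spm (Metric.ball 0 B) a .plus J lam R V β x)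
      (Ze ^ m * (D0c (Metric.ball 0 B) a .plus x y j / spm0 (Metric.ball 0 B) a .plus x))
      a A e M' κ := by
  have hsep := sep_of h.sep
  have key : ∀ w' : BW ℤ, w' = wD (isF .plus) (Metric.ball (0 : ℂ) B) a (xb a x) →
      FinE (near p k0 (K₁ + N)) (Lam B (max R 1) a)
        ((flDisc h (mpar J lam R V β z)).K (K₁ + N))
        ((flL (flDisc h (mpar J lam R V β z)) K₁ w' (eb a y j) Ze).K N)
        (∑ i, (1 - ebv i) • tau i +
          (flDisc h (mpar J lam R V β z)).E (Lam B (max R 1) a) (K₁ + N))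
        (∑ i, (Ze * c0B DD w' p k0 K₁ (eb a y j i)) • tau i +
          (flL (flDisc h (mpar J lam R V β z)) K₁ w' (eb a y j) Ze).E
            (Lam B (max R 1) a) N)
        (sfDisc h (K₁ + N)) g v e M' →
      FinE (near p k0 (K₁ + N)) (Lam B (max R 1) a)
        ((flDisc h (mpar J lam R V β z)).K (K₁ + N))
        ((flL (flDisc h (mpar J lam R V β z)) K₁
          (wD (isF .plus) (Metric.ball (0 : ℂ) B) a (xb a x)) (eb a y j) Ze).K N)
        (∑ i, (1 - ebv i) • tau i +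
          (flDisc h (mpar J lam R V β z)).E (Lam B (max R 1) a) (K₁ + N))
        (∑ i, (Ze * c0B DD (wD (isF .plus) (Metric.ball (0 : ℂ) B) a (xb a x)) p k0 K₁
            (eb a y j i)) • tau i +
          (flL (flDisc h (mpar J lam R V β z)) K₁
            (wD (isF .plus) (Metric.ball (0 : ℂ) B) a (xb a x)) (eb a y j) Ze).E
            (Lam B (max R 1) a) N)
        (sfDisc h (K₁ + N)) g v e M' := by
    rintro _ rfl h'
    exact h'
  exact runPack_ofW h.ok hJ hV.trans hV.range hV.even hz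
    (SrcDomx697.volS_of_vol (h.vol (max R 1))) DD (by norm_num) ∅ h5 K₁ N
    (e2D (discBg h).w ∅ p k0 (eb a y j) h.ne K₁)
    (flS_OK (discBg h) (mpar J lam R V β z) DD (by norm_num) ∅ h5 (eb a y j) h.ne K₁)
    (sfDisc h (K₁ + N)) (sfL_eq h.pkg DD p k0 (K₁ + N))
    (fun U hU => (h.vol (max R 1)).supp (LinearMap.inl ℝ (Fld ℤ) (Src m)) U hU) hsep.1 hsep.2
    Ze ebv (key _ h.w_eq hF) hk

/-- the Gram weight of the last covariance of the disc after `N` steps -/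
abbrev grDisc (h : DiscEv p k0 R a B x y j K₁) (N : ℕ) : Fld ℤ → ℝ≥0∞ :=
  FRDRestx439.gr DD (wD (isF .plus) (Metric.ball (0 : ℂ) B) a (xb a x)) (cPl * a / B)
    (lo p k0 N)

/-- **Gram bound** of the last covariance -/
theorem DiscEv.gram (h : DiscEv p k0 R a B x y j K₁) (N : ℕ) :
    PNormx417.Gram (sfDisc h N) (grDisc h N) := sfL_gram h.pkg DD p k0 N

/-- the Gram weight is below the weight of every polymer at the scale `rr N ≥ κ B / a`, for
amplitudes `≥ 7 √(C / (cPl κ))` -/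
theorem DiscEv.gr_le (h : DiscEv p k0 R a B x y j K₁) {N : ℕ} (hN : 1 ≤ N) {κ : ℝ} (hκ : 0 < κ)
    (hr : κ * (B / a) ≤ (rr p k0 N : ℝ)) {A : ℝ} (hA : 0 < A)
    (hA' : 7 * √(DD.C / (cPl * κ)) ≤ A) (U : Finset (ℤ × ℤ)) (l : Fld ℤ) :
    grDisc h N l ≤
      wU (wD (isF .plus) (Metric.ball (0 : ℂ) B) a (xb a x)) A (rr p k0 N) U l := by
  have hB : 0 < B := h.apos.trans_le h.aB
  have ha := h.apos
  have hc := cPl_pos
  have hlo : lo p k0 N = p * (k0 + N) := by unfold lo; rw [if_neg (by omega)]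
  refine Fin0x315.gr_le_wU DD (by unfold MM; norm_num) _ h.pkg.mpos h.pkg.gap0 (lo p k0 N)
    (rr p k0 N) (rr_pos p k0 N) (by rw [hlo]; exact le_refl _) hA (le_trans ?_ hA') U l
  refine mul_le_mul_of_nonneg_left (Real.sqrt_le_sqrt ?_) (by norm_num)
  refine div_le_div_of_nonneg_left DD.C_pos.le (by positivity) ?_
  calc cPl * κ = cPl * a / B * (κ * (B / a)) := by field_simp
    _ ≤ cPl * a / B * (rr p k0 N : ℝ) := mul_le_mul_of_nonneg_left hr (by positivity)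

end disc

end Crest.Agent.R165.EnWx359
end
end

-- ▼ part R165/SrcDisc_610
section

/-!
# Row 165 (S0250), leaf P11 item 8 (sources in large discs), linear factors (helper610)

At the scales `k ≥ K(a)` nothing is extracted from the source dependent activities, the source
weights `v` are frozen, and all the legs decay (no branch point is isolated).

* `TLin` : the bounds of one step, per polymer, without sources: `lin` for the constant-free part
  of the convolution (factor `q`), `any` for the convolution (factor `qT`)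
* `TLin.src`, `TLin.src_any` : the same for all elements of `GS` in the norms `pG (wS (wU ..) v)`;
  the linear map is `linR S mu b ∅` of helper336 (convolution minus the part without fields)
* `TLin.tot`, `TLin.tot_any`, `TLin.tot_vac` : total sums (`Tin`, `Tout` of helper54)
* `tlin_of_legs` : all the legs decay by `p`
* `tlin_of_geo` : a composite background without branch points (`Geo` of helper893)
* `tlin_crude` : every background, crude step (amplitude drop, helper386)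
* `BigT`, `ev_bigT` : numbers
-/

set_option autoImplicit false
set_option linter.unusedSectionVars false

noncomputable section

open scoped ENNReal
open Crest.Agent.R165.Gr0x606 Crest.Agent.R165.Gr1x606 Crest.Agent.R165.GeOpsx337
  Crest.Agent.R165.ExpGx337 Crest.Agent.R165.PNormx417 Crest.Agent.R165.SrcDefx991
  Crest.Agent.R165.Latx683 Crest.Agent.R165.GDefx387 Crest.Agent.R165.GLinx336
  Crest.Agent.R165.SrcLinx336 Crest.Agent.R165.SrcStepx54 Crest.Agent.R165.Packx915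
  Crest.Agent.R165.Bridgex915

namespace Crest.Agent.R165.SrcDiscx610

variable {G : Type} [CommRing G] [CN G]

/-! ### the bounds of one step -/

/-- **per-polymer bounds of a step at which nothing is extracted** from the family under
consideration: `lin` = constant-free part of the convolution, `any` = the convolution -/
structure TLin (w : BW G) (a a' : ℝ) (r r' : ℕ) (Γ Γ' : ℝ≥0∞) (S : Cov (Fld G))
    (ac : Finset (G × G) → Prop) (q qT : ℝ≥0∞) : Prop where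
  ne : ∀ U, ac U → U.Nonempty
  lin : ∀ U, ac U → ∀ K : Ge (Fld G), Γ' ^ size r' U * pG (GDefx387.wU w a' r' U) (nl (cvG S K)) ≤
    q * (Γ ^ size r U * pG (GDefx387.wU w a r U) K)
  any : ∀ U, ac U → ∀ K : Ge (Fld G), Γ' ^ size r' U * pG (GDefx387.wU w a' r' U) (cvG S K) ≤
    qT * (Γ ^ size r U * pG (GDefx387.wU w a r U) K)

variable [GoodG G] {w : BW G} {a a' : ℝ} {r r' : ℕ} {Γ Γ' : ℝ≥0∞} {S : Cov (Fld G)}
  {ac : Finset (G × G) → Prop} {q qT : ℝ≥0∞} {m : ℕ} {v v' : Fin m → ℝ≥0∞}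
  {mu : Fin m → Ge (Fld G) →ₗ[ℝ] ℝ} {b : Fin m → Ge (Fld G)}

theorem TLin.mono {ac' : Finset (G × G) → Prop} {q' qT' : ℝ≥0∞}
    (h : TLin w a a' r r' Γ Γ' S ac q qT) (hac : ∀ U, ac' U → ac U) (hq : q ≤ q') (hT : qT ≤ qT') :
    TLin w a a' r r' Γ Γ' S ac' q' qT' where
  ne U hU := h.ne U (hac U hU)
  lin U hU K := (h.lin U (hac U hU) K).trans (mul_le_mul' hq le_rfl)
  any U hU K := (h.any U (hac U hU) K).trans (mul_le_mul' hT le_rfl)

/-- with sources, convolution minus the part without fields -/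
theorem TLin.src (h : TLin w a a' r r' Γ Γ' S ac q qT) (hv' : ∀ i, v' i ≠ ∞)
    (hv0' : ∀ i, v' i ≠ 0) (hv : ∀ i, v' i ≤ v i) {U : Finset (G × G)} (hU : ac U)
    {K : Ge (VS (Fld G) m)} (hK : K ∈ GS (Fld G) m) :
    Γ' ^ size r' U * pG (wS (GDefx387.wU w a' r' U) v') (linR S mu b ∅ K) ≤
      q * (Γ ^ size r U * pG (wS (GDefx387.wU w a r U) v) K) := by
  have h3 := pG_GS_le (w := GDefx387.wU w a' r' U) (v := v') (wU_zero w a' r' (h.ne U hU)) hv' hv0'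
    (linR_mem (S := S) (mu := mu) (b := b) (J := ∅) hK)
  refine (mul_le_mul' le_rfl h3).trans ?_
  refine le_trans ?_ (mul_le_mul' le_rfl (mul_le_mul' le_rfl
    (sum_coP_le (GDefx387.wU w a r U) v K)))
  rw [Finset.mul_sum, Finset.mul_sum, Finset.mul_sum]
  refine Finset.sum_le_sum fun I _ => ?_
  rw [coP_linR_other hK (fun i hi => absurd hi (Finset.notMem_empty i))]
  calc Γ' ^ size r' U * ((∏ i ∈ I, v' i ^ 2) *
        pG (GDefx387.wU w a' r' U) (nl (cvG S (coP I K))))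
      = (∏ i ∈ I, v' i ^ 2) * (Γ' ^ size r' U *
        pG (GDefx387.wU w a' r' U) (nl (cvG S (coP I K)))) := by ring
    _ ≤ (∏ i ∈ I, v i ^ 2) * (q * (Γ ^ size r U * pG (GDefx387.wU w a r U) (coP I K))) :=
        mul_le_mul' (Finset.prod_le_prod' fun i _ => pow_le_pow_left' (hv i) 2)
          (h.lin U hU (coP I K))
    _ = _ := by ring

/-- with sources, the convolution -/
theorem TLin.src_any (h : TLin w a a' r r' Γ Γ' S ac q qT) (hv' : ∀ i, v' i ≠ ∞)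
    (hv0' : ∀ i, v' i ≠ 0) (hv : ∀ i, v' i ≤ v i) {U : Finset (G × G)} (hU : ac U)
    {K : Ge (VS (Fld G) m)} (hK : K ∈ GS (Fld G) m) :
    Γ' ^ size r' U * pG (wS (GDefx387.wU w a' r' U) v') (cvG (ext0 m S) K) ≤
      qT * (Γ ^ size r U * pG (wS (GDefx387.wU w a r U) v) K) := by
  have h3 := pG_GS_le (w := GDefx387.wU w a' r' U) (v := v') (wU_zero w a' r' (h.ne U hU)) hv' hv0'
    (GS_cvG S hK)
  refine (mul_le_mul' le_rfl h3).trans ?_
  refine le_trans ?_ (mul_le_mul' le_rfl (mul_le_mul' le_rfl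
    (sum_coP_le (GDefx387.wU w a r U) v K)))
  rw [Finset.mul_sum, Finset.mul_sum, Finset.mul_sum]
  refine Finset.sum_le_sum fun I _ => ?_
  rw [SrcDefx991.coP_cvG S hK]
  calc Γ' ^ size r' U * ((∏ i ∈ I, v' i ^ 2) *
        pG (GDefx387.wU w a' r' U) (cvG S (coP I K)))
      = (∏ i ∈ I, v' i ^ 2) * (Γ' ^ size r' U *
        pG (GDefx387.wU w a' r' U) (cvG S (coP I K))) := by ring
    _ ≤ (∏ i ∈ I, v i ^ 2) * (qT * (Γ ^ size r U * pG (GDefx387.wU w a r U) (coP I K))) :=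
        mul_le_mul' (Finset.prod_le_prod' fun i _ => pow_le_pow_left' (hv i) 2)
          (h.any U hU (coP I K))
    _ = _ := by ring

theorem linR_empty (S : Cov (Fld G)) (mu : Fin m → Ge (Fld G) →ₗ[ℝ] ℝ) (b : Fin m → Ge (Fld G))
    (K : Ge (VS (Fld G) m)) :
    linR S mu b ∅ K = cvG (ext0 m S) K - vacH (cvG (ext0 m S) K) := by
  rw [linR, Finset.sum_empty, sub_zero]

/-- the part without fields is not larger than the whole -/
theorem pG_vacH_le {V : Type*} [AddCommGroup V] [Module ℝ V] {w : V → ℝ≥0∞} (v : Fin m → ℝ≥0∞)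
    (hw : w 0 = 0) (K : Ge (VS V m)) : pG (wS w v) (vacH K) ≤ pG (wS w v) K := by
  rw [pG_def, vacH, coe_mpG]
  refine pnorm_mp_le _ (fun x => ?_) _
  simp [wS, hw]

/-- with sources, the part without fields (the energies) -/
theorem TLin.src_vac (h : TLin w a a' r r' Γ Γ' S ac q qT) (hv' : ∀ i, v' i ≠ ∞)
    (hv0' : ∀ i, v' i ≠ 0) (hv : ∀ i, v' i ≤ v i) {U : Finset (G × G)} (hU : ac U)
    {K : Ge (VS (Fld G) m)} (hK : K ∈ GS (Fld G) m) :
    Γ' ^ size r' U * pG (wS (GDefx387.wU w a' r' U) v') (vacH (cvG (ext0 m S) K)) ≤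
      qT * (Γ ^ size r U * pG (wS (GDefx387.wU w a r U) v) K) :=
  (mul_le_mul' le_rfl (pG_vacH_le v' (wU_zero w a' r' (h.ne U hU)) _)).trans
    (h.src_any hv' hv0' hv hU hK)

/-! ### total sums -/

section total

variable [DecidableEq G]


variable {K : Finset (G × G) → Ge (VS (Fld G) m)}




end total

/-! ### all the legs decay -/

section legs

variable [DecidableEq G] {g : Fld G → ℝ≥0∞} {Rc : ℕ} {p c : ℝ≥0∞}

/-- **all the legs decay by `p`**: small polymers gain `(2 p)²`, large polymers `c² / Γ` -/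
theorem tlin_of_legs (hg : Gram S g) (hrr : r ≤ r') (hRc : 4 * Rc + 3 * r + 2 ≤ r')
    (hne : ∀ U, ac U → U.Nonempty) (hcon : ∀ U, ac U → Packx915.Conn fd Rc U)
    (hW0 : ∀ U, ac U → GLinx336.W0 w g a' r' 1 U) (hp0 : p ≠ 0) (hp1 : (1 + 1) * p ≤ 1)
    (hp : ∀ U, ac U → ∀ x ∈ U, GDefx387.WLe w a a' r r' x x LinearMap.id p)
    (hΓt : Γ ≠ ∞) (hc : 1 ≤ c) (hΓ : c ^ 2 ≤ Γ) :
    TLin w a a' r r' Γ (c * Γ) S ac (max (c * ((1 + 1) * p) ^ 2) (c ^ 2 * Γ⁻¹)) c := by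
  have hΓ1 : 1 ≤ Γ := (one_le_pow₀ hc).trans hΓ
  have hΓ0 : Γ ≠ 0 := fun h => by rw [h] at hΓ1; exact absurd hΓ1 (by simp)
  -- the factor of the convolution
  have hany : ∀ U, ac U → ∀ K : Ge (Fld G),
      pG (GDefx387.wU w a' r' U) (cvG S K) ≤ pG (GDefx387.wU w a r U) K := fun U hU K =>
    any_small hg (hW0 U hU) one_ne_zero hp0 hp1 (fun x hx => ⟨x, hx, hp U hU x hx⟩) _
  have hlarge : ∀ U, ac U → 2 ≤ size r U → ∀ (x x' : ℝ≥0∞), x' ≤ x →
      (c * Γ) ^ size r' U * x' ≤ (c ^ 2 * Γ⁻¹) * (Γ ^ size r U * x) := by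
    intro U hU h2 x x' hx
    rw [Bridgex915.size_eq_pack] at h2 ⊢
    rw [Bridgex915.size_eq_pack]
    have := RegIx893.large_room (t := 1) (c := c) (A := x) (A' := x') Bridgex915.pd_fd (hcon U hU)
      hRc h2 le_rfl hc hΓt (by rw [mul_one]; exact hΓ) (b := 0) (Nat.zero_le _)
      (by rw [pow_zero, one_mul]; exact hx)
    rwa [mul_one] at this
  have hsmall : ∀ U, ac U → size r U ≤ 1 → (c * Γ) ^ size r' U ≤ c * Γ ^ size r U := by
    intro U hU h1
    have h3 : size r' U ≤ size r U := by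
      rw [Bridgex915.size_eq_pack, Bridgex915.size_eq_pack]
      exact Packx915.pack_anti hrr
    rw [mul_pow]
    refine mul_le_mul' ?_ (pow_le_pow_right₀ hΓ1 h3)
    calc c ^ size r' U ≤ c ^ 1 := pow_le_pow_right₀ hc (h3.trans h1)
      _ = c := pow_one _
  refine ⟨hne, fun U hU K => ?_, fun U hU K => ?_⟩
  · rcases Nat.lt_or_ge 1 (size r U) with h2 | h1
    · exact (hlarge U hU h2 _ _ ((DefRecx915.pG_nl_le _ _).trans (hany U hU K))).trans
        (mul_le_mul' (le_max_right _ _) le_rfl)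
    · by_cases hfin : pG (GDefx387.wU w a r U) K = ∞
      · have hm : max (c * ((1 + 1) * p) ^ 2) (c ^ 2 * Γ⁻¹) ≠ 0 := by
          refine (lt_of_lt_of_le ?_ (le_max_left _ _)).ne'
          refine ENNReal.mul_pos (lt_of_lt_of_le one_pos hc).ne' (pow_ne_zero _ (mul_ne_zero ?_ hp0))
          norm_num
        rw [hfin, ENNReal.mul_top (pow_ne_zero _ hΓ0), ENNReal.mul_top hm]
        exact le_top
      · have key := cluster_small hg (hW0 U hU) one_ne_zero hp0 hp1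
          (fun x hx => ⟨x, hx, hp U hU x hx⟩) K.2 hfin
        have e : pG (GDefx387.wU w a' r' U) (nl (cvG S K)) ≤
            ((1 + 1) * p) ^ 2 * pG (GDefx387.wU w a r U) K := by
          rw [pG_def, coe_nl]
          exact key
        calc (c * Γ) ^ size r' U * pG (GDefx387.wU w a' r' U) (nl (cvG S K))
            ≤ (c * Γ ^ size r U) * (((1 + 1) * p) ^ 2 * pG (GDefx387.wU w a r U) K) :=
              mul_le_mul' (hsmall U hU h1) e
          _ = (c * ((1 + 1) * p) ^ 2) * (Γ ^ size r U * pG (GDefx387.wU w a r U) K) := by ring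
          _ ≤ _ := mul_le_mul' (le_max_left _ _) le_rfl
  · rcases Nat.lt_or_ge 1 (size r U) with h2 | h1
    · refine (hlarge U hU h2 _ _ (hany U hU K)).trans (mul_le_mul' ?_ le_rfl)
      calc c ^ 2 * Γ⁻¹ ≤ Γ * Γ⁻¹ := mul_le_mul' hΓ le_rfl
        _ ≤ 1 := ENNReal.mul_inv_le_one _
        _ ≤ c := hc
    · calc (c * Γ) ^ size r' U * pG (GDefx387.wU w a' r' U) (cvG S K)
          ≤ (c * Γ ^ size r U) * pG (GDefx387.wU w a r U) K :=
            mul_le_mul' (hsmall U hU h1) (hany U hU K)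
        _ = _ := by ring

/-- **crude step, every background**: the amplitude drops by `2 √(r'/r)` -/
theorem tlin_crude (hg : Gram S g) (ha : 0 < a) (hr : 0 < r) (ha' : 0 ≤ a')
    (hdrop : 2 * (a' * Real.sqrt r') ≤ a * Real.sqrt r) (hRc : 4 * Rc + 3 * r + 2 ≤ r')
    (hne : ∀ U, ac U → U.Nonempty) (hcon : ∀ U, ac U → Packx915.Conn fd Rc U)
    (hW0 : ∀ U, ac U → GLinx336.W0 w g a' r' 1 U) (hc : 1 ≤ c) (hΓ : c ≤ Γ) :
    TLin w a a' r r' Γ (c * Γ) S ac c c := by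
  have hany : ∀ U, ac U → ∀ K : Ge (Fld G),
      (c * Γ) ^ size r' U * pG (GDefx387.wU w a' r' U) (cvG S K) ≤
        c * (Γ ^ size r U * pG (GDefx387.wU w a r U) K) := by
    intro U hU K
    have h1 := NFlowx337.weight_mul (d := (fd : G × G → G × G → ℕ)) Bridgex915.pd_fd (x := c)
      (Γ := Γ) hc hΓ hRc (hcon U hU)
    rw [← Bridgex915.size_eq_pack, ← Bridgex915.size_eq_pack] at h1
    calc (c * Γ) ^ size r' U * pG (GDefx387.wU w a' r' U) (cvG S K)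
        ≤ (c * Γ ^ size r U) * pG (GDefx387.wU w a r U) K :=
          mul_le_mul' h1 (Crudex386.crude_any hg ha hr ha' (by omega) hdrop (hW0 U hU)
            one_ne_zero le_rfl K)
      _ = _ := by ring
  exact ⟨hne, fun U hU K => (mul_le_mul' le_rfl (DefRecx915.pG_nl_le _ _)).trans (hany U hU K),
    hany⟩

end legs

/-! ### composite backgrounds without branch points -/

section geo

variable [DecidableEq G] {ι : Type*} {C : ℝ} {Λ r0 R0 l k0 n : ℕ} {loc : ι → G × G}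
  {B Z Ac : Set (G × G)}

open Crest.Agent.R165.RegGx893 Crest.Agent.R165.RegIx893 Crest.Agent.R165.GSysx387
  Crest.Agent.R165.FRDPolyx439

/-- numbers of the coarse steps: `L` and `Γ` are large -/
structure BigT (C : ℝ) (L : ℕ) (Γ : ℝ≥0∞) : Prop where
  ten : 10 ≤ L
  leg : 8 * K2 C * Real.sqrt (1 / L) ≤ 1
  sq : 24 * (8 * K2 C * Real.sqrt (1 / L)) ^ 2 ≤ 1
  top : Γ ≠ ∞
  gam : 72 ≤ Γ

/-- **every leg decays** on a composite background without branch points -/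
theorem leg_of_geo [IsEmpty ι] (H : Geo w C Λ r0 R0 loc B Z Ac) (hr0 : r0 ≤ r) (h8 : 10 * r ≤ r')
    (hΛ : r' ≤ Λ * r) (hR : 32 * r' ≤ R0) (hr : 0 < r) (ha : 0 < a) (ha' : 0 ≤ a')
    (ha2 : a' ≤ 2 * a) {x : G × G} (hx : x ∈ Ac) :
    GDefx387.WLe w a a' r r' x x LinearMap.id
      (ENNReal.ofReal (4 * K2 C * Real.sqrt ((r : ℝ) / r'))) := by
  have hr' : 0 < r' := by omega
  have h1 := H.far (D := r') hr0 h8 hΛ hR hr ha ha' hx (fun i => isEmptyElim i)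
  refine Wtx898.WLe.mono h1 (ENNReal.ofReal_le_ofReal ?_)
  have hK : 0 ≤ K2 C := by unfold K2; positivity
  have hr1 : (0 : ℝ) < r := by exact_mod_cast hr
  have hr1' : (0 : ℝ) < r' := by exact_mod_cast hr'
  refine ratio_le ha ha2 (by positivity) ?_
  have h2 : Real.sqrt (1 / ((r' : ℕ) + 1 : ℝ)) ≤ Real.sqrt ((r : ℝ) / r') := by
    refine Real.sqrt_le_sqrt ?_
    rw [div_le_div_iff₀ (by positivity) hr1']
    have h3 : (1 : ℝ) ≤ r := by exact_mod_cast hr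
    nlinarith
  calc 2 * (K2 C * (Real.sqrt ((r : ℝ) / r') + Real.sqrt (1 / ((r' : ℕ) + 1 : ℝ))))
      ≤ 2 * (K2 C * (Real.sqrt ((r : ℝ) / r') + Real.sqrt ((r : ℝ) / r'))) := by gcongr
    _ = _ := by ring

/-- **coarse step on a composite background without branch points**: factor `1 / 8` -/
theorem tlin_of_geo [IsEmpty ι] (H : Geo w C Λ r0 R0 loc B Z Ac) {M K : ℕ} (F : FRD 16 M K)
    (hM : MM + 1 ≤ M) (hw : ∀ z j, |w z j| ≤ 1) (hL : BigT C (2 ^ l) Γ) {Rc : ℕ}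
    (hLΛ : 2 ^ l ≤ Λ) (hr0 : r0 ≤ rr l k0 n) (hR : 32 * rr l k0 (n + 1) ≤ R0)
    (ha : 0 < a) (ha2 : a' ≤ 2 * a) (hcW : W0Sx897.cW0 F l k0 n ≤ a')
    (hne : ∀ U, ac U → U.Nonempty) (hact : ∀ U, ac U → ∀ x ∈ U, x ∈ Ac)
    (hcon : ∀ U, ac U → Packx915.Conn fd Rc U)
    (hRc : 4 * Rc + 3 * rr l k0 n + 2 ≤ rr l k0 (n + 1)) :
    TLin w a a' (rr l k0 n) (rr l k0 (n + 1)) Γ (3 * Γ) (slC F w l k0 n) ac (1 / 8) 3 := by
  have hr : 0 < rr l k0 n := rr_pos l k0 n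
  have hr1 : (0 : ℝ) < rr l k0 n := by exact_mod_cast hr
  have hcp : 0 < W0Sx897.cW0 F l k0 n := W0Sx897.cW0_pos F l k0 n
  have ha' : 0 < a' := lt_of_lt_of_le hcp hcW
  have hC := H.one_le
  have hK : 0 < K2 C := by unfold K2; positivity
  have hrat : ((rr l k0 n : ℕ) : ℝ) / (rr l k0 (n + 1) : ℕ) = 1 / ((2 ^ l : ℕ) : ℝ) := by
    rw [rr_succ]; exact ratio_L hr
  set s : ℝ := Real.sqrt (1 / ((2 ^ l : ℕ) : ℝ)) with hs
  have hs0 : 0 < s := Real.sqrt_pos.2 (by positivity)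
  have hp : ∀ U, ac U → ∀ x ∈ U, GDefx387.WLe w a a' (rr l k0 n) (rr l k0 (n + 1)) x x
      LinearMap.id (ENNReal.ofReal (4 * K2 C * s)) := by
    intro U hU x hx
    have := leg_of_geo (a := a) (a' := a') H hr0
      (by rw [rr_succ]; exact Nat.mul_le_mul_right _ hL.ten)
      (by rw [rr_succ]; exact Nat.mul_le_mul_right _ hLΛ) hR hr ha ha'.le ha2 (hact U hU x hx)
    rwa [hrat] at this
  have h2p : (1 + 1) * ENNReal.ofReal (4 * K2 C * s) = ENNReal.ofReal (8 * K2 C * s) := by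
    rw [show (1 + 1 : ℝ≥0∞) = ENNReal.ofReal 2 by rw [ENNReal.ofReal_ofNat]; norm_num,
      ← ENNReal.ofReal_mul (by norm_num)]
    congr 1
    ring
  have key := tlin_of_legs (w := w) (a := a) (a' := a') (ac := ac) (Γ := Γ) (c := 3)
    (p := ENNReal.ofReal (4 * K2 C * s)) (W0Sx897.gramS F w hw l k0 n)
    (rr_mono l k0 (Nat.le_succ n)) hRc hne hcon (fun U _ => W0Sx897.w0S F hM w hw l k0 n hcW U)
    (by rw [Ne, ENNReal.ofReal_eq_zero, not_le]; positivity)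
    (by rw [h2p, ← ENNReal.ofReal_one]; exact ENNReal.ofReal_le_ofReal hL.leg) hp hL.top
    (by norm_num) (le_trans (by norm_num) hL.gam)
  refine key.mono (fun _ h => h) (max_le ?_ ?_) le_rfl
  · rw [h2p, ← ENNReal.ofReal_pow (by positivity),
      show (3 : ℝ≥0∞) = ENNReal.ofReal 3 by simp, ← ENNReal.ofReal_mul (by norm_num),
      show (1 / 8 : ℝ≥0∞) = ENNReal.ofReal (1 / 8) by
        rw [ENNReal.ofReal_div_of_pos (by norm_num)]; simp]
    refine ENNReal.ofReal_le_ofReal ?_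
    have := hL.sq
    linarith
  · have h1 : (3 : ℝ≥0∞) ^ 2 * Γ⁻¹ ≤ 3 ^ 2 * (72 : ℝ≥0∞)⁻¹ :=
      mul_le_mul' le_rfl (ENNReal.inv_le_inv.2 hL.gam)
    refine h1.trans (le_of_eq ?_)
    rw [show (3 : ℝ≥0∞) ^ 2 = 9 by norm_num, show (72 : ℝ≥0∞) = 9 * 8 by norm_num,
      ENNReal.mul_inv (by norm_num) (by norm_num), ← mul_assoc,
      ENNReal.mul_inv_cancel (by norm_num) (by norm_num), one_mul, one_div]

/-- **crude step** on the slices of `GSys_387`, every background -/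
theorem tlin_crudeS {M K : ℕ} (F : FRD 16 M K) (hM : MM + 1 ≤ M) (hw : ∀ z j, |w z j| ≤ 1)
    {Rc : ℕ} (ha : 0 < a)
    (hdrop : 2 * (a' * Real.sqrt (rr l k0 (n + 1))) ≤ a * Real.sqrt (rr l k0 n))
    (hcW : W0Sx897.cW0 F l k0 n ≤ a')
    (hne : ∀ U, ac U → U.Nonempty) (hcon : ∀ U, ac U → Packx915.Conn fd Rc U)
    (hRc : 4 * Rc + 3 * rr l k0 n + 2 ≤ rr l k0 (n + 1)) (hΓ : 3 ≤ Γ) :
    TLin w a a' (rr l k0 n) (rr l k0 (n + 1)) Γ (3 * Γ) (slC F w l k0 n) ac 3 3 :=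
  tlin_crude (W0Sx897.gramS F w hw l k0 n) ha (rr_pos l k0 n)
    ((W0Sx897.cW0_pos F l k0 n).le.trans hcW) hdrop hRc hne hcon
    (fun U _ => W0Sx897.w0S F hM w hw l k0 n hcW U) (by norm_num) hΓ

open Filter Topology in
/-- the numbers of the coarse steps are available -/
theorem ev_bigT (C : ℝ) : ∀ᶠ L : ℕ in atTop, ∀ Γ : ℝ≥0∞, Γ ≠ ∞ → 72 ≤ Γ → BigT C L Γ := by
  have hs : Tendsto (fun n : ℕ => 8 * K2 C * Real.sqrt (1 / (n : ℝ))) atTop (𝓝 0) := by
    have := ((Real.continuous_sqrt.tendsto 0).comp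
      tendsto_one_div_atTop_nhds_zero_nat).const_mul (8 * K2 C)
    rwa [Real.sqrt_zero, mul_zero] at this
  have h2 := (hs.pow 2).const_mul 24
  rw [zero_pow (by norm_num), mul_zero] at h2
  filter_upwards [hs.eventually (ge_mem_nhds (by norm_num : (0 : ℝ) < 1)),
    h2.eventually (ge_mem_nhds (by norm_num : (0 : ℝ) < 1)), eventually_ge_atTop 10]
    with L h3 h4 h5 Γ ht h72
  exact ⟨h5, h3, h4, ht, h72⟩

end geo

end Crest.Agent.R165.SrcDiscx610
end
end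

-- ▼ part R165/SrcDiscT_610
section

/-!
# Row 165 (S0250), leaf P11 (sources in large discs), T5: the step hypotheses of the tail (helper610)

`a r R` : amplitudes, ranges, connection ranges of the (restarted) tail.

* `acR`, `PcT` : the polymers and the class of the activities of the tail
* `tlin_lin`, `tlin_crd` : the fields `lin`, `crd` of `TailN` from `TLin`
* `tailN_of`, `tailH_gen` : `TailN`, `TailH` for any class of admissible elements (`Adm`)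
* `RunT` : the two runs; `RunT.lead`, `RunT.rest` : their activities are in the class
* `tailH_of` : `TailH` (all steps)
-/

set_option autoImplicit false
set_option linter.unusedSectionVars false

noncomputable section

open scoped ENNReal
open Crest.Agent.R165.Gr0x606 Crest.Agent.R165.Gr1x606 Crest.Agent.R165.GeOpsx337
  Crest.Agent.R165.ExpGx337 Crest.Agent.R165.PNormx417 Crest.Agent.R165.SrcDefx991
  Crest.Agent.R165.Latx683 Crest.Agent.R165.GDefx387 Crest.Agent.R165.KFlowx337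
  Crest.Agent.R165.Quadx897 Crest.Agent.R165.ExpAx337
  Crest.Agent.R165.SrcStepx54 Crest.Agent.R165.Bridgex915 Crest.Agent.R165.SrcDiscx610
open Crest.Agent.R165.SrcTailx441 (TailOf TailN BulkIn NoX PT)
open Crest.Agent.R165.SrcTailAllx441 (TailH)
open Crest.Agent.R165.SrcTailx999 (SLA mem_SLA tail_noS lead_noS tail_SLA tail_conn PT_ne PT_SLA
  PT_noS tail_noS_H)
open Crest.Agent.R165.TailNAx999 (nmS WoS szS nrS tailN_mk)
open Crest.Agent.R165.DefRecx915 (nn3)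

namespace Crest.Agent.R165.SrcDiscTx610

variable {G : Type} [CommRing G] [CN G] [DecidableEq G] {m : ℕ}

/-- polymers of the tail at scale `k` -/
def acR (R : ℕ → ℕ) (k : ℕ) (U : Finset (G × G)) : Prop :=
  U.Nonempty ∧ Packx915.Conn fd (R k) U

/-- the class of the activities: source local, no source free part, connected support -/
def PcT (sf : Fin m → Finset (G × G)) (R : ℕ → ℕ) (k : ℕ) (U : Finset (G × G))
    (X : Ge (VS (Fld G) m)) : Prop :=
  X ∈ SLA sf U ∧ noS X = 0 ∧ (U.Nonempty → X ≠ 0 → Packx915.Conn fd (R k) U)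

section lin

variable [GoodG G] {w : BW G} {a : ℕ → ℝ} {r R : ℕ → ℕ} {k : ℕ} {Γ q qT : ℝ≥0∞}
  {S : Cov (Fld G)} {v : Fin m → ℝ≥0∞} {sf : Fin m → Finset (G × G)}

/-- admissible elements at scale `k` -/
def Adm (R : ℕ → ℕ) (k : ℕ) (U : Finset (G × G)) (X : Ge (VS (Fld G) m)) : Prop :=
  X ∈ GS (Fld G) m ∧ (U.Nonempty → X ≠ 0 → Packx915.Conn fd (R k) U)

/-- field `lin` of `TailN` -/
theorem tlin_lin (h : TLin w (a k) (a (k + 1)) (r k) (r (k + 1)) Γ (3 * Γ) S (acR R k) q qT)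
    (hv : ∀ i, v i ≠ ∞) (hv0 : ∀ i, v i ≠ 0) {U : Finset (G × G)} (hU : U.Nonempty)
    {X : Ge (VS (Fld G) m)} (hX : Adm R k U X) :
    Γ ^ size (r (k + 1)) U * pG (wS (GDefx387.wU w (a (k + 1)) (r (k + 1)) U) v)
      (cvG (ext0 m S) X - vacH (cvG (ext0 m S) X)) ≤
      q * (Γ ^ size (r k) U * pG (wS (GDefx387.wU w (a k) (r k) U) v) X) := by
  by_cases h0 : X = 0
  · rw [h0, map_zero, map_zero, sub_zero, pG_zero, mul_zero]
    exact zero_le
  have h1 := h.src (mu := fun _ => 0) (b := fun _ => 0) hv hv0 (fun i => le_rfl)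
    (U := U) ⟨hU, hX.2 hU h0⟩ hX.1
  rw [linR_empty] at h1
  refine le_trans (mul_le_mul' (pow_le_pow_left' ?_ _) le_rfl) h1
  exact le_mul_of_one_le_left' (by norm_num)

/-- field `crd` of `TailN` -/
theorem tlin_crd (h : TLin w (a k) (a (k + 1)) (r k) (r (k + 1)) Γ (3 * Γ) S (acR R k) q qT)
    (hv : ∀ i, v i ≠ ∞) (hv0 : ∀ i, v i ≠ 0) {U : Finset (G × G)} (hU : U.Nonempty)
    {X : Ge (VS (Fld G) m)} (hX : Adm R k U X) :
    Γ ^ size (r (k + 1)) U * 3 ^ size (r (k + 1)) U *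
      (pG (wS (GDefx387.wU w (a (k + 1)) (r (k + 1)) U) v) (cvG (ext0 m S) X) +
        pG (wS (GDefx387.wU w (a (k + 1)) (r (k + 1)) U) v) (vacH (cvG (ext0 m S) X))) ≤
      (2 * qT) * (Γ ^ size (r k) U * pG (wS (GDefx387.wU w (a k) (r k) U) v) X) := by
  by_cases h0 : X = 0
  · rw [h0, map_zero, map_zero, pG_zero, add_zero, mul_zero]
    exact zero_le
  have hac : acR R k U := ⟨hU, hX.2 hU h0⟩
  have h1 := h.src_any hv hv0 (fun i => le_rfl) hac hX.1
  have h2 := h.src_vac hv hv0 (fun i => le_rfl) hac hX.1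
  have e : Γ ^ size (r (k + 1)) U * 3 ^ size (r (k + 1)) U = (3 * Γ) ^ size (r (k + 1)) U := by
    rw [mul_pow, mul_comm]
  rw [e, mul_add]
  refine (add_le_add h1 h2).trans (le_of_eq ?_)
  ring

/-- **`TailN`** from the linear bounds, any class of admissible elements -/
theorem tailN_of {B : Sys (G × G) (Fld G)} {C : ℝ≥0∞}
    {P : ℕ → Finset (G × G) → Ge (VS (Fld G) m) → Prop}
    (h : TLin w (a k) (a (k + 1)) (r k) (r (k + 1)) Γ (3 * Γ) (B.S k) (acR R k) q qT)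
    (hP : ∀ U X, P k U X → Adm R k U X)
    (hv : ∀ i, v i ≠ ∞) (hv0 : ∀ i, v i ≠ 0) (hΓ : 1 ≤ Γ) (hr : 0 < r (k + 1))
    (hnear : B.near (k + 1) = fun x y => fd x y ≤ R (k + 1))
    (hC : (nn3 (r (k + 1)) (R (k + 1)) : ℝ≥0∞) ≤ C) :
    TailN B (nmS w a r v) (WoS r Γ) (szS r) (nrS r) P C (2 * qT) q k :=
  tailN_mk hΓ hr hnear hC (fun U hU X hX => tlin_lin h hv hv0 hU (hP U X hX))
    fun U hU X hX => tlin_crd h hv hv0 hU (hP U X hX)

/-- **the step hypotheses of the whole tail**, any class of admissible elements -/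
theorem tailH_gen {B : Sys (G × G) (Fld G)} {D DL : Sys (G × G) (VS (Fld G) m)} {N J : ℕ}
    {C : ℝ≥0∞} {P : ℕ → Finset (G × G) → Ge (VS (Fld G) m) → Prop} {q : ℕ → ℝ≥0∞} {b0 : ℝ}
    (hP : ∀ k < N, ∀ U X, P k U X → Adm R k U X)
    (hlead : ∀ k < N, ∀ U, P k U (DL.K k U)) (hrest : ∀ k < N, ∀ U, P k U (PT B D DL k U))
    (hv : ∀ i, v i ≠ ∞) (hv0 : ∀ i, v i ≠ 0) (hΓ : 1 ≤ Γ)
    (hr : ∀ k, 0 < r k) (hC : ∀ k < N, (nn3 (r (k + 1)) (R (k + 1)) : ℝ≥0∞) ≤ C)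
    (hnear : ∀ k < N, B.near (k + 1) = fun x y => fd x y ≤ R (k + 1))
    (lin : ∀ k < N, TLin w (a k) (a (k + 1)) (r k) (r (k + 1)) Γ (3 * Γ) (B.S k) (acR R k)
      (q k) qT)
    (bulk : ∀ k < N, BulkIn (m := m) B (nmS w a r v) (WoS r Γ) (szS r) (nrS r) k
      (ENNReal.ofReal (b0 / 2 ^ k)))
    (crude : ∀ k < N, k < J → q k ≤ 2 * qT) (good : ∀ k < N, J ≤ k → q k ≤ 8⁻¹) :
    TailH B D DL (nmS w a r v) (WoS r Γ) (szS r) (nrS r) P C (2 * qT) q J N b0 where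
  step k hk := tailN_of (lin k hk) (hP k hk) hv hv0 hΓ (hr _) (hnear k hk) (hC k hk)
  lead := hlead
  rest := hrest
  bulk := bulk
  crude := crude
  good := good

end lin

/-! ### the class of the activities -/

section cls

variable {B : Sys (G × G) (Fld G)} {D DL : Sys (G × G) (VS (Fld G) m)} {N : ℕ} {R : ℕ → ℕ}
  {sf : Fin m → Finset (G × G)}

theorem conn_small (R : ℕ) {T : Finset (G × G)} (hT : T.card ≤ 1) : Packx915.Conn fd R T := by
  intro A hA hne hne'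
  exfalso
  apply hne'
  refine Finset.eq_of_subset_of_card_le hA (hT.trans ?_)
  exact Finset.card_pos.2 hne

/-- **the two runs of the tail**: `D` the actual run, `DL` the lead run, `B` the flow without
sources; relative steps `0 ≤ k ≤ N` -/
structure RunT (B : Sys (G × G) (Fld G)) (D DL : Sys (G × G) (VS (Fld G) m))
    (sf : Fin m → Finset (G × G)) (R : ℕ → ℕ) (N : ℕ) : Prop where
  hD : TailOf B D N
  hL : TailOf B DL N
  mono : ∀ k < N, R k ≤ R (k + 1)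
  near : ∀ k < N, B.near (k + 1) = fun a b => fd a b ≤ R (k + 1)
  noS0 : ∀ U, noS (D.K 0 U) = B.K 0 U
  noL0 : ∀ U, noS (DL.K 0 U) = 0
  sla0 : ∀ U, D.K 0 U ∈ SLA sf U
  slaL0 : ∀ U, DL.K 0 U ∈ SLA sf U
  cn0 : ∀ U : Finset (G × G), U.Nonempty → D.K 0 U ≠ 0 → Packx915.Conn fd (R 0) U
  cnL0 : ∀ U : Finset (G × G), U.Nonempty → DL.K 0 U ≠ 0 → Packx915.Conn fd (R 0) U
  cnB : ∀ k < N, ∀ U : Finset (G × G), U.Nonempty → B.K k U ≠ 0 → Packx915.Conn fd (R k) U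
  out : ∀ k < N, ∀ U, ∀ T ∈ (B.e k).out U, T.card ≤ 1

/-- supports of the extracted parts -/
theorem gain_conn {e : Extr (G × G) (Fld G)} {R : ℕ} (ho : ∀ U, ∀ T ∈ e.out U, T.card ≤ 1)
    {H : Finset (G × G) → Ge (Fld G)} (hH : ∀ U : Finset (G × G), U.Nonempty → H U ≠ 0 →
      Packx915.Conn fd R U) {U : Finset (G × G)} (hU : U.Nonempty)
    (h : e.gain H U - e.lost H U ≠ 0) : Packx915.Conn fd R U := by
  by_cases h1 : e.gain H U = 0
  · have h2 : e.lost H U ≠ 0 := fun h2 => h (by rw [h1, h2, sub_zero])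
    rw [Extr.lost] at h2
    obtain ⟨T, -, hT⟩ := Finset.exists_ne_zero_of_sum_ne_zero h2
    exact hH U hU fun h3 => hT (by rw [h3, map_zero])
  · rw [Extr.gain] at h1
    obtain ⟨T, hT, -⟩ := Finset.exists_ne_zero_of_sum_ne_zero h1
    exact conn_small R (ho T U ((e.mem_iff T U).2 hT))


theorem RunT.connL (h : RunT B D DL sf R N) :
    ∀ k ≤ N, ∀ U : Finset (G × G), U.Nonempty → DL.K k U ≠ 0 → Packx915.Conn fd (R k) U := by
  refine tail_conn (B := B) h.hL h.mono (fun k hk => h.near k hk) h.cnL0 ?_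
  intro k hk U hU hne
  have e : (fun U => noS (DL.H k U)) = fun _ => 0 := by
    funext U
    rw [tail_noS_H h.hL hk, lead_noS h.hL h.noL0 k hk.le, map_zero]
  rw [e] at hne
  exact gain_conn (h.out k hk) (fun W _ hne' => absurd rfl hne') hU hne

/-- the lead run is in the class -/
theorem RunT.lead (h : RunT B D DL sf R N) {k : ℕ} (hk : k < N) (U : Finset (G × G)) :
    PcT sf R k U (DL.K k U) :=
  ⟨tail_SLA h.hL h.slaL0 k hk.le U, lead_noS h.hL h.noL0 k hk.le U,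
    fun hU hne => h.connL k hk.le U hU hne⟩



end cls

end Crest.Agent.R165.SrcDiscTx610
end
end

-- ▼ part R165/TailD3_999
section

/-!
# Row 165 (S0250), tail with sources: `RunPack` for large discs at one mesh (helper999)

* `runT_flC` : 610's `RunT` for the frozen flows
* `finM_of_fineAt` : 441's `FinM` for the cut flow from 811's `FineAt`
* `runPack_disc` : **`RunPack` for a large disc** from `DiscEv` (359), `FineAt` (811), `TailH` (610)
-/

set_option autoImplicit false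
set_option linter.unusedSectionVars false
set_option linter.unusedVariables false

noncomputable section

open scoped ENNReal

namespace Crest.Agent.R165.TailDx999

open Crest.ProbabilityR.IsingModel
open Crest.Agent.R165.Gr0x606 Crest.Agent.R165.Gr1x606 Crest.Agent.R165.GeOpsx337
  Crest.Agent.R165.ExpGx337 Crest.Agent.R165.KStepx892 Crest.Agent.R165.KFlowx337
  Crest.Agent.R165.Latx683 Crest.Agent.R165.PNormx417 Crest.Agent.R165.GDefx387
  Crest.Agent.R165.GSysx387 Crest.Agent.R165.FRDPolyx439 Crest.Agent.R165.Bkgx683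
  Crest.Agent.R165.Topx683 Crest.Agent.R165.J4Defx653 Crest.Agent.R165.J4Geox126
  Crest.Agent.R165.W0Sx897 Crest.Agent.R165.ExpAx337
open Crest.Agent.R165.SrcDefx991 (VS Src th th' tau tauP ext0 inG noS vacH vacS coP wS vS GS
  noS_inG noS_tau inG_mem tau_mem)
open Crest.Agent.R165.SrcSysx991
open Crest.Agent.R165.SrcInsx991
open Crest.Agent.R165.SrcFinx441 (lead Bd)
open Crest.Agent.R165.SrcFinBx441 (Nw)
open Crest.Agent.R165.EnWx359
open Crest.Agent.R165.SrcTailx441 (NoX TailOf base0 PT shift shift_K shift_H)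
open Crest.Agent.R165.SrcTailAllx441 (TailH ScalarT3)
open Crest.Agent.R165.SrcTailx999 (SLA)
open Crest.Agent.R165.SrcDomx697 (KF c0D LEAD_LD)
open Crest.Agent.R165.SrcCstx484 (LD co)
open Crest.Agent.R165.SrcMidx441 (FinM finE_mid KF_SLA)
open Crest.Agent.R165.SrcCmpx441 (FinE RunPack)
open Crest.Agent.R165.SrcDiscTx610 (RunT)
open Crest.Agent.R165.EnFinex811 (FineAt)
open Crest.Agent.R165.PEndx683 (Cst)
open Crest.Agent.R165.Outx683 (DD)
open Crest.Agent.R165.SRx541 Crest.Agent.R165.JRunSx408 Crest.Agent.R165.SRdomAx900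
open Crest.Agent.R165.CovPkgx359 Crest.Agent.R165.Centx541 Crest.Agent.R165.Redx541
  Crest.Agent.R165.Symx541 Crest.Agent.R165.Red2x541
open Crest.Agent.R165.TailNAx999

/-! ### the two runs -/

section runT

variable {m : ℕ} (B : Bg ℤ) (P : MPar) {M K : ℕ} (Dd : FRD 16 M K) (mk : Finset (ℤ × ℤ))
  (e : Fin m → Bkgx683.EG ℤ) (he : ∀ i, B.w (e i).1 (e i).2 ≠ 0) (l k0 K₁ : ℕ)


end runT

/-! ### `FinM` from `FineAt` -/

section fin

variable {m : ℕ} {c : Cst} {B : Bg ℤ} {P : MPar} {e : Fin m → Bkgx683.EG ℤ}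
  {he : ∀ i, B.w (e i).1 (e i).2 ≠ 0} {Λ : Finset (ℤ × ℤ)} {K₁ : ℕ} {A v ε M Ze : ℝ}
  {ebv : Fin m → ℝ}

theorem size_faE (l k0 n : ℕ) (e : Bkgx683.EG ℤ) : size (rr l k0 n) (faE e) ≤ 1 := by
  rw [PStepx417.size_le_one_iff]
  intro f hf g hg
  exact (JVolx950.faE_diam e f hf g hg).trans (rr_pos l k0 n)

/-- **441's `FinM` for the cut flow** -/
theorem finM_of_fineAt (h : FineAt c B P e he Λ K₁ A v ε M Ze ebv) (hΓ : 1 ≤ c.Γ) {a : ℕ → ℝ}
    (ha : a 0 = A) :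
    FinM (flC B P DD ∅ e he c.p c.k0 K₁) (flow0 B P DD ∅ c.p c.k0) Λ K₁ (fun i => faE (e i))
      (zeP B P DD ∅ e he c.p c.k0 K₁) (fun i => 1 - ebv i)
      (fun i => c0D DD B.w c.p c.k0 K₁ (e i)) (fun i => beB B.w (e i))
      (nmS B.w a (fun n => rr c.p c.k0 (K₁ + n)) (fun _ => ENNReal.ofReal v) 0)
      (WoS (fun n => rr c.p c.k0 (K₁ + n)) (ENNReal.ofReal c.Γ) 0) v ε (c.Γ * M) M Ze where
  v0 := h.v0
  ε0 := h.ε0
  μ0 := mul_nonneg (by linarith) h.M0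
  M0 := h.M0
  vac := rfl
  hGS k U := SrcDefx991.GS_cvG _ (flC_GS B P DD ∅ e he c.p c.k0 K₁ k U)
  act := by
    have e1 : ∀ W, (flC B P DD ∅ e he c.p c.k0 K₁).K K₁ W -
        inG m ((flow0 B P DD ∅ c.p c.k0).K K₁ W) -
        LD (fun i => faE (e i)) (zeP B P DD ∅ e he c.p c.k0 K₁) (fun i => beB B.w (e i)) W =
        ppP B P DD ∅ e he c.p c.k0 K₁ W := by
      intro W
      rw [flC_K B P DD ∅ e he c.p c.k0 K₁ le_rfl, flowP_K, LEAD_LD]
      show inG m _ + LD (fun i => faE (e i)) _ (fun i => beB B.w (e i)) W + _ - _ - _ = _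
      abel
    simp only [e1]
    have h1 := h.pp
    rw [← ha] at h1
    exact h1
  hβ i := by
    have hv := h.v0
    have hΓe : (1 : ℝ≥0∞) ≤ ENNReal.ofReal c.Γ := by
      rw [← ENNReal.ofReal_one]; exact ENNReal.ofReal_le_ofReal hΓ
    have h1 : WoS (fun n => rr c.p c.k0 (K₁ + n)) (ENNReal.ofReal c.Γ) 0 (faE (e i)) ≤
        ENNReal.ofReal c.Γ := by
      unfold WoS
      calc ENNReal.ofReal c.Γ ^ size (rr c.p c.k0 (K₁ + 0)) (faE (e i))
          ≤ ENNReal.ofReal c.Γ ^ 1 := pow_le_pow_right₀ hΓe (size_faE _ _ _ _)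
        _ = _ := pow_one _
    have h2 : nmS B.w a (fun n => rr c.p c.k0 (K₁ + n)) (fun _ : Fin m => ENNReal.ofReal v) 0
        (faE (e i)) (tau i * inG m (beB B.w (e i))) ≤ ENNReal.ofReal M := by
      unfold nmS
      have hw0 : wU B.w (a 0) (rr c.p c.k0 (K₁ + 0)) (faE (e i)) 0 = 0 :=
        SrcLinx336.wU_zero B.w (a 0) _ (faE_nonempty (e i))
      refine (SrcInvx336.pG_tau_inG_le hw0 (fun _ => ENNReal.ofReal_ne_top)
        (fun _ => (ENNReal.ofReal_pos.2 hv).ne') i _).trans ?_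
      rw [ha, Nat.add_zero]
      have h3 : pG (wU B.w A (rr c.p c.k0 K₁) (faE (e i))) (beB B.w (e i)) ≤
          ENNReal.ofReal (M / v ^ 2) := h.hβ i
      calc ENNReal.ofReal v ^ 2 * pG (wU B.w A (rr c.p c.k0 K₁) (faE (e i))) (beB B.w (e i))
          ≤ ENNReal.ofReal (v ^ 2) * ENNReal.ofReal (M / v ^ 2) := by
            rw [ENNReal.ofReal_pow hv.le]
            exact mul_le_mul_right h3 _
        _ = ENNReal.ofReal M := by
            rw [← ENNReal.ofReal_mul (by positivity)]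
            congr 1
            field_simp
    calc _ ≤ ENNReal.ofReal c.Γ * ENNReal.ofReal M := mul_le_mul' h1 h2
      _ = _ := (ENNReal.ofReal_mul (by linarith)).symm
  hζ := h.ze
  hZe := h.hZe
  cst i := by rw [flC_E]; exact h.cst i
  high I hI := by rw [flC_E]; exact h.high I hI
  hc0 := h.hc0

end fin

/-! ### `RunPack` for a large disc -/

section disc

variable {c : Cst} {R : ℕ} {a B : ℝ} {n m : ℕ} {x : Fin n → ℂ} {y : Fin m → ℂ} {j : Fin m → Fin 2}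
  {K₁ : ℕ}

/-- **`RunPack` for a large disc** -/
theorem runPack_disc (h : DiscEv c.p c.k0 R a B x y j K₁) (h5 : 5 ≤ c.p * (c.k0 + 1)) {J lam : ℝ}
    {V : Finset (ℤ × ℤ) → ℝ} {β z : ℝ} (hJ : J ≠ 0) (hV : VHyp R V) (hz : 0 < 1 + z) (N : ℕ)
    {Ze : ℝ} {ebv : Fin m → ℝ} {A v ε M : ℝ} (hΓ : 1 ≤ c.Γ)
    (hw : ∀ z j, |(discBg h).w z j| ≤ 1)
    (hFine : FineAt c (discBg h) (mpar J lam R V β z) (eb a y j) h.ne (Lam B (max R 1) a) K₁ A v ε
      M Ze ebv) {aS : ℕ → ℝ} (ha : aS 0 = A)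
    {Jc : ℕ} {C c' : ℝ≥0∞} {t0 C0 : ℝ} (h3 : ScalarT3 Jc c' C t0 C0) (hC0 : 0 ≤ C0) (hCt : C ≠ ∞)
    {b0 : ℝ} (hb0 : 0 < b0) (hbt : b0 ≤ t0)
    (het : ε * (1 + m * (c.Γ * M)) ≤ t0) (hμt : m * (2 * (c.Γ * M)) ≤ t0)
    {Pc : ℕ → Finset (ℤ × ℤ) → Ge (VS (Fld ℤ) m) → Prop} {q : ℕ → ℝ≥0∞}
    (hT : TailH (tB (discBg h) (mpar J lam R V β z) DD ∅ c.p c.k0 K₁)
      (tD (discBg h) (mpar J lam R V β z) DD ∅ (eb a y j) h.ne c.p c.k0 K₁)
      (tL (discBg h) (mpar J lam R V β z) DD ∅ (eb a y j) h.ne c.p c.k0 K₁ Ze)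
      (nmS (discBg h).w aS (fun n => rr c.p c.k0 (K₁ + n)) (fun _ => ENNReal.ofReal v))
      (WoS (fun n => rr c.p c.k0 (K₁ + n)) (ENNReal.ofReal c.Γ))
      (szS fun n => rr c.p c.k0 (K₁ + n)) (nrS fun n => rr c.p c.k0 (K₁ + n)) Pc C c' q Jc N b0)
    (hA : ∀ k < N, cW0 DD c.p c.k0 (K₁ + k) ≤ aS k) (hN : 1 ≤ K₁ + N)
    {κ' : ℝ} (hκ' : 0 < κ') (hr : κ' * (B / a) ≤ (rr c.p c.k0 (K₁ + N) : ℝ))
    (hAN : 0 < aS N) (hAN' : 7 * √(DD.C / (cPl * κ')) ≤ aS N)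
    {ε₁ : ℝ} (hε₁ : 0 ≤ ε₁)
    (hb : ∑ W ∈ nes (Lam B (max R 1) a), pG (grDisc h (K₁ + N))
      ((flow0 (discBg h) (mpar J lam R V β z) DD ∅ c.p c.k0).K (K₁ + N) W) ≤ ENNReal.ofReal ε₁)
    {A' κ : ℝ} (hk : κ ≤ a * (A' ^ 2 * v ^ 2)) :
    RunPack m (domMom (Metric.ball 0 B) a .plus J lam R V β x y j ebv /
        spm (Metric.ball 0 B) a .plus J lam R V β x)
      (Ze ^ m * (D0c (Metric.ball 0 B) a .plus x y j / spm0 (Metric.ball 0 B) a .plus x))
      a A' (ε₁ + (m + 2 ^ m) * ε + 3 * (C0 * (ε * (1 + m * (c.Γ * M)) + b0)))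
      (m * (2 * M) + 3 * (C0 * (m * (2 * (c.Γ * M))))) κ := by
  have hΓe : (1 : ℝ≥0∞) ≤ ENNReal.ofReal c.Γ := by
    rw [← ENNReal.ofReal_one]; exact ENNReal.ofReal_le_ofReal hΓ
  have hg0 : grDisc h (K₁ + N) 0 = 0 := by
    simp [grDisc, FRDRestx439.gr]
  have hgw : ∀ (U : Finset (ℤ × ℤ)) (x : Fld ℤ), grDisc h (K₁ + N) x ≤
      wU (discBg h).w (aS N) (rr c.p c.k0 (K₁ + N)) U x := by
    intro U l
    rw [h.w_eq]
    exact h.gr_le hN hκ' hr hAN hAN' U l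
  have key := finE_flC (discBg h) (mpar J lam R V β z) DD ∅ (eb a y j) h.ne c.p c.k0 K₁ h3 hC0
    hCt hb0 hbt hΓe (finM_of_fineAt hFine hΓ ha) het hμt hT (by unfold MM; norm_num) hw hA
    (h.gram (K₁ + N)) hg0 hgw hε₁ hb
  exact h.runPack h5 hJ hV hz N Ze ebv key fun _ => hk

end disc

end Crest.Agent.R165.TailDx999
end
end

-- ▼ part R165/SrcDiscU_610
section

/-!
# Row 165 (S0250), leaf P11 (sources in large discs), T5: linear factors in large discs (helper610)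

* `TOK`, `ev_TOK` : the conditions on the constants
* `tlin_clu` : coarse step, cluster of insertions, factor `1/8`
* `tlin_crA` : crude step, factor `3`
* `qT` : the linear factors; `tlin_disc` : all steps `k1 ≤ k < kf` of a large disc
* `tail_det` : `TailH` of a large disc at one parameter
* `ev_tail` : the same eventually, for all constants
-/

set_option autoImplicit false
set_option linter.unusedSectionVars false

noncomputable section

open scoped ENNReal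
open Filter Topology
open Crest.ProbabilityR.IsingModel
open Crest.Agent.R165.Geo (LatReg bdS)
open Crest.Agent.R165.Gr0x606 Crest.Agent.R165.Gr1x606 Crest.Agent.R165.GeOpsx337
  Crest.Agent.R165.PNormx417 Crest.Agent.R165.Latx683 Crest.Agent.R165.GDefx387
  Crest.Agent.R165.GSysx387 Crest.Agent.R165.KFlowx337 Crest.Agent.R165.Bridgex915
  Crest.Agent.R165.BgIsox432 Crest.Agent.R165.FRDPolyx439 Crest.Agent.R165.FRDLatx439
  Crest.Agent.R165.PEndx683 Crest.Agent.R165.Outx683 Crest.Agent.R165.Constx891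
  Crest.Agent.R165.StepOKx838 Crest.Agent.R165.GeoCox838 Crest.Agent.R165.DiscPhx892
  Crest.Agent.R165.DiscKx892 Crest.Agent.R165.GeoScx420 Crest.Agent.R165.SrcDiscx610
  Crest.Agent.R165.SrcDiscTx610
open Crest.Agent.R165.CrudeDx915 (CrOK DD_M ev_crOK aD_drop CFcr CFcr_ne_top)
open Crest.Agent.R165.SrcDefx991 (VS noS)
open Crest.Agent.R165.SrcTailx441 (TailOf TailN BulkIn PT shift shift_K)
open Crest.Agent.R165.SrcTailAllx441 (TailH)
open Crest.Agent.R165.SrcTailx999 (SLA)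
open Crest.Agent.R165.TailNAx999 (nmS WoS szS nrS bulkIn_real)
open Crest.Agent.R165.Bkgx683
open Crest.Agent.R165.DomAcx117 Crest.Agent.R165.DiscMkx117 Crest.Agent.R165.DiscCompx722

namespace Crest.Agent.R165.SrcDiscUx610

/-- the conditions on the constants -/
structure TOK (Dn : ℕ) (c : Cst) : Prop where
  cr : CrOK c
  st : CstOK Dn c
  big : BigT KA (2 ^ c.p) (ENNReal.ofReal c.Γ)
  δ0 : 0 < c.δ
  δ1 : c.δ ≤ 1

theorem ev_bigT_c (C : ℝ) : EvC fun c => BigT C (2 ^ c.p) (ENNReal.ofReal c.Γ) := by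
  have h1 : ∀ᶠ p : ℕ in atTop, ∀ Γ : ℝ≥0∞, Γ ≠ ∞ → 72 ≤ Γ → BigT C (2 ^ p) Γ :=
    (tendsto_pow_atTop_atTop_of_one_lt (by norm_num : 1 < 2)).eventually (ev_bigT C)
  unfold EvC
  filter_upwards [h1] with p hp
  filter_upwards [eventually_ge_atTop (72 : ℝ)] with Γ hΓ
  refine Eventually.of_forall fun k0 => Eventually.of_forall fun A0 =>
    Eventually.of_forall fun δ => hp _ ENNReal.ofReal_ne_top ?_
  have h3 : (72 : ℝ≥0∞) = ENNReal.ofReal 72 := by norm_num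
  rw [h3]
  exact ENNReal.ofReal_le_ofReal hΓ

theorem ev_δ : EvC fun c => 0 < c.δ ∧ c.δ ≤ 1 := by
  unfold EvC
  refine Eventually.of_forall fun p => Eventually.of_forall fun Γ => Eventually.of_forall fun k0 =>
    Eventually.of_forall fun A0 => ?_
  filter_upwards [Ioc_mem_nhdsGT (show (0 : ℝ) < 1 by norm_num)] with δ hδ
  exact ⟨hδ.1, hδ.2⟩

theorem ev_TOK : ∃ Dn : ℕ, EvC (TOK Dn) := by
  obtain ⟨Dn, h⟩ := ev_cstOK
  refine ⟨Dn, (((h.and ev_crOK).and (ev_bigT_c KA)).and ev_δ).mono fun c hc => ?_⟩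
  exact ⟨hc.1.1.2, hc.1.1.1, hc.1.2, hc.2.1, hc.2.2⟩

section steps

variable {Dn : ℕ} {c : Cst}

theorem nearR_room (h10 : 10 ≤ 2 ^ c.p) (h2 : 2 ≤ rr c.p c.k0 0) (n : ℕ) :
    4 * nearR c.p c.k0 n + 3 * rr c.p c.k0 n + 2 ≤ rr c.p c.k0 (n + 1) := by
  have h1 : 10 * rr c.p c.k0 n ≤ rr c.p c.k0 (n + 1) := by
    rw [rr_succ]
    exact Nat.mul_le_mul_right _ h10
  have h3 := h2.trans (rr_mono c.p c.k0 (Nat.zero_le n))
  unfold nearR
  omega

/-- **coarse step**: a cluster of insertions far from the boundary -/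
theorem tlin_clu (hc : TOK Dn c) {T : Set (ℤ × ℤ)} {ρ κ : ℝ} (hT : LatReg T ρ κ) (hκ : κ * ρ ≤ 1)
    {m : ℕ} {X : Fin m → ℤ × ℤ} {Z : Set (ℤ × ℤ)} {b : Bool} {z0 : ℤ × ℤ} {R1 n : ℕ} {a a' : ℝ}
    (hρ : ((32 * C0v c.p : ℕ) : ℝ) * rr c.p c.k0 (n + 1) ≤ ρ)
    (hS : Clu T X z0 Z R1 (32 * rr c.p c.k0 (n + 1))) (hR1 : 4 * R1 + 8 ≤ rr c.p c.k0 n)
    (ha : c.A0 ≤ a) (ha' : c.A0 ≤ a') (h2 : a' ≤ 2 * a) :
    TLin (wX (wDom T b) X) a a' (rr c.p c.k0 n) (rr c.p c.k0 (n + 1)) (ENNReal.ofReal c.Γ)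
      (3 * ENNReal.ofReal c.Γ) (slC DD (wX (wDom T b) X) c.p c.k0 n) (acR (nearR c.p c.k0) n) (1 / 8) 3 := by
  obtain ⟨-, hC1, -, -, H⟩ := geo_v c.p
  have hG := H T ρ κ hT hκ m X z0 Z b R1 (32 * rr c.p c.k0 (n + 1)) (by
    refine le_trans (le_of_eq ?_) hρ
    push_cast; ring) hS Fin.elim0
  have h0 : 0 < a := lt_of_lt_of_le hc.st.A0 ha
  exact tlin_of_geo hG DD DD_M (abs_wX_dom T b X) hc.big le_rfl (max_le (hc.st.r0 n) hR1) le_rfl
    h0 h2 ((hc.st.cw n).trans ha') (fun U hU => hU.1) (fun U _ x _ => Set.mem_univ x)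
    (fun U hU => hU.2) (nearR_room hc.cr.h10 hc.cr.hr n)

/-- **crude step**: every background -/
theorem tlin_crA (hc : CrOK c) {w : BW ℤ} (hw : ∀ z j, |w z j| ≤ 1) {n : ℕ} {a a' : ℝ}
    (ha : 0 < a) (ha' : c.A0 ≤ a')
    (hdrop : 2 * (a' * Real.sqrt (rr c.p c.k0 (n + 1))) ≤ a * Real.sqrt (rr c.p c.k0 n)) :
    TLin w a a' (rr c.p c.k0 n) (rr c.p c.k0 (n + 1)) (ENNReal.ofReal c.Γ)
      (3 * ENNReal.ofReal c.Γ) (slC DD w c.p c.k0 n) (acR (nearR c.p c.k0) n) 3 3 := by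
  refine tlin_crudeS DD DD_M hw ha hdrop ((hc.hA n).trans ha') (fun U hU => hU.1)
    (fun U hU => hU.2) (nearR_room hc.h10 hc.hr n) ?_
  have h3 : (3 : ℝ≥0∞) = ENNReal.ofReal 3 := by norm_num
  rw [h3]
  exact ENNReal.ofReal_le_ofReal hc.hΓ

/-- the amplitudes of a large disc -/
def aT (c : Cst) (K₁ K₂ : ℕ) : ℕ → ℝ := aD c.A0 c.δ (2 * Real.sqrt (2 ^ c.p)) K₁ K₂

/-- the linear factors of the tail, relative steps -/
def qT (K₁ K₂ j : ℕ) : ℝ≥0∞ := if K₁ + j < K₂ then 3 else 1 / 8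

theorem qT_crude (K₁ K₂ j : ℕ) : qT K₁ K₂ j ≤ 2 * 3 := by
  unfold qT
  split_ifs
  · norm_num
  · refine le_trans ?_ (by norm_num : (1 : ℝ≥0∞) ≤ 2 * 3)
    rw [one_div]
    exact ENNReal.inv_le_one.2 (by norm_num)

theorem qT_good {K₁ K₂ j : ℕ} (h : K₂ - K₁ ≤ j) : qT K₁ K₂ j ≤ 8⁻¹ := by
  unfold qT
  rw [if_neg (by omega), one_div]

theorem one_le_q (c : Cst) : 1 ≤ 2 * Real.sqrt (2 ^ c.p) := by
  have : (1 : ℝ) ≤ Real.sqrt (2 ^ c.p) := by
    rw [← Real.sqrt_one]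
    exact Real.sqrt_le_sqrt (one_le_pow₀ (by norm_num))
  linarith

/-- **the linear factors of all steps of the tail in a large disc** (`n` even) -/
theorem tlin_disc (hc : TOK Dn c) {C1 : ℕ} (hC1 : 32 * C0v c.p ≤ C1) {u v cc : ℝ} {n m : ℕ}
    {x : Fin n → ℂ} {y : Fin m → ℂ} (hn : Even n) {P : ℝ × ℝ}
    (hG : DiscG c.p c.k0 C1 u v cc x y P) (b : Bool)
    (h12 : k1 c.p c.k0 u P.1 ≤ k2 c.p c.k0 v P.1)
    (hJ : (2 * Real.sqrt (2 ^ c.p)) ^ (k2 c.p c.k0 v P.1 - k1 c.p c.k0 u P.1) ≤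
      1 + c.δ * k1 c.p c.k0 u P.1) {j : ℕ} (hj : k1 c.p c.k0 u P.1 + j < kf c.p c.k0 cc P) :
    TLin (wX (wDom (domainSites (Metric.ball (0 : ℂ) P.2) P.1) b) fun i => meshIndex P.1 (x i))
      (aT c (k1 c.p c.k0 u P.1) (k2 c.p c.k0 v P.1) (k1 c.p c.k0 u P.1 + j))
      (aT c (k1 c.p c.k0 u P.1) (k2 c.p c.k0 v P.1) (k1 c.p c.k0 u P.1 + j + 1))
      (rr c.p c.k0 (k1 c.p c.k0 u P.1 + j)) (rr c.p c.k0 (k1 c.p c.k0 u P.1 + j + 1))
      (ENNReal.ofReal c.Γ) (3 * ENNReal.ofReal c.Γ)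
      (slC DD (wX (wDom (domainSites (Metric.ball (0 : ℂ) P.2) P.1) b)
        fun i => meshIndex P.1 (x i)) c.p c.k0 (k1 c.p c.k0 u P.1 + j))
      (acR (nearR c.p c.k0) (k1 c.p c.k0 u P.1 + j))
      (qT (k1 c.p c.k0 u P.1) (k2 c.p c.k0 v P.1) j) 3 := by
  set K₁ := k1 c.p c.k0 u P.1
  set K₂ := k2 c.p c.k0 v P.1
  have hA0 := hc.st.A0
  have hge : ∀ k, c.A0 ≤ aT c K₁ K₂ k := fun k =>
    aD_ge h12 hA0.le hc.δ0.le (one_le_q c) hJ k
  unfold qT
  by_cases hk : K₁ + j < K₂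
  · rw [if_pos hk]
    exact tlin_crA hc.cr (abs_wX_dom _ b _) (hA0.trans_le (hge _)) (hge _)
      (aD_drop (by omega) hk).le
  · rw [if_neg hk]
    obtain ⟨ρ, κ, h1, h2, h3⟩ := hG.reg
    obtain ⟨R1, h4, h5⟩ := hG.coarse hn (K₁ + j) (not_lt.1 hk) hj
    refine tlin_clu hc h1 h2 (le_trans (mul_le_mul_of_nonneg_right ?_ (Nat.cast_nonneg _))
      (h3 _ hj)) h4 h5 (hge _) (hge _) ?_
    · exact_mod_cast hC1
    · have h6 := (aD_step h12 hA0.le hc.δ0.le (one_le_q c) hJ (k := K₁ + j)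
        (Or.inr (not_lt.1 hk))).2
      refine h6.trans ?_
      have h7 : 0 ≤ aD c.A0 c.δ (2 * Real.sqrt (2 ^ c.p)) K₁ K₂ (K₁ + j) :=
        hA0.le.trans (hge _)
      have h8 := hc.δ1
      exact mul_le_mul_of_nonneg_right (by linarith) h7

theorem DiscG.mono {p k0 C1 C1' : ℕ} {u v cc : ℝ} {n m : ℕ} {x : Fin n → ℂ} {y : Fin m → ℂ}
    {P : ℝ × ℝ} (h : DiscG p k0 C1 u v cc x y P) (hC : C1' ≤ C1) :
    DiscG p k0 C1' u v cc x y P where
  pos := h.pos
  posB := h.posB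
  le_k1 := h.le_k1
  le_kf := h.le_kf
  reg := by
    obtain ⟨ρ, κ, h1, h2, h3⟩ := h.reg
    exact ⟨ρ, κ, h1, h2, fun k hk => le_trans (mul_le_mul_of_nonneg_right
      (by exact_mod_cast hC) (Nat.cast_nonneg _)) (h3 k hk)⟩
  fine := h.fine
  marks := h.marks
  k1_le := h.k1_le
  k2_le := h.k2_le
  coarse := h.coarse

end steps

/-! ### the tail of a large disc -/

/-- the constant of the bulk input -/
def CB (CF : ℝ≥0∞) (c : Cst) : ℝ := 2 * (CF.toReal + (CFcr c).toReal)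

theorem CB_nonneg (CF : ℝ≥0∞) (c : Cst) : 0 ≤ CB CF c := by
  unfold CB
  have h1 : 0 ≤ CF.toReal := ENNReal.toReal_nonneg
  have h2 : 0 ≤ (CFcr c).toReal := ENNReal.toReal_nonneg
  positivity

/-- the system restarted at the step `K₁` -/
abbrev rs (F : Sys (ℤ × ℤ) (Fld ℤ)) (K₁ : ℕ) : Sys (ℤ × ℤ) (Fld ℤ) := shift F K₁ (F.K K₁)

/-- admissible elements of the tail -/
abbrev AdmT (c : Cst) (K₁ : ℕ) {m : ℕ} (j : ℕ) (U : Finset (ℤ × ℤ)) (X : Ge (VS (Fld ℤ) m)) :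
    Prop := Adm (fun j => nearR c.p c.k0 (K₁ + j)) j U X

/-- `TailH` with the norms of a background `w` and the amplitudes `aC` -/
abbrev TH (c : Cst) (w : BW ℤ) (K₁ K₂ K Jn : ℕ) {m : ℕ} (B : Sys (ℤ × ℤ) (Fld ℤ))
    (D DL : Sys (ℤ × ℤ) (VS (Fld ℤ) m))
    (Pc : ℕ → Finset (ℤ × ℤ) → Ge (VS (Fld ℤ) m) → Prop) (vv : Fin m → ℝ≥0∞) (b0 : ℝ) : Prop :=
  TailH B D DL
    (nmS w (fun j => aC c K₁ K₂ (K₁ + j)) (fun j => rr c.p c.k0 (K₁ + j)) vv)
    (WoS (fun j => rr c.p c.k0 (K₁ + j)) (ENNReal.ofReal c.Γ))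
    (szS fun j => rr c.p c.k0 (K₁ + j)) (nrS fun j => rr c.p c.k0 (K₁ + j)) Pc
    (StepGluex897.N3 c.p : ℝ≥0∞) (2 * 3) (qT K₁ K₂) Jn (K - K₁) b0

section det

variable {c : Cst} {CF : ℝ≥0∞} {C1 Dn Rm : ℕ}

/-- **the tail of a large disc**, one parameter `P = (a, B)`: `K₁ = k1`, `K₂ = k2`, `K = kf`; any
lead run `DL`, any run `D`, any class `Pc` of admissible elements containing the two runs -/
theorem tail_det (H : Good c CF C1) (hCF : CF ≠ ∞) (hc : TOK Dn c) (hd : DCst Rm c) {MP : MPar}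
    (hMP : MP.R ≤ Rm) {n : ℕ} (hn : Even n) {x : Fin n → ℂ} {u v cc : ℝ} {P : ℝ × ℝ}
    (hG : DiscG c.p c.k0 (max C1 (32 * C0v c.p)) u v cc x (Fin.elim0 : Fin 0 → ℂ) P)
    (h12 : k1 c.p c.k0 u P.1 ≤ k2 c.p c.k0 v P.1)
    (hJ : qD c ^ (k2 c.p c.k0 v P.1 - k1 c.p c.k0 u P.1) ≤ 1 + c.δ * k1 c.p c.k0 u P.1)
    {T : Finset (ℤ × ℤ)} (hT : (T : Set (ℤ × ℤ)) = domainSites (Metric.ball (0 : ℂ) P.2) P.1)
    (b : BoundaryCondition) {M0 M t : ℝ}
    (hO : Out3 c (domF c MP T b fun i => meshIndex P.1 (x i))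
      (Bg.dom T b fun i => meshIndex P.1 (x i)).w (k1 c.p c.k0 u P.1) (k2 c.p c.k0 v P.1)
      (kf c.p c.k0 cc P) M0 M t) {m : ℕ} {D DL : Sys (ℤ × ℤ) (VS (Fld ℤ) m)}
    {Pc : ℕ → Finset (ℤ × ℤ) → Ge (VS (Fld ℤ) m) → Prop}
    (hP : ∀ j U X, Pc j U X → AdmT c (k1 c.p c.k0 u P.1) j U X)
    (hlead : ∀ j U, Pc j U (DL.K j U))
    (hrest : ∀ j U, Pc j U (PT (rs (domF c MP T b fun i => meshIndex P.1 (x i))
      (k1 c.p c.k0 u P.1)) D DL j U))
    {vv : Fin m → ℝ≥0∞} (hv : ∀ i, vv i ≠ ∞) (hv0 : ∀ i, vv i ≠ 0) {b0 : ℝ}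
    (hb : CB CF c * (M * t) * (1 / 2) ^ k1 c.p c.k0 u P.1 ≤ b0) (hMt : 0 ≤ M * t) {Jn : ℕ}
    (hJn : k2 c.p c.k0 v P.1 - k1 c.p c.k0 u P.1 ≤ Jn) :
    TH c (Bg.dom T b fun i => meshIndex P.1 (x i)).w (k1 c.p c.k0 u P.1) (k2 c.p c.k0 v P.1)
      (kf c.p c.k0 cc P) Jn (rs (domF c MP T b fun i => meshIndex P.1 (x i))
      (k1 c.p c.k0 u P.1)) D DL Pc vv b0 := by
  set K₁ := k1 c.p c.k0 u P.1 with hK₁
  set K₂ := k2 c.p c.k0 v P.1 with hK₂
  set K := kf c.p c.k0 cc P with hK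
  set X : Fin n → ℤ × ℤ := fun i => meshIndex P.1 (x i) with hX
  have hΓ : (1 : ℝ≥0∞) ≤ ENNReal.ofReal c.Γ := by
    rw [← ENNReal.ofReal_one]
    exact ENNReal.ofReal_le_ofReal (by linarith [hd.std.Γ_ge])
  have hG1 := DiscG.mono hG (le_max_left C1 (32 * C0v c.p))
  have hctl := ctlJ3 (b := b) (P := MP) H hd.std hc.cr hd.five
    (q := 2 * Rm + 2) (by omega) (by omega) hd.q_le
    (SrcOK.no ℤ) (fun k => k.elim0) h12 hJ (geo3_of hG1 hn hT)
  refine tailH_gen (R := fun j => nearR c.p c.k0 (K₁ + j)) (fun j _ => hP j)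
    (fun j _ => hlead j) (fun j _ => hrest j) hv hv0 hΓ (fun k => rr_pos _ _ _)
    (fun k _ => ?_) (fun k _ => rfl) (fun k hk => ?_)
    (fun k hk => ?_) (fun k _ _ => qT_crude _ _ _) (fun k _ hk => qT_good (by omega))
  · exact StrSx897.nn3_sys (l := c.p) (k0 := c.k0) (K₁ + k)
  · have h := tlin_disc (b := isF b) hc (le_max_right C1 (32 * C0v c.p)) hn hG h12 hJ
      (j := k) (by omega)
    rw [← hT] at h
    exact h
  · have hk' : K₁ + k < K := by omega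
    have hnp := hO.np (K₁ + k) hk'.le
    by_cases hph : Ph K₁ K₂ (K₁ + k)
    · refine bulkIn_real (w := (Bg.dom T b X).w) (a := aC c K₁ K₂) hCF hctl.str hk'
        (hctl.step _ hk' hph) hnp (le_trans ?_ hb)
      unfold CB
      have h3 : 0 ≤ (CFcr c).toReal := ENNReal.toReal_nonneg
      have h4 : CF.toReal ≤ CF.toReal + (CFcr c).toReal := by linarith
      gcongr
    · refine bulkIn_real (w := (Bg.dom T b X).w) (a := aC c K₁ K₂) (CFcr_ne_top c) hctl.str hk'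
        (hctl.crude _ hk' hph) hnp (le_trans ?_ hb)
      unfold CB
      have h3 : 0 ≤ CF.toReal := ENNReal.toReal_nonneg
      have h4 : (CFcr c).toReal ≤ CF.toReal + (CFcr c).toReal := by linarith
      gcongr

end det

/-- **(T5)**: the tail of the large discs, for all constants; `Rm` = bound of the range; `B = rs F K₁`
the restarted flow, `D DL` any two runs in the class `Pc` -/
theorem ev_tail (Rm : ℕ) : EvC fun c => 1 ≤ (StepGluex897.N3 c.p : ℝ≥0∞) ∧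
    ∃ CB : ℝ, 0 ≤ CB ∧ ∃ c1 : ℝ, 0 < c1 ∧ ∀ n : ℕ, Even n → ∀ x : Fin n → ℂ,
    Function.Injective x → ∃ u0 v0 : ℝ, 0 < u0 ∧ u0 ≤ v0 ∧
    ∀ u v cc : ℝ, 0 < u → u ≤ u0 → v0 ≤ v → 0 < cc → cc ≤ c1 → ∃ Jn : ℕ, ∀ᶠ P in dl,
    ∀ MP : MPar, MP.R ≤ Rm →
    ∀ T : Finset (ℤ × ℤ), (T : Set (ℤ × ℤ)) = domainSites (Metric.ball (0 : ℂ) P.2) P.1 →
    ∀ (b : BoundaryCondition) (M0 M t : ℝ), 0 ≤ M * t →
    Out3 c (domF c MP T b fun i => meshIndex P.1 (x i))
      (Bg.dom T b fun i => meshIndex P.1 (x i)).w (k1 c.p c.k0 u P.1) (k2 c.p c.k0 v P.1)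
      (kf c.p c.k0 cc P) M0 M t →
    ∀ (m : ℕ) (D DL : Sys (ℤ × ℤ) (VS (Fld ℤ) m))
      (Pc : ℕ → Finset (ℤ × ℤ) → Ge (VS (Fld ℤ) m) → Prop),
    (∀ j U X, Pc j U X → AdmT c (k1 c.p c.k0 u P.1) j U X) →
    (∀ j U, Pc j U (DL.K j U)) →
    (∀ j U, Pc j U (PT (rs (domF c MP T b fun i => meshIndex P.1 (x i))
      (k1 c.p c.k0 u P.1)) D DL j U)) →
    ∀ vv : Fin m → ℝ≥0∞, (∀ i, vv i ≠ ∞) → (∀ i, vv i ≠ 0) → ∀ b0 : ℝ,
    CB * (M * t) * (1 / 2) ^ k1 c.p c.k0 u P.1 ≤ b0 →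
    TH c (Bg.dom T b fun i => meshIndex P.1 (x i)).w (k1 c.p c.k0 u P.1) (k2 c.p c.k0 v P.1)
      (kf c.p c.k0 cc P) Jn (rs (domF c MP T b fun i => meshIndex P.1 (x i))
      (k1 c.p c.k0 u P.1)) D DL Pc vv b0 := by
  obtain ⟨Dn, hDn⟩ := ev_TOK
  refine ev_mono3 stepOK_ev hDn (ev_dcst Rm) ?_
  rintro c ⟨CF, hCF, C1, H⟩ hc hd
  have hp : 1 ≤ c.p := by have := hd.std.p_pos; omega
  obtain ⟨c1, hc1, hgeo⟩ := disc_good0 (max C1 (32 * C0v c.p))
  refine ⟨?_, CB CF c, CB_nonneg CF c, c1, hc1, fun n hn x hx => ?_⟩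
  · have : 1 ≤ StepGluex897.N3 c.p := Nat.one_le_pow _ _ (by omega)
    exact_mod_cast this
  obtain ⟨u0, v0, hu0, hv0, hgeo⟩ := hgeo n x hx
  refine ⟨u0, max v0 u0, hu0, le_max_right _ _, ?_⟩
  intro u v cc hu huu hvv hcc hcc1
  have huv : u ≤ v := huu.trans ((le_max_right _ _).trans hvv)
  have hv : 0 < v := hu.trans_le huv
  obtain ⟨Jn, hJn⟩ := exists_J (v := v) hu
  refine ⟨Jn, ?_⟩
  filter_upwards [hgeo u v cc hu huu ((le_max_left _ _).trans hvv) hcc hcc1 c.p c.k0 hp,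
    ev_a (ev_hJ hp c.k0 hu hv hd.std.δ_pos (one_le_qD c)),
    ev_a (ev_div (M := (2 : ℝ) ^ (c.p * c.k0)) hv)] with P hG hJ hv2
  have h12 : k1 c.p c.k0 u P.1 ≤ k2 c.p c.k0 v P.1 := k1_le_k2 hG.pos huv
  intro MP hMP T hT b M0 M t hMt hO m D DL Pc hP hlead hrest vv hvv1 hvv2 b0 hb
  exact tail_det H hCF hc hd hMP hn hG h12 hJ hT b hO hP hlead hrest hvv1 hvv2 hb hMt
    (hJn c.p c.k0 hp P.1 hG.pos hv2)

end Crest.Agent.R165.SrcDiscUx610
end
end

-- ▼ part R165/EnPBulk_387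
section

/-!
# Row 165 (S0250), leaf P11 item 8: the bulk input of the tail (helper387)

* `CtlJ.bulk`, `Ctl.bulk`, `Run3.bulk` : `BulkIn` of `SrcTailA_441` at every step of a controlled
  flow
* `bulk_shift` : the same for the flow restarted at step `n₀`, literally `TailH.bulk`
* `last_sum` : the sum of the activities at the last scale (final weight) from `NK`
* `ev_last` : large discs, literally `hb` of `finE_mid` at `K1 + N = kf`, `g = grDisc h kf`
-/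

set_option autoImplicit false
set_option linter.unusedSectionVars false

noncomputable section

open Filter Topology
open scoped ENNReal
open Crest.ProbabilityR.IsingModel
open Crest.Agent.R165.Gr0x606 Crest.Agent.R165.Gr1x606 Crest.Agent.R165.GeOpsx337
open Crest.Agent.R165.Latx683 (BW wDom wX wPl Fld)
open Crest.Agent.R165.GDefx387 Crest.Agent.R165.GSysx387 Crest.Agent.R165.KFlowx337
open Crest.Agent.R165.DefRecx915 Crest.Agent.R165.Compx889 Crest.Agent.R165.NKDefx915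
open Crest.Agent.R165.Bkgx683 Crest.Agent.R165.Outx683 Crest.Agent.R165.PEndx683
open Crest.Agent.R165.Constx891 Crest.Agent.R165.StepOKx838 Crest.Agent.R165.DomAcx117
open Crest.Agent.R165.BgIsox432 Crest.Agent.R165.Bridgex915 Crest.Agent.R165.Scalex900
open Crest.Agent.R165.GeoIx838 (Sep SepP)
open Crest.Agent.R165.GeoCox838 (Clu)
open Crest.Agent.R165.StepGluex897 (acS)
open Crest.Agent.R165.DiscMkx117 Crest.Agent.R165.DiscPhx892 Crest.Agent.R165.DiscKx892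
open Crest.Agent.R165.CrudeDx915 Crest.Agent.R165.GeoScx420 Crest.Agent.R165.DeepBgx898
open Crest.Agent.R165.U5Px422 (TT)
open Crest.Agent.R165.TorNorm2x583 (PlB)
open Crest.Agent.R165.DiscCompx722 Crest.Agent.R165.TailNAx999
open Crest.Agent.R165.SrcTailx441 (BulkIn shift)

namespace Crest.Agent.R165.EnPBulkx387

/-! ### the bulk input of a controlled flow -/

section gen

variable {G : Type} [CommRing G] [CN G] [DecidableEq G] [GoodG G] {m : ℕ}






end gen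



/-! ### the last sum -/

/-- **the sum of the activities at the last scale** with the final weight -/
theorem last_sum {G : Type} [CommRing G] [CN G] [CNZ G] [DecidableEq G] [GoodG G] {M K : ℕ}
    (D : FRDPolyx439.FRD 16 M K) (hM : MM ≤ M) {w : BW G} (hw : ∀ z j, |w z j| ≤ 1)
    {p k0 N : ℕ} (hN : 1 ≤ N) {κ R Cg Cv : ℝ} (hκ : 0 < κ) (hR : 0 < R) (hCg : 0 < Cg)
    (hCv : 0 ≤ Cv) (hr : κ * R ≤ rr p k0 N) {A : ℝ} (hA : Fin4x315.ampK D.C κ Cg ≤ A)
    {Γ : ℝ≥0∞} (hΓ : 1 ≤ Γ) (x : G × G) (Λ : Finset (G × G))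
    (hV : ∀ f ∈ Λ, (fd x f : ℝ) ≤ Cv * R) (F : Finset (G × G) → Ge (Fld G)) :
    ∑ U ∈ KStepx892.nes Λ, pG (FRDRestx439.gr D w (Cg * R)⁻¹ (lo p k0 N)) (F U) ≤
      (Fin4x315.cntK κ Cv : ℝ≥0∞) * NK w A (rr p k0 N) Γ (fun _ => True)
        (fun U => (F U : Gr (Fld G))) := by
  obtain ⟨net, hc, hnt⟩ := Fin4x315.net_lower hκ hR hCv hr x
  refine (Finset.sum_le_sum fun U _ => ?_).trans
    ((Fin0x315.sum_nes_le_NK hΓ w A _ (fun U => (F U : Gr (Fld G))) Λ net (hnt Λ hV)).trans ?_)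
  · exact PNormx417.pnorm_le_pnorm (fun l => Fin4x315.gr_lower D hM hw hN hκ hR hCg hr hA U l) _
  · gcongr

/-! ### large discs, the last sum -/

open Crest.Agent.R165.EnWx359 (DiscEv discBg grDisc)
open Crest.Agent.R165.SRdomAx900 (Lam)
open Crest.Agent.R165.CovPkgx359 (cPl cPl_pos)

/-- number of balls at the last scale of a large disc -/
def cL (c : Cst) (cc : ℝ) : ℕ := Fin4x315.cntK (cc / 2 ^ c.p) 2

/-- the volume of a large disc -/
theorem fd_Lam_disc {a B : ℝ} (R' : ℕ) (hB : (R' + 3 : ℝ) ≤ B / a)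
    {f : ℤ × ℤ} (hf : f ∈ Lam B R' a) : (fd ((0, 0) : ℤ × ℤ) f : ℝ) ≤ 2 * (B / a) := by
  have h1 := J4Defx653.mem_bx.1 hf
  have h0 : (0 : ℝ) ≤ B / a := le_trans (by positivity) hB
  have h2 : fd ((0, 0) : ℤ × ℤ) f ≤ ⌈B / a⌉₊ + R' + 2 := by
    have e : fd ((0, 0) : ℤ × ℤ) f = max ((0 : ℤ) - f.1).natAbs ((0 : ℤ) - f.2).natAbs := rfl
    rw [e]
    rw [Int.abs_eq_natAbs, Int.abs_eq_natAbs] at h1
    omega
  have h3 : (⌈B / a⌉₊ : ℝ) < B / a + 1 := Nat.ceil_lt_add_one h0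
  have h4 : (fd ((0, 0) : ℤ × ℤ) f : ℝ) ≤ ((⌈B / a⌉₊ + R' + 2 : ℕ) : ℝ) := by exact_mod_cast h2
  push_cast at h4
  linarith

/-- **large discs, the sum of the activities at the last scale** -/
theorem ev_last {c : Cst} (hc : Std c) {u v cc : ℝ} (huv : u ≤ v) (hcc : 0 < cc) (R' : ℕ) :
    ∀ᶠ P : ℝ × ℝ in dl, ∀ (R n m : ℕ) (x : Fin n → ℂ) (y : Fin m → ℂ) (j : Fin m → Fin 2)
      (K₁ : ℕ) (h : DiscEv c.p c.k0 R P.1 P.2 x y j K₁) (F : Finset (ℤ × ℤ) → Ge (Fld ℤ)),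
      ∑ U ∈ KStepx892.nes (Lam P.2 R' P.1), pG (grDisc h (kf c.p c.k0 cc P)) (F U) ≤
        (cL c cc : ℝ≥0∞) * NK (discBg h).w
          (aC c (k1 c.p c.k0 u P.1) (k2 c.p c.k0 v P.1) (kf c.p c.k0 cc P))
          (rr c.p c.k0 (kf c.p c.k0 cc P)) (ENNReal.ofReal c.Γ) (fun _ => True)
          (fun U => (F U : Gr (Fld ℤ))) := by
  have hp : 1 ≤ c.p := by have := hc.p_pos; omega
  have hκ : 0 < cc / 2 ^ c.p := by positivity
  have h1 := aD_tendsto (u := u) (v := v) (c := cc) (A₀ := c.A0) (δ := c.δ) (q := qD c) hp c.k0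
    huv hcc (by have := hc.A0_ge; linarith) hc.δ_pos (by have := one_le_qD c; linarith)
  filter_upwards [h1.eventually_ge_atTop
      (Fin4x315.ampK DD.C (cc / 2 ^ c.p) cPl⁻¹),
    (kf_tendsto hp c.k0 hcc).eventually_ge_atTop 1,
    ev_divB (c := 1) (M := (R' : ℝ) + 3) one_pos] with P hA hN hB
  intro R n m x y j K₁ h F
  rw [one_mul] at hB
  have hBa : 0 < P.2 / P.1 := lt_of_lt_of_le (by positivity) hB
  have hw : ∀ z j, |(discBg h).w z j| ≤ 1 := abs_wX_dom h.ok.fin.toFinset (isF .plus) _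
  have hr : cc / 2 ^ c.p * (P.2 / P.1) ≤ (rr c.p c.k0 (kf c.p c.k0 cc P) : ℝ) := by
    have h3 := lt_rr_kf (k0 := c.k0) hp cc P
    rw [rr_succ] at h3
    push_cast at h3
    rw [div_mul_eq_mul_div, div_le_iff₀ (by positivity)]
    have e : cc * P.2 / P.1 = cc * (P.2 / P.1) := by ring
    rw [e] at h3
    linarith
  have hΓ : 1 ≤ ENNReal.ofReal c.Γ := by
    rw [ENNReal.one_le_ofReal]; have := hc.Γ_ge; linarith
  have h4 := last_sum DD (by unfold MM; norm_num) hw hN hκ hBa (inv_pos.2 cPl_pos)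
    (by norm_num : (0 : ℝ) ≤ 2) hr hA hΓ (0, 0) (Lam P.2 R' P.1)
    (fun f hf => fd_Lam_disc R' hB hf) F
  have e : (cPl⁻¹ * (P.2 / P.1))⁻¹ = cPl * P.1 / P.2 := by
    rw [mul_inv, inv_inv, inv_div]; ring
  rw [e, h.w_eq] at h4
  rw [h.w_eq]
  exact h4

/-- the powers at the last scale are small, however slowly the mesh goes to zero -/
theorem ev_pow {p : ℕ} (hp : 1 ≤ p) (k0 : ℕ) {cc : ℝ} (hcc : 0 < cc) {s : ℝ} (hs0 : 0 ≤ s)
    (hs : s < 1) (C : ℝ) {e : ℝ → ℝ} (he : ∀ a, 0 < a → 0 < e a) :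
    ∀ᶠ P : ℝ × ℝ in dl, C * s ^ kf p k0 cc P ≤ e P.1 := by
  refine ev_aB fun a ha => ?_
  have h1 : Tendsto (fun B : ℝ => C * s ^ kf p k0 cc (a, B)) atTop (𝓝 (C * 0)) :=
    ((tendsto_pow_atTop_nhds_zero_of_lt_one hs0 hs).comp (kf_tendsto_B hp k0 hcc ha)).const_mul C
  rw [mul_zero] at h1
  exact (h1.eventually (eventually_le_nhds (he a ha)))

/-- **`hb` of `finE_mid`** in the large discs: the sum of the source free activities at the last
scale is at most `ε₁ = e (a)`, any positive function of the mesh -/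
theorem ev_hb {c : Cst} (hc : Std c) {u v cc : ℝ} (huv : u ≤ v) (hcc : 0 < cc) (R' : ℕ)
    (M t : ℝ) {e : ℝ → ℝ} (he : ∀ a, 0 < a → 0 < e a) :
    ∀ᶠ P : ℝ × ℝ in dl, ∀ (R n m : ℕ) (x : Fin n → ℂ) (y : Fin m → ℂ) (j : Fin m → Fin 2)
      (K₁ : ℕ) (h : DiscEv c.p c.k0 R P.1 P.2 x y j K₁) (D : Sys (ℤ × ℤ) (Fld ℤ)),
      NPc c D (discBg h).w (aC c (k1 c.p c.k0 u P.1) (k2 c.p c.k0 v P.1)) allP
        (kf c.p c.k0 cc P) ≤ ENNReal.ofReal (M * t * (1 / 2) ^ kf c.p c.k0 cc P) →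
      ∑ U ∈ KStepx892.nes (Lam P.2 R' P.1),
        pG (grDisc h (kf c.p c.k0 cc P)) (D.K (kf c.p c.k0 cc P) U) ≤
          ENNReal.ofReal (e P.1) := by
  have hp : 1 ≤ c.p := by have := hc.p_pos; omega
  filter_upwards [ev_last hc huv hcc R', ev_pow hp c.k0 hcc (s := 1 / 2) (by norm_num)
    (by norm_num) (cL c cc * (M * t)) he] with P h1 h2
  intro R n m x y j K₁ h D hD
  refine (h1 R n m x y j K₁ h _).trans ?_
  refine le_trans (mul_le_mul_right (show _ ≤ ENNReal.ofReal (M * t * (1 / 2) ^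
    kf c.p c.k0 cc P) from hD) _) ?_
  rw [← ENNReal.ofReal_natCast, ← ENNReal.ofReal_mul (Nat.cast_nonneg _)]
  refine ENNReal.ofReal_le_ofReal (le_trans (le_of_eq ?_) h2)
  ring

end Crest.Agent.R165.EnPBulkx387
end
namespace Crest.Agent.R165.EnPBulkx387.Ctl
end Crest.Agent.R165.EnPBulkx387.Ctl
end

-- ▼ part R165/SrcTail3_999
section

/-!
# Row 165 (S0250), SrcTail, T3: the scalar recursion with crude steps (helper999)

`tail_rec` : lead norms `T`, rest norms `E`, bulk `b`; linear factors `q k ≤ c` for the first `J`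
(crude) steps, `q k ≤ 1/8` afterwards.  Thresholds depend on `J, c, C` only.
-/

set_option autoImplicit false

open scoped ENNReal

namespace Crest.Agent.R165.SrcTailx999

section rec

variable {c C t0 : ℝ≥0∞} {J : ℕ}

/-- the weight -/
noncomputable def wr (c : ℝ≥0∞) (J k : ℕ) : ℝ≥0∞ := (4 * c) ^ (min k J) * (1 / 2) ^ k

theorem half2 : (2 : ℝ≥0∞) * (1 / 2) = 1 := by
  rw [one_div]; exact ENNReal.mul_inv_cancel (by norm_num) (by norm_num)

theorem eighth8 : (8 : ℝ≥0∞) * (1 / 8) = 1 := by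
  rw [one_div]; exact ENNReal.mul_inv_cancel (by norm_num) (by norm_num)

theorem half_le : (1 / 2 : ℝ≥0∞) ≤ 1 := by
  rw [one_div, ENNReal.inv_le_one]; norm_num

theorem wr_le (hc : 1 ≤ c) (k : ℕ) : wr c J k ≤ (4 * c) ^ J := by
  unfold wr
  have h4 : (1 : ℝ≥0∞) ≤ 4 * c := by
    calc (1 : ℝ≥0∞) = 1 * 1 := by ring
      _ ≤ 4 * c := mul_le_mul' (by norm_num) hc
  calc (4 * c) ^ (min k J) * (1 / 2) ^ k ≤ (4 * c) ^ J * 1 :=
        mul_le_mul' (pow_le_pow_right₀ h4 (min_le_right _ _)) (pow_le_one₀ (by simp) half_le)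
    _ = (4 * c) ^ J := mul_one _

theorem half_le_wr (hc : 1 ≤ c) (k : ℕ) : (1 / 2 : ℝ≥0∞) ^ k ≤ wr c J k := by
  unfold wr
  have h4 : (1 : ℝ≥0∞) ≤ 4 * c := by
    calc (1 : ℝ≥0∞) = 1 * 1 := by ring
      _ ≤ 4 * c := mul_le_mul' (by norm_num) hc
  exact le_mul_of_one_le_left' (one_le_pow₀ h4)

theorem wr_crude {k : ℕ} (h : k < J) : wr c J (k + 1) = 2 * c * wr c J k := by
  unfold wr
  rw [min_eq_left (by omega), min_eq_left (by omega), pow_succ, pow_succ]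
  calc (4 * c) ^ k * (4 * c) * ((1 / 2) ^ k * (1 / 2))
      = 2 * (2 * (1 / 2)) * c * ((4 * c) ^ k * (1 / 2) ^ k) := by ring
    _ = _ := by rw [half2, mul_one]

theorem wr_coarse {k : ℕ} (h : J ≤ k) : 2 * wr c J (k + 1) = wr c J k := by
  unfold wr
  rw [min_eq_right (by omega), min_eq_right (by omega), pow_succ]
  calc 2 * ((4 * c) ^ J * ((1 / 2) ^ k * (1 / 2)))
      = (2 * (1 / 2)) * ((4 * c) ^ J * (1 / 2) ^ k) := by ring
    _ = _ := by rw [half2, one_mul]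

theorem wr_zero : wr c J 0 = 1 := by simp [wr]

/-- one crude step: `q ≤ c`, small coefficient `s` -/
theorem crude_step {q s x y u w : ℝ≥0∞} (hc : 1 ≤ c) (hq : q ≤ c) (hs : 16 * s ≤ 1)
    (hu : 16 * u ≤ w) (hx : x ≤ w) (hy : y ≤ q * x + s * x + u) : y ≤ 2 * c * w := by
  have h16 : (16 : ℝ≥0∞) * y ≤ 16 * (2 * c * w) := by
    calc 16 * y ≤ 16 * (q * x + s * x + u) := by gcongr
      _ = 16 * (q * x) + (16 * s) * x + 16 * u := by ring
      _ ≤ 16 * (c * w) + 1 * w + w := by gcongr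
      _ = 16 * (c * w) + 2 * (1 * w) := by ring
      _ ≤ 16 * (c * w) + 16 * (c * w) := by
          gcongr
          norm_num
      _ = 16 * (2 * c * w) := by ring
  exact (ENNReal.mul_le_mul_iff_right (by norm_num) (by norm_num)).1 h16

/-- one contracting step: `q ≤ 1/8` -/
theorem coarse_step {q s x y u w w' : ℝ≥0∞} (hq : q ≤ 1 / 8) (hs : 16 * s ≤ 1)
    (hu : 16 * u ≤ w) (hx : x ≤ w) (hw : 2 * w' = w) (hy : y ≤ q * x + s * x + u) : y ≤ w' := by
  have h16 : (16 : ℝ≥0∞) * y ≤ 16 * w' := by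
    calc 16 * y ≤ 16 * (q * x + s * x + u) := by gcongr
      _ = 16 * (q * x) + (16 * s) * x + 16 * u := by ring
      _ ≤ 16 * (1 / 8 * w) + 1 * w + w := by gcongr
      _ = 2 * (8 * (1 / 8)) * w + 2 * w := by ring
      _ = 4 * w := by rw [eighth8]; ring
      _ = 8 * w' := by rw [← hw]; ring
      _ ≤ 16 * w' := by gcongr; norm_num
  exact (ENNReal.mul_le_mul_iff_right (by norm_num) (by norm_num)).1 h16

/-- **T3: the scalar recursion** -/
theorem tail_rec (J : ℕ) {c C : ℝ≥0∞} (hc1 : 1 ≤ c) (hc : c ≠ ∞) (hC1 : 1 ≤ C) (hC : C ≠ ∞) :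
    ∃ t0 : ℝ≥0∞, t0 ≠ 0 ∧ t0 ≤ 1 ∧ ∃ C0 : ℝ≥0∞, 1 ≤ C0 ∧ C0 ≠ ∞ ∧
      ∀ (N : ℕ) (q T E b : ℕ → ℝ≥0∞) (b0 : ℝ≥0∞), T 0 ≤ t0 → b0 ≤ t0 → E 0 ≤ t0 →
        (∀ k < N, b k ≤ b0 * (1 / 2) ^ k) → (∀ k < N, q k ≤ if k < J then c else 1 / 8) →
        (∀ k < N, 32 * C * (b k + c * T k + c * E k) ≤ 1 →
          T (k + 1) ≤ q k * T k + 40 * C * (c * T k) ^ 2) →
        (∀ k < N, 32 * C * (b k + c * T k + c * E k) ≤ 1 →
          E (k + 1) ≤ q k * E k + 40 * C * ((b k + c * T k + c * E k) * (c * E k) +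
            b k * (c * T k))) →
        ∀ k ≤ N, T k ≤ C0 * T 0 * (1 / 2) ^ k ∧ E k ≤ C0 * (E 0 + b0) * (1 / 2) ^ k ∧
          32 * C * (c * T k) ≤ 1 ∧ 32 * C * (b0 * (1 / 2) ^ k + c * T k + c * E k) ≤ 1 := by
  set S : ℝ≥0∞ := (4 * c) ^ J with hS
  have h4 : (1 : ℝ≥0∞) ≤ 4 * c := by
    calc (1 : ℝ≥0∞) = 1 * 1 := by ring
      _ ≤ 4 * c := mul_le_mul' (by norm_num) hc1
  have hS1 : 1 ≤ S := one_le_pow₀ h4
  have hSt : S ≠ ∞ := ENNReal.pow_ne_top (ENNReal.mul_ne_top (by norm_num) hc)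
  set D : ℝ≥0∞ := 2560 * C * c ^ 2 * S with hD
  have hDt : D ≠ ∞ := by
    rw [hD]
    exact ENNReal.mul_ne_top (ENNReal.mul_ne_top (ENNReal.mul_ne_top (by norm_num) hC)
      (ENNReal.pow_ne_top hc)) hSt
  have hc21 : 1 ≤ c ^ 2 := one_le_pow₀ hc1
  have hD1 : 1 ≤ D := by
    calc (1 : ℝ≥0∞) = 1 * 1 * 1 * 1 := by ring
      _ ≤ 2560 * C * c ^ 2 * S := by gcongr; norm_num
  have hD0 : D ≠ 0 := fun h => by rw [h] at hD1; exact absurd hD1 (by norm_num)
  refine ⟨D⁻¹, ENNReal.inv_ne_zero.2 hDt, ENNReal.inv_le_one.2 hD1, S, hS1, hSt, ?_⟩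
  intro N q T E b b0 hT0 hb0 hE0 hb hq hT hE
  have hsm : 2560 * C * c ^ 2 * (S * D⁻¹) ≤ 1 := by
    calc 2560 * C * c ^ 2 * (S * D⁻¹) = D * D⁻¹ := by rw [hD]; ring
      _ = 1 := ENNReal.mul_inv_cancel hD0 hDt
      _ ≤ 1 := le_rfl
  set t0 : ℝ≥0∞ := D⁻¹ with ht0
  set x : ℝ≥0∞ := E 0 + b0 with hx
  have hx2 : x ≤ 2 * t0 := by
    calc x ≤ t0 + t0 := add_le_add hE0 hb0
      _ = 2 * t0 := by ring
  -- consequences of the smallness
  have small : ∀ k, T k ≤ wr c J k * T 0 → E k ≤ wr c J k * x →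
      c * (b0 * (1 / 2) ^ k + c * T k + c * E k) ≤ 4 * (c ^ 2 * (S * t0)) := by
    intro k h1 h2
    have e1 : T k ≤ S * t0 := h1.trans (mul_le_mul' (wr_le hc1 k) hT0)
    have e2 : E k ≤ S * (2 * t0) := h2.trans (mul_le_mul' (wr_le hc1 k) hx2)
    have e3 : b0 * (1 / 2) ^ k ≤ S * t0 := by
      calc b0 * (1 / 2) ^ k ≤ t0 * 1 := mul_le_mul' hb0 (pow_le_one₀ (by simp) half_le)
        _ = 1 * t0 := by ring
        _ ≤ S * t0 := by gcongr
    calc c * (b0 * (1 / 2) ^ k + c * T k + c * E k)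
        ≤ c * (1 * (S * t0) + c * (S * t0) + c * (S * (2 * t0))) := by
          rw [one_mul]; gcongr
      _ ≤ c * (c * (S * t0) + c * (S * t0) + c * (S * (2 * t0))) := by gcongr
      _ = 4 * (c ^ 2 * (S * t0)) := by ring
  have cond : ∀ k, T k ≤ wr c J k * T 0 → E k ≤ wr c J k * x →
      640 * C * (c * (b0 * (1 / 2) ^ k + c * T k + c * E k)) ≤ 1 := by
    intro k h1 h2
    calc 640 * C * (c * (b0 * (1 / 2) ^ k + c * T k + c * E k))
        ≤ 640 * C * (4 * (c ^ 2 * (S * t0))) := mul_le_mul_right (small k h1 h2) _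
      _ = 2560 * C * c ^ 2 * (S * t0) := by ring
      _ ≤ 1 := hsm
  have key : ∀ k ≤ N, T k ≤ wr c J k * T 0 ∧ E k ≤ wr c J k * x := by
    intro k
    induction k with
    | zero => intro _; rw [wr_zero, one_mul, one_mul]; exact ⟨le_rfl, le_self_add⟩
    | succ k ih =>
      intro hk
      have hk' : k < N := by omega
      obtain ⟨i1, i2⟩ := ih hk'.le
      have hcd := cond k i1 i2
      have hbk := hb k hk'
      set σ : ℝ≥0∞ := b0 * (1 / 2) ^ k + c * T k + c * E k with hσ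
      have c1 : 32 * C * σ ≤ 1 := by
        refine le_trans ?_ hcd
        calc 32 * C * σ = 32 * C * (1 * σ) := by rw [one_mul]
          _ ≤ 640 * C * (c * σ) := by gcongr; norm_num
      have hTσ : c * T k ≤ σ := le_add_self.trans le_self_add
      have c2 : 32 * C * (c * T k) ≤ 1 := (mul_le_mul_right hTσ _).trans c1
      have hσ' : b k + c * T k + c * E k ≤ σ := by rw [hσ]; gcongr
      have c3 : 32 * C * (b k + c * T k + c * E k) ≤ 1 := (mul_le_mul_right hσ' _).trans c1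
      -- coefficients
      have s1 : 16 * (40 * C * (c ^ 2 * T k)) ≤ 1 := by
        refine le_trans ?_ hcd
        calc 16 * (40 * C * (c ^ 2 * T k)) = 640 * C * (c * (c * T k)) := by ring
          _ ≤ 640 * C * (c * σ) := by gcongr
      have s2 : 16 * (40 * C * (c * σ)) ≤ 1 := by
        refine le_trans (le_of_eq ?_) hcd
        ring
      have u2 : 16 * (40 * C * (b k * (c * T k))) ≤ wr c J k * x := by
        calc 16 * (40 * C * (b k * (c * T k))) = 640 * C * (c * T k) * b k := by ring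
          _ ≤ 640 * C * (c * σ) * b k := by
              gcongr
              calc T k = 1 * T k := (one_mul _).symm
                _ ≤ c * T k := by gcongr
                _ ≤ σ := hTσ
          _ ≤ 1 * b k := mul_le_mul_left hcd _
          _ = b k := one_mul _
          _ ≤ b0 * (1 / 2) ^ k := hbk
          _ ≤ x * wr c J k := mul_le_mul' le_add_self (half_le_wr hc1 k)
          _ = wr c J k * x := mul_comm _ _
      have tT : T (k + 1) ≤ q k * T k + 40 * C * (c ^ 2 * T k) * T k + 0 := by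
        refine (hT k hk' c3).trans (le_of_eq ?_)
        ring
      have tE : E (k + 1) ≤ q k * E k + 40 * C * (c * σ) * E k + 40 * C * (b k * (c * T k)) := by
        refine (hE k hk' c3).trans ?_
        calc q k * E k + 40 * C * ((b k + c * T k + c * E k) * (c * E k) + b k * (c * T k))
            ≤ q k * E k + 40 * C * (σ * (c * E k) + b k * (c * T k)) := by gcongr
          _ = _ := by ring
      by_cases hJ : k < J
      · have hqk : q k ≤ c := by have := hq k hk'; rwa [if_pos hJ] at this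
        rw [wr_crude hJ]
        constructor
        · have := crude_step hc1 hqk s1 (u := 0) (w := wr c J k * T 0) (by simp) i1 tT
          calc T (k + 1) ≤ 2 * c * (wr c J k * T 0) := this
            _ = 2 * c * wr c J k * T 0 := by ring
        · have := crude_step hc1 hqk s2 (w := wr c J k * x) u2 i2 tE
          calc E (k + 1) ≤ 2 * c * (wr c J k * x) := this
            _ = 2 * c * wr c J k * x := by ring
      · have hqk : q k ≤ 1 / 8 := by have := hq k hk'; rwa [if_neg hJ] at this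
        have hw := wr_coarse (c := c) (J := J) (k := k) (by omega)
        constructor
        · refine coarse_step hqk s1 (u := 0) (w := wr c J k * T 0) (by simp) i1 ?_ tT
          rw [← mul_assoc, hw]
        · refine coarse_step hqk s2 (w := wr c J k * x) u2 i2 ?_ tE
          rw [← mul_assoc, hw]
  intro k hk
  obtain ⟨i1, i2⟩ := key k hk
  have hcd := cond k i1 i2
  set σ : ℝ≥0∞ := b0 * (1 / 2) ^ k + c * T k + c * E k with hσ
  have c1 : 32 * C * σ ≤ 1 := by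
    refine le_trans ?_ hcd
    calc 32 * C * σ = 32 * C * (1 * σ) := by rw [one_mul]
      _ ≤ 640 * C * (c * σ) := by gcongr; norm_num
  have hTσ : c * T k ≤ σ := le_add_self.trans le_self_add
  have hw : wr c J k ≤ S * (1 / 2) ^ k := by
    unfold wr
    exact mul_le_mul_left (pow_le_pow_right₀ h4 (min_le_right _ _)) _
  refine ⟨i1.trans ?_, i2.trans ?_, (mul_le_mul_right hTσ _).trans c1, c1⟩
  · calc wr c J k * T 0 ≤ S * (1 / 2) ^ k * T 0 := mul_le_mul_left hw _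
      _ = S * T 0 * (1 / 2) ^ k := by ring
  · calc wr c J k * x ≤ S * (1 / 2) ^ k * x := mul_le_mul_left hw _
      _ = S * x * (1 / 2) ^ k := by ring

end rec

end Crest.Agent.R165.SrcTailx999
end

-- ▼ part R165/SrcTail3b_999
section

/-!
# Row 165 (S0250), SrcTail, T3 on the literal names of 441 (helper999)

`scalarT3` : for all `J`, `1 ≤ c < ∞`, `1 ≤ C < ∞` there are `t0 > 0`, `C0 ≥ 1` with
`ScalarT3 J c C t0 C0`.
-/

set_option autoImplicit false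

open scoped ENNReal

namespace Crest.Agent.R165.SrcTailx999

open Crest.Agent.R165.SrcTailAllx441

theorem half_pow_ofReal (k : ℕ) : (1 / 2 : ℝ≥0∞) ^ k = ENNReal.ofReal ((2 ^ k : ℝ)⁻¹) := by
  rw [ENNReal.ofReal_inv_of_pos (by positivity), ENNReal.ofReal_pow (by norm_num), one_div,
    ENNReal.inv_pow]
  norm_num

/-- **T3, literal form of 441** -/
theorem scalarT3 (J : ℕ) {c C : ℝ≥0∞} (hc1 : 1 ≤ c) (hc : c ≠ ∞) (hC1 : 1 ≤ C) (hC : C ≠ ∞) :
    ∃ t0 : ℝ, 0 < t0 ∧ ∃ C0 : ℝ, 1 ≤ C0 ∧ ScalarT3 J c C t0 C0 := by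
  obtain ⟨t, ht0, ht1, C0, hC01, hC0t, H⟩ := tail_rec J hc1 hc hC1 hC
  have htt : t ≠ ∞ := ne_top_of_le_ne_top (by norm_num) ht1
  refine ⟨t.toReal, ENNReal.toReal_pos ht0 htt, C0.toReal, ?_, ?_⟩
  · have := ENNReal.toReal_mono hC0t hC01
    simpa using this
  intro N q b T E b0 e0 τ0 hb0 he0 hτ0 hb1 he1 hτ1 hq1 hq2 hb hT hE sT sE k hk
  have hle : ∀ x : ℝ, x ≤ t.toReal → ENNReal.ofReal x ≤ t := fun x hx =>
    (ENNReal.ofReal_le_ofReal hx).trans (le_of_eq (ENNReal.ofReal_toReal htt))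
  have hb' : ∀ j < N, b j ≤ ENNReal.ofReal b0 * (1 / 2) ^ j := fun j hj => by
    refine (hb j hj).trans (le_of_eq ?_)
    rw [half_pow_ofReal, ← ENNReal.ofReal_mul hb0, div_eq_mul_inv]
  have hq' : ∀ j < N, q j ≤ if j < J then c else 1 / 8 := fun j hj => by
    split_ifs with h
    · exact hq1 j hj h
    · rw [one_div]; exact hq2 j hj (not_lt.1 h)
  obtain ⟨r1, r2, -, -⟩ := H N q T E b (ENNReal.ofReal b0) (hT.trans (hle _ hτ1)) (hle _ hb1)
    (hE.trans (hle _ he1)) hb' hq' sT sE k hk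
  · have h0 : 0 ≤ C0.toReal := ENNReal.toReal_nonneg
    constructor
    · refine r1.trans ?_
      rw [half_pow_ofReal]
      calc C0 * T 0 * ENNReal.ofReal ((2 ^ k : ℝ)⁻¹)
          ≤ ENNReal.ofReal C0.toReal * ENNReal.ofReal τ0 * ENNReal.ofReal ((2 ^ k : ℝ)⁻¹) := by
            rw [ENNReal.ofReal_toReal hC0t]; gcongr
        _ = _ := by
            rw [← ENNReal.ofReal_mul h0, ← ENNReal.ofReal_mul (by positivity), div_eq_mul_inv]
    · refine r2.trans ?_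
      rw [half_pow_ofReal]
      calc C0 * (E 0 + ENNReal.ofReal b0) * ENNReal.ofReal ((2 ^ k : ℝ)⁻¹)
          ≤ ENNReal.ofReal C0.toReal * (ENNReal.ofReal e0 + ENNReal.ofReal b0) *
              ENNReal.ofReal ((2 ^ k : ℝ)⁻¹) := by
            rw [ENNReal.ofReal_toReal hC0t]; gcongr
        _ = _ := by
            rw [← ENNReal.ofReal_add he0 hb0, ← ENNReal.ofReal_mul h0,
              ← ENNReal.ofReal_mul (by positivity), div_eq_mul_inv]

end Crest.Agent.R165.SrcTailx999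
end

-- ▼ part R165/EnPLim_811

/-!
# Row 165 (S0250), leaf EnR: energy ratios in the large discs (helper811)

* `ev_cW0` : the amplitudes are above the Gram weights of the slices
* `enP_of` : **`ERP` for all constants** from the fine phase of the large discs (`FineD`)
-/

set_option autoImplicit false
set_option linter.unusedSectionVars false
set_option linter.unusedVariables false

noncomputable section

namespace Crest.Agent.R165.EnPLimx811

open Finset Filter Topology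
open scoped ENNReal
open Crest.ProbabilityR.IsingModel
open Crest.Agent.R165.KStepx892
open Crest.Agent.R165.Gr0x606 Crest.Agent.R165.Gr1x606 Crest.Agent.R165.GeOpsx337
  Crest.Agent.R165.ExpGx337 Crest.Agent.R165.KFlowx337 Crest.Agent.R165.PNormx417
open Crest.Agent.R165.SrcDefx991 (VS Src tau ext0 inG coP vacH vacS GS wS)
open Crest.Agent.R165.Latx683 (BW wDom wX wPl IsCov covS Fld HE)
open Crest.Agent.R165.GDefx387 Crest.Agent.R165.GSysx387 Crest.Agent.R165.FRDPolyx439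
  Crest.Agent.R165.BgIsox432 Crest.Agent.R165.PStepx417
open Crest.Agent.R165.Bkgx683 (MPar mpar Bg cor bondSrc)
open Crest.Agent.R165.J4Geox126 (faE)
open Crest.Agent.R165.JRunSx408 (SrcOK eb xb VolS)
open Crest.Agent.R165.SrcInsx991
open Crest.Agent.R165.SrcDomx697 (c0D)
open Crest.Agent.R165.PEndx683 Crest.Agent.R165.Outx683 Crest.Agent.R165.Constx891
open Crest.Agent.R165.SRx541
open Crest.Agent.R165.SRdomAx900 (Lam)
open Crest.Agent.R165.SrcTailAllx441 (ScalarT3 TailH)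
open Crest.Agent.R165.SrcCmpx441 (RunPack ERP_of_run)
open Crest.Agent.R165.W0Sx897 (cW0 cW0_pos)
open Crest.Agent.R165.StepOKx838 (abs_wX_dom)
open Crest.Agent.R165.EnWx359 (DiscEv discBg grDisc sfDisc flDisc disc_ev)
open Crest.Agent.R165.EnFinex811 Crest.Agent.R165.TailDx999 Crest.Agent.R165.TailNAx999
open Crest.Agent.R165.Centx541 Crest.Agent.R165.Redx541 Crest.Agent.R165.Symx541
  Crest.Agent.R165.Red2x541 Crest.Agent.R165.Topx683
open Crest.Agent.R165.DiscKx892 Crest.Agent.R165.DiscPhx892 Crest.Agent.R165.DiscCompx722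
open Crest.Agent.R165.SrcDiscUx610 (ev_tail TH rs)
open Crest.Agent.R165.EnPBulkx387 (ev_hb)
open Crest.Agent.R165.CovPkgx359 (cPl cPl_pos)
open Crest.Agent.R165.Compx889 (NPc)
open Crest.Agent.R165.DefRecx915 (allP)

/-! ### constants -/

/-- the amplitudes are above the Gram weights of the slices -/
theorem ev_cW0 : EvC fun c => ∀ n, cW0 DD c.p c.k0 n ≤ c.A0 := by
  refine (ev_A0_ge fun p _ k0 => 7 * √DD.C * (((rr p k0 1 : ℕ) : ℝ) ^ MM + ((2 : ℝ) ^ p) ^ MM)).mono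
    fun c hc n => ?_
  refine le_trans ?_ hc
  unfold cW0
  refine mul_le_mul_of_nonneg_left ?_ (by positivity)
  split_ifs
  · exact le_add_of_nonneg_right (by positivity)
  · exact le_add_of_nonneg_left (by positivity)

/-- the choice of the source weight -/
theorem exists_s {X t0 : ℝ} (hX : 0 ≤ X) (ht : 0 < t0) : ∃ s : ℝ, 0 < s ∧ s ≤ 1 ∧ s ^ 2 * X ≤ t0 := by
  refine ⟨min 1 (t0 / (X + 1)), by positivity, min_le_left _ _, ?_⟩
  set s := min 1 (t0 / (X + 1)) with hs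
  have h0 : 0 < s := by positivity
  have h1 : s ≤ 1 := min_le_left _ _
  have h2 : s ≤ t0 / (X + 1) := min_le_right _ _
  have h3 : s ^ 2 ≤ s := by nlinarith
  calc s ^ 2 * X ≤ t0 / (X + 1) * X := by gcongr; exact h3.trans h2
    _ = t0 * (X / (X + 1)) := by ring
    _ ≤ t0 * 1 := by
        gcongr
        rw [div_le_one (by positivity)]
        linarith
    _ = t0 := mul_one _

/-- `z` is above `-1` -/
theorem z_pos {J C lam β z : ℝ} (h : NearP J C lam β z) (hl : |lam| < 1 / (|C| + 1)) :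
    0 < 1 + z := by
  have h1 : |z| ≤ C * |lam| := (le_add_of_nonneg_left (abs_nonneg _)).trans h
  have h2 : C * |lam| ≤ |C| * |lam| := mul_le_mul_of_nonneg_right (le_abs_self C) (abs_nonneg _)
  have h3 : |C| * |lam| ≤ (|C| + 1) * |lam| :=
    mul_le_mul_of_nonneg_right (by linarith) (abs_nonneg _)
  have h4 : (|C| + 1) * |lam| < 1 := by
    have h5 : 0 < |C| + 1 := by positivity
    calc (|C| + 1) * |lam| < (|C| + 1) * (1 / (|C| + 1)) := by gcongr
      _ = 1 := by field_simp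
  have h6 := abs_le.1 (h1.trans (h2.trans h3))
  linarith [h6.1]

/-- the exponential gain against the amplitudes -/
theorem amp_small (c : Cst) {p k0 : ℕ} (hp : 1 ≤ p) {u : ℝ} (hu : 0 < u) {σ : ℝ} (h0 : 0 ≤ σ)
    (h1 : σ < 1) (n : ℕ) :
    Tendsto (fun a => Outx683.amp c (k1 p k0 u a) ^ n * σ ^ k1 p k0 u a) (𝓝[>] 0) (𝓝 0) :=
  (Compx889.amp_pow_mul_tendsto c.A0 c.δ h0 h1 n).comp (k1_tendsto hp k0 hu)

theorem pow_small {p k0 : ℕ} (hp : 1 ≤ p) {u : ℝ} (hu : 0 < u) {σ : ℝ} (h0 : 0 ≤ σ)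
    (h1 : σ < 1) : Tendsto (fun a => σ ^ k1 p k0 u a) (𝓝[>] (0 : ℝ)) (𝓝 0) :=
  (tendsto_pow_atTop_nhds_zero_of_lt_one h0 h1).comp (k1_tendsto hp k0 hu)

theorem small_ev {l : Filter ℝ} {f : ℝ → ℝ} (h : Tendsto f l (𝓝 0)) (X : ℝ) {t : ℝ}
    (ht : 0 < t) : ∀ᶠ a in l, X * f a ≤ t := by
  have := h.const_mul X
  rw [mul_zero] at this
  exact (this.eventually_lt_const ht).mono fun _ h => h.le

/-- **energy ratios in the large discs**, for all constants, from the fine phase -/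
theorem enP_of {J : ℝ} (hJ : 0 < J) {R : ℕ} {V : Finset (ℤ × ℤ) → ℝ} (hV : VHyp R V)
    {Ze : Cst → ℝ → ℝ → ℝ → ℝ} {em : Cst → ℝ → ℝ → ℝ → Fin 2 → ℝ}
    (hF : ForP J (PF J R V) fun c lam β z =>
      FineD J lam R V β z c (Ze c lam β z) (em c lam β z)) :
    ForP J (PF J R V) fun c lam β z => ERP J lam R V β (Ze c lam β z) (em c lam β z) := by
  refine ev_mono3 (EvC.and hF (ev_disc3c (PlBx117.plB (J := J) hV))) (ev_tail (max R 1)) ev_cW0 ?_
  rintro c ⟨hF, hc, hcr, h5, CF, hCF, C1, hgood, c1, hc1, hD3⟩ ⟨hN3, CB, hCB, c2, hc2, hTail⟩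
    hcW C
  obtain ⟨ε1, hε1, hF⟩ := hF C
  obtain ⟨ε2, hε2, M0, hM0, hD3⟩ := hD3 C
  refine ⟨min (min ε1 ε2) (1 / (|C| + 1)), by positivity, ?_⟩
  intro lam β z hlam hnear hPF
  obtain ⟨⟨hl1, hl2⟩, hl3⟩ : (|lam| < ε1 ∧ |lam| < ε2) ∧ |lam| < 1 / (|C| + 1) := by
    rw [lt_min_iff, lt_min_iff] at hlam
    exact hlam
  have hz := z_pos hnear hl3
  have hFD := hF lam β z hl1 hnear hPF
  have hp : 1 ≤ c.p := by have := hc.p_pos; omega
  have hΓ : 1 ≤ c.Γ := by have := hc.Γ_ge; linarith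
  have hA0 : 1 ≤ c.A0 := hc.A0_ge
  have hδ : 0 ≤ c.δ := hc.δ_pos.le
  have hnR : 1 ≤ nearR c.p c.k0 0 := by
    unfold nearR rr
    rw [Nat.le_div_iff_mul_le (by norm_num)]
    calc 1 * 8 ≤ 2 ^ 5 := by norm_num
      _ ≤ 2 ^ (c.p * (c.k0 + (0 + 1))) := Nat.pow_le_pow_right (by norm_num) (by simpa using h5)
  refine ERP_of_run fun n m hm hn x y j hinj => ?_
  have hx : Function.Injective x := fun i i' h => by
    have := @hinj (Fin.castAdd m i) (Fin.castAdd m i') (by simpa using h)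
    simpa using this
  have hy : Function.Injective y := fun i i' h => by
    have := @hinj (Fin.natAdd n i) (Fin.natAdd n i') (by simpa using h)
    simpa using this
  obtain ⟨u1, hu1, hFD⟩ := hFD n m hm hn x y j hinj
  obtain ⟨u0, v0, hu0, huv0, hD3⟩ := hD3 n hn x hx
  obtain ⟨u0', v0', hu0', huv0', hTail⟩ := hTail n hn x hx
  obtain ⟨cs, hcs, hsep⟩ := disc_ev x j hy
  -- the parameters
  set u := min (min u0 u0') (min u1 (cs / 2 ^ c.p)) with hu_def
  set v := max v0 v0' with hv_def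
  set cc := min c1 c2 with hcc_def
  have hu : 0 < u := by positivity
  have hu_0 : u ≤ u0 := (min_le_left _ _).trans (min_le_left _ _)
  have hu_0' : u ≤ u0' := (min_le_left _ _).trans (min_le_right _ _)
  have hu_1 : u ≤ u1 := (min_le_right _ _).trans (min_le_left _ _)
  have hu_s : 2 ^ c.p * u ≤ cs := by
    have h1 : u ≤ cs / 2 ^ c.p := (min_le_right _ _).trans (min_le_right _ _)
    rwa [le_div_iff₀' (by positivity)] at h1
  have hv_0 : v0 ≤ v := le_max_left _ _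
  have hv_0' : v0' ≤ v := le_max_right _ _
  have huv : u ≤ v := hu_0.trans (huv0.trans hv_0)
  have hcc : 0 < cc := lt_min hc1 hc2
  obtain ⟨Jn1, MJ, hMJ, hevD⟩ := hD3 u v cc hu hu_0 hv_0 hcc (min_le_left _ _)
  obtain ⟨Jn, hevT⟩ := hTail u v cc hu hu_0' hv_0' hcc (min_le_right _ _)
  have hevS := hsep c.p c.k0 R u hu hu_s
  have hevH := ev_hb hc huv hcc (max R 1) MJ |lam|
    (e := fun a => (1 / 2) ^ k1 c.p c.k0 u a) fun a _ => by positivity
  obtain ⟨σ, Ce, M, κ, vs, hσ0, hσ1, hCe, hM, hκ, hevF⟩ := hFD u hu hu_1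
  obtain ⟨t0, ht0, C0, hC0, h3⟩ := SrcTailx999.scalarT3 Jn (c := 2 * 3)
    (C := (StepGluex897.N3 c.p : ℝ≥0∞)) (by norm_num) (by norm_num) hN3 (ENNReal.natCast_ne_top _)
  have hC00 : 0 ≤ C0 := by linarith
  obtain ⟨s, hs0, hs1, hsX⟩ := exists_s (X := m * (2 * (c.Γ * M))) (by positivity) ht0
  have hsM : 0 ≤ s ^ 2 * M := by positivity
  have hMJ0 : 0 ≤ MJ := by linarith
  set Cb := CB * (MJ * |lam|) + 1 with hCb_def
  have hCb : 0 < Cb := by positivity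
  set Y := 1 + m * (c.Γ * (s ^ 2 * M)) with hY_def
  have hY : 0 ≤ Y := by positivity
  set κ' := cc / 2 ^ c.p with hκ'_def
  have hκ' : 0 < κ' := by positivity
  have hampT := aD_tendsto (u := u) (v := v) (c := cc) (A₀ := c.A0) (δ := c.δ) (q := qD c) hp c.k0
    huv hcc (by linarith) hc.δ_pos (by have := one_le_qD c; linarith)
  refine ⟨m * (2 * (s ^ 2 * M)) + 3 * (C0 * (m * (2 * (c.Γ * (s ^ 2 * M))))), s ^ 2 * κ,
    fun a => Outx683.amp c (k1 c.p c.k0 u a), fun a => (1 / 2) ^ k1 c.p c.k0 u a +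
      (m + 2 ^ m) * (Ce * σ ^ k1 c.p c.k0 u a) +
      3 * (C0 * (Ce * σ ^ k1 c.p c.k0 u a * Y + Cb * (1 / 2) ^ k1 c.p c.k0 u a)),
    by positivity, Eventually.of_forall fun a => ?_, ?_, ?_⟩
  · show 1 ≤ c.A0 * (1 + c.δ * (k1 c.p c.k0 u a : ℝ))
    have h1 : 0 ≤ c.δ * (k1 c.p c.k0 u a : ℝ) := by positivity
    nlinarith
  · have h1 := (amp_small c (k0 := c.k0) hp hu (by norm_num : (0 : ℝ) ≤ 1 / 2) (by norm_num)
      (2 * m)).const_mul (1 + 3 * (C0 * Cb))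
    have h2 := (amp_small c (k0 := c.k0) hp hu hσ0 hσ1 (2 * m)).const_mul
      ((m + 2 ^ m) * Ce + 3 * (C0 * (Ce * Y)))
    have h4 := h1.add h2
    rw [mul_zero, mul_zero, add_zero] at h4
    refine h4.congr fun a => ?_
    ring
  · -- all events along `dl`
    have hE : ∀ᶠ P : ℝ × ℝ in dl, DiscEv c.p c.k0 R P.1 P.2 x y j (k1 c.p c.k0 u P.1) ∧
        k1 c.p c.k0 u P.1 ≤ kf c.p c.k0 cc P ∧ 1 ≤ kf c.p c.k0 cc P ∧
        7 * √(DD.C / (cPl * κ')) ≤ aC c (k1 c.p c.k0 u P.1) (k2 c.p c.k0 v P.1)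
          (kf c.p c.k0 cc P) ∧
        k1 c.p c.k0 u P.1 ≤ k2 c.p c.k0 v P.1 ∧
        qD c ^ (k2 c.p c.k0 v P.1 - k1 c.p c.k0 u P.1) ≤ 1 + c.δ * k1 c.p c.k0 u P.1 ∧
        (∀ (T : Finset (ℤ × ℤ)), (T : Set (ℤ × ℤ)) =
          domainSites (Metric.ball (0 : ℂ) P.2) P.1 →
          Out3 c (domF c (mpar J lam R V β z) T .plus fun i => meshIndex P.1 (x i))
            (Bg.dom T .plus fun i => meshIndex P.1 (x i)).w (k1 c.p c.k0 u P.1)
            (k2 c.p c.k0 v P.1) (kf c.p c.k0 cc P) M0 MJ |lam| ∧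
          ∀ (D DL : Sys (ℤ × ℤ) (VS (Fld ℤ) m))
            (Pc : ℕ → Finset (ℤ × ℤ) → Ge (VS (Fld ℤ) m) → Prop),
            (∀ j U X, Pc j U X → SrcDiscUx610.AdmT c (k1 c.p c.k0 u P.1) j U X) →
            (∀ j U, Pc j U (DL.K j U)) →
            (∀ j U, Pc j U (SrcTailx441.PT (rs (domF c (mpar J lam R V β z) T .plus
              fun i => meshIndex P.1 (x i)) (k1 c.p c.k0 u P.1)) D DL j U)) →
            ∀ vv : Fin m → ℝ≥0∞, (∀ i, vv i ≠ ∞) → (∀ i, vv i ≠ 0) →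
            TH c (Bg.dom T .plus fun i => meshIndex P.1 (x i)).w (k1 c.p c.k0 u P.1)
              (k2 c.p c.k0 v P.1) (kf c.p c.k0 cc P) Jn
              (rs (domF c (mpar J lam R V β z) T .plus fun i => meshIndex P.1 (x i))
              (k1 c.p c.k0 u P.1)) D DL Pc vv (Cb * (1 / 2) ^ k1 c.p c.k0 u P.1)) ∧
        (∀ (h : DiscEv c.p c.k0 R P.1 P.2 x y j (k1 c.p c.k0 u P.1)) (D : Sys (ℤ × ℤ) (Fld ℤ)),
          NPc c D (discBg h).w (aC c (k1 c.p c.k0 u P.1) (k2 c.p c.k0 v P.1)) allP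
            (kf c.p c.k0 cc P) ≤ ENNReal.ofReal (MJ * |lam| * (1 / 2) ^ kf c.p c.k0 cc P) →
          ∑ U ∈ KStepx892.nes (Lam P.2 (max R 1) P.1),
            pG (grDisc h (kf c.p c.k0 cc P)) (D.K (kf c.p c.k0 cc P) U) ≤
              ENNReal.ofReal ((1 / 2) ^ k1 c.p c.k0 u P.1)) := by
      filter_upwards [hevS, k1_le_kf hp c.k0 hcc u,
        (kf_tendsto hp c.k0 hcc).eventually_ge_atTop 1,
        hampT.eventually_ge_atTop (7 * √(DD.C / (cPl * κ'))), hevD, hevT, hevH]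
        with P e1 e2 e3 e4 e5 e6 e7
      obtain ⟨_, g2, _, g4, g5⟩ := e5
      refine ⟨e1, e2, e3, e4, g2, g4, fun T hT => ?_, fun h D hD => e7 R n m x y j _ h D hD⟩
      have hO := ((g5 lam β z hl2 hnear hPF T hT .plus).1).out
      refine ⟨hO, fun D DL Pc a1 a2 a3 vv a4 a5 => ?_⟩
      refine e6 (mpar J lam R V β z) ?_ T hT .plus M0 MJ |lam| (by positivity) hO m D DL Pc a1 a2
        a3 vv a4 a5 _ ?_
      · exact le_refl (max R 1)
      · refine mul_le_mul_of_nonneg_right ?_ (by positivity)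
        rw [hCb_def]
        linarith
    rw [dl, eventually_curry_iff] at hE
    have hb0 := small_ev (pow_small (k0 := c.k0) hp hu (by norm_num : (0 : ℝ) ≤ 1 / 2)
      (by norm_num)) Cb ht0
    have hb1 := small_ev (pow_small (k0 := c.k0) hp hu hσ0 hσ1) (Ce * Y) ht0
    filter_upwards [hE, hevF, hb0, hb1, self_mem_nhdsWithin] with a hE ⟨hk, hFa⟩ hb0 hb1 ha
    have ha : 0 < a := ha
    filter_upwards [hE, hFa] with B hE hFa
    obtain ⟨hDE, h1f, h1, hA7, h12, hJq, hTT, hHB⟩ := hE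
    set K₁ := k1 c.p c.k0 u a with hK₁
    set K₂ := k2 c.p c.k0 v a with hK₂
    set Kf := kf c.p c.k0 cc (a, B) with hKf
    have hTc : ((hDE.ok.fin.toFinset : Finset (ℤ × ℤ)) : Set (ℤ × ℤ)) =
        domainSites (Metric.ball (0 : ℂ) B) a := hDE.ok.fin.coe_toFinset
    have hvol : VolS hDE.ok.fin.toFinset .plus (max R 1) (eb a y j) (Lam B (max R 1) a) :=
      SrcDomx697.volS_of_vol (hDE.vol (max R 1))
    have hFine := (hFa hDE.ok.fin.toFinset hTc (Lam B (max R 1) a) hvol hDE.ne).scale hs0 hs1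
    obtain ⟨hO, hTH⟩ := hTT hDE.ok.fin.toFinset hTc
    have hN : K₁ + (Kf - K₁) = Kf := Nat.add_sub_cancel' h1f
    have hsv : 0 < s * vs a := hFine.v0
    have hTail := hTH (tD (discBg hDE) (mpar J lam R V β z) DD ∅ (eb a y j) hDE.ne c.p c.k0 K₁)
      (tL (discBg hDE) (mpar J lam R V β z) DD ∅ (eb a y j) hDE.ne c.p c.k0 K₁ (Ze c lam β z))
      (Pt m c.p c.k0 K₁) (fun j U X h => ⟨h.1, fun _ h0 => (h.2 h0).2⟩)
      (fun j U => tL_P _ _ _ _ _ _ _ _ _ hnR _ j U)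
      (fun j U => PT_P _ _ _ _ _ _ _ _ _ hnR _ j U)
      (fun _ => ENNReal.ofReal (s * vs a)) (fun _ => ENNReal.ofReal_ne_top)
      (fun _ => (ENNReal.ofReal_pos.2 hsv).ne')
    have hrr : κ' * (B / a) ≤ (rr c.p c.k0 (K₁ + (Kf - K₁)) : ℝ) := by
      rw [hN]
      have h3 := lt_rr_kf (k0 := c.k0) hp cc (a, B)
      rw [rr_succ] at h3
      push_cast at h3
      rw [hκ'_def, div_mul_eq_mul_div, div_le_iff₀ (by positivity)]
      have e : cc * B / a = cc * (B / a) := by ring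
      have h4 : cc * B / a < 2 ^ c.p * (rr c.p c.k0 Kf : ℝ) := h3
      rw [e] at h4
      linarith
    refine runPack_disc hDE h5 hJ.ne' hV hz (Kf - K₁) hΓ
      (abs_wX_dom hDE.ok.fin.toFinset _ _) hFine
      (aS := fun k => aC c K₁ K₂ (K₁ + k)) ?_ h3 hC00 (ENNReal.natCast_ne_top _)
      (b0 := Cb * (1 / 2) ^ K₁) (by positivity) hb0 ?_ ?_ hTail ?_ (by rw [hN]; exact h1)
      hκ' hrr ?_ ?_ (ε₁ := (1 / 2) ^ K₁) (by positivity) ?_ ?_
    · show aC c K₁ K₂ (K₁ + 0) = Outx683.amp c K₁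
      rw [Nat.add_zero]
      exact aD_fine h12 le_rfl
    · calc Ce * σ ^ K₁ * Y = Ce * Y * σ ^ K₁ := by ring
        _ ≤ t0 := hb1
    · calc (m : ℝ) * (2 * (c.Γ * (s ^ 2 * M))) = s ^ 2 * (m * (2 * (c.Γ * M))) := by ring
        _ ≤ t0 := hsX
    · intro k _
      exact (hcW _).trans (aC_ge hc h12 hJq _)
    · exact (zero_lt_one.trans_le hA0).trans_le (aC_ge hc h12 hJq _)
    · show 7 * √(DD.C / (cPl * κ')) ≤ aC c K₁ K₂ (K₁ + (Kf - K₁))
      rw [hN]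
      exact hA7
    · rw [hN]
      exact hHB hDE (domF c (mpar J lam R V β z) hDE.ok.fin.toFinset .plus
        fun i => meshIndex a (x i)) (hO.np Kf le_rfl)
    · calc s ^ 2 * κ ≤ s ^ 2 * (a * (Outx683.amp c K₁ ^ 2 * vs a ^ 2)) :=
          mul_le_mul_of_nonneg_left hk (by positivity)
        _ = a * (Outx683.amp c K₁ ^ 2 * (s * vs a) ^ 2) := by ring

end Crest.Agent.R165.EnPLimx811
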