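import Crest.Agent.R165.Mac3_622
import Crest.Agent.R165.MacO_622
import Crest.Agent.R165.MacT_610

-- ▼ part R165/Mac4_622
section

/-!
# Row 165 (S0250), U4/MAC (helper622): convergence of the columns

* `local_gauge'`, `weights_gauge'` : the local gauge with a radius independent of the sequence
* `KR y r` : the annulus `r/4 ≤ |z-y| ≤ r`
* `CS` : sequences of the class with covariances
* `col` : `L²` convergence of the regular columns
* `col_off`, `col_diag` : pointwise convergence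
-/

set_option autoImplicit false
set_option linter.unusedVariables false
set_option linter.unusedSimpArgs false

noncomputable section

open MeasureTheory Filter Topology Set Metric
open Crest.ProbabilityR.IsingModel
open Crest.Agent.R165.Tr1x40 Crest.Agent.R165.RIfx891 Crest.Agent.R165.Embx622
open Crest.Agent.R165.Upx622 Crest.Agent.R165.Tr2x40
open Crest.Agent.R165.Mac0x622 Crest.Agent.R165.Mac1x622 Crest.Agent.R165.MacIx622
open Crest.Agent.R165.Mac2x622 Crest.Agent.R165.Mac3x622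

namespace Crest.Agent.R165.Mac4x622

/-- **local gauge**, uniform radius -/
theorem local_gauge' {n : ℕ} {x : Fin n → ℂ} {z : ℂ} (hz : ∀ i, x i ≠ z) :
    ∃ ρ > 0, ∀ (a : ℕ → ℝ) (V : ℕ → Fin n → Face), (∀ k, 0 < a k) → Tendsto a atTop (𝓝 0) →
      (∀ i, Tendsto (fun k => meshPoint (a k) (V k i)) atTop (𝓝 (x i))) →
      ∀ᶠ k in atTop, ∀ f : Face, ‖meshPoint (a k) f - z‖ < ρ → ∀ h,
        rays (V k) f h = gz x z (V k) f * gz x z (V k) (nb f h) := by
  classical
  -- one insertion at a time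
  have key : ∀ i, ∃ ρ > 0, ∀ (a : ℕ → ℝ) (V : ℕ → Fin n → Face), (∀ k, 0 < a k) →
      Tendsto a atTop (𝓝 0) →
      (∀ i, Tendsto (fun k => meshPoint (a k) (V k i)) atTop (𝓝 (x i))) →
      ∀ᶠ k in atTop, ∀ f : Face, ‖meshPoint (a k) f - z‖ < ρ → ∀ h,
      rayw (V k i) f h = (if rel (x i) z ∧ (V k i).2 ≤ f.2 then (-1 : ℝ) else 1) *
        (if rel (x i) z ∧ (V k i).2 ≤ (nb f h).2 then -1 else 1) := by
    intro i
    by_cases him : (x i).im = z.im
    · rcases lt_trichotomy (x i).re z.re with hre | hre | hre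
      · -- the ray passes through `z`
        have hrel : rel (x i) z := ⟨him, hre⟩
        refine ⟨(z.re - (x i).re) / 2, by linarith, fun a V hpos hlim tip => ?_⟩
        have tr : Tendsto (fun k => a k * ((V k i).1 : ℝ)) atTop (𝓝 (x i).re) :=
          (Complex.continuous_re.tendsto _).comp (tip i)
        filter_upwards [tr.eventually (eventually_lt_nhds (show (x i).re <
          ((x i).re + z.re) / 2 by linarith))] with k hk f hf h
        have h1 : a k * (f.1 : ℝ) > ((x i).re + z.re) / 2 := by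
          have := (Complex.abs_re_le_norm (meshPoint (a k) f - z)).trans_lt hf
          rw [Complex.sub_re, meshPoint_re, abs_lt] at this
          linarith
        have h2 : (V k i).1 ≤ f.1 := by
          have h3 : a k * ((V k i).1 : ℝ) < a k * (f.1 : ℝ) := by linarith
          have h4 := lt_of_mul_lt_mul_left h3 (hpos k).le
          have h5 : (V k i).1 < f.1 := by exact_mod_cast h4
          exact h5.le
        unfold rayw
        fin_cases h <;>
          simp only [hrel, h2, and_true, true_and, nb, Fin.zero_eta, Fin.mk_one, Fin.reduceFinMk,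
            Fin.isValue, Fin.reduceEq, false_and, or_false, false_or, zero_ne_one, one_ne_zero,
            if_false, ite_self] <;>
          split_ifs <;> (try norm_num) <;> (try omega)
      · exact absurd (Complex.ext hre him) (hz i)
      · -- the ray starts to the right of `z`
        have hrel : ¬ rel (x i) z := fun h => by have := h.2; linarith
        refine ⟨((x i).re - z.re) / 2, by linarith, fun a V hpos hlim tip => ?_⟩
        have tr : Tendsto (fun k => a k * ((V k i).1 : ℝ)) atTop (𝓝 (x i).re) :=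
          (Complex.continuous_re.tendsto _).comp (tip i)
        filter_upwards [tr.eventually (eventually_gt_nhds (show (x i).re >
          ((x i).re + z.re) / 2 by linarith))] with k hk f hf h
        have h1 : a k * (f.1 : ℝ) < ((x i).re + z.re) / 2 := by
          have := (Complex.abs_re_le_norm (meshPoint (a k) f - z)).trans_lt hf
          rw [Complex.sub_re, meshPoint_re, abs_lt] at this
          linarith
        have h2 : ¬ (V k i).1 ≤ f.1 := by
          have h3 : a k * (f.1 : ℝ) < a k * ((V k i).1 : ℝ) := by linarith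
          have h4 := lt_of_mul_lt_mul_left h3 (hpos k).le
          have h5 : f.1 < (V k i).1 := by exact_mod_cast h4
          omega
        simp [rayw, hrel, h2]
    · -- the ray is at a different height
      have hrel : ¬ rel (x i) z := fun h => him h.1
      set d := |(x i).im - z.im| with hd
      have hd0 : 0 < d := abs_pos.2 (sub_ne_zero.2 him)
      refine ⟨d / 4, by linarith, fun a V hpos hlim tip => ?_⟩
      have ti : Tendsto (fun k => a k * ((V k i).2 : ℝ)) atTop (𝓝 (x i).im) :=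
        (Complex.continuous_im.tendsto _).comp (tip i)
      have e1 : ∀ᶠ k in atTop, |a k * ((V k i).2 : ℝ) - (x i).im| < d / 4 := by
        have := (Metric.tendsto_nhds.1 ti) (d / 4) (by linarith)
        simpa [Real.dist_eq] using this
      have e2 : ∀ᶠ k in atTop, a k < d / 4 := hlim.eventually (eventually_lt_nhds (by linarith))
      filter_upwards [e1, e2] with k h1 h2 f hf h
      have h3 : |a k * (f.2 : ℝ) - z.im| < d / 4 := by
        have := (Complex.abs_im_le_norm (meshPoint (a k) f - z)).trans_lt hf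
        rwa [Complex.sub_im, meshPoint_im] at this
      have h4 : f.2 ≠ (V k i).2 := by
        intro hc
        rw [hc] at h3
        have : d ≤ |a k * ((V k i).2 : ℝ) - (x i).im| + |a k * ((V k i).2 : ℝ) - z.im| := by
          rw [hd]
          have e : (x i).im - z.im = -(a k * ((V k i).2 : ℝ) - (x i).im) +
            (a k * ((V k i).2 : ℝ) - z.im) := by ring
          rw [e]
          refine (abs_add_le _ _).trans ?_
          rw [abs_neg]
        linarith
      have h5 : f.2 + 1 ≠ (V k i).2 := by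
        intro hc
        have hc' : ((V k i).2 : ℝ) = (f.2 : ℝ) + 1 := by rw [← hc]; push_cast; ring
        have : d ≤ |a k * ((V k i).2 : ℝ) - (x i).im| + |a k * (f.2 : ℝ) - z.im| + a k := by
          rw [hd]
          have e : (x i).im - z.im = -(a k * ((V k i).2 : ℝ) - (x i).im) +
            (a k * (f.2 : ℝ) - z.im) + a k := by rw [hc']; ring
          rw [e]
          refine (abs_add_le _ _).trans ?_
          rw [abs_of_pos (hpos k)]
          have := abs_add_le (-(a k * ((V k i).2 : ℝ) - (x i).im)) (a k * (f.2 : ℝ) - z.im)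
          rw [abs_neg] at this
          linarith
        linarith
      simp [rayw, hrel, h4, h5]
  choose ρ hρ hk using key
  obtain ⟨r, hr0, hr⟩ : ∃ r > 0, ∀ i, r ≤ ρ i := by
    rcases isEmpty_or_nonempty (Fin n) with he | he
    · exact ⟨1, one_pos, fun i => (he.false i).elim⟩
    · refine ⟨Finset.univ.inf' Finset.univ_nonempty ρ, ?_, fun i =>
        Finset.inf'_le ρ (Finset.mem_univ i)⟩
      rw [gt_iff_lt, Finset.lt_inf'_iff]
      exact fun i _ => hρ i
  refine ⟨r, hr0, fun a V hpos hlim tip => ?_⟩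
  filter_upwards [eventually_all.2 fun i => hk i a V hpos hlim tip] with k hk f hf h
  unfold rays gz
  rw [← Finset.prod_mul_distrib]
  exact Finset.prod_congr rfl fun i _ => hk i f (hf.trans_le (hr i)) h

/-- the weights are a coboundary near a point, uniform radius -/
theorem weights_gauge' {O : Set ℂ} {n : ℕ} {x : Fin n → ℂ} (hO : IsOpen O) (hx : ∀ i, x i ∉ O)
    {z : ℂ} (hz : z ∈ O) : ∃ ρ > 0, ball z ρ ⊆ O ∧ ∀ (a : ℕ → ℝ) (w : ℕ → Fld)
      (V : ℕ → Fin n → Face), OmSeq O x a w V → ∀ᶠ k in atTop, ∀ f : Face,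
      ‖meshPoint (a k) f - z‖ < ρ → ∀ h,
      w k f h = xc * (gz x z (V k) f * gz x z (V k) (nb f h)) := by
  obtain ⟨ρ1, hρ1, h1⟩ := local_gauge' (x := x) (z := z) (fun i hc => hx i (hc ▸ hz))
  obtain ⟨ρ2, hρ2, h2⟩ := Metric.isOpen_iff.1 hO z hz
  set ρ := min ρ1 (ρ2 / 2) with hρ
  have hρ0 : 0 < ρ := by positivity
  refine ⟨ρ, hρ0, (ball_subset_ball (by have := min_le_right ρ1 (ρ2 / 2); linarith)).trans h2,
    fun a w V H => ?_⟩
  have hK := H.ins (closedBall z ρ) (isCompact_closedBall _ _)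
    ((closedBall_subset_ball (by have := min_le_right ρ1 (ρ2 / 2); linarith)).trans h2)
  filter_upwards [h1 a V H.pos H.lim H.tip, hK] with k h1 h2 f hf h
  rw [h2 f (by rw [mem_closedBall, dist_eq_norm]; exact hf.le) h,
    h1 f (hf.trans_le (min_le_left _ _)) h]
  ring

/-- the annulus `r/4 ≤ |z-y| ≤ r` -/
def KR (y : ℂ) (r : ℝ) : Set ℂ := closedBall y r \ ball y (r / 4)

theorem KR_compact (y : ℂ) (r : ℝ) : IsCompact (KR y r) :=
  (isCompact_closedBall y r).diff isOpen_ball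

theorem mem_KR {y : ℂ} {r : ℝ} {z : ℂ} : z ∈ KR y r ↔ ‖z - y‖ ≤ r ∧ r / 4 ≤ ‖z - y‖ := by
  unfold KR
  rw [Set.mem_sdiff, mem_closedBall, mem_ball, dist_eq_norm, not_lt]

/-- sequences of the class with their covariances -/
structure CS {n : ℕ} (CC : (ℕ → ℝ) → (ℕ → Fld) → (ℕ → Fin n → Face) → Prop) (a : ℕ → ℝ)
    (w : ℕ → Fld) (V : ℕ → Fin n → Face) (S : ℕ → Face × Fin 4 → Face × Fin 4 → ℝ) : Prop where
  cls : CC a w V
  cov : ∀ᶠ k in atTop, Cov40 (w k) (S k)

/-- the `L²` convergence of the columns with source vector `p` at `y`, cut-off `χ`, to `F` -/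
def ColConv (Om : Set ℂ) {n : ℕ} (x : Fin n → ℂ)
    (CC : (ℕ → ℝ) → (ℕ → Fld) → (ℕ → Fin n → Face) → Prop) (y : ℂ) (χ : ℂ → ℝ) (c : ℂ)
    (F : ℂ → ℂ) : Prop :=
  ∀ a w V S, CS CC a w V S → ∀ f' : ℕ → Face,
    Tendsto (fun k => meshPoint (a k) (f' k)) atTop (𝓝 y) → ∀ p : Fin 4 → ℝ, cp p = c →
    ∀ z₀ ∈ Om, ∃ ρ > 0, ∀ h, Tendsto (fun k => ∫⁻ z in ball z₀ ρ, ENNReal.ofReal
      ((emb (a k) (fun f => regp (a k) (fun f => χ (meshPoint (a k) f)) (gz x y (V k)) (S k) (f' k)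
        p f h) z - lv (F z) h) ^ 2)) atTop (𝓝 0)

/-- finite support of the cut-off on the lattice -/
theorem cut_finite {y : ℂ} {r : ℝ} {χ : ℂ → ℝ} (hχ : Cut y r χ) {t : ℝ} (ht : 0 < t) :
    {f : Face | χ (meshPoint t f) ≠ 0}.Finite := by
  obtain ⟨N, hN⟩ := exists_nat_ge ((‖y‖ + |r|) / t)
  refine Set.Finite.subset (s := Set.Icc (-(N : ℤ)) N ×ˢ Set.Icc (-(N : ℤ)) N)
    ((Set.finite_Icc _ _).prod (Set.finite_Icc _ _)) fun f hf => ?_
  have h1 : ‖meshPoint t f - y‖ < 3 * r / 4 := by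
    by_contra hc
    exact hf (hχ.zero _ (not_lt.1 hc))
  have hr : 0 < r := by
    have := norm_nonneg (meshPoint t f - y)
    linarith
  have h2 : ‖meshPoint t f‖ ≤ ‖y‖ + |r| := by
    have h3 : ‖meshPoint t f‖ ≤ ‖meshPoint t f - y‖ + ‖y‖ := by
      have := norm_add_le (meshPoint t f - y) y
      rwa [sub_add_cancel] at this
    rw [abs_of_pos hr]
    linarith
  rw [div_le_iff₀ ht] at hN
  have h3 : |t * (f.1 : ℝ)| ≤ N * t := by
    have := Complex.abs_re_le_norm (meshPoint t f)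
    rw [meshPoint_re] at this
    linarith
  have h4 : |t * (f.2 : ℝ)| ≤ N * t := by
    have := Complex.abs_im_le_norm (meshPoint t f)
    rw [meshPoint_im] at this
    linarith
  rw [abs_mul, abs_of_pos ht, mul_comm] at h3 h4
  have h5 : |(f.1 : ℝ)| ≤ N := le_of_mul_le_mul_right h3 ht
  have h6 : |(f.2 : ℝ)| ≤ N := le_of_mul_le_mul_right h4 ht
  rw [abs_le] at h5 h6
  refine ⟨⟨?_, ?_⟩, ⟨?_, ?_⟩⟩
  · exact_mod_cast h5.1
  · exact_mod_cast h5.2
  · exact_mod_cast h6.1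
  · exact_mod_cast h6.2

theorem regp_zero {w : Fld} {a : ℝ} {c γ : Face → ℝ}
    {S : Face × Fin 4 → Face × Fin 4 → ℝ} (hS : Cov40 w S) (f' : Face) (p : Fin 4 → ℝ)
    (hc : {f | c f ≠ 0}.Finite) :
    Tendsto (fun b' : Face × Fin 4 => regp a c γ S f' p b'.1 b'.2) cofinite (𝓝 0) := by
  have h : Tendsto (fun b' : Face × Fin 4 => ∑ i, p i * reg a c γ S (f', i) b'.1 b'.2) cofinite
      (𝓝 (∑ i : Fin 4, p i * 0)) :=
    tendsto_finsetSum _ fun i _ => (reg_zero hS hc).const_mul (p i)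
  simp only [mul_zero, Finset.sum_const_zero] at h
  exact h

/-- radius around `y` where everything is fine -/
theorem exists_radius {Om : Set ℂ} {n : ℕ} {x : Fin n → ℂ}
    {CC : (ℕ → ℝ) → (ℕ → Fld) → (ℕ → Fin n → Face) → Prop} (hcl : ClassOK Om x CC) {y : ℂ}
    (hy : y ∈ Om) : ∃ r₀ > 0, closedBall y r₀ ⊆ Om ∧ ∀ a w V, CC a w V → ∀ᶠ k in atTop,
      ∀ f : Face, ‖meshPoint (a k) f - y‖ < 2 * r₀ → ∀ h,
      w k f h = xc * (gz x y (V k) f * gz x y (V k) (nb f h)) := by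
  obtain ⟨ρ, hρ, h1, h2⟩ := weights_gauge' hcl.opn hcl.tips hy
  refine ⟨ρ / 2, by linarith, (closedBall_subset_ball (by linarith)).trans h1,
    fun a w V hC => ?_⟩
  filter_upwards [h2 a w V (hcl.seq a w V hC)] with k hk f hf h
  exact hk f (by linarith) h

/-- **`L²` convergence of the columns** -/
theorem col {Om : Set ℂ} {n : ℕ} {x : Fin n → ℂ}
    {CC : (ℕ → ℝ) → (ℕ → Fld) → (ℕ → Fin n → Face) → Prop} {Q : Set ℂ → (ℂ → ℂ) → Prop}
    (hRC : ResConv Om x CC Q) (hcl : ClassOK Om x CC) {y : ℂ} {r₀ : ℝ} (hr₀ : 0 < r₀)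
    (hb : closedBall y r₀ ⊆ Om)
    (hw : ∀ a w V, CC a w V → ∀ᶠ k in atTop, ∀ f : Face, ‖meshPoint (a k) f - y‖ < 2 * r₀ → ∀ h,
      w k f h = xc * (gz x y (V k) f * gz x y (V k) (nb f h)))
    {r : ℝ} (hr : 0 < r) (hrr : r ≤ r₀) {χ : ℂ → ℝ} (hχ : Cut y r χ) (c : ℂ) :
    ∃ F : ℂ → ℂ, Q (KR y r) F ∧
      (∃ gg : ℂ → ℂ, ContinuousOn gg (Om \ KR y r) ∧ ∀ z ∈ Om \ KR y r, F z * rX x z = gg z) ∧
      ColConv Om x CC y χ c F := by
  have hKO : KR y r ⊆ Om := fun z hz => hb (by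
    rw [mem_closedBall, dist_eq_norm]; exact (mem_KR.1 hz).1.trans hrr)
  obtain ⟨F, hQ, hgg, hF⟩ := hRC (KR y r) (KR_compact y r) hKO (Gs x y χ c)
    (fun h => Gs_memLp x hr hχ c h) (fun z hz h => by
      refine Gs_zero x hr hχ c z h ?_
      rw [mem_KR, not_and_or, not_le, not_le] at hz
      rcases hz with hz | hz
      · right; linarith
      · left; linarith)
  refine ⟨F, hQ, hgg, fun a w V S hS f' hf' p hp => ?_⟩
  have H := hcl.seq a w V hS.cls
  classical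
  -- fields
  set c' : ℕ → Face → ℝ := fun k f => χ (meshPoint (a k) f) with hc'
  have ea : ∀ᶠ k in atTop, a k < r / 16 := H.lim.eventually (eventually_lt_nhds (by positivity))
  have ef : ∀ᶠ k in atTop, ‖meshPoint (a k) (f' k) - y‖ < r / 16 := by
    have := tendsto_iff_norm_sub_tendsto_zero.1 hf'
    exact this.eventually (eventually_lt_nhds (by positivity))
  set φ : ℕ → Fld := fun k => if Cov40 (w k) (S k) then
    regp (a k) (c' k) (gz x y (V k)) (S k) (f' k) p else fun _ _ => 0 with hφ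
  have k1 : ∀ᶠ k in atTop, ∀ f h, gsrcp (a k) (c' k) (gz x y (V k)) (f' k) p f h ≠ 0 →
      meshPoint (a k) f ∈ KR y r := by
    filter_upwards [ea] with k hk f h hne
    unfold gsrcp at hne
    obtain ⟨i, -, hi⟩ := Finset.exists_ne_zero_of_sum_ne_zero hne
    have h1 := gsrc_supp hχ (H.pos k) hk.le (gz x y (V k)) (f' k, i) f h
      (right_ne_zero_of_mul hi)
    rw [mem_KR]
    exact ⟨h1.2.le, h1.1.le⟩
  have k2 : ∀ h, Tendsto (fun k => ∫⁻ z, ENNReal.ofReal ((emb (a k) (fun f =>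
      gsrcp (a k) (c' k) (gz x y (V k)) (f' k) p f h) z - Gs x y χ c z h) ^ 2)) atTop (𝓝 0) := by
    intro h
    rw [← hp]
    exact gsrcp_L2 hr hχ H.pos H.lim H.tip hf' p h
  have k3 : ∀ k, Tendsto (fun b : Face × Fin 4 => φ k b.1 b.2) cofinite (𝓝 0) := by
    intro k
    by_cases hk : Cov40 (w k) (S k)
    · rw [hφ]
      simp only [if_pos hk]
      exact regp_zero hk (f' k) p (cut_finite hχ (H.pos k))
    · rw [hφ]
      simp only [if_neg hk]
      exact tendsto_const_nhds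
  have k4 : ∀ᶠ k in atTop, ∀ f h, A (w k) (φ k) f h =
      a k * gsrcp (a k) (c' k) (gz x y (V k)) (f' k) p f h := by
    filter_upwards [ea, ef, hS.cov, hw a w V hS.cls] with k h1 h2 h3 h4 f h
    rw [hφ]
    simp only [if_pos h3]
    refine A_regp (H.pos k) h3 (gz_sq x y (V k)) (f' k) ?_ p ?_ f h
    · exact hχ.one _ (by linarith)
    · intro f h hne
      refine h4 f ?_ h
      have h5 := abs_le.1 (nb_norm (a k) (H.pos k) f h y)
      rcases hne with hne | hne
      · have h6 : ‖meshPoint (a k) f - y‖ < 3 * r / 4 := by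
          by_contra hc
          exact hne (hχ.zero _ (not_lt.1 hc))
        linarith
      · have h6 : ‖meshPoint (a k) (nb f h) - y‖ < 3 * r / 4 := by
          by_contra hc
          exact hne (hχ.zero _ (not_lt.1 hc))
        linarith
  intro z₀ hz₀
  obtain ⟨ρ, hρ, h1⟩ := hF a w V hS.cls
    (fun k => gsrcp (a k) (c' k) (gz x y (V k)) (f' k) p) φ k1 k2 k3 k4 z₀ hz₀
  refine ⟨ρ, hρ, fun h => (h1 h).congr' ?_⟩
  filter_upwards [hS.cov] with k hk
  rw [hφ]
  simp only [if_pos hk, hc']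

/-- the regular column is exact off the annulus -/
theorem regp_exact {Om : Set ℂ} {n : ℕ} {x : Fin n → ℂ}
    {CC : (ℕ → ℝ) → (ℕ → Fld) → (ℕ → Fin n → Face) → Prop}
    (hcl : ClassOK Om x CC) {y : ℂ} {r₀ : ℝ} (hr₀ : 0 < r₀)
    (hw : ∀ a w V, CC a w V → ∀ᶠ k in atTop, ∀ f : Face, ‖meshPoint (a k) f - y‖ < 2 * r₀ → ∀ h,
      w k f h = xc * (gz x y (V k) f * gz x y (V k) (nb f h)))
    {r : ℝ} (hr : 0 < r) (hrr : r ≤ r₀) {χ : ℂ → ℝ} (hχ : Cut y r χ) {a : ℕ → ℝ} {w : ℕ → Fld}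
    {V : ℕ → Fin n → Face} {S : ℕ → Face × Fin 4 → Face × Fin 4 → ℝ} (hS : CS CC a w V S)
    {f' : ℕ → Face} (hf' : Tendsto (fun k => meshPoint (a k) (f' k)) atTop (𝓝 y))
    (p : Fin 4 → ℝ) : ∀ᶠ k in atTop, ∀ f : Face, meshPoint (a k) f ∉ KR y r → ∀ h,
      A (w k) (regp (a k) (fun f => χ (meshPoint (a k) f)) (gz x y (V k)) (S k) (f' k) p) f h
        = 0 := by
  have H := hcl.seq a w V hS.cls
  have ea : ∀ᶠ k in atTop, a k < r / 16 := H.lim.eventually (eventually_lt_nhds (by positivity))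
  have ef : ∀ᶠ k in atTop, ‖meshPoint (a k) (f' k) - y‖ < r / 16 := by
    have := tendsto_iff_norm_sub_tendsto_zero.1 hf'
    exact this.eventually (eventually_lt_nhds (by positivity))
  filter_upwards [ea, ef, hS.cov, hw a w V hS.cls] with k h1 h2 h3 h4 f hf h
  rw [A_regp (H.pos k) h3 (gz_sq x y (V k)) (f' k) (hχ.one _ (by linarith)) p]
  · have : gsrcp (a k) (fun f => χ (meshPoint (a k) f)) (gz x y (V k)) (f' k) p f h = 0 := by
      unfold gsrcp
      refine Finset.sum_eq_zero fun i _ => ?_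
      by_contra hne
      apply hf
      have h5 := gsrc_supp hχ (H.pos k) h1.le (gz x y (V k)) (f' k, i) f h
        (right_ne_zero_of_mul hne)
      rw [mem_KR]
      exact ⟨h5.2.le, h5.1.le⟩
    rw [this, mul_zero]
  · intro f h hne
    refine h4 f ?_ h
    have h5 := abs_le.1 (nb_norm (a k) (H.pos k) f h y)
    rcases hne with hne | hne
    · have h6 : ‖meshPoint (a k) f - y‖ < 3 * r / 4 := by
        by_contra hc
        exact hne (hχ.zero _ (not_lt.1 hc))
      linarith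
    · have h6 : ‖meshPoint (a k) (nb f h) - y‖ < 3 * r / 4 := by
        by_contra hc
        exact hne (hχ.zero _ (not_lt.1 hc))
      linarith

/-- **pointwise convergence of the regular columns off the annulus** -/
theorem col_pt {Om : Set ℂ} {n : ℕ} {x : Fin n → ℂ}
    {CC : (ℕ → ℝ) → (ℕ → Fld) → (ℕ → Fin n → Face) → Prop}
    (hcl : ClassOK Om x CC) {y : ℂ} {r₀ : ℝ} (hr₀ : 0 < r₀)
    (hw : ∀ a w V, CC a w V → ∀ᶠ k in atTop, ∀ f : Face, ‖meshPoint (a k) f - y‖ < 2 * r₀ → ∀ h,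
      w k f h = xc * (gz x y (V k) f * gz x y (V k) (nb f h)))
    {r : ℝ} (hr : 0 < r) (hrr : r ≤ r₀) {χ : ℂ → ℝ} (hχ : Cut y r χ) {c : ℂ} {F : ℂ → ℂ}
    (hF : ColConv Om x CC y χ c F)
    (hg : ∃ gg : ℂ → ℂ, ContinuousOn gg (Om \ KR y r) ∧ ∀ z ∈ Om \ KR y r, F z * rX x z = gg z)
    {a : ℕ → ℝ} {w : ℕ → Fld}
    {V : ℕ → Fin n → Face} {S : ℕ → Face × Fin 4 → Face × Fin 4 → ℝ} (hS : CS CC a w V S)
    {f' : ℕ → Face} (hf' : Tendsto (fun k => meshPoint (a k) (f' k)) atTop (𝓝 y))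
    {p : Fin 4 → ℝ} (hp : cp p = c) {z₀ : ℂ} (hz₀ : z₀ ∈ Om \ KR y r) {f : ℕ → Face}
    (hf : Tendsto (fun k => meshPoint (a k) (f k)) atTop (𝓝 z₀)) (h : Fin 4) :
    Tendsto (fun k => gz x z₀ (V k) (f k) * regp (a k) (fun f => χ (meshPoint (a k) f))
      (gz x y (V k)) (S k) (f' k) p (f k) h) atTop (𝓝 (lv (F z₀) h)) := by
  obtain ⟨ρ, hρ, h1⟩ := hF a w V S hS f' hf' p hp z₀ hz₀.1
  have hopen : IsOpen (Om \ KR y r) := hcl.opn.sdiff (KR_compact y r).isClosed
  obtain ⟨ρ', hρ', h2⟩ := Metric.isOpen_iff.1 hopen z₀ hz₀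
  set R := min ρ ρ' with hR
  have hR0 : 0 < R := by positivity
  obtain ⟨gg, hgg, hgF⟩ := hg
  refine exact_pt (hcl.seq a w V hS.cls) hcl.opn hcl.tips hz₀.1 (r := R) hR0 ?_ ?_ ?_ hf h
  · filter_upwards [regp_exact hcl hr₀ hw hr hrr hχ hS hf' p] with k hk f hf h
    refine hk f ?_ h
    exact (h2 (by rw [mem_ball, dist_eq_norm]; exact hf.trans_le (min_le_right _ _))).2
  · refine gc_mul_continuousAt (fun i hc => hcl.tips i (by rw [hc]; exact hz₀.1))
      (hgg.continuousAt (hopen.mem_nhds hz₀)) ?_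
    filter_upwards [hopen.mem_nhds hz₀] with u hu
    exact hgF u hu
  · intro h
    exact tendsto_of_tendsto_of_tendsto_of_le_of_le tendsto_const_nhds (h1 h) (fun _ => zero_le)
      fun k => lintegral_mono_set (ball_subset_ball (min_le_left _ _))

/-- the combined column of the covariance -/
def Sp (S : Face × Fin 4 → Face × Fin 4 → ℝ) (f' : Face) (p : Fin 4 → ℝ) (f : Face) (h : Fin 4) :
    ℝ := ∑ i, p i * S (f, h) (f', i)

theorem regp_off {a : ℝ} {c γ : Face → ℝ} {S : Face × Fin 4 → Face × Fin 4 → ℝ} {f' : Face}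
    {p : Fin 4 → ℝ} {f : Face} (hc : c f = 0) (h : Fin 4) :
    regp a c γ S f' p f h = γ f' * (a⁻¹ * Sp S f' p f h) := by
  unfold regp reg sing Sp
  rw [Finset.mul_sum, Finset.mul_sum]
  refine Finset.sum_congr rfl fun i _ => ?_
  rw [hc]; ring

theorem regp_in {a : ℝ} {c γ : Face → ℝ} {S : Face × Fin 4 → Face × Fin 4 → ℝ} {f' : Face}
    (hγ : ∀ f, γ f ^ 2 = 1) {p : Fin 4 → ℝ} {f : Face} (hc : c f = 1) (h : Fin 4) :
    γ f * regp a c γ S f' p f h = a⁻¹ * (γ f * γ f' * Sp S f' p f h -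
      ∑ i, p i * spF (f', i) f h) := by
  unfold regp reg sing Sp
  rw [Finset.mul_sum, mul_sub, Finset.mul_sum, Finset.mul_sum, Finset.mul_sum,
    ← Finset.sum_sub_distrib]
  refine Finset.sum_congr rfl fun i _ => ?_
  rw [hc]
  have h1 := hγ f
  have h2 := hγ f'
  simp only
  linear_combination (-(a⁻¹ * p i * spF (f', i) f h * γ f' ^ 2)) * h1 +
    (-(a⁻¹ * p i * spF (f', i) f h)) * h2

end Crest.Agent.R165.Mac4x622
end
end

-- ▼ part R165/Mac5_622
section

/-!
# Row 165 (S0250), U4/MAC (helper622): the limit kernels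

* `Dat Om x CC Q y r₀ χ F` : the columns with source at `y`, all cut-off radii `r ≤ r₀`
* `Dat.off` : `gz gz' a⁻¹ S → lv (F r c z)` for `|z - y| > r`
* `Dat.reg` : `a⁻¹ (gz gz' S - plane) → lv (F r c y)`
* `Dat.uniq`, `Dat.near_eq`, `Dat.add`, `Dat.smul`
-/

set_option autoImplicit false
set_option linter.unusedVariables false
set_option linter.unusedSimpArgs false

noncomputable section

open MeasureTheory Filter Topology Set Metric
open Crest.ProbabilityR.IsingModel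
open Crest.Agent.R165.Tr1x40 Crest.Agent.R165.RIfx891 Crest.Agent.R165.Embx622
open Crest.Agent.R165.Upx622 Crest.Agent.R165.Tr2x40
open Crest.Agent.R165.Mac0x622 Crest.Agent.R165.Mac1x622 Crest.Agent.R165.MacIx622
open Crest.Agent.R165.Mac2x622 Crest.Agent.R165.Mac3x622 Crest.Agent.R165.Mac4x622

namespace Crest.Agent.R165.Mac5x622

/-- canonical source vector of amplitude `c` -/
def pv (c : ℂ) (i : Fin 4) : ℝ :=
  match i with
  | 0 => 0
  | 1 => c.re
  | 2 => 0
  | 3 => c.im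

theorem cp_pv (c : ℂ) : cp (pv c) = c := by
  unfold cp
  rw [Fin.sum_univ_four]
  simp only [pv, ud_one, ud_three]
  apply Complex.ext <;> simp

theorem cp_single (i : Fin 4) : cp (Pi.single i 1) = ud i := by
  unfold cp
  rw [Finset.sum_eq_single i]
  · simp
  · intro j _ hj
    rw [Pi.single_eq_of_ne hj]; simp
  · intro h; exact absurd (Finset.mem_univ _) h

theorem cp_add (p q : Fin 4 → ℝ) : cp (p + q) = cp p + cp q := by
  unfold cp
  rw [← Finset.sum_add_distrib]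
  refine Finset.sum_congr rfl fun i _ => ?_
  simp only [Pi.add_apply]
  push_cast; ring

theorem cp_smul (s : ℝ) (p : Fin 4 → ℝ) : cp (s • p) = s * cp p := by
  unfold cp
  rw [Finset.mul_sum]
  refine Finset.sum_congr rfl fun i _ => ?_
  simp only [Pi.smul_apply, smul_eq_mul]
  push_cast; ring

theorem Sp_single (S : Face × Fin 4 → Face × Fin 4 → ℝ) (f' : Face) (i : Fin 4) (f : Face)
    (h : Fin 4) : Sp S f' (Pi.single i 1) f h = S (f, h) (f', i) := by
  unfold Sp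
  rw [Finset.sum_eq_single i]
  · simp
  · intro j _ hj
    rw [Pi.single_eq_of_ne hj]; simp
  · intro h; exact absurd (Finset.mem_univ _) h

theorem regp_add (a : ℝ) (c γ : Face → ℝ) (S : Face × Fin 4 → Face × Fin 4 → ℝ) (f' : Face)
    (p q : Fin 4 → ℝ) (f : Face) (h : Fin 4) :
    regp a c γ S f' (p + q) f h = regp a c γ S f' p f h + regp a c γ S f' q f h := by
  unfold regp
  rw [← Finset.sum_add_distrib]
  refine Finset.sum_congr rfl fun i _ => ?_
  simp only [Pi.add_apply]; ring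

theorem regp_smul (a : ℝ) (c γ : Face → ℝ) (S : Face × Fin 4 → Face × Fin 4 → ℝ) (f' : Face)
    (s : ℝ) (p : Fin 4 → ℝ) (f : Face) (h : Fin 4) :
    regp a c γ S f' (s • p) f h = s * regp a c γ S f' p f h := by
  unfold regp
  rw [Finset.mul_sum]
  refine Finset.sum_congr rfl fun i _ => ?_
  simp only [Pi.smul_apply, smul_eq_mul]; ring

/-- the mesh sequence of a point -/
theorem mesh_tendsto {a : ℕ → ℝ} (hpos : ∀ k, 0 < a k) (hlim : Tendsto a atTop (𝓝 0)) (z : ℂ) :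
    Tendsto (fun k => meshPoint (a k) (meshIndex (a k) z)) atTop (𝓝 z) := by
  rw [tendsto_iff_norm_sub_tendsto_zero]
  refine squeeze_zero (fun _ => norm_nonneg _) (fun k => norm_mesh_sub (hpos k) z) ?_
  simpa using hlim.const_mul 2

/-- comparison of the gauges at two near points -/
theorem gz_gz {n : ℕ} {x : Fin n → ℂ} {y z : ℂ} (h1 : ∀ i, ¬ rel (x i) y → ¬ rel (x i) z)
    (h2 : ∀ i, rel (x i) y → (x i).re < z.re) {a : ℕ → ℝ} (hpos : ∀ k, 0 < a k)
    {V : ℕ → Fin n → Face}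
    (tip : ∀ i, Tendsto (fun k => meshPoint (a k) (V k i)) atTop (𝓝 (x i))) {f : ℕ → Face}
    (hf : Tendsto (fun k => meshPoint (a k) (f k)) atTop (𝓝 z)) :
    ∀ᶠ k in atTop, gz x z (V k) (f k) * gz x y (V k) (f k) = gc x y z := by
  classical
  have key : ∀ i, ∀ᶠ k in atTop, (if rel (x i) z ∧ (V k i).2 ≤ (f k).2 then (-1 : ℝ) else 1) *
      (if rel (x i) y ∧ (V k i).2 ≤ (f k).2 then (-1 : ℝ) else 1) =
      if rel (x i) y ∧ (x i).im < z.im then (-1 : ℝ) else 1 := by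
    intro i
    have ti : Tendsto (fun k => a k * ((V k i).2 : ℝ)) atTop (𝓝 (x i).im) :=
      (Complex.continuous_im.tendsto _).comp (tip i)
    have tu : Tendsto (fun k => a k * ((f k).2 : ℝ)) atTop (𝓝 z.im) :=
      (Complex.continuous_im.tendsto _).comp hf
    by_cases hy : rel (x i) y
    · rcases lt_trichotomy (x i).im z.im with h | h | h
      · have hz : ¬ rel (x i) z := fun hz => absurd hz.1 h.ne
        have e1 := ti.eventually (eventually_lt_nhds (show (x i).im < ((x i).im + z.im) / 2 by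
          linarith))
        have e2 := tu.eventually (eventually_gt_nhds (show z.im > ((x i).im + z.im) / 2 by
          linarith))
        filter_upwards [e1, e2] with k e1 e2
        have h3 : ((V k i).2 : ℝ) < ((f k).2 : ℝ) := lt_of_mul_lt_mul_left (e1.trans e2) (hpos k).le
        have h4 : (V k i).2 ≤ (f k).2 := by exact_mod_cast h3.le
        simp [hy, hz, h, h4]
      · have hz : rel (x i) z := ⟨h, h2 i hy⟩
        refine Eventually.of_forall fun k => ?_
        have h5 : ¬ (x i).im < z.im := by rw [h]; exact lt_irrefl _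
        simp only [hy, hz, true_and, h5, if_false]
        split_ifs <;> norm_num
      · have hz : ¬ rel (x i) z := fun hz => absurd hz.1 h.ne'
        have e1 := ti.eventually (eventually_gt_nhds (show (x i).im > ((x i).im + z.im) / 2 by
          linarith))
        have e2 := tu.eventually (eventually_lt_nhds (show z.im < ((x i).im + z.im) / 2 by
          linarith))
        filter_upwards [e1, e2] with k e1 e2
        have h3 : ((f k).2 : ℝ) < ((V k i).2 : ℝ) := lt_of_mul_lt_mul_left (e2.trans e1) (hpos k).le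
        have h4 : ¬ (V k i).2 ≤ (f k).2 := not_le.2 (by exact_mod_cast h3)
        have h5 : ¬ (x i).im < z.im := not_lt.2 h.le
        simp [hy, hz, h5, h4]
    · have hz := h1 i hy
      refine Eventually.of_forall fun k => ?_
      simp [hy, hz]
  filter_upwards [eventually_all.2 key] with k hk
  unfold gz gc
  rw [← Finset.prod_mul_distrib]
  exact Finset.prod_congr rfl fun i _ => hk i

/-- radius for the comparison of the gauges -/
theorem gauge_radius {n : ℕ} {x : Fin n → ℂ} {y : ℂ} (hy : ∀ i, x i ≠ y) :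
    ∃ ρ > 0, ∀ z, ‖z - y‖ < ρ → (∀ i, ¬ rel (x i) y → ¬ rel (x i) z) ∧
      (∀ i, rel (x i) y → (x i).re < z.re) := by
  have key : ∀ i, ∃ ρ > 0, ∀ z, ‖z - y‖ < ρ → (¬ rel (x i) y → ¬ rel (x i) z) ∧
      (rel (x i) y → (x i).re < z.re) := by
    intro i
    by_cases him : (x i).im = y.im
    · have hre : (x i).re ≠ y.re := fun h => hy i (Complex.ext h him)
      refine ⟨|(x i).re - y.re|, abs_pos.2 (sub_ne_zero.2 hre), fun z hz => ?_⟩
      have h1 : |z.re - y.re| < |(x i).re - y.re| := by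
        have := (Complex.abs_re_le_norm (z - y)).trans_lt hz
        rwa [Complex.sub_re] at this
      constructor
      · intro h h'
        have h2 : y.re < (x i).re := by
          rcases lt_or_gt_of_ne hre with h3 | h3
          · exact absurd ⟨him, h3⟩ h
          · exact h3
        rw [abs_of_pos (by linarith : 0 < (x i).re - y.re), abs_lt] at h1
        have := h'.2
        linarith
      · intro h
        have h2 := h.2
        rw [abs_of_neg (by linarith : (x i).re - y.re < 0), abs_lt] at h1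
        linarith
    · refine ⟨|(x i).im - y.im|, abs_pos.2 (sub_ne_zero.2 him), fun z hz => ?_⟩
      have h1 : |z.im - y.im| < |(x i).im - y.im| := by
        have := (Complex.abs_im_le_norm (z - y)).trans_lt hz
        rwa [Complex.sub_im] at this
      constructor
      · intro _ h'
        rw [h'.1] at h1
        exact lt_irrefl _ h1
      · intro h
        exact absurd h.1 him
  choose ρ hρ hk using key
  obtain ⟨r, hr0, hr⟩ : ∃ r > 0, ∀ i, r ≤ ρ i := by
    rcases isEmpty_or_nonempty (Fin n) with he | he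
    · exact ⟨1, one_pos, fun i => (he.false i).elim⟩
    · refine ⟨Finset.univ.inf' Finset.univ_nonempty ρ, ?_, fun i =>
        Finset.inf'_le ρ (Finset.mem_univ i)⟩
      rw [gt_iff_lt, Finset.lt_inf'_iff]
      exact fun i _ => hρ i
  exact ⟨r, hr0, fun z hz => ⟨fun i => (hk i z (hz.trans_le (hr i))).1,
    fun i => (hk i z (hz.trans_le (hr i))).2⟩⟩

/-- all the columns with source at `y` -/
structure Dat (Om : Set ℂ) {n : ℕ} (x : Fin n → ℂ)
    (CC : (ℕ → ℝ) → (ℕ → Fld) → (ℕ → Fin n → Face) → Prop) (Q : Set ℂ → (ℂ → ℂ) → Prop)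
    (y : ℂ) (r₀ : ℝ) (χ : ℝ → ℂ → ℝ) (F : ℝ → ℂ → ℂ → ℂ) : Prop where
  pos : 0 < r₀
  ball : closedBall y r₀ ⊆ Om
  wts : ∀ a w V, CC a w V → ∀ᶠ k in atTop, ∀ f : Face, ‖meshPoint (a k) f - y‖ < 2 * r₀ → ∀ h,
      w k f h = xc * (gz x y (V k) f * gz x y (V k) (nb f h))
  gau : ∀ z, ‖z - y‖ < r₀ → (∀ i, ¬ rel (x i) y → ¬ rel (x i) z) ∧
      (∀ i, rel (x i) y → (x i).re < z.re)
  cut : ∀ r, 0 < r → r ≤ r₀ → Cut y r (χ r)
  q : ∀ r, 0 < r → r ≤ r₀ → ∀ c, Q (KR y r) (F r c)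
  cont : ∀ r, 0 < r → r ≤ r₀ → ∀ c, ∃ gg : ℂ → ℂ, ContinuousOn gg (Om \ KR y r) ∧
    ∀ z ∈ Om \ KR y r, F r c z * rX x z = gg z
  conv : ∀ r, 0 < r → r ≤ r₀ → ∀ c, ColConv Om x CC y (χ r) c (F r c)

theorem exists_dat {Om : Set ℂ} {n : ℕ} {x : Fin n → ℂ}
    {CC : (ℕ → ℝ) → (ℕ → Fld) → (ℕ → Fin n → Face) → Prop} {Q : Set ℂ → (ℂ → ℂ) → Prop}
    (hRC : ResConv Om x CC Q) (hcl : ClassOK Om x CC) {y : ℂ} (hy : y ∈ Om) :
    ∃ r₀ χ F, Dat Om x CC Q y r₀ χ F := by
  classical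
  obtain ⟨r₁, hr₁, hb, hw⟩ := exists_radius hcl hy
  obtain ⟨r₂, hr₂, hg⟩ := gauge_radius (x := x) (y := y) (fun i hc => hcl.tips i (hc ▸ hy))
  set r₀ := min r₁ r₂ with hr₀
  have h0 : 0 < r₀ := by positivity
  have hb' : closedBall y r₀ ⊆ Om := (closedBall_subset_closedBall (min_le_left _ _)).trans hb
  have hw' : ∀ a w V, CC a w V → ∀ᶠ k in atTop, ∀ f : Face, ‖meshPoint (a k) f - y‖ < 2 * r₀ →
      ∀ h, w k f h = xc * (gz x y (V k) f * gz x y (V k) (nb f h)) := by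
    intro a w V hC
    filter_upwards [hw a w V hC] with k hk f hf h
    exact hk f (by have := min_le_left r₁ r₂; linarith) h
  have hχ : ∀ r, ∃ χ, 0 < r → Cut y r χ := fun r => by
    by_cases h : 0 < r
    · obtain ⟨χ, hχ⟩ := exists_cut y h
      exact ⟨χ, fun _ => hχ⟩
    · exact ⟨fun _ => 0, fun h' => absurd h' h⟩
  choose χ hχ using hχ
  have hF : ∀ r c, ∃ F : ℂ → ℂ, 0 < r → r ≤ r₀ → Q (KR y r) F ∧
      (∃ gg : ℂ → ℂ, ContinuousOn gg (Om \ KR y r) ∧ ∀ z ∈ Om \ KR y r, F z * rX x z = gg z) ∧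
      ColConv Om x CC y (χ r) c F := fun r c => by
    by_cases h : 0 < r ∧ r ≤ r₀
    · obtain ⟨F, hF⟩ := col hRC hcl h0 hb' hw' h.1 h.2 (hχ r h.1) c
      exact ⟨F, fun _ _ => hF⟩
    · exact ⟨fun _ => 0, fun h1 h2 => absurd ⟨h1, h2⟩ h⟩
  choose F hF using hF
  exact ⟨r₀, χ, F, h0, hb', hw', fun z hz => hg z (hz.trans_le (min_le_right _ _)),
    fun r h1 h2 => hχ r h1, fun r h1 h2 c => (hF r c h1 h2).1, fun r h1 h2 c => (hF r c h1 h2).2.1,
    fun r h1 h2 c => (hF r c h1 h2).2.2⟩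

section

variable {Om : Set ℂ} {n : ℕ} {x : Fin n → ℂ}
  {CC : (ℕ → ℝ) → (ℕ → Fld) → (ℕ → Fin n → Face) → Prop} {Q : Set ℂ → (ℂ → ℂ) → Prop}
  {y : ℂ} {r₀ : ℝ} {χ : ℝ → ℂ → ℝ} {F : ℝ → ℂ → ℂ → ℂ}

/-- the raw pointwise limit -/
theorem Dat.pt (hD : Dat Om x CC Q y r₀ χ F) (hcl : ClassOK Om x CC) {r : ℝ} (hr : 0 < r)
    (hrr : r ≤ r₀) {a : ℕ → ℝ} {w : ℕ → Fld} {V : ℕ → Fin n → Face}
    {S : ℕ → Face × Fin 4 → Face × Fin 4 → ℝ} (hS : CS CC a w V S)
    {f' : ℕ → Face} (hf' : Tendsto (fun k => meshPoint (a k) (f' k)) atTop (𝓝 y))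
    {p : Fin 4 → ℝ} {c : ℂ} (hp : cp p = c) {z : ℂ} (hz : z ∈ Om \ KR y r) {f : ℕ → Face}
    (hf : Tendsto (fun k => meshPoint (a k) (f k)) atTop (𝓝 z)) (h : Fin 4) :
    Tendsto (fun k => gz x z (V k) (f k) * regp (a k) (fun f => χ r (meshPoint (a k) f))
      (gz x y (V k)) (S k) (f' k) p (f k) h) atTop (𝓝 (lv (F r c z) h)) :=
  col_pt hcl hD.pos hD.wts hr hrr (hD.cut r hr hrr) (hD.conv r hr hrr c) (hD.cont r hr hrr c) hS hf'
    hp hz hf h

/-- **two different points** -/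
theorem Dat.off (hD : Dat Om x CC Q y r₀ χ F) (hcl : ClassOK Om x CC) {r : ℝ} (hr : 0 < r)
    (hrr : r ≤ r₀) {a : ℕ → ℝ} {w : ℕ → Fld} {V : ℕ → Fin n → Face}
    {S : ℕ → Face × Fin 4 → Face × Fin 4 → ℝ} (hS : CS CC a w V S)
    {f' : ℕ → Face} (hf' : Tendsto (fun k => meshPoint (a k) (f' k)) atTop (𝓝 y))
    {p : Fin 4 → ℝ} {c : ℂ} (hp : cp p = c) {z : ℂ} (hz : z ∈ Om) (hzy : r < ‖z - y‖) {f : ℕ → Face}
    (hf : Tendsto (fun k => meshPoint (a k) (f k)) atTop (𝓝 z)) (h : Fin 4) :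
    Tendsto (fun k => gz x z (V k) (f k) * gz x y (V k) (f' k) *
      ((a k)⁻¹ * Sp (S k) (f' k) p (f k) h)) atTop (𝓝 (lv (F r c z) h)) := by
  have h1 := hD.pt hcl hr hrr hS hf' hp (z := z) ⟨hz, fun hc => by
    have := (mem_KR.1 hc).1; linarith⟩ hf h
  refine h1.congr' ?_
  have h2 : ∀ᶠ k in atTop, r < ‖meshPoint (a k) (f k) - y‖ :=
    ((hf.sub_const y).norm).eventually (eventually_gt_nhds hzy)
  filter_upwards [h2] with k hk
  rw [regp_off ((hD.cut r hr hrr).zero _ (by linarith)) h]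
  ring

/-- **the regular part** -/
theorem Dat.reg (hD : Dat Om x CC Q y r₀ χ F) (hcl : ClassOK Om x CC) {r : ℝ} (hr : 0 < r)
    (hrr : r ≤ r₀) {a : ℕ → ℝ} {w : ℕ → Fld} {V : ℕ → Fin n → Face}
    {S : ℕ → Face × Fin 4 → Face × Fin 4 → ℝ} (hS : CS CC a w V S)
    {f' : ℕ → Face} (hf' : Tendsto (fun k => meshPoint (a k) (f' k)) atTop (𝓝 y))
    {p : Fin 4 → ℝ} {c : ℂ} (hp : cp p = c) {f : ℕ → Face}
    (hf : Tendsto (fun k => meshPoint (a k) (f k)) atTop (𝓝 y)) (h : Fin 4) :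
    Tendsto (fun k => (a k)⁻¹ * (gz x y (V k) (f k) * gz x y (V k) (f' k) *
      Sp (S k) (f' k) p (f k) h - ∑ i, p i * spF (f' k, i) (f k) h)) atTop
      (𝓝 (lv (F r c y) h)) := by
  have hy : y ∈ Om := hD.ball (mem_closedBall_self hD.pos.le)
  have h1 := hD.pt hcl hr hrr hS hf' hp (z := y) ⟨hy, fun hc => by
    have := (mem_KR.1 hc).2
    rw [sub_self, norm_zero] at this
    linarith⟩ hf h
  refine h1.congr' ?_
  have h2 : ∀ᶠ k in atTop, ‖meshPoint (a k) (f k) - y‖ < r / 2 := by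
    have h3 := (hf.sub_const y).norm
    rw [sub_self, norm_zero] at h3
    exact h3.eventually (eventually_lt_nhds (by linarith))
  filter_upwards [h2] with k hk
  exact regp_in (gz_sq x y (V k)) ((hD.cut r hr hrr).one _ hk.le) h

/-- independence of the radius -/
theorem Dat.uniq (hD : Dat Om x CC Q y r₀ χ F) (hcl : ClassOK Om x CC)
    (hne : ∃ a w V S, CS CC a w V S) {r r' : ℝ} (hr : 0 < r) (hrr : r ≤ r₀) (hr' : 0 < r')
    (hrr' : r' ≤ r₀) (c : ℂ) {z : ℂ} (hz : z ∈ Om) (h1 : r < ‖z - y‖) (h2 : r' < ‖z - y‖) :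
    F r c z = F r' c z := by
  obtain ⟨a, w, V, S, hS⟩ := hne
  have H := hcl.seq a w V hS.cls
  have t1 := mesh_tendsto H.pos H.lim y
  have t2 := mesh_tendsto H.pos H.lim z
  have key : ∀ h, lv (F r c z) h = lv (F r' c z) h := fun h =>
    tendsto_nhds_unique (hD.off hcl hr hrr hS t1 (cp_pv c) hz h1 t2 h)
      (hD.off hcl hr' hrr' hS t1 (cp_pv c) hz h2 t2 h)
  exact lv_inj (key 1) (key 3)

/-- additivity in the amplitude -/
theorem Dat.add (hD : Dat Om x CC Q y r₀ χ F) (hcl : ClassOK Om x CC)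
    (hne : ∃ a w V S, CS CC a w V S) {r : ℝ} (hr : 0 < r) (hrr : r ≤ r₀) (c d : ℂ) {z : ℂ}
    (hz : z ∈ Om \ KR y r) : F r (c + d) z = F r c z + F r d z := by
  obtain ⟨a, w, V, S, hS⟩ := hne
  have H := hcl.seq a w V hS.cls
  have t1 := mesh_tendsto H.pos H.lim y
  have t2 := mesh_tendsto H.pos H.lim z
  have key : ∀ h, lv (F r (c + d) z) h = lv (F r c z + F r d z) h := fun h => by
    rw [lv_add]
    have h1 := hD.pt hcl hr hrr hS t1 (p := pv c + pv d) (c := c + d)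
      (by rw [cp_add, cp_pv, cp_pv]) hz t2 h
    have h2 := (hD.pt hcl hr hrr hS t1 (cp_pv c) hz t2 h).add
      (hD.pt hcl hr hrr hS t1 (cp_pv d) hz t2 h)
    refine tendsto_nhds_unique h1 (h2.congr fun k => ?_)
    rw [regp_add]; ring
  exact lv_inj (key 1) (key 3)

/-- homogeneity in the amplitude -/
theorem Dat.smul (hD : Dat Om x CC Q y r₀ χ F) (hcl : ClassOK Om x CC)
    (hne : ∃ a w V S, CS CC a w V S) {r : ℝ} (hr : 0 < r) (hrr : r ≤ r₀) (s : ℝ) (c : ℂ) {z : ℂ}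
    (hz : z ∈ Om \ KR y r) : F r (s * c) z = s * F r c z := by
  obtain ⟨a, w, V, S, hS⟩ := hne
  have H := hcl.seq a w V hS.cls
  have t1 := mesh_tendsto H.pos H.lim y
  have t2 := mesh_tendsto H.pos H.lim z
  have key : ∀ h, lv (F r (s * c) z) h = lv (s * F r c z) h := fun h => by
    rw [lv_real_mul]
    have h1 := hD.pt hcl hr hrr hS t1 (p := s • pv c) (c := s * c)
      (by rw [cp_smul, cp_pv]) hz t2 h
    have h2 := (hD.pt hcl hr hrr hS t1 (cp_pv c) hz t2 h).const_mul s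
    refine tendsto_nhds_unique h1 (h2.congr fun k => ?_)
    rw [regp_smul]; ring
  exact lv_inj (key 1) (key 3)

/-- near the source: the singular part -/
theorem Dat.near_eq (hD : Dat Om x CC Q y r₀ χ F) (hcl : ClassOK Om x CC)
    (hne : ∃ a w V S, CS CC a w V S) {r r' : ℝ} (hr : 0 < r) (hrr : r ≤ r₀) (hr' : 0 < r')
    (hrr' : r' ≤ r₀) (c : ℂ) {z : ℂ} (h1 : ‖z - y‖ < r / 4) (h2 : r' < ‖z - y‖) :
    F r' c z = F r c z + gc x y z * (sC c / (z - y)) := by
  obtain ⟨a, w, V, S, hS⟩ := hne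
  have H := hcl.seq a w V hS.cls
  have hz : z ∈ Om := hD.ball (by rw [mem_closedBall, dist_eq_norm]; linarith)
  have t1 := mesh_tendsto H.pos H.lim y
  have t2 := mesh_tendsto H.pos H.lim z
  have hzy : z ≠ y := by
    rintro rfl
    rw [sub_self, norm_zero] at h2
    linarith
  have key : ∀ h, lv (F r' c z) h = lv (F r c z + gc x y z * (sC c / (z - y))) h := fun h => by
    rw [lv_add, lv_real_mul]
    have e1 := hD.off hcl hr' hrr' hS t1 (cp_pv c) hz h2 t2 h
    have e2 := hD.pt hcl hr hrr hS t1 (cp_pv c) (z := z) ⟨hz, fun hc => by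
      have := (mem_KR.1 hc).2; linarith⟩ t2 h
    have e3 : Tendsto (fun k => gc x y z * ∑ i, pv c i *
        ((a k)⁻¹ * spF (meshIndex (a k) y, i) (meshIndex (a k) z) h)) atTop
        (𝓝 (gc x y z * lv (sC c / (z - y)) h)) := by
      have e4 : lv (sC c / (z - y)) h = ∑ i, pv c i * sc h i (z - y) := by
        have e5 : sC c = ∑ i, (pv c i : ℂ) * src i := by
          rw [← sC_cp, cp_pv]
        rw [e5, Finset.sum_div, lv_sum]
        refine Finset.sum_congr rfl fun i _ => ?_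
        rw [mul_div_assoc, lv_real_mul, sc_lv]
      rw [e4]
      refine Tendsto.const_mul _ (tendsto_finsetSum _ fun i _ => ?_)
      exact (sp_tendsto H.pos H.lim hzy t2 t1 i h).const_mul _
    have e4 := e2.add e3
    refine tendsto_nhds_unique e1 (e4.congr' ?_)
    have g1 := gz_gz (hD.gau z (by linarith)).1 (hD.gau z (by linarith)).2 H.pos H.tip t2
    have g2 : ∀ᶠ k in atTop, ‖meshPoint (a k) (meshIndex (a k) z) - y‖ < r / 2 :=
      ((t2.sub_const y).norm).eventually (eventually_lt_nhds (by linarith))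
    filter_upwards [g1, g2] with k g1 g2
    have g3 := regp_in (a := a k) (c := fun f => χ r (meshPoint (a k) f)) (γ := gz x y (V k))
      (S := S k) (f' := meshIndex (a k) y) (gz_sq x y (V k)) (p := pv c)
      (f := meshIndex (a k) z) ((hD.cut r hr hrr).one _ g2.le) h
    have g4 := gz_sq x y (V k) (meshIndex (a k) z)
    have g5 : regp (a k) (fun f => χ r (meshPoint (a k) f)) (gz x y (V k)) (S k)
        (meshIndex (a k) y) (pv c) (meshIndex (a k) z) h = gz x y (V k) (meshIndex (a k) z) *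
        ((a k)⁻¹ * (gz x y (V k) (meshIndex (a k) z) * gz x y (V k) (meshIndex (a k) y) *
          Sp (S k) (meshIndex (a k) y) (pv c) (meshIndex (a k) z) h -
          ∑ i, pv c i * spF (meshIndex (a k) y, i) (meshIndex (a k) z) h)) := by
      rw [← g3, ← mul_assoc, ← sq, g4, one_mul]
    rw [g5, ← g1]
    have g6 : ∑ i, pv c i * ((a k)⁻¹ * spF (meshIndex (a k) y, i) (meshIndex (a k) z) h) =
        (a k)⁻¹ * ∑ i, pv c i * spF (meshIndex (a k) y, i) (meshIndex (a k) z) h := by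
      rw [Finset.mul_sum]
      exact Finset.sum_congr rfl fun i _ => by ring
    rw [g6]
    linear_combination (gz x z (V k) (meshIndex (a k) z) * gz x y (V k) (meshIndex (a k) y) *
      ((a k)⁻¹ * Sp (S k) (meshIndex (a k) y) (pv c) (meshIndex (a k) z) h)) * g4
  exact lv_inj (key 1) (key 3)

end

/-! ### bounds -/

/-- **bound on disjoint compact sets** -/
theorem bdd {Om : Set ℂ} {n : ℕ} {x : Fin n → ℂ}
    {CC : (ℕ → ℝ) → (ℕ → Fld) → (ℕ → Fin n → Face) → Prop} {Q : Set ℂ → (ℂ → ℂ) → Prop}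
    (hRC : ResConv Om x CC Q) (hcl : ClassOK Om x CC) {K₁ K₂ : Set ℂ} (hK₁ : IsCompact K₁)
    (hK₂ : IsCompact K₂) (h₁ : K₁ ⊆ Om) (h₂ : K₂ ⊆ Om) (hd : Disjoint K₁ K₂) {a : ℕ → ℝ}
    {w : ℕ → Fld} {V : ℕ → Fin n → Face} {S : ℕ → Face × Fin 4 → Face × Fin 4 → ℝ}
    (hS : CS CC a w V S) : ∃ C : ℝ, ∀ᶠ k in atTop, ∀ f f' : Face,
      meshPoint (a k) f ∈ K₁ → meshPoint (a k) f' ∈ K₂ → ∀ i i' : Fin 4,
      |(a k)⁻¹ * S k (f, i) (f', i')| ≤ C := by
  by_contra hc
  push Not at hc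
  -- a bad subsequence
  have h3 : ∀ m N : ℕ, ∃ k > N, ∃ f f' : Face, meshPoint (a k) f ∈ K₁ ∧
      meshPoint (a k) f' ∈ K₂ ∧ ∃ i i' : Fin 4, (m : ℝ) < |(a k)⁻¹ * S k (f, i) (f', i')| := by
    intro m N
    have h4 := hc m
    rw [frequently_atTop] at h4
    obtain ⟨k, hk, f, f', h5, h6, i, i', h7⟩ := h4 (N + 1)
    exact ⟨k, hk, f, f', h5, h6, i, i', h7⟩
  choose k hk f f' hf hf' i i' hbig using h3
  -- strictly increasing indices
  let κ : ℕ → ℕ := fun m => Nat.rec (k 0 0) (fun m N => k (m + 1) N) m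
  have hκs : ∀ m, κ (m + 1) = k (m + 1) (κ m) := fun m => rfl
  have hκ : StrictMono κ := strictMono_nat_of_lt_succ fun m => by
    rw [hκs]; exact hk _ _
  let N : ℕ → ℕ := fun m => Nat.casesOn m 0 (fun m => κ m)
  have hN : ∀ m, κ m = k m (N m) := fun m => by cases m <;> rfl
  set F : ℕ → Face := fun m => f m (N m) with hF
  set F' : ℕ → Face := fun m => f' m (N m) with hF'
  have b1 : ∀ m, meshPoint (a (κ m)) (F m) ∈ K₁ := fun m => by rw [hN]; exact hf _ _
  have b2 : ∀ m, meshPoint (a (κ m)) (F' m) ∈ K₂ := fun m => by rw [hN]; exact hf' _ _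
  have b3 : ∀ m : ℕ, (m : ℝ) < |(a (κ m))⁻¹ * S (κ m) (F m, i m (N m)) (F' m, i' m (N m))| :=
    fun m => by rw [hN]; exact hbig _ _
  -- constant directions along a subsequence
  obtain ⟨⟨j, j'⟩, hj⟩ : ∃ q : Fin 4 × Fin 4, ∃ᶠ m in atTop, (i m (N m), i' m (N m)) = q := by
    by_contra hno
    push Not at hno
    have h5 : ∀ᶠ m in atTop, ∀ q : Fin 4 × Fin 4, (i m (N m), i' m (N m)) ≠ q :=
      eventually_all.2 fun q => hno q
    obtain ⟨m, hm⟩ := h5.exists
    exact hm _ rfl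
  obtain ⟨τ, hτ, hτj⟩ := extraction_of_frequently_atTop hj
  obtain ⟨z, hz, φ₁, hφ₁, hz1⟩ := hK₁.tendsto_subseq (fun m => b1 (τ m))
  obtain ⟨z', hz', φ₂, hφ₂, hz2⟩ := hK₂.tendsto_subseq (fun m => b2 (τ (φ₁ m)))
  set σ : ℕ → ℕ := fun m => τ (φ₁ (φ₂ m)) with hσ
  have hσm : StrictMono σ := hτ.comp (hφ₁.comp hφ₂)
  have hκσ : StrictMono (κ ∘ σ) := hκ.comp hσm
  have hzz : z ≠ z' := fun h => by
    rw [h] at hz
    exact Set.disjoint_left.1 hd hz hz'
  have hS' : CS CC (a ∘ (κ ∘ σ)) (w ∘ (κ ∘ σ)) (V ∘ (κ ∘ σ)) (S ∘ (κ ∘ σ)) :=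
    ⟨hcl.sub a w V hS.cls _ hκσ, hκσ.tendsto_atTop.eventually hS.cov⟩
  obtain ⟨r₀, χ, G, hD⟩ := exists_dat hRC hcl (h₂ hz')
  have hpos : 0 < ‖z - z'‖ := norm_pos_iff.2 (sub_ne_zero.2 hzz)
  set r := min r₀ (‖z - z'‖ / 2) with hr
  have hr0 : 0 < r := lt_min hD.pos (by linarith)
  have h6 := hD.off hcl hr0 (min_le_left _ _) hS' (f' := fun m => F' (σ m)) hz2
    (cp_single j') (h₁ hz) (lt_of_le_of_lt (min_le_right _ _) (by linarith))
    (f := fun m => F (σ m)) (hz1.comp hφ₂.tendsto_atTop) j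
  have h7 := h6.abs
  have h8 : Tendsto (fun m => |(a (κ (σ m)))⁻¹ * S (κ (σ m)) (F (σ m), j) (F' (σ m), j')|) atTop
      (𝓝 |lv (G r (ud j') z) j|) := by
    refine h7.congr fun m => ?_
    rw [Sp_single, abs_mul, abs_mul, gz_abs, gz_abs, one_mul, one_mul]
    rfl
  have h9 : Tendsto (fun m => |(a (κ (σ m)))⁻¹ * S (κ (σ m)) (F (σ m), j) (F' (σ m), j')|) atTop
      atTop := by
    refine tendsto_atTop_mono (fun m => ?_) (tendsto_natCast_atTop_atTop (R := ℝ))
    have h10 := hτj (φ₁ (φ₂ m))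
    have h11 := b3 (σ m)
    rw [Prod.mk.injEq] at h10
    have h12 : i (σ m) (N (σ m)) = j := h10.1
    have h13 : i' (σ m) (N (σ m)) = j' := h10.2
    rw [h12, h13] at h11
    have h14 : (m : ℝ) ≤ (σ m : ℝ) := by exact_mod_cast hσm.id_le m
    linarith
  exact not_tendsto_nhds_of_tendsto_atTop h9 _ h8

end Crest.Agent.R165.Mac5x622
end
private theorem rz_92a6ac675b : type_of% @_root_.Crest.Agent.R165.Mac5x622.pv.eq_1 := @_root_.Crest.Agent.R165.Mac5x622.pv.eq_1 -- L28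
end

-- ▼ part R165/Mac6_622

/-!
# Row 165 (S0250), U4/MAC (helper622): the limits of the kernels, any resolvent convergence

* `MacLim O x CC g` : the limits (without identification of `g`)
* `gM` : the kernel function, `GSpec` : its description by the columns `F r c`
* `mac_lim` : `ResConv → MacLim` (any `Q`), with `GSpec`
-/

set_option autoImplicit false
set_option linter.unusedVariables false
set_option linter.unusedSimpArgs false

noncomputable section

open MeasureTheory Filter Topology Set Metric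
open Crest.ProbabilityR.IsingModel
open Crest.Agent.R165.Tr1x40 Crest.Agent.R165.RIfx891 Crest.Agent.R165.Embx622
open Crest.Agent.R165.Upx622 Crest.Agent.R165.Tr2x40
open Crest.Agent.R165.Mac0x622 Crest.Agent.R165.Mac1x622 Crest.Agent.R165.MacIx622
open Crest.Agent.R165.Mac2x622 Crest.Agent.R165.Mac3x622 Crest.Agent.R165.Mac4x622
open Crest.Agent.R165.Mac5x622 Crest.Agent.R165.MacOx622

namespace Crest.Agent.R165.Mac6x622

/-- the limits of the kernels -/
structure MacLim (O : Set ℂ) {n : ℕ} (x : Fin n → ℂ)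
    (CC : (ℕ → ℝ) → (ℕ → Fld) → (ℕ → Fin n → Face) → Prop) (g : ℂ → ℂ → ℂ → ℂ) : Prop where
  cont : ∀ y ∈ O, ∀ c : ℂ, ContinuousOn (g y c) (O \ {y})
  add : ∀ y ∈ O, ∀ c d z : ℂ, z ∈ O → z ≠ y → g y (c + d) z = g y c z + g y d z
  smul : ∀ y ∈ O, ∀ (s : ℝ) (c z : ℂ), z ∈ O → z ≠ y → g y (s * c) z = s * g y c z
  /-- two different points -/
  off : ∀ a w V, CC a w V → ∀ S : ℕ → Face × Fin 4 → Face × Fin 4 → ℝ,
    (∀ᶠ k in atTop, Cov40 (w k) (S k)) → ∀ z ∈ O, ∀ z' ∈ O, z ≠ z' →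
    ∀ f f' : ℕ → Face, Tendsto (fun k => meshPoint (a k) (f k)) atTop (𝓝 z) →
      Tendsto (fun k => meshPoint (a k) (f' k)) atTop (𝓝 z') → ∀ i i' : Fin 4,
      Tendsto (fun k => (a k)⁻¹ * (kp x z (V k) (f k) * kp x z' (V k) (f' k) *
        S k (f k, i) (f' k, i'))) atTop
        (𝓝 (U3x719.kerB x g z z' (ud i) (ud i') / (2 * Real.pi * xc)))
  /-- the regular part -/
  diag : ∀ a w V, CC a w V → ∀ S : ℕ → Face × Fin 4 → Face × Fin 4 → ℝ,
    (∀ᶠ k in atTop, Cov40 (w k) (S k)) → ∀ z ∈ O,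
    ∀ f f' : ℕ → Face, Tendsto (fun k => meshPoint (a k) (f k)) atTop (𝓝 z) →
      Tendsto (fun k => meshPoint (a k) (f' k)) atTop (𝓝 z) → ∀ i i' : Fin 4,
      Tendsto (fun k => (a k)⁻¹ * (kp x z (V k) (f k) * kp x z (V k) (f' k) *
        S k (f k, i) (f' k, i') - spF (f' k, i') (f k) i)) atTop
        (𝓝 (U3x719.kerR x g z (ud i) (ud i') / (2 * Real.pi * xc)))
  /-- bounds off the diagonal -/
  bdd : ∀ K₁ K₂ : Set ℂ, IsCompact K₁ → IsCompact K₂ → K₁ ⊆ O → K₂ ⊆ O →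
    Disjoint K₁ K₂ → ∀ a w V, CC a w V → ∀ S : ℕ → Face × Fin 4 → Face × Fin 4 → ℝ,
    (∀ᶠ k in atTop, Cov40 (w k) (S k)) → ∃ C : ℝ, ∀ᶠ k in atTop, ∀ f f' : Face,
      meshPoint (a k) f ∈ K₁ → meshPoint (a k) f' ∈ K₂ → ∀ i i' : Fin 4,
      |(a k)⁻¹ * S k (f, i) (f', i')| ≤ C

/-! ### signs -/

/-- sign of the rays through `z` -/
def sgn {n : ℕ} (x : Fin n → ℂ) (z : ℂ) : ℝ := by
  classical exact ∏ i, if rel (x i) z then -1 else 1

theorem sgn_sq {n : ℕ} (x : Fin n → ℂ) (z : ℂ) : sgn x z ^ 2 = 1 := by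
  classical
  unfold sgn
  exact prod_sign_sq _

theorem sgn_sqC {n : ℕ} (x : Fin n → ℂ) (z : ℂ) : (sgn x z : ℂ) ^ 2 = 1 := by
  have := sgn_sq x z; exact_mod_cast this

theorem sgn_ne {n : ℕ} (x : Fin n → ℂ) (z : ℂ) : (sgn x z : ℂ) ≠ 0 := fun h => by
  have := sgn_sqC x z
  rw [h] at this; norm_num at this

theorem kp_eq {n : ℕ} (x : Fin n → ℂ) (z : ℂ) (V : Fin n → Face) (f : Face) :
    kp x z V f = sgn x z * gz x z V f := by
  classical
  unfold kp sgn gz
  rw [← Finset.prod_mul_distrib]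
  refine Finset.prod_congr rfl fun i _ => ?_
  unfold rel
  by_cases h : (x i).im = z.im ∧ (x i).re < z.re
  · by_cases h2 : f.2 < (V i).2
    · have h3 : ¬ (V i).2 ≤ f.2 := not_le.2 h2
      simp [h.1, h.2, h2, h3]
    · have h3 : (V i).2 ≤ f.2 := not_lt.1 h2
      simp [h.1, h.2, h2, h3]
  · have h2 : ¬ ((x i).im = z.im ∧ (x i).re < z.re ∧ f.2 < (V i).2) := fun h' => h ⟨h'.1, h'.2.1⟩
    simp [h, h2]

theorem rX_eq {n : ℕ} (x : Fin n → ℂ) (z : ℂ) : U3x719.rX x z = rX x z := rfl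

theorem rXa_eq {n : ℕ} (x : Fin n → ℂ) (z : ℂ) : U3x719.rXa x z = sgn x z * rX x z := by
  classical
  unfold U3x719.rXa sgn
  rw [rX_eq]
  congr 1
  push_cast
  refine Finset.prod_congr rfl fun i _ => ?_
  unfold rel
  by_cases h : (x i).im = z.im ∧ (x i).re < z.re
  · simp [h]
  · simp only [h, if_false]
    push_cast; rfl

/-- `e^{-iπ/4}` -/
def w8 : ℂ := Complex.exp (-(Real.pi / 4 * Complex.I))

theorem e8_w8 : U3x719.e8 * w8 = 1 := by
  unfold U3x719.e8 w8
  rw [← Complex.exp_add, add_neg_cancel, Complex.exp_zero]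

theorem w8_I : w8 * Complex.I = U3x719.e8 := by
  have h1 : U3x719.e8 ^ 2 = Complex.I := by
    unfold U3x719.e8
    rw [← Complex.exp_nat_mul]
    have : ((2 : ℕ) : ℂ) * (Real.pi / 4 * Complex.I) = Real.pi / 2 * Complex.I := by
      push_cast; ring
    rw [this, Complex.exp_pi_div_two_mul_I]
  have h2 := e8_w8
  linear_combination (-w8) * h1 + U3x719.e8 * h2


theorem w8_ne : w8 ≠ 0 := Complex.exp_ne_zero _

/-! ### the kernel function -/

/-- description of the kernel function `g` by the columns -/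
structure GSpec (O : Set ℂ) {n : ℕ} (x : Fin n → ℂ) (Q : Set ℂ → (ℂ → ℂ) → Prop)
    (g : ℂ → ℂ → ℂ → ℂ) (y : ℂ) (r₀ : ℝ) (F : ℝ → ℂ → ℂ → ℂ) : Prop where
  pos : 0 < r₀
  ball : closedBall y r₀ ⊆ O
  q : ∀ r, 0 < r → r ≤ r₀ → ∀ c, Q (KR y r) (F r c)
  cont : ∀ r, 0 < r → r ≤ r₀ → ∀ c, ∃ gg : ℂ → ℂ, ContinuousOn gg (O \ KR y r) ∧
    ∀ z ∈ O \ KR y r, F r c z * rX x z = gg z
  far : ∀ r, 0 < r → r ≤ r₀ → ∀ c, ∀ z ∈ O, r < ‖z - y‖ →
    g y c z = sgn x y * (2 * Real.pi * xc * w8) * (F r c z * rX x z)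
  near : ∀ r, 0 < r → r ≤ r₀ → ∀ c z, z ≠ y → ‖z - y‖ < r / 4 →
    g y c z = sgn x y * (2 * Real.pi * xc * w8) *
      ((F r c z + gc x y z * (sC c / (z - y))) * rX x z)

/-- the kernel function -/
def gM {n : ℕ} (x : Fin n → ℂ) (r₀ : ℂ → ℝ) (F : ℂ → ℝ → ℂ → ℂ → ℂ) (y c z : ℂ) : ℂ :=
  sgn x y * (2 * Real.pi * xc * w8) * (F y (min (r₀ y) (‖z - y‖ / 2)) c z * rX x z)

section

variable {Om : Set ℂ} {n : ℕ} {x : Fin n → ℂ}
  {CC : (ℕ → ℝ) → (ℕ → Fld) → (ℕ → Fin n → Face) → Prop} {Q : Set ℂ → (ℂ → ℂ) → Prop}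

theorem gM_spec (hcl : ClassOK Om x CC) (hne : ∃ a w V S, CS CC a w V S) {r₀ : ℂ → ℝ}
    {χ : ℂ → ℝ → ℂ → ℝ} {F : ℂ → ℝ → ℂ → ℂ → ℂ} {y : ℂ}
    (hD : Dat Om x CC Q y (r₀ y) (χ y) (F y)) :
    GSpec Om x Q (gM x r₀ F) y (r₀ y) (F y) where
  pos := hD.pos
  ball := hD.ball
  q := hD.q
  cont := hD.cont
  far r hr hrr c z hz hzy := by
    have h0 : 0 < ‖z - y‖ := hr.trans hzy
    unfold gM
    rw [hD.uniq hcl hne (lt_min hD.pos (by linarith)) (min_le_left _ _) hr hrr c hz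
      (lt_of_le_of_lt (min_le_right _ _) (by linarith)) hzy]
  near r hr hrr c z hzy h := by
    have h0 : 0 < ‖z - y‖ := norm_pos_iff.2 (sub_ne_zero.2 hzy)
    unfold gM
    rw [hD.near_eq hcl hne hr hrr (lt_min hD.pos (by linarith)) (min_le_left _ _) c h
      (lt_of_le_of_lt (min_le_right _ _) (by linarith))]

end

/-! ### the square root near a point -/

/-- `gc · rX` near `y` : derivative at `y` -/
theorem R_deriv {n : ℕ} {x : Fin n → ℂ} {y : ℂ} (hy : ∀ i, x i ≠ y) :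
    HasDerivAt (fun u => (gc x y u : ℂ) * rX x u) (rX x y * ∑ j, 1 / (2 * (y - x j))) y := by
  obtain ⟨r, hr, hd⟩ := MacTx610.gc_rX_diff hy
  set R : ℂ → ℂ := fun u => (gc x y u : ℂ) * rX x u with hR
  have hd' : DifferentiableAt ℂ R y := (hd.differentiableAt (ball_mem_nhds y hr))
  have hRy : R y = rX x y := by rw [hR]; simp [gc_self]
  have hsq : ∀ u, R u ^ 2 = ∏ j, (x j - u) := by
    intro u
    rw [hR]
    simp only
    rw [mul_pow]
    have h1 : (gc x y u : ℂ) ^ 2 = 1 := by have := gc_sq x y u; exact_mod_cast this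
    rw [h1, one_mul, rX, ← Finset.prod_pow]
    refine Finset.prod_congr rfl fun j _ => ?_
    rw [← Complex.cpow_nat_mul]
    norm_num
  have h1 : HasDerivAt (fun u => R u ^ 2) (2 * R y * deriv R y) y := by
    have := hd'.hasDerivAt.fun_pow 2
    simpa using this
  have h2 : HasDerivAt (fun u : ℂ => ∏ j, (x j - u)) (∑ j, (∏ i ∈ Finset.univ.erase j,
      (x i - y)) • (-1 : ℂ)) y := by
    have := HasDerivAt.fun_finsetProd (u := (Finset.univ : Finset (Fin n)))
      (f := fun j (u : ℂ) => x j - u) (f' := fun _ => -1) (x := y)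
      (fun j _ => (hasDerivAt_id y).const_sub (x j))
    exact this
  have h3 : 2 * R y * deriv R y = ∑ j, (∏ i ∈ Finset.univ.erase j, (x i - y)) • (-1 : ℂ) := by
    refine h1.unique (h2.congr_of_eventuallyEq ?_)
    exact Eventually.of_forall hsq
  have hne : R y ≠ 0 := by rw [hRy]; exact rX_ne hy
  have h4 : ∑ j, (∏ i ∈ Finset.univ.erase j, (x i - y)) • (-1 : ℂ) =
      2 * R y ^ 2 * ∑ j, 1 / (2 * (y - x j)) := by
    rw [hsq, Finset.mul_sum]
    refine Finset.sum_congr rfl fun j _ => ?_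
    rw [← Finset.mul_prod_erase Finset.univ _ (Finset.mem_univ j), smul_eq_mul]
    have h5 : x j - y ≠ 0 := sub_ne_zero.2 (hy j)
    have h6 : y - x j ≠ 0 := sub_ne_zero.2 (hy j).symm
    field_simp
    ring
  have h5 : deriv R y = rX x y * ∑ j, 1 / (2 * (y - x j)) := by
    rw [h4] at h3
    have h6 : 2 * R y * (deriv R y - R y * ∑ j, 1 / (2 * (y - x j))) = 0 := by
      linear_combination h3
    rcases mul_eq_zero.1 h6 with h7 | h7
    · exact absurd h7 (mul_ne_zero two_ne_zero hne)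
    · rw [← hRy]; linear_combination h7
  rw [← h5]
  exact hd'.hasDerivAt

/-! ### values of the limit forms -/

section

variable {O : Set ℂ} {n : ℕ} {x : Fin n → ℂ} {Q : Set ℂ → (ℂ → ℂ) → Prop}
  {g : ℂ → ℂ → ℂ → ℂ} {y : ℂ} {r₀ : ℝ} {F : ℝ → ℂ → ℂ → ℂ}

theorem two_pi_xc_ne : (2 * Real.pi * xc : ℂ) ≠ 0 := by
  have h1 : (Real.pi : ℂ) ≠ 0 := by exact_mod_cast Real.pi_ne_zero
  have h2 : (xc : ℂ) ≠ 0 := by exact_mod_cast xc_pos.ne'
  simp [h1, h2]

theorem GSpec.kerB (hG : GSpec O x Q g y r₀ F) (hO : ∀ i, x i ∉ O) {r : ℝ} (hr : 0 < r)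
    (hrr : r ≤ r₀) {z : ℂ} (hz : z ∈ O) (hzy : r < ‖z - y‖) (c c' : ℂ) :
    U3x719.kerB x g z y c c' / (2 * Real.pi * xc) =
      sgn x y * sgn x z * (c * F r c' z).re := by
  have h1 : rX x z ≠ 0 := rX_ne fun i hc => hO i (by rw [hc]; exact hz)
  have h2 : c * U3x719.e8 * (g y c' z / U3x719.rXa x z) =
      ((2 * Real.pi * xc) * (sgn x y * sgn x z) : ℝ) * (c * F r c' z) := by
    have h3 := sgn_ne x z
    have h4 := sgn_sqC x z
    have h5 := e8_w8
    have h6 : g y c' z / U3x719.rXa x z = sgn x y * (2 * Real.pi * xc * w8) * F r c' z *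
        sgn x z := by
      rw [hG.far r hr hrr c' z hz hzy, rXa_eq, div_eq_iff (mul_ne_zero h3 h1)]
      linear_combination (-(sgn x y * (2 * Real.pi * xc * w8) * F r c' z * rX x z)) * h4
    rw [h6]
    push_cast
    linear_combination (2 * Real.pi * xc * (sgn x y * sgn x z) * (c * F r c' z)) * h5
  unfold U3x719.kerB
  rw [h2, Complex.re_ofReal_mul]
  have h3 : (2 * Real.pi * xc : ℝ) ≠ 0 := by
    have := Real.pi_pos; have := xc_pos; positivity
  rw [mul_assoc (2 * Real.pi * xc), mul_div_cancel_left₀ _ h3]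

theorem k_sC (c : ℂ) : (2 * Real.pi * xc * w8) * sC c = U3x719.e8 * c := by
  unfold sC
  have h := two_pi_xc_ne
  rw [show (2 * Real.pi * xc * w8) * (Complex.I * c / (2 * Real.pi * xc)) =
    (w8 * Complex.I * c) * ((2 * Real.pi * xc) / (2 * Real.pi * xc) : ℂ) by ring, div_self h,
    mul_one, w8_I]

theorem src_eq' {n : ℕ} (x : Fin n → ℂ) (y c : ℂ) :
    U3x719.src x y c = sgn x y * (2 * Real.pi * xc * w8) * (sC c * rX x y) := by
  unfold U3x719.src
  rw [rXa_eq]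
  linear_combination (-(sgn x y * rX x y)) * k_sC c

/-- the limit of the kernel minus its pole -/
theorem GSpec.lim (hG : GSpec O x Q g y r₀ F) (hO : IsOpen O) (hx : ∀ i, x i ∉ O) {r : ℝ}
    (hr : 0 < r) (hrr : r ≤ r₀) (c : ℂ) :
    Tendsto (fun z => g y c z - U3x719.src x y c / (z - y)) (𝓝[≠] y)
      (𝓝 (sgn x y * (2 * Real.pi * xc * w8) * (F r c y * rX x y) +
        U3x719.src x y c * ∑ j, 1 / (2 * (y - x j)))) := by
  have hy : y ∈ O := hG.ball (mem_closedBall_self hG.pos.le)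
  obtain ⟨gg, hgg, hF⟩ := hG.cont r hr hrr c
  have hopen : IsOpen (O \ KR y r) := hO.sdiff (KR_compact y r).isClosed
  have hyK : y ∈ O \ KR y r := ⟨hy, fun hc => by
    have := (mem_KR.1 hc).2
    rw [sub_self, norm_zero] at this
    linarith⟩
  have h1 : Tendsto gg (𝓝[≠] y) (𝓝 (gg y)) :=
    ((hgg.continuousAt (hopen.mem_nhds hyK)).tendsto).mono_left nhdsWithin_le_nhds
  have h2 := (hasDerivAt_iff_tendsto_slope.1 (R_deriv (x := x) (y := y)
    (fun i hc => hx i (by rw [hc]; exact hy))))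
  set R : ℂ → ℂ := fun u => (gc x y u : ℂ) * rX x u with hR
  have hRy : R y = rX x y := by rw [hR]; simp [gc_self]
  set k : ℂ := sgn x y * (2 * Real.pi * xc * w8) with hk
  have h3 : Tendsto (fun z => k * gg z + k * sC c * slope R y z) (𝓝[≠] y)
      (𝓝 (k * gg y + k * sC c * (rX x y * ∑ j, 1 / (2 * (y - x j))))) :=
    (h1.const_mul k).add (h2.const_mul (k * sC c))
  have e1 : k * gg y + k * sC c * (rX x y * ∑ j, 1 / (2 * (y - x j))) =
      k * (F r c y * rX x y) + U3x719.src x y c * ∑ j, 1 / (2 * (y - x j)) := by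
    rw [hF y hyK, src_eq' x y c]
    ring
  rw [e1] at h3
  refine h3.congr' ?_
  have h4 : ∀ᶠ z in 𝓝[≠] y, ‖z - y‖ < r / 4 := by
    have h5 : Tendsto (fun z : ℂ => ‖z - y‖) (𝓝 y) (𝓝 ‖y - y‖) :=
      ((continuous_id.sub continuous_const).norm).tendsto y
    rw [sub_self, norm_zero] at h5
    exact (h5.eventually (eventually_lt_nhds (by linarith))).filter_mono nhdsWithin_le_nhds
  have h50 : ∀ᶠ z in 𝓝 y, z ∈ O \ KR y r := hopen.mem_nhds hyK
  have h5 : ∀ᶠ z in 𝓝[≠] y, z ∈ O \ KR y r := h50.filter_mono nhdsWithin_le_nhds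
  filter_upwards [h4, h5, self_mem_nhdsWithin] with z h4 h5 h6
  have hzy : z ≠ y := h6
  have hzy' : z - y ≠ 0 := sub_ne_zero.2 hzy
  rw [hG.near r hr hrr c z hzy h4, src_eq' x y c, ← hF z h5, slope_def_field, hRy, hR]
  simp only
  field_simp
  ring

theorem GSpec.kerR (hG : GSpec O x Q g y r₀ F) (hO : IsOpen O) (hx : ∀ i, x i ∉ O) {r : ℝ}
    (hr : 0 < r) (hrr : r ≤ r₀) (c c' : ℂ) :
    U3x719.kerR x g y c c' / (2 * Real.pi * xc) = (c * F r c' y).re := by
  have hy : y ∈ O := hG.ball (mem_closedBall_self hG.pos.le)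
  have h1 : rX x y ≠ 0 := rX_ne fun i hc => hx i (by rw [hc]; exact hy)
  have h2 := (hG.lim hO hx hr hrr c').limUnder_eq
  have h3 := sgn_ne x y
  have h5 := e8_w8
  have h4 : c * U3x719.e8 * (limUnder (𝓝[≠] y) (fun z => g y c' z - U3x719.src x y c' / (z - y)) -
      U3x719.src x y c' * ∑ j, 1 / (2 * (y - x j))) / U3x719.rXa x y =
      ((2 * Real.pi * xc : ℝ) : ℂ) * (c * F r c' y) := by
    rw [h2, rXa_eq, add_sub_cancel_right, mul_div_assoc]
    have h6 : sgn x y * (2 * Real.pi * xc * w8) * (F r c' y * rX x y) / (sgn x y * rX x y) =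
        (2 * Real.pi * xc * w8) * F r c' y := by
      rw [div_eq_iff (mul_ne_zero h3 h1)]
      ring
    rw [h6]
    push_cast
    linear_combination (2 * Real.pi * xc * (c * F r c' y)) * h5
  unfold U3x719.kerR
  rw [h4, Complex.re_ofReal_mul]
  have h3 : (2 * Real.pi * xc : ℝ) ≠ 0 := by
    have := Real.pi_pos; have := xc_pos; positivity
  rw [mul_div_cancel_left₀ _ h3]

/-- continuity off the source -/
theorem GSpec.cont_g (hG : GSpec O x Q g y r₀ F) (hO : IsOpen O) (c : ℂ) :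
    ContinuousOn (g y c) (O \ {y}) := by
  intro z hz
  have hzy : 0 < ‖z - y‖ := norm_pos_iff.2 (sub_ne_zero.2 hz.2)
  set r := min r₀ (‖z - y‖ / 2) with hr
  have hr0 : 0 < r := lt_min hG.pos (by linarith)
  have hrz : r < ‖z - y‖ := lt_of_le_of_lt (min_le_right _ _) (by linarith)
  obtain ⟨gg, hgg, hF⟩ := hG.cont r hr0 (min_le_left _ _) c
  have hopen : IsOpen (O \ KR y r) := hO.sdiff (KR_compact y r).isClosed
  have hzK : z ∈ O \ KR y r := ⟨hz.1, fun hc => by
    have := (mem_KR.1 hc).1; linarith⟩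
  have h1 := (hgg.continuousAt (hopen.mem_nhds hzK)).const_mul
    (sgn x y * (2 * Real.pi * xc * w8) : ℂ)
  refine (h1.congr ?_).continuousWithinAt
  have h2 : ∀ᶠ u in 𝓝 z, r < ‖u - y‖ :=
    (((continuous_id.sub continuous_const).norm).tendsto z).eventually (eventually_gt_nhds hrz)
  filter_upwards [h2, hopen.mem_nhds hzK, hO.mem_nhds hz.1] with u h2 h3 h4
  rw [hG.far r hr0 (min_le_left _ _) c u h4 h2, hF u h3]

end

/-! ### the theorem -/

/-- **MAC, abstract form** : resolvent convergence implies all the kernel limits -/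
theorem mac_lim {Om : Set ℂ} {n : ℕ} {x : Fin n → ℂ}
    {CC : (ℕ → ℝ) → (ℕ → Fld) → (ℕ → Fin n → Face) → Prop} {Q : Set ℂ → (ℂ → ℂ) → Prop}
    (hRC : ResConv Om x CC Q) (hcl : ClassOK Om x CC) (hne : ∃ a w V S, CS CC a w V S) :
    ∃ (g : ℂ → ℂ → ℂ → ℂ) (r₀ : ℂ → ℝ) (F : ℂ → ℝ → ℂ → ℂ → ℂ), MacLim Om x CC g ∧
      ∀ y ∈ Om, GSpec Om x Q g y (r₀ y) (F y) := by
  classical
  have h : ∀ y, ∃ (r₀ : ℝ) (χ : ℝ → ℂ → ℝ) (F : ℝ → ℂ → ℂ → ℂ), y ∈ Om →
      Dat Om x CC Q y r₀ χ F := fun y => by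
    by_cases hy : y ∈ Om
    · obtain ⟨r₀, χ, F, hD⟩ := exists_dat hRC hcl hy
      exact ⟨r₀, χ, F, fun _ => hD⟩
    · exact ⟨0, fun _ _ => 0, fun _ _ _ => 0, fun h => absurd h hy⟩
  choose r₀ χ F hD using h
  have hG : ∀ y ∈ Om, GSpec Om x Q (gM x r₀ F) y (r₀ y) (F y) := fun y hy =>
    gM_spec hcl hne (hD y hy)
  refine ⟨gM x r₀ F, r₀, F, ⟨?_, ?_, ?_, ?_, ?_, ?_⟩, hG⟩
  · exact fun y hy c => (hG y hy).cont_g hcl.opn c
  · intro y hy c d z hz hzy
    have h0 : 0 < ‖z - y‖ := norm_pos_iff.2 (sub_ne_zero.2 hzy)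
    set r := min (r₀ y) (‖z - y‖ / 2) with hr
    have hr0 : 0 < r := lt_min (hD y hy).pos (by linarith)
    have hrz : r < ‖z - y‖ := lt_of_le_of_lt (min_le_right _ _) (by linarith)
    rw [(hG y hy).far r hr0 (min_le_left _ _) _ z hz hrz,
      (hG y hy).far r hr0 (min_le_left _ _) _ z hz hrz,
      (hG y hy).far r hr0 (min_le_left _ _) _ z hz hrz,
      (hD y hy).add hcl hne hr0 (min_le_left _ _) c d ⟨hz, fun hc => by
        have := (mem_KR.1 hc).1; linarith⟩]
    ring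
  · intro y hy s c z hz hzy
    have h0 : 0 < ‖z - y‖ := norm_pos_iff.2 (sub_ne_zero.2 hzy)
    set r := min (r₀ y) (‖z - y‖ / 2) with hr
    have hr0 : 0 < r := lt_min (hD y hy).pos (by linarith)
    have hrz : r < ‖z - y‖ := lt_of_le_of_lt (min_le_right _ _) (by linarith)
    rw [(hG y hy).far r hr0 (min_le_left _ _) _ z hz hrz,
      (hG y hy).far r hr0 (min_le_left _ _) _ z hz hrz,
      (hD y hy).smul hcl hne hr0 (min_le_left _ _) s c ⟨hz, fun hc => by
        have := (mem_KR.1 hc).1; linarith⟩]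
    ring
  · intro a w V hC S hS z hz z' hz' hzz f f' hf hf' i i'
    have h0 : 0 < ‖z - z'‖ := norm_pos_iff.2 (sub_ne_zero.2 hzz)
    set r := min (r₀ z') (‖z - z'‖ / 2) with hr
    have hr0 : 0 < r := lt_min (hD z' hz').pos (by linarith)
    have hrz : r < ‖z - z'‖ := lt_of_le_of_lt (min_le_right _ _) (by linarith)
    have h1 := (hD z' hz').off hcl hr0 (min_le_left _ _) ⟨hC, hS⟩ hf' (cp_single i') hz hrz hf i
    rw [(hG z' hz').kerB hcl.tips hr0 (min_le_left _ _) hz hrz]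
    have h2 := h1.const_mul (sgn x z' * sgn x z)
    rw [lv_ud, mul_comm (F z' r (ud i') z) (ud i)] at h2
    refine h2.congr fun k => ?_
    rw [kp_eq, kp_eq, Sp_single]
    ring
  · intro a w V hC S hS z hz f f' hf hf' i i'
    have h1 := (hD z hz).reg hcl (hD z hz).pos le_rfl ⟨hC, hS⟩ hf' (cp_single i') hf i
    rw [(hG z hz).kerR hcl.opn hcl.tips (hD z hz).pos le_rfl]
    rw [lv_ud, mul_comm (F z (r₀ z) (ud i') z) (ud i)] at h1
    refine h1.congr fun k => ?_
    have h2 : ∑ j, (Pi.single i' 1 : Fin 4 → ℝ) j * spF (f' k, j) (f k) i =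
        spF (f' k, i') (f k) i := by
      rw [Finset.sum_eq_single i']
      · simp
      · intro j _ hj
        rw [Pi.single_eq_of_ne hj]; simp
      · intro h; exact absurd (Finset.mem_univ _) h
    rw [kp_eq, kp_eq, Sp_single, h2]
    have h3 := sgn_sq x z
    congr 1
    linear_combination (-(gz x z (V k) (f k) * gz x z (V k) (f' k) * S k (f k, i) (f' k, i'))) * h3
  · intro K₁ K₂ hK₁ hK₂ h₁ h₂ hd a w V hC S hS
    exact bdd hRC hcl hK₁ hK₂ h₁ h₂ hd ⟨hC, hS⟩

end Crest.Agent.R165.Mac6x622
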