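import Crest.Agent.R165.Eval_644
import Crest.Agent.R165.PsiLim2_375
import Crest.Agent.R165.LogD_813
import Crest.Agent.R165.Eta3_576
import Crest.Agent.R165.MacW_304
import Crest.Agent.R165.MacT_610
import Crest.Agent.R165.Mac6_622
import Crest.Agent.R165.LogE_813

-- ▼ part R165/Eval2_644
section

/-!
# Row 165 (S0250), block U4 (helper644): continuum evaluation in the names of PsiLim_375

* `evalN`  : `∑_d ∫ pN χ (z - x_i) d * U z d = Re ((1 + i) A_i)`
* `evalN2` : `∑_d ∫ pN2 χ (z - x_i) d * U z d = - Re ((1 - i) A_i)`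
* `evalS`  : `∑_d ∫ pS χ (z - x_j) d * U z d = Re (g (x_j) / (i gsrc_j))`

`U z d = lsg x i z * (kp * Re (edir d * e8 * (g z / rXa x z)))`.
-/

set_option autoImplicit false

noncomputable section

open MeasureTheory Set Filter Topology Metric Complex
open scoped ComplexConjugate

namespace Crest.Agent.R165.Evalx644

open Crest.Agent.R165.RIfx891 (lv)
open Crest.Agent.R165.UKerx420 (edir kap fpt)
open Crest.Agent.R165.U3x719 (rX rXa e8 IsBr Ai)
open Crest.Agent.R165.UB3x641 (gsrc IsBrN kapX e8_sq gsrc_sq)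
open Crest.Agent.R165.Gr2x813 (sgd opd)
open Crest.Agent.R165.Br5x644 (zt kp kp_sq)
open Crest.Agent.R165.Latx683 (xc)
open Crest.Agent.R165.PsiLx375 (Cut pS pN pN2 ed)

variable {n : ℕ}

theorem dir_eq (d : Fin 4) : dir d = ed d := by
  fin_cases d <;> simp [dir, ed]



theorem pS_eq (χ : ℂ → ℝ) (z : ℂ) (d : Fin 4) :
    pS χ z d = pc χ (fun w => -(kp : ℂ) * zt w) z d := by
  simp only [pS, pc, dir_eq]

theorem cut_tsupport {χ : ℂ → ℝ} {r0 R0 r : ℝ} (H : Cut χ r0 R0) (hR : R0 < r) :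
    tsupport χ ⊆ ball 0 r := by
  have h1 : tsupport χ ⊆ closedBall 0 R0 := by
    refine closure_minimal ?_ isClosed_closedBall
    intro z hz
    rw [mem_closedBall, dist_zero_right]
    by_contra h
    exact hz (H.zero z (not_le.1 h).le)
  exact h1.trans (closedBall_subset_ball hR)

theorem cut_one {χ : ℂ → ℝ} {r0 R0 : ℝ} (H : Cut χ r0 R0) : χ =ᶠ[𝓝 0] fun _ => 1 := by
  filter_upwards [ball_mem_nhds (0 : ℂ) H.pos] with z hz
  exact H.one z (by rwa [mem_ball, dist_zero_right] at hz)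

theorem cut_lt {χ : ℂ → ℝ} {r0 R0 : ℝ} (H : Cut χ r0 R0) : 0 < R0 := by
  by_contra h
  have h1 := H.zero 0 (by rw [norm_zero]; exact not_lt.1 h)
  have h2 := H.one 0 (by rw [norm_zero]; exact H.pos)
  rw [h1] at h2
  exact zero_ne_one h2

/-- the column in the local gauge at `x_i` -/
def Ucol (x : Fin n → ℂ) (i : Fin n) (g : ℂ → ℂ) (z : ℂ) (d : Fin 4) : ℝ :=
  lsg x i z * (kp * (edir d * e8 * (g z / rXa x z)).re)

section

variable {x : Fin n → ℂ} {i : Fin n} {r r0 R0 : ℝ} {g : ℂ → ℂ} {χ : ℂ → ℝ}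






/-- **two insertions** -/
theorem evalS (H : Cut χ r0 R0) (hR : R0 < r) (hr : Sep x i r)
    (hg : DifferentiableOn ℂ g (ball (x i) r)) :
    ∑ d, ∫ z, pS χ (z - x i) d * Ucol x i g z d = (g (x i) / (I * gsrc x i)).re := by
  have h := (eval_S ((cut_lt H).trans hR) hr hg H.c1 (cut_tsupport H hR) (cut_one H)).2
  simpa only [lv_ucol, ← pS_eq, Ucol] using h

end

/-! ### signs -/



/-- a radius which is good for `x`, `D` at `x_i` -/
theorem exists_radius {D : Set ℂ} (hD : IsOpen D) {x : Fin n → ℂ} (hx : Function.Injective x)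
    (i : Fin n) (hi : x i ∈ D) : ∃ r : ℝ, 0 < r ∧ Sep x i r ∧ ball (x i) r ⊆ D := by
  obtain ⟨r1, h1, h2⟩ := exists_sep hx i
  obtain ⟨r2, h3, h4⟩ := Metric.isOpen_iff.1 hD (x i) hi
  exact ⟨min r1 r2, lt_min h1 h3, h2.mono (min_le_left _ _),
    (ball_subset_ball (min_le_right _ _)).trans h4⟩

end Crest.Agent.R165.Evalx644
end
end

-- ▼ part R165/EtaCor_644
section

/-!
# Row 165 (S0250), block U4 (helper644): correlations of two branch columns

* `dat_of_bgFam` : the local data of LogD_813 for the families of UB3_641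
* `cor_of_eta` : `BrF.cor` (with `c₂ = 1`) from `BrF.eta` (with `c₁ = kp`) and the bound
  `|S(h, l_i)| ≤ C a^{1/2}` on compacts
-/

set_option autoImplicit false

noncomputable section

open MeasureTheory Set Filter Topology Metric Complex
open Crest.ProbabilityR.IsingModel

namespace Crest.Agent.R165.EtaCorx644

open Crest.Agent.R165.Latx683 Crest.Agent.R165.Br1x644 Crest.Agent.R165.Gr2x813
open Crest.Agent.R165.Gr3x813 Crest.Agent.R165.PsiLx375 Crest.Agent.R165.LogDx813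
open Crest.Agent.R165.UKerx420 (edir kap fpt kap_sq)
open Crest.Agent.R165.U3x719 (rX rXa e8 IsBr Ai)
open Crest.Agent.R165.UB3x641 (gsrc IsBrN kapX BgFam cS cSS BrF)
open Crest.Agent.R165.U5Px422 (LApp)
open Crest.Agent.R165.PathSeqx641 (NF tendsto_nf_iff)
open Crest.Agent.R165.PathIntx641 (mc)
open Crest.Agent.R165.Evalx644
open Crest.Agent.R165.Br5x644 (kp)

variable {n : ℕ}

/-- the corner vector `S + E + N + W` -/
def l4 (v : ℤ × ℤ) : Fld ℤ := ∑ d : Fin 4, Finsupp.single (v, d) 1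

theorem l4_apply (v : ℤ × ℤ) (h : HE ℤ) : l4 v h = if h.1 = v then 1 else 0 := by
  obtain ⟨f, d⟩ := h
  unfold l4
  rw [Finsupp.finsetSum_apply]
  simp only [Finsupp.single_apply, Prod.mk.injEq]
  by_cases hf : f = v
  · rw [if_pos hf]
    subst hf
    simp
  · rw [if_neg hf]
    refine Finset.sum_eq_zero fun e _ => if_neg fun h => hf h.1.symm

theorem col_l4 (S : HE ℤ → HE ℤ → ℝ) (v : ℤ × ℤ) (h : HE ℤ) : col S (l4 v) h = cS S h v := by
  unfold l4 col cS
  rw [Fin.sum_univ_four, Fin.sum_univ_four, pr_add, pr_add, pr_add, pr_single, pr_single, pr_single,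
    pr_single]
  ring

theorem formS_l4 (S : HE ℤ → HE ℤ → ℝ) (v v' : ℤ × ℤ) : formS S (l4 v) (l4 v') = cSS S v v' := by
  rw [formS_eq, l4, cSS, Fin.sum_univ_four, Fin.sum_univ_four]
  rw [pr_add, pr_add, pr_add, pr_single, pr_single, pr_single, pr_single, col_l4, col_l4, col_l4,
    col_l4]
  unfold cS
  ring

/-- `l4` and `lS` differ by a column of `A` -/
theorem l4_sub (w : BW ℤ) (v : ℤ × ℤ) : l4 v = lS w v - AF w (Finsupp.single (v, 0) 1) := by
  rw [AF_single, one_smul, colA, if_pos rfl, l4, Fin.sum_univ_four, lS]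
  rw [show (Finsupp.single ((v.1, v.2 - 1), (2 : Fin 4)) (yN w (v.1, v.2 - 1)) : Fld ℤ) =
    Finsupp.single ((((v, (0 : Fin 4)) : HE ℤ).1.1, ((v, (0 : Fin 4)) : HE ℤ).1.2 - 1), 2)
      (yN w (((v, (0 : Fin 4)) : HE ℤ).1.1, ((v, (0 : Fin 4)) : HE ℤ).1.2 - 1)) from rfl]
  abel

theorem formS_l4_left {w : BW ℤ} {S : HE ℤ → HE ℤ → ℝ} (hS : IsCov w S) (v : ℤ × ℤ) (u : Fld ℤ) :
    formS S (l4 v) u = formS S (lS w v) u - u (v, 0) := by
  rw [l4_sub w v, map_sub, LinearMap.sub_apply, formS_AF hS, pr_single, one_mul]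

/-- the local data of LogD_813 -/
theorem dat_of_bgFam {D : Set ℂ} (hD : IsOpen D) {x : Fin n → ℂ} (hx : Function.Injective x)
    (hxD : ∀ i, x i ∈ D) {w : ℝ → BW ℤ} (hw : BgFam D w) {X : ℝ → Fin n → ℤ × ℤ}
    (hX : LApp X x) {S : ℝ → HE ℤ → HE ℤ → ℝ}
    (hS : ∀ᶠ a in 𝓝[>] (0 : ℝ), IsCov (wX (w a) (X a)) (S a)) (j : Fin n) :
    ∃ δ : ℝ, ball (x j) δ ⊆ D ∧ Sep x j δ ∧
      Dat (𝓝[>] (0 : ℝ)) (fun a => a) (fun a => wX (w a) (X a)) (fun a => X a j)
        (fun a => kap x (X a) (x j)) S (x j) δ := by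
  obtain ⟨r, hr, hsep, hrD⟩ := exists_radius hD hx j (hxD j)
  obtain ⟨δ1, h1, h2⟩ := ev_good hx j
  have hδ : 0 < min (r / 4) δ1 := lt_min (by positivity) h1
  have hm1 := min_le_left (r / 4) δ1
  have hm2 := min_le_right (r / 4) δ1
  have hnf : Tendsto (fun a : ℝ => (a, X a)) (𝓝[>] (0 : ℝ)) (NF x) := by
    rw [tendsto_nf_iff]
    exact ⟨tendsto_id, tendsto_pi_nhds.2 fun i => hX i⟩
  have hK : IsCompact (closedBall (x j) (r / 2)) := isCompact_closedBall _ _
  have hKD : closedBall (x j) (r / 2) ⊆ D := (closedBall_subset_ball (by linarith)).trans hrD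
  have hpos : ∀ᶠ a in 𝓝[>] (0 : ℝ), 0 < a := eventually_mem_nhdsWithin
  have hsm : ∀ᶠ a in 𝓝[>] (0 : ℝ), a < r / 4 :=
    mem_nhdsWithin_of_mem_nhds (Iio_mem_nhds (by positivity))
  refine ⟨min (r / 4) δ1, (ball_subset_ball (by linarith)).trans hrD,
    hsep.mono (by linarith), ⟨tendsto_id, hX j, fun a => kap_sq x (X a) (x j), hδ, ?_, hS⟩⟩
  filter_upwards [hnf.eventually h2, hw.inn _ hK hKD, hpos, hsm] with a hg hin ha has f hf
  refine locAt_wX (fun d => ?_) (hg f (lt_of_lt_of_le hf hm2))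
  have key : ∀ v : ℤ × ℤ, ‖meshPoint a v - meshPoint a f‖ ≤ a → ∀ e, w a v e = Latx683.xc := by
    intro v hv e
    refine hin v e ?_
    rw [mem_closedBall, dist_eq_norm]
    have e1 : meshPoint a v - x j = (meshPoint a v - meshPoint a f) + (meshPoint a f - x j) := by ring
    rw [e1]
    refine (norm_add_le _ _).trans ?_
    linarith [hf.le]
  have d0 : ‖meshPoint a f - meshPoint a f‖ ≤ a := by rw [sub_self, norm_zero]; exact ha.le
  have d1 : ‖meshPoint a (f.1 + 1, f.2) - meshPoint a f‖ ≤ a := by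
    have : meshPoint a (f.1 + 1, f.2) - meshPoint a f = (a : ℂ) := by
      apply Complex.ext <;> simp [meshPoint]
      ring
    rw [this, Complex.norm_real, Real.norm_eq_abs, abs_of_pos ha]
  have d2 : ‖meshPoint a (f.1, f.2 + 1) - meshPoint a f‖ ≤ a := by
    have : meshPoint a (f.1, f.2 + 1) - meshPoint a f = (a : ℂ) * Complex.I := by
      apply Complex.ext <;> simp [meshPoint]
      ring
    rw [this, norm_mul, Complex.norm_I, mul_one, Complex.norm_real, Real.norm_eq_abs, abs_of_pos ha]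
  fin_cases d
  · show yN (w a) (f.1, f.2 - 1) = _
    simp only [yN, sub_add_cancel]
    exact key f d0 0
  · exact key _ d1 1
  · exact key _ d2 0
  · show yE (w a) (f.1 - 1, f.2) = _
    simp only [yE, sub_add_cancel]
    exact key f d0 1

/-- a smooth cut-off -/
theorem exists_cut {δ : ℝ} (hδ : 0 < δ) : ∃ χ : ℂ → ℝ, Cut χ (δ / 4) (δ / 2) := by
  refine ⟨fun z => ResIntx439.cut ((δ / 4) ^ 2) ((δ / 2) ^ 2) (‖z‖ ^ 2), ⟨by positivity, ?_, ?_, ?_⟩⟩
  · intro z hz
    refine ResIntx439.cut_one (by nlinarith) ?_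
    have := norm_nonneg z
    nlinarith
  · intro z hz
    refine ResIntx439.cut_zero (by nlinarith) ?_
    have := norm_nonneg z
    nlinarith
  · have h1 : ContDiff ℝ 1 fun z : ℂ => ‖z‖ ^ 2 := contDiff_norm_sq ℝ
    exact ((ResIntx439.cut_contDiff _ _).of_le (by norm_num)).comp h1

/-- **`BrF.cor` from `BrF.eta` and the bound** -/
theorem cor_of_eta {D : Set ℂ} (hD : IsOpen D) {x : Fin n → ℂ} (hx : Function.Injective x)
    (hxD : ∀ i, x i ∈ D) {w : ℝ → BW ℤ} (hw : BgFam D w) {X : ℝ → Fin n → ℤ × ℤ}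
    (hX : LApp X x) {g : ℂ → ℂ} {S : ℝ → HE ℤ → HE ℤ → ℝ}
    (hS : ∀ᶠ a in 𝓝[>] (0 : ℝ), IsCov (wX (w a) (X a)) (S a)) {i j : Fin n} (hij : i ≠ j)
    (hg : ∀ r : ℝ, ball (x j) r ⊆ D → (∀ z ∈ ball (x j) r, x i ≠ z) →
      DifferentiableOn ℂ g (ball (x j) r))
    (heta : ∀ z : ℂ, z ∈ D → (∀ i, x i ≠ z) → ∀ (d : Fin 4) (f : ℝ → ℤ × ℤ),
      Tendsto (fun a => fpt a (f a)) (𝓝[>] 0) (𝓝 z) →
      Tendsto (fun a => a ^ (-(1 : ℝ) / 2) * (kap x (X a) z (f a) * kapX x (X a) i *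
        cS (S a) (f a, d) (X a i))) (𝓝[>] 0) (𝓝 (kp * (edir d * e8 * (g z / rXa x z)).re)))
    (hbd : ∀ K : Set ℂ, IsCompact K → K ⊆ D → (∀ i, x i ∉ K) → ∃ C : ℝ,
      ∀ᶠ a in 𝓝[>] (0 : ℝ), ∀ h : HE ℤ, fpt a h.1 ∈ K →
        |cS (S a) h (X a i)| ≤ C * a ^ (1 / 2 : ℝ)) :
    Tendsto (fun a => kapX x (X a) j * kapX x (X a) i * cSS (S a) (X a j) (X a i)) (𝓝[>] 0)
      (𝓝 ((g (x j) / (Complex.I * gsrc x j)).re)) := by
  obtain ⟨δ, hδD, hsep, hdat⟩ := dat_of_bgFam hD hx hxD hw hX hS j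
  have hδ := hdat.dpos
  obtain ⟨χ, H⟩ := exists_cut hδ
  have hR : δ / 2 < δ := by linarith
  obtain ⟨P, V, hP, hG, hV, -⟩ := gen_ev hdat H hR near_S
    (L := fun a => kap x (X a) (x j) (X a j) • lS (wX (w a) (X a)) (X a j))
    (hdat.locX.mono fun a h => srcS (hdat.sq a) h.1)
  obtain ⟨K, -, hK⟩ := cS_bound H
  -- distances
  have hne : ∀ k, k ≠ j → δ ≤ ‖x k - x j‖ := by
    intro k hk
    obtain ⟨ha, hb⟩ := hsep k hk
    by_cases h : (x k).im = (x j).im
    · have := Complex.abs_re_le_norm (x k - x j)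
      rw [Complex.sub_re] at this
      exact (ha h).trans this
    · have := Complex.abs_im_le_norm (x k - x j)
      rw [Complex.sub_im] at this
      exact (hb h).trans this
  have hann : ∀ k, x k ∉ ann (x j) (δ / 4 / 2) (3 * δ / 4) := by
    intro k hk
    by_cases hkj : k = j
    · rw [hkj] at hk
      have := hk.1
      rw [sub_self, norm_zero] at this
      linarith
    · have h1 := hne k hkj
      have h2 := hk.2
      linarith
  have hannD : ann (x j) (δ / 4 / 2) (3 * δ / 4) ⊆ D := fun z hz => hδD (by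
    rw [mem_ball, dist_eq_norm]; linarith [hz.2])
  have hannc : IsCompact (ann (x j) (δ / 4 / 2) (3 * δ / 4)) :=
    Metric.isCompact_of_isClosed_isBounded (ann_closed _ _ _) (ann_bdd _ _ _)
  obtain ⟨C, hC⟩ := hbd _ hannc hannD hann
  have hgd : DifferentiableOn ℂ g (ball (x j) δ) := hg δ hδD fun z hz h => by
    rw [mem_ball, dist_eq_norm, ← h] at hz
    exact absurd (hne i hij) (not_le.2 hz)
  -- the pairing
  have key := lim_pair hdat.ha hdat.hX hdat.sq H (R := 3 * δ / 4) (by linarith) hK (q := pS χ)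
    (by
      filter_upwards [ae_gen] with z hz f hf d
      exact cS_lim H hdat.ha hf hz d) hP
    (s := fun a h => kapX x (X a) i * cS (S a) h (X a i)) (β := 1 / 2) (C' := C)
    (U := Ucol x j g)
    (by
      filter_upwards [hC] with a ha h hh
      rw [abs_mul]
      have e : |kapX x (X a) i| = 1 := by
        have := kap_sq x (X a) (x i) (X a i)
        rw [← abs_mul_abs_self] at this
        unfold kapX
        nlinarith [abs_nonneg (kap x (X a) (x i) (X a i))]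
      rw [e, one_mul]
      exact ha h hh)
    (by
      have hae : ∀ᵐ z : ℂ, ∀ k, z.im ≠ (x k).im := ae_all_iff.2 fun k => ae_im_ne _
      filter_upwards [hae] with z hz hzA d
      have hzD : z ∈ D := hannD hzA
      have hzx : ∀ k, x k ≠ z := fun k h => hann k (h ▸ hzA)
      have hf : Tendsto (fun a : ℝ => fpt a (meshIndex a z)) (𝓝[>] (0 : ℝ)) (𝓝 z) :=
        Pairx599.tendsto_meshPoint tendsto_id z
      have h1 := heta z hzD hzx d (fun a => meshIndex a z) hf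
      have h2 := h1.const_mul (lsg x j z)
      refine h2.congr' ?_
      have h3 := ev_kap (l := 𝓝[>] (0 : ℝ)) (a := fun a => a) (X := X)
        (f := fun a => meshIndex a z) (x := x) eventually_mem_nhdsWithin (fun k => hX k) hf hz j
      filter_upwards [h3] with a ha
      rw [ha.1, ha.2, show (-(1 : ℝ) / 2) = -(1 / 2) by norm_num]
      ring)
  rw [show (2 - 3 / 2 - 1 / 2 : ℝ) = 0 by norm_num] at key
  rw [evalS H hR hsep hgd] at key
  refine key.congr' ?_
  have hpos : ∀ᶠ a in 𝓝[>] (0 : ℝ), 0 < a := eventually_mem_nhdsWithin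
  have hxi : ∀ᶠ a in 𝓝[>] (0 : ℝ), ‖meshPoint a (X a i) - x i‖ < δ / 8 := by
    filter_upwards [(hX i).eventually (Metric.ball_mem_nhds _ (by positivity : 0 < δ / 8))] with a ha
    rwa [← dist_eq_norm]
  filter_upwards [hG, hV, hS, hpos, hxi, hdat.smallX (show 0 < δ / 8 by positivity)]
    with a hG hV hc ha h1 h2
  rw [Real.rpow_zero, one_mul]
  have hXne : X a i ≠ X a j := by
    intro h
    rw [h] at h1
    have h3 := hne i hij
    have e : x i - x j = (meshPoint a (X a j) - x j) - (meshPoint a (X a j) - x i) := by ring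
    rw [e] at h3
    have := norm_sub_le (meshPoint a (X a j) - x j) (meshPoint a (X a j) - x i)
    linarith
  have hpV : pr (V a) (l4 (X a i)) = 0 := by
    rw [pr_comm, pr_eq_sum (l4 (X a i)) _ _ (Finset.Subset.refl _)]
    refine Finset.sum_eq_zero fun h hh => ?_
    rw [Finsupp.mem_support_iff, l4_apply] at hh
    have h3 : h.1 = X a i := by
      by_contra hcon
      exact hh (if_neg hcon)
    rw [hV h, h3]
    have h4 : χ (meshPoint a (X a i - X a j)) = 0 := by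
      refine H.zero _ ?_
      have e : meshPoint a (X a i - X a j) =
          (x i - x j) + ((meshPoint a (X a i) - x i) - (meshPoint a (X a j) - x j)) := by
        rw [LogDx813.mesh_sub]; ring
      rw [e]
      have h5 := norm_sub_norm_le (x i - x j)
        (-((meshPoint a (X a i) - x i) - (meshPoint a (X a j) - x j)))
      rw [sub_neg_eq_add, norm_neg] at h5
      have h6 := norm_sub_le (meshPoint a (X a i) - x i) (meshPoint a (X a j) - x j)
      have h7 := hne i hij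
      linarith
    rw [h4]; ring
  have e1 := hG (l4 (X a i))
  rw [hpV, sub_zero] at e1
  have e2 : formS (S a) (kap x (X a) (x j) (X a j) • lS (wX (w a) (X a)) (X a j)) (l4 (X a i)) =
      kapX x (X a) j * formS (S a) (lS (wX (w a) (X a)) (X a j)) (l4 (X a i)) := by
    rw [LinearMap.map_smul₂, smul_eq_mul]
    rfl
  have e3 := formS_l4_left hc (X a j) (l4 (X a i))
  rw [l4_apply, if_neg (fun h => hXne h.symm), sub_zero, formS_l4] at e3
  have e4 : pr (P a) (fun h => kapX x (X a) i * cS (S a) h (X a i)) =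
      kapX x (X a) i * formS (S a) (P a) (l4 (X a i)) := by
    rw [formS_eq]
    have : (fun h => kapX x (X a) i * cS (S a) h (X a i)) =
        kapX x (X a) i • col (S a) (l4 (X a i)) := by
      funext h
      rw [Pi.smul_apply, smul_eq_mul, col_l4]
    rw [this, pr_smul_right]
  rw [e4, ← e1, e2, e3]
  ring

end Crest.Agent.R165.EtaCorx644
end
end

-- ▼ part R165/Eta5_644

/-!
# Row 165 (S0250), block U4 (helper644): from the sequence limits of the columns to `BrF`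

* `eta_seq` : pointwise limit of the column at a point of `Om D x`, from `ColLim` (576)
* `eta_of_colLim` : `BrF.eta` for one insertion
* `bdd_of_eta` : `|S(h, l_i)| ≤ C a^{1/2}` on compacts away from the insertions
* `brF_of` : `BrF kp 1`
* `brLeafK_of` : `BrLeafK` from `Eta4` (622)
-/

set_option autoImplicit false

noncomputable section

open MeasureTheory Set Filter Topology Metric
open Crest.ProbabilityR.IsingModel

namespace Crest.Agent.R165.Eta5x644

open Crest.Agent.R165.Latx683 (BW HE wX IsCov yN)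
open Crest.Agent.R165.Tr1x40 (xc A nb op)
open Crest.Agent.R165.RIfx891 (lv)
open Crest.Agent.R165.Embx622 (emb)
open Crest.Agent.R165.Mac0x622 (LatSeq OmSeq Om gz gc rX rX_ne gz_sq gc_sq gz_abs gc_abs)
open Crest.Agent.R165.Mac6x622 (sgn sgn_sq)
open Crest.Agent.R165.MacIx622 (Cov40)
open Crest.Agent.R165.MacWx304 (FamIn famIn_of_bgFam cov40_of_isCov mem_Om)
open Crest.Agent.R165.UKerx420 (edir kap fpt kap_sq)
open Crest.Agent.R165.U3x719 (rXa e8 IsBr)
open Crest.Agent.R165.UB3x641 (gsrc IsBrN kapX BgFam cS cSS BrF)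
open Crest.Agent.R165.U5Px422 (LApp)
open Crest.Agent.R165.FrFinx887 (toF)
open Crest.Agent.R165.Eta1x576 (lvec)
open Crest.Agent.R165.Eta3x576 (ColLim)
open Crest.Agent.R165.ConfTopx641 (Conf)
open Crest.Agent.R165.Br5x644 (kp)

variable {n : ℕ}

/-! ### the two columns -/

theorem col_eq (W : BW ℤ) (S : HE ℤ → HE ℤ → ℝ) (V f : ℤ × ℤ) (h : Fin 4) :
    Eta2x576.col (toF W) S V f h = Gr2x813.col S (Gr3x813.lS W V) (f, h) := by
  unfold Eta2x576.col Gr2x813.col
  rw [Gr3x813.pr_lS]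
  have h3 : yN W (V.1, V.2 - 1) = W V 0 := by
    unfold yN; simp
  rw [h3]
  rfl

theorem cS_col {W : BW ℤ} {S : HE ℤ → HE ℤ → ℝ} (hS : IsCov W S) {V f : ℤ × ℤ} (hf : f ≠ V)
    (h : Fin 4) : cS S (f, h) V = Eta2x576.col (toF W) S V f h := by
  rw [col_eq]
  exact LogEx813.cS_eq hS fun hc => hf (congrArg Prod.fst hc)

theorem lvec_far (w : Tr1x40.Fld) {V f : ℤ × ℤ} (h1 : f ≠ V) (h2 : f ≠ (V.1, V.2 - 1)) (h : Fin 4) :
    lvec w V f h = 0 := by
  unfold lvec
  rw [if_neg fun hc => h1 hc.1, if_neg fun hc => h2 hc.1]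

theorem om_open {D : Set ℂ} (hD : IsOpen D) (x : Fin n → ℂ) : IsOpen (Om D x) :=
  hD.sdiff (Set.finite_range x).isClosed

/-! ### pointwise limit along sequences -/

theorem eta_seq {D : Set ℂ} (hD : IsOpen D) {x : Fin n → ℂ} {a : ℕ → ℝ} {w : ℕ → Tr1x40.Fld}
    {V : ℕ → Fin n → ℤ × ℤ} (H : LatSeq D x a w V) {S : ℕ → HE ℤ → HE ℤ → ℝ}
    (hS : ∀ᶠ k in atTop, Cov40 (w k) (S k)) {i : Fin n} {E : ℂ → ℂ}
    (hC : ColLim (Om D x) x i a w V S E) {z : ℂ} (hz : z ∈ D) (hxz : ∀ i, x i ≠ z)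
    (hE : ContinuousAt (fun u => (gc x z u : ℂ) * E u) z) {f : ℕ → ℤ × ℤ}
    (hf : Tendsto (fun k => meshPoint (a k) (f k)) atTop (𝓝 z)) (d : Fin 4) :
    Tendsto (fun k => gz x z (V k) (f k) * (gz x (x i) (V k) (V k i) *
      (a k ^ (-(1/2) : ℝ) * Eta2x576.col (w k) (S k) (V k i) (f k) d))) atTop (𝓝 (lv (E z) d)) := by
  have hzO : z ∈ Om D x := mem_Om hz hxz
  obtain ⟨ρ, hρ, hL⟩ := hC z hzO
  have hd0 : 0 < ‖x i - z‖ := norm_pos_iff.2 (sub_ne_zero.2 (hxz i))
  set r : ℝ := min ρ (‖x i - z‖ / 4) with hr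
  have hr0 : 0 < r := lt_min hρ (by positivity)
  have hrρ : r ≤ ρ := min_le_left _ _
  have hrx : r ≤ ‖x i - z‖ / 4 := min_le_right _ _
  refine Mac1x622.exact_pt H.omSeq (om_open hD x) (fun j hj => hj.2 ⟨j, rfl⟩) hzO
    (φ := fun k f h => gz x (x i) (V k) (V k i) *
      (a k ^ (-(1/2) : ℝ) * Eta2x576.col (w k) (S k) (V k i) f h)) hr0 ?_ hE (fun h => ?_) hf d
  · have ea : ∀ᶠ k in atTop, a k < ‖x i - z‖ / 4 :=
      H.lim.eventually (eventually_lt_nhds (by positivity))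
    have et : ∀ᶠ k in atTop, ‖meshPoint (a k) (V k i) - x i‖ < ‖x i - z‖ / 4 := by
      have := tendsto_iff_norm_sub_tendsto_zero.1 (H.tip i)
      exact this.eventually (eventually_lt_nhds (by positivity))
    filter_upwards [hS, ea, et] with k hS ea et f hf h
    have e1 : A (w k) (fun f h => gz x (x i) (V k) (V k i) *
        (a k ^ (-(1/2) : ℝ) * Eta2x576.col (w k) (S k) (V k i) f h)) f h =
        gz x (x i) (V k) (V k i) * (a k ^ (-(1/2) : ℝ) *
          A (w k) (Eta2x576.col (w k) (S k) (V k i)) f h) := by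
      rw [Tr2x40.A_smul (w k) (gz x (x i) (V k) (V k i)) (fun f h => a k ^ (-(1/2) : ℝ) *
        Eta2x576.col (w k) (S k) (V k i) f h), Tr2x40.A_smul]
    rw [e1, Eta2x576.A_col hS, lvec_far, neg_zero, mul_zero, mul_zero]
    · intro hc
      rw [hc] at hf
      have := norm_sub_norm_le (x i - z) (x i - meshPoint (a k) (V k i))
      have e2 : x i - z - (x i - meshPoint (a k) (V k i)) = meshPoint (a k) (V k i) - z := by ring
      rw [e2, norm_sub_rev (x i) (meshPoint (a k) (V k i))] at this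
      linarith
    · intro hc
      have e3 : meshPoint (a k) f = meshPoint (a k) (V k i) - (a k : ℂ) * Complex.I := by
        rw [hc]
        apply Complex.ext <;> simp [meshPoint]
        ring
      have := norm_sub_norm_le (x i - z) (x i - meshPoint (a k) (V k i))
      have e2 : x i - z - (x i - meshPoint (a k) (V k i)) = (meshPoint (a k) f - z) +
        (a k : ℂ) * Complex.I := by rw [e3]; ring
      rw [e2, norm_sub_rev (x i) (meshPoint (a k) (V k i))] at this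
      have h4 := norm_add_le (meshPoint (a k) f - z) ((a k : ℂ) * Complex.I)
      rw [norm_mul, Complex.norm_I, mul_one, Complex.norm_real, Real.norm_eq_abs,
        abs_of_pos (H.pos k)] at h4
      linarith
  · exact tendsto_of_tendsto_of_tendsto_of_le_of_le tendsto_const_nhds (hL h) (fun _ => zero_le)
      (fun k => lintegral_mono_set (ball_subset_ball hrρ))

/-! ### from sequences to families -/

/-- sign algebra -/
theorem sgn_alg {x : Fin n → ℂ} {z : ℂ} (i : Fin n) {E g : ℂ → ℂ}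
    (hE : E z = (sgn x (x i) : ℂ) * (kp * e8 * (g z / rX x z))) (d : Fin 4) :
    sgn x z * sgn x (x i) * lv (E z) d = kp * (edir d * e8 * (g z / rXa x z)).re := by
  rw [Evalx644.lv_eq, hE, Mac6x622.rXa_eq]
  have h1 : (sgn x z * sgn x (x i) * (edir d * ((sgn x (x i) : ℂ) *
      (kp * e8 * (g z / rX x z)))).re) =
      sgn x z * sgn x (x i) ^ 2 * (kp * (edir d * e8 * (g z / rX x z)).re) := by
    have e : edir d * ((sgn x (x i) : ℂ) * (kp * e8 * (g z / rX x z))) =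
        ((sgn x (x i) * kp : ℝ) : ℂ) * (edir d * e8 * (g z / rX x z)) := by
      push_cast; ring
    rw [e, Complex.re_ofReal_mul]
    ring
  have h2 : edir d * e8 * (g z / ((sgn x z : ℂ) * rX x z)) =
      (sgn x z : ℂ) * (edir d * e8 * (g z / rX x z)) := by
    have h3 := Mac6x622.sgn_sqC x z
    have h4 := Mac6x622.sgn_ne x z
    have h5 : (1 : ℂ) / (sgn x z : ℂ) = sgn x z := by
      rw [div_eq_iff h4, ← sq, h3]
    calc edir d * e8 * (g z / ((sgn x z : ℂ) * rX x z))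
        = (1 / (sgn x z : ℂ)) * (edir d * e8 * (g z / rX x z)) := by
          rw [div_mul_eq_div_div, div_eq_mul_inv (g z) (sgn x z : ℂ), one_div]; ring
      _ = _ := by rw [h5]
  rw [h1, h2, sgn_sq, Complex.re_ofReal_mul]
  ring

/-- continuity of the gauged amplitude -/
theorem cont_amp {D : Set ℂ} (hD : IsOpen D) {x : Fin n → ℂ} {i : Fin n} {g : ℂ → ℂ}
    (hg : ContinuousOn g (Om D x)) {z : ℂ} (hz : z ∈ D) (hxz : ∀ i, x i ≠ z) :
    ContinuousAt (fun u => (gc x z u : ℂ) *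
      ((sgn x (x i) : ℂ) * (kp * e8 * (g u / rX x u)))) z := by
  obtain ⟨r, hr, hd⟩ := MacTx610.gc_rX_diff hxz
  have h1 : ContinuousAt (fun u => (gc x z u : ℂ) * rX x u) z :=
    hd.continuousOn.continuousAt (ball_mem_nhds z hr)
  have h2 : ContinuousAt g z := hg.continuousAt ((om_open hD x).mem_nhds (mem_Om hz hxz))
  have h0 : (gc x z z : ℂ) * rX x z ≠ 0 := by
    rw [Mac1x622.gc_self, Complex.ofReal_one, one_mul]
    exact rX_ne hxz
  have h3 : ContinuousAt (fun u => (sgn x (x i) : ℂ) * (kp * e8 *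
      (g u / ((gc x z u : ℂ) * rX x u)))) z :=
    continuousAt_const.mul (continuousAt_const.mul (h2.div h1 h0))
  refine h3.congr (Eventually.of_forall fun u => ?_)
  have h4 : (gc x z u : ℂ) ^ 2 = 1 := by exact_mod_cast gc_sq x z u
  have h5 : (gc x z u : ℂ) ≠ 0 := fun hc => by rw [hc] at h4; norm_num at h4
  have h6 : (1 : ℂ) / (gc x z u : ℂ) = gc x z u := by rw [div_eq_iff h5, ← sq, h4]
  show (sgn x (x i) : ℂ) * (kp * e8 * (g u / ((gc x z u : ℂ) * rX x u))) =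
    (gc x z u : ℂ) * ((sgn x (x i) : ℂ) * (kp * e8 * (g u / rX x u)))
  calc (sgn x (x i) : ℂ) * (kp * e8 * (g u / ((gc x z u : ℂ) * rX x u)))
      = (1 / (gc x z u : ℂ)) * ((sgn x (x i) : ℂ) * (kp * e8 * (g u / rX x u))) := by
        rw [div_mul_eq_div_div, div_eq_mul_inv (g u) (gc x z u : ℂ), one_div]; ring
    _ = _ := by rw [h6]

/-- **`BrF.eta` from the sequence limits** -/
theorem eta_of_colLim {D : Set ℂ} (hD : IsOpen D) (hDb : Bornology.IsBounded D) {x : Fin n → ℂ}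
    {w : ℝ → BW ℤ} (hw : BgFam D w) {X : ℝ → Fin n → ℤ × ℤ} (hX : LApp X x) {i : Fin n}
    {g : ℂ → ℂ} (hg : ContinuousOn g (Om D x))
    (hcol : ∀ a w V, LatSeq D x a w V → ∀ S : ℕ → HE ℤ → HE ℤ → ℝ,
      (∀ᶠ k in atTop, Cov40 (w k) (S k)) → ColLim (Om D x) x i a w V S
        (fun z => (sgn x (x i) : ℂ) * (kp * e8 * (g z / rX x z))))
    {S : ℝ → HE ℤ → HE ℤ → ℝ} (hS : ∀ᶠ a in 𝓝[>] (0 : ℝ), IsCov (wX (w a) (X a)) (S a))
    {z : ℂ} (hz : z ∈ D) (hxz : ∀ i, x i ≠ z) (d : Fin 4) {f : ℝ → ℤ × ℤ}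
    (hf : Tendsto (fun a => fpt a (f a)) (𝓝[>] 0) (𝓝 z)) :
    Tendsto (fun a => a ^ (-(1 : ℝ) / 2) * (kap x (X a) z (f a) * kapX x (X a) i *
      cS (S a) (f a, d) (X a i))) (𝓝[>] 0) (𝓝 (kp * (edir d * e8 * (g z / rXa x z)).re)) := by
  refine tendsto_of_seq_tendsto fun u hu => ?_
  obtain ⟨K, hK⟩ := famIn_of_bgFam hD hDb hw hX u hu
  rw [← tendsto_add_atTop_iff_nat K]
  have huK : Tendsto (fun k => u (k + K)) atTop (𝓝[>] 0) :=
    hu.comp (tendsto_add_atTop_nat K)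
  have hSk := huK.eventually hS
  have hS4 : ∀ᶠ k in atTop, Cov40 (toF (wX (w (u (k + K))) (X (u (k + K))))) (S (u (k + K))) :=
    hSk.mono fun k h => cov40_of_isCov h
  have h1 := eta_seq hD hK hS4 (hcol _ _ _ hK (fun k => S (u (k + K))) hS4) hz hxz
    (cont_amp hD hg hz hxz) (hf.comp huK) d
  have h2 := h1.const_mul (sgn x z * sgn x (x i))
  rw [sgn_alg i (E := fun z => (sgn x (x i) : ℂ) * (kp * e8 * (g z / rX x z))) rfl d] at h2
  refine h2.congr' ?_
  -- the face is far from the insertion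
  have hne : ∀ᶠ k in atTop, f (u (k + K)) ≠ X (u (k + K)) i := by
    have h3 := hf.comp huK
    have h4 := (hX i).comp huK
    have h5 := h3.sub h4
    have h6 : z - x i ≠ 0 := sub_ne_zero.2 (hxz i).symm
    filter_upwards [h5.eventually_ne h6] with k hk hc
    apply hk
    simp only [Function.comp, fpt, hc, sub_self]
  filter_upwards [hSk, hne] with k hSk hne
  show sgn x z * sgn x (x i) * (gz x z (X (u (k + K))) (f (u (k + K))) *
      (gz x (x i) (X (u (k + K))) (X (u (k + K)) i) * (u (k + K) ^ (-(1/2) : ℝ) *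
        Eta2x576.col (toF (wX (w (u (k + K))) (X (u (k + K))))) (S (u (k + K)))
          (X (u (k + K)) i) (f (u (k + K))) d))) =
    u (k + K) ^ (-(1 : ℝ) / 2) * (kap x (X (u (k + K))) z (f (u (k + K))) *
      kapX x (X (u (k + K))) i * cS (S (u (k + K))) (f (u (k + K)), d) (X (u (k + K)) i))
  rw [cS_col hSk hne]
  unfold kapX
  rw [← MacWx304.kp_eq, ← MacWx304.kp_eq, Mac6x622.kp_eq, Mac6x622.kp_eq]
  have e : (-(1 : ℝ) / 2) = (-(1/2) : ℝ) := by norm_num
  rw [e]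
  ring

/-! ### the bound on compacts -/

theorem kap_abs (x : Fin n → ℂ) (X : Fin n → ℤ × ℤ) (z : ℂ) (f : ℤ × ℤ) : |kap x X z f| = 1 := by
  have h := kap_sq x X z f
  rw [← abs_mul_abs_self] at h
  nlinarith [abs_nonneg (kap x X z f)]

/-- **the bound on compacts from the limit** -/
theorem bdd_of_eta {D : Set ℂ} {x : Fin n → ℂ} {X : ℝ → Fin n → ℤ × ℤ} {i : Fin n} {g : ℂ → ℂ}
    {S : ℝ → HE ℤ → HE ℤ → ℝ}
    (heta : ∀ z : ℂ, z ∈ D → (∀ i, x i ≠ z) → ∀ (d : Fin 4) (f : ℝ → ℤ × ℤ),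
      Tendsto (fun a => fpt a (f a)) (𝓝[>] 0) (𝓝 z) →
      Tendsto (fun a => a ^ (-(1 : ℝ) / 2) * (kap x (X a) z (f a) * kapX x (X a) i *
        cS (S a) (f a, d) (X a i))) (𝓝[>] 0) (𝓝 (kp * (edir d * e8 * (g z / rXa x z)).re)))
    {K : Set ℂ} (hK : IsCompact K) (hKD : K ⊆ D) (hKx : ∀ i, x i ∉ K) :
    ∃ C : ℝ, ∀ᶠ a in 𝓝[>] (0 : ℝ), ∀ h : HE ℤ, fpt a h.1 ∈ K →
      |cS (S a) h (X a i)| ≤ C * a ^ (1 / 2 : ℝ) := by
  refine hK.induction_on (p := fun s => ∃ C : ℝ, ∀ᶠ a in 𝓝[>] (0 : ℝ), ∀ h : HE ℤ, fpt a h.1 ∈ s →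
      |cS (S a) h (X a i)| ≤ C * a ^ (1 / 2 : ℝ)) ⟨0, ?_⟩ ?_ ?_ ?_
  · exact Eventually.of_forall fun a h hh => absurd hh (Set.notMem_empty _)
  · rintro s t hst ⟨C, hC⟩
    exact ⟨C, hC.mono fun a ha h hh => ha h (hst hh)⟩
  · rintro s t ⟨C, hC⟩ ⟨C', hC'⟩
    refine ⟨max C C', ?_⟩
    have hpos : ∀ᶠ a in 𝓝[>] (0 : ℝ), 0 < a := self_mem_nhdsWithin
    filter_upwards [hC, hC', hpos] with a h1 h2 ha h hh
    have h0 : 0 ≤ a ^ (1 / 2 : ℝ) := by positivity
    rcases hh with hh | hh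
    · exact (h1 h hh).trans (mul_le_mul_of_nonneg_right (le_max_left _ _) h0)
    · exact (h2 h hh).trans (mul_le_mul_of_nonneg_right (le_max_right _ _) h0)
  · intro z hz
    have hzD := hKD hz
    have hxz : ∀ j, x j ≠ z := fun j hj => hKx j (hj ▸ hz)
    have key : ∀ d : Fin 4, ∃ δ > 0, ∀ a, 0 < a → a < δ → ∀ b : ℤ × ℤ, dist (meshPoint a b) z < δ →
        |a ^ (-(1 : ℝ) / 2) * (kap x (X a) z b * kapX x (X a) i * cS (S a) (b, d) (X a i)) -
          kp * (edir d * e8 * (g z / rXa x z)).re| < 1 := by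
      intro d
      exact LogEx813.joint_of_fam (m := fun a (b : ℤ × ℤ) => meshPoint a b)
        (φ0 := fun a => meshIndex a z) (Pairx599.tendsto_meshPoint tendsto_id z)
        (q := fun a b => a ^ (-(1 : ℝ) / 2) * (kap x (X a) z b * kapX x (X a) i *
          cS (S a) (b, d) (X a i))) (fun φ hφ => heta z hzD hxz d φ hφ) one_pos
    choose δ hδ hb using key
    set L : Fin 4 → ℝ := fun d => kp * (edir d * e8 * (g z / rXa x z)).re with hL
    set δ0 : ℝ := Finset.univ.inf' Finset.univ_nonempty δ with hδ0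
    have hδ0p : 0 < δ0 := (Finset.lt_inf'_iff _).2 fun d _ => hδ d
    refine ⟨ball z δ0, mem_nhdsWithin_of_mem_nhds (ball_mem_nhds z hδ0p), ∑ d, |L d| + 1, ?_⟩
    have hpos : ∀ᶠ a in 𝓝[>] (0 : ℝ), 0 < a := self_mem_nhdsWithin
    have hsm : ∀ᶠ a in 𝓝[>] (0 : ℝ), a < δ0 := mem_nhdsWithin_of_mem_nhds (Iio_mem_nhds hδ0p)
    filter_upwards [hpos, hsm] with a ha has h hh
    obtain ⟨f, d⟩ := h
    have hle : δ0 ≤ δ d := Finset.inf'_le _ (Finset.mem_univ d)
    have h1 := hb d a ha (has.trans_le hle) f ((mem_ball.1 hh).trans_le hle)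
    have h2 : |a ^ (-(1 : ℝ) / 2) * (kap x (X a) z f * kapX x (X a) i *
        cS (S a) (f, d) (X a i))| ≤ |L d| + 1 := by
      have h3 := abs_sub_abs_le_abs_sub (a ^ (-(1 : ℝ) / 2) * (kap x (X a) z f * kapX x (X a) i *
        cS (S a) (f, d) (X a i))) (L d)
      have h4 : |a ^ (-(1 : ℝ) / 2) * (kap x (X a) z f * kapX x (X a) i *
        cS (S a) (f, d) (X a i)) - L d| < 1 := h1
      linarith
    have h5 : |L d| ≤ ∑ d, |L d| := Finset.single_le_sum (f := fun d => |L d|)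
      (fun _ _ => abs_nonneg _) (Finset.mem_univ d)
    have hap : 0 < a ^ (-(1 : ℝ) / 2) := by positivity
    rw [abs_mul, abs_mul, abs_mul, abs_of_pos hap, kap_abs] at h2
    unfold kapX at h2
    rw [kap_abs, one_mul, one_mul] at h2
    have h6 : a ^ (1 / 2 : ℝ) * a ^ (-(1 : ℝ) / 2) = 1 := by
      rw [← Real.rpow_add ha]; norm_num
    have h7 : 0 < a ^ (1 / 2 : ℝ) := by positivity
    calc |cS (S a) (f, d) (X a i)|
        = a ^ (1 / 2 : ℝ) * (a ^ (-(1 : ℝ) / 2) * |cS (S a) (f, d) (X a i)|) := by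
          rw [← mul_assoc, h6, one_mul]
      _ ≤ a ^ (1 / 2 : ℝ) * (∑ d, |L d| + 1) :=
          mul_le_mul_of_nonneg_left (h2.trans (by linarith)) h7.le
      _ = _ := mul_comm _ _

/-! ### assembly -/

/-- **`BrF kp 1` from the sequence limits of all columns** -/
theorem brF_of {D : Set ℂ} (hD : IsOpen D) (hDb : Bornology.IsBounded D) {x : Fin n → ℂ}
    (hx : Function.Injective x) (hxD : ∀ i, x i ∈ D) {g : Fin n → ℂ → ℂ}
    (hg : ∀ i, DifferentiableOn ℂ (g i) D)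
    (hcol : ∀ i, ∀ a w V, LatSeq D x a w V → ∀ S : ℕ → HE ℤ → HE ℤ → ℝ,
      (∀ᶠ k in atTop, Cov40 (w k) (S k)) → ColLim (Om D x) x i a w V S
        (fun z => (sgn x (x i) : ℂ) * (kp * e8 * (g i z / rX x z))))
    {w : ℝ → BW ℤ} (hw : BgFam D w) {X : ℝ → Fin n → ℤ × ℤ} (hX : LApp X x) :
    BrF kp 1 D x w X g := by
  have heta : ∀ S : ℝ → HE ℤ → HE ℤ → ℝ,
      (∀ᶠ a in 𝓝[>] (0 : ℝ), IsCov (wX (w a) (X a)) (S a)) → ∀ i : Fin n,
      ∀ z : ℂ, z ∈ D → (∀ i, x i ≠ z) → ∀ (d : Fin 4) (f : ℝ → ℤ × ℤ),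
      Tendsto (fun a => fpt a (f a)) (𝓝[>] 0) (𝓝 z) →
      Tendsto (fun a => a ^ (-(1 : ℝ) / 2) * (kap x (X a) z (f a) * kapX x (X a) i *
        cS (S a) (f a, d) (X a i))) (𝓝[>] 0) (𝓝 (kp * (edir d * e8 * (g i z / rXa x z)).re)) :=
    fun S hS i z hz hxz d f hf => eta_of_colLim hD hDb hw hX
      ((hg i).continuousOn.mono sdiff_subset) (hcol i) hS hz hxz d hf
  refine ⟨fun S hS z hz hxz i d f hf => heta S hS i z hz hxz d f hf, fun S hS i j hij => ?_⟩
  rw [one_mul]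
  exact EtaCorx644.cor_of_eta hD hx hxD hw hX hS hij (fun r hr _ => (hg i).mono hr)
    (heta S hS i) fun K hK hKD hKx => bdd_of_eta (heta S hS i) hK hKD hKx

/-- the limit of the columns (622, 576) -/
def ColLeaf : Prop :=
  ∀ D : Set ℂ, IsC2JordanDomain D → ∀ (n : ℕ) (x : Fin n → ℂ), x ∈ Conf n D → ∀ i : Fin n,
    ∃ g : ℂ → ℂ, IsBrN D x i g ∧ ∀ a w V, LatSeq D x a w V → ∀ S : ℕ → HE ℤ → HE ℤ → ℝ,
      (∀ᶠ k in atTop, Cov40 (w k) (S k)) → ColLim (Om D x) x i a w V S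
        (fun z => (sgn x (x i) : ℂ) * (kp * e8 * (g z / rX x z)))

/-- **the branch leaf** -/
theorem brLeafK_of (h : ColLeaf) : LogEx813.BrLeafK := by
  intro D hD n x hx
  choose g hg hcol using h D hD n x hx
  exact ⟨g, hg, fun w X hw hX => brF_of (Red2x541.isOpen_of_C2 hD) (Redx541.bounded_of_C2 hD) hx.2
    hx.1 (fun i => (hg i).br.holo) hcol hw hX⟩

end Crest.Agent.R165.Eta5x644
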