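import Crest.Agent.R165.KFlow_337
import Crest.Agent.R165.FinB_900
import Crest.Agent.R165.Spin_930

/-!
# Row 165 (S0250), blocks G/F: spin ratios from two runs of the flow (helper900)

* `Run F V` : a system of `KFlow_337` with volume, number of steps, full and final covariance
* `Run.total` : `E_S[ZZ_0] = exp (∑_{k<n} ∑_U c_k(U)) * E_{Sf}[ZZ_n]`
* `ratio_eq`, `ratio_tendsto` : the ratio of two runs
* `spin_ratio_tendsto` : with the dominated convergence lemma of `Spin_930`, the ratio tends to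
  `(exp ζ)^n`
-/

set_option autoImplicit false

noncomputable section

namespace Crest.Agent.R165.SRabsx900

open Filter Topology
open scoped ENNReal
open Crest.Agent.R165.Gr0x606 Crest.Agent.R165.Gr1x606 Crest.Agent.R165.GeOpsx337
  Crest.Agent.R165.KStepx892 Crest.Agent.R165.KFlowx337 Crest.Agent.R165.PNormx417
  Crest.Agent.R165.Packx915 Crest.Agent.R165.NSumx915

variable {F : Type*} [DecidableEq F] {V : Type*} [AddCommGroup V] [Module ℝ V]

/-- one run of the flow -/
structure Run (F : Type*) [DecidableEq F] (V : Type*) [AddCommGroup V] [Module ℝ V] where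
  /-- the system -/
  D : Sys F V
  /-- source fields -/
  src : Submodule ℝ V
  ok : D.OK src
  /-- the vacuum part contains the constant term -/
  hv : ∀ a, ctG (D.vac a) = ctG a
  /-- the volume -/
  Λ : Finset F
  supp : ∀ U, ¬ U ⊆ Λ → D.K0 U = 0
  /-- number of steps -/
  n : ℕ
  /-- full covariance -/
  S : Cov V
  /-- final covariance -/
  Sf : Cov V
  hS : S = Sf + ∑ k ∈ Finset.range n, D.S k
  hsrc : ∀ x ∈ src, ∀ y, Sf.b x y = 0

namespace Run

variable (R : Run F V)

/-- the partition function at the initial scale -/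
def start : ℝ := EEG R.S (ZZ (R.D.near 0) R.Λ R.D.K0)

/-- the partition function at the final scale -/
def fin : ℝ := EEG R.Sf (ZZ (R.D.near R.n) R.Λ (R.D.K R.n))

/-- the local constants -/
def c (k : ℕ) (U : Finset F) : ℝ := ctG (R.D.H k U)

theorem c_supp (k : ℕ) {U : Finset F} (h : ¬ U ⊆ R.Λ) : R.c k U = 0 := by
  rw [c, Sys.H_supp R.supp k h, map_zero]

theorem ctG_E : ctG (R.D.E R.Λ R.n) = ∑ k ∈ Finset.range R.n, ∑ U ∈ nes R.Λ, R.c k U := by
  rw [Sys.E, map_sum]
  refine Finset.sum_congr rfl fun k _ => ?_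
  rw [Sys.vacE, map_sum]
  refine Finset.sum_congr rfl fun U _ => ?_
  rw [R.hv, c]

theorem total : R.start =
    Real.exp (∑ k ∈ Finset.range R.n, ∑ U ∈ nes R.Λ, R.c k U) * R.fin := by
  rw [start, Sys.total_real R.ok R.supp R.n R.S R.Sf R.hS R.hsrc, R.ctG_E, fin]

theorem c_finite (k : ℕ) : (Function.support (R.c k)).Finite := by
  refine (R.Λ.powerset.finite_toSet).subset fun U hU => ?_
  rw [Finset.mem_coe, Finset.mem_powerset]
  by_contra h
  exact hU (R.c_supp k h)

theorem c_summable (k : ℕ) : Summable (R.c k) :=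
  summable_of_hasFiniteSupport (R.c_finite k)

theorem sum_nes_eq (k : ℕ) (h : R.c k ∅ = 0) : ∑ U ∈ nes R.Λ, R.c k U = ∑' U, R.c k U := by
  refine (tsum_eq_sum fun U hU => ?_).symm
  by_cases hne : U.Nonempty
  · by_cases hs : U ⊆ R.Λ
    · exact absurd (mem_nes.2 ⟨hs, hne⟩) hU
    · exact R.c_supp k hs
  · rw [Finset.not_nonempty_iff_eq_empty] at hne
    rw [hne, h]

end Run

/-- the ratio of two runs with the same number of steps -/
theorem ratio_eq (R₁ R₂ : Run F V) (hn : R₁.n = R₂.n) (h1 : ∀ k < R₁.n, R₁.c k ∅ = 0)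
    (h2 : ∀ k < R₁.n, R₂.c k ∅ = 0) :
    R₁.start / R₂.start = Real.exp (∑ k ∈ Finset.range R₁.n, ∑' U, (R₁.c k U - R₂.c k U)) *
      (R₁.fin / R₂.fin) := by
  rw [R₁.total, R₂.total, mul_div_mul_comm, ← Real.exp_sub, ← hn, ← Finset.sum_sub_distrib]
  congr 2
  refine Finset.sum_congr rfl fun k hk => ?_
  rw [Finset.mem_range] at hk
  rw [R₁.sum_nes_eq k (h1 k hk), R₂.sum_nes_eq k (h2 k hk),
    (R₁.c_summable k).tsum_sub (R₂.c_summable k)]




end Crest.Agent.R165.SRabsx900
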