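import Crest.Agent.R165.FRDRest_439
import Crest.Agent.R165.Bridge_915
import Crest.Agent.R165.FinB_900
import Crest.Agent.R165.Scale_900
import Crest.Agent.R165.SRabs_900
import Crest.Agent.R165.SrcDef_991
import Crest.Agent.R165.GSys_387

-- ▼ part R165/Fin0_315
section

/-!
# Row 165 (S0250), P9: the final step of the flow (helper315)

* `restL` : the last covariance `S r_J(Q)` of an inverse `IsNegInv (AopF w) S` (for `SFof` this is
  `restC` of `FRDRest_439`), `SopC_add_restL` : full covariance = slices `j < J` + last one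
* `restL_gram`, `gr_le_wU` : Gram weight of the last covariance, at most the weight of every polymer
  if the amplitude is at least `7 √(C / (m r))`, `m` the gap: `|A f| ≥ m |f|`
* `sum_nes_le_NK` : `∑_{U ⊆ Λ} |K U| ≤ (number of `r`-balls covering Λ) * NK`
* `fin_pnorm_le`, `fin_bound`, `fin_boundC` : `|E_{S_fin}[ZZ Λ K] - 1| ≤ 2 δ`
-/

set_option autoImplicit false
set_option linter.unusedSectionVars false

noncomputable section

namespace Crest.Agent.R165.Fin0x315

open scoped ENNReal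
open Filter Topology
open Polynomial Crest.Agent.R165.Gr0x606 Crest.Agent.R165.Gr1x606 Crest.Agent.R165.Latx683
  Crest.Agent.R165.PNormx417 Crest.Agent.R165.GDefx387 Crest.Agent.R165.FRDAbsx439
  Crest.Agent.R165.FRDPolyx439 Crest.Agent.R165.FRDInfx439 Crest.Agent.R165.FRDLatx439
  Crest.Agent.R165.FRDRestx439
  Crest.Agent.R165.NSumx915 Crest.Agent.R165.Bridgex915 Crest.Agent.R165.KStepx892
  Crest.Agent.R165.FinBx900

/-! ### the last covariance -/

section rest

variable {G : Type} [CommRing G] {Λ : ℝ} {M K : ℕ} (D : FRD Λ M K)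







variable [CN G] [DecidableEq G]

/-- the form used at the final scale: for a large amplitude the Gram weight is at most the weight of
every polymer -/
theorem gr_le_wU (hM : MM ≤ M) (w : BW G) {m : ℝ} (hm : 0 < m)
    (h : ABtw (preF (HE G)) (AopF w) 0 Λ) (J r : ℕ) (hr0 : 1 ≤ r) (hr : r ≤ 2 ^ J)
    {A : ℝ} (hA : 0 < A) (hA' : 7 * √(D.C / (m * r)) ≤ A) (U : Finset (G × G)) (l : Fld G) :
    gr D w m J l ≤ wU w A r U l := by
  unfold wU
  refine le_iInf₂ fun x hx => ?_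
  split_ifs with hl
  · refine (gr_le_wt D hM hm h J r hr0 hr hA x l).trans ?_
    calc _ ≤ ENNReal.ofReal 1 * wt w A r x l := by
          gcongr
          rw [div_le_one hA]; exact hA'
      _ = _ := by rw [ENNReal.ofReal_one, one_mul]
  · exact le_top

end rest

/-! ### sums over the polymers of a finite volume -/

section sums

variable {X : Type*} [DecidableEq X] {d : X → X → ℕ} {r : ℕ} {Γ : ℝ≥0∞}

/-- sum of the activities in a finite volume covered by a net -/
theorem sum_nes_le_NN (hΓ : 1 ≤ Γ) (a : Finset X → ℝ≥0∞) (V net : Finset X)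
    (hnet : ∀ f ∈ V, ∃ p ∈ net, d p f ≤ r) :
    ∑ U ∈ nes V, a U ≤ net.card * NN d r Γ a := by
  classical
  have h1 : ∑ U ∈ nes V, a U = ∑' U : Finset X, Set.indicator {U | U ∈ nes V} a U := by
    rw [tsum_eq_sum (s := nes V)]
    · exact Finset.sum_congr rfl fun U hU => (Set.indicator_of_mem (by exact hU) _).symm
    · intro U hU
      exact Set.indicator_of_notMem (by exact hU) _
  rw [h1]
  refine (cover_sum (d := d) (r := r) (P := fun U => U ∈ nes V) a net ?_).trans ?_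
  · intro U hU
    obtain ⟨hUV, u, hu⟩ := mem_nes.1 hU
    obtain ⟨p, hp, hpu⟩ := hnet u (hUV hu)
    exact ⟨p, hp, u, hu, hpu⟩
  · calc ∑ g ∈ net, ∑' U : Finset X, Set.indicator {U | near d r g U} a U
        ≤ ∑ g ∈ net, NN d r Γ a := by
          refine Finset.sum_le_sum fun g _ => ?_
          refine le_trans ?_ (bs_le_NN a g)
          refine ENNReal.tsum_le_tsum fun U => ?_
          by_cases h : near d r g U
          · rw [Set.indicator_of_mem (by exact h), Set.indicator_of_mem (by exact h)]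
            calc a U = 1 * a U := (one_mul _).symm
              _ ≤ _ := by gcongr; exact one_le_pow₀ hΓ
          · rw [Set.indicator_of_notMem (by exact h)]
            exact zero_le
      _ = net.card * NN d r Γ a := by rw [Finset.sum_const, nsmul_eq_mul]

end sums

section fin

variable {G : Type} [CommRing G] [CN G] [DecidableEq G]

/-- sum of the norms of the activities in a finite volume -/
theorem sum_nes_le_NK {Γ : ℝ≥0∞} (hΓ : 1 ≤ Γ) (w : BW G) (A : ℝ) (r : ℕ)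
    (K : Finset (G × G) → Gr (Fld G)) (V net : Finset (G × G))
    (hnet : ∀ f ∈ V, ∃ p ∈ net, fd p f ≤ r) :
    ∑ U ∈ nes V, pnorm (wU w A r U) (K U) ≤ net.card * NK w A r Γ (fun _ => True) K := by
  rw [NK_eq_NN]
  refine (Finset.sum_le_sum fun U _ => ?_).trans (sum_nes_le_NN hΓ _ V net hnet)
  rw [act_of trivial]

/-- a net of a subset of a ball -/
theorem exists_net [GoodG G] {r : ℕ} (hr : 0 < r) (s : ℕ) (x : G × G) :
    ∃ net : Finset (G × G), net.card ≤ (2 * (s / r) + 3) ^ 2 ∧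
      ∀ V : Finset (G × G), (∀ f ∈ V, fd x f ≤ s) → ∀ f ∈ V, ∃ p ∈ net, fd p f ≤ r := by
  obtain ⟨net, hn, h⟩ := cov_fd (G := G) hr s x
  exact ⟨net, hn, fun V hV f hf => h f (hV f hf)⟩

variable {Λ : ℝ} {M K : ℕ} (D : FRD Λ M K)




end fin

end Crest.Agent.R165.Fin0x315
end
end

-- ▼ part R165/Fin1_315
section

/-!
# Row 165 (S0250), P9: the final step at the last scale (helper315)

`R` is the radius of the background (`C/a` for a domain, `B/a` for a disc, `M` for a torus),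
`n = lastK p k0 (δ R)` the last step, `J = p (k0 + n)`, `r = 2 ^ J`.

* `abtw_of_gap` : `l2 f ≤ C l2 (A f)` for finitely supported `f` gives `ABtw (preF _) (AopF w) C⁻² 16`
* `sum_pnorm_le` : abstract sum, any weights
* `lastK_net`, `lastK_amp` : number of `r`-balls and size of the final weight at the last scale
* `fin_pnorm_last`, `fin_bound_last` : `∑ |F U|_{gr} ≤ cnt * NK`, `|E_fin[ZZ] - 1| ≤ 2 δ'`
* `fin_pnorm_src` : with `m` sources (weights `wS`)
* `fin_last_tendsto` : limit form along any filter, in the shape asked by `SRabsx900.fin_tendsto`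
-/

set_option autoImplicit false
set_option linter.unusedSectionVars false

noncomputable section

namespace Crest.Agent.R165.Fin1x315

open scoped ENNReal
open Filter Topology
open Polynomial Crest.Agent.R165.Gr0x606 Crest.Agent.R165.Gr1x606 Crest.Agent.R165.Latx683
  Crest.Agent.R165.PNormx417 Crest.Agent.R165.GDefx387 Crest.Agent.R165.FRDAbsx439
  Crest.Agent.R165.FRDPolyx439 Crest.Agent.R165.FRDInfx439 Crest.Agent.R165.FRDLatx439
  Crest.Agent.R165.FRDRestx439
  Crest.Agent.R165.NSumx915 Crest.Agent.R165.Bridgex915 Crest.Agent.R165.KStepx892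
  Crest.Agent.R165.FinBx900 Crest.Agent.R165.Fin0x315 Crest.Agent.R165.Scalex900
  Crest.Agent.R165.SrcDefx991

/-! ### the gap -/

section gap

variable {G : Type} [CommRing G] [CN G]

/-- the gap of a background, in the form of `FRDRest_439` -/
theorem abtw_of_gap {w : BW G} (hw : ∀ z j, |w z j| ≤ 1) {C : ℝ} (hC : 0 < C)
    (h : ∀ f : Fld G, l2 (f : HE G → ℝ) ≤ C * l2 (Aop w (f : HE G → ℝ))) :
    ABtw (preF (HE G)) (AopF w) ((C⁻¹) ^ 2) 16 := by
  intro f
  refine ⟨?_, (AopF_bdd w hw f).2⟩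
  have h1 := h f
  have h2 : Aop w (f : HE G → ℝ) = ((AopF w f : Fld G) : HE G → ℝ) := (AopF_coe w f).symm
  rw [h2, l2_coe, l2_coe] at h1
  have n1 : 0 ≤ dotF (HE G) f f := (preF (HE G)).nonneg f
  have n2 : 0 ≤ dotF (HE G) (AopF w f) (AopF w f) := (preF (HE G)).nonneg (AopF w f)
  have h3 : dotF (HE G) f f ≤ C ^ 2 * dotF (HE G) (AopF w f) (AopF w f) := by
    have h4 := mul_self_le_mul_self (Real.sqrt_nonneg _) h1
    rw [Real.mul_self_sqrt n1, mul_mul_mul_comm, Real.mul_self_sqrt n2] at h4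
    linarith [h4, sq C]
  rw [preF_ip, preF_ip, inv_pow, inv_mul_le_iff₀ (by positivity)]
  exact h3

end gap

/-! ### abstract sums -/

section abs

variable {X : Type*} [DecidableEq X] {d : X → X → ℕ} {r : ℕ} {Γ : ℝ≥0∞}
  {V : Type*} [AddCommGroup V] [Module ℝ V]


theorem vS_mono {m : ℕ} {v v' : Fin m → ℝ≥0∞} (h : ∀ i, v i ≤ v' i) (a : Src m) :
    vS v a ≤ vS v' a := by
  unfold vS
  gcongr with i _
  exact h i

theorem wS_mono {m : ℕ} {w w' : V → ℝ≥0∞} {v v' : Fin m → ℝ≥0∞} (hw : ∀ l, w l ≤ w' l)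
    (hv : ∀ i, v i ≤ v' i) (p : VS V m) : wS w v p ≤ wS w' v' p := by
  unfold wS
  exact add_le_add (hw _) (vS_mono hv _)

end abs

/-! ### the last scale -/

/-- number of balls of radius `r` in a ball of radius `Cv R` at the last scale -/
def cnt (p : ℕ) (δ Cv : ℝ) : ℕ := (2 * ⌊Cv * 2 ^ p / δ⌋₊ + 3) ^ 2

/-- size of the final weight at the last scale -/
def amp (C : ℝ) (p : ℕ) (δ Cg : ℝ) : ℝ := 7 * √(C * Cg * 2 ^ p / δ)

section last

variable {p k0 : ℕ} {δ R : ℝ}

/-- radius of the last scale -/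
theorem last_lower (hp : 1 ≤ p) : δ * R < (2 : ℝ) ^ (p * (k0 + lastK p k0 (δ * R))) * 2 ^ p := by
  have h := lt_lastK (k0 := k0) hp (δ * R)
  rw [← pow_add]
  exact h.trans_le (le_of_eq (by ring_nf))

theorem lastK_amp {C Cg : ℝ} (hp : 1 ≤ p) (hC : 0 ≤ C) (hCg : 0 < Cg) (hδ : 0 < δ) (hR : 0 < R) :
    7 * √(C / ((Cg * R)⁻¹ * ((2 ^ (p * (k0 + lastK p k0 (δ * R))) : ℕ) : ℝ))) ≤ amp C p δ Cg := by
  unfold amp
  have h := last_lower (k0 := k0) (δ := δ) (R := R) hp
  set r : ℝ := ((2 ^ (p * (k0 + lastK p k0 (δ * R))) : ℕ) : ℝ) with hr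
  have hr' : r = (2 : ℝ) ^ (p * (k0 + lastK p k0 (δ * R))) := by rw [hr]; push_cast; rfl
  rw [← hr'] at h
  have hr0 : 0 < r := by rw [hr']; positivity
  refine mul_le_mul_of_nonneg_left (Real.sqrt_le_sqrt ?_) (by norm_num)
  have e1 : C / ((Cg * R)⁻¹ * r) = C * Cg * (R / r) := by field_simp
  have e2 : C * Cg * 2 ^ p / δ = C * Cg * (2 ^ p / δ) := by ring
  rw [e1, e2]
  have h2 : R / r ≤ 2 ^ p / δ := by
    rw [div_le_div_iff₀ hr0 hδ]
    nlinarith
  exact mul_le_mul_of_nonneg_left h2 (by positivity)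

theorem lastK_net {G : Type} [CommRing G] [CN G] [GoodG G] [DecidableEq G] {Cv : ℝ} (hp : 1 ≤ p)
    (hCv : 0 ≤ Cv) (hδ : 0 < δ) (hR : 0 < R) (x : G × G) :
    ∃ net : Finset (G × G), net.card ≤ cnt p δ Cv ∧
      ∀ V : Finset (G × G), (∀ f ∈ V, (fd x f : ℝ) ≤ Cv * R) →
        ∀ f ∈ V, ∃ q ∈ net, fd q f ≤ 2 ^ (p * (k0 + lastK p k0 (δ * R))) := by
  set r : ℕ := 2 ^ (p * (k0 + lastK p k0 (δ * R))) with hr
  have hr0 : 0 < r := by rw [hr]; positivity
  have h := last_lower (k0 := k0) (δ := δ) (R := R) hp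
  have hr' : (r : ℝ) = (2 : ℝ) ^ (p * (k0 + lastK p k0 (δ * R))) := by rw [hr]; push_cast; rfl
  rw [← hr'] at h
  have hr1 : (0 : ℝ) < r := by exact_mod_cast hr0
  obtain ⟨net, hn, hc⟩ := exists_net (G := G) hr0 ⌊Cv * R⌋₊ x
  refine ⟨net, hn.trans ?_, fun V hV => hc V fun f hf => Nat.le_floor (hV f hf)⟩
  unfold cnt
  have h1 : ⌊Cv * R⌋₊ / r ≤ ⌊Cv * 2 ^ p / δ⌋₊ := by
    apply Nat.le_floor
    refine (Nat.cast_div_le).trans ?_
    have h2 : ((⌊Cv * R⌋₊ : ℕ) : ℝ) ≤ Cv * R := Nat.floor_le (by positivity)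
    calc ((⌊Cv * R⌋₊ : ℕ) : ℝ) / r ≤ Cv * R / r := by gcongr
      _ ≤ Cv * 2 ^ p / δ := by
        rw [div_le_div_iff₀ hr1 hδ]
        have := mul_le_mul_of_nonneg_left h.le hCv
        nlinarith
  gcongr

end last

section fin

variable {G : Type} [CommRing G] [CN G] [DecidableEq G] {M K : ℕ} (D : FRD 16 M K)

/-- final weight against the weights of the flow at the last scale -/
theorem gr_last (hM : MM ≤ M) {w : BW G} (hw : ∀ z j, |w z j| ≤ 1) {p k0 : ℕ} (hp : 1 ≤ p)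
    {δ R Cg : ℝ} (hδ : 0 < δ) (hR : 0 < R) (hCg : 0 < Cg) {A : ℝ} (hA : amp D.C p δ Cg ≤ A)
    (U : Finset (G × G)) (l : Fld G) :
    gr D w (Cg * R)⁻¹ (p * (k0 + lastK p k0 (δ * R))) l ≤
      wU w A (2 ^ (p * (k0 + lastK p k0 (δ * R)))) U l := by
  have hC := D.C_pos
  have hA0 : 0 < A := lt_of_lt_of_le (by unfold amp; positivity) hA
  exact gr_le_wU D hM w (by positivity) (AopF_bdd w hw) _ _ (Nat.one_le_two_pow) le_rfl hA0
    ((lastK_amp hp hC.le hCg hδ hR).trans hA) U l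

/-- **the norms at the last scale** -/
theorem fin_pnorm_last [GoodG G] (hM : MM ≤ M) {w : BW G} (hw : ∀ z j, |w z j| ≤ 1) {p k0 : ℕ}
    (hp : 1 ≤ p) {δ R Cg Cv : ℝ} (hδ : 0 < δ) (hR : 0 < R) (hCg : 0 < Cg) (hCv : 0 ≤ Cv) {A : ℝ}
    (hA : amp D.C p δ Cg ≤ A) {Γ : ℝ≥0∞} (hΓ : 1 ≤ Γ) (x : G × G) (V : Finset (G × G))
    (hV : ∀ f ∈ V, (fd x f : ℝ) ≤ Cv * R) (F : Finset (G × G) → Ge (Fld G)) :
    ∑ U ∈ nes V, pnorm (gr D w (Cg * R)⁻¹ (p * (k0 + lastK p k0 (δ * R)))) (F U : Gr (Fld G)) ≤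
      cnt p δ Cv * NK w A (2 ^ (p * (k0 + lastK p k0 (δ * R)))) Γ (fun _ => True)
        (fun U => (F U : Gr (Fld G))) := by
  obtain ⟨net, hc, hn⟩ := lastK_net (k0 := k0) hp hCv hδ hR x
  refine (Finset.sum_le_sum fun U _ => ?_).trans
    ((sum_nes_le_NK hΓ w A _ (fun U => (F U : Gr (Fld G))) V net (hn V hV)).trans ?_)
  · exact pnorm_le_pnorm (fun l => gr_last D hM hw hp hδ hR hCg hA U l) _
  · gcongr



end fin

/-! ### limit form -/

section lim

variable {G : Type} [CommRing G] [CN G] [DecidableEq G] {M K : ℕ} (D : FRD 16 M K)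


end lim

end Crest.Agent.R165.Fin1x315
end
end

-- ▼ part R165/Fin2_315

/-!
# Row 165 (S0250), P9: the final step on the concrete systems of `GSys_387` (helper315)

* `sum_slC` : the covariances of the steps `k < n` add up to `SopC D w 0 (lo l k0 n)`
* `covS_eq_sys`, `ext_covS_eq_sys` : full covariance = last covariance + steps, without/with sources
* `runOf` : the run (`SRabs_900`) of the system `sys`; `runOf_fin`, `runOf_start`
* `runOf_fin_tendsto` : the final factor tends to one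
* `totalS` : the exact identity for `sysS`
-/

set_option autoImplicit false
set_option linter.unusedSectionVars false

noncomputable section

namespace Crest.Agent.R165.Fin2x315

open scoped ENNReal
open Filter Topology
open Polynomial Crest.Agent.R165.Gr0x606 Crest.Agent.R165.Gr1x606 Crest.Agent.R165.Latx683
  Crest.Agent.R165.PNormx417 Crest.Agent.R165.GDefx387 Crest.Agent.R165.FRDAbsx439
  Crest.Agent.R165.FRDPolyx439 Crest.Agent.R165.FRDInfx439 Crest.Agent.R165.FRDLatx439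
  Crest.Agent.R165.FRDRestx439 Crest.Agent.R165.GeOpsx337 Crest.Agent.R165.KFlowx337
  Crest.Agent.R165.NSumx915 Crest.Agent.R165.Bridgex915 Crest.Agent.R165.KStepx892
  Crest.Agent.R165.FinBx900 Crest.Agent.R165.Fin0x315 Crest.Agent.R165.Fin1x315
  Crest.Agent.R165.Scalex900 Crest.Agent.R165.SrcDefx991 Crest.Agent.R165.GSysx387
  Crest.Agent.R165.PStepx417 Crest.Agent.R165.SRabsx900 Crest.Agent.R165.BgIsox432
  Crest.Agent.R165.ExpGx337

section cov

variable {G : Type} [CommRing G] [CN G] {M K : ℕ} (D : FRD 16 M K)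

/-- the covariances of the steps `k < n` -/
theorem sum_slC (w : BW G) (l k0 n : ℕ) :
    ∑ k ∈ Finset.range n, slC D w l k0 k = SopC D w 0 (lo l k0 n) := by
  classical
  induction n with
  | zero =>
    rw [Finset.sum_range_zero, lo_zero]
    unfold SopC
    simp
  | succ n ih =>
    rw [Finset.sum_range_succ, ih, lo_succ]
    unfold slC
    refine SopC_add D 0 _ _ (Nat.zero_le _) ?_
    unfold lo hi
    split_ifs
    · exact Nat.zero_le _
    · exact Nat.mul_le_mul_left _ (by omega)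

theorem lo_pos {l k0 n : ℕ} (hn : 1 ≤ n) : lo l k0 n = l * (k0 + n) := by
  unfold lo; rw [if_neg (by omega)]

variable [DecidableEq G]

/-- **full covariance = last covariance + steps** -/
theorem covS_eq_sys {w : BW G} {S : HE G → HE G → ℝ} (hS : ∀ h h', S h h' = -S h' h)
    (hinv : ∀ g h', Aop w (fun h => S h h') g = -(Pi.single h' 1 : HE G → ℝ) g)
    (hfin : ∀ h', {h | S h h' ≠ 0}.Finite) (l k0 n : ℕ) :
    covS S hS = restC D hS hinv hfin (lo l k0 n) + ∑ k ∈ Finset.range n, slC D w l k0 k := by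
  rw [sum_slC, covS_eq D hS hinv hfin (lo l k0 n), add_comm]




end cov

section ext

variable {V : Type*} [AddCommGroup V] [Module ℝ V]


end ext

section run

variable {G : Type} [CommRing G] [CN G] [CNZ G] [DecidableEq G] {M K : ℕ} (D : FRD 16 M K)

/-- the data of one background: an inverse kernel with finitely supported columns -/
structure Inv (w : BW G) (S : HE G → HE G → ℝ) : Prop where
  skew : ∀ h h', S h h' = -S h' h
  inv : ∀ g h', Aop w (fun h => S h h') g = -(Pi.single h' 1 : HE G → ℝ) g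
  fin : ∀ h', {h | S h h' ≠ 0}.Finite

theorem Inv.of_isCov {w : BW G} {S : HE G → HE G → ℝ} (h : IsCov w S)
    (hfin : ∀ h', {h | S h h' ≠ 0}.Finite) : Inv w S :=
  ⟨h.skew, h.inv, hfin⟩

/-- the covariance of a background -/
abbrev Inv.full {w : BW G} {S : HE G → HE G → ℝ} (h : Inv w S) : Cov (Fld G) := covS S h.skew

/-- the last covariance, after `n` steps -/
def Inv.last {w : BW G} {S : HE G → HE G → ℝ} (h : Inv w S) (l k0 n : ℕ) : Cov (Fld G) :=
  restC D h.skew h.inv h.fin (lo l k0 n)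

theorem Inv.full_eq {w : BW G} {S : HE G → HE G → ℝ} (h : Inv w S) (l k0 n : ℕ) :
    h.full = h.last D l k0 n + ∑ k ∈ Finset.range n, slC D w l k0 k :=
  covS_eq_sys D h.skew h.inv h.fin l k0 n


/-- **the run of the concrete system** -/
def runOf {w : BW G} {S : HE G → HE G → ℝ} (h : Inv w S) (mk : Finset (G × G)) (l k0 : ℕ)
    (K0 : Finset (G × G) → Ge (Fld G)) (ok : (sys D w mk l k0 K0).OK ⊥)
    (Λ : Finset (G × G)) (supp : ∀ U, ¬ U ⊆ Λ → K0 U = 0) (n : ℕ) : Run (G × G) (Fld G) where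
  D := sys D w mk l k0 K0
  src := ⊥
  ok := ok
  hv a := by
    show ctG (vac0 (Fld G) a) = ctG a
    rw [vac0_apply, AlgHom.commutes]
    rfl
  Λ := Λ
  supp := supp
  n := n
  S := h.full
  Sf := h.last D l k0 n
  hS := h.full_eq D l k0 n
  hsrc x hx y := by
    rw [(Submodule.mem_bot ℝ).1 hx, map_zero, LinearMap.zero_apply]

variable {w : BW G} {S : HE G → HE G → ℝ} (h : Inv w S) (mk : Finset (G × G)) (l k0 : ℕ)
    (K0 : Finset (G × G) → Ge (Fld G)) (ok : (sys D w mk l k0 K0).OK ⊥)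
    (Λ : Finset (G × G)) (supp : ∀ U, ¬ U ⊆ Λ → K0 U = 0) (n : ℕ)




end run

/-! ### the last scale -/

section last

variable {G : Type} [CommRing G] [CN G] [CNZ G] [DecidableEq G] {M K : ℕ} (D : FRD 16 M K)


/-- Gram weight of the last covariance -/
theorem Inv.last_gram {w : BW G} {S : HE G → HE G → ℝ} (h : Inv w S) (hw : ∀ z j, |w z j| ≤ 1)
    {C : ℝ} (hC : 0 < C)
    (hgap : ∀ f : Fld G, l2 (f : HE G → ℝ) ≤ C * l2 (Aop w (f : HE G → ℝ))) (l k0 n : ℕ) :
    Gram (h.last D l k0 n) (gr D w C⁻¹ (lo l k0 n)) :=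
  restC_gram D h.skew h.inv h.fin (by positivity) (abtw_of_gap hw hC hgap) _

/-- **the final factor at the last scale**, quantitative -/
theorem fin_bound_sys [GoodG G] (hM : MM ≤ M) {w : BW G} {S : HE G → HE G → ℝ} (h : Inv w S)
    (hw : ∀ z j, |w z j| ≤ 1) {p k0 : ℕ}
    (hp : 1 ≤ p) {δ R Cg Cv : ℝ} (hδ : 0 < δ) (hR : 0 < R) (hCg : 0 < Cg) (hCv : 0 ≤ Cv)
    (hgap : ∀ f : Fld G, l2 (f : HE G → ℝ) ≤ Cg * R * l2 (Aop w (f : HE G → ℝ))) {A : ℝ}
    (hA : amp D.C p δ Cg ≤ A) {Γ : ℝ≥0∞} (hΓ : 1 ≤ Γ) {n : ℕ} (hn : n = lastK p k0 (δ * R))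
    (hn1 : 1 ≤ n) (x : G × G)
    (Λ : Finset (G × G)) (hV : ∀ f ∈ Λ, (fd x f : ℝ) ≤ Cv * R) (F : Finset (G × G) → Ge (Fld G))
    {η : ℝ} (hη0 : 0 ≤ η) (hη1 : η ≤ 1)
    (hF : cnt p δ Cv * NK w A (rr p k0 n) Γ (fun _ => True)
        (fun U => (F U : Gr (Fld G))) ≤ ENNReal.ofReal η) :
    |EEG (h.last D p k0 n) (ZZ (near p k0 n) Λ F) - 1| ≤ 2 * η := by
  have h1 := h.last_gram D hw (by positivity) hgap p k0 n
  rw [EEG_apply]
  refine EE_zz_sub_one_le h1 _ Λ F hη0 hη1 ?_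
  rw [lo_pos hn1]
  subst hn
  exact (fin_pnorm_last D hM hw hp hδ hR hCg hCv hA hΓ x Λ hV F).trans hF


/-- **the final factor tends to one** -/
theorem fin_tendsto_sys [GoodG G] (hM : MM ≤ M) {α : Type*} {l : Filter α} {p k0 : ℕ} (hp : 1 ≤ p)
    {δ Cg Cv : ℝ} (hδ : 0 < δ) (hCg : 0 < Cg) (hCv : 0 ≤ Cv) {Γ : ℝ≥0∞} (hΓ : 1 ≤ Γ)
    (R : α → ℝ) (hR : Tendsto R l atTop) (w : α → BW G) (hw : ∀ a z j, |w a z j| ≤ 1)
    (S : α → HE G → HE G → ℝ) (hS : ∀ a, Inv (w a) (S a))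
    (hgap : ∀ᶠ a in l, ∀ f : Fld G,
      l2 (f : HE G → ℝ) ≤ Cg * R a * l2 (Aop (w a) (f : HE G → ℝ)))
    {A : ℕ → ℝ} (hA : Tendsto A atTop atTop) (mk : α → Finset (G × G))
    (K0 : α → Finset (G × G) → Ge (Fld G)) (Λ : α → Finset (G × G)) (n : α → ℕ)
    (hn : ∀ᶠ a in l, n a = lastK p k0 (δ * R a))
    (x : α → G × G) (hV : ∀ᶠ a in l, ∀ f ∈ Λ a, (fd (x a) f : ℝ) ≤ Cv * R a)
    (hK : Tendsto (fun a => NK (w a) (A (n a)) (rr p k0 (n a)) Γ (fun _ => True)
      (fun U => ((sys D (w a) (mk a) p k0 (K0 a)).K (n a) U : Gr (Fld G)))) l (𝓝 0)) :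
    Tendsto (fun a => EEG ((hS a).last D p k0 (n a))
      (ZZ (near p k0 (n a)) (Λ a) ((sys D (w a) (mk a) p k0 (K0 a)).K (n a)))) l (𝓝 1) := by
  have hlast : Tendsto (fun a => lastK p k0 (δ * R a)) l atTop :=
    lastK_tendsto k0 hp (hR.const_mul_atTop hδ)
  have hA1 : ∀ᶠ a in l, amp D.C p δ Cg ≤ A (lastK p k0 (δ * R a)) :=
    (hA.comp hlast).eventually_ge_atTop _
  have hn1 : ∀ᶠ a in l, 1 ≤ lastK p k0 (δ * R a) := hlast.eventually_ge_atTop 1
  have hR0 : ∀ᶠ a in l, 0 < R a := hR.eventually_gt_atTop 0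
  set N : α → ℝ≥0∞ := fun a => NK (w a) (A (n a)) (rr p k0 (n a)) Γ (fun _ => True)
      (fun U => ((sys D (w a) (mk a) p k0 (K0 a)).K (n a) U : Gr (Fld G))) with hN
  have hNr : Tendsto (fun a => (cnt p δ Cv : ℝ) * (N a).toReal) l (𝓝 0) := by
    have h1 := (ENNReal.tendsto_toReal ENNReal.zero_ne_top).comp hK
    have h2 := h1.const_mul (cnt p δ Cv : ℝ)
    simpa using h2
  have hN1 : ∀ᶠ a in l, N a < 1 := hK.eventually_lt_const one_pos
  have hN2 : ∀ᶠ a in l, (cnt p δ Cv : ℝ) * (N a).toReal ≤ 1 := by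
    filter_upwards [hNr.eventually_lt_const one_pos] with a ha using ha.le
  rw [tendsto_iff_norm_sub_tendsto_zero]
  refine squeeze_zero' (g := fun a => 2 * ((cnt p δ Cv : ℝ) * (N a).toReal))
    (Eventually.of_forall fun a => norm_nonneg _) ?_ (by simpa using hNr.const_mul 2)
  filter_upwards [hgap, hR0, hA1, hn, hn1, hV, hN1, hN2] with a h1 h2 h3 h4 h5 h6 h7 h8
  rw [Real.norm_eq_abs]
  refine fin_bound_sys D hM (hS a) (hw a) hp hδ h2 hCg hCv h1 (A := A (n a)) (h4 ▸ h3) hΓ h4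
    (h4 ▸ h5) (x a) (Λ a) h6 _ (by positivity) h8 ?_
  rw [ENNReal.ofReal_mul (by positivity), ENNReal.ofReal_toReal h7.ne_top, ENNReal.ofReal_natCast]

end last

end Crest.Agent.R165.Fin2x315
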