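import Crest.Agent.R165.SrcCstE_484
import Crest.Agent.R165.SrcTailB_999
import Crest.Agent.R165.SrcIns_991
import Crest.Agent.R165.JVol_950
import Crest.Agent.R165.CmpSrc_432
import Crest.Agent.R165.K0IsoB_900
import Crest.Agent.R165.SpinDom2_432
import Crest.Agent.R165.SrcK0_991

-- ▼ part R165/SrcCstF_484
section

/-!
# Row 165 (S0250), leaf P11 item 4: the run of 991's `sysP`, `flowP` (helper484)

* `LEAD_eq_LD` : 991's leading part is `LD`
* `sysP_SLA` (S-1) : `coP I ((sysP ..).K n U) ≠ 0 → sf i ⊆ U` for `i ∈ I`, source extraction on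
* `sysP_conn` : activities live on nonempty connected sets
* `run_sysP` : the structure `Run` from the total norm of the remainders
* `sysP_H_ne`, `sysP_hbig` : supports of the constants, sizes of the sets with two sources
* `flowP_conn`, `flowP_SLA`, `run_flowP`, `flowP_H_ne`, `flowP_hbig` : the same for the flow with bond
  sources
-/

set_option autoImplicit false
set_option linter.unusedSectionVars false
set_option linter.unusedVariables false

noncomputable section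

namespace Crest.Agent.R165.SrcCstx484

open Finset
open scoped ENNReal
open Crest.Agent.R165.FinBx900 Crest.Agent.R165.KStepx892
open Crest.Agent.R165.Gr0x606 Crest.Agent.R165.Gr1x606 Crest.Agent.R165.GeOpsx337
  Crest.Agent.R165.ExpGx337 Crest.Agent.R165.PNormx417 Crest.Agent.R165.KFlowx337
  Crest.Agent.R165.SrcDefx991 Crest.Agent.R165.SrcFinx441 Crest.Agent.R165.GrLocx337
open Crest.Agent.R165.SrcFinBx441 (Nw)
open Crest.Agent.R165.Packx915 (PD Conn)
open Crest.Agent.R165.Latx683 Crest.Agent.R165.GDefx387 Crest.Agent.R165.GSysx387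
  Crest.Agent.R165.BgIsox432 Crest.Agent.R165.CmpBgx432
open Crest.Agent.R165.SrcSysx991
open Crest.Agent.R165.SrcTailx999 (SLA mem_SLA SLA_mono inG_mem_SLA cvG_mem_SLA vacH_mem_SLA)

section sysP

variable {V : Type} [AddCommGroup V] [Module ℝ V] {m : ℕ}
variable {G : Type} [CommRing G] [CN G] [DecidableEq G]
variable {B : Sys (G × G) V} {R : SData G V m} {rs : ℕ → ℕ} {dp : ℕ → Fin m → Prop}
  {fs : Finset (G × G) → Submodule ℝ (VS V m)} {K0 : Finset (G × G) → Ge (VS V m)}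

theorem LEAD_eq_LD (R : SData G V m) (z : Fin m → ℝ) (U : Finset (G × G)) :
    LEAD R z U = LD R.sf z R.β U := by
  classical
  unfold LEAD LD lead
  rw [sum_filter]
  refine sum_congr rfl fun i _ => ?_
  by_cases h : R.sf i = U
  · rw [if_pos h, if_pos h.symm, map_smul, mul_smul_comm]
  · rw [if_neg h, if_neg fun h' => h h'.symm]

/-! ### S-1 : the sources of a coefficient lie inside the polymer -/

theorem tau_inG_mem_SLA {sf : Fin m → Finset (G × G)} {U : Finset (G × G)} {i : Fin m}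
    (h : sf i ⊆ U) (a : Ge V) : (tau i * inG m a : Ge (VS V m)) ∈ SLA sf U := by
  refine mem_SLA.2 ⟨Subalgebra.mul_mem _ (tau_mem i) (inG_mem _), fun I hI j hj => ?_⟩
  rw [coP_tau_inG] at hI
  split_ifs at hI with h1
  · rw [h1, mem_singleton] at hj
    rw [hj]; exact h
  · exact absurd rfl hI

/-- **(S-1)** -/
theorem sysP_SLA (h0 : ∀ U, K0 U ∈ SLA R.sf U) (n : ℕ) (U : Finset (G × G)) :
    (sysP B R rs dp fs K0).K n U ∈ SLA R.sf U := by
  classical
  induction n generalizing U with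
  | zero => exact h0 U
  | succ n ih =>
    have hH : ∀ U, (sysP B R rs dp fs K0).H n U ∈ SLA R.sf U := fun U => cvG_mem_SLA _ (ih U)
    have hA : ∀ U, (sysP B R rs dp fs K0).A n U ∈ SLA R.sf U := by
      intro U
      rw [sysP_A, srcE_gain, srcE_lost]
      refine Subalgebra.sub_mem _ (Subalgebra.sub_mem _ (Subalgebra.add_mem _ (inG_mem_SLA _ _ _) ?_)
        (Subalgebra.add_mem _ (inG_mem_SLA _ _ _) ?_)) (vacH_mem_SLA (hH U))
      · refine Subalgebra.sum_mem _ fun i hi => Subalgebra.sum_mem _ fun W _ => ?_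
        rw [mem_filter] at hi
        rw [seX_apply]
        exact tau_inG_mem_SLA (by rw [hi.2.2]) _
      · split_ifs
        · refine Subalgebra.sum_mem _ fun i hi => ?_
          rw [mem_filter] at hi
          rw [seX_apply]
          exact tau_inG_mem_SLA hi.2.2 _
        · exact Subalgebra.zero_mem _
    rw [Sys.K_succ]
    refine Sys.KK_mem (fun U => SLA R.sf U) (fun U W hUW => SLA_mono R.sf hUW) _ _ U
      (fun W _ => hH W) (fun W _ => ?_)
    rw [Sys.B_eq]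
    exact Subalgebra.sub_mem _ (SrcDefx991.gexp_mem_sub _ (hA W)) (Subalgebra.one_mem _)


/-- **connected supports** -/
theorem sysP_conn {Rr : ℕ → ℕ} (hR : Monotone Rr)
    (hnear : ∀ k, B.near k = fun x y => fd x y ≤ Rr k)
    (h0 : ∀ U, K0 U ≠ 0 → U.Nonempty ∧ Conn fd (Rr 0) U)
    (hT : ∀ k U, ∀ T ∈ (B.e k).out U, Conn fd (Rr (k + 1)) T)
    (hsf : ∀ i k, Conn fd (Rr k) (R.sf i)) (n : ℕ) (U : Finset (G × G))
    (hU : (sysP B R rs dp fs K0).K n U ≠ 0) : U.Nonempty ∧ Conn fd (Rr n) U := by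
  refine K_conn (sysP B R rs dp fs K0) hR hnear h0 (fun k U T hT' => ?_) n U hU
  rcases Finset.mem_union.1 (show T ∈ (liftE m (B.e k)).out U ∪
      (srcE (rs k) R.sf R.ne (dp k) R.mu R.β).out U from hT') with h | h
  · exact hT k U T h
  · obtain ⟨-, i, -, -, rfl⟩ := (mem_seOut (rs k) R.sf (dp k)).1 h
    exact hsf i (k + 1)

/-- **the run of `sysP`** -/
theorem run_sysP (h : SOK B K0) (hinj : Function.Injective R.sf) {P : ℕ → Prop}
    {z0 : Fin m → ℝ} {g : ℕ → V → ℝ≥0∞} {wt : ℕ → Finset (G × G) → V → ℝ≥0∞} {v : ℕ → ℝ} {Γ : ℝ}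
    {e : ℕ → ℝ} {sz : ℕ → Finset (G × G) → ℕ}
    (gram : ∀ k, P k → Gram (B.S k) (g k)) (gwt : ∀ k, P k → ∀ U x, g k x ≤ wt k U x)
    (v0 : ∀ k, P k → 0 < v k) (Γ1 : 1 ≤ Γ) (e0 : ∀ k, P k → 0 ≤ e k)
    (tot : ∀ k, P k → ∑' U, ENNReal.ofReal (Γ ^ sz k U) *
      Nw (wt k U) (fun _ => v k) (PP B R rs dp fs K0 z0 k U) ≤ ENNReal.ofReal (e k)) :
    Run (sysP B R rs dp fs K0) P B.S g wt v Γ e sz R.sf (zeta B R rs dp fs K0 z0) R.β
      (PP B R rs dp fs K0 z0) where
  vac := rfl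
  S_eq k := rfl
  inj := hinj
  step k hk :=
    { gram := gram k hk
      gwt := gwt k hk
      v0 := v0 k hk
      Γ1 := Γ1
      e0 := e0 k hk
      dec := fun U => by rw [pNoS_K h, ← LEAD_eq_LD]; exact K_eq_PP z0 k U
      tot := tot k hk }

/-- where the constants come from -/
theorem sysP_H_ne (h : SOK B K0) (n : ℕ) (U : Finset (G × G)) (I : Finset (Fin m))
    (hI : co I ((sysP B R rs dp fs K0).H n U) ≠ 0) :
    coP I ((sysP B R rs dp fs K0).K n U) ≠ 0 := by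
  intro h0
  apply hI
  rw [co_apply, coP_H h, h0, map_zero, map_zero]

end sysP

/-! ### the concrete ranges -/

section near

variable {m : ℕ} {G : Type} [CommRing G] [CN G] [CNZ G] [DecidableEq G] {V : Type}
  [AddCommGroup V] [Module ℝ V]
variable {B : Sys (G × G) V} {R : SData G V m} {rs : ℕ → ℕ} {dp : ℕ → Fin m → Prop}
  {fs : Finset (G × G) → Submodule ℝ (VS V m)} {K0 : Finset (G × G) → Ge (VS V m)} {l k0 : ℕ}

/-- sizes of the sets with two sources -/
theorem sysP_hbig (hl : 4 ≤ l)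
    (hconn : ∀ n U, (sysP B R rs dp fs K0).K n U ≠ 0 → U.Nonempty ∧ Conn fd (nearR l k0 n) U)
    (hsub : ∀ n U I, coP I ((sysP B R rs dp fs K0).K n U) ≠ 0 → ∀ i ∈ I, R.sf i ⊆ U)
    {x : Fin m → G × G} (hx : ∀ i, x i ∈ R.sf i) {N : ℕ}
    (hfar : ∀ i j, i ≠ j → m * rr l k0 N ≤ fd (x i) (x j)) {I : Finset (Fin m)}
    (hI : 2 ≤ I.card) : ∀ k < N, ∀ U, coP I ((sysP B R rs dp fs K0).K k U) ≠ 0 →
      (m + 1) * (N - k) ≤ size (rr l k0 k) U := by
  intro k hk U hU
  have hm : 1 ≤ m := by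
    rcases Nat.eq_zero_or_pos m with rfl | h
    · have := card_le_univ I
      rw [Fintype.card_fin] at this
      omega
    · exact h
  obtain ⟨i, hi, j, hj, hij⟩ := Finset.one_lt_card.1 (by omega : 1 < I.card)
  have h1 := hsub k U I hU
  have hK : (sysP B R rs dp fs K0).K k U ≠ 0 := fun h0 => hU (by rw [h0, map_zero])
  exact size_far hl hk (hconn k U hK).2 (h1 i hi (hx i)) (h1 j hj (hx j)) hm (hfar i j hij)

end near

end Crest.Agent.R165.SrcCstx484
end
end

-- ▼ part R165/SrcIso_432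
section

/-!
# Row 165 (S0250): the flow with bond sources under isomorphisms of backgrounds (helper432)

* `coP_pS` : the coefficient of the selected source
* `exC_srcE` : `ExC` for the extraction `srcE` of `SrcSys_991`
* `beB_nat`, `cS_nat`, `muB_nat` : the leading forms and their coefficients are natural
* `K0_bond` : the initial activities with bond sources correspond
* `K0P_mem` : they are local
* `flowP_K_eq`, `flowP_H_eq`, `flowP_vac_eq` : **the flows with bond sources correspond**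
* `BondC`, `bondC_dom`, `flowP_dom_H`, `flowP_dom_K` : domain with `m` sources and insertions /
  plane with the source `(0, j)`
-/

set_option autoImplicit false
set_option linter.unusedSectionVars false

noncomputable section

open scoped ENNReal
open Crest.ProbabilityR.IsingModel
open Crest.Agent.R165.Gr0x606 Crest.Agent.R165.Gr1x606 Crest.Agent.R165.Latx683
open Crest.Agent.R165.GDefx387 Crest.Agent.R165.GeOpsx337 Crest.Agent.R165.KFlowx337
open Crest.Agent.R165.KEqx337 Crest.Agent.R165.KMapx892 Crest.Agent.R165.GrLocx337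
open Crest.Agent.R165.FRDPolyx439 Crest.Agent.R165.FRDLatx439 Crest.Agent.R165.BgIsox432
open Crest.Agent.R165.PStepx417 Crest.Agent.R165.GSysx387 Crest.Agent.R165.SrcDefx991
open Crest.Agent.R165.SrcSysx991 Crest.Agent.R165.SrcInsx991 Crest.Agent.R165.KInitx892
open Crest.Agent.R165.Bkgx683 Crest.Agent.R165.J4K0Mapx126 Crest.Agent.R165.J4Geox126
open Crest.Agent.R165.J4K0x126 Crest.Agent.R165.K0Isox900 Crest.Agent.R165.DomGeox900
open Crest.Agent.R165.J4Defx653 (Can tr BB)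
open Crest.Agent.R165.J4RRx653 (RR ep em em_ep)
open Crest.Agent.R165.J4Lnkx653 (frV)
open Crest.Agent.R165.J1ax606 (pe qe pe_zero pe_one qe_zero qe_one)
open Crest.Agent.R165.Locx901 (form formL formL_apply form_mp form_smul_left form_smul_right)
open Crest.Agent.R165.Scalex900 (fd_int)
open Crest.Agent.R165.PlaneLocx901 (cMass)
open Crest.Agent.R165.PlaneModesx901 (tauV Fc)

namespace Crest.Agent.R165.CmpBgx432

section ex

variable {G G' : Type} [CommRing G] [CN G] [CNZ G] [DecidableEq G] [CommRing G'] [CN G'] [CNZ G']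
  [DecidableEq G'] {w : BW G} {w' : BW G'} {Z : Set (G × G)} {m m' : ℕ}

/-- the coefficient of a selected source -/
theorem coP_pS (b : BgIso w w' Z) (σ : Fin m' → Fin m) (j : Fin m') (a : Ge (VS (Fld G) m)) :
    coP {j} (mpG (pS b σ) a) = mpG b.push (coP {σ j} a) := by
  rw [coP_single, coP_single, cpair_pS, noS_pS]

theorem dd_mem_gr {V : Type*} [AddCommGroup V] [Module ℝ V] {W : Submodule ℝ V}
    (l : Module.Dual ℝ V) {a : Gr V} (ha : a ∈ gr W) : dd l a ∈ gr W := by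
  obtain ⟨a', rfl⟩ := exists_of_mem_gr ha
  rw [← mp_dd]
  exact mp_mem_gr W _

/-- the coefficients of local elements are local -/
theorem coP_mem_fldU {sf : Fin m → Finset (G × G)} {i : Fin m} {U : Finset (G × G)}
    {a : Ge (VS (Fld G) m)} (ha : a ∈ grG (fldUS sf U)) : coP {i} a ∈ grG (fldU U) := by
  rw [coP_single]
  refine noS_mem_fldU sf ?_
  rw [mem_grG, coe_cpair]
  exact dd_mem_gr _ (dd_mem_gr _ (mem_grG.1 ha))

/-- **correspondence of the sources**: `σ` selects the sources which are visible in `Z` -/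
structure SrcC (b : BgIso w w' Z) (σ : Fin m' → Fin m) (sf : Fin m → Finset (G × G))
    (sf' : Fin m' → Finset (G' × G')) : Prop where
  inj : Function.Injective σ
  sub : ∀ j, ∀ f ∈ sf (σ j), f ∈ Z
  vis : ∀ i, (∀ f ∈ sf i, f ∈ Z) → ∃ j, σ j = i
  sf_eq : ∀ j, sf' j = (sf (σ j)).image b.τ

/-- **the extraction of the source terms corresponds** -/
theorem exC_srcE (b : BgIso w w' Z) {σ : Fin m' → Fin m} {sf : Fin m → Finset (G × G)}
    {sf' : Fin m' → Finset (G' × G')} (h : SrcC b σ sf sf') (hsf : ∀ i, (sf i).Nonempty)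
    (hsf' : ∀ j, (sf' j).Nonempty) {dp : Fin m → Prop} {dp' : Fin m' → Prop}
    {mu : Fin m → Ge (Fld G) →ₗ[ℝ] ℝ} {β : Fin m → Ge (Fld G)}
    {mu' : Fin m' → Ge (Fld G') →ₗ[ℝ] ℝ} {β' : Fin m' → Ge (Fld G')} {l k0 n r : ℕ} (hl : 1 ≤ l)
    (hr : r ≤ rr l k0 n) {W : Finset (G × G)} (hW : nbhd (rhoK l k0 (n + 1)) W ⊆ Z)
    (hdp : ∀ j, sf (σ j) ⊆ W → (dp' j ↔ dp (σ j)))
    (hmu : ∀ j, sf (σ j) ⊆ W → dp (σ j) → ∀ U, sf (σ j) ⊆ U → size r U ≤ 1 →
      ∀ c ∈ grG (fldU U), mu (σ j) c • mpG b.push (β (σ j)) = mu' j (mpG b.push c) • β' j) :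
    ExC (srcE r sf hsf dp mu β) (srcE r sf' hsf' dp' mu' β') b.τ (pS b σ) (fldUS sf)
      (visH Z l k0 n) W := by
  have hWZ : ∀ f ∈ W, f ∈ Z := fun f hf => hW (subset_nbhd W _ hf)
  have hball : ∀ f ∈ W, ball f r ⊆ Z := fun f hf => by
    refine ((ball_subset_nbhd hf).trans (nbhd_mono ?_)).trans hW
    have := rhoH_add_le (k0 := k0) (n := n) hl
    omega
  have hvis : ∀ T ⊆ W, T.Nonempty → ∀ U : Finset (G × G), T ⊆ U → size r U ≤ 1 →
      visH Z l k0 n U := by
    intro T hT hTne U hTU hU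
    obtain ⟨t, ht⟩ := hTne
    refine ⟨⟨t, hTU ht⟩, ?_⟩
    rintro f ⟨u, hu, hf⟩
    refine hW ⟨t, hT ht, ?_⟩
    have h1 := size_le_one_iff.1 hU t (hTU ht) u hu
    have h2 := fd_triangle t u f
    have h3 := rhoH_add_le (k0 := k0) (n := n) hl
    omega
  have hback : ∀ j (U : Finset (G × G)), (∀ f ∈ U, f ∈ Z) → sf' j ⊆ U.image b.τ →
      sf (σ j) ⊆ U := by
    intro j U hUZ h3 f hf
    have h6 : b.τ f ∈ U.image b.τ := h3 (by rw [h.sf_eq j]; exact Finset.mem_image_of_mem _ hf)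
    obtain ⟨g, hg, hg'⟩ := Finset.mem_image.1 h6
    rwa [← b.injOn (hUZ g hg) (h.sub j f hf) hg']
  have hback' : ∀ j (T : Finset (G × G)), (∀ f ∈ T, f ∈ Z) → sf' j = T.image b.τ →
      sf (σ j) = T := by
    intro j T hT h4
    refine image_inj b (h.sub j) hT ?_
    rw [← h.sf_eq j, h4]
  refine ⟨?_, ?_, ?_, ?_⟩
  · intro T hT hTne U hU
    rw [mem_srcE_inn] at hU
    obtain ⟨h1, i, h2, h3, rfl⟩ := hU
    exact hvis _ hT hTne U h3 h1
  · intro T hT hTne
    ext U'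
    rw [mem_srcE_inn, Finset.mem_image]
    constructor
    · rintro ⟨h1, j, h2, h3, h4⟩
      have h5 : sf (σ j) = T := hback' j T (fun f hf => hWZ f (hT hf)) h4
      obtain ⟨t, ht⟩ := hTne
      have ht' : b.τ t ∈ U' := h3 (by rw [h4]; exact Finset.mem_image_of_mem _ ht)
      obtain ⟨U, hU, rfl⟩ := exists_image b (hball t (hT ht)) (U' := U') fun x hx => by
        rw [b.image_ball (hball t (hT ht)), mem_ball]
        exact size_le_one_iff.1 h1 _ ht' x hx
      have hUZ : ∀ f ∈ U, f ∈ Z := fun f hf => hball t (hT ht) (hU f hf)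
      refine ⟨U, ?_, rfl⟩
      rw [mem_srcE_inn]
      exact ⟨by rwa [size_im b r hUZ] at h1, σ j, (hdp j (by rw [h5]; exact hT)).1 h2,
        hback j U hUZ h3, h5⟩
    · rintro ⟨U, hU, rfl⟩
      rw [mem_srcE_inn] at hU
      obtain ⟨h1, i, h2, h3, rfl⟩ := hU
      obtain ⟨j, rfl⟩ := h.vis i fun f hf => hWZ f (hT hf)
      have hv := hvis _ hT hTne U h3 h1
      have hUZ : ∀ f ∈ U, f ∈ Z := fun f hf => hv.2 (subset_nbhd U _ hf)
      refine ⟨by rwa [size_im b r hUZ], j, (hdp j hT).2 h2, ?_, h.sf_eq j⟩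
      rw [h.sf_eq j]
      exact Finset.image_subset_image h3
  · intro U hU hUne
    have hUZ : ∀ f ∈ U, f ∈ Z := fun f hf => hWZ f (hU hf)
    ext T'
    show T' ∈ seOut r sf' dp' (U.image b.τ) ↔ T' ∈ (seOut r sf dp U).image (Finset.image b.τ)
    rw [mem_seOut, Finset.mem_image]
    constructor
    · rintro ⟨h1, j, h2, h3, rfl⟩
      have h4 := hback j U hUZ h3
      refine ⟨sf (σ j), ?_, (h.sf_eq j).symm⟩
      rw [mem_seOut]
      exact ⟨by rwa [size_im b r hUZ] at h1, σ j, (hdp j (h4.trans hU)).1 h2, h4, rfl⟩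
    · rintro ⟨T, hT, rfl⟩
      rw [mem_seOut] at hT
      obtain ⟨h1, i, h2, h3, rfl⟩ := hT
      obtain ⟨j, rfl⟩ := h.vis i fun f hf => hUZ f (h3 hf)
      refine ⟨by rwa [size_im b r hUZ], j, (hdp j (h3.trans hU)).2 h2, ?_, h.sf_eq j⟩
      rw [h.sf_eq j]
      exact Finset.image_subset_image h3
  · classical
    intro T hT hTne U hU a ha
    have hTZ : ∀ f ∈ T, f ∈ Z := fun f hf => hWZ f (hT hf)
    rw [mem_srcE_inn] at hU
    obtain ⟨hsz, i0, -, hTU, rfl⟩ := hU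
    rw [srcE_X, srcE_X, map_sum]
    symm
    refine Finset.sum_bij (fun j _ => σ j) ?_ ?_ ?_ ?_
    · intro j hj
      rw [Finset.mem_filter] at hj ⊢
      have h5 := hback' j _ hTZ hj.2.2
      exact ⟨Finset.mem_univ _, (hdp j (by rw [h5]; exact hT)).1 hj.2.1, h5⟩
    · intro j _ j' _ hjj
      exact h.inj hjj
    · intro i hi
      rw [Finset.mem_filter] at hi
      obtain ⟨j, rfl⟩ := h.vis i fun f hf => hTZ f (by rw [← hi.2.2]; exact hf)
      refine ⟨j, ?_, rfl⟩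
      rw [Finset.mem_filter]
      refine ⟨Finset.mem_univ _, (hdp j (by rw [hi.2.2]; exact hT)).2 hi.2.1, ?_⟩
      rw [h.sf_eq j, hi.2.2]
    · intro j hj
      rw [Finset.mem_filter] at hj
      have h5 := hback' j _ hTZ hj.2.2
      have hjW : sf (σ j) ⊆ W := by rw [h5]; exact hT
      have e := hmu j hjW ((hdp j hjW).1 hj.2.1) U (by rw [h5]; exact hTU) hsz
        (coP {σ j} a) (coP_mem_fldU ha)
      rw [seX_apply, seX_apply, map_mul, pS_tau b h.inj, pS_inG, coP_pS, ← e,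
        map_smul (mpG b.push)]

end ex

/-! ### the leading forms and their coefficients -/

section forms

variable {w w' : BW ℤ} {Z : Set (ℤ × ℤ)}

theorem faE_ebm {G G' : Type} [CommRing G] [CN G] [DecidableEq G] [CommRing G'] [CN G']
    [DecidableEq G'] {w : BW G} {w' : BW G'} {Z : Set (G × G)} (b : BgIso w w' Z) {e : Bkgx683.EG G}
    (he : ∀ f ∈ faE e, f ∈ Z) : faE (ebm b.τ e) = (faE e).image b.τ := by
  obtain ⟨z, j⟩ := e
  rcases fin2 j with rfl | rfl
  · rw [faE_zero] at he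
    have h1 : z - (0, 1) ∈ Z := he _ (by simp)
    have h2 : z ∈ Z := he _ (by simp)
    have h0 : ((z - (0, 1)).1, (z - (0, 1)).2 + 1) = z := by ext <;> simp
    have h3 := b.e2 (z - (0, 1)) h1 (by rw [h0]; exact h2)
    rw [h0] at h3
    show faE ((b.τ z, 0) : Bkgx683.EG G') = _
    rw [faE_zero, faE_zero, Finset.image_insert, Finset.image_singleton, h3]
    congr 2
    ext <;> simp
  · rw [faE_one] at he
    have h1 : z - (1, 0) ∈ Z := he _ (by simp)
    have h2 : z ∈ Z := he _ (by simp)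
    have h0 : ((z - (1, 0)).1 + 1, (z - (1, 0)).2) = z := by ext <;> simp
    have h3 := b.e1 (z - (1, 0)) h1 (by rw [h0]; exact h2)
    rw [h0] at h3
    show faE ((b.τ z, 1) : Bkgx683.EG G') = _
    rw [faE_one, faE_one, Finset.image_insert, Finset.image_singleton, h3]
    congr 1
    ext <;> simp

/-- **the coefficient of the light modes is natural** -/
theorem cS_nat (b : BgIso w w' Z) {Z₁ : Set (ℤ × ℤ)} (b₁ : BgIso w (wPl ℤ) Z₁) {f : ℤ × ℤ} {R : ℕ}
    (h : ball f R ⊆ Z) (h1 : ball f R ⊆ Z₁) {a : Ge (Fld ℤ)} (ha : a ∈ grG (fldS (ball f R))) :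
    cS w' (b.τ f) (mpG b.push a) = cS w f a := by
  set c₁ : BgIso w (wPl ℤ) (ball f R) := canIso b₁ h1 with hc₁
  have hi : ∀ g ∈ ball (b.τ f) R, (b.symmBall h (by norm_num)).τ g ∈ ball f R := by
    intro g hg
    rw [← b.image_ball h] at hg
    obtain ⟨g, hg, rfl⟩ := hg
    show b.inv (b.τ g) ∈ ball f R
    rw [b.inv_tau (h hg)]
    exact hg
  set c₂ : BgIso w' (wPl ℤ) (ball (b.τ f) R) :=
    canIso ((b.symmBall h (by norm_num)).trans c₁ hi) le_rfl with hc₂
  have hτ : ∀ g ∈ ball f R, (b.mono h).τ g ∈ ball (b.τ f) R := by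
    intro g hg
    rw [← b.image_ball h]
    exact ⟨g, hg, rfl⟩
  set b' : BgIso w (wPl ℤ) (ball f R) := (b.mono h).trans c₂ hτ with hb'
  have hp : ∀ l, b'.push l = c₂.push (b.push l) := fun l => by
    have e := push_trans (b.mono h) c₂ hτ
    exact congrArg (fun T : Fld ℤ →ₗ[ℝ] Fld ℤ => T l) e
  set c : ℝ := c₁.s f * b'.s f with hc
  have hcc : c * c = 1 := sgn_sq c₁ b' f
  have ht : b'.τ f - c₁.τ f = 0 := by
    show tauC (b.τ f) (b.τ f) - tauC f f = 0
    rw [tauC_self, tauC_self, sub_self]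
  have e1 : ∀ B : BgIso w (wPl ℤ) (ball f R), B.τ = tauC f → B.s = gp w f → B.push = chP w f := by
    intro B h1 h2
    refine Finsupp.lhom_ext fun k c => ?_
    rw [BgIso.push_single, chP_single, h1, h2, Finsupp.smul_single, Finsupp.smul_single,
      smul_eq_mul, smul_eq_mul, mul_one]
  have e2 : ∀ B : BgIso w' (wPl ℤ) (ball (b.τ f) R), B.τ = tauC (b.τ f) → B.s = gp w' (b.τ f) →
      B.push = chP w' (b.τ f) := by
    intro B h1 h2
    refine Finsupp.lhom_ext fun k c => ?_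
    rw [BgIso.push_single, chP_single, h1, h2, Finsupp.smul_single, Finsupp.smul_single,
      smul_eq_mul, smul_eq_mul, mul_one]
  have hpt : ∀ l ∈ fldS (ball f R), chP w' (b.τ f) (b.push l) = (c • chP w f) l := by
    intro l hl
    rw [← e2 c₂ rfl rfl, ← e1 c₁ rfl rfl, ← hp, push_eq_tauV c₁ b' le_rfl le_rfl hl, ht]
    have h0 : tauV (0 : Fc) = LinearMap.id := by
      refine Finsupp.lhom_ext fun k c => ?_
      rw [tauV_single, add_zero]
      rfl
    rw [h0]
    rfl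
  rw [cS_apply, cS_apply, coe_mpG, mp_mp]
  have e3 : mp (chP w' (b.τ f) ∘ₗ b.push) (a : Gr (Fld ℤ)) = mp (c • chP w f) (a : Gr (Fld ℤ)) :=
    mp_congr (W := fldS (ball f R)) (fun l hl => hpt l hl) (mem_grG.1 ha)
  rw [e3, cMass, formL_apply, formL_apply, form_mp, form_mp]
  have e4 : ∀ l : Module.Dual ℝ (Fld ℤ), l ∘ₗ (c • chP w f) = c • (l ∘ₗ chP w f) := fun l => by
    ext x
    simp
  rw [e4, e4, form_smul_left, form_smul_right, ← mul_assoc, hcc, one_mul]

/-- **the leading form is natural** -/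
theorem beB_nat (b : BgIso w w' Z) {e : Bkgx683.EG ℤ} (he : ∀ f ∈ faE e, ball f 1 ⊆ Z) :
    mpG b.push (beB w e) = beB w' (ebm b.τ e) := by
  have hy := y_of b he (e := e) (Finset.Subset.refl _)
  have hb := hb_V b he e (Finset.Subset.refl _)
  have e1 : (frV ℤ).b e = bE e := rfl
  have e2 : (frV ℤ).b (ebm b.τ e) = bE (ebm b.τ e) := rfl
  rw [e1, e2] at hb
  have hsq : (b.s (pe e).1 * b.s (qe e).1) * (b.s (pe e).1 * b.s (qe e).1) = 1 := by
    have h1 := b.sq (pe e).1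
    have h2 := b.sq (qe e).1
    calc _ = (b.s (pe e).1 * b.s (pe e).1) * (b.s (qe e).1 * b.s (qe e).1) := by ring
      _ = 1 := by rw [h1, h2, one_mul]
  rw [beB, beB, map_smul, hb, smul_smul]
  congr 1
  rw [uB, uB, ← hy]
  ring

/-- **the coefficient of the leading form is natural** -/
theorem muB_nat (b : BgIso w w' Z) {Z₁ : Set (ℤ × ℤ)} (b₁ : BgIso w (wPl ℤ) Z₁) {e : Bkgx683.EG ℤ}
    {R : ℕ} (h : ball e.1 R ⊆ Z) (h1 : ball e.1 R ⊆ Z₁) (hR : 2 ≤ R) {a : Ge (Fld ℤ)}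
    (ha : a ∈ grG (fldS (ball e.1 R))) : muB w' (ebm b.τ e) (mpG b.push a) = muB w e a := by
  have hfa : ∀ f ∈ faE e, ball f 1 ⊆ ball e.1 R := by
    intro f hf
    refine ball_subset_ball (r' := 1) ?_
    have : fd e.1 f ≤ 1 := by
      obtain ⟨z, j⟩ := e
      rcases fin2 j with rfl | rfl
      · rw [faE_zero] at hf
        simp only [Finset.mem_insert, Finset.mem_singleton] at hf
        rcases hf with rfl | rfl
        · simp
        · rw [fd_int]; simp
      · rw [faE_one] at hf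
        simp only [Finset.mem_insert, Finset.mem_singleton] at hf
        rcases hf with rfl | rfl
        · rw [fd_int]; simp
        · simp
    omega
  have hbe : beB w e ∈ grG (fldS (ball e.1 R)) := by
    refine grG_mono (fldS_mono ?_) (beB_mem w e)
    rintro g ⟨f, hf, hg⟩
    exact hfa f hf hg
  have e0 : (ebm b.τ e).1 = b.τ e.1 := rfl
  rw [muB_apply, muB_apply, ← beB_nat b (fun f hf => (hfa f hf).trans h), e0,
    cS_nat b b₁ h h1 hbe, cS_nat b b₁ h h1 ha]

end forms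

/-! ### the initial activities with bond sources -/

section k0

variable {G G' : Type} [CommRing G] [CN G] [CNZ G] [DecidableEq G] [CommRing G'] [CN G'] [CNZ G']
  [DecidableEq G'] {w : BW G} {w' : BW G'} {Z : Set (G × G)} {m m' : ℕ}

theorem frG_inl_b (m : ℕ) (e : Bkgx683.EG G) :
    (frG (LinearMap.inl ℝ (Fld G) (Src m))).b e = inG m ((frV G).b e) := by
  rw [frG_b]
  unfold inG
  show _ = mpG _ (bi (Finsupp.single (pe e) 1) (Finsupp.single (qe e) 1))
  rw [mpG_bi]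

theorem frG_inl_I4 (m : ℕ) (f : G × G) :
    (frG (LinearMap.inl ℝ (Fld G) (Src m))).I4 f = inG m ((frV G).I4 f) := by
  rw [frG_I4]
  unfold inG
  show _ = mpG _ (∑ p ∈ (Finset.univ : Finset (Fin 4 × Fin 4)).filter (fun p => p.1 < p.2),
    bi (Finsupp.single (f, p.1) 1) (Finsupp.single (f, p.2) 1))
  rw [map_sum]
  exact Finset.sum_congr rfl fun p _ => by rw [mpG_bi]

/-- reclustering, with sources -/
theorem K1_isoS (b : BgIso w w' Z) (σ : Fin m' → Fin m) (l k0 : ℕ) {W : Finset (G × G)}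
    (hW : ∀ f ∈ W, f ∈ Z) {K0 : Finset (G × G) → Ge (VS (Fld G) m)}
    {K0' : Finset (G' × G') → Ge (VS (Fld G') m')}
    (hK : ∀ U ⊆ W, U.Nonempty → mpG (pS b σ) (K0 U) = K0' (U.image b.τ)) :
    mpG (pS b σ) (K1 (GSysx387.near l k0 0) K0 W) =
      K1 (GSysx387.near l k0 0) K0' (W.image b.τ) := by
  have hp : PIso (fun a c : G × G => a = c) (GSysx387.near l k0 0)
      (fun a c : G' × G' => a = c) (GSysx387.near l k0 0) W b.τ b.inv := by
    refine ⟨fun a ha => b.inv_tau (hW a ha), fun a ha c hc => ?_, fun a ha c hc => ?_⟩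
    · exact ⟨fun h => by rw [h], fun h => b.injOn (hW a ha) (hW c hc) h⟩
    · unfold GSysx387.near
      rw [b.iso a (hW a ha) c (hW c hc)]
  exact K1_map hp (mpG (pS b σ)).toRingHom hK

/-- **the initial activities with bond sources correspond** -/
theorem K0_bond {B : Bg G} {B' : Bg G'} (b : BgIso B.w B'.w Z) (P : MPar) (l k0 : ℕ)
    {σ : Fin m' → Fin m} (hσ : Function.Injective σ) {e : Fin m → Bkgx683.EG G}
    {e' : Fin m' → Bkgx683.EG G'} (he : ∀ j, e' j = ebm b.τ (e (σ j)))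
    (hin : ∀ j, ∀ f ∈ faE (e (σ j)), f ∈ Z)
    (hvis : ∀ i, (∀ f ∈ faE (e i), f ∈ Z) → ∃ j, σ j = i)
    (htch : ∀ f ∈ Z, (B.tch f ↔ B'.tch (b.τ f)))
    (hok : ∀ u ∈ Z, ∀ S ∈ Can P.R, Even S.card → (∀ f ∈ (Yf S).image (fz u), f ∈ Z) →
      (B.ok P.R u S ↔ B'.ok P.R (b.τ u) S)) {U : Finset (G × G)} (hU : ∀ f ∈ U, ball f 1 ⊆ Z) :
    mpG (pS b σ) (B.K0 P (LinearMap.inl ℝ (Fld G) (Src m)) (bondSrc (Fld G) e) l k0 U) =
      B'.K0 P (LinearMap.inl ℝ (Fld G') (Src m')) (bondSrc (Fld G') e') l k0 (U.image b.τ) := by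
  have hUZ : ∀ f ∈ U, f ∈ Z := fun f hf => hU f hf (mem_ball_self f 1)
  refine K1_isoS b σ l k0 hUZ fun U₁ hU₁ _ => ?_
  have hUZ₁ : ∀ f ∈ U₁, f ∈ Z := fun f hf => hUZ f (hU₁ hf)
  have hfe : ∀ j, faE (e' j) = (faE (e (σ j))).image b.τ := fun j => by
    rw [he j]; exact faE_ebm b (hin j)
  refine K0_chart (chart0_of (B := B.bk P (bondSrc (Fld G) e))
    (B' := B'.bk P (bondSrc (Fld G') e')) (τ := mpG (pS b σ)) (sm := Function.partialInv σ) b
    (fun f hf => hU f (hU₁ hf)) ?_ ?_ (fun _ => rfl) (fun _ => rfl) ?_ rfl (fun _ _ _ => rfl) ?_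
    ?_ ?_ ?_)
  · intro e heU
    rw [frG_inl_b, frG_inl_b, pS_inG, hb_V b (fun f hf => hU f (hU₁ hf)) e heU, map_smul]
  · intro f hf
    rw [frG_inl_I4, frG_inl_I4, pS_inG, hI_V]
  · intro f hf
    show B.sc P f = B'.sc P (b.τ f)
    unfold Bg.sc
    have := htch f (hUZ₁ f hf)
    by_cases h : B.tch f
    · rw [if_pos h, if_pos (this.1 h)]
    · rw [if_neg h, if_neg fun h' => h (this.2 h')]
  · intro u hu S hS hev hYf
    exact hok u (hUZ₁ u hu) S hS hev fun f hf => hUZ₁ f (hYf hf)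
  · intro k _ hk
    obtain ⟨j, rfl⟩ := hvis k fun f hf => hUZ₁ f (hk hf)
    refine ⟨j, Function.partialInv_left hσ j, hfe j, pS_tau b hσ j, ?_⟩
    show ep (Finsupp.single (e' j) 1) - 1 = em (ebm b.τ) (ep (Finsupp.single (e (σ j)) 1) - 1)
    rw [map_sub, map_one, em_ep, Finsupp.mapDomain_single, he j]
  · intro k _ hk k₂ _ hk₂ h
    obtain ⟨j, rfl⟩ := hvis k fun f hf => hUZ₁ f (hk hf)
    obtain ⟨j₂, rfl⟩ := hvis k₂ fun f hf => hUZ₁ f (hk₂ hf)
    rw [Function.partialInv_left hσ, Function.partialInv_left hσ, Option.some.injEq] at h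
    rw [h]
  · intro j _ hj
    refine ⟨σ j, faE_nonempty _, ?_, Function.partialInv_left hσ j⟩
    intro f hf
    have h6 : b.τ f ∈ U₁.image b.τ := hj (by
      show b.τ f ∈ faE (e' j)
      rw [hfe j]; exact Finset.mem_image_of_mem _ hf)
    obtain ⟨g, hg, hg'⟩ := Finset.mem_image.1 h6
    rwa [← b.injOn (hUZ₁ g hg) (hin j f hf) hg']

/-- **the initial activities with bond sources are local** -/
theorem K0_bond_mem (B : Bg G) (P : MPar) (l k0 : ℕ) (e : Fin m → Bkgx683.EG G)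
    (U : Finset (G × G)) :
    B.K0 P (LinearMap.inl ℝ (Fld G) (Src m)) (bondSrc (Fld G) e) l k0 U ∈
      grG (fldUS (fun i => faE (e i)) U) := by
  unfold Bg.K0
  have hmono : ∀ U W : Finset (G × G), U ⊆ W → grG (fldUS (fun i => faE (e i)) U) ≤
      grG (fldUS (fun i => faE (e i)) W) := fun U W h => grG_mono fun x hx =>
    ⟨GSysOKx439.fldU_mono h hx.1, fun i hi => by
      obtain ⟨f, hf, hfU⟩ := hx.2 i hi
      exact ⟨f, hf, h hfU⟩⟩
  refine K1_mem (fun U => grG (fldUS (fun i => faE (e i)) U)) hmono _ U fun U' _ => ?_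
  unfold Bg.K00
  have hs : ∀ (U : Finset (G × G)) (h : HE G), h.1 ∈ U →
      (Finsupp.single h (1 : ℝ) : Fld G) ∈ (fldU U : Submodule ℝ (Fld G)) := fun U h hh =>
    single_mem_fldS (subset_nbhd U 1 hh) 1
  refine J4K0Lx126.K0_mem (fun U => grG (fldUS (fun i => faE (e i)) U)) ?_ ?_ ?_ U'
  · intro U c hc
    rw [frG_inl_b]
    refine inG_mem_fldUS _ ?_
    exact SpinDomx432.bi_mem_grG (hs U _ (hc (Finset.mem_insert_self _ _)))
      (hs U _ (hc (Finset.mem_insert_of_mem (Finset.mem_singleton_self _))))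
  · intro U f hf
    rw [frG_inl_I4]
    refine inG_mem_fldUS _ ?_
    exact Subalgebra.sum_mem _ fun p _ => SpinDomx432.bi_mem_grG (hs U _ hf) (hs U _ hf)
  · intro U k hk
    exact tau_mem_fldUS _ ⟨(pe (e k)).1, Finset.mem_insert_self _ _,
      hk (Finset.mem_insert_self _ _)⟩

end k0

/-! ### the flows with bond sources correspond -/

section flow

variable {Z : Set (ℤ × ℤ)} {m m' : ℕ}

theorem fd_faE {e : Bkgx683.EG ℤ} {f : ℤ × ℤ} (hf : f ∈ faE e) : fd e.1 f ≤ 1 := by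
  obtain ⟨z, j⟩ := e
  rcases fin2 j with rfl | rfl
  · rw [faE_zero] at hf
    simp only [Finset.mem_insert, Finset.mem_singleton] at hf
    rcases hf with rfl | rfl
    · simp
    · rw [fd_int]; simp
  · rw [faE_one] at hf
    simp only [Finset.mem_insert, Finset.mem_singleton] at hf
    rcases hf with rfl | rfl
    · rw [fd_int]; simp
    · simp

theorem fst_mem_faE (e : Bkgx683.EG ℤ) : e.1 ∈ faE e := by
  obtain ⟨z, j⟩ := e
  rcases fin2 j with rfl | rfl
  · rw [faE_zero]; simp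
  · rw [faE_one]; simp

/-- the correspondence of two families of bond sources -/
structure BondC {B B' : Bg ℤ} (b : BgIso B.w B'.w Z) (P : MPar) (mk mk' : Finset (ℤ × ℤ))
    (σ : Fin m' → Fin m) (e : Fin m → Bkgx683.EG ℤ) (e' : Fin m' → Bkgx683.EG ℤ) : Prop where
  inj : Function.Injective σ
  e_eq : ∀ j, e' j = ebm b.τ (e (σ j))
  inn : ∀ j, ∀ f ∈ faE (e (σ j)), f ∈ Z
  vis : ∀ i, (∀ f ∈ faE (e i), f ∈ Z) → ∃ j, σ j = i
  mk_iff : ∀ f ∈ Z, (f ∈ mk ↔ b.τ f ∈ mk')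
  tch : ∀ f ∈ Z, (B.tch f ↔ B'.tch (b.τ f))
  ok : ∀ u ∈ Z, ∀ S ∈ Can P.R, Even S.card → (∀ f ∈ (Yf S).image (fz u), f ∈ Z) →
      (B.ok P.R u S ↔ B'.ok P.R (b.τ u) S)

variable {B B' : Bg ℤ} {b : BgIso B.w B'.w Z} {P : MPar} {mk mk' : Finset (ℤ × ℤ)}
  {σ : Fin m' → Fin m} {e : Fin m → Bkgx683.EG ℤ} {e' : Fin m' → Bkgx683.EG ℤ}

theorem BondC.srcC (h : BondC b P mk mk' σ e e') :
    SrcC b σ (fun i => faE (e i)) (fun j => faE (e' j)) where
  inj := h.inj
  sub := h.inn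
  vis := h.vis
  sf_eq j := by
    show faE (e' j) = _
    rw [h.e_eq j]; exact faE_ebm b (h.inn j)

/-- the extractions of the source terms correspond -/
theorem BondC.exC (h : BondC b P mk mk' σ e e') (he : ∀ i, B.w (e i).1 (e i).2 ≠ 0)
    (he' : ∀ i, B'.w (e' i).1 (e' i).2 ≠ 0) {l k0 : ℕ} (hl : 1 ≤ l) (n : ℕ)
    (W : Finset (ℤ × ℤ)) (_ : W.Nonempty) (hW : nbhd (rhoK l k0 (n + 1)) W ⊆ Z) :
    ExC (srcX B.w mk l k0 e he n) (srcX B'.w mk' l k0 e' he' n) b.τ (pS b σ)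
      (fldUS fun i => faE (e i)) (visH Z l k0 n) W := by
  have e2 : s2 = 128 := rfl
  have h0 := rr_pos l k0 n
  have h1 := rhoH_add_le (k0 := k0) (n := n) hl
  have h2 : rhoK l k0 n ≤ rhoH l k0 n := rhoK_le_rhoH l k0 n
  have h3 : rhoK l k0 n = 128 * rr l k0 n := by rw [← e2]; rfl
  refine exC_srcE b h.srcC _ _ hl le_rfl hW ?_ ?_
  · intro j hj
    constructor
    · intro hd f hf
      have h4 := hd (b.τ f) (by
        show b.τ f ∈ faE (e' j)
        rw [h.srcC.sf_eq j]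
        exact Finset.mem_image_of_mem _ hf)
      exact (deep_iff b h.mk_iff (by norm_num) ((ball_subset_nbhd (hj hf)).trans hW)).2 h4
    · intro hd f' hf'
      have hf'' : f' ∈ (faE (e (σ j))).image b.τ := by
        rw [← h.srcC.sf_eq j]; exact hf'
      obtain ⟨f, hf, rfl⟩ := Finset.mem_image.1 hf''
      exact (deep_iff b h.mk_iff (by norm_num) ((ball_subset_nbhd (hj hf)).trans hW)).1 (hd f hf)
  · intro j hj hd U hU hsz c hc
    have h5 : (e (σ j)).1 ∈ faE (e (σ j)) := fst_mem_faE _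
    obtain ⟨p⟩ := (hd _ h5).1
    have hball : ball (e (σ j)).1 (rr l k0 n + 1) ⊆ Z := by
      refine ((ball_subset_nbhd (hj h5)).trans (nbhd_mono ?_)).trans hW
      omega
    have hball' : ball (e (σ j)).1 (rr l k0 n + 1) ⊆ nbhd (s2 * rr l k0 (n + 1)) {(e (σ j)).1} := by
      rw [nbhd_single]
      refine ball_mono _ ?_
      have h6 : rhoK l k0 (n + 1) = s2 * rr l k0 (n + 1) := rfl
      omega
    have hcm : c ∈ grG (fldS (ball (e (σ j)).1 (rr l k0 n + 1))) := by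
      refine grG_mono (fldS_mono ?_) hc
      rintro g ⟨u, hu, hg⟩
      rw [mem_ball]
      have h7 := size_le_one_iff.1 hsz _ (hU h5) u hu
      have h8 := fd_triangle (e (σ j)).1 u g
      omega
    have hmu : muB B'.w (e' j) (mpG b.push c) = muB B.w (e (σ j)) c := by
      rw [h.e_eq j]
      exact muB_nat b (ofPlane p) hball hball' (by omega) hcm
    have hbe : mpG b.push (beB B.w (e (σ j))) = beB B'.w (e' j) := by
      rw [h.e_eq j]
      refine beB_nat b fun f hf => ?_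
      refine Set.Subset.trans ?_ hball
      refine ball_subset_ball ?_
      have := fd_faE hf
      omega
    show muB B.w (e (σ j)) c • mpG b.push (beB B.w (e (σ j))) =
      muB B'.w (e' j) (mpG b.push c) • beB B'.w (e' j)
    rw [hmu, hbe]

variable {M K : ℕ} (D : FRD 16 M K) (h : BondC b P mk mk' σ e e')
  (he : ∀ i, B.w (e i).1 (e i).2 ≠ 0) (he' : ∀ i, B'.w (e' i).1 (e' i).2 ≠ 0) {l k0 : ℕ}
  (hl : 1 ≤ l) (h5 : 5 ≤ l * (k0 + 1)) (hK : 16 ≤ K)

include h

theorem BondC.hK0 (U : Finset (ℤ × ℤ)) (_ : U.Nonempty) (hU : nbhd (rhoK l k0 0) U ⊆ Z) :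
    mpG (pS b σ) (B.K0 P (LinearMap.inl ℝ (Fld ℤ) (Src m)) (bondSrc (Fld ℤ) e) l k0 U) =
      B'.K0 P (LinearMap.inl ℝ (Fld ℤ) (Src m')) (bondSrc (Fld ℤ) e') l k0 (U.image b.τ) := by
  refine K0_bond b P l k0 h.inj h.e_eq h.inn h.vis h.tch h.ok fun f hf => ?_
  exact K0IsoBx900.ball_of_nbhd hU hf

include hl h5 hK


/-- **the convolved activities correspond** -/
theorem flowP_H_eq (n : ℕ) {U : Finset (ℤ × ℤ)} (hne : U.Nonempty)
    (hU : nbhd (rhoH l k0 n) U ⊆ Z) :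
    mpG (pS b σ) ((flowP B P D mk e he l k0).H n U) =
      (flowP B' P D mk' e' he' l k0).H n (U.image b.τ) :=
  HS_eq D b σ h.mk_iff (by norm_num) hl (by omega) (h.exC he he' hl) h.hK0
    (flowP_OK (B := B) (P := P) (D := D) (mk := mk) (e := e) (he := he) hK h5
      (K0_bond_mem B P l k0 e)) n hne hU


/-- **the coefficient of one source corresponds** -/
theorem flowP_coP_eq (n : ℕ) {U : Finset (ℤ × ℤ)} (hne : U.Nonempty)
    (hU : nbhd (rhoH l k0 n) U ⊆ Z) (j : Fin m') :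
    mpG b.push (coP {σ j} ((flowP B P D mk e he l k0).H n U)) =
      coP {j} ((flowP B' P D mk' e' he' l k0).H n (U.image b.τ)) := by
  rw [← flowP_H_eq D h he he' hl h5 hK n hne hU, coP_pS]

end flow

/-! ### domain with `m` sources and insertions / plane with one source at the origin -/

section dompl

open Crest.Agent.R165.SpinDomx432

/-- the chart of the domain at `x` into the plane, `x` is moved to the origin -/
def isoDomPl0 {T : Set (ℤ × ℤ)} (fr : Bool) {n : ℕ} (X : Fin n → ℤ × ℤ) (x : ℤ × ℤ) (r : ℕ)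
    (h : ∀ j, r < fd x (X j)) (hZ : ∀ f ∈ ball x r, cornersIn T f) :
    BgIso (wX (wDom T fr) X) (wPl ℤ) (ball x r) :=
  (isoDomPl fr X x r h hZ).trans (plTrans x Set.univ) fun _ _ => trivial


variable {T : Finset (ℤ × ℤ)} {bc : BoundaryCondition} {n m : ℕ} {X : Fin n → ℤ × ℤ}
  {e : Fin m → Bkgx683.EG ℤ} {i : Fin m} {r : ℕ} (hr : 1 ≤ r) (hX : ∀ j, r < fd (e i).1 (X j))
  (hZ : ∀ f ∈ ball (e i).1 r, cornersIn (T : Set (ℤ × ℤ)) f)
  (hsep : ∀ i', i' ≠ i → r < fd (e i).1 (e i').1) (P : MPar) {mk : Finset (ℤ × ℤ)}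
  (hmk : ∀ f ∈ mk, r < fd (e i).1 f)

include hr hX hZ hsep hmk

/-- **domain with `m` sources and insertions / plane with the source `(0, j)`** -/
theorem bondC_dom : BondC (B := Bg.dom T bc X) (B' := Bg.pl)
    (isoDomPl0 (isF bc) X (e i).1 r hX hZ) P mk ∅ (fun _ : Fin 1 => i) e
    ![((0, 0), (e i).2)] where
  inj := fun a b _ => Subsingleton.elim a b
  e_eq j := by
    obtain rfl : j = 0 := Subsingleton.elim _ _
    show (((0, 0), (e i).2) : Bkgx683.EG ℤ) = (((e i).1.1 - (e i).1.1, (e i).1.2 - (e i).1.2), _)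
    rw [sub_self, sub_self]
  inn _ f hf := by
    rw [mem_ball]
    exact (fd_faE hf).trans hr
  vis i' h := by
    by_contra hne
    have h1 : i' ≠ i := fun h' => hne ⟨0, h'.symm⟩
    have h2 := h _ (fst_mem_faE _)
    rw [mem_ball] at h2
    have := hsep i' h1
    omega
  mk_iff f hf := by
    rw [mem_ball] at hf
    refine ⟨fun h => ?_, fun h => absurd h (Finset.notMem_empty _)⟩
    have := hmk f h
    omega
  tch f hf := ⟨fun _ => trivial, fun _ => cor_of_cornersIn (hZ f hf)⟩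
  ok u _ S hS _ hYf := ⟨fun _ => trivial, fun _ => ok_of_in hS hYf hZ⟩

variable {M K : ℕ} (D : FRD 16 M K) (he : ∀ i, (Bg.dom T bc X).w (e i).1 (e i).2 ≠ 0)
  (he' : ∀ j, (Bg.pl).w ((![((0, 0), (e i).2)] : Fin 1 → Bkgx683.EG ℤ) j).1
    ((![((0, 0), (e i).2)] : Fin 1 → Bkgx683.EG ℤ) j).2 ≠ 0) {l k0 : ℕ}
  (hl : 1 ≤ l) (h5 : 5 ≤ l * (k0 + 1)) (hK : 16 ≤ K)

include hl h5 hK



end dompl

end Crest.Agent.R165.CmpBgx432
end
end

-- ▼ part R165/SrcCstG_484

/-!
# Row 165 (S0250), leaf P11 item 4: the flow with bond sources (helper484)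

* `flowP_SLA`, `flowP_sub`, `flowP_conn`, `flowP_hbig`, `flowP_supp` : supports
* `run_flowP` : the structure `Run` for `flowP`
* `cmpH_bond`, `zeP_bond` : comparison of two backgrounds at one source (`BondC` of 432):
  `CmpH` and equality of the running coefficients
* `cmpH_dom`, `zeP_dom` : domain with `m` sources / plane with one source
-/

set_option autoImplicit false
set_option linter.unusedSectionVars false
set_option linter.unusedVariables false

noncomputable section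

namespace Crest.Agent.R165.SrcCstx484

open Finset
open scoped ENNReal
open Crest.ProbabilityR.IsingModel
open Crest.Agent.R165.FinBx900 Crest.Agent.R165.KStepx892
open Crest.Agent.R165.Gr0x606 Crest.Agent.R165.Gr1x606 Crest.Agent.R165.GeOpsx337
  Crest.Agent.R165.ExpGx337 Crest.Agent.R165.PNormx417 Crest.Agent.R165.KFlowx337
  Crest.Agent.R165.SrcDefx991 Crest.Agent.R165.SrcFinx441 Crest.Agent.R165.GrLocx337
open Crest.Agent.R165.SrcFinBx441 (Nw)
open Crest.Agent.R165.Packx915 (PD Conn)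
open Crest.Agent.R165.Latx683 Crest.Agent.R165.GDefx387 Crest.Agent.R165.GSysx387
  Crest.Agent.R165.BgIsox432 Crest.Agent.R165.CmpBgx432 Crest.Agent.R165.FRDPolyx439
open Crest.Agent.R165.SrcSysx991 Crest.Agent.R165.SrcInsx991 Crest.Agent.R165.Bkgx683
  Crest.Agent.R165.J4Geox126
open Crest.Agent.R165.SrcTailx999 (SLA mem_SLA SLA_mono inG_mem_SLA cvG_mem_SLA vacH_mem_SLA)

variable {m : ℕ} {B : Bg ℤ} {P : MPar} {M K : ℕ} {D : FRD 16 M K} {mk : Finset (ℤ × ℤ)}
  {e : Fin m → Bkgx683.EG ℤ} {he : ∀ i, B.w (e i).1 (e i).2 ≠ 0} {l k0 : ℕ}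

/-! ### supports -/

theorem K0P_SLA (U : Finset (ℤ × ℤ)) : K0P B P e l k0 U ∈ SLA (fun i => faE (e i)) U :=
  mem_SLA.2 (K0_mem_supA B P e l k0 U)

theorem flowP_SLA (n : ℕ) (U : Finset (ℤ × ℤ)) :
    (flowP B P D mk e he l k0).K n U ∈ SLA (fun i => faE (e i)) U :=
  sysP_SLA (B := flow0 B P D mk l k0) (R := srcD B.w e he) (fun U => K0P_SLA U) n U

/-- **(S-1)** for the flow with bond sources -/
theorem flowP_sub (n : ℕ) (U : Finset (ℤ × ℤ)) (I : Finset (Fin m))
    (hI : coP I ((flowP B P D mk e he l k0).K n U) ≠ 0) : ∀ i ∈ I, faE (e i) ⊆ U :=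
  (mem_SLA.1 (flowP_SLA n U)).2 I hI

theorem flowP_GS (n : ℕ) (U : Finset (ℤ × ℤ)) :
    (flowP B P D mk e he l k0).H n U ∈ GS (Fld ℤ) m :=
  GS_cvG _ (mem_SLA.1 (flowP_SLA n U)).1

theorem nearR_pos {l k0 : ℕ} (hl : 4 ≤ l) (n : ℕ) : 1 ≤ nearR l k0 n := by
  have h1 : 16 ≤ 2 ^ l := by
    calc 16 = 2 ^ 4 := by norm_num
      _ ≤ 2 ^ l := Nat.pow_le_pow_right (by norm_num) hl
  have h2 : 16 * rr l k0 n ≤ rr l k0 (n + 1) := by
    rw [rr_succ]; exact Nat.mul_le_mul_right _ h1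
  have h3 := rr_pos l k0 n
  unfold nearR
  omega

/-- **connected supports** -/
theorem flowP_conn (hl : 4 ≤ l) (hR : 2 * P.R + 1 ≤ nearR l k0 0) (n : ℕ) (U : Finset (ℤ × ℤ))
    (hU : (flowP B P D mk e he l k0).K n U ≠ 0) : U.Nonempty ∧ Conn fd (nearR l k0 n) U := by
  refine sysP_conn (B := flow0 B P D mk l k0) (R := srcD B.w e he)
    (fun _ _ h => nearR_mono l k0 h) (fun k => rfl) (fun U hU => ⟨?_, ?_⟩) (fun k U T hT => ?_)
    (fun i k => ?_) n U hU
  · rw [Finset.nonempty_iff_ne_empty]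
    rintro rfl
    exact hU (JVolx950.K0_empty B P _ _ l k0)
  · exact JVolx950.K0_conn B P _ _ hR (fun i => JVolx950.bondSrc_conn e (by omega) i) hU
  · obtain ⟨-, f, -, -, rfl⟩ := mem_bulk_out.1 hT
    exact Packx915.conn_singleton f
  · refine Packx915.conn_of_diam fun x hx y hy => ?_
    exact (JVolx950.faE_diam (e i) x hx y hy).trans (nearR_pos hl k)

/-- **where the constants come from** -/
theorem flowP_H_ne (hl : 4 ≤ l) (hR : 2 * P.R + 1 ≤ nearR l k0 0) (n : ℕ) (U : Finset (ℤ × ℤ))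
    (i : Fin m) (hU : co {i} ((flowP B P D mk e he l k0).H n U) ≠ 0) :
    Conn fd (nearR l k0 n) U ∧ faE (e i) ⊆ U := by
  have h1 := sysP_H_ne (SOK_flowP B P D mk e l k0) (R := srcD B.w e he) (rs := rr l k0)
    (dp := dpS B.w mk l k0 e) (fs := fldUS fun i => faE (e i)) n U {i} hU
  have h2 : (flowP B P D mk e he l k0).K n U ≠ 0 := fun h0 => h1 (by
    rw [show (sysP (flow0 B P D mk l k0) (srcD B.w e he) (rr l k0) (dpS B.w mk l k0 e)
      (fldUS fun i => faE (e i)) (K0P B P e l k0)).K n U = 0 from h0, map_zero])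
  exact ⟨(flowP_conn hl hR n U h2).2, flowP_sub n U {i} h1 i (mem_singleton_self i)⟩

/-- **sizes of the sets with two sources**, the hypothesis `hbig` of `Run.high` -/
theorem flowP_hbig (hl : 4 ≤ l) (hR : 2 * P.R + 1 ≤ nearR l k0 0) {N : ℕ}
    (hfar : ∀ i j, i ≠ j → m * rr l k0 N ≤ fd (e i).1 (e j).1) {I : Finset (Fin m)}
    (hI : 2 ≤ I.card) : ∀ k < N, ∀ U, coP I ((flowP B P D mk e he l k0).K k U) ≠ 0 →
      (m + 1) * (N - k) ≤ size (rr l k0 k) U :=
  sysP_hbig (B := flow0 B P D mk l k0) (R := srcD B.w e he) hl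
    (fun n U h => flowP_conn hl hR n U h) (fun n U I h => flowP_sub n U I h)
    (x := fun i => (e i).1) (fun i => fst_mem_faE (e i)) hfar hI

/-- finite volume, the hypothesis `hs` of `Run.constants`, `Run.high` -/
theorem flowP_supp (hl : 4 ≤ l) (hR : 2 * P.R + 1 ≤ nearR l k0 0) {Λ : Finset (ℤ × ℤ)}
    (h0 : ∀ U, ¬ U ⊆ Λ → K0P B P e l k0 U = 0) (n : ℕ) (U : Finset (ℤ × ℤ)) (hU : U ∉ nes Λ) :
    (flowP B P D mk e he l k0).H n U = 0 := by
  by_contra hne
  have hK : (flowP B P D mk e he l k0).K n U ≠ 0 := fun h => hne (by rw [Sys.H, h, map_zero])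
  refine hU (mem_nes.2 ⟨?_, (flowP_conn hl hR n U hK).1⟩)
  by_contra hs
  exact hK ((flowP B P D mk e he l k0).K_supp h0 n hs)

/-! ### the run -/

/-- **the run of the flow with bond sources** -/
theorem run_flowP (hinj : Function.Injective fun i => faE (e i)) {Pk : ℕ → Prop}
    {g : ℕ → Fld ℤ → ℝ≥0∞} {wt : ℕ → Finset (ℤ × ℤ) → Fld ℤ → ℝ≥0∞} {v : ℕ → ℝ} {Γ : ℝ}
    {ε : ℕ → ℝ} {sz : ℕ → Finset (ℤ × ℤ) → ℕ}
    (gram : ∀ k, Pk k → Gram (slC D B.w l k0 k) (g k))
    (gwt : ∀ k, Pk k → ∀ U x, g k x ≤ wt k U x)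
    (v0 : ∀ k, Pk k → 0 < v k) (Γ1 : 1 ≤ Γ) (e0 : ∀ k, Pk k → 0 ≤ ε k)
    (tot : ∀ k, Pk k → ∑' U, ENNReal.ofReal (Γ ^ sz k U) *
      Nw (wt k U) (fun _ => v k) (ppP B P D mk e he l k0 k U) ≤ ENNReal.ofReal (ε k)) :
    Run (flowP B P D mk e he l k0) Pk (slC D B.w l k0) g wt v Γ ε sz (fun i => faE (e i))
      (zeP B P D mk e he l k0) (fun i => beB B.w (e i)) (ppP B P D mk e he l k0) :=
  run_sysP (SOK_flowP B P D mk e l k0) (R := srcD B.w e he) hinj gram gwt v0 Γ1 e0 tot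

/-! ### comparison of two backgrounds at one source -/

section bond

variable {B' : Bg ℤ} {x : ℤ × ℤ} {Dd : ℕ} {b : BgIso B.w B'.w (ball x Dd)} {mk' : Finset (ℤ × ℤ)}
  {m' : ℕ} {σ : Fin m' → Fin m} {e' : Fin m' → Bkgx683.EG ℤ}
  {he' : ∀ i, B'.w (e' i).1 (e' i).2 ≠ 0}

/-- **comparison of the activities at the source `σ j`** -/
theorem cmpH_bond (h : BondC b P mk mk' σ e e') (hl : 4 ≤ l) (hK : 16 ≤ K)
    (h5 : 5 ≤ l * (k0 + 1)) (hR : 2 * P.R + 1 ≤ nearR l k0 0) (j : Fin m')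
    (hx : (e (σ j)).1 = x) {N : ℕ} (hD : (s2 + 2) * rr l k0 N ≤ Dd) : ∀ n < N,
      CmpH ((flowP B P D mk e he l k0).H n) ((flowP B' P D mk' e' he' l k0).H n) (σ j) j
        (fun i => faE (e i)) (fun i => faE (e' i)) (size (rr l k0 n)) (size (rr l k0 n))
        (N - n) := by
  intro n hn
  subst hx
  refine cmpH_of b j hl hn (fun U hne hU => ?_) hD (fst_mem_faE _) (fun f hf => ?_)
    (h.srcC.sf_eq j) (fun U hU => flowP_H_ne hl hR n U (σ j) hU)
    (fun U hU => flowP_H_ne hl hR n U j hU)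
  · exact flowP_H_eq D h he he' (by omega) h5 hK n hne hU
  · exact (fd_faE hf).trans (rr_pos l k0 N)

/-- **equality of the running coefficients** -/
theorem zeP_bond (h : BondC b P mk mk' σ e e') (hl : 4 ≤ l) (hK : 16 ≤ K)
    (h5 : 5 ≤ l * (k0 + 1)) (j : Fin m') (hx : (e (σ j)).1 = x) (n : ℕ)
    (hD : (s2 + 1) * rr l k0 n ≤ Dd) :
    zeP B P D mk e he l k0 n (σ j) = zeP B' P D mk' e' he' l k0 n j := by
  subst hx
  cases n with
  | zero => rfl
  | succ n =>
    have hs2 : s2 = 128 := rfl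
    have hr0 := rr_pos l k0 n
    have hr1 := rr_pos l k0 (n + 1)
    have hrm : rr l k0 n ≤ rr l k0 (n + 1) := rr_mono l k0 (Nat.le_succ n)
    have hD' : s2 * rr l k0 (n + 1) + rr l k0 (n + 1) ≤ Dd := by
      rw [add_mul, one_mul] at hD; exact hD
    have hD2 : rr l k0 n + 1 ≤ s2 * rr l k0 (n + 1) := by
      rw [hs2]; omega
    have hD3 : rr l k0 n + 1 ≤ Dd := by omega
    set T := faE (e (σ j)) with hT
    have hW : nbhd (rhoK l k0 (n + 1)) T ⊆ ball (e (σ j)).1 Dd := by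
      rintro g ⟨f, hf, hg⟩
      rw [mem_ball]
      have h1 := fd_triangle (e (σ j)).1 f g
      have h2 := fd_faE hf
      have h3 : rhoK l k0 (n + 1) = s2 * rr l k0 (n + 1) := rfl
      omega
    have hne : T.Nonempty := ⟨_, fst_mem_faE _⟩
    have C := h.exC he he' (l := l) (k0 := k0) (by omega) n T hne hW
    have hTe : T.image b.τ = faE (e' j) := (h.srcC.sf_eq j).symm
    show ∑ U ∈ (srcX B.w mk l k0 e he n).inn T,
        muB B.w (e (σ j)) (coP {σ j} ((flowP B P D mk e he l k0).H n U)) =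
      ∑ U ∈ (srcX B'.w mk' l k0 e' he' n).inn (faE (e' j)),
        muB B'.w (e' j) (coP {j} ((flowP B' P D mk' e' he' l k0).H n U))
    rw [← hTe, C.inn_eq T le_rfl hne, sum_image]
    · refine sum_congr rfl fun U hU => ?_
      have hv := C.inn T le_rfl hne U hU
      obtain ⟨hsz, i', hdp, hiU, hiT⟩ := (mem_srcE_inn (r := rr l k0 n) (sf := (srcD B.w e he).sf)
        (hsf := (srcD B.w e he).ne) (dp := dpS B.w mk l k0 e n) (mu := (srcD B.w e he).mu)
        (β := (srcD B.w e he).β)).1 hU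
      have hd : deep B.w mk l k0 n (e (σ j)).1 := hdp _ (by
        show (e (σ j)).1 ∈ (srcD B.w e he).sf i'
        rw [hiT]; exact fst_mem_faE _)
      obtain ⟨p⟩ := hd.1
      have hTU : T ⊆ U := hiT ▸ hiU
      have h6 : (e (σ j)).1 ∈ U := hTU (fst_mem_faE _)
      have hball : ball (e (σ j)).1 (rr l k0 n + 1) ⊆ ball (e (σ j)).1 Dd := ball_mono _ hD3
      have hball' : ball (e (σ j)).1 (rr l k0 n + 1) ⊆
          nbhd (s2 * rr l k0 (n + 1)) {(e (σ j)).1} := by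
        rw [nbhd_single]
        exact ball_mono _ hD2
      have hHm : (flowP B P D mk e he l k0).H n U ∈ grG (fldUS (fun i => faE (e i)) U) :=
        (flowP B P D mk e he l k0).H_mem (flowP_OK (B := B) (P := P) (D := D) (mk := mk) (e := e)
          (he := he) hK h5 (K0_bond_mem B P l k0 e)) n U
      have hcm : coP {σ j} ((flowP B P D mk e he l k0).H n U) ∈
          grG (fldS (ball (e (σ j)).1 (rr l k0 n + 1))) := by
        refine grG_mono (fldS_mono ?_) (coP_mem_fldU hHm)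
        rintro g ⟨u, hu, hg⟩
        rw [mem_ball]
        have h7 := PStepx417.size_le_one_iff.1 hsz _ h6 u hu
        have h8 := fd_triangle (e (σ j)).1 u g
        omega
      rw [← flowP_coP_eq D h he he' (by omega) h5 hK n hv.1 hv.2 j, h.e_eq j]
      exact (muB_nat b (ofPlane p) hball hball' (by omega) hcm).symm
    · intro U hU U' hU' heq
      exact visH_inj b l k0 n U U' (C.inn T le_rfl hne U hU) (C.inn T le_rfl hne U' hU') heq

end bond

/-! ### domain / plane -/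

section dompl

variable {T : Finset (ℤ × ℤ)} {bc : BoundaryCondition} {n : ℕ} {X : Fin n → ℤ × ℤ}
  {i : Fin m} {r : ℕ}
  {heD : ∀ i, (Bg.dom T bc X).w (e i).1 (e i).2 ≠ 0}
  {heP : ∀ j, (Bg.pl).w ((![((0, 0), (e i).2)] : Fin 1 → Bkgx683.EG ℤ) j).1
    ((![((0, 0), (e i).2)] : Fin 1 → Bkgx683.EG ℤ) j).2 ≠ 0}

/-- **domain with `m` sources / plane with the source `((0,0), (e i).2)`** : `CmpH` -/
theorem cmpH_dom (hr : 1 ≤ r) (hX : ∀ j, r < fd (e i).1 (X j))
    (hZ : ∀ f ∈ ball (e i).1 r, cornersIn (T : Set (ℤ × ℤ)) f)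
    (hsep : ∀ i', i' ≠ i → r < fd (e i).1 (e i').1) (hmk : ∀ f ∈ mk, r < fd (e i).1 f)
    (hl : 4 ≤ l) (hK : 16 ≤ K) (h5 : 5 ≤ l * (k0 + 1)) (hR : 2 * P.R + 1 ≤ nearR l k0 0) {N : ℕ}
    (hD : (s2 + 2) * rr l k0 N ≤ r) : ∀ k < N,
      CmpH ((flowP (Bg.dom T bc X) P D mk e heD l k0).H k)
        ((flowP Bg.pl P D ∅ ![((0, 0), (e i).2)] heP l k0).H k) i 0 (fun i => faE (e i))
        (fun j => faE ((![((0, 0), (e i).2)] : Fin 1 → Bkgx683.EG ℤ) j))
        (size (rr l k0 k)) (size (rr l k0 k)) (N - k) :=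
  cmpH_bond (he := heD) (he' := heP) (bondC_dom hr hX hZ hsep P hmk) hl hK h5 hR 0 rfl hD

/-- **domain / plane** : the running coefficients agree -/
theorem zeP_dom (hr : 1 ≤ r) (hX : ∀ j, r < fd (e i).1 (X j))
    (hZ : ∀ f ∈ ball (e i).1 r, cornersIn (T : Set (ℤ × ℤ)) f)
    (hsep : ∀ i', i' ≠ i → r < fd (e i).1 (e i').1) (hmk : ∀ f ∈ mk, r < fd (e i).1 f)
    (hl : 4 ≤ l) (hK : 16 ≤ K) (h5 : 5 ≤ l * (k0 + 1)) (k : ℕ)
    (hD : (s2 + 1) * rr l k0 k ≤ r) :
    zeP (Bg.dom T bc X) P D mk e heD l k0 k i =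
      zeP Bg.pl P D ∅ ![((0, 0), (e i).2)] heP l k0 k 0 :=
  zeP_bond (he := heD) (he' := heP) (bondC_dom hr hX hZ hsep P hmk) hl hK h5 0 rfl k hD

end dompl

end Crest.Agent.R165.SrcCstx484
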