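import Crest.Agent.R165.SrcIns_991

/-!
# Row 165 (S0250), P11: the concrete bond sources, part 2 (helper991)

* `chpCan` : the canonical chart at a face as 336's `Chp`
* `srcAt_of_emb`, `srcAt_of_dp` : 336's `SrcAt` at deep sources
-/

set_option autoImplicit false
set_option linter.unusedSectionVars false

noncomputable section

namespace Crest.Agent.R165.SrcInsx991

open scoped ENNReal
open Crest.Agent.R165.Gr0x606 Crest.Agent.R165.Gr1x606 Crest.Agent.R165.GeOpsx337
open Crest.Agent.R165.KFlowx337 Crest.Agent.R165.GSysx387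
open Crest.Agent.R165.SrcDefx991 Crest.Agent.R165.SrcSysx991
open Crest.Agent.R165.GDefx387 Crest.Agent.R165.PNormx417
open Crest.Agent.R165.Bkgx683 Crest.Agent.R165.J4Geox126 Crest.Agent.R165.PlaneModesx901
open Crest.Agent.R165.BgIsox432 Crest.Agent.R165.SrcLinx336 Crest.Agent.R165.GSysx387
open Crest.Agent.R165.Srcx336 Crest.Agent.R165.WChx336 Crest.Agent.R165.WtIsox898
open Crest.Agent.R165.J1ax606 (pe qe)
open Crest.Agent.R165.Latx683 (xc wPl wDom wX BW HE Fld hp hq yE yN)

variable {G : Type} [CommRing G] [CN G]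

/-- a plane chart as a background isomorphism -/
def plIso {w : BW G} {Z : Set (G × G)} (p : PlaneLike w Z) : BgIso w (wPl ℤ) Z where
  τ := p.τ
  s := p.s
  sq := p.sq
  iso := p.iso
  e1 := p.e1
  e2 := p.e2
  wE := p.wE
  wN := p.wN

variable [CNZ G]

/-- **the canonical chart** at a face as a chart of 336 -/
theorem chpCan {w : BW G} {Z : Set (G × G)} (b : BgIso w (wPl ℤ) Z) {f : G × G} {R : ℕ}
    (h : ball f R ⊆ Z) :
    Chp w (wPl ℤ) (ball f R) (tauC f) (gp w f) (psiC f) (gpZ w f) where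
  ch := LCh_of_bgIso (canIso b h)
  inv _ _ := psiC_tauC f _
  inv_s _ _ := rfl

theorem ball_sub_nbhd (f : G × G) (R : ℕ) : ball f R ⊆ nbhd R {f} :=
  fun g hg => ⟨f, Finset.mem_singleton_self f, hg⟩

/-- the weight of a bond at a plane face -/
theorem abs_w_of_plane {w : BW ℤ} {z : ℤ × ℤ} {R : ℕ} (hR : 1 ≤ R)
    (p : PlaneLike w (nbhd R {z})) (j : Fin 2) : |w z j| = xc := by
  have hxc : (0 : ℝ) ≤ xc := PlaneModesx901.xc_pos.le
  have hs : ∀ f, |p.s f| = 1 := fun f => by
    rcases mul_self_eq_one_iff.1 (p.sq f) with h | h <;> rw [h] <;> simp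
  have hz : z ∈ nbhd R {z} := ⟨z, Finset.mem_singleton_self z, by simp⟩
  have hW : ((z.1 - 1, z.2) : ℤ × ℤ) ∈ nbhd R {z} := by
    refine ⟨z, Finset.mem_singleton_self z, ?_⟩
    have := fd_add_int (G := ℤ) z (-1) 0
    simp only [Int.cast_neg, Int.cast_one, Int.cast_zero, add_zero] at this
    refine le_trans ?_ (this.trans (by simpa using hR))
    rfl
  have hS : ((z.1, z.2 - 1) : ℤ × ℤ) ∈ nbhd R {z} := by
    refine ⟨z, Finset.mem_singleton_self z, ?_⟩
    have := fd_add_int (G := ℤ) z 0 (-1)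
    simp only [Int.cast_neg, Int.cast_one, Int.cast_zero, add_zero] at this
    refine le_trans ?_ (this.trans (by simpa using hR))
    rfl
  fin_cases j
  · have h := p.wN (z.1, z.2 - 1) hS (by simpa using hz)
    have e : yN w (z.1, z.2 - 1) = w z 0 := by simp [yN]
    rw [e] at h
    show |w z 0| = xc
    rw [h, abs_mul, abs_mul, hs, hs, one_mul, one_mul, abs_of_nonneg hxc]
  · have h := p.wE (z.1 - 1, z.2) hW (by simpa using hz)
    have e : yE w (z.1 - 1, z.2) = w z 1 := by simp [yE]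
    rw [e] at h
    show |w z 1| = xc
    rw [h, abs_mul, abs_mul, hs, hs, one_mul, one_mul, abs_of_nonneg hxc]



theorem faE_fst_mem (e : Bkgx683.EG ℤ) : e.1 ∈ faE e := by
  obtain ⟨z, j⟩ := e
  fin_cases j
  · exact Finset.mem_insert_self _ _
  · exact Finset.mem_insert_of_mem (Finset.mem_singleton_self _)


theorem size_faE {r : ℕ} (hr : 1 ≤ r) (e : Bkgx683.EG ℤ) : size r (faE e) ≤ 1 := by
  rw [PStepx417.size_le_one_iff]
  have key : ∀ x ∈ faE e, ∀ y ∈ faE e, fd x y ≤ 1 := by
    obtain ⟨z, j⟩ := e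
    intro x hx y hy
    unfold faE at hx hy
    rw [Finset.mem_insert, Finset.mem_singleton] at hx hy
    have h1 : ∀ u v : ℤ × ℤ, (u.1 - v.1).natAbs ≤ 1 → (u.2 - v.2).natAbs ≤ 1 → fd u v ≤ 1 :=
      fun u v h1 h2 => max_le h1 h2
    fin_cases j
    · rcases hx with rfl | rfl <;> rcases hy with rfl | rfl <;>
        (refine h1 _ _ ?_ ?_ <;> simp [pe, qe])
    · rcases hx with rfl | rfl <;> rcases hy with rfl | rfl <;>
        (refine h1 _ _ ?_ ?_ <;> simp [pe, qe])
  exact fun x hx y hy => (key x hx y hy).trans hr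

end Crest.Agent.R165.SrcInsx991
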