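import Crest.Agent.R165.SrcDomC_697
import Crest.Agent.R165.SrcDomB_697
import Crest.Agent.R165.SrcIns2_991
import Crest.Agent.R165.SpinDom2_432
import Crest.Agent.R165.SrcLim_697
import Crest.Agent.R165.SrcInv2_336

-- ▼ part R165/SrcDomD_697
section

/-!
# Row 165 (S0250), leaf P11: the data at the last good scale from two runs (helper697)

* `finL_of` : `FinL` for a run `D` with sources (steps `k < N`) from its plane comparison runs
  (one plane run for every source), the comparison of the activities and the bounds at scale `N`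
-/

set_option autoImplicit false
set_option linter.unusedSectionVars false
set_option linter.unusedVariables false

noncomputable section

namespace Crest.Agent.R165.SrcDomx697

open Finset Filter Topology
open scoped ENNReal
open Crest.Agent.R165.FinBx900 Crest.Agent.R165.KStepx892
open Crest.Agent.R165.Gr0x606 Crest.Agent.R165.Gr1x606 Crest.Agent.R165.GeOpsx337
  Crest.Agent.R165.ExpGx337 Crest.Agent.R165.PNormx417 Crest.Agent.R165.KFlowx337
  Crest.Agent.R165.SrcFinx441 Crest.Agent.R165.GrLocx337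
open Crest.Agent.R165.SrcDefx991
open Crest.Agent.R165.SrcFinBx441 (bd_tau bd_inG Nw ra_Nw ra_pG ctG_tau)
open Crest.Agent.R165.SrcCmpx441
open Crest.Agent.R165.SrcCstx484

section tail

/-- sums of a sequence bounded by `Cs / v²` -/
theorem tail_bd {v : ℕ → ℝ} {s : ℕ → ℝ} {Cs : ℝ} (hv : ∀ k, 0 < v k)
    (hv1 : ∀ k, 2 * v k ^ 2 ≤ v (k + 1) ^ 2) (hs : ∀ k, v k ^ 2 * |s k| ≤ Cs) (N : ℕ) :
    Summable (fun k => s (k + N)) ∧ v N ^ 2 * |∑' k, s (k + N)| ≤ 2 * Cs := by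
  have hCs : 0 ≤ Cs := (by have := hv 0; positivity : 0 ≤ v 0 ^ 2 * |s 0|).trans (hs 0)
  have hg : ∀ k, 2 ^ k * v N ^ 2 ≤ v (k + N) ^ 2 := by
    intro k
    induction k with
    | zero => simp
    | succ k ih =>
      have h1 := hv1 (k + N)
      have e : k + 1 + N = k + N + 1 := by ring
      rw [e, pow_succ]
      nlinarith
  have hN : 0 < v N ^ 2 := by have := hv N; positivity
  have hb : ∀ k, |s (k + N)| ≤ Cs / v N ^ 2 * (1 / 2) ^ k := by
    intro k
    have h1 := hs (k + N)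
    have h2 := hg k
    have h3 : 0 < (2 : ℝ) ^ k := by positivity
    have e : Cs / v N ^ 2 * (1 / 2) ^ k = Cs / (2 ^ k * v N ^ 2) := by
      rw [one_div, inv_pow]
      field_simp
    rw [e, le_div_iff₀ (by positivity)]
    calc |s (k + N)| * (2 ^ k * v N ^ 2) ≤ |s (k + N)| * v (k + N) ^ 2 :=
          mul_le_mul_of_nonneg_left h2 (abs_nonneg _)
      _ = v (k + N) ^ 2 * |s (k + N)| := mul_comm _ _
      _ ≤ Cs := h1
  have hgeo : Summable fun k : ℕ => Cs / v N ^ 2 * (1 / 2 : ℝ) ^ k :=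
    (summable_geometric_of_lt_one (by norm_num) (by norm_num)).mul_left _
  refine ⟨Summable.of_norm_bounded hgeo hb, ?_⟩
  have h1 : |∑' k, s (k + N)| ≤ Cs / v N ^ 2 * 2 := by
    have h2 := tsum_of_norm_bounded (f := fun k => s (k + N)) (hgeo.hasSum) hb
    rwa [tsum_mul_left, tsum_geometric_two, Real.norm_eq_abs] at h2
  calc v N ^ 2 * |∑' k, s (k + N)| ≤ v N ^ 2 * (Cs / v N ^ 2 * 2) :=
        mul_le_mul_of_nonneg_left h1 hN.le
    _ = 2 * Cs := by
        rw [← mul_assoc, mul_div_cancel₀ _ hN.ne', mul_comm]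

end tail

section abstract

variable {V V' : Type*} [AddCommGroup V] [Module ℝ V] [AddCommGroup V'] [Module ℝ V']
  {m : ℕ} {F F' : Type*} [DecidableEq F] [DecidableEq F']


end abstract

end Crest.Agent.R165.SrcDomx697
end
end

-- ▼ part R165/SrcSl_813
section

/-!
# Row 165 (S0250), leaf P11: the slices at one bond, domain and plane (helper813)

* `EEG_slC_push` : the slices of two isomorphic backgrounds agree on the bond forms
* `EEG_slC_pl` : translation invariance in the plane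
* `sum_EEG_dom`, `c0D_dom` : the constants `c0D` of a background which is the plane near the bond
-/

set_option autoImplicit false
set_option linter.unusedSectionVars false

noncomputable section

namespace Crest.Agent.R165.SrcSlx813

open Finset
open Crest.Agent.R165.Gr0x606 Crest.Agent.R165.Gr1x606 Crest.Agent.R165.GeOpsx337
open Crest.Agent.R165.GDefx387 Crest.Agent.R165.GSysx387 Crest.Agent.R165.FRDPolyx439
open Crest.Agent.R165.BgIsox432 Crest.Agent.R165.CmpBgx432 Crest.Agent.R165.PStepx417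
open Crest.Agent.R165.J4Geox126 (faE)
open Crest.Agent.R165.J1ax606 (pe qe)
open Crest.Agent.R165.Latx683 (BW Fld HE yE yN wPl)
open Crest.Agent.R165.SrcInsx991 Crest.Agent.R165.SrcDomx697
open Crest.Agent.R165.Redx541 (e0)

variable {w w' : BW ℤ} {Z : Set (ℤ × ℤ)}

theorem push_pe (b : BgIso w w' Z) {e : Bkgx683.EG ℤ} (h : ball e.1 1 ⊆ Z) :
    b.push (Finsupp.single (pe e) 1) =
      b.s (pe e).1 • Finsupp.single (pe (b.τ e.1, e.2)) (1 : ℝ) := by
  obtain ⟨z, j⟩ := e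
  rw [b.push_single, Finsupp.smul_single, smul_eq_mul, mul_one, one_mul]
  fin_cases j
  · rfl
  · have h1 := b.tau_sub1 h
    show Finsupp.single (b.τ (z - (1, 0)), (1 : Fin 4)) _ = Finsupp.single (b.τ z - (1, 0), 1) _
    have h2 : (z - (1, 0) : ℤ × ℤ) = (z.1 - 1, z.2) := by ext <;> simp
    have h3 : (b.τ z - (1, 0) : ℤ × ℤ) = ((b.τ z).1 - 1, (b.τ z).2) := by ext <;> simp
    rw [h2, h3, h1]

theorem push_qe (b : BgIso w w' Z) {e : Bkgx683.EG ℤ} (h : ball e.1 1 ⊆ Z) :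
    b.push (Finsupp.single (qe e) 1) =
      b.s (qe e).1 • Finsupp.single (qe (b.τ e.1, e.2)) (1 : ℝ) := by
  obtain ⟨z, j⟩ := e
  rw [b.push_single, Finsupp.smul_single, smul_eq_mul, mul_one, one_mul]
  fin_cases j
  · have h1 := b.tau_sub2 h
    show Finsupp.single (b.τ (z - (0, 1)), (2 : Fin 4)) _ = Finsupp.single (b.τ z - (0, 1), 2) _
    have h2 : (z - (0, 1) : ℤ × ℤ) = (z.1, z.2 - 1) := by ext <;> simp
    have h3 : (b.τ z - (0, 1) : ℤ × ℤ) = ((b.τ z).1, (b.τ z).2 - 1) := by ext <;> simp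
    rw [h2, h3, h1]
  · rfl

/-- the weight of a bond under an isomorphism of backgrounds -/
theorem w_push (b : BgIso w w' Z) {e : Bkgx683.EG ℤ} (h : ball e.1 1 ⊆ Z) :
    w e.1 e.2 = b.s (pe e).1 * b.s (qe e).1 * w' (b.τ e.1) e.2 := by
  obtain ⟨z, j⟩ := e
  have hz : z ∈ Z := h (mem_ball_self z 1)
  fin_cases j
  · have hf : ((z.1, z.2 - 1) : ℤ × ℤ) ∈ Z := h (mem_ball1_sub2 z)
    have e1 : (((z.1, z.2 - 1) : ℤ × ℤ).1, ((z.1, z.2 - 1) : ℤ × ℤ).2 + 1) = z := by ext <;> simp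
    have h1 := b.wN (z.1, z.2 - 1) hf (by rw [e1]; exact hz)
    have h2 := b.tau_sub2 h
    rw [e1] at h1
    have e2 : yN w (z.1, z.2 - 1) = w z 0 := by simp [yN]
    have e3 : yN w' (b.τ (z.1, z.2 - 1)) = w' (b.τ z) 0 := by
      show w' ((b.τ (z.1, z.2 - 1)).1, (b.τ (z.1, z.2 - 1)).2 + 1) 0 = _
      rw [show b.τ (z.1, z.2 - 1) = ((b.τ z).1, (b.τ z).2 - 1) from h2]
      simp
    have e4 : (qe (z, (0 : Fin 2))).1 = ((z.1, z.2 - 1) : ℤ × ℤ) := by
      simp [qe, Prod.ext_iff]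
    rw [e2, e3] at h1
    show w z 0 = b.s z * b.s (qe (z, (0 : Fin 2))).1 * w' (b.τ z) 0
    rw [e4, h1]
    ring
  · have hf : ((z.1 - 1, z.2) : ℤ × ℤ) ∈ Z := h (mem_ball1_sub1 z)
    have e1 : (((z.1 - 1, z.2) : ℤ × ℤ).1 + 1, ((z.1 - 1, z.2) : ℤ × ℤ).2) = z := by ext <;> simp
    have h1 := b.wE (z.1 - 1, z.2) hf (by rw [e1]; exact hz)
    have h2 := b.tau_sub1 h
    rw [e1] at h1
    have e2 : yE w (z.1 - 1, z.2) = w z 1 := by simp [yE]
    have e3 : yE w' (b.τ (z.1 - 1, z.2)) = w' (b.τ z) 1 := by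
      show w' ((b.τ (z.1 - 1, z.2)).1 + 1, (b.τ (z.1 - 1, z.2)).2) 1 = _
      rw [show b.τ (z.1 - 1, z.2) = ((b.τ z).1 - 1, (b.τ z).2) from h2]
      simp
    have e4 : (pe (z, (1 : Fin 2))).1 = ((z.1 - 1, z.2) : ℤ × ℤ) := by
      simp [pe, Prod.ext_iff]
    rw [e2, e3] at h1
    show w z 1 = b.s (pe (z, (1 : Fin 2))).1 * b.s z * w' (b.τ z) 1
    rw [e4, h1]

theorem ball_faE {e : Bkgx683.EG ℤ} {r : ℕ} (hr : 1 ≤ r) (h : nbhd r (faE e) ⊆ Z) :
    ball e.1 1 ⊆ Z := fun f hf => h ⟨e.1, faE_fst_mem e, by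
      have := (mem_ball).1 hf
      exact le_trans this hr⟩

variable {M K : ℕ} (D : FRD 16 M K)

/-- **the slices of isomorphic backgrounds agree on the bond forms** -/
theorem EEG_slC_push (b : BgIso w w' Z) {l k0 n : ℕ} (hl : 1 ≤ l) (hK : 2 ≤ K)
    {e : Bkgx683.EG ℤ} (hU : nbhd (rhoH l k0 n) (faE e) ⊆ Z) :
    EEG (slC D w l k0 n) (beB w e) = EEG (slC D w' l k0 n) (beB w' (b.τ e.1, e.2)) := by
  have hr : 1 ≤ rhoH l k0 n := (rr_pos l k0 (n + 1)).trans_le (le_max_right _ _)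
  have hb := ball_faE hr hU
  have h1 : (pe e).1 ∈ nbhd 1 (faE e) := ⟨(pe e).1, mem_insert_self _ _, by simp⟩
  have h2 : (qe e).1 ∈ nbhd 1 (faE e) :=
    ⟨(qe e).1, mem_insert_of_mem (mem_singleton_self _), by simp⟩
  have hp : Finsupp.single (pe e) (1 : ℝ) ∈ (fldU (faE e) : Submodule ℝ (Fld ℤ)) :=
    single_mem_fldS h1 1
  have hq : Finsupp.single (qe e) (1 : ℝ) ∈ (fldU (faE e) : Submodule ℝ (Fld ℤ)) :=
    single_mem_fldS h2 1
  rw [EEG_beB, EEG_beB, slC_push D b hl hK hU hp hq, push_pe b hb, push_qe b hb]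
  simp only [map_smul, LinearMap.smul_apply, smul_eq_mul]
  rw [uB, w_push b hb, uB]
  have h1 := b.sq (pe e).1
  have h2 := b.sq (qe e).1
  calc _ = (b.s (pe e).1 * b.s (pe e).1) * (b.s (qe e).1 * b.s (qe e).1) *
        (-(2 * w' (b.τ e.1) e.2) * (slC D w' l k0 n).b (Finsupp.single (pe (b.τ e.1, e.2)) 1)
          (Finsupp.single (qe (b.τ e.1, e.2)) 1)) := by ring
    _ = _ := by rw [h1, h2, one_mul, one_mul]

/-- translation invariance in the plane -/
theorem EEG_slC_pl {l : ℕ} (k0 n : ℕ) (hl : 1 ≤ l) (hK : 2 ≤ K) (z z' : ℤ × ℤ) (j : Fin 2) :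
    EEG (slC D (wPl ℤ) l k0 n) (beB (wPl ℤ) (z, j)) =
      EEG (slC D (wPl ℤ) l k0 n) (beB (wPl ℤ) (z', j)) := by
  have h := EEG_slC_push D (SpinDomx432.plTrans (z - z') Set.univ) (k0 := k0) (n := n) hl hK
    (e := (z, j)) (Set.subset_univ _)
  rw [h]
  congr 3
  show ((z.1 - (z - z').1, z.2 - (z - z').2) : ℤ × ℤ) = z'
  ext <;> simp

theorem rhoH_lt {l k0 n N : ℕ} (hl : 1 ≤ l) (hn : n < N) : rhoH l k0 n + 1 ≤ s2 * rr l k0 N := by
  have h1 := rhoH_add_le (l := l) (k0 := k0) (n := n) hl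
  have h2 := rr_pos l k0 n
  have h3 : rhoK l k0 (n + 1) ≤ s2 * rr l k0 N := Nat.mul_le_mul_left _ (rr_mono l k0 hn)
  omega

theorem nbhd_faE_sub (e : Bkgx683.EG ℤ) (r : ℕ) : nbhd r (faE e) ⊆ ball e.1 (r + 1) := by
  rintro f ⟨u, hu, hf⟩
  have h0 : fd e.1 u ≤ 1 := by
    have := (size_le_one_iff (r := 1)).1 (size_faE le_rfl e) e.1 (faE_fst_mem e) u hu
    exact this
  have h1 := fd_triangle e.1 u f
  rw [mem_ball]
  omega

/-- **the sums of the slices at one bond agree** if the background is the plane in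
`ball e.1 (s2 * rr l k0 N)` -/
theorem sum_EEG_dom {l k0 N R : ℕ} (hl : 1 ≤ l) (hK : 2 ≤ K) {e : Bkgx683.EG ℤ}
    (b : BgIso w (wPl ℤ) (ball e.1 R)) (hR : s2 * rr l k0 N ≤ R) (z : ℤ × ℤ) :
    ∀ k < N, EEG (slC D w l k0 k) (beB w e) =
      EEG (slC D (wPl ℤ) l k0 k) (beB (wPl ℤ) (z, e.2)) := by
  intro k hk
  rw [EEG_slC_push D b hl hK (e := e) ((nbhd_faE_sub e _).trans
    (ball_mono _ ((rhoH_lt hl hk).trans hR)))]
  exact EEG_slC_pl D k0 k hl hK _ _ _

/-- **the unperturbed constants of a bond around which the background is the plane** -/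
theorem c0D_dom {l k0 N R : ℕ} (hl : 1 ≤ l) (hK : 2 ≤ K) {e : Bkgx683.EG ℤ}
    (b : BgIso w (wPl ℤ) (ball e.1 R)) (hR : s2 * rr l k0 N ≤ R) {z : ℤ × ℤ}
    (hQ : HasSum (fun k => EEG (slC D (wPl ℤ) l k0 k) (beB (wPl ℤ) (z, e.2))) (e0 - 1)) :
    c0D D w l k0 N e =
      -∑' k, EEG (slC D (wPl ℤ) l k0 (k + N)) (beB (wPl ℤ) (z, e.2)) := by
  have h1 := hQ.summable.sum_add_tsum_nat_add N
  rw [hQ.tsum_eq] at h1
  rw [c0D_eq, sum_congr rfl fun k hk => sum_EEG_dom D hl hK b hR z k (mem_range.1 hk)]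
  linarith




end Crest.Agent.R165.SrcSlx813
end
end

-- ▼ part R165/SrcDomE_697

/-!
# Row 165 (S0250), leaf P11: the leading forms at the last scale (helper697)

* `pG_beta_le` : norm of a leading form at any scale where its source is deep
* `beta_last` : the field `hβ` of `FinL`
-/

set_option autoImplicit false
set_option linter.unusedSectionVars false
set_option linter.unusedVariables false

noncomputable section

namespace Crest.Agent.R165.SrcDomx697

open Finset Filter Topology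
open scoped ENNReal
open Crest.Agent.R165.KStepx892 Crest.Agent.R165.PNormx417 Crest.Agent.R165.FinBx900
open Crest.Agent.R165.Gr0x606 Crest.Agent.R165.Gr1x606 Crest.Agent.R165.GeOpsx337
  Crest.Agent.R165.ExpGx337 Crest.Agent.R165.KFlowx337 Crest.Agent.R165.GrLocx337
open Crest.Agent.R165.SrcDefx991
open Crest.Agent.R165.SrcSysx991
open Crest.Agent.R165.SrcFinx441
open Crest.Agent.R165.SrcCmpx441
open Crest.Agent.R165.SrcFinBx441 (Nw ra_Nw)
open Crest.Agent.R165.Latx683 (BW wDom wX IsCov covS Fld HE)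
open Crest.Agent.R165.GDefx387 Crest.Agent.R165.GSysx387 Crest.Agent.R165.FRDPolyx439
  Crest.Agent.R165.BgIsox432 Crest.Agent.R165.PStepx417
open Crest.Agent.R165.Bkgx683 (MPar mpar Bg cor bondSrc)
open Crest.Agent.R165.Outx683 (DD amp)
open Crest.Agent.R165.PEndx683 (Cst)
open Crest.Agent.R165.J4Geox126 (faE)
open Crest.Agent.R165.Fin0x315 Crest.Agent.R165.Fin2x315 Crest.Agent.R165.Fin4x315
open Crest.Agent.R165.SrcInsx991
open Crest.Agent.R165.SrcInvx336
open Crest.Agent.R165.SrcCstx484 (LD)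
open Crest.Agent.R165.SrcLimx697
open Crest.Agent.R165.W2x812 (BkReg)

/-- **norm of a leading form** -/
theorem pG_beta_le {w : BW ℤ} {R' : ℕ} {z : ℤ × ℤ} {j : Fin 2} {u : ℝ}
    {mu : Ge (Fld ℤ) →ₗ[ℝ] ℝ} {b : Ge (Fld ℤ)} (hd : SrcDat w R' z j u mu b) {C : ℝ}
    (h : BkReg C) {a' : ℝ} {r' : ℕ} (ha' : 0 < a') (hr' : 16 ≤ r')
    (hR : s1 * r' + MM + 1 ≤ R') {U : Finset (ℤ × ℤ)} (hzU : z ∈ U) :
    pG (wU w a' r' U) b ≤ ENNReal.ofReal (|u| * (11 * C ^ 2 * a' ^ 2 / r')) := by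
  obtain ⟨h1, h2, Z, τ, s, τ', s', c, hz, hmu⟩ := hd
  have h3 := bb_small_chart h c ha' hr' hzU
    ((Wtx898.ball_mono z hR).trans hz) j
  have hu : u ≠ 0 := by
    intro h0
    rw [h0, abs_zero] at h2
    linarith
  rw [pG_def, h1, ENNReal.ofReal_mul (abs_nonneg _), pnorm_smul _ _ _ hu]
  refine mul_le_mul' (le_of_eq ?_) h3
  rw [← Real.norm_eq_abs, ofReal_norm]

theorem abs_uB_le {w : BW ℤ} (hw : ∀ z j, |w z j| ≤ 1) (e : Bkgx683.EG ℤ) : |uB w e| ≤ 2 := by
  show |-(2 * w e.1 e.2)| ≤ 2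
  rw [abs_neg, abs_mul, abs_two]
  have := hw e.1 e.2
  linarith


end Crest.Agent.R165.SrcDomx697
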