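import Crest.Agent.R165.SrcCh_485
import Crest.Agent.R165.SRdomA_900
import Crest.Agent.R165.SrcIns_991
import Crest.Agent.R165.JRunE_445

/-!
# Row 165 (S0250): everything about a `C²` domain with bond sources at one mesh (helper485)

* `DomEv c R C1 D b x y j Cg Cv d a` : the domain at mesh `a` is in order, last good scale
  `KK c.p c.k0 d a`, charts at the sources at scale `C1 rr k`
* `domEv` : **`C²` domains**: it holds for all `d ≤ d1`, eventually in `a → 0+`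
-/

set_option autoImplicit false
set_option linter.unusedSectionVars false

noncomputable section

open Filter Topology
open Crest.ProbabilityR.IsingModel
open Crest.Agent.R165.Geo (LatReg bdS)
open Crest.Agent.R165.Latx683 (BW wDom wX wPl ray xc)
open Crest.Agent.R165.GDefx387
open Crest.Agent.R165.GSysx387 (rr rr_succ rr_pos rr_mono nearR nearR_mono deep)
open Crest.Agent.R165.BgIsox432
open Crest.Agent.R165.J4Geox126 (faE Yf mem_Yf)
open Crest.Agent.R165.JRunSx408 (SrcOK eb xb srcOK_C2)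
open Crest.Agent.R165.JRunx445 (Links links_C2)
open Crest.Agent.R165.JVolx950 (Vol)
open Crest.Agent.R165.GeoScx420 (KK KK_tendsto rr_le_of_le_KK ev_pow_le)
open Crest.Agent.R165.SrcChx485
open Crest.Agent.R165.Bkgx683 (Bg)
open Crest.Agent.R165.PEndx683 (Cst)
open Crest.Agent.R165.Red2x541 (Rel)
open Crest.Agent.R165.SRdomAx900 (GoodBg Lam TT_sub_bx TT_coe dom_weight fd_Lam vol_bx)
open Crest.Agent.R165.U5Px422 (TT mem_TT)
open Crest.Agent.R165.J4Defx653 (bx mem_bx)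
open Crest.Agent.R165.SrcInsx991 (dpS)
open Crest.Agent.R165.Topx683 Crest.Agent.R165.Redx541

namespace Crest.Agent.R165.SrcGeox485

variable {T : Set (ℤ × ℤ)} {n m : ℕ} {X : Fin n → ℤ × ℤ} {e : Fin m → EZ} {ρ : ℕ}

/-- the ray signs are nonzero -/
theorem ray_ne (X : Fin n → ℤ × ℤ) (z : ℤ × ℤ) (j : Fin 2) : ray X z j ≠ 0 := by
  unfold ray
  refine Finset.prod_ne_zero_iff.2 fun i _ => ?_
  split_ifs <;> norm_num

/-- **the weight of a source bond is not zero** -/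
theorem srcCh_ne (h : SrcCh T X e ρ) (hρ : 1 ≤ ρ) (b : Bool) (i : Fin m) :
    wX (wDom T b) X (e i).1 (e i).2 ≠ 0 := by
  have hc : cornersIn T (e i).1 := h.corners i (R := 0) hρ (e i).1 (by rw [mem_ball, fd_self])
  obtain ⟨h1, h2, h3, -⟩ := hc
  have hz : (e i).1 + unitVec (e i).2 ∈ T := by
    generalize (e i).2 = k
    fin_cases k
    · have : (e i).1 + unitVec 0 = ((e i).1.1 + 1, (e i).1.2) := by ext <;> simp [unitVec]
      show (e i).1 + unitVec 0 ∈ T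
      rw [this]; exact h2
    · have : (e i).1 + unitVec 1 = ((e i).1.1, (e i).1.2 + 1) := by ext <;> simp [unitVec]
      show (e i).1 + unitVec 1 ∈ T
      rw [this]; exact h3
  have hx : xc ≠ 0 := BgIsox432.xc_ne
  refine mul_ne_zero (ray_ne X _ _) ?_
  unfold wDom
  cases b <;> simp [h1, hz, hx]

/-- the sources are deep -/
theorem srcCh_dp (h : SrcCh T X e ρ) (b : Bool) {l k0 k : ℕ} (hr : s2 * rr l k0 (k + 1) + 2 ≤ ρ)
    (i : Fin m) : dpS (wX (wDom T b) X) ∅ l k0 e k i := fun f hf =>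
  ⟨h.emb b i hr hf, fun z hz => absurd hz (Finset.notMem_empty z)⟩

/-- the faces of a bond based in a box -/
theorem faE_sub_bx {e : EZ} {n N : ℕ} (he : e.1 ∈ bx n) (hN : n + 1 ≤ N) : faE e ⊆ bx N := by
  intro f hf
  have h1 := mem_bx.1 he
  have h2 := fd_faE hf
  have h3 : fd e.1 f = max (e.1.1 - f.1).natAbs (e.1.2 - f.2).natAbs := rfl
  rw [h3] at h2
  rw [mem_bx]
  simp only [abs_le] at h1 ⊢
  omega

/-- a box containing the domain is a volume, also with sources -/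
theorem vol_src {T : Finset (ℤ × ℤ)} {b : BoundaryCondition} {R n N : ℕ} (hT : T ⊆ bx n)
    (hN : n + R + 2 ≤ N) {m : ℕ} {e : Fin m → EZ} (he : ∀ i, (e i).1 ∈ T) :
    Vol T b R (fun k => faE (e k)) (bx N) := by
  have h := vol_bx (b := b) hT hN (κ := Fin 0) (fun k => k.elim0) (fun k => k.elim0)
  exact ⟨h.W, h.nb, h.BB, fun k => faE_sub_bx (hT (he k)) (by omega)⟩

/-- **everything about the domain `D` at mesh `a`** -/
structure DomEv (c : Cst) (R C1 : ℕ) (D : Set ℂ) (b : BoundaryCondition) {n m : ℕ}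
    (x : Fin n → ℂ) (y : Fin m → ℂ) (j : Fin m → Fin 2) (Cg Cv d a : ℝ) : Prop where
  ha : 0 < a
  src : SrcOK D a b x y j
  links : Links D a b (xb a x)
  tt : TT D a = src.fin.toFinset
  good : GoodBg (Bg.dom (TT D a) b (xb a x)).w (Cg * a⁻¹)
  hw : ∀ z k, |(Bg.dom (TT D a) b (xb a x)).w z k| ≤ 1
  he : ∀ i, (Bg.dom (TT D a) b (xb a x)).w (eb a y j i).1 (eb a y j i).2 ≠ 0
  vol : Vol (TT D a) b R (fun k => faE (eb a y j k)) (Lam (Cv - R - 3) R a)
  volc : ∀ f ∈ Lam (Cv - R - 3) R a, (fd ((0, 0) : ℤ × ℤ) f : ℝ) ≤ Cv * a⁻¹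
  N1 : 1 ≤ KK c.p c.k0 d a
  pw : (2 : ℝ) ^ (c.p * c.k0) ≤ d / a
  ch : ∀ k ≤ KK c.p c.k0 d a,
    SrcCh (domainSites D a) (xb a x) (eb a y j) (C1 * rr c.p c.k0 k)

variable {c : Cst} {R C1 : ℕ} {D : Set ℂ} {b : BoundaryCondition} {x : Fin n → ℂ}
  {y : Fin m → ℂ} {j : Fin m → Fin 2} {Cg Cv d a : ℝ}

namespace DomEv

variable (h : DomEv c R C1 D b x y j Cg Cv d a)
include h

/-- the background -/
theorem w_eq : (Bg.dom (TT D a) b (xb a x)).w =
    wX (wDom (domainSites D a) (Bkgx683.isF b)) (xb a x) := by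
  show wX (wDom ((TT D a : Finset (ℤ × ℤ)) : Set (ℤ × ℤ)) (Bkgx683.isF b)) (xb a x) = _
  rw [h.tt, Set.Finite.coe_toFinset]

theorem inv : Fin2x315.Inv (Bg.dom (TT D a) b (xb a x)).w
    (UKerx420.Sof (Bg.dom (TT D a) b (xb a x)).w) := h.links.invB

theorem gap (f : Latx683.Fld ℤ) : l2 (f : Latx683.HE ℤ → ℝ) ≤
    Cg * a⁻¹ * l2 (Latx683.Aop (Bg.dom (TT D a) b (xb a x)).w (f : Latx683.HE ℤ → ℝ)) := h.good.gap f

/-- the sources are deep at all steps -/
theorem dp (hC : s2 + 2 ≤ C1) {k : ℕ} (hk : k < KK c.p c.k0 d a) (i : Fin m) :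
    dpS (Bg.dom (TT D a) b (xb a x)).w ∅ c.p c.k0 (eb a y j) k i := by
  rw [h.w_eq]
  have h1 := rr_pos c.p c.k0 (k + 1)
  refine srcCh_dp (h.ch (k + 1) hk) _ ?_ i
  nlinarith [Nat.mul_le_mul_right (rr c.p c.k0 (k + 1)) hC]

/-- the sources are far from each other, at all scales -/
theorem sep {k K : ℕ} (hk : k ≤ KK c.p c.k0 d a) (hK : K + 1 ≤ C1 * rr c.p c.k0 k)
    {i i' : Fin m} (hi : i ≠ i') : K < fd (eb a y j i).1 (eb a y j i').1 := by
  have h2 := (h.ch k hk).sep i i' hi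
  omega

/-- range of touching at the last step -/
theorem near (hC : 4 ≤ C1) {k : ℕ} (hk : k < KK c.p c.k0 d a) {i i' : Fin m} (hi : i ≠ i') :
    nearR c.p c.k0 k + 2 < fd (eb a y j i).1 (eb a y j i').1 := by
  have h1 := rr_pos c.p c.k0 (k + 1)
  have h2 := (h.ch (k + 1) hk).sep i i' hi
  have h3 := Nat.mul_le_mul_right (rr c.p c.k0 (k + 1)) hC
  unfold nearR
  omega


end DomEv

theorem inj_left {α : Type*} {n m : ℕ} {x : Fin n → α} {y : Fin m → α}
    (h : Function.Injective (Fin.append x y)) : Function.Injective x := fun i k hik => by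
  have := @h (Fin.castAdd m i) (Fin.castAdd m k) (by simpa using hik)
  exact Fin.castAdd_injective n m this

theorem inj_right {α : Type*} {n m : ℕ} {x : Fin n → α} {y : Fin m → α}
    (h : Function.Injective (Fin.append x y)) : Function.Injective y := fun i k hik => by
  have := @h (Fin.natAdd n i) (Fin.natAdd n k) (by simpa using hik)
  exact Fin.natAdd_injective m n this

/-- `goodBg` for any number of insertions -/
theorem goodBg_any (hS : UFinx420.SpinLeaf) {D : Set ℂ} (hD : IsC2JordanDomain D)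
    (b : BoundaryCondition) {n : ℕ} (hR : Rel b n) {x : Fin n → ℂ} (hx : ∀ i, x i ∈ D)
    (hinj : Function.Injective x) : ∃ C : ℝ, 0 < C ∧ ∀ᶠ a in 𝓝[>] (0 : ℝ),
      GoodBg (Bg.dom (TT D a) b (xb a x)).w (C * a⁻¹) := by
  rcases Nat.eq_zero_or_pos n with rfl | hn
  · obtain ⟨C, hC, h⟩ := SRdomAx900.goodBg_ev0 hD b (UFinx420.rel_ne_minus hR)
    refine ⟨C, hC, ?_⟩
    filter_upwards [h] with a ha
    have e : xb a x = fun i : Fin 0 => i.elim0 := by funext i; exact i.elim0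
    rw [e]; exact ha
  · exact SRdomAx900.goodBg_ev hS hD b hn hR ⟨hx, hinj⟩

/-- **`C²` domains: everything is in order, for all `d ≤ d1`, eventually in `a → 0+`** -/
theorem domEv (hS : UFinx420.SpinLeaf) {c : Cst} (hp : 1 ≤ c.p) (R : ℕ) {C1 : ℕ} (hC1 : 1 ≤ C1)
    {D : Set ℂ} (hD : IsC2JordanDomain D) {b : BoundaryCondition} {n m : ℕ} (hR : Rel b n)
    {x : Fin n → ℂ} {y : Fin m → ℂ} (hx : ∀ i, x i ∈ D) (hy : ∀ k, y k ∈ D)
    (hinj : Function.Injective (Fin.append x y)) (j : Fin m → Fin 2) :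
    ∃ Cg > 0, ∃ Cv > 0, ∃ d1 > 0, ∀ d, 0 < d → d ≤ d1 → ∀ᶠ a : ℝ in 𝓝[>] 0,
      DomEv c R C1 D b x y j Cg Cv d a := by
  have hb : Bornology.IsBounded D := bounded_of_C2 hD
  obtain ⟨B0, hB0⟩ := hb.exists_norm_le
  have hB : ∀ z ∈ D, ‖z‖ ≤ max B0 0 := fun z hz => (hB0 z hz).trans (le_max_left _ _)
  have hBn : (0 : ℝ) ≤ max B0 0 := le_max_right _ _
  obtain ⟨Cg, hCg, hg⟩ := goodBg_any hS hD b hR hx (inj_left hinj)
  obtain ⟨d1, hd1, hch⟩ := srcCh_dom hD hx hy hinj j C1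
  refine ⟨Cg, hCg, max B0 0 + R + 3, by positivity, d1, hd1, fun d hd hdd => ?_⟩
  have hsm : ∀ᶠ a : ℝ in 𝓝[>] 0, a ≤ 1 :=
    mem_of_superset (Ioc_mem_nhdsGT one_pos) fun a ha => ha.2
  filter_upwards [srcOK_C2 hR hD x hx y j hy (inj_right hinj), links_C2 b n hR hD x hx, hg,
    hch d hd hdd c.p c.k0, (KK_tendsto hp c.k0 hd).eventually_ge_atTop 1,
    ev_pow_le ((2 : ℝ) ^ (c.p * c.k0)) hd, hsm, self_mem_nhdsWithin] with
    a h1 h2 h3 h4 h5 h6 h7 ha0
  have ha : (0 : ℝ) < a := ha0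
  have htt : TT D a = h1.fin.toFinset := h2.tt
  have e : max B0 0 + (R : ℝ) + 3 - R - 3 = max B0 0 := by ring
  have hw : (Bg.dom (TT D a) b (xb a x)).w =
      wX (wDom (domainSites D a) (Bkgx683.isF b)) (xb a x) := by
    show wX (wDom ((TT D a : Finset (ℤ × ℤ)) : Set (ℤ × ℤ)) (Bkgx683.isF b)) (xb a x) = _
    rw [htt, Set.Finite.coe_toFinset]
  refine ⟨ha, h1, h2, htt, h3, fun z k => ?_, fun i => ?_, ?_, ?_, h5, h6, h4⟩
  · exact Fin3x315.abs_wX_le _ _ _ z k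
  · rw [hw]
    refine srcCh_ne (h4 0 (Nat.zero_le _)) ?_ _ i
    exact Nat.mul_pos hC1 (rr_pos _ _ _)
  · rw [e]
    exact vol_src (TT_sub_bx hB hb ha) le_rfl fun i => (mem_TT hb ha).2 ((h4 0 (Nat.zero_le _)).mem i)
  · intro f hf
    rw [e] at hf
    exact fd_Lam hBn R ha h7 hf

end Crest.Agent.R165.SrcGeox485
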