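import Crest.Agent.R165.SrcDomE_697
import Crest.Agent.R165.SrcGeo_485
import Crest.Agent.R165.EnFine_811
import Crest.Agent.R165.SrcCstG_484
import Crest.Agent.R165.SpDCl_67

-- ▼ part R165/SrcDomF_697
section

/-!
# Row 165 (S0250), leaf P11: energies in domains, the limit of the mesh (helper697)

* `LastOK` : the data `FinL` at the last good scale `N` of one mesh
* `erd_of_last` : **`ERD` from `LastOK`** with error `C σ ^ N`, `N = KK c.p c.k0 d a`
-/

set_option autoImplicit false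
set_option linter.unusedSectionVars false
set_option linter.unusedVariables false

noncomputable section

namespace Crest.Agent.R165.SrcDomx697

open Finset Filter Topology
open scoped ENNReal
open Crest.ProbabilityR.IsingModel
open Crest.Agent.R165.KStepx892
open Crest.Agent.R165.Gr0x606 Crest.Agent.R165.Gr1x606 Crest.Agent.R165.GeOpsx337
  Crest.Agent.R165.ExpGx337 Crest.Agent.R165.KFlowx337
open Crest.Agent.R165.SrcDefx991 (VS Src tau ext0 inG coP)
open Crest.Agent.R165.SrcCmpx441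
open Crest.Agent.R165.Latx683 (BW wDom wX IsCov covS Fld HE)
open Crest.Agent.R165.GDefx387 Crest.Agent.R165.GSysx387 Crest.Agent.R165.FRDPolyx439
  Crest.Agent.R165.BgIsox432 Crest.Agent.R165.PStepx417
open Crest.Agent.R165.Bkgx683 (MPar mpar Bg cor bondSrc)
open Crest.Agent.R165.Outx683 (DD amp PF)
open Crest.Agent.R165.PEndx683 (Cst ForP NearP)
open Crest.Agent.R165.J4Geox126 (faE)
open Crest.Agent.R165.J1ax606 (pe qe)
open Crest.Agent.R165.JRunSx408 (SrcOK eb xb q_run q0_run VolS)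
open Crest.Agent.R165.JRunx445 (Links dom_w)
open Crest.Agent.R165.JVolx950 (Vol)
open Crest.Agent.R165.Fin2x315
open Crest.Agent.R165.SrcInsx991
open Crest.Agent.R165.SrcLimx697
open Crest.Agent.R165.GeoScx420 (KK KK_tendsto)
open Crest.Agent.R165.UKerx420 (wD Cof Sof Sof_spec Sof_skew)
open Crest.Agent.R165.UFinx420 (isF)
open Crest.Agent.R165.Centx541 Crest.Agent.R165.Redx541 Crest.Agent.R165.Symx541
  Crest.Agent.R165.Red2x541 Crest.Agent.R165.Topx683 Crest.Agent.R165.SRx541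

/-- **the data at the last good scale** `N` of the domain `D` at mesh `a`, with source weight
`vS c t N` -/
def LastOK (c : Cst) (J lam : ℝ) (R : ℕ) (V : Finset (ℤ × ℤ) → ℝ) (β z : ℝ) (D : Set ℂ)
    (b : BoundaryCondition) {n m : ℕ} (x : Fin n → ℂ) (y : Fin m → ℂ) (j : Fin m → Fin 2)
    (Ze : ℝ) (em : Fin 2 → ℝ) (t ε M a : ℝ) (N : ℕ) : Prop :=
  ∃ (H : SrcOK D a b x y j) (_ : Links D a b (xb a x)) (Λ : Finset (ℤ × ℤ))
    (_ : Vol H.fin.toFinset b (max R 1) (fun k => faE (eb a y j k)) Λ)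
    (he : ∀ i, (Bg.dom H.fin.toFinset b (xb a x)).w (eb a y j i).1 (eb a y j i).2 ≠ 0)
    (hinv : Inv (Bg.dom H.fin.toFinset b (xb a x)).w
      (Sof (Bg.dom H.fin.toFinset b (xb a x)).w))
    (_ : ∀ i i', i ≠ i' → nearR c.p c.k0 (N - 1) < fd (eb a y j i).1 (eb a y j i').1)
    (ζ : Fin m → ℝ) (g : Fld ℤ → ℝ≥0∞),
    FinL (flowP (Bg.dom H.fin.toFinset b (xb a x)) (mpar J lam R V β z) DD ∅ (eb a y j) he
        c.p c.k0) (near c.p c.k0 N) Λ N (fun i => faE (eb a y j i)) ζ (fun i => 1 - em (j i))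
      (fun i => c0D DD (Bg.dom H.fin.toFinset b (xb a x)).w c.p c.k0 N (eb a y j i))
      (fun i => beB (Bg.dom H.fin.toFinset b (xb a x)).w (eb a y j i))
      (hinv.last DD c.p c.k0 N) g (vS c t N) ε M Ze

/-- **`ERD` from the data at the last good scale** -/
theorem erd_of_last {c : Cst} {J lam : ℝ} {R : ℕ} {V : Finset (ℤ × ℤ) → ℝ} {β z : ℝ}
    {Ze : ℝ} {em : Fin 2 → ℝ} (hJ : J ≠ 0) (hV : VHyp R V) (hz : 0 < 1 + z)
    (h5 : 5 ≤ c.p * (c.k0 + 1)) (hp : 1 ≤ c.p) (hA0 : 1 ≤ c.A0) (hδ : 0 ≤ c.δ)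
    (h : ∀ D : Set ℂ, IsC2JordanDomain D → ∀ (b : BoundaryCondition) (n m : ℕ), 1 ≤ m → Rel b n →
      ∀ (x : Fin n → ℂ) (y : Fin m → ℂ) (j : Fin m → Fin 2),
        (∀ i, x i ∈ D) → (∀ k, y k ∈ D) → Function.Injective (Fin.append x y) →
        ∃ t d σ Cc M : ℝ, 0 < t ∧ 0 < d ∧ 0 ≤ σ ∧ σ < 1 ∧ ∀ᶠ a : ℝ in 𝓝[>] 0,
          LastOK c J lam R V β z D b x y j Ze em t (Cc * σ ^ KK c.p c.k0 d a) M a
            (KK c.p c.k0 d a)) :
    ERD J lam R V β Ze em := by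
  have h0 : 0 < c.A0 := by linarith
  refine ERD_of_run fun D hD b n m hm hR x y j hx hy hinj => ?_
  obtain ⟨t, d, σ, Cc, M, ht, hd, hσ0, hσ1, hev⟩ := h D hD b n m hm hR x y j hx hy hinj
  refine ⟨2 * (m * M), t * (d / 2 ^ c.p), fun a => amp c (KK c.p c.k0 d a),
    fun a => (1 + m * M + m + 2 ^ m) * (Cc * σ ^ KK c.p c.k0 d a), by positivity,
    Eventually.of_forall fun a => amp_one hA0 hδ _, ?_, ?_⟩
  · have h1 := amp_pow_comp (KK_tendsto (k0 := c.k0) hp hd) c hσ0 hσ1 (2 * m)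
      ((1 + m * M + m + 2 ^ m) * Cc)
    refine h1.congr fun a => ?_
    ring
  · filter_upwards [hev, self_mem_nhdsWithin] with a ha ha0
    obtain ⟨H, hX, Λ, hΛ, he, hinv, hsep, ζ, g, hL⟩ := ha
    exact runPack_dom H hX rfl hJ hV hz (fun i => em (j i)) hΛ he h5 _ hinv hsep hL
      (vS_last ht h0 hδ hp ha0 rfl)

end Crest.Agent.R165.SrcDomx697
end
end

-- ▼ part R165/SrcDomG_697
section

/-!
# Row 165 (S0250), leaf P11: the data at the last scale of a domain (helper697)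

* `lastOK_of` : `LastOK` from `DomEv` (485), `FineAt` (811) at the last scale and the bulk norm
-/

set_option autoImplicit false
set_option linter.unusedSectionVars false
set_option linter.unusedVariables false

noncomputable section

namespace Crest.Agent.R165.SrcDomx697

open Finset Filter Topology
open scoped ENNReal
open Crest.ProbabilityR.IsingModel
open Crest.Agent.R165.KStepx892 Crest.Agent.R165.PNormx417 Crest.Agent.R165.FinBx900
open Crest.Agent.R165.Gr0x606 Crest.Agent.R165.Gr1x606 Crest.Agent.R165.GeOpsx337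
  Crest.Agent.R165.ExpGx337 Crest.Agent.R165.KFlowx337
open Crest.Agent.R165.SrcDefx991 (VS Src tau ext0 inG coP wS vacS GS)
open Crest.Agent.R165.SrcCmpx441
open Crest.Agent.R165.SrcFinx441
open Crest.Agent.R165.Latx683 (BW wDom wX IsCov covS Fld HE Aop)
open Crest.Agent.R165.GDefx387 Crest.Agent.R165.GSysx387 Crest.Agent.R165.FRDPolyx439
  Crest.Agent.R165.BgIsox432 Crest.Agent.R165.PStepx417
open Crest.Agent.R165.Bkgx683 (MPar mpar Bg cor bondSrc)
open Crest.Agent.R165.Outx683 (DD amp PF)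
open Crest.Agent.R165.PEndx683 (Cst ForP NearP)
open Crest.Agent.R165.J4Geox126 (faE)
open Crest.Agent.R165.JRunSx408 (SrcOK eb xb q_run q0_run VolS)
open Crest.Agent.R165.JRunx445 (Links dom_w)
open Crest.Agent.R165.JVolx950 (Vol)
open Crest.Agent.R165.Fin2x315 Crest.Agent.R165.Fin4x315
open Crest.Agent.R165.SrcInsx991
open Crest.Agent.R165.SrcLimx697
open Crest.Agent.R165.GeoScx420 (KK KK_tendsto)
open Crest.Agent.R165.SrcGeox485 (DomEv)
open Crest.Agent.R165.EnFinex811 (FineAt)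
open Crest.Agent.R165.SRdomAx900 (Lam)
open Crest.Agent.R165.SrcCstx484 (co flowP_GS)
open Crest.Agent.R165.U5Px422 (TT)
open Crest.Agent.R165.UKerx420 (wD Cof Sof Sof_spec Sof_skew)
open Crest.Agent.R165.Centx541 Crest.Agent.R165.Redx541 Crest.Agent.R165.Symx541
  Crest.Agent.R165.Red2x541 Crest.Agent.R165.Topx683 Crest.Agent.R165.SRx541

theorem gr_zero {M K : ℕ} (Dd : FRD 16 M K) (w : BW ℤ) (m : ℝ) (J : ℕ) :
    FRDRestx439.gr Dd w m J 0 = 0 := by
  unfold FRDRestx439.gr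
  rw [map_zero, Real.sqrt_zero, ENNReal.ofReal_zero]

section

variable {c : Cst} {R C1 : ℕ} {D : Set ℂ} {b : BoundaryCondition} {n m : ℕ} {x : Fin n → ℂ}
  {y : Fin m → ℂ} {j : Fin m → Fin 2} {Cg Cv d a : ℝ}

/-- one mesh, any finite domain `T` of sites equal to the sites of `D` -/
theorem lastOK_aux {J lam β z : ℝ} {V : Finset (ℤ × ℤ) → ℝ} {Ze : ℝ} {em : Fin 2 → ℝ}
    (H : SrcOK D a b x y j) {T : Finset (ℤ × ℤ)} (hT : T = H.fin.toFinset)
    (hX : Links D a b (xb a x)) {Λ : Finset (ℤ × ℤ)}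
    (hΛ : Vol T b (max R 1) (fun k => faE (eb a y j k)) Λ)
    (he : ∀ i, (Bg.dom T b (xb a x)).w (eb a y j i).1 (eb a y j i).2 ≠ 0)
    (hinv : Inv (Bg.dom T b (xb a x)).w (Sof (Bg.dom T b (xb a x)).w))
    (hw : ∀ z k, |(Bg.dom T b (xb a x)).w z k| ≤ 1)
    {κ Rr : ℝ} (hκ : 0 < κ) (hRr : 0 < Rr) (hCg : 0 < Cg) (hCv : 0 ≤ Cv)
    (hgap : ∀ f : Fld ℤ, l2 (f : HE ℤ → ℝ) ≤
      Cg * Rr * l2 (Aop (Bg.dom T b (xb a x)).w (f : HE ℤ → ℝ)))
    {N : ℕ} (hN : 1 ≤ N) (hr : κ * Rr ≤ rr c.p c.k0 N)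
    (hsep : ∀ i i', i ≠ i' → nearR c.p c.k0 (N - 1) < fd (eb a y j i).1 (eb a y j i').1)
    (htch : ∀ i i', i ≠ i' → ¬ touch (near c.p c.k0 N) (faE (eb a y j i)) (faE (eb a y j i')))
    (hΓ : 1 ≤ c.Γ) (hA : ampK DD.C κ Cg ≤ amp c N)
    (hV : ∀ f ∈ Λ, (fd ((0, 0) : ℤ × ℤ) f : ℝ) ≤ Cv * Rr) {t ε M b1 : ℝ} (hb1 : 0 ≤ b1)
    (hF : FineAt c (Bg.dom T b (xb a x)) (mpar J lam R V β z) (eb a y j) he Λ N (amp c N)
      (vS c t N) ε M Ze (fun i => em (j i)))
    (hbulk : NK (Bg.dom T b (xb a x)).w (amp c N)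
      (rr c.p c.k0 N) (ENNReal.ofReal c.Γ) (fun _ => True)
      (fun U => (((flow0 (Bg.dom T b (xb a x)) (mpar J lam R V β z) DD ∅ c.p c.k0).K
        N U : Ge (Fld ℤ)) : Gr (Fld ℤ))) ≤ ENNReal.ofReal b1) :
    LastOK c J lam R V β z D b x y j Ze em t (cntK κ Cv * b1 + ε) M a N := by
  subst hT
  have hg : ∀ (U : Finset (ℤ × ℤ)) (l : Fld ℤ),
      FRDRestx439.gr DD (Bg.dom H.fin.toFinset b (xb a x)).w (Cg * Rr)⁻¹ (lo c.p c.k0 N) l ≤
        wU (Bg.dom H.fin.toFinset b (xb a x)).w (amp c N) (rr c.p c.k0 N) U l := fun U l =>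
    gr_lower DD (by decide) hw hN hκ hRr hCg hr hA U l
  have hΓ' : (1 : ℝ≥0∞) ≤ ENNReal.ofReal c.Γ := by
    rw [← ENNReal.ofReal_one]
    exact ENNReal.ofReal_le_ofReal hΓ
  have hact := act_last (Bg.dom H.fin.toFinset b (xb a x)) (mpar J lam R V β z) DD ∅ (eb a y j)
    he c.p c.k0 N (by decide) hw hN hκ hRr hCg hCv hr hA hΓ' (0, 0) Λ hV
    (ε₁ := cntK κ Cv * b1) (ε₂ := ε) (v := vS c t N) (by positivity) hF.ε0
    (by
      rw [ENNReal.ofReal_mul (by positivity), ENNReal.ofReal_natCast]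
      exact mul_le_mul' le_rfl hbulk) hF.pp
  have hle : ε ≤ cntK κ Cv * b1 + ε := le_add_of_nonneg_left (by positivity)
  refine ⟨H, hX, Λ, hΛ, he, hinv, hsep,
    zeP (Bg.dom H.fin.toFinset b (xb a x)) (mpar J lam R V β z) DD ∅ (eb a y j) he c.p c.k0 N,
    FRDRestx439.gr DD (Bg.dom H.fin.toFinset b (xb a x)).w (Cg * Rr)⁻¹ (lo c.p c.k0 N), ?_⟩
  exact
    { gram := hinv.last_gram DD hw (by positivity) hgap c.p c.k0 N
      g0 := gr_zero DD _ _ _
      v0 := hF.v0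
      ε0 := hF.ε0.trans hle
      M0 := hF.M0
      inj := hF.inj
      ne := fun i => ⟨_, faE_fst_mem (eb a y j i)⟩
      sub := fun i => hΛ.src i
      sep := htch
      vac := rfl
      hGS := fun k U => flowP_GS k U
      act := hact
      hβ := fun i => (pnorm_le_pnorm (fun l => hg _ l) _).trans (hF.hβ i)
      hζ := fun i => (hF.ze i).trans hle
      hZe := hF.hZe
      cst := fun i => (hF.cst i).trans hle
      high := fun I hI => (hF.high I hI).trans hle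
      hc0 := hF.hc0 }

/-- **the data at the last scale** -/
theorem lastOK_of {J lam β z : ℝ} {V : Finset (ℤ × ℤ) → ℝ} {Ze : ℝ} {em : Fin 2 → ℝ}
    (h : DomEv c (max R 1) C1 D b x y j Cg Cv d a) (hCg : 0 < Cg) (hCv : 0 < Cv) (hd : 0 < d)
    (hp : 1 ≤ c.p) (hΓ : 1 ≤ c.Γ) (hC1 : 2 ^ c.p + 4 ≤ C1)
    (hA : ampK DD.C (d / 2 ^ c.p) Cg ≤ amp c (KK c.p c.k0 d a))
    {t ε M b1 : ℝ} (hb1 : 0 ≤ b1)
    (hF : FineAt c (Bg.dom (TT D a) b (xb a x)) (mpar J lam R V β z) (eb a y j) h.he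
      (Lam (Cv - (max R 1 : ℕ) - 3) (max R 1) a) (KK c.p c.k0 d a) (amp c (KK c.p c.k0 d a))
      (vS c t (KK c.p c.k0 d a)) ε M Ze (fun i => em (j i)))
    (hbulk : NK (Bg.dom (TT D a) b (xb a x)).w (amp c (KK c.p c.k0 d a))
      (rr c.p c.k0 (KK c.p c.k0 d a)) (ENNReal.ofReal c.Γ) (fun _ => True)
      (fun U => (((flow0 (Bg.dom (TT D a) b (xb a x)) (mpar J lam R V β z) DD ∅ c.p c.k0).K
        (KK c.p c.k0 d a) U : Ge (Fld ℤ)) : Gr (Fld ℤ))) ≤ ENNReal.ofReal b1) :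
    LastOK c J lam R V β z D b x y j Ze em t (cntK (d / 2 ^ c.p) Cv * b1 + ε) M a
      (KK c.p c.k0 d a) := by
  have ha := h.ha
  have hch := h.ch (KK c.p c.k0 d a) le_rfl
  set N := KK c.p c.k0 d a with hN
  have hN1 : 1 ≤ N := h.N1
  have hr : d / 2 ^ c.p * a⁻¹ ≤ rr c.p c.k0 N := by
    have h3 := GeoScx420.lt_rr_KK (k0 := c.k0) hp d a
    rw [← hN] at h3
    rw [div_mul_eq_mul_div, div_le_iff₀ (by positivity), ← div_eq_mul_inv]
    linarith
  have hrp := rr_pos c.p c.k0 N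
  have hCr : (2 ^ c.p + 4) * rr c.p c.k0 N ≤ C1 * rr c.p c.k0 N := Nat.mul_le_mul_right _ hC1
  have e1 : rr c.p c.k0 (N + 1) = 2 ^ c.p * rr c.p c.k0 N := rr_succ c.p c.k0 N
  have e2 : (2 ^ c.p + 4) * rr c.p c.k0 N = 2 ^ c.p * rr c.p c.k0 N + 4 * rr c.p c.k0 N := by ring
  have e3 : 0 < 2 ^ c.p * rr c.p c.k0 N := by positivity
  refine lastOK_aux h.src h.tt h.links h.vol h.he h.inv h.hw (by positivity) (inv_pos.2 ha) hCg
    hCv.le h.gap hN1 hr (fun i i' hii => ?_) (fun i i' hii => ?_) hΓ hA h.volc hb1 hF hbulk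
  · have h1 := hch.sep i i' hii
    unfold nearR
    rw [Nat.sub_add_cancel hN1]
    omega
  · rintro ⟨f, hf, g, hg, hfg⟩
    have h1 := hch.faces hii hf hg
    have h2 : fd f g ≤ nearR c.p c.k0 N := hfg
    unfold nearR at h2
    omega

end

end Crest.Agent.R165.SrcDomx697
end
end

-- ▼ part R165/SrcDomH_697

/-!
# Row 165 (S0250), leaf P11: `ERD` from the fine phase of the `C²` domains (helper697)

* `FineC2 J R V Ze em` : the fine phase `FineAt` at the last scale `KK c.p c.k0 d a` of every `C²`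
  Jordan domain
* `ev_basicE` : the elementary conditions on the constants
* `enD_of : FineC2 J R V Ze em → ForP J (PF J R V) (ERD ..)`
-/

set_option autoImplicit false
set_option linter.unusedSectionVars false
set_option linter.unusedVariables false

noncomputable section

namespace Crest.Agent.R165.SrcDomx697

open Finset Filter Topology
open scoped ENNReal
open Crest.ProbabilityR.IsingModel
open Crest.Agent.R165.KStepx892 Crest.Agent.R165.PNormx417 Crest.Agent.R165.FinBx900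
open Crest.Agent.R165.Gr0x606 Crest.Agent.R165.Gr1x606 Crest.Agent.R165.GeOpsx337
  Crest.Agent.R165.ExpGx337 Crest.Agent.R165.KFlowx337
open Crest.Agent.R165.SrcDefx991 (VS Src tau ext0 inG coP wS vacS GS)
open Crest.Agent.R165.SrcCmpx441
open Crest.Agent.R165.Latx683 (BW wDom wX IsCov covS Fld HE Aop)
open Crest.Agent.R165.GDefx387 Crest.Agent.R165.GSysx387 Crest.Agent.R165.FRDPolyx439
  Crest.Agent.R165.BgIsox432 Crest.Agent.R165.PStepx417
open Crest.Agent.R165.Bkgx683 (MPar mpar Bg cor bondSrc)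
open Crest.Agent.R165.Outx683 (DD amp PF)
open Crest.Agent.R165.PEndx683 (Cst ForP NearP EvC EvC.mono EvC.and)
open Crest.Agent.R165.J4Geox126 (faE)
open Crest.Agent.R165.JRunSx408 (SrcOK eb xb q_run q0_run VolS)
open Crest.Agent.R165.Fin2x315 Crest.Agent.R165.Fin4x315
open Crest.Agent.R165.SrcInsx991
open Crest.Agent.R165.SrcLimx697
open Crest.Agent.R165.GeoScx420 (KK KK_tendsto)
open Crest.Agent.R165.SrcGeox485 (DomEv domEv)
open Crest.Agent.R165.EnFinex811 (FineAt)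
open Crest.Agent.R165.SRdomAx900 (Lam)
open Crest.Agent.R165.SRdomx900 (Basic ev_basic amp_tendsto)
open Crest.Agent.R165.U5Px422 (TT)
open Crest.Agent.R165.Centx541 Crest.Agent.R165.Redx541 Crest.Agent.R165.Symx541
  Crest.Agent.R165.Red2x541 Crest.Agent.R165.Topx683 Crest.Agent.R165.SRx541

/-- **the fine phase of the `C²` domains**: at the last scale of the domain, remainder, energy factor,
bond means, with error `Ce σ ^ KK` and source weight `vS c t KK` -/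
def FineC2 (J : ℝ) (R : ℕ) (V : Finset (ℤ × ℤ) → ℝ) (Ze : Cst → ℝ → ℝ → ℝ → ℝ)
    (em : Cst → ℝ → ℝ → ℝ → Fin 2 → ℝ) : Prop :=
  ForP J (PF J R V) fun c lam β z => ∀ m : ℕ, 1 ≤ m → ∃ C0 : ℕ, ∀ C1 : ℕ, C0 ≤ C1 →
    ∀ D : Set ℂ, IsC2JordanDomain D → ∀ (b : BoundaryCondition) (n : ℕ), Rel b n →
      ∀ (x : Fin n → ℂ) (y : Fin m → ℂ) (j : Fin m → Fin 2),
        (∀ i, x i ∈ D) → (∀ k, y k ∈ D) → Function.Injective (Fin.append x y) →
        ∀ Cg Cv : ℝ, 0 < Cg → 0 < Cv →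
        ∃ t > 0, ∃ d2 > 0, ∃ σ Ce M : ℝ, 0 ≤ σ ∧ σ < 1 ∧ ∀ d : ℝ, 0 < d → d ≤ d2 →
          ∀ᶠ a : ℝ in 𝓝[>] 0, ∀ h : DomEv c (max R 1) C1 D b x y j Cg Cv d a,
            FineAt c (Bg.dom (TT D a) b (xb a x)) (mpar J lam R V β z) (eb a y j) h.he
              (Lam (Cv - (max R 1 : ℕ) - 3) (max R 1) a) (KK c.p c.k0 d a)
              (amp c (KK c.p c.k0 d a)) (vS c t (KK c.p c.k0 d a))
              (Ce * σ ^ KK c.p c.k0 d a) M (Ze c lam β z) (fun i => em c lam β z (j i))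

/-- the elementary conditions on the constants -/
theorem ev_A0 : EvC fun c => 1 ≤ c.A0 := by
  filter_upwards with p
  filter_upwards with Γ
  filter_upwards with k0
  filter_upwards [eventually_ge_atTop (1 : ℝ)] with A0 hA
  filter_upwards with δ
  exact hA

/-- positivity of `1 + z` -/
theorem one_add_pos {J C lam β z : ℝ} (hn : NearP J C lam β z) (hl : |lam| < 1 / (|C| + 1)) :
    0 < 1 + z := by
  have h3 : |z| < 1 := by
    have h4 : |z| ≤ C * |lam| := by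
      have := hn
      unfold NearP at this
      linarith [abs_nonneg (β - criticalBeta J)]
    have h5 : C * |lam| ≤ |C| * |lam| := mul_le_mul_of_nonneg_right (le_abs_self C) (abs_nonneg _)
    rw [lt_div_iff₀ (by positivity)] at hl
    nlinarith [abs_nonneg lam, abs_nonneg C]
  linarith [(abs_lt.1 h3).1]

theorem inj_x {n m : ℕ} {x : Fin n → ℂ} {y : Fin m → ℂ}
    (h : Function.Injective (Fin.append x y)) : Function.Injective x := by
  intro i i' hi
  have h1 : Fin.append x y (Fin.castAdd m i) = Fin.append x y (Fin.castAdd m i') := by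
    rw [Fin.append_left, Fin.append_left, hi]
  exact Fin.castAdd_injective n m (h h1)

/-- **`ERD` from the fine phase of the `C²` domains** -/
theorem enD_of {J : ℝ} (hJ : 0 < J) {R : ℕ} {V : Finset (ℤ × ℤ) → ℝ} (hV : VHyp R V)
    {Ze : Cst → ℝ → ℝ → ℝ → ℝ} {em : Cst → ℝ → ℝ → ℝ → Fin 2 → ℝ}
    (hF : FineC2 J R V Ze em) :
    ForP J (PF J R V) fun c lam β z => ERD J lam R V β (Ze c lam β z) (em c lam β z) := by
  unfold FineC2 ForP at hF
  unfold ForP
  refine (EvC.and (EvC.and hF (Compx889.dom_bd (SpPLx67.symL (J := J) hV)))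
    (EvC.and (ev_basic R) ev_A0)).mono fun c hc C => ?_
  obtain ⟨⟨hc1, hc2⟩, bas, hA0⟩ := hc
  obtain ⟨ε₁, hε₁, h1⟩ := hc1 C
  obtain ⟨ε₂, hε₂, Mb, hMb, h2⟩ := hc2 C
  refine ⟨min (min ε₁ ε₂) (1 / (|C| + 1)), by positivity, fun lam β z hl hn hp => ?_⟩
  have hl1 : |lam| < ε₁ := hl.trans_le ((min_le_left _ _).trans (min_le_left _ _))
  have hl2 : |lam| < ε₂ := hl.trans_le ((min_le_left _ _).trans (min_le_right _ _))
  have hz := one_add_pos hn (hl.trans_le (min_le_right _ _))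
  have hfin := h1 lam β z hl1 hn hp
  have hdom := h2 lam β z hl2 hn hp
  refine erd_of_last hJ.ne' hV hz bas.h5 bas.p1 hA0 bas.δ0.le
    fun D hD b n m hm hR x y j hx hy hinj => ?_
  obtain ⟨C0, hC0⟩ := hfin m hm
  set C1 : ℕ := max C0 (2 ^ c.p + 4) with hC1
  obtain ⟨Cg, hCg, Cv, hCv, d1, hd1, hev⟩ := domEv SpPLx67.spinLeaf (c := c) bas.p1 (max R 1)
    (C1 := C1) (((by norm_num : 1 ≤ 4).trans (Nat.le_add_left 4 (2 ^ c.p))).trans (le_max_right _ _)) hD hR hx hy hinj j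
  obtain ⟨t, ht, d2, hd2, σ, Ce, M, hσ0, hσ1, hfi⟩ :=
    hC0 C1 (le_max_left _ _) D hD b n hR x y j hx hy hinj Cg Cv hCg hCv
  obtain ⟨d3, hd3, hbd⟩ := hdom D hD b n x hx (inj_x hinj)
  clear hdom hfin hC0 h1 h2 hc1 hc2 hF
  set d : ℝ := min d1 (min d2 d3) with hd
  have hd0 : 0 < d := lt_min hd1 (lt_min hd2 hd3)
  set σ' : ℝ := max σ (1 / 2) with hσ'
  have hs0 : 0 ≤ σ' := hσ0.trans (le_max_left _ _)
  have hs1 : σ' < 1 := max_lt hσ1 (by norm_num)
  refine ⟨t, d, σ', cntK (d / 2 ^ c.p) Cv * (Mb * |lam|) + |Ce|, |M|, ht, hd0, hs0, hs1, ?_⟩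
  have hK := KK_tendsto (k0 := c.k0) bas.p1 hd0
  have hA : ∀ᶠ a : ℝ in 𝓝[>] 0, ampK DD.C (d / 2 ^ c.p) Cg ≤ amp c (KK c.p c.k0 d a) :=
    hK.eventually ((amp_tendsto bas.A0 bas.δ0).eventually_ge_atTop _)
  filter_upwards [hev d hd0 (min_le_left _ _),
    hfi d hd0 ((min_le_right _ _).trans (min_le_left _ _)),
    hbd d hd0 ((min_le_right _ _).trans (min_le_right _ _)), hA] with a h3 h4 h5 h6
  have h7 := h4 h3
  set K := KK c.p c.k0 d a with hKa
  have hσK : σ ^ K ≤ σ' ^ K := pow_le_pow_left₀ hσ0 (le_max_left _ _) K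
  have hsK : 0 ≤ σ' ^ K := pow_nonneg hs0 K
  have hle : Ce * σ ^ K ≤ |Ce| * σ' ^ K :=
    (mul_le_mul_of_nonneg_right (le_abs_self _) (pow_nonneg hσ0 K)).trans
      (mul_le_mul_of_nonneg_left hσK (abs_nonneg _))
  have h8 := h7.mono hle (le_abs_self M)
  have h9 := h5.nk K (le_of_eq (by rw [hKa, GeoScx420.KK, div_eq_mul_inv]))
  have h10 : NK (Bg.dom (TT D a) b (xb a x)).w (amp c K) (rr c.p c.k0 K) (ENNReal.ofReal c.Γ)
      (fun _ => True) (fun U => (((flow0 (Bg.dom (TT D a) b (xb a x)) (mpar J lam R V β z) DD ∅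
        c.p c.k0).K K U : Ge (Fld ℤ)) : Gr (Fld ℤ))) ≤
      ENNReal.ofReal (Mb * |lam| * σ' ^ K) := by
    refine le_trans h9 (ENNReal.ofReal_le_ofReal ?_)
    exact mul_le_mul_of_nonneg_left (pow_le_pow_left₀ (by norm_num) (le_max_right _ _) K)
      (by positivity)
  have h11 := lastOK_of (em := em c lam β z) h3 hCg hCv hd0 bas.p1 (by linarith [bas.Γ4])
    (le_max_right _ _) h6 (by positivity) h8 h10
  have e1 : (cntK (d / 2 ^ c.p) Cv * (Mb * |lam|) + |Ce|) * σ' ^ K =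
      cntK (d / 2 ^ c.p) Cv * (Mb * |lam| * σ' ^ K) + |Ce| * σ' ^ K := by ring
  rw [e1]
  exact h11

end Crest.Agent.R165.SrcDomx697
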