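import Crest.Agent.R165.SrcRec_54
import Crest.Agent.R165.Comp2_889
import Crest.Agent.R165.C0_950
import Crest.Agent.R165.SrcAlg_991
import Crest.Agent.R165.SrcK0_991
import Crest.Agent.R165.StepOK_838
import Crest.Agent.R165.SrcInv2_336
import Crest.Agent.R165.SrcOne_54

-- ▼ part R165/ZeS_915
section

/-!
# Row 165 (S0250), leaf P11 (sources): closing of the joint recursion (helper915)

* `close_rec'`, `close_rec` : constants `M, ε0, T0` for `src_rec_joint`, `κ ≤ 1/8`, rate `1/2`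
* `zeta_real` : real form of the increments of the running coefficients
* `zeta_induct` : induction on the number of steps
* `zeta_limit` : limit, rate, distance to the initial value
-/

set_option autoImplicit false
set_option linter.unusedSectionVars false

noncomputable section

open scoped ENNReal
open Crest.Agent.R165.SrcRecx54 Crest.Agent.R165.SrcStepx54

namespace Crest.Agent.R165.ZeSx915

theorem half_ofReal : (1 / 2 : ℝ≥0∞) = ENNReal.ofReal (1 / 2) := by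
  rw [ENNReal.ofReal_div_of_pos (by norm_num)]
  simp

theorem inv_one_sub_half : (1 - (1 / 2 : ℝ≥0∞))⁻¹ = 2 := by
  have h1 : (1 : ℝ≥0∞) - 1 / 2 = 1 / 2 := by
    rw [one_div]
    exact ENNReal.one_sub_inv_two
  rw [h1, one_div, inv_inv]

/-- **closing of the joint recursion**: for a contraction `κ ≤ 1/8` and a start `e 0 ≤ M0 ε T` the
bound `e k ≤ M ε T 2^{-k}` and `|ζ_k| ≤ 2` hold for small `ε`, `T`; `T0` depends only on `C`; the step may
use `C (b k + T + e k) ≤ 1`. -/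
theorem close_rec2 {C : ℝ≥0∞} (hC : C ≠ ∞) : ∃ T0 : ℝ, 0 < T0 ∧
    ∀ {M0 a : ℝ≥0∞}, M0 ≠ ∞ → a ≠ ∞ → ∃ M : ℝ, 0 < M ∧ ∃ ε0 : ℝ, 0 < ε0 ∧
      ∀ {ι : Type} {b e : ℕ → ℝ≥0∞} {z : ℕ → ι → ℝ} {N : ℕ} {ε T κ : ℝ≥0∞},
        κ ≤ 1 / 8 → ε ≤ ENNReal.ofReal ε0 → T ≤ ENNReal.ofReal T0 → T ≠ 0 →
        (∀ k ≤ N, b k ≤ ε * (1 / 2) ^ k) → e 0 ≤ M0 * ε * T → (∀ i, ‖z 0 i‖ₑ ≤ 3 / 2) →
        (∀ k < N, ∀ i, T * ‖z (k + 1) i - z k i‖ₑ ≤ a * e k) →
        (∀ k < N, e k ≤ 1 → C * (b k + T + e k) ≤ 1 → (∀ i, ‖z k i‖ₑ ≤ 2) →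
          e (k + 1) ≤ (κ + C * (b k + T + e k)) * e k + C * (b k * T)) →
        ∀ k ≤ N, e k ≤ ENNReal.ofReal M * ε * T * (1 / 2) ^ k ∧ ∀ i, ‖z k i‖ₑ ≤ 2 := by
  set C' : ℝ := C.toReal with hC'
  have hC0 : 0 ≤ C' := ENNReal.toReal_nonneg
  refine ⟨1 / (32 * (C' + 1)), by positivity, ?_⟩
  intro M0 a hM0 ha
  set M0' : ℝ := M0.toReal with hM0'
  set a' : ℝ := a.toReal with ha'
  have hM00 : 0 ≤ M0' := ENNReal.toReal_nonneg
  have ha0 : 0 ≤ a' := ENNReal.toReal_nonneg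
  have eC : C = ENNReal.ofReal C' := (ENNReal.ofReal_toReal hC).symm
  have eM0 : M0 = ENNReal.ofReal M0' := (ENNReal.ofReal_toReal hM0).symm
  have ea : a = ENNReal.ofReal a' := (ENNReal.ofReal_toReal ha).symm
  set M : ℝ := M0' + 4 * C' + 1 with hM
  have hMp : 0 < M := by positivity
  have hC1 : (0 : ℝ) < C' + 1 := by positivity
  have ha1 : (0 : ℝ) < a' + 1 := by positivity
  refine ⟨M, hMp, 1 / (32 * (C' + 1) * M * (a' + 1)), by positivity, ?_⟩
  intro ι b e z N ε T κ hκ hε hT hT0 hb h0 hz0 hz hstep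
  have hTt : T ≠ ∞ := ne_top_of_le_ne_top ENNReal.ofReal_ne_top hT
  have hεt : ε ≠ ∞ := ne_top_of_le_ne_top ENNReal.ofReal_ne_top hε
  obtain ⟨T', hT'0, rfl⟩ : ∃ T' : ℝ, 0 ≤ T' ∧ T = ENNReal.ofReal T' :=
    ⟨T.toReal, ENNReal.toReal_nonneg, (ENNReal.ofReal_toReal hTt).symm⟩
  obtain ⟨ε', hε'0, rfl⟩ : ∃ ε' : ℝ, 0 ≤ ε' ∧ ε = ENNReal.ofReal ε' :=
    ⟨ε.toReal, ENNReal.toReal_nonneg, (ENNReal.ofReal_toReal hεt).symm⟩
  have hTp : 0 < T' := by
    rcases hT'0.lt_or_eq with h | h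
    · exact h
    · exact absurd (by rw [← h, ENNReal.ofReal_zero]) hT0
  have hε1 : ε' ≤ 1 / (32 * (C' + 1) * M * (a' + 1)) :=
    (ENNReal.ofReal_le_ofReal_iff (by positivity)).1 hε
  have hT1 : T' ≤ 1 / (32 * (C' + 1)) := (ENNReal.ofReal_le_ofReal_iff (by positivity)).1 hT
  have hT2 : T' ≤ 1 / 32 := hT1.trans (by
    rw [div_le_div_iff₀ (by positivity) (by norm_num)]; nlinarith)
  have hM1 : 1 ≤ M := by rw [hM]; linarith
  have hε2 : C' * ε' * 32 ≤ 1 := by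
    rw [le_div_iff₀ (by positivity)] at hε1
    have h1 : C' * ε' * 32 ≤ ε' * (32 * (C' + 1) * M * (a' + 1)) := by
      have h2 : (1 : ℝ) ≤ M * (a' + 1) := by nlinarith
      have h3 : 0 ≤ 32 * (C' + 1) * ε' := by positivity
      nlinarith
    linarith
  have hε3 : M * a' * ε' * 32 ≤ 1 := by
    rw [le_div_iff₀ (by positivity)] at hε1
    have h1 : M * a' * ε' * 32 ≤ ε' * (32 * (C' + 1) * M * (a' + 1)) := by
      have h3 : 0 ≤ 32 * M * (a' + 1) * ε' := by positivity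
      have h4 : 0 ≤ 32 * M * ε' := by positivity
      nlinarith
    linarith
  have hε4 : M * ε' * 32 ≤ 1 := by
    rw [le_div_iff₀ (by positivity)] at hε1
    have h1 : M * ε' * 32 ≤ ε' * (32 * (C' + 1) * M * (a' + 1)) := by
      have h2 : (1 : ℝ) ≤ (C' + 1) * (a' + 1) := by nlinarith
      have h3 : 0 ≤ 32 * M * ε' := by positivity
      nlinarith
    linarith
  have hT3 : C' * T' * 32 ≤ 1 := by
    rw [le_div_iff₀ (by positivity)] at hT1
    nlinarith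
  have hMεT : M * ε' * T' ≤ 1 := by nlinarith [mul_nonneg hMp.le hε'0]
  refine src_rec_joint (ε := ENNReal.ofReal ε') (t := ENNReal.ofReal T') (T := ENNReal.ofReal T')
    (κ := κ) (C := C) (M := ENNReal.ofReal M) (ρ := 1 / 2) (a := a / ENNReal.ofReal T')
    (by rw [one_div]; exact ENNReal.inv_le_one.2 (by norm_num)) hb ?_ ?_ hz0 ?_ ?_ ?_
  · refine h0.trans ?_
    gcongr
    rw [eM0]
    exact ENNReal.ofReal_le_ofReal (by rw [hM]; linarith)
  · have h18 : (1 / 8 : ℝ≥0∞) = ENNReal.ofReal (1 / 8) := by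
      rw [ENNReal.ofReal_div_of_pos (by norm_num)]; simp
    have e1 : (1 / 8 + C * (ENNReal.ofReal ε' + ENNReal.ofReal T' +
        ENNReal.ofReal M * ENNReal.ofReal ε' * ENNReal.ofReal T')) * ENNReal.ofReal M + C =
        ENNReal.ofReal ((1 / 8 + C' * (ε' + T' + M * ε' * T')) * M + C') := by
      rw [eC, h18, ← ENNReal.ofReal_mul hMp.le, ← ENNReal.ofReal_mul (by positivity),
        ← ENNReal.ofReal_add hε'0 hT'0, ← ENNReal.ofReal_add (by positivity) (by positivity),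
        ← ENNReal.ofReal_mul hC0, ← ENNReal.ofReal_add (by positivity) (by positivity),
        ← ENNReal.ofReal_mul (by positivity), ← ENNReal.ofReal_add (by positivity) hC0]
    have e2 : ENNReal.ofReal M * (1 / 2) = ENNReal.ofReal (M * (1 / 2)) := by
      rw [half_ofReal, ← ENNReal.ofReal_mul hMp.le]
    calc (κ + C * (ENNReal.ofReal ε' + ENNReal.ofReal T' +
          ENNReal.ofReal M * ENNReal.ofReal ε' * ENNReal.ofReal T')) * ENNReal.ofReal M + C
        ≤ (1 / 8 + C * (ENNReal.ofReal ε' + ENNReal.ofReal T' +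
          ENNReal.ofReal M * ENNReal.ofReal ε' * ENNReal.ofReal T')) * ENNReal.ofReal M + C := by
          gcongr
      _ ≤ ENNReal.ofReal M * (1 / 2) := by
          rw [e1, e2]
          apply ENNReal.ofReal_le_ofReal
          have h1 : C' * (ε' + T' + M * ε' * T') ≤ 3 / 32 := by
            have h2 : C' * (M * ε' * T') ≤ 1 / 32 := by
              have h4 : M * ε' * T' ≤ T' := by nlinarith
              nlinarith
            nlinarith
          have h5 : (1 / 8 + C' * (ε' + T' + M * ε' * T')) * M ≤ (1 / 8 + 3 / 32) * M := by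
            gcongr
          have h6 : C' ≤ M / 4 := by rw [hM]; linarith
          linarith
  · rw [inv_one_sub_half]
    have e1 : a / ENNReal.ofReal T' * (ENNReal.ofReal M * ENNReal.ofReal ε' * ENNReal.ofReal T') * 2
        = ENNReal.ofReal (a' * M * ε' * 2) := by
      have h2 : (2 : ℝ≥0∞) = ENNReal.ofReal 2 := by simp
      rw [ea, ← ENNReal.ofReal_div_of_pos hTp, h2, ← ENNReal.ofReal_mul hMp.le,
        ← ENNReal.ofReal_mul (by positivity), ← ENNReal.ofReal_mul (by positivity),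
        ← ENNReal.ofReal_mul (by positivity)]
      congr 1
      field_simp
    rw [e1, half_ofReal]
    apply ENNReal.ofReal_le_ofReal
    nlinarith
  · intro k hk i
    have h1 := hz k hk i
    rw [div_eq_mul_inv, mul_assoc, mul_comm _ (e k), ← mul_assoc, ← div_eq_mul_inv,
      ENNReal.le_div_iff_mul_le (Or.inl hT0) (Or.inl hTt), mul_comm _ (ENNReal.ofReal T')]
    exact h1
  · intro k hk hek hzk
    have h1 : (1 / 2 : ℝ≥0∞) ^ k ≤ 1 := pow_le_one₀ (by simp) (by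
      rw [one_div]; exact ENNReal.inv_le_one.2 (by norm_num))
    have hek2 : e k ≤ ENNReal.ofReal (M * ε' * T') := by
      refine (hek.trans (mul_le_of_le_one_right' h1)).trans (le_of_eq ?_)
      rw [← ENNReal.ofReal_mul hMp.le, ← ENNReal.ofReal_mul (by positivity)]
    refine hstep k hk (hek2.trans ?_) ?_ hzk
    · rw [← ENNReal.ofReal_one]
      exact ENNReal.ofReal_le_ofReal hMεT
    · calc C * (b k + ENNReal.ofReal T' + e k)
          ≤ C * (ENNReal.ofReal ε' + ENNReal.ofReal T' + ENNReal.ofReal (M * ε' * T')) := by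
            gcongr
            exact (hb k hk.le).trans (mul_le_of_le_one_right' h1)
        _ = ENNReal.ofReal (C' * (ε' + T' + M * ε' * T')) := by
            rw [eC, ← ENNReal.ofReal_add hε'0 hT'0, ← ENNReal.ofReal_add (by positivity)
              (by positivity), ← ENNReal.ofReal_mul hC0]
        _ ≤ 1 := by
            rw [← ENNReal.ofReal_one]
            apply ENNReal.ofReal_le_ofReal
            have h4 : M * ε' * T' ≤ T' := by nlinarith
            nlinarith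






end Crest.Agent.R165.ZeSx915
end
end

-- ▼ part R165/BulkHA_915
section

/-!
# Row 165 (S0250): norms of `H` and `A` of a flow at the new scale, weight `3 Γ` (helper915)

* `bulk_HA` : from `Str`, `StepOK` : both norms are at most `CF` times the norm of the activities
-/

set_option autoImplicit false
set_option linter.unusedSectionVars false

open scoped ENNReal

namespace Crest.Agent.R165.BulkHAx915

open Crest.Agent.R165.Gr0x606 Crest.Agent.R165.Gr1x606 Crest.Agent.R165.GeOpsx337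
  Crest.Agent.R165.ExpGx337 Crest.Agent.R165.KFlowx337
open Crest.Agent.R165.Latx683 Crest.Agent.R165.PNormx417
open Crest.Agent.R165.GDefx387 Crest.Agent.R165.Packx915 Crest.Agent.R165.NSumx915
open Crest.Agent.R165.Bridgex915 Crest.Agent.R165.NKDefx915 Crest.Agent.R165.DefRecx915
open Crest.Agent.R165.Compx889

variable {G : Type} [CommRing G] [CN G] [DecidableEq G] [GoodG G]
variable {D : Sys (G × G) (Fld G)} {w : BW G} {a : ℕ → ℝ} {r R : ℕ → ℕ} {Γ : ℝ≥0∞}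
  {ac em : ℕ → Finset (G × G) → Prop} {K : ℕ} {κ₀ CF : ℝ≥0∞}

theorem NK_allP_eq (w : BW G) (a : ℝ) (r : ℕ) (Γ : ℝ≥0∞) (F : Finset (G × G) → Ge (Fld G)) :
    NK w a r Γ allP (fun U => ((F U : Ge (Fld G)) : Gr (Fld G))) =
      NN fd r Γ (fun U => pG (wU w a r U) (F U)) := by
  rw [NK_eq_NN]
  congr 1
  funext U
  rw [act_of (p := allP) trivial]
  rfl

/-- **norms of `H` and `A`** -/
theorem bulk_HA (S : Str D r R Γ ac em K) {k : ℕ} (hk : k < K) {a a' : ℝ}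
    (h : StepOK D w Γ k a a' (r k) (r (k + 1)) (ac k) (em k) κ₀ CF) :
    NN fd (r (k + 1)) (3 * Γ) (fun U => pG (wU w a' (r (k + 1)) U) (D.H k U)) ≤
        CF * NK w a (r k) Γ allP (fun U => ((D.K k U : Ge (Fld G)) : Gr (Fld G))) ∧
      NN fd (r (k + 1)) (3 * Γ) (fun U => pG (wU w a' (r (k + 1)) U) (D.A k U)) ≤
        CF * NK w a (r k) Γ allP (fun U => ((D.K k U : Ge (Fld G)) : Gr (Fld G))) := by
  obtain ⟨κ, _, A, m, N, q, qL, qT, CX, H, hX, hκ, hF⟩ := h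
  have hH := NK_H_le (Γ' := 3 * Γ) (c := 3) D k H (S.r_pos k) (S.r_mono k) S.Γ1 le_rfl
    (S.hac k hk) (S.ne k hk)
  have hA := NK_A_le (Γ' := 3 * Γ) (c := 3) D k H (S.r_pos k) (S.r_mono k) S.Γ1
    (le_mul_of_one_le_left' (by norm_num)) le_rfl (S.hac k hk) (S.ne k hk) S.vac (S.ext k hk) hX
  rw [NK_allP_eq] at hH hA
  have e1 : cF (r k) (r (k + 1)) qL qT CX = (qL + 3 * qT + 2 * (3 * CX)) * nn2 (r k) (r (k + 1)) :=
    rfl
  constructor
  · refine hH.trans ?_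
    rw [← mul_assoc]
    refine mul_le_mul_left (le_trans ?_ hF) _
    rw [e1]
    exact mul_le_mul_left le_self_add _
  · refine hA.trans ?_
    rw [← mul_assoc]
    refine mul_le_mul_left (le_trans ?_ hF) _
    rw [e1]

end Crest.Agent.R165.BulkHAx915
end

-- ▼ part R165/C0S_950
section

/-!
# Row 165 (S0250): the initial norm of the flow with bond sources (helper950)

* `shyp_bond` : 126's `SHyp` for `bondSrc V e` in the norms `pG (wS (W U) v)`, `v i ≤ v0`, distinct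
  bonds: `εs = eS c Γ v0 = 4 Γ² v0² (1 + wc c)`
* `c0_flS_NN` : `NN (pG (wS (wU w a r U) v)) (K 0) ≤ 8 nI (KA θ + εs)`
* `smS`       : the smallness condition for `v0² ≤ ..`
-/

set_option autoImplicit false
set_option linter.unusedSectionVars false

noncomputable section

open Finset Filter Topology
open scoped ENNReal
open Crest.ProbabilityR.IsingModel
open Crest.Agent.R165.Gr0x606 Crest.Agent.R165.Gr1x606 Crest.Agent.R165.GeOpsx337
open Crest.Agent.R165.GDefx387 Crest.Agent.R165.GSysx387 Crest.Agent.R165.KFlowx337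
open Crest.Agent.R165.SrcDefx991 Crest.Agent.R165.TorChartx723
open Crest.Agent.R165.J4K0x126 Crest.Agent.R165.J4Geox126 Crest.Agent.R165.J4K0Bx126
open Crest.Agent.R165.J4Datx126
open Crest.Agent.R165.J4Defx653
open Crest.Agent.R165.J4RRx653
open Crest.Agent.R165.J1ax606 (pe qe)
open Crest.Agent.R165.Latx683 (xc wPl wDom wX BW HE Fld ray)
open Crest.Agent.R165.Bkgx683 Crest.Agent.R165.PEndx683 Crest.Agent.R165.Outx683
open Crest.Agent.R165.C0ax950 Crest.Agent.R165.InitNx682 Crest.Agent.R165.KInitx892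
open Crest.Agent.R165.NSumx915 Crest.Agent.R165.Bridgex915 Crest.Agent.R165.Quad2x897
open Crest.Agent.R165.PNormx417 Crest.Agent.R165.BgIsox432 Crest.Agent.R165.Quadx897
open Crest.Agent.R165.FRDPolyx439

namespace Crest.Agent.R165.C0x950

theorem nmE_ep_single_sub_one {E : Type*} [DecidableEq E] (w : ℝ≥0∞) (e : E) :
    nmE (fun _ => w) (ep (Finsupp.single e 1) - 1 : RR E) ≤ 1 + w := by
  have h1 : (ep (Finsupp.single e 1) - 1 : RR E) = ep (Finsupp.single e 1) + (-1 : ℝ) • (1 : RR E) := by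
    rw [neg_one_smul, sub_eq_add_neg]
  rw [h1]
  refine (nmE_add_le _ _ _).trans ?_
  rw [nmE_ep]
  have h2 : wtS (fun _ => w) (Finsupp.single e (1 : ZMod 2)) = w := by
    unfold wtS
    rw [Finsupp.support_single _ one_ne_zero, Finset.prod_singleton]
  rw [h2, add_comm]
  refine add_le_add ((nmE_smul_le _ _ _).trans ?_) le_rfl
  rw [nmE_one, mul_one, enorm_neg, enorm_one]

/-- the total weight of the sources at a face -/
def eS (c Γ v0 : ℝ) : ℝ := 4 * (Γ ^ 2 * (v0 ^ 2 * (1 + wc c)))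

theorem eS_nonneg {c Γ v0 : ℝ} (hc : 1 ≤ c) : 0 ≤ eS c Γ v0 := by
  have := wc_one hc
  unfold eS
  positivity

section

variable {G : Type} [CommRing G] [DecidableEq G] {V : Type*} [AddCommGroup V] [Module ℝ V]

/-- **126's hypothesis for the bond sources** -/
theorem shyp_bond (B : Bg G) (P : MPar) {m : ℕ} {e : Fin m → Bkgx683.EG G}
    (he : Function.Injective e) {W : Finset (G × G) → V → ℝ≥0∞}
    (hW : ∀ U : Finset (G × G), U.Nonempty → W U 0 = 0) {v : Fin m → ℝ≥0∞} {v0 c Γ : ℝ}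
    (hv : ∀ i, v i ≤ ENNReal.ofReal v0) (hv0 : 0 ≤ v0) (hc : 1 ≤ c) (hΓ : 1 ≤ Γ) :
    SHyp (B.bk P (bondSrc V e)) (fun U a => pG (wS (W U) v) a) c Γ (eS c Γ v0)
      (fun _ => ENNReal.ofReal (v0 ^ 2)) (fun _ => ENNReal.ofReal (1 + wc c)) where
  αt _ := ENNReal.ofReal_ne_top
  φt _ := ENNReal.ofReal_ne_top
  a k U hU := by
    change pG (wS (W U) v) (tau k) ≤ _
    have hne : U.Nonempty := (faE_nonempty (e k)).mono hU
    refine (pG_tau_le (hW U hne) k).trans ?_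
    rw [ENNReal.ofReal_pow hv0]
    exact pow_le_pow_left' (hv k) 2
  F k := by
    change nmE (fun _ => ENNReal.ofReal (wc c)) (ep (Finsupp.single (e k) 1) - 1) ≤ _
    refine (nmE_ep_single_sub_one _ _).trans (le_of_eq ?_)
    rw [ENNReal.ofReal_add (by norm_num) (by linarith [wc_one hc]), ENNReal.ofReal_one]
  card k := by
    change (faE (e k)).card ≤ m0 P.R
    have h1 : (faE (e k)).card ≤ 2 := by unfold faE; exact Finset.card_le_two
    have h2 := two_le_m0 P.R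
    omega
  tot f := by
    have hΓ1 : (1 : ℝ≥0∞) ≤ ENNReal.ofReal Γ := by
      rw [← ENNReal.ofReal_one]; exact ENNReal.ofReal_le_ofReal hΓ
    change ∑ k with f ∈ faE (e k), ENNReal.ofReal Γ ^ (faE (e k)).card *
      (ENNReal.ofReal (v0 ^ 2) * ENNReal.ofReal (1 + wc c)) ≤ _
    have h1 : ∀ k ∈ univ.filter (fun k => f ∈ faE (e k)),
        ENNReal.ofReal Γ ^ (faE (e k)).card *
          (ENNReal.ofReal (v0 ^ 2) * ENNReal.ofReal (1 + wc c)) ≤
        ENNReal.ofReal (Γ ^ 2 * (v0 ^ 2 * (1 + wc c))) := by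
      intro k _
      have h2 : (faE (e k)).card ≤ 2 := by unfold faE; exact Finset.card_le_two
      rw [ENNReal.ofReal_mul (p := Γ ^ 2) (by positivity),
        ENNReal.ofReal_mul (p := v0 ^ 2) (by positivity),
        ENNReal.ofReal_pow (p := Γ) (by linarith)]
      exact mul_le_mul_left (pow_le_pow_right₀ hΓ1 h2) _
    refine (Finset.sum_le_sum h1).trans ?_
    rw [Finset.sum_const, nsmul_eq_mul]
    have h3 : (univ.filter (fun k => f ∈ faE (e k))).card ≤ 4 := by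
      have h4 : ((univ.filter (fun k => f ∈ faE (e k))).image e).card =
          (univ.filter (fun k => f ∈ faE (e k))).card := Finset.card_image_of_injective _ he
      rw [← h4]
      refine (Finset.card_le_card ?_).trans (card_edgF f)
      intro x hx
      obtain ⟨k, hk, rfl⟩ := Finset.mem_image.1 hx
      exact mem_edgF (Finset.mem_filter.1 hk).2
    have h5 : ((univ.filter (fun k => f ∈ faE (e k))).card : ℝ≥0∞) ≤ ENNReal.ofReal 4 := by
      rw [ENNReal.ofReal_ofNat]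
      exact_mod_cast h3
    refine (mul_le_mul_left h5 _).trans (le_of_eq ?_)
    rw [← ENNReal.ofReal_mul (by norm_num)]
    rfl

end

section

variable {G : Type} [CommRing G] [CN G] [GoodG G] [CNZ G] [DecidableEq G]

theorem wU_zero (w : BW G) (a : ℝ) (r : ℕ) {U : Finset (G × G)} (hU : U.Nonempty) :
    wU w a r U 0 = 0 := by
  classical
  obtain ⟨x, hx⟩ := hU
  refine le_antisymm ?_ zero_le
  unfold wU
  refine (iInf₂_le x hx).trans ?_
  have hs : SuppL (ball x (s0 * r)) (0 : Fld G) := fun h hh => absurd rfl hh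
  rw [if_pos hs]
  unfold wt
  have h1 : (⨆ f : {f : HE G → ℝ // nnB w r x f ≤ 1}, ENNReal.ofReal |pair (0 : Fld G) f.1|) = 0 := by
    refine le_antisymm (iSup_le fun f => ?_) zero_le
    have h2 : pair (0 : Fld G) f.1 = 0 := by unfold pair; exact Finsupp.sum_zero_index
    rw [h2, abs_zero, ENNReal.ofReal_zero]
  rw [h1, mul_zero]


end

end Crest.Agent.R165.C0x950

end
end

-- ▼ part R165/SrcK0B_991
section

/-!
# Row 165 (S0250), P11: the norm of the initial remainder with bond sources (helper991)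

* `K00_zero` : at the critical parameters (`t = 0`, `z = 0`) the activities of 126 with bond sources
  are the sources `τ_i β_i`
* `K0P_zero` : the same after the reclustering
* `ppP_zero_eq` : the initial remainder is the source part of the difference of two parameters
* `e0_bound`, `e0_ev` : the total norm of the initial remainder
-/

set_option autoImplicit false
set_option linter.unusedSectionVars false

noncomputable section

namespace Crest.Agent.R165.SrcInsx991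

open scoped ENNReal
open Finset Filter Topology
open Crest.Agent.R165.Gr0x606 Crest.Agent.R165.Gr1x606 Crest.Agent.R165.GeOpsx337
open Crest.Agent.R165.SrcDefx991 Crest.Agent.R165.SrcSysx991
open Crest.Agent.R165.GDefx387 Crest.Agent.R165.KStepx892 Crest.Agent.R165.KInitx892
open Crest.Agent.R165.FRDPolyx439 Crest.Agent.R165.Bkgx683
open Crest.Agent.R165.J4K0x126 Crest.Agent.R165.J4Geox126 Crest.Agent.R165.J4K0Bx126
open Crest.Agent.R165.J4Datx126 Crest.Agent.R165.J4Actx126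
open Crest.Agent.R165.J4Defx653 Crest.Agent.R165.J4RRx653
open Crest.Agent.R165.Latx683 (HE Fld BW)
open Crest.Agent.R165.J1ax606 (pe qe)
open Crest.Agent.R165.SrcStepx54 Crest.Agent.R165.SrcRecx54 Crest.Agent.R165.C0x950
open Crest.Agent.R165.C0ax950 Crest.Agent.R165.PEndx683 Crest.Agent.R165.Outx683
open Crest.Agent.R165.J4K0Nx126 (PLe PSub same_bk sc_sub_le bhyp_bk)
open Crest.Agent.R165.InitNx682 (init_NN_lip nhyp_src normFam_src one_le_cB SS)
open Crest.Agent.R165.NSumx915 (NN bs bs_le_NN)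
open Crest.Agent.R165.PNormx417 Crest.Agent.R165.GSysx387

/-- the critical parameters of range `R` -/
def P0 (R : ℕ) : MPar := ⟨fun _ => 0, R, 0⟩

section zero

variable {m : ℕ} (B : Bg ℤ) (R : ℕ) (e : Fin m → Bkgx683.EG ℤ)

theorem sc_P0 (f : ℤ × ℤ) : B.sc (P0 R) f = 1 := by
  unfold Bg.sc
  split_ifs
  · simp [P0]
  · rfl

theorem kB_zero (S : Finset (ℤ × ℤ)) : J4Pathx653.kB 0 S = 0 := by
  unfold J4Pathx653.kB
  rw [Real.cosh_zero, Real.sinh_zero, sub_self, zero_smul, zero_smul, add_zero]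

/-- **the activities at the critical parameters** -/
theorem K00_zero (hd : ∀ i j, i ≠ j → Disjoint (faE (e i)) (faE (e j))) (U : Finset (ℤ × ℤ)) :
    B.K00 (P0 R) (LinearMap.inl ℝ (Fld ℤ) (Src m)) (bondSrc (Fld ℤ) e) U =
      ∑ i ∈ univ.filter (fun i => faE (e i) = U), tau i * inG m (beB B.w (e i)) := by
  classical
  set Bk := B.bk (P0 R) (bondSrc (Fld ℤ) e) with hBk
  set fr := frG (LinearMap.inl ℝ (Fld ℤ) (Src m)) with hfr
  change (Bk.datU fr U).items.act U = _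
  have hs : ∀ f, Bk.s f = 1 := fun f => sc_P0 B R f
  -- the value of a source
  have hval : ∀ k, tau k * TH (Bk.g fr) (ep (Finsupp.single (e k) 1) - 1) =
      tau k * inG m (beB B.w (e k)) := by
    intro k
    congr 1
    rw [map_sub, TH_ep, TH_one, Finsupp.support_single _ one_ne_zero, Finset.prod_singleton]
    unfold J4K0x126.Bk.g
    rw [hs, hs, mul_one, mul_one, hfr, frG_inl_b, frG_b, beB, map_smul, uB, neg_smul]
    change _ = -((2 * Bk.y (e k)) • inG m (bE (e k)))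
    rw [sub_sub_cancel_left]
    rfl
  -- vanishing items
  have h0 : ∀ i : {i // i ∈ Bk.ixs U}, (¬ ∃ k, i.1 = .inr (.inr (.inr k))) →
      (Bk.datU fr U).a i = 0 ∨ (Bk.datU fr U).Fe i = 0 := by
    rintro ⟨i, hi⟩ hn
    rcases i with p | f | e' | k
    · right
      change em (ez p.1) (J4Pathx653.kB 0 p.2) = 0
      rw [kB_zero, map_zero]
    · left
      change Bk.cI f • fr.I4 f + (Bk.cI f ^ 2 / 2) • (fr.I4 f * fr.I4 f) = 0
      have : Bk.cI f = 0 := by unfold J4K0x126.Bk.cI; rw [hs]; norm_num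
      rw [this]; simp
    · left
      change (Bk.y e' * (Bk.s (pe e').1 * Bk.s (qe e').1 - 1)) • fr.b e' = 0
      rw [hs, hs]; simp
    · exact absurd ⟨k, rfl⟩ hn
  have hw0 : ∀ T : Finset {i // i ∈ Bk.ixs U}, (∃ i ∈ T, ¬ ∃ k, i.1 = .inr (.inr (.inr k))) →
      (Bk.datU fr U).items.w T = 0 := by
    rintro T ⟨i, hi, hn⟩
    rw [Dat.w_eq]
    rcases h0 i hn with h | h
    · rw [Finset.prod_eq_zero hi h, zero_mul]
    · rw [Finset.prod_eq_zero (f := fun i => (Bk.datU fr U).Fe i) hi h, map_zero, mul_zero]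
  unfold Items.act
  -- the label of a source
  have hlab : ∀ i, faE (e i) = U → (.inr (.inr (.inr i)) : Ix ℤ (Fin m)) ∈ Bk.ixs U := by
    intro i hi
    rw [Bk.mem_ixs]
    exact ⟨faE_nonempty (e i), hi.subset⟩
  have hwk : ∀ i (hi : faE (e i) = U),
      (Bk.datU fr U).items.w {⟨.inr (.inr (.inr i)), hlab i hi⟩} =
        tau i * inG m (beB B.w (e i)) := by
    intro i hi
    rw [Dat.w_eq, Finset.prod_singleton, Finset.prod_singleton, ← hval i]
    rfl
  symm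
  refine Finset.sum_of_injOn (fun i : Fin m =>
    if h : (.inr (.inr (.inr i)) : Ix ℤ (Fin m)) ∈ Bk.ixs U then
      ({⟨.inr (.inr (.inr i)), h⟩} : Finset {i // i ∈ Bk.ixs U}) else ∅) ?_ ?_ ?_ ?_
  · intro i hi j hj hij
    rw [Finset.mem_coe, Finset.mem_filter] at hi hj
    simp only [dif_pos (hlab i hi.2), dif_pos (hlab j hj.2), Finset.singleton_inj,
      Subtype.mk.injEq, Sum.inr.injEq] at hij
    exact hij
  · intro i hi
    rw [Finset.mem_coe, Finset.mem_filter] at hi ⊢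
    simp only [dif_pos (hlab i hi.2)]
    refine ⟨Finset.mem_univ _, ⟨⟨_, Finset.mem_singleton_self _⟩, ?_⟩, ?_⟩
    · intro J hJ hne _
      rcases Finset.subset_singleton_iff.1 hJ with h | h
      · exact absurd hne (by rw [h]; exact Finset.not_nonempty_empty)
      · exact h
    · unfold J4Actx126.supp
      rw [Finset.singleton_biUnion]
      exact hi.2
  · intro T hT hn
    rw [Finset.mem_filter] at hT
    obtain ⟨-, hc, hsU⟩ := hT
    by_contra hne
    have hall : ∀ i ∈ T, ∃ k, i.1 = .inr (.inr (.inr k)) := by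
      by_contra hcon
      push Not at hcon
      obtain ⟨i, hi, hk⟩ := hcon
      exact hne (hw0 T ⟨i, hi, fun ⟨k, hk'⟩ => hk k hk'⟩)
    obtain ⟨i0, hi0⟩ := hc.1
    obtain ⟨k0, hk0⟩ := hall i0 hi0
    have hT1 : {i0} = T := by
      refine hc.2 {i0} (Finset.singleton_subset_iff.2 hi0) (Finset.singleton_nonempty _) ?_
      intro a ha b hb hab
      rw [Finset.mem_singleton] at ha
      rw [Finset.mem_sdiff, Finset.mem_singleton] at hb
      subst ha
      obtain ⟨k, hk⟩ := hall b hb.1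
      have hkk : k0 ≠ k := by
        rintro rfl
        exact hb.2 (Subtype.ext (hk.trans hk0.symm))
      refine hab ?_
      change Disjoint (Bk.YI a.1) (Bk.YI b.1)
      rw [hk0, hk]
      exact hd k0 k hkk
    have hU : faE (e k0) = U := by
      rw [← hsU, ← hT1]
      unfold J4Actx126.supp
      rw [Finset.singleton_biUnion]
      change _ = Bk.YI i0.1
      rw [hk0]
      rfl
    apply hn
    refine ⟨k0, ?_, ?_⟩
    · rw [Finset.mem_coe, Finset.mem_filter]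
      exact ⟨Finset.mem_univ _, hU⟩
    · simp only [dif_pos (hlab k0 hU)]
      rw [← hT1]
      congr 1
      exact Subtype.ext hk0.symm
  · intro i hi
    rw [Finset.mem_filter] at hi
    simp only [dif_pos (hlab i hi.2)]
    exact (hwk i hi.2).symm

variable {R e} in
/-- far sources are disjoint -/
theorem disj_of_far {l k0 : ℕ} (hfar : ∀ i j, i ≠ j → ¬ KStepx892.touch (near l k0 0)
    (faE (e i)) (faE (e j))) (i j : Fin m) (hij : i ≠ j) : Disjoint (faE (e i)) (faE (e j)) := by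
  rw [Finset.disjoint_left]
  intro a ha hb
  refine hfar i j hij ⟨a, ha, a, hb, ?_⟩
  show fd a a ≤ _
  rw [fd_self]
  exact Nat.zero_le _

variable {R e} in
theorem inj_of_far {l k0 : ℕ} (hfar : ∀ i j, i ≠ j → ¬ KStepx892.touch (near l k0 0)
    (faE (e i)) (faE (e j))) : Function.Injective fun i => faE (e i) := by
  intro i j hij
  by_contra hne
  have h := disj_of_far hfar i j hne
  obtain ⟨a, ha⟩ := faE_nonempty (e i)
  have hb : a ∈ faE (e j) := by
    have h2 : faE (e i) = faE (e j) := hij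
    rw [← h2]; exact ha
  exact Finset.disjoint_left.1 h ha hb

/-- **the initial activities at the critical parameters** -/
theorem K0P_zero {l k0 : ℕ} (he : ∀ i, B.w (e i).1 (e i).2 ≠ 0)
    (hfar : ∀ i j, i ≠ j → ¬ KStepx892.touch (near l k0 0) (faE (e i)) (faE (e j)))
    {U : Finset (ℤ × ℤ)} (hU : U.Nonempty) :
    K0P B (P0 R) e l k0 U = LEAD (srcD B.w e he) (fun _ => 1) U := by
  classical
  have hinj := inj_of_far hfar
  have hd := disj_of_far hfar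
  have h1 : K0P B (P0 R) e l k0 U =
      K1 (near l k0 0) (B.K00 (P0 R) (LinearMap.inl ℝ (Fld ℤ) (Src m)) (bondSrc (Fld ℤ) e)) U :=
    rfl
  have hlead : IsLead (fun i => faE (e i)) (fun i => (tau i : Ge (VS (Fld ℤ) m)))
      (B.K00 (P0 R) (LinearMap.inl ℝ (Fld ℤ) (Src m)) (bondSrc (Fld ℤ) e)) := by
    intro W hW
    rw [K00_zero B R e hd] at hW ⊢
    obtain ⟨i, hi, -⟩ := Finset.exists_ne_zero_of_sum_ne_zero hW
    rw [Finset.mem_filter] at hi
    refine ⟨i, hi.2.symm, inG m (beB B.w (e i)), ?_⟩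
    have h3 : univ.filter (fun j => faE (e j) = W) = {i} := by
      ext j
      rw [Finset.mem_filter, Finset.mem_singleton]
      exact ⟨fun h => hinj (h.2.trans hi.2.symm), fun h => ⟨Finset.mem_univ _, h ▸ hi.2⟩⟩
    rw [h3, Finset.sum_singleton]
  have hz : IsLead (fun i => faE (e i)) (fun i => (tau i : Ge (VS (Fld ℤ) m)))
      (fun _ : Finset (ℤ × ℤ) => (0 : Ge (VS (Fld ℤ) m))) := IsLead.zero
  rw [h1, K1_eq _ hU, QQ_lead hinj hfar tau_sq hlead hz, add_zero, K00_zero B R e hd, LEAD]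
  refine Finset.sum_congr rfl fun i _ => ?_
  rw [one_smul]
  rfl

variable {P : MPar} {l k0 : ℕ}

/-- the difference of the initial activities and of the initial activities at the critical
parameters -/
def dK0 (P : MPar) (l k0 : ℕ) (U : Finset (ℤ × ℤ)) : Ge (VS (Fld ℤ) m) :=
  K0P B P e l k0 U - K0P B (P0 P.R) e l k0 U

/-- **the initial remainder** -/
theorem ppP_zero_eq {M K : ℕ} (D : FRD 16 M K) (mk : Finset (ℤ × ℤ))
    (he : ∀ i, B.w (e i).1 (e i).2 ≠ 0)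
    (hfar : ∀ i j, i ≠ j → ¬ KStepx892.touch (near l k0 0) (faE (e i)) (faE (e j)))
    {U : Finset (ℤ × ℤ)} (hU : U.Nonempty) :
    ppP B P D mk e he l k0 0 U = dK0 B e P l k0 U - inG m (noS (dK0 B e P l k0 U)) := by
  have h1 : noS (dK0 B e P l k0 U) = B.K0 P LinearMap.id (noSrc ℤ (Ge (Fld ℤ))) l k0 U := by
    rw [dK0, map_sub, K0P_zero B P.R e he hfar hU, noS_LEAD, sub_zero]
    exact noS_K0 B P e l k0 U
  rw [h1, dK0, K0P_zero B P.R e he hfar hU]
  change K0P B P e l k0 U - inG m (B.K0 P LinearMap.id (noSrc ℤ (Ge (Fld ℤ))) l k0 U) -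
    LEAD (srcD B.w e he) (fun _ => 1) U = _
  abel

theorem dK0_GS (U : Finset (ℤ × ℤ)) : dK0 B e P l k0 U ∈ GS (Fld ℤ) m :=
  Subalgebra.sub_mem _ (K0_mem_supA B P e l k0 U).1 (K0_mem_supA B (P0 P.R) e l k0 U).1

/-- the initial remainder lives near the sources -/
theorem ppP_zero_near {M K : ℕ} (D : FRD 16 M K) (mk : Finset (ℤ × ℤ))
    (he : ∀ i, B.w (e i).1 (e i).2 ≠ 0)
    (hfar : ∀ i j, i ≠ j → ¬ KStepx892.touch (near l k0 0) (faE (e i)) (faE (e j)))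
    {U : Finset (ℤ × ℤ)} (hU : U.Nonempty) (h : ppP B P D mk e he l k0 0 U ≠ 0) :
    ∃ i, faE (e i) ⊆ U := by
  have hs : dK0 B e P l k0 U ∈ supA (Fld ℤ) (fun i => faE (e i)) U :=
    Subalgebra.sub_mem _ (K0_mem_supA B P e l k0 U) (K0_mem_supA B (P0 P.R) e l k0 U)
  by_contra hcon
  push Not at hcon
  apply h
  rw [ppP_zero_eq B e D mk he hfar hU]
  have h2 : ∀ I : Finset (Fin m), I ≠ ∅ → coP I (dK0 B e P l k0 U) = 0 := by
    intro I hI
    by_contra hne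
    obtain ⟨i, hi⟩ := Finset.nonempty_iff_ne_empty.2 hI
    exact hcon i (hs.2 I hne i hi)
  rw [sub_eq_zero]
  conv_lhs => rw [GS_eq hs.1]
  rw [Finset.sum_eq_single (∅ : Finset (Fin m))]
  · rw [coP_empty]
    simp [tauP]
  · intro I _ hI
    rw [h2 I hI, map_zero, mul_zero]
  · intro h; exact absurd (Finset.mem_univ _) h

end zero

/-! ### the norm -/

/-- the square of the large weight of the sources -/
def u0c (R : ℕ) (c : Cst) : ℝ := 1 / (8 * (c.Γ ^ 2 * (1 + wc (cc0 c)) * (1 + D0c R c)))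

/-- the large weight of the sources -/
def v0c (R : ℕ) (c : Cst) : ℝ := Real.sqrt (u0c R c)

/-- the size of the parameters -/
def th0c (R : ℕ) (c : Cst) : ℝ := 1 / (2 * ((1 + D0c R c) * (1 + KA R c)))

/-- the constant of the initial remainder -/
def CE0 (R : ℕ) (c : Cst) : ℝ := 42 * nI (r0 c) / (th0c R c * u0c R c)

section consts

variable {R : ℕ} {c : Cst}

theorem wc1 (c : Cst) : 1 ≤ wc (cc0 c) := wc_one (one_le_cB _ _)

theorem u0c_pos (hc : COK c) : 0 < u0c R c := by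
  have h1 := wc1 c
  have h2 := D0c_nonneg R c
  have h3 := hc.Γ
  unfold u0c
  positivity

theorem v0c_nonneg : 0 ≤ v0c R c := Real.sqrt_nonneg _

theorem v0c_sq (hc : COK c) : v0c R c ^ 2 = u0c R c := Real.sq_sqrt (u0c_pos hc).le

theorem th0c_pos (hc : COK c) : 0 < th0c R c := by
  have h1 := KA_nonneg R hc
  have h2 := D0c_nonneg R c
  unfold th0c
  positivity

theorem th0c_le (hc : COK c) : th0c R c ≤ 1 / 2 := by
  have h1 := KA_nonneg R hc
  have h2 := D0c_nonneg R c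
  unfold th0c
  rw [div_le_div_iff₀ (by positivity) (by norm_num)]
  nlinarith [mul_nonneg h1 h2]

theorem CE0_nonneg (hc : COK c) : 0 ≤ CE0 R c := by
  have h1 := u0c_pos (R := R) hc
  have h2 := th0c_pos (R := R) hc
  unfold CE0
  positivity

theorem sm0 (hc : COK c) : D0c R c * (KA R c * th0c R c + eS (cc0 c) c.Γ (v0c R c)) ≤ 1 := by
  have h1 := KA_nonneg R hc
  have h2 := D0c_nonneg R c
  have h3 := wc1 c
  have h4 := hc.Γ
  have e1 : D0c R c * (KA R c * th0c R c) ≤ 1 / 2 := by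
    unfold th0c
    rw [mul_one_div, ← mul_div_assoc, div_le_div_iff₀ (by positivity) (by norm_num)]
    nlinarith [mul_nonneg h1 h2]
  have e2 : D0c R c * eS (cc0 c) c.Γ (v0c R c) ≤ 1 / 2 := by
    unfold eS
    rw [v0c_sq hc]
    unfold u0c
    have h5 : 0 < c.Γ ^ 2 * (1 + wc (cc0 c)) := by positivity
    have h6 : D0c R c * (4 * (c.Γ ^ 2 * (1 / (8 * (c.Γ ^ 2 * (1 + wc (cc0 c)) * (1 + D0c R c))) *
        (1 + wc (cc0 c))))) = D0c R c / (2 * (1 + D0c R c)) := by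
      have : 0 < 1 + D0c R c := by linarith
      field_simp
      ring
    rw [h6, div_le_div_iff₀ (by positivity) (by norm_num)]
    linarith
  rw [mul_add]
  linarith

/-- `SS ≤ 1` -/
theorem SS0_le (hc : COK c) : SS R c.Γ (cc0 c) (th0c R c) (eS (cc0 c) c.Γ (v0c R c)) ≤ 1 := by
  have h1 := sm0 (R := R) hc
  have h2 : 1 ≤ D0c R c := by
    unfold D0c
    have h3 : (4 : ℝ) ≤ m0 R := by exact_mod_cast two_le_m0 R
    have h4 : (0 : ℝ) ≤ mI (r0 c) (nearR c.p c.k0 0) * (24 * nI (r0 c)) := by positivity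
    linarith
  have h5 : 0 ≤ KA R c * th0c R c + eS (cc0 c) c.Γ (v0c R c) := by
    have := KA_nonneg R hc
    have := th0c_pos (R := R) hc
    have := eS_nonneg (c := cc0 c) (Γ := c.Γ) (v0 := v0c R c) (one_le_cB _ _)
    positivity
  unfold SS
  change KA R c * th0c R c + eS (cc0 c) c.Γ (v0c R c) ≤ 1
  calc KA R c * th0c R c + eS (cc0 c) c.Γ (v0c R c) =
        1 * (KA R c * th0c R c + eS (cc0 c) c.Γ (v0c R c)) := (one_mul _).symm
    _ ≤ D0c R c * (KA R c * th0c R c + eS (cc0 c) c.Γ (v0c R c)) :=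
        mul_le_mul_of_nonneg_right h2 h5
    _ ≤ 1 := h1

end consts

section bound

variable {m : ℕ} {B : Bg ℤ} {P : MPar} {e : Fin m → Bkgx683.EG ℤ} {c : Cst} {θ : ℝ}

theorem ple_P0 {R : ℕ} {x : ℝ} (h0 : 0 ≤ x) (h1 : x ≤ 1 / 2) : PLe (P0 R) x :=
  ⟨h0, h1, by change |(0 : ℝ)| ≤ x; rwa [abs_zero],
    fun _ _ _ => by change |(0 : ℝ)| ≤ x; rwa [abs_zero]⟩

theorem ple_mono {P : MPar} {x y : ℝ} (h : PLe P x) (hxy : x ≤ y) (hy : y ≤ 1 / 2) : PLe P y :=
  ⟨h.θ0.trans hxy, hy, h.z.trans hxy, fun S hS hev => (h.t S hS hev).trans hxy⟩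

/-- **the difference of the sourced initial activities in the norm with the large source weight** -/
theorem dK0_NN (hc : COK c) (hw : W1 B.w) (w : BW ℤ) (he : Function.Injective e)
    (hP : PLe P θ) (hθ : θ ≤ th0c P.R c) :
    NN fd (r0 c) (ENNReal.ofReal c.Γ)
      (fun U => pG (wS (wU w c.A0 (r0 c) U) (fun _ => ENNReal.ofReal (v0c P.R c)))
        (dK0 B e P c.p c.k0 U)) ≤
      ENNReal.ofReal (42 * nI (r0 c) * (θ / th0c P.R c)) := by
  have h1 := th0c_pos (R := P.R) hc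
  have h2 := th0c_le (R := P.R) hc
  have hP1 : PLe P (th0c P.R c) := ple_mono hP hθ h2
  have hP0 : PLe (P0 P.R) (th0c P.R c) := ple_P0 h1.le h2
  have hsub : PSub P (P0 P.R) θ := by
    refine ⟨rfl, ?_, fun S hS hev => ?_⟩
    · change |P.z - 0| ≤ θ; rw [sub_zero]; exact hP.z
    · change |P.t S - 0| ≤ θ; rw [sub_zero]; exact hP.t S hS hev
  have key := init_NN_lip (B := B.bk P (bondSrc (Fld ℤ) e))
    (B' := B.bk (P0 P.R) (bondSrc (Fld ℤ) e)) (R' := nearR c.p c.k0 0)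
    (nhyp_src w hc.A (r0 c) m fun _ => ENNReal.ofReal (v0c P.R c))
    (normFam_src w c.A0 (r0 c) m fun _ => ENNReal.ofReal (v0c P.R c))
    (bhyp_bk B hw hP1 _) (bhyp_bk B hw hP0 _)
    (shyp_bond B P he (fun U hU => wU_zero w c.A0 (r0 c) hU) (fun _ => le_rfl) v0c_nonneg
      (one_le_cB _ _) (by linarith [hc.Γ]))
    (R₀ := 1) (fun k => J4K0Lx126.conn_faE (e k))
    (num (R := P.R) hc h1.le (eS_nonneg (one_le_cB _ _)) (sm0 hc))
    (same_bk B (P := P) (P' := P0 P.R) rfl _) (sc_sub_le B hP1 hP0 hsub) hsub.t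
    (η := θ / th0c P.R c) (by rw [div_mul_cancel₀ _ h1.ne']) (by have := hP.θ0; positivity)
  refine le_trans key (ENNReal.ofReal_le_ofReal ?_)
  have h3 : 0 ≤ 42 * (nI (r0 c) : ℝ) * (θ / th0c P.R c) := by have := hP.θ0; positivity
  calc _ ≤ 42 * (nI (r0 c) : ℝ) * (θ / th0c P.R c) * 1 :=
        mul_le_mul_of_nonneg_left (SS0_le hc) h3
    _ = _ := mul_one _

/-- **THE TOTAL NORM OF THE INITIAL REMAINDER** -/
theorem e0_bound {M K : ℕ} (D : FRD 16 M K) (mk : Finset (ℤ × ℤ)) (hc : COK c) (hw : W1 B.w)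
    (w : BW ℤ) (he : ∀ i, B.w (e i).1 (e i).2 ≠ 0)
    (hfar : ∀ i j, i ≠ j → ¬ KStepx892.touch (near c.p c.k0 0) (faE (e i)) (faE (e j)))
    (hP : PLe P θ) (hθ : θ ≤ th0c P.R c) {v : Fin m → ℝ≥0∞} {t : ℝ≥0∞} (hv0 : ∀ i, v i ≠ 0)
    (hv : ∀ i, v i ^ 2 ≤ t) (ht : t ≤ ENNReal.ofReal (u0c P.R c)) :
    Tot (wU w c.A0 (r0 c)) v (ENNReal.ofReal c.Γ) (r0 c) (ppP B P D mk e he c.p c.k0 0) ≤
      m * (ENNReal.ofReal (CE0 P.R c * θ) * t) := by
  classical
  have hu := u0c_pos (R := P.R) hc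
  have hθ0 := hP.θ0
  have hth := th0c_pos (R := P.R) hc
  have hu0 : ENNReal.ofReal (u0c P.R c) ≠ 0 := by
    rw [Ne, ENNReal.ofReal_eq_zero, not_le]; exact hu
  have hinj : Function.Injective e := fun i j h => inj_of_far hfar (by
    change faE (e i) = faE (e j)
    rw [h])
  have hvt : ∀ i, v i ≠ ∞ := by
    intro i h
    have := (hv i).trans ht
    rw [h] at this
    simp at this
  set s : ℝ≥0∞ := t / ENNReal.ofReal (u0c P.R c) with hs
  have hs1 : s ≤ 1 := ENNReal.div_le_of_le_mul (by rwa [one_mul])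
  have hv0' : (0 : ℝ) < v0c P.R c := Real.sqrt_pos.2 hu
  have hvs : ∀ i, v i ^ 2 ≤ s * ENNReal.ofReal (v0c P.R c) ^ 2 := by
    intro i
    rw [← ENNReal.ofReal_pow v0c_nonneg, v0c_sq hc, hs,
      ENNReal.div_mul_cancel hu0 ENNReal.ofReal_ne_top]
    exact hv i
  set x : Finset (ℤ × ℤ) → ℝ≥0∞ := fun U =>
    pG (wS (wU w c.A0 (r0 c) U) (fun _ => ENNReal.ofReal (v0c P.R c))) (dK0 B e P c.p c.k0 U)
    with hx
  have hN : NN fd (r0 c) (ENNReal.ofReal c.Γ) x ≤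
      ENNReal.ofReal (42 * nI (r0 c) * (θ / th0c P.R c)) := dK0_NN hc hw w hinj hP hθ
  have hpt : ∀ U : Finset (ℤ × ℤ), Set.indicator {U : Finset (ℤ × ℤ) | U.Nonempty}
      (fun U => ENNReal.ofReal c.Γ ^ size (r0 c) U *
        pG (wS (wU w c.A0 (r0 c) U) v) (ppP B P D mk e he c.p c.k0 0 U)) U ≤
      ∑ i, s * Set.indicator {U | NSumx915.near fd (r0 c) (e i).1 U}
        (fun U => ENNReal.ofReal c.Γ ^ Packx915.pack fd (r0 c) U * x U) U := by
    intro U
    by_cases hU : U.Nonempty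
    · rw [Set.indicator_of_mem (by exact hU)]
      by_cases hne : ppP B P D mk e he c.p c.k0 0 U = 0
      · rw [hne, pG_zero, mul_zero]; exact zero_le
      · obtain ⟨i, hi⟩ := ppP_zero_near B e D mk he hfar hU hne
        have hmem : (e i).1 ∈ U := hi (faE_fst_mem (e i))
        refine le_trans ?_ (Finset.single_le_sum (f := fun i => s *
          Set.indicator {U | NSumx915.near fd (r0 c) (e i).1 U}
            (fun U => ENNReal.ofReal c.Γ ^ Packx915.pack fd (r0 c) U * x U) U)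
          (fun _ _ => zero_le) (Finset.mem_univ i))
        rw [Set.indicator_of_mem (by exact NSumx915.near_of_mem Bridgex915.pd_fd hmem),
          Bridgex915.size_eq_pack, ← mul_assoc, mul_comm s, mul_assoc]
        refine mul_le_mul_right ?_ _
        rw [ppP_zero_eq B e D mk he hfar hU]
        exact pG_scale (wU_zero w c.A0 (r0 c) hU) hvt hv0 (fun _ => ENNReal.ofReal_ne_top)
          (fun _ => by rw [Ne, ENNReal.ofReal_eq_zero, not_le]; exact hv0') hs1 hvs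
          (dK0_GS B e U)
    · rw [Set.indicator_of_notMem (by exact hU)]
      exact zero_le
  have h1 : Tot (wU w c.A0 (r0 c)) v (ENNReal.ofReal c.Γ) (r0 c)
      (ppP B P D mk e he c.p c.k0 0) ≤
      ∑ i, s * bs fd (r0 c) (ENNReal.ofReal c.Γ) x (e i).1 := by
    refine (ENNReal.tsum_le_tsum hpt).trans (le_of_eq ?_)
    rw [Summable.tsum_finsetSum fun _ _ => ENNReal.summable]
    refine Finset.sum_congr rfl fun i _ => ?_
    rw [ENNReal.tsum_mul_left]
    rfl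
  refine h1.trans ?_
  have h2 : ∀ i ∈ (univ : Finset (Fin m)), s * bs fd (r0 c) (ENNReal.ofReal c.Γ) x (e i).1 ≤
      ENNReal.ofReal (CE0 P.R c * θ) * t := by
    intro i _
    refine (mul_le_mul_right ((bs_le_NN x (e i).1).trans hN) s).trans (le_of_eq ?_)
    rw [hs, div_eq_mul_inv, ← ENNReal.ofReal_inv_of_pos hu, mul_assoc,
      ← ENNReal.ofReal_mul (by positivity), mul_comm]
    congr 2
    unfold CE0
    field_simp
  refine (Finset.sum_le_sum h2).trans (le_of_eq ?_)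
  rw [Finset.sum_const, Finset.card_univ, Fintype.card_fin, nsmul_eq_mul]

end bound

/-- **the initial remainder in the form of `ForP`** -/
theorem e0_ev (J : ℝ) (R : ℕ) (V : Finset (ℤ × ℤ) → ℝ) : EvC fun c => 0 < u0c (max R 1) c ∧
    ∀ C : ℝ, ∃ ε > 0, ∃ C' ≥ 0, ∀ lam β z : ℝ, |lam| < ε → NearP J C lam β z →
      ∀ B : Bg ℤ, W1 B.w → ∀ (w : BW ℤ) {M K : ℕ} (D : FRD 16 M K) (mk : Finset (ℤ × ℤ)) (m : ℕ)
        (e : Fin m → Bkgx683.EG ℤ) (he : ∀ i, B.w (e i).1 (e i).2 ≠ 0),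
        (∀ i j, i ≠ j → ¬ KStepx892.touch (near c.p c.k0 0) (faE (e i)) (faE (e j))) →
        ∀ (v : Fin m → ℝ≥0∞) (t : ℝ≥0∞), (∀ i, v i ≠ 0) → (∀ i, v i ^ 2 ≤ t) →
          t ≤ ENNReal.ofReal (u0c (max R 1) c) →
          Tot (wU w c.A0 (rr c.p c.k0 0)) v (ENNReal.ofReal c.Γ) (rr c.p c.k0 0)
            (ppP B (mpar J lam R V β z) D mk e he c.p c.k0 0) ≤
            m * (ENNReal.ofReal (C' * |lam|) * t) := by
  refine evC_COK.mono fun c hc => ⟨u0c_pos hc, fun C => ?_⟩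
  have h1 : 0 < 1 + |C| := by positivity
  have h2 := e0c_pos J R V hc
  have h3 := one_le_CT J R V
  have h4 := th0c_pos (R := max R 1) hc
  have h5 := CE0_nonneg (R := max R 1) hc
  refine ⟨min (e0c J R V c / (1 + |C|)) (th0c (max R 1) c / (CT J R V * (1 + |C|))),
    by positivity, CE0 (max R 1) c * (CT J R V * (1 + |C|)), by positivity, ?_⟩
  intro lam β z hl hn B hw w M K D mk m e he hfar v t hv0 hv ht
  have h6 := tht_le_of_near hn
  have hl1 : |lam| ≤ e0c J R V c / (1 + |C|) := hl.le.trans (min_le_left _ _)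
  have hl2 : |lam| ≤ th0c (max R 1) c / (CT J R V * (1 + |C|)) := hl.le.trans (min_le_right _ _)
  have h7 : tht J lam β z ≤ e0c J R V c := by
    refine h6.trans ?_
    calc (1 + |C|) * |lam| ≤ (1 + |C|) * (e0c J R V c / (1 + |C|)) := by gcongr
      _ = e0c J R V c := by field_simp
  have hP := ple (sm_of (V := V) hc h7)
  have h8 : CT J R V * tht J lam β z ≤ CT J R V * (1 + |C|) * |lam| := by
    rw [mul_assoc]
    exact mul_le_mul_of_nonneg_left h6 (by linarith)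
  have h9 : CT J R V * (1 + |C|) * |lam| ≤ th0c (max R 1) c := by
    have h10 : 0 < CT J R V * (1 + |C|) := by positivity
    calc CT J R V * (1 + |C|) * |lam| ≤
          CT J R V * (1 + |C|) * (th0c (max R 1) c / (CT J R V * (1 + |C|))) := by gcongr
      _ = _ := by field_simp
  refine (e0_bound (P := mpar J lam R V β z) D mk hc hw w he hfar hP (h8.trans h9) hv0 hv
    ht).trans ?_
  refine mul_le_mul_right (mul_le_mul_left (ENNReal.ofReal_le_ofReal ?_) _) _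
  change CE0 (max R 1) c * _ ≤ _
  rw [mul_assoc]
  exact mul_le_mul_of_nonneg_left h8 h5

end Crest.Agent.R165.SrcInsx991
end
end

-- ▼ part R165/SrcStepHyp_943
section

/-!
# Row 165 (S0250), P11: the hypotheses `StepHyp` of `SrcInv_336` on the frozen backgrounds (helper943)

* `any_of_geo` : bound of the convolution for every polymer of a composite background
* `stepHyp_gen` : `StepHyp` from `Geo`
* `stepHyp_dom`, `stepHyp_pl`, `stepHyp_clu` : the classes of `StepOK_838`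
* `GoodS c`, `goodS_ev` : all classes, `EvC` form
-/

set_option autoImplicit false
set_option linter.unusedSectionVars false

noncomputable section

open scoped ENNReal
open Filter Topology
open Crest.ProbabilityR.IsingModel
open Crest.Agent.R165.Geo (LatReg bdS)
open Crest.Agent.R165.Gr0x606 Crest.Agent.R165.Gr1x606 Crest.Agent.R165.GeOpsx337
open Crest.Agent.R165.Latx683 (BW wDom wX wPl Fld)
open Crest.Agent.R165.GDefx387 Crest.Agent.R165.GSysx387 Crest.Agent.R165.FRDPolyx439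
open Crest.Agent.R165.Packx915 (Conn)
open Crest.Agent.R165.NSumx915 (DCount)
open Crest.Agent.R165.DefRecx915 Crest.Agent.R165.Compx889 Crest.Agent.R165.WPackx893
open Crest.Agent.R165.RegGx893 Crest.Agent.R165.RegIx893 Crest.Agent.R165.Wtx898
open Crest.Agent.R165.KFlowx337 Crest.Agent.R165.BgIsox432 Crest.Agent.R165.Bridgex915
open Crest.Agent.R165.PEndx683 Crest.Agent.R165.Constx891 Crest.Agent.R165.Outx683
open Crest.Agent.R165.GeoIx838 (Sep SepP wX_zero)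
open Crest.Agent.R165.GeoCox838 Crest.Agent.R165.StepOKx838
open Crest.Agent.R165.PNormx417 Crest.Agent.R165.SrcInvx336

namespace Crest.Agent.R165.SrcStepHypx943

section any

variable {G : Type} [CommRing G] [CN G] [GoodG G] {ι : Type*} [Fintype ι]
variable {w : BW G} {C : ℝ} {Λ r0 R0 D : ℕ} {loc : ι → G × G} {B Z Ac : Set (G × G)}
  {a a' : ℝ} {r r' : ℕ}

/-- **every polymer** of a composite background: the convolution -/
theorem any_of_geo (H : Geo w C Λ r0 R0 loc B Z Ac) {S : Cov (Fld G)}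
    {g : Fld G → ℝ≥0∞} (hg : Gram S g)
    (hr0 : r0 ≤ r) (h10 : 10 * r ≤ r') (hD : (D + 64) * r ≤ 4 * r') (hΛ : r' ≤ Λ * r)
    (hR : 32 * r' ≤ R0) (hr : 0 < r) (ha : 0 < a) (ha' : 0 ≤ a') (ha2 : a' ≤ 2 * a)
    (hs8 : EE C D * Real.sqrt ((r : ℝ) / r') ≤ 1 / 8)
    (hfar : 2 * (K2 C * (Real.sqrt ((r : ℝ) / r') + Real.sqrt (1 / (D + 1)))) ≤ 1 / 2)
    (hsep : ∀ i j, i ≠ j → 2 * (r' + D * r) < fd (loc i) (loc j))
    {U : Finset (G × G)} (hU : ∀ x ∈ U, x ∈ Ac) (hW0 : GLinx336.W0 w g a' r' 1 U) :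
    ∃ b : ℕ, b ≤ size r U ∧ ∀ K : Ge (Fld G),
      pG (wU w a' r' U) (cvG S K) ≤ ENNReal.ofReal (1 + 4 * EE C D) ^ b * pG (wU w a r U) K := by
  classical
  have hC := H.one_le
  have hE := EE_pos hC D
  set E := EE C D with hEdef
  set s := Real.sqrt ((r : ℝ) / r') with hs
  have hrr : r ≤ r' := by omega
  have hs1 : s ≤ 1 := sqrt_ratio_le_one hrr
  have hs0 : 0 ≤ s := Real.sqrt_nonneg _
  have h1E : (1 : ℝ≥0∞) ≤ ENNReal.ofReal (1 + 4 * E) := by
    rw [← ENNReal.ofReal_one]; exact ENNReal.ofReal_le_ofReal (by linarith)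
  have hfar' : ∀ x ∈ Ac, (∀ i, D * r < fd (loc i) x) →
      WLe w a a' r r' x x LinearMap.id (ENNReal.ofReal (1 / 2)) := by
    intro x hx hi
    refine WLe.mono (H.far hr0 h10 hΛ hR hr ha ha' hx hi) (ENNReal.ofReal_le_ofReal ?_)
    refine ratio_le ha ha2 ?_ hfar
    unfold K2; positivity
  choose P hP1 hP2 hP3 using fun i => H.branch hr0 hD hΛ hR hr ha ha' ha2 i
  have hsep1 : ∀ i j, i ≠ j → 2 * (D * r) + r < fd (loc i) (loc j) := fun i j hij => by
    have := hsep i j hij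
    omega
  refine ⟨(Finset.univ.filter fun i => ∃ x ∈ U, tyx loc (D * r) x = some i).card, ?_, ?_⟩
  · rw [Bridgex915.size_eq_pack]
    refine GLinx336.card_le_pack_of_near Bridgex915.pd_fd _ loc (ρ := D * r) (r := r) (U := U)
      (fun i hi => ?_) (fun i _ j _ hij => hsep1 i j hij)
    obtain ⟨x, hx, hty⟩ := (Finset.mem_filter.1 hi).2
    exact ⟨x, hx, by rw [fd_comm]; exact tyx_some hty⟩
  · intro K
    by_cases hK : pG (wU w a r U) K = ∞
    · rw [hK, ENNReal.mul_top]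
      · exact le_top
      · exact pow_ne_zero _ (lt_of_lt_of_le one_pos h1E).ne'
    · have key := GLinx336.any_large (w := w) (a := a) (a' := a') (r := r) (r' := r') (U := U)
        (S := S) (g := g) hg
        (Finset.univ.filter fun i => ∃ x ∈ U, tyx loc (D * r) x = some i) (tyx loc (D * r))
        P hP1 hP2 (ε := 1)
        (p := ENNReal.ofReal E) (q := ENNReal.ofReal (E * s)) (p0 := ENNReal.ofReal (1 / 2))
        ha hr hW0 one_ne_zero ENNReal.one_ne_top ENNReal.ofReal_ne_top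
        (two_mul_le hs8) (ENNReal.ofReal_le_ofReal (by nlinarith)) (two_mul_le_one le_rfl)
        (fun x hx i hty => Finset.mem_filter.2 ⟨Finset.mem_univ _, x, hx, hty⟩)
        (fun x hx hi => ⟨x, hx, hfar' x (hU x hx) (tyx_none hi)⟩)
        (fun x hx i hi => ⟨x, hx, (hP3 i x (tyx_some hi)).1⟩)
        (fun x hx i hi => ⟨x, hx, (hP3 i x (tyx_some hi)).2⟩) (K := (K : Gr (Fld G))) hK
      rw [one_add_eq hE.le] at key
      exact key

end any

/-! ### the constants -/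

/-- growth factor of a polymer -/
def AS (Dn : ℕ) : ℝ≥0∞ := ENNReal.ofReal (1 + 4 * EE KA Dn)

theorem one_le_AS (Dn : ℕ) : 1 ≤ AS Dn := by
  have hE := EE_pos one_le_KA Dn
  unfold AS
  rw [← ENNReal.ofReal_one]; exact ENNReal.ofReal_le_ofReal (by linarith)

/-- **the conditions on the constants** of a step with sources -/
structure CstS (Dn : ℕ) (Cb : ℝ) (c : Cst) : Prop extends CstOK Dn c where
  p4 : 4 ≤ c.p
  L128 : 128 * (340000 * Cb + 1) ^ 2 ≤ (2 : ℝ) ^ c.p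

theorem gam_le {Dn L : ℕ} {Γ : ℝ≥0∞} (h : GamOK KA Dn L Γ) :
    (3 * (L : ℝ≥0∞) * AS Dn) ^ 2 ≤ Γ := by
  refine le_trans ?_ h.2
  have h1 : ((L : ℝ≥0∞)) ^ 2 ≤ (((2 * L + 3) ^ 2 : ℕ) : ℝ≥0∞) := by
    have : L ^ 2 ≤ (2 * L + 3) ^ 2 := Nat.pow_le_pow_left (by omega) 2
    exact_mod_cast this
  calc (3 * (L : ℝ≥0∞) * AS Dn) ^ 2 = 1 * ((3 * AS Dn) ^ 2 * (L : ℝ≥0∞) ^ 2) := by ring
    _ ≤ 8 * ((3 * AS Dn) ^ 2 * (((2 * L + 3) ^ 2 : ℕ) : ℝ≥0∞)) :=
        mul_le_mul' (by norm_num) (mul_le_mul' le_rfl h1)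

section gen

variable {G : Type} [CommRing G] [CN G] [CNZ G] [DecidableEq G] [GoodG G] {ι : Type*} [Fintype ι]

theorem rc_le {Dn : ℕ} {c : Cst} (hc : CstOK Dn c) (n : ℕ) :
    4 * nearR c.p c.k0 n + 3 * rr c.p c.k0 n + 2 ≤ rr c.p c.k0 (n + 1) := by
  have h1 : 10 * rr c.p c.k0 n ≤ rr c.p c.k0 (n + 1) := by
    rw [rr_succ]
    exact Nat.mul_le_mul_right _ hc.big.ten
  have h3 := hc.six n
  unfold nearR
  omega

/-- **`StepHyp` from `Geo`** -/
theorem stepHyp_gen {Dn : ℕ} {Cb : ℝ} {c : Cst} (hc : CstS Dn Cb c) (hb : W2x812.BkReg Cb)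
    {w : BW G} (hw : ∀ z j, |w z j| ≤ 1) {n r0' R0 : ℕ} {loc : ι → G × G} {B Z : Set (G × G)}
    (H : Geo w KA (2 ^ c.p) r0' R0 loc B Z Set.univ) (hr0 : r0' ≤ rr c.p c.k0 n)
    (hR : 32 * rr c.p c.k0 (n + 1) ≤ R0) {a a' : ℝ}
    (ha : c.A0 ≤ a) (ha' : c.A0 ≤ a') (h2 : a' ≤ 2 * a)
    (hsep : ∀ i j, i ≠ j → 10 * rr c.p c.k0 (n + 1) < fd (loc i) (loc j)) :
    StepHyp w Cb a a' (rr c.p c.k0 n) (rr c.p c.k0 (n + 1)) (slC DD w c.p c.k0 n)
      (W0Sx897.gwS DD w c.p c.k0 n) 1 (AS Dn) (ENNReal.ofReal c.Γ) 3 ((2 ^ c.p : ℕ) : ℝ≥0∞)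
      (nearR c.p c.k0 n) where
  bk := hb
  gram := W0Sx897.gramS DD w hw c.p c.k0 n
  ha := lt_of_lt_of_le hc.A0 ha
  ha' := lt_of_lt_of_le hc.A0 ha'
  haa := h2
  hr := rr_pos c.p c.k0 n
  hr' := by
    rw [rr_succ]
    refine Nat.mul_le_mul_right _ ?_
    calc 16 = 2 ^ 4 := by norm_num
      _ ≤ 2 ^ c.p := Nat.pow_le_pow_right (by norm_num) hc.p4
  hL := by
    rw [rr_succ]
    push_cast
    refine mul_le_mul_of_nonneg_right (le_trans ?_ hc.L128) (Nat.cast_nonneg _)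
    have := sq_nonneg (340000 * Cb + 1)
    linarith
  w0 U := W0Sx897.w0S DD (by decide) w hw c.p c.k0 n ((hc.cw n).trans ha') U
  hε := one_ne_zero
  hε1 := le_rfl
  hRc := rc_le hc.toCstOK n
  hA1 := one_le_AS Dn
  hc := by norm_num
  hΛ1 := by exact_mod_cast Nat.one_le_two_pow
  hΓ1 := by
    refine le_trans ?_ (gam_le hc.gam)
    refine one_le_pow₀ ?_
    refine one_le_mul_of_one_le_of_one_le (one_le_mul_of_one_le_of_one_le (by norm_num) ?_)
      (one_le_AS Dn)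
    exact_mod_cast Nat.one_le_two_pow
  hΓt := ENNReal.ofReal_ne_top
  hΓ := gam_le hc.gam
  large U _ _ := by
    have hr : 0 < rr c.p c.k0 n := rr_pos c.p c.k0 n
    have hra : ((rr c.p c.k0 n : ℕ) : ℝ) / ((rr c.p c.k0 (n + 1) : ℕ) : ℝ) =
        1 / ((2 ^ c.p : ℕ) : ℝ) := by
      rw [rr_succ]
      exact ratio_L hr
    have hDL : Dn * rr c.p c.k0 n ≤ 4 * rr c.p c.k0 (n + 1) := by
      rw [rr_succ, ← mul_assoc]
      refine Nat.mul_le_mul_right _ ?_
      have := hc.big.hD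
      omega
    obtain ⟨b, hb1, hb2⟩ := any_of_geo (D := Dn) (a := a) (a' := a') (r := rr c.p c.k0 n)
      (r' := rr c.p c.k0 (n + 1)) H (W0Sx897.gramS DD w hw c.p c.k0 n) hr0
      (by rw [rr_succ]; exact Nat.mul_le_mul_right _ hc.big.ten)
      (by rw [rr_succ, ← mul_assoc]; exact Nat.mul_le_mul_right _ hc.big.hD)
      (by rw [rr_succ]) hR hr (lt_of_lt_of_le hc.A0 ha) (lt_of_lt_of_le hc.A0 ha').le h2
      (by rw [hra]; exact hc.big.s8) (by rw [hra]; exact hc.big.far)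
      (fun i j hij => lt_of_le_of_lt (by omega) (hsep i j hij)) (U := U)
      (fun x _ => Set.mem_univ x)
      (W0Sx897.w0S DD (by decide) w hw c.p c.k0 n ((hc.cw n).trans ha') U)
    exact ⟨b, hb1, hb2⟩

end gen

/-! ### the classes of backgrounds -/

section inst

variable {Dn : ℕ} {c : Cst} {Cb : ℝ}

/-- domains, discs in the fine phase -/
theorem stepHyp_dom (hc : CstS Dn Cb c) (hb : W2x812.BkReg Cb) {T : Set (ℤ × ℤ)} {ρ κ : ℝ}
    (hT : LatReg T ρ κ) (hκ : κ * ρ ≤ 1) {m : ℕ} {X : Fin m → ℤ × ℤ} {Z : Set (ℤ × ℤ)} {b : Bool}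
    {n : ℕ} {a a' : ℝ} (hρ : ((32 * C0v c.p : ℕ) : ℝ) * rr c.p c.k0 (n + 1) ≤ ρ)
    (hS : Sep T X Z (32 * rr c.p c.k0 (n + 1)))
    (ha : c.A0 ≤ a) (ha' : c.A0 ≤ a') (h2 : a' ≤ 2 * a) :
    StepHyp (wX (wDom T b) X) Cb a a' (rr c.p c.k0 n) (rr c.p c.k0 (n + 1))
      (slC DD (wX (wDom T b) X) c.p c.k0 n) (W0Sx897.gwS DD (wX (wDom T b) X) c.p c.k0 n) 1
      (AS Dn) (ENNReal.ofReal c.Γ) 3 ((2 ^ c.p : ℕ) : ℝ≥0∞) (nearR c.p c.k0 n) := by
  obtain ⟨-, hC1, H, -, -⟩ := geo_v c.p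
  have hG := H T ρ κ hT hκ m X Z b (32 * rr c.p c.k0 (n + 1)) (by
    refine le_trans (le_of_eq ?_) hρ
    push_cast; ring) hS
  refine stepHyp_gen hc hb (abs_wX_dom T b X) hG (hc.r0 n) le_rfl ha ha' h2 fun i j hij => ?_
  have h1 := hS.sep i j hij
  omega

/-- the plane with insertions -/
theorem stepHyp_pl (hc : CstS Dn Cb c) (hb : W2x812.BkReg Cb) {m : ℕ} {X : Fin m → ℤ × ℤ}
    {Z : Set (ℤ × ℤ)} {n : ℕ} {a a' : ℝ} (hS : SepP X Z (32 * rr c.p c.k0 (n + 1)))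
    (ha : c.A0 ≤ a) (ha' : c.A0 ≤ a') (h2 : a' ≤ 2 * a) :
    StepHyp (wX (wPl ℤ) X) Cb a a' (rr c.p c.k0 n) (rr c.p c.k0 (n + 1))
      (slC DD (wX (wPl ℤ) X) c.p c.k0 n) (W0Sx897.gwS DD (wX (wPl ℤ) X) c.p c.k0 n) 1
      (AS Dn) (ENNReal.ofReal c.Γ) 3 ((2 ^ c.p : ℕ) : ℝ≥0∞) (nearR c.p c.k0 n) := by
  obtain ⟨-, -, -, H, -⟩ := geo_v c.p
  have hG := H m X Z (32 * rr c.p c.k0 (n + 1)) hS
  refine stepHyp_gen hc hb (abs_wX_pl X) hG (hc.r0 n) le_rfl ha ha' h2 fun i j hij => ?_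
  have h1 := hS.sep i j hij
  omega

/-- the plane -/
theorem stepHyp_plane (hc : CstS Dn Cb c) (hb : W2x812.BkReg Cb) {n : ℕ} {a a' : ℝ}
    (ha : c.A0 ≤ a) (ha' : c.A0 ≤ a') (h2 : a' ≤ 2 * a) :
    StepHyp (wPl ℤ) Cb a a' (rr c.p c.k0 n) (rr c.p c.k0 (n + 1))
      (slC DD (wPl ℤ) c.p c.k0 n) (W0Sx897.gwS DD (wPl ℤ) c.p c.k0 n) 1
      (AS Dn) (ENNReal.ofReal c.Γ) 3 ((2 ^ c.p : ℕ) : ℝ≥0∞) (nearR c.p c.k0 n) := by
  have h := stepHyp_pl (m := 0) (X := Fin.elim0) (Z := ∅) (n := n) hc hb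
    ⟨fun i => Fin.elim0 i, fun _ _ i => Fin.elim0 i⟩ ha ha' h2
  rw [wX_zero] at h
  exact h

/-- discs in the coarse phase (cluster of insertions) -/
theorem stepHyp_clu (hc : CstS Dn Cb c) (hb : W2x812.BkReg Cb) {T : Set (ℤ × ℤ)} {ρ κ : ℝ}
    (hT : LatReg T ρ κ) (hκ : κ * ρ ≤ 1) {m : ℕ} {X : Fin m → ℤ × ℤ} {Z : Set (ℤ × ℤ)} {b : Bool}
    {z0 : ℤ × ℤ} {R1 n : ℕ} {a a' : ℝ}
    (hρ : ((32 * C0v c.p : ℕ) : ℝ) * rr c.p c.k0 (n + 1) ≤ ρ)
    (hS : Clu T X z0 Z R1 (32 * rr c.p c.k0 (n + 1))) (hR1 : 4 * R1 + 8 ≤ rr c.p c.k0 n)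
    (ha : c.A0 ≤ a) (ha' : c.A0 ≤ a') (h2 : a' ≤ 2 * a) :
    StepHyp (wX (wDom T b) X) Cb a a' (rr c.p c.k0 n) (rr c.p c.k0 (n + 1))
      (slC DD (wX (wDom T b) X) c.p c.k0 n) (W0Sx897.gwS DD (wX (wDom T b) X) c.p c.k0 n) 1
      (AS Dn) (ENNReal.ofReal c.Γ) 3 ((2 ^ c.p : ℕ) : ℝ≥0∞) (nearR c.p c.k0 n) := by
  obtain ⟨-, hC1, -, -, H⟩ := geo_v c.p
  have hG := H T ρ κ hT hκ m X z0 Z b R1 (32 * rr c.p c.k0 (n + 1)) (by
    refine le_trans (le_of_eq ?_) hρ
    push_cast; ring) hS Fin.elim0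
  exact stepHyp_gen hc hb (abs_wX_dom T b X) hG (max_le (hc.r0 n) hR1) le_rfl ha ha' h2
    (fun i => Fin.elim0 i)

end inst

/-! ### `EvC` form -/

/-- `StepHyp` at step `n` with the constants `c` (constants `c0 = 3`, `Λ = 2 ^ p`) -/
abbrev SH (c : Cst) (Cb : ℝ) (A : ℝ≥0∞) (w : BW ℤ) (n : ℕ) (a a' : ℝ) : Prop :=
  StepHyp w Cb a a' (rr c.p c.k0 n) (rr c.p c.k0 (n + 1)) (slC DD w c.p c.k0 n)
    (W0Sx897.gwS DD w c.p c.k0 n) 1 A (ENNReal.ofReal c.Γ) 3 ((2 ^ c.p : ℕ) : ℝ≥0∞)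
    (nearR c.p c.k0 n)

/-- **`StepHyp` for all backgrounds on `ℤ`** with the constants `c` -/
structure GoodS (c : Cst) (Cb : ℝ) (A : ℝ≥0∞) (C1 : ℕ) : Prop where
  Cb_pos : 0 < Cb
  A_one : 1 ≤ A
  A_top : A ≠ ∞
  one_le : 32 ≤ C1
  p4 : 4 ≤ c.p
  L128 : 128 * (340000 * Cb + 1) ^ 2 ≤ (2 : ℝ) ^ c.p
  A0 : 0 < c.A0
  /-- `q` of the linear part is small by the choice of `p` only -/
  gam : (3 * ((2 ^ c.p : ℕ) : ℝ≥0∞) * A) ^ 2 ≤ ENNReal.ofReal c.Γ
  plane : ∀ (n : ℕ) (a a' : ℝ), c.A0 ≤ a → c.A0 ≤ a' → a' ≤ 2 * a → SH c Cb A (wPl ℤ) n a a'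
  pl : ∀ (m : ℕ) (X : Fin m → ℤ × ℤ) (n : ℕ) (a a' : ℝ),
    (∀ i j, i ≠ j → 32 * rr c.p c.k0 (n + 1) < fd (X i) (X j)) →
    c.A0 ≤ a → c.A0 ≤ a' → a' ≤ 2 * a → SH c Cb A (wX (wPl ℤ) X) n a a'
  dom : ∀ (T : Set (ℤ × ℤ)) (ρ κ : ℝ), LatReg T ρ κ → κ * ρ ≤ 1 →
    ∀ (m : ℕ) (X : Fin m → ℤ × ℤ) (Z : Set (ℤ × ℤ)) (b : Bool) (n : ℕ) (a a' : ℝ),
    (C1 : ℝ) * rr c.p c.k0 (n + 1) ≤ ρ → Sep T X Z (32 * rr c.p c.k0 (n + 1)) →
    c.A0 ≤ a → c.A0 ≤ a' → a' ≤ 2 * a → SH c Cb A (wX (wDom T b) X) n a a'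
  clu : ∀ (T : Set (ℤ × ℤ)) (ρ κ : ℝ), LatReg T ρ κ → κ * ρ ≤ 1 →
    ∀ (m : ℕ) (X : Fin m → ℤ × ℤ) (Z : Set (ℤ × ℤ)) (b : Bool) (z0 : ℤ × ℤ) (R1 n : ℕ)
      (a a' : ℝ),
    (C1 : ℝ) * rr c.p c.k0 (n + 1) ≤ ρ → Clu T X z0 Z R1 (32 * rr c.p c.k0 (n + 1)) →
    4 * R1 + 8 ≤ rr c.p c.k0 n →
    c.A0 ≤ a → c.A0 ≤ a' → a' ≤ 2 * a → SH c Cb A (wX (wDom T b) X) n a a'

/-- the constant of the bulk regularity -/
theorem exists_Cb : ∃ Cb : ℝ, 0 < Cb ∧ W2x812.BkReg Cb :=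
  ⟨50000000 * (16 * 10 ^ 9), by norm_num, BkFinx806.bkReg⟩

/-- the conditions on the constants hold eventually -/
theorem ev_cstS (Dn : ℕ) (h : EvC (CstOK Dn)) (Cb : ℝ) : EvC (CstS Dn Cb) := by
  have h1 : ∀ᶠ p : ℕ in atTop, 4 ≤ p ∧ 128 * (340000 * Cb + 1) ^ 2 ≤ (2 : ℝ) ^ p := by
    have h2 : Tendsto (fun p : ℕ => (2 : ℝ) ^ p) atTop atTop :=
      tendsto_pow_atTop_atTop_of_one_lt (by norm_num)
    exact (eventually_ge_atTop 4).and (h2.eventually (eventually_ge_atTop _))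
  unfold EvC at h ⊢
  filter_upwards [h, h1] with p hp hp1
  filter_upwards [hp] with Γ hΓ
  filter_upwards [hΓ] with k0 hk0
  filter_upwards [hk0] with A0 hA0
  filter_upwards [hA0] with δ hδ
  exact ⟨hδ, hp1.1, hp1.2⟩

/-- **THE THEOREM** -/
theorem goodS_ev : ∃ (Cb : ℝ) (A : ℝ≥0∞), EvC fun c => ∃ C1 : ℕ, GoodS c Cb A C1 := by
  obtain ⟨Dn, h⟩ := ev_cstOK
  obtain ⟨Cb, hb0, hb⟩ := exists_Cb
  refine ⟨Cb, AS Dn, (ev_cstS Dn h Cb).mono fun c hc => ⟨32 * C0v c.p, ?_⟩⟩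
  refine ⟨hb0, one_le_AS Dn, ENNReal.ofReal_ne_top, ?_, hc.p4, hc.L128, hc.A0, gam_le hc.gam,
    ?_, ?_, ?_, ?_⟩
  · have := (geo_v c.p).2.1
    omega
  · intro n a a' ha ha' h2
    exact stepHyp_plane hc hb ha ha' h2
  · intro m X n a a' hX ha ha' h2
    exact stepHyp_pl (Z := ∅) hc hb ⟨hX, fun u hu => absurd hu (Set.notMem_empty u)⟩ ha ha' h2
  · intro T ρ κ hT hκ m X Z b n a a' hρ hS ha ha' h2
    exact stepHyp_dom hc hb hT hκ hρ hS ha ha' h2
  · intro T ρ κ hT hκ m X Z b z0 R1 n a a' hρ hS hR1 ha ha' h2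
    exact stepHyp_clu hc hb hT hκ hρ hS hR1 ha ha' h2

end Crest.Agent.R165.SrcStepHypx943
end
end

-- ▼ part R165/SrcNum_943

/-!
# Row 165 (S0250), P11: the numerical constants of one step with sources (helper943)

* `qL_le` : the factor of the linear part is at most `1 / 8`
* `cone_le` : the constant of `one_step` is at most `10 Λ`
* `nn3_le` : the counting constant of the step
-/

set_option autoImplicit false
set_option linter.unusedSectionVars false

noncomputable section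

open scoped ENNReal
open Crest.Agent.R165.Gr0x606 Crest.Agent.R165.Gr1x606 Crest.Agent.R165.GeOpsx337
  Crest.Agent.R165.GSysx387 Crest.Agent.R165.GDefx387 Crest.Agent.R165.PStepx417
  Crest.Agent.R165.PNormx417 Crest.Agent.R165.Latx683 Crest.Agent.R165.SrcInvx336
  Crest.Agent.R165.DefRecx915 Crest.Agent.R165.SrcRecx54
open Crest.Agent.R165.Bridgex915 (GoodG)
open Crest.Agent.R165.J4Geox126 (faE)

namespace Crest.Agent.R165.SrcNumx943

section one

variable {G : Type} [CommRing G] [CN G] [GoodG G] [DecidableEq G]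
variable {w : BW G} {C a a' : ℝ} {r r' : ℕ} {S : Cov (Fld G)} {g : Fld G → ℝ≥0∞}
  {ε A Γ Λ : ℝ≥0∞} {Rc : ℕ}

/-- first part of the linear factor -/
theorem lin_part (H : StepHyp w C a a' r r' S g ε A Γ 3 Λ Rc) (hΛ : Λ * (r : ℝ≥0∞) ≤ r')
    (hL : 128 * (340000 * C + 1) ^ 2 * r ≤ r') :
    Λ * ENNReal.ofReal (16 * (340000 * C + 1) ^ 2 * ((r : ℝ) / r') ^ 2) ≤ 1 / 8 := by
  have hr : (0 : ℝ) < r := by exact_mod_cast H.hr
  have hr' : (0 : ℝ) < r' := by
    have h1 := H.hr'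
    have h2 := H.hr
    exact_mod_cast (by omega : 0 < r')
  have h1 : Λ ≤ ENNReal.ofReal ((r' : ℝ) / r) := by
    rw [ENNReal.ofReal_div_of_pos hr, ENNReal.ofReal_natCast, ENNReal.ofReal_natCast,
      ENNReal.le_div_iff_mul_le (Or.inl (by exact_mod_cast hr.ne'))
        (Or.inl (ENNReal.natCast_ne_top r))]
    exact hΛ
  have h4 : (1 / 8 : ℝ≥0∞) = ENNReal.ofReal (1 / 8) := by
    rw [ENNReal.ofReal_div_of_pos (by norm_num)]; simp
  refine (mul_le_mul' h1 le_rfl).trans ?_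
  rw [← ENNReal.ofReal_mul (by positivity), h4]
  refine ENNReal.ofReal_le_ofReal ?_
  have e : (r' : ℝ) / r * (16 * (340000 * C + 1) ^ 2 * ((r : ℝ) / r') ^ 2) =
      16 * (340000 * C + 1) ^ 2 * r / r' := by
    field_simp
  rw [e, div_le_iff₀ hr']
  linarith

/-- second part of the factors -/
theorem gam_part (H : StepHyp w C a a' r r' S g ε A Γ 3 Λ Rc) :
    (3 * Λ * A) ^ 2 * Γ⁻¹ ≤ 1 := by
  have h0 : Γ ≠ 0 := (lt_of_lt_of_le one_pos H.hΓ1).ne'
  rw [← div_eq_mul_inv, ENNReal.div_le_iff h0 H.hΓt, one_mul]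
  exact H.hΓ

theorem gam_part1 (H : StepHyp w C a a' r r' S g ε A Γ 3 Λ Rc) :
    (1 * Λ * A) ^ 2 * Γ⁻¹ ≤ 1 / 8 := by
  have h1 := gam_part H
  have e : (3 * Λ * A) ^ 2 * Γ⁻¹ = 9 * ((1 * Λ * A) ^ 2 * Γ⁻¹) := by ring
  rw [e] at h1
  rw [ENNReal.le_div_iff_mul_le (Or.inl (by norm_num)) (Or.inl (by norm_num))]
  refine le_trans ?_ h1
  rw [mul_comm]
  exact mul_le_mul' (by norm_num) le_rfl

/-- **the factor of the linear part** -/
theorem qL_le (H : StepHyp w C a a' r r' S g ε A Γ 3 Λ Rc) (hΛ : Λ * (r : ℝ≥0∞) ≤ r')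
    (hL : 128 * (340000 * C + 1) ^ 2 * r ≤ r') :
    qL 1 Λ A Γ C r r' ≤ 1 / 8 := by
  unfold qL
  refine max_le ?_ (gam_part1 H)
  rw [one_mul]
  exact lin_part H hΛ hL

theorem qL3_le (H : StepHyp w C a a' r r' S g ε A Γ 3 Λ Rc) (hΛ : Λ * (r : ℝ≥0∞) ≤ r')
    (hL : 128 * (340000 * C + 1) ^ 2 * r ≤ r') :
    qL 3 Λ A Γ C r r' ≤ 1 := by
  unfold qL
  refine max_le ?_ (gam_part H)
  refine (mul_le_mul' le_rfl (lin_part H hΛ hL)).trans ?_
  rw [← mul_div_assoc, mul_one]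
  exact ENNReal.div_le_of_le_mul (by norm_num)

theorem qH3_le (H : StepHyp w C a a' r r' S g ε A Γ 3 Λ Rc) : qH 3 Λ A Γ ≤ 3 * Λ := by
  unfold qH
  refine max_le le_rfl ((gam_part H).trans ?_)
  exact one_le_mul_of_one_le_of_one_le (by norm_num) H.hΛ1

/-- **the constant of `one_step`** -/
theorem cone_le (H : StepHyp w C a a' r r' S g ε A Γ 3 Λ Rc) (hΛ : Λ * (r : ℝ≥0∞) ≤ r')
    (hL : 128 * (340000 * C + 1) ^ 2 * r ≤ r') :
    cone 3 Λ A Γ C r r' ≤ 10 * Λ := by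
  unfold cone
  calc 3 * Λ + qL 3 Λ A Γ C r r' + 2 * qH 3 Λ A Γ
      ≤ 3 * Λ + Λ + 2 * (3 * Λ) := by
        gcongr
        · exact (qL3_le H hΛ hL).trans H.hΛ1
        · exact qH3_le H
    _ = 10 * Λ := by ring

end one

/-- the counting constant -/
def N3 (p : ℕ) : ℕ := (2 * (1 + 2 ^ p) + 3) ^ 2

theorem nn3_le (p k0 n : ℕ) : nn3 (rr p k0 (n + 1)) (nearR p k0 (n + 1)) ≤ N3 p := by
  unfold nn3 N3
  have h1 : (rr p k0 (n + 1) + nearR p k0 (n + 1)) / rr p k0 (n + 1) ≤ 1 + 2 ^ p := by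
    refine Nat.div_le_of_le_mul ?_
    have h2 : nearR p k0 (n + 1) ≤ 2 ^ p * rr p k0 (n + 1) := by
      unfold nearR
      rw [rr_succ p k0 (n + 1)]
      exact Nat.div_le_self _ _
    calc rr p k0 (n + 1) + nearR p k0 (n + 1)
        ≤ rr p k0 (n + 1) + 2 ^ p * rr p k0 (n + 1) := by omega
      _ = rr p k0 (n + 1) * (1 + 2 ^ p) := by ring
  exact Nat.pow_le_pow_left (by omega) 2

theorem cC1_mono {n3 n3' c c' : ℝ≥0∞} (h : n3 ≤ n3') (hc : c ≤ c') : cC1 n3 c ≤ cC1 n3' c' := by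
  unfold cC1
  gcongr

/-- **the constant of the recursion**, independent of the scale -/
def KC1 (p : ℕ) : ℝ≥0∞ := cC1 (N3 p) (10 * ((2 ^ p : ℕ) : ℝ≥0∞))

theorem KC1_ne_top (p : ℕ) : KC1 p ≠ ∞ := by
  unfold KC1 cC1
  have h1 : ((N3 p : ℕ) : ℝ≥0∞) ≠ ∞ := ENNReal.natCast_ne_top _
  have h2 : ((2 ^ p : ℕ) : ℝ≥0∞) ≠ ∞ := ENNReal.natCast_ne_top _
  finiteness

section scale

variable {w : BW ℤ} {C a a' : ℝ} {g : Fld ℤ → ℝ≥0∞} {ε A Γ : ℝ≥0∞} {Rc : ℕ} {S : Cov (Fld ℤ)}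

theorem lam_rr (p k0 n : ℕ) :
    ((2 ^ p : ℕ) : ℝ≥0∞) * (rr p k0 n : ℝ≥0∞) ≤ (rr p k0 (n + 1) : ℕ) := by
  rw [rr_succ, Nat.cast_mul]

/-- **the one-step constants with ratio `2 ^ p`** -/
theorem step_consts {p k0 n : ℕ}
    (H : StepHyp w C a a' (rr p k0 n) (rr p k0 (n + 1)) S g ε A Γ 3 ((2 ^ p : ℕ) : ℝ≥0∞) Rc)
    (hL : 128 * (340000 * C + 1) ^ 2 ≤ (2 : ℝ) ^ p) :
    qL 1 ((2 ^ p : ℕ) : ℝ≥0∞) A Γ C (rr p k0 n) (rr p k0 (n + 1)) ≤ 1 / 8 ∧
      cone 3 ((2 ^ p : ℕ) : ℝ≥0∞) A Γ C (rr p k0 n) (rr p k0 (n + 1)) ≤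
        10 * ((2 ^ p : ℕ) : ℝ≥0∞) ∧
      cC1 (nn3 (rr p k0 (n + 1)) (nearR p k0 (n + 1)))
        (cone 3 ((2 ^ p : ℕ) : ℝ≥0∞) A Γ C (rr p k0 n) (rr p k0 (n + 1))) ≤ KC1 p := by
  have hL' : 128 * (340000 * C + 1) ^ 2 * ((rr p k0 n : ℕ) : ℝ) ≤ ((rr p k0 (n + 1) : ℕ) : ℝ) := by
    rw [rr_succ]
    push_cast
    exact mul_le_mul_of_nonneg_right hL (Nat.cast_nonneg _)
  have h1 := cone_le H (lam_rr p k0 n) hL'
  refine ⟨qL_le H (lam_rr p k0 n) hL', h1, cC1_mono ?_ h1⟩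
  exact_mod_cast nn3_le p k0 n

end scale

/-! ### the norm of a bond form -/

section bond

open Crest.Agent.R165.W2x812 Crest.Agent.R165.SrcLinx336 Crest.Agent.R165.SrcInsx991
open Crest.Agent.R165.Latx683 (bb xc)

variable {G : Type} [CommRing G] [CN G] [GoodG G] [DecidableEq G]




end bond

end Crest.Agent.R165.SrcNumx943
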