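import Crest.Agent.R165.FinB_900
import Crest.Agent.R165.ExpG_337
import Crest.Agent.R165.SrcDef_991
import Crest.Agent.R165.PPb_63

-- ▼ part R165/SrcFin_441
section

/-!
# Row 165 (S0250), block P: final scale algebra with `m` sources, part 1 (helper441)

Calculus of an extended submultiplicative norm `N` on a commutative real algebra:

* `RA N` : `RN N` (900) and `N (c • x) ≤ |c| N x`; `Bd N x t : N x ≤ t`
* `Bd.prod_sub` : perturbation of finite products
* `zz_lip` : `N (ZZ K - ZZ K') ≤ exp (Σ N K') (exp (Σ N (K - K')) - 1)`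
* `zz_lead` : the gas of finitely many pairwise separated activities is a product
* `nexp_bd`, `gexp_bd` : `N (gexp a - 1) ≤ exp t - 1`
-/

set_option autoImplicit false
set_option linter.unusedSectionVars false
set_option linter.unusedVariables false

noncomputable section

namespace Crest.Agent.R165.SrcFinx441

open Finset
open scoped ENNReal Nat
open Crest.Agent.R165.FinBx900 Crest.Agent.R165.KStepx892
open Crest.Agent.R165.Gr0x606 Crest.Agent.R165.Gr1x606 Crest.Agent.R165.GeOpsx337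
  Crest.Agent.R165.ExpGx337

section norms

variable {R : Type*} [CommRing R] [Algebra ℝ R]

/-- a submultiplicative extended norm on a commutative real algebra -/
structure RA (N : R → ℝ≥0∞) : Prop extends RN N where
  smul : ∀ (c : ℝ) (x : R), N (c • x) ≤ ‖c‖ₑ * N x

/-- `N x ≤ t` -/
def Bd (N : R → ℝ≥0∞) (x : R) (t : ℝ) : Prop := N x ≤ ENNReal.ofReal t

variable {N : R → ℝ≥0∞}

theorem Bd.ne_top {x : R} {t : ℝ} (h : Bd N x t) : N x ≠ ∞ :=
  ne_top_of_le_ne_top ENNReal.ofReal_ne_top h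

theorem Bd.mono {x : R} {s t : ℝ} (h : Bd N x s) (hst : s ≤ t) : Bd N x t :=
  h.trans (ENNReal.ofReal_le_ofReal hst)

theorem bd_zero (hN : RA N) : Bd N (0 : R) 0 := by
  unfold Bd; rw [hN.zero]; exact zero_le

theorem bd_one (hN : RA N) : Bd N (1 : R) 1 := by
  unfold Bd; rw [ENNReal.ofReal_one]; exact hN.one

theorem Bd.add (hN : RA N) {x y : R} {s t : ℝ} (hx : Bd N x s) (hy : Bd N y t) (hs : 0 ≤ s)
    (ht : 0 ≤ t) : Bd N (x + y) (s + t) := by
  unfold Bd
  rw [ENNReal.ofReal_add hs ht]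
  exact (hN.add x y).trans (add_le_add hx hy)

theorem Bd.smul (hN : RA N) {x : R} {t : ℝ} (c : ℝ) (hx : Bd N x t) : Bd N (c • x) (|c| * t) := by
  unfold Bd
  rw [ENNReal.ofReal_mul (abs_nonneg c)]
  refine (hN.smul c x).trans (mul_le_mul' ?_ hx)
  rw [← Real.norm_eq_abs, ofReal_norm]

theorem Bd.neg (hN : RA N) {x : R} {t : ℝ} (hx : Bd N x t) : Bd N (-x) t := by
  have := hx.smul hN (-1)
  simpa using this

theorem Bd.sub (hN : RA N) {x y : R} {s t : ℝ} (hx : Bd N x s) (hy : Bd N y t) (hs : 0 ≤ s)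
    (ht : 0 ≤ t) : Bd N (x - y) (s + t) := by
  rw [sub_eq_add_neg]
  exact hx.add hN (hy.neg hN) hs ht

theorem Bd.mul (hN : RA N) {x y : R} {s t : ℝ} (hx : Bd N x s) (hy : Bd N y t) (hs : 0 ≤ s) :
    Bd N (x * y) (s * t) := by
  unfold Bd
  rw [ENNReal.ofReal_mul hs]
  exact (hN.mul x y hx.ne_top hy.ne_top).trans (mul_le_mul' hx hy)

theorem Bd.pow (hN : RA N) {x : R} {t : ℝ} (hx : Bd N x t) (ht : 0 ≤ t) (k : ℕ) :
    Bd N (x ^ k) (t ^ k) := by
  induction k with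
  | zero => simpa using bd_one hN
  | succ k ih => rw [pow_succ, pow_succ]; exact ih.mul hN hx (pow_nonneg ht k)

theorem Bd.sum (hN : RA N) {ι : Type*} (s : Finset ι) {f : ι → R} {t : ι → ℝ}
    (h : ∀ i ∈ s, Bd N (f i) (t i)) (h0 : ∀ i ∈ s, 0 ≤ t i) : Bd N (∑ i ∈ s, f i) (∑ i ∈ s, t i) := by
  unfold Bd
  rw [ENNReal.ofReal_sum_of_nonneg h0]
  exact (hN.sum_le s f).trans (sum_le_sum h)

theorem Bd.prod (hN : RA N) {ι : Type*} (s : Finset ι) {f : ι → R} {t : ι → ℝ}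
    (h : ∀ i ∈ s, Bd N (f i) (t i)) (h0 : ∀ i ∈ s, 0 ≤ t i) : Bd N (∏ i ∈ s, f i) (∏ i ∈ s, t i) := by
  unfold Bd
  rw [ENNReal.ofReal_prod_of_nonneg h0]
  exact (hN.prod_le s f fun i hi => (h i hi).ne_top).trans (prod_le_prod' h)

theorem Bd.prod_const (hN : RA N) {ι : Type*} (s : Finset ι) {f : ι → R} {t : ℝ}
    (h : ∀ i ∈ s, Bd N (f i) t) (h0 : 0 ≤ t) : Bd N (∏ i ∈ s, f i) (t ^ s.card) := by
  have := Bd.prod hN s h fun _ _ => h0
  simpa using this

/-- perturbation of products, all factors bounded by `B ≥ 1` -/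
theorem Bd.prod_sub (hN : RA N) {ι : Type*} (s : Finset ι) {f g : ι → R} {B δ : ℝ} (hB : 1 ≤ B)
    (hδ : 0 ≤ δ) (hf : ∀ i ∈ s, Bd N (f i) B) (hg : ∀ i ∈ s, Bd N (g i) B)
    (hfg : ∀ i ∈ s, Bd N (f i - g i) δ) :
    Bd N (∏ i ∈ s, f i - ∏ i ∈ s, g i) (s.card * B ^ s.card * δ) := by
  classical
  induction s using Finset.induction_on with
  | empty => simpa using bd_zero hN
  | insert a s ha ih =>
    have ih' := ih (fun i hi => hf i (mem_insert_of_mem hi)) (fun i hi => hg i (mem_insert_of_mem hi))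
      fun i hi => hfg i (mem_insert_of_mem hi)
    have hB0 : 0 ≤ B := by linarith
    have h1 : Bd N (∏ i ∈ s, f i) (B ^ s.card) :=
      Bd.prod_const hN s (fun i hi => hf i (mem_insert_of_mem hi)) hB0
    have e : ∏ i ∈ insert a s, f i - ∏ i ∈ insert a s, g i =
        (f a - g a) * ∏ i ∈ s, f i + g a * (∏ i ∈ s, f i - ∏ i ∈ s, g i) := by
      rw [prod_insert ha, prod_insert ha]; ring
    rw [e, card_insert_of_notMem ha]
    have h2 := (hfg a (mem_insert_self _ _)).mul hN h1 hδ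
    have h3 := (hg a (mem_insert_self _ _)).mul hN ih' hB0
    refine (h2.add hN h3 (by positivity) (by positivity)).mono ?_
    have hp : 0 ≤ B ^ s.card * δ := by positivity
    have e2 : δ * B ^ s.card + B * (s.card * B ^ s.card * δ) =
        (B ^ s.card * δ) * (1 + s.card * B) := by ring
    have e3 : ((s.card + 1 : ℕ) : ℝ) * B ^ (s.card + 1) * δ =
        (B ^ s.card * δ) * (B + s.card * B) := by push_cast; ring
    rw [e2, e3]
    exact mul_le_mul_of_nonneg_left (by linarith) hp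

end norms

/-! ### Lipschitz bound of the polymer gas -/

section gas

variable {F : Type*} [DecidableEq F] {R : Type*} [CommRing R] [Algebra ℝ R] {N : R → ℝ≥0∞}

open Classical in
theorem ZZ_eq (near : F → F → Prop) (Λ : Finset F) (K : Finset F → R) :
    ZZ near Λ K = ∑ X ∈ (nes Λ).powerset, if Sep near X then ∏ U ∈ X, K U else 0 := by
  unfold ZZ
  rw [← sum_filter]
  refine sum_congr ?_ fun _ _ => rfl
  ext X
  simp only [mem_filter, mem_powerset]
  constructor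
  · rintro ⟨h, hs⟩
    exact ⟨fun U hU => mem_nes.2 ⟨mem_powerset.1 (h hU), hs.ne U hU⟩, hs⟩
  · rintro ⟨h, hs⟩
    exact ⟨fun U hU => mem_powerset.2 (mem_nes.1 (h hU)).1, hs⟩

theorem prod_diff_le (hN : RA N) {κ : Type*} [DecidableEq κ] (X : Finset κ) (K K' : κ → R)
    (h1 : ∀ U ∈ X, N (K' U) ≠ ∞) (h2 : ∀ U ∈ X, N (K U - K' U) ≠ ∞) :
    N (∏ U ∈ X, K U - ∏ U ∈ X, K' U) + ∏ U ∈ X, N (K' U) ≤
      ∏ U ∈ X, (N (K U - K' U) + N (K' U)) := by
  classical
  have e1 : ∏ U ∈ X, K U = ∑ Q ∈ X.powerset, (∏ U ∈ Q, (K U - K' U)) * ∏ U ∈ X \ Q, K' U := by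
    rw [← prod_add]
    exact prod_congr rfl fun U _ => by ring
  have e2 : ∏ U ∈ X, K U - ∏ U ∈ X, K' U =
      ∑ Q ∈ X.powerset.erase ∅, (∏ U ∈ Q, (K U - K' U)) * ∏ U ∈ X \ Q, K' U := by
    rw [e1, ← add_sum_erase _ _ (empty_mem_powerset X)]
    simp
  have e3 : ∏ U ∈ X, (N (K U - K' U) + N (K' U)) =
      ∑ Q ∈ X.powerset.erase ∅, (∏ U ∈ Q, N (K U - K' U)) * ∏ U ∈ X \ Q, N (K' U) +
        ∏ U ∈ X, N (K' U) := by
    rw [prod_add, ← add_sum_erase _ _ (empty_mem_powerset X), add_comm]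
    simp
  rw [e2, e3]
  gcongr
  refine (hN.sum_le _ _).trans (sum_le_sum fun Q hQ => ?_)
  have hQX : Q ⊆ X := mem_powerset.1 (mem_of_mem_erase hQ)
  have f1 : ∀ U ∈ Q, N (K U - K' U) ≠ ∞ := fun U hU => h2 U (hQX hU)
  have f2 : ∀ U ∈ X \ Q, N (K' U) ≠ ∞ := fun U hU => h1 U (mem_sdiff.1 hU).1
  have g1 := hN.prod_le Q (fun U => K U - K' U) f1
  have g2 := hN.prod_le (X \ Q) K' f2
  have t1 := ne_top_of_le_ne_top (ENNReal.prod_ne_top f1) g1
  have t2 := ne_top_of_le_ne_top (ENNReal.prod_ne_top f2) g2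
  exact (hN.mul _ _ t1 t2).trans (mul_le_mul' g1 g2)

theorem zz_diff_le (hN : RA N) (near : F → F → Prop) (Λ : Finset F) (K K' : Finset F → R)
    (h1 : ∀ U ∈ nes Λ, N (K' U) ≠ ∞) (h2 : ∀ U ∈ nes Λ, N (K U - K' U) ≠ ∞) :
    N (ZZ near Λ K - ZZ near Λ K') + ∏ U ∈ nes Λ, (1 + N (K' U)) ≤
      ∏ U ∈ nes Λ, (1 + (N (K U - K' U) + N (K' U))) := by
  classical
  rw [ZZ_eq, ZZ_eq, ← sum_sub_distrib, prod_one_add, prod_one_add]
  calc N (∑ X ∈ (nes Λ).powerset, ((if Sep near X then ∏ U ∈ X, K U else 0) -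
        if Sep near X then ∏ U ∈ X, K' U else 0)) + ∑ X ∈ (nes Λ).powerset, ∏ U ∈ X, N (K' U)
      ≤ ∑ X ∈ (nes Λ).powerset, N ((if Sep near X then ∏ U ∈ X, K U else 0) -
        if Sep near X then ∏ U ∈ X, K' U else 0) + ∑ X ∈ (nes Λ).powerset, ∏ U ∈ X, N (K' U) := by
        gcongr
        exact hN.sum_le _ _
    _ = ∑ X ∈ (nes Λ).powerset, (N ((if Sep near X then ∏ U ∈ X, K U else 0) -
        if Sep near X then ∏ U ∈ X, K' U else 0) + ∏ U ∈ X, N (K' U)) := sum_add_distrib.symm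
    _ ≤ _ := by
        refine sum_le_sum fun X hX => ?_
        have hX' := mem_powerset.1 hX
        by_cases h : Sep near X
        · rw [if_pos h, if_pos h]
          exact prod_diff_le hN X K K' (fun U hU => h1 U (hX' hU)) fun U hU => h2 U (hX' hU)
        · rw [if_neg h, if_neg h, sub_zero, hN.zero, zero_add]
          exact prod_le_prod' fun U _ => le_add_self

/-- **Lipschitz bound of the gas** -/
theorem zz_lip (hN : RA N) (near : F → F → Prop) (Λ : Finset F) (K K' : Finset F → R) {M η : ℝ}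
    (hM : 0 ≤ M) (hη : 0 ≤ η) (h1 : ∑ U ∈ nes Λ, N (K' U) ≤ ENNReal.ofReal M)
    (h2 : ∑ U ∈ nes Λ, N (K U - K' U) ≤ ENNReal.ofReal η) :
    Bd N (ZZ near Λ K - ZZ near Λ K') (Real.exp M * (Real.exp η - 1)) := by
  have f1 : ∀ U ∈ nes Λ, N (K' U) ≠ ∞ := fun U hU => ne_top_of_le_ne_top ENNReal.ofReal_ne_top
    ((single_le_sum (f := fun U => N (K' U)) (fun _ _ => zero_le) hU).trans h1)
  have f2 : ∀ U ∈ nes Λ, N (K U - K' U) ≠ ∞ := fun U hU => ne_top_of_le_ne_top ENNReal.ofReal_ne_top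
    ((single_le_sum (f := fun U => N (K U - K' U)) (fun _ _ => zero_le) hU).trans h2)
  have h := zz_diff_le hN near Λ K K' f1 f2
  -- real versions
  set x : Finset F → ℝ := fun U => (N (K' U)).toReal with hx
  set d : Finset F → ℝ := fun U => (N (K U - K' U)).toReal with hd
  have x0 : ∀ U, 0 ≤ x U := fun U => ENNReal.toReal_nonneg
  have d0 : ∀ U, 0 ≤ d U := fun U => ENNReal.toReal_nonneg
  have ex : ∀ U ∈ nes Λ, N (K' U) = ENNReal.ofReal (x U) := fun U hU =>
    (ENNReal.ofReal_toReal (f1 U hU)).symm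
  have ed : ∀ U ∈ nes Λ, N (K U - K' U) = ENNReal.ofReal (d U) := fun U hU =>
    (ENNReal.ofReal_toReal (f2 U hU)).symm
  have p1 : ∏ U ∈ nes Λ, (1 + N (K' U)) = ENNReal.ofReal (∏ U ∈ nes Λ, (1 + x U)) := by
    rw [ENNReal.ofReal_prod_of_nonneg fun U _ => by have := x0 U; positivity]
    refine prod_congr rfl fun U hU => ?_
    rw [ex U hU, ENNReal.ofReal_add zero_le_one (x0 U), ENNReal.ofReal_one]
  have p2 : ∏ U ∈ nes Λ, (1 + (N (K U - K' U) + N (K' U))) =
      ENNReal.ofReal (∏ U ∈ nes Λ, (1 + (d U + x U))) := by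
    rw [ENNReal.ofReal_prod_of_nonneg fun U _ => by have := x0 U; have := d0 U; positivity]
    refine prod_congr rfl fun U hU => ?_
    rw [ex U hU, ed U hU, ENNReal.ofReal_add zero_le_one (add_nonneg (d0 U) (x0 U)),
      ENNReal.ofReal_one, ENNReal.ofReal_add (d0 U) (x0 U)]
  have sx : ∑ U ∈ nes Λ, x U ≤ M := by
    have : ENNReal.ofReal (∑ U ∈ nes Λ, x U) ≤ ENNReal.ofReal M := by
      rw [ENNReal.ofReal_sum_of_nonneg fun U _ => x0 U]
      refine le_trans (le_of_eq (sum_congr rfl fun U hU => (ex U hU).symm)) h1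
    exact (ENNReal.ofReal_le_ofReal_iff hM).1 this
  have sd : ∑ U ∈ nes Λ, d U ≤ η := by
    have : ENNReal.ofReal (∑ U ∈ nes Λ, d U) ≤ ENNReal.ofReal η := by
      rw [ENNReal.ofReal_sum_of_nonneg fun U _ => d0 U]
      refine le_trans (le_of_eq (sum_congr rfl fun U hU => (ed U hU).symm)) h2
    exact (ENNReal.ofReal_le_ofReal_iff hη).1 this
  have q1 : ∏ U ∈ nes Λ, (1 + (d U + x U)) ≤
      (∏ U ∈ nes Λ, (1 + x U)) * ∏ U ∈ nes Λ, (1 + d U) := by
    rw [← prod_mul_distrib]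
    refine prod_le_prod (fun U _ => by have := x0 U; have := d0 U; positivity) fun U _ => ?_
    nlinarith [mul_nonneg (x0 U) (d0 U)]
  have q2 : ∀ y : Finset F → ℝ, (∀ U, 0 ≤ y U) → ∏ U ∈ nes Λ, (1 + y U) ≤
      Real.exp (∑ U ∈ nes Λ, y U) := by
    intro y hy
    rw [Real.exp_sum]
    refine prod_le_prod (fun U _ => by have := hy U; positivity) fun U _ => ?_
    rw [add_comm]; exact Real.add_one_le_exp _
  have q3 : ∏ U ∈ nes Λ, (1 + (d U + x U)) ≤ ∏ U ∈ nes Λ, (1 + x U) +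
      Real.exp M * (Real.exp η - 1) := by
    have hP0 : 0 ≤ ∏ U ∈ nes Λ, (1 + x U) := prod_nonneg fun U _ => by
      have := x0 U; positivity
    have hP : ∏ U ∈ nes Λ, (1 + x U) ≤ Real.exp M := (q2 x x0).trans (Real.exp_le_exp.2 sx)
    have hD : ∏ U ∈ nes Λ, (1 + d U) ≤ Real.exp η := (q2 d d0).trans (Real.exp_le_exp.2 sd)
    have h1η : 0 ≤ Real.exp η - 1 := by linarith [Real.add_one_le_exp η]
    calc _ ≤ (∏ U ∈ nes Λ, (1 + x U)) * ∏ U ∈ nes Λ, (1 + d U) := q1
      _ ≤ (∏ U ∈ nes Λ, (1 + x U)) * Real.exp η := mul_le_mul_of_nonneg_left hD hP0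
      _ = ∏ U ∈ nes Λ, (1 + x U) + (∏ U ∈ nes Λ, (1 + x U)) * (Real.exp η - 1) := by ring
      _ ≤ _ := by gcongr
  have h1η : 0 ≤ Real.exp η - 1 := by linarith [Real.add_one_le_exp η]
  rw [p1, p2] at h
  have h3 : N (ZZ near Λ K - ZZ near Λ K') + ENNReal.ofReal (∏ U ∈ nes Λ, (1 + x U)) ≤
      ENNReal.ofReal (Real.exp M * (Real.exp η - 1)) +
        ENNReal.ofReal (∏ U ∈ nes Λ, (1 + x U)) := by
    refine h.trans ((ENNReal.ofReal_le_ofReal q3).trans (le_of_eq ?_))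
    rw [add_comm (∏ U ∈ nes Λ, (1 + x U)), ENNReal.ofReal_add (by positivity)
      (prod_nonneg fun U _ => by have := x0 U; positivity)]
  exact (ENNReal.add_le_add_iff_right ENNReal.ofReal_ne_top).1 h3

/-- the leading family: `f i` at the face set `Uf i` -/
def lead {m : ℕ} (Uf : Fin m → Finset F) (f : Fin m → R) (U : Finset F) : R :=
  ∑ i, if U = Uf i then f i else 0

theorem lead_at {m : ℕ} {Uf : Fin m → Finset F} (hinj : Function.Injective Uf) (f : Fin m → R)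
    (i : Fin m) : lead Uf f (Uf i) = f i := by
  unfold lead
  rw [sum_eq_single i]
  · simp
  · intro j _ hj
    rw [if_neg fun h => hj (hinj h).symm]
  · intro h; exact absurd (mem_univ i) h

theorem lead_off {m : ℕ} {Uf : Fin m → Finset F} (f : Fin m → R) {U : Finset F}
    (h : ∀ i, U ≠ Uf i) : lead Uf f U = 0 := by
  unfold lead
  exact sum_eq_zero fun i _ => if_neg (h i)

/-- **the gas of the leading family** -/
theorem zz_lead (near : F → F → Prop) {Λ : Finset F} {m : ℕ} {Uf : Fin m → Finset F}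
    (hinj : Function.Injective Uf) (hne : ∀ i, (Uf i).Nonempty) (hΛ : ∀ i, Uf i ⊆ Λ)
    (hsep : ∀ i j, i ≠ j → ¬ touch near (Uf i) (Uf j)) (f : Fin m → R) :
    ZZ near Λ (lead Uf f) = ∏ i, (1 + f i) := by
  classical
  have hT : (univ.image Uf) ⊆ nes Λ := by
    intro U hU
    obtain ⟨i, -, rfl⟩ := mem_image.1 hU
    exact mem_nes.2 ⟨hΛ i, hne i⟩
  have e1 : ∏ i, (1 + f i) = ∏ U ∈ univ.image Uf, (1 + lead Uf f U) := by
    rw [prod_image fun i _ j _ h => hinj h]
    exact prod_congr rfl fun i _ => by rw [lead_at hinj]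
  rw [e1, prod_one_add, ZZ_eq]
  refine (sum_subset_zero_on_sdiff (powerset_mono.2 hT) ?_ ?_).symm
  · intro X hX
    rw [mem_sdiff, mem_powerset, mem_powerset] at hX
    obtain ⟨U, hU, hU'⟩ := not_subset.1 hX.2
    have h0 : lead Uf f U = 0 := lead_off f fun i hi => hU' (by
      rw [hi]; exact mem_image_of_mem _ (mem_univ i))
    split_ifs
    · exact prod_eq_zero hU h0
    · rfl
  · intro X hX
    rw [mem_powerset] at hX
    rw [if_pos]
    refine ⟨fun U hU => (mem_nes.1 (hT (hX hU))).2, fun U hU W hW hUW => ?_⟩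
    obtain ⟨i, -, rfl⟩ := mem_image.1 (hX hU)
    obtain ⟨j, -, rfl⟩ := mem_image.1 (hX hW)
    exact hsep i j fun h => hUW (by rw [h])

theorem sum_lead_le (hN : RA N) {Λ : Finset F} {m : ℕ} {Uf : Fin m → Finset F} {f : Fin m → R}
    {t : ℝ} (ht : 0 ≤ t) (hf : ∀ i, Bd N (f i) t) :
    ∑ U ∈ nes Λ, N (lead Uf f U) ≤ ENNReal.ofReal (m * t) := by
  classical
  have h1 : ∀ U, N (lead Uf f U) ≤ ∑ i : Fin m, if U = Uf i then ENNReal.ofReal t else 0 := by
    intro U
    unfold lead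
    refine (hN.sum_le _ _).trans (sum_le_sum fun i _ => ?_)
    split_ifs
    · exact hf i
    · rw [hN.zero]
  calc ∑ U ∈ nes Λ, N (lead Uf f U)
      ≤ ∑ U ∈ nes Λ, ∑ i : Fin m, if U = Uf i then ENNReal.ofReal t else 0 :=
        sum_le_sum fun U _ => h1 U
    _ = ∑ i : Fin m, ∑ U ∈ nes Λ, if U = Uf i then ENNReal.ofReal t else 0 := sum_comm
    _ ≤ ∑ _i : Fin m, ENNReal.ofReal t := by
        refine sum_le_sum fun i _ => ?_
        rw [sum_ite_eq' (nes Λ) (Uf i) fun _ => ENNReal.ofReal t]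
        split_ifs
        · exact le_rfl
        · exact zero_le
    _ = ENNReal.ofReal (m * t) := by
        rw [sum_const, card_univ, Fintype.card_fin, nsmul_eq_mul,
          ENNReal.ofReal_mul (Nat.cast_nonneg m), ENNReal.ofReal_natCast]

end gas

/-! ### exponentials -/

section expo

variable {V : Type*} [AddCommGroup V] [Module ℝ V] {N : Ge V → ℝ≥0∞}

theorem nexp_bd (hN : RA N) {a : Ge V} (ha : IsNilpotent a) {t : ℝ} (h0 : 0 ≤ t)
    (h : Bd N a t) : Bd N (nexp a - 1) (Real.exp t - 1) := by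
  obtain ⟨k, hk⟩ := ha
  have hk' : a ^ (k + 1) = 0 := by rw [pow_succ, hk, zero_mul]
  have e : nexp a - 1 = ∑ i ∈ range k, (((i + 1)! : ℝ)⁻¹) • a ^ (i + 1) := by
    rw [nexp_eq_sum hk', sum_range_succ']
    simp
  rw [e]
  have h1 : Bd N (∑ i ∈ range k, (((i + 1)! : ℝ)⁻¹) • a ^ (i + 1))
      (∑ i ∈ range k, ((i + 1)! : ℝ)⁻¹ * t ^ (i + 1)) := by
    refine Bd.sum hN _ (fun i _ => ?_) fun i _ => by positivity
    have := (h.pow hN h0 (i + 1)).smul hN (((i + 1)! : ℝ)⁻¹)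
    rwa [abs_of_nonneg (by positivity)] at this
  refine h1.mono ?_
  have h2 := Real.sum_le_exp_of_nonneg h0 (k + 1)
  rw [sum_range_succ'] at h2
  simp only [pow_zero, Nat.factorial_zero, Nat.cast_one, div_one] at h2
  have h3 : ∑ i ∈ range k, ((i + 1)! : ℝ)⁻¹ * t ^ (i + 1) =
      ∑ i ∈ range k, t ^ (i + 1) / ((i + 1)! : ℝ) :=
    sum_congr rfl fun i _ => by rw [div_eq_mul_inv, mul_comm]
  rw [h3]
  linarith

/-- `N (gexp a - 1) ≤ exp (c + t) - 1` -/
theorem gexp_bd (hN : RA N) {a : Ge V} {c t : ℝ} (ht : 0 ≤ t) (hc : |ctG a| ≤ c)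
    (h : Bd N (nl a) t) : Bd N (gexp a - 1) (Real.exp (c + t) - 1) := by
  have c0 : 0 ≤ c := (abs_nonneg _).trans hc
  have e : gexp a - 1 = Real.exp (ctG a) • (nexp (nl a) - 1) + (Real.exp (ctG a) - 1) • (1 : Ge V) := by
    rw [gexp, smul_sub, sub_smul, one_smul]; abel
  have h1 := (nexp_bd hN (nl_nil a) ht h).smul hN (Real.exp (ctG a))
  have h2 := (bd_one hN).smul hN (Real.exp (ctG a) - 1)
  rw [e]
  have ht1 : 0 ≤ Real.exp t - 1 := by linarith [Real.add_one_le_exp t]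
  refine (h1.add hN h2 (mul_nonneg (abs_nonneg _) ht1) (by positivity)).mono ?_
  have h3 : |Real.exp (ctG a)| ≤ Real.exp c := by
    rw [abs_of_pos (Real.exp_pos _)]
    exact Real.exp_le_exp.2 ((le_abs_self _).trans hc)
  have h4 : |Real.exp (ctG a) - 1| ≤ Real.exp c - 1 := by
    have := Crest.Agent.R165.GExpx900.real_exp_sub_one_le (ctG a)
    exact this.trans (by linarith [Real.exp_le_exp.2 hc])
  calc |Real.exp (ctG a)| * (Real.exp t - 1) + |Real.exp (ctG a) - 1| * 1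
      ≤ Real.exp c * (Real.exp t - 1) + (Real.exp c - 1) := by
        rw [mul_one]
        exact add_le_add (mul_le_mul_of_nonneg_right h3 ht1) h4
    _ = Real.exp (c + t) - 1 := by rw [Real.exp_add]; ring

/-- exponential of a square zero element -/
theorem gexp_sq_zero {a : Ge V} (h : a * a = 0) (h0 : ctG a = 0) : gexp a = 1 + a := by
  have hn : nl a = a := by rw [nl, h0, map_zero, sub_zero]
  rw [gexp, h0, Real.exp_zero, one_smul, hn, nexp_eq_sum (k := 2) (by rw [pow_two, h])]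
  simp [sum_range_succ]

end expo

/-! ### the ratio of the top and the bottom coefficient -/

section ratio

variable {R : Type*} [CommRing R] [Algebra ℝ R] {N : R → ℝ≥0∞}

/-- bound of the factors -/
def Bc (M : ℝ) : ℝ := 2 + M + M ^ 2

/-- the constant of `core` -/
def Cc (m : ℕ) (M : ℝ) : ℝ :=
  (1 + M) ^ m * ((1 + M ^ 2) ^ m + 2) + m * Bc M ^ m * (1 + M)

/-- data at the final scale, in a commutative algebra with norm `N`:
`τ i` sources, `w i` bond bilinears, `e i` accumulated constants with one source, `z` the energy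
factor, `gr` the exponential of the constants with at least two sources, `Z` the gas -/
structure FinA (N : R → ℝ≥0∞) {m : ℕ} (τ w : Fin m → R) (e e0 : Fin m → ℝ) (z Ze : ℝ)
    (gr Z : R) (M η : ℝ) : Prop where
  norm : RA N
  M1 : 1 ≤ M
  η0 : 0 ≤ η
  η1 : η ≤ 1
  sq : ∀ i, τ i * τ i = 0
  he : ∀ i, Bd N (e i • τ i) M
  hw : ∀ i, Bd N (τ i * w i) M
  hz : |z| ≤ M
  hZe : |Ze| ≤ M
  hee : ∀ i, Bd N ((e i - Ze * e0 i) • τ i) η
  hzz : |z - Ze| ≤ η
  hgr : Bd N (gr - 1) η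
  hZ : Bd N (Z - ∏ i, (1 + z • (τ i * w i))) η

variable {m : ℕ} {τ w : Fin m → R} {e e0 : Fin m → ℝ} {z Ze : ℝ} {gr Z : R} {M η : ℝ}

/-- the limiting product -/
def P0 (τ w : Fin m → R) (e0 : Fin m → ℝ) (Ze : ℝ) : R :=
  ∏ i, (1 + τ i * ((Ze * e0 i) • (1 : R) + Ze • w i))

theorem FinA.factor (h : FinA N τ w e e0 z Ze gr Z M η) (i : Fin m) :
    Bd N (1 + τ i * ((Ze * e0 i) • (1 : R) + Ze • w i)) (Bc M) := by
  have hN := h.norm
  have hM0 : 0 ≤ M := by linarith [h.M1]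
  have e1 : 1 + τ i * ((Ze * e0 i) • (1 : R) + Ze • w i) =
      (1 + (e i • τ i - (e i - Ze * e0 i) • τ i)) + Ze • (τ i * w i) := by
    rw [mul_add, mul_smul_comm, mul_smul_comm, mul_one, sub_smul]; abel
  rw [e1]
  have h1 := (h.he i).sub hN (h.hee i) hM0 h.η0
  have h2 := (bd_one hN).add hN h1 zero_le_one (add_nonneg hM0 h.η0)
  have h3 := (h.hw i).smul hN Ze
  have p1 : |Ze| * M ≤ M * M := mul_le_mul_of_nonneg_right h.hZe hM0
  refine (h2.add hN h3 (by have := h.η0; positivity) (by positivity)).mono ?_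
  unfold Bc
  have := h.η1
  nlinarith

theorem FinA.bd_P0 (h : FinA N τ w e e0 z Ze gr Z M η) : Bd N (P0 τ w e0 Ze) (Bc M ^ m) := by
  have hB : 0 ≤ Bc M := by unfold Bc; have := h.M1; positivity
  have := Bd.prod_const h.norm univ (fun i _ => h.factor i) hB
  rwa [card_univ, Fintype.card_fin] at this

/-- **core estimate** -/
theorem FinA.core (h : FinA N τ w e e0 z Ze gr Z M η) :
    Bd N ((∏ i, (1 + e i • τ i)) * gr * Z - P0 τ w e0 Ze) (Cc m M * η) := by
  have hN := h.norm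
  have hM1 := h.M1
  have hM0 : 0 ≤ M := by linarith
  have hη0 := h.η0
  have hη1 := h.η1
  have cardm : (univ : Finset (Fin m)).card = m := by rw [card_univ, Fintype.card_fin]
  -- bounds of the two products
  have b1 : Bd N (∏ i, (1 + e i • τ i)) ((1 + M) ^ m) := by
    have := Bd.prod_const hN univ (f := fun i => 1 + e i • τ i) (t := 1 + M)
      (fun i _ => (bd_one hN).add hN (h.he i) zero_le_one hM0) (by linarith)
    rwa [cardm] at this
  have bzw : ∀ i, Bd N (z • (τ i * w i)) (M ^ 2) := fun i =>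
    ((h.hw i).smul hN z).mono (by
      have := mul_le_mul_of_nonneg_right h.hz hM0
      rwa [← pow_two] at this)
  have b2 : Bd N (∏ i, (1 + z • (τ i * w i))) ((1 + M ^ 2) ^ m) := by
    have := Bd.prod_const hN univ (f := fun i => 1 + z • (τ i * w i)) (t := 1 + M ^ 2)
      (fun i _ => (bd_one hN).add hN (bzw i) zero_le_one (by positivity)) (by positivity)
    rwa [cardm] at this
  have bZ : Bd N Z ((1 + M ^ 2) ^ m + 1) := by
    have e1 : Z = (Z - ∏ i, (1 + z • (τ i * w i))) + ∏ i, (1 + z • (τ i * w i)) := by ring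
    rw [e1]
    exact (h.hZ.add hN b2 hη0 (by positivity)).mono (by linarith)
  -- the product of the two products
  have e2 : (∏ i, (1 + e i • τ i)) * ∏ i, (1 + z • (τ i * w i)) =
      ∏ i, (1 + (e i • τ i + z • (τ i * w i))) := by
    rw [← prod_mul_distrib]
    refine prod_congr rfl fun i _ => ?_
    have : e i • τ i * (z • (τ i * w i)) = 0 := by
      rw [smul_mul_smul_comm, ← mul_assoc, h.sq i, zero_mul, smul_zero]
    calc (1 + e i • τ i) * (1 + z • (τ i * w i))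
        = 1 + (e i • τ i + z • (τ i * w i)) + e i • τ i * (z • (τ i * w i)) := by ring
      _ = _ := by rw [this, add_zero]
  have b3 : Bd N (∏ i, (1 + (e i • τ i + z • (τ i * w i))) - P0 τ w e0 Ze)
      (m * Bc M ^ m * ((1 + M) * η)) := by
    have := Bd.prod_sub hN univ (f := fun i => 1 + (e i • τ i + z • (τ i * w i)))
      (g := fun i => 1 + τ i * ((Ze * e0 i) • (1 : R) + Ze • w i)) (B := Bc M) (δ := (1 + M) * η)
      (by unfold Bc; nlinarith) (by positivity) (fun i _ => ?_) (fun i _ => h.factor i) fun i _ => ?_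
    · rwa [cardm] at this
    · refine ((bd_one hN).add hN ((h.he i).add hN (bzw i) hM0 (by positivity)) zero_le_one
        (by positivity)).mono ?_
      unfold Bc; linarith
    · have e3 : 1 + (e i • τ i + z • (τ i * w i)) -
          (1 + τ i * ((Ze * e0 i) • (1 : R) + Ze • w i)) =
          (e i - Ze * e0 i) • τ i + (z - Ze) • (τ i * w i) := by
        rw [mul_add, mul_smul_comm, mul_smul_comm, mul_one, sub_smul, sub_smul]; abel
      rw [e3]
      refine ((h.hee i).add hN ((h.hw i).smul hN (z - Ze)) hη0 (by positivity)).mono ?_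
      have := mul_le_mul_of_nonneg_right h.hzz hM0
      linarith
  have e4 : (∏ i, (1 + e i • τ i)) * gr * Z - P0 τ w e0 Ze =
      ((∏ i, (1 + e i • τ i)) * (gr - 1) * Z +
        (∏ i, (1 + e i • τ i)) * (Z - ∏ i, (1 + z • (τ i * w i)))) +
      (∏ i, (1 + (e i • τ i + z • (τ i * w i))) - P0 τ w e0 Ze) := by
    rw [← e2]; ring
  rw [e4]
  have c1 := (b1.mul hN h.hgr (by positivity)).mul hN bZ (by positivity)
  have c2 := b1.mul hN h.hZ (by positivity)
  have hB : 0 ≤ Bc M := by unfold Bc; positivity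
  refine ((c1.add hN c2 (by positivity) (by positivity)).add hN b3 (by positivity)
    (by positivity)).mono ?_
  unfold Cc
  apply le_of_eq
  ring

theorem Cc_nonneg {M : ℝ} (hM : 0 ≤ M) (m : ℕ) : 0 ≤ Cc m M := by
  unfold Cc Bc; positivity

/-- **ratio of the top and the bottom coefficient at the final scale** -/
theorem FinA.ratio (h : FinA N τ w e e0 z Ze gr Z M η) {A c : ℝ} (tp bt : R →ₗ[ℝ] ℝ)
    (hA : 0 ≤ A) (htp : ∀ x t, 0 ≤ t → Bd N x t → |tp x| ≤ A * t)
    (hbt : ∀ x t, 0 ≤ t → Bd N x t → |bt x| ≤ t) (hb : bt (P0 τ w e0 Ze) = 1)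
    (hsm : Cc m M * η ≤ 1 / 2) :
    |tp (Real.exp c • ((∏ i, (1 + e i • τ i)) * gr * Z)) /
        bt (Real.exp c • ((∏ i, (1 + e i • τ i)) * gr * Z)) - tp (P0 τ w e0 Ze)| ≤
      2 * Cc m M * (1 + Bc M ^ m) * (A * η) := by
  have hM0 : 0 ≤ M := by linarith [h.M1]
  have hC := Cc_nonneg hM0 m
  have hCη : 0 ≤ Cc m M * η := mul_nonneg hC h.η0
  have hB : 0 ≤ Bc M := by unfold Bc; positivity
  set Y := (∏ i, (1 + e i • τ i)) * gr * Z with hY
  have h1 := htp _ _ hCη h.core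
  have h2 := hbt _ _ hCη h.core
  have h3 := htp _ _ (by positivity) h.bd_P0
  rw [map_sub] at h1 h2
  rw [hb] at h2
  have hbY : 1 / 2 ≤ bt Y := by
    have := (abs_le.1 h2).1
    linarith
  have hbY0 : bt Y ≠ 0 := by linarith
  have e1 : tp (Real.exp c • Y) / bt (Real.exp c • Y) = tp Y / bt Y := by
    rw [map_smul, map_smul, smul_eq_mul, smul_eq_mul,
      mul_div_mul_left _ _ (Real.exp_pos c).ne']
  have e2 : tp Y / bt Y - tp (P0 τ w e0 Ze) =
      ((tp Y - tp (P0 τ w e0 Ze)) - tp (P0 τ w e0 Ze) * (bt Y - 1)) / bt Y := by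
    field_simp
    ring
  rw [e1, e2, abs_div, div_le_iff₀ (abs_pos.2 hbY0), abs_of_pos (by linarith : 0 < bt Y)]
  have h4 : |(tp Y - tp (P0 τ w e0 Ze)) - tp (P0 τ w e0 Ze) * (bt Y - 1)| ≤
      A * (Cc m M * η) + A * Bc M ^ m * (Cc m M * η) := by
    refine (abs_sub _ _).trans ?_
    rw [abs_mul]
    exact add_le_add h1 (mul_le_mul h3 h2 (abs_nonneg _) (by positivity))
  refine h4.trans ?_
  have h5 : A * (Cc m M * η) + A * Bc M ^ m * (Cc m M * η) =
      (Cc m M * (1 + Bc M ^ m) * (A * η)) := by ring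
  rw [h5]
  have h6 : 0 ≤ Cc m M * (1 + Bc M ^ m) * (A * η) := by have := h.η0; positivity
  nlinarith

end ratio

end Crest.Agent.R165.SrcFinx441
end
end

-- ▼ part R165/SrcFinB_441

/-!
# Row 165 (S0250), leaf P11 item 5: final scale algebra with `m` sources, part 2 (helper441)

The concrete algebra `Ge (VS V m)` of `SrcDef_991` with the norm `pG (wS g v)`.

* `dd_split`      : `s * pnorm w (dd l F) ≤ pnorm (w + s |l|) F`
* `coP_bd`        : `∏ v_i² * pG g (coP univ F) ≤ pG (wS g v) F`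
* `coP_prod`      : `coP univ (∏ (1 + τ_i G_i)) = ∏ G_i`
* `coP_cvG`       : `coP` commutes with the convolution
* `final_cmp`     : comparison of the two coefficients with the unperturbed product
* `final_literal` : item 5 of TEXT P11
-/

set_option autoImplicit false
set_option linter.unusedSectionVars false
set_option linter.unusedVariables false

noncomputable section

namespace Crest.Agent.R165.SrcFinBx441

open Finset
open scoped ENNReal Nat
open Crest.Agent.R165.FinBx900 Crest.Agent.R165.KStepx892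
open Crest.Agent.R165.Gr0x606 Crest.Agent.R165.Gr1x606 Crest.Agent.R165.GeOpsx337
  Crest.Agent.R165.ExpGx337 Crest.Agent.R165.PNormx417 Crest.Agent.R165.KFlowx337
  Crest.Agent.R165.SrcDefx991 Crest.Agent.R165.SrcFinx441 Crest.Agent.R165.GrLocx337
open Crest.Agent.R165.PPbx63 (ddR rval_ddR)

variable {V : Type*} [AddCommGroup V] [Module ℝ V] {m : ℕ}

/-! ### derivations and norms -/

theorem rwt_ddR_split (w : V → ℝ≥0∞) (l : Module.Dual ℝ V) (s : ℝ≥0∞) (L : List V) :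
    s * rwt w (ddR l L) + mwt w L ≤ mwt (fun x => w x + s * ‖l x‖ₑ) L := by
  induction L with
  | nil => simp [ddR]
  | cons x L ih =>
    have e : rwt w (ddR l (x :: L)) = ‖l x‖ₑ * mwt w L + w x * rwt w (ddR l L) := by
      rw [ddR, rwt_cons, Crest.Agent.R165.PPbx63.rwt_map_neg_cons]
    rw [e, mwt_cons, mwt_cons]
    have h2 : mwt w L ≤ mwt (fun x => w x + s * ‖l x‖ₑ) L :=
      mwt_mono (fun y => le_self_add) L
    calc s * (‖l x‖ₑ * mwt w L + w x * rwt w (ddR l L)) + w x * mwt w L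
        = s * ‖l x‖ₑ * mwt w L + w x * (s * rwt w (ddR l L) + mwt w L) := by ring
      _ ≤ s * ‖l x‖ₑ * mwt (fun x => w x + s * ‖l x‖ₑ) L +
          w x * mwt (fun x => w x + s * ‖l x‖ₑ) L := by gcongr
      _ = _ := by ring

/-- **one derivation** -/
theorem dd_split (w : V → ℝ≥0∞) (l : Module.Dual ℝ V) {s : ℝ} (hs : 0 < s) (F : Gr V) :
    ENNReal.ofReal s * pnorm w (dd l F) ≤ pnorm (fun x => w x + ENNReal.ofReal s * ‖l x‖ₑ) F := by
  have h0 : ENNReal.ofReal s ≠ 0 := by simpa using hs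
  have hN : ESemi fun F : Gr V => ENNReal.ofReal s * pnorm w F := (pnorm_semi w).const_mul _
  refine bound_of_mono_one hN (dd l) (fun L _ => ?_) F
  rw [← rval_ddR]
  calc ENNReal.ofReal s * pnorm w (rval (ddR l L)) ≤ ENNReal.ofReal s * rwt w (ddR l L) := by
        gcongr; exact pnorm_le_rwt _ _
    _ ≤ ENNReal.ofReal s * rwt w (ddR l L) + mwt w L := le_self_add
    _ ≤ _ := rwt_ddR_split w l _ L

/-- weight of one pair of sources -/
def vp (v : Fin m → ℝ≥0∞) (i : Fin m) (a : Src m) : ℝ≥0∞ := v i * (‖(a i).1‖ₑ + ‖(a i).2‖ₑ)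

theorem cpair_split (w : VS V m → ℝ≥0∞) {v : Fin m → ℝ} {i : Fin m} (hv : 0 < v i)
    (F : Ge (VS V m)) :
    ENNReal.ofReal (v i ^ 2) * pG w (cpair i F) ≤
      pG (fun x => w x + vp (fun i => ENNReal.ofReal (v i)) i x.2) F := by
  have h1 := dd_split w (dth' i) hv (dd (dth i) (F : Gr (VS V m)))
  have h2 := dd_split (fun x => w x + ENNReal.ofReal (v i) * ‖dth' i x‖ₑ) (dth i) hv
    (F : Gr (VS V m))
  have e1 : ENNReal.ofReal (v i ^ 2) = ENNReal.ofReal (v i) * ENNReal.ofReal (v i) := by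
    rw [pow_two, ENNReal.ofReal_mul hv.le]
  rw [pG_def, coe_cpair, e1, mul_assoc]
  refine (mul_le_mul' le_rfl h1).trans (h2.trans (le_of_eq ?_))
  rw [pG_def]
  congr 1
  funext x
  simp only [vp, dth, dth', LinearMap.comp_apply, LinearMap.fst_apply, LinearMap.snd_apply,
    LinearMap.proj_apply]
  ring

/-- iterated coefficients along a list -/
def cpL (L : List (Fin m)) : Module.End ℝ (Ge (VS V m)) := (L.map cpair).prod

@[simp] theorem cpL_nil (F : Ge (VS V m)) : cpL [] F = F := rfl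

@[simp] theorem cpL_cons (i : Fin m) (L : List (Fin m)) (F : Ge (VS V m)) :
    cpL (i :: L) F = cpair i (cpL L F) := by
  simp [cpL]

theorem coP_eq (I : Finset (Fin m)) (F : Ge (VS V m)) :
    coP I F = noS (cpL (I.sort (· ≤ ·)) F) := rfl

theorem cpL_split (L : List (Fin m)) {v : Fin m → ℝ} (hv : ∀ i, 0 < v i) (w : VS V m → ℝ≥0∞)
    (F : Ge (VS V m)) :
    ENNReal.ofReal ((L.map fun i => v i ^ 2).prod) * pG w (cpL L F) ≤
      pG (fun x => w x + (L.map fun i => vp (fun i => ENNReal.ofReal (v i)) i x.2).sum) F := by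
  induction L generalizing w with
  | nil => simp
  | cons i L ih =>
    rw [cpL_cons, List.map_cons, List.prod_cons, mul_comm (v i ^ 2),
      ENNReal.ofReal_mul (List.prod_nonneg (by
        intro a ha
        obtain ⟨j, -, rfl⟩ := List.mem_map.1 ha
        positivity)), mul_assoc]
    refine (mul_le_mul' le_rfl (cpair_split w (hv i) _)).trans ((ih _).trans (le_of_eq ?_))
    congr 1
    funext x
    rw [List.map_cons, List.sum_cons, add_assoc]

theorem pG_mp_le {V' : Type*} [AddCommGroup V'] [Module ℝ V'] {w : V → ℝ≥0∞} {w' : V' → ℝ≥0∞}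
    (f : V →ₗ[ℝ] V') (h : ∀ x, w' (f x) ≤ w x) (F : Ge V) : pG w' (mpG f F) ≤ pG w F := by
  rw [pG_def, pG_def, coe_mpG]
  exact pnorm_mp_le f h _

theorem sort_perm_sum {α : Type*} [AddCommMonoid α] (I : Finset (Fin m)) (f : Fin m → α) :
    ((I.sort (· ≤ ·)).map f).sum = ∑ i ∈ I, f i := by
  rw [← Finset.sum_map_toList]
  exact ((Finset.sort_perm_toList I _).map f).sum_eq

theorem sort_perm_prod {α : Type*} [CommMonoid α] (I : Finset (Fin m)) (f : Fin m → α) :
    ((I.sort (· ≤ ·)).map f).prod = ∏ i ∈ I, f i := by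
  rw [← Finset.prod_map_toList]
  exact ((Finset.sort_perm_toList I _).map f).prod_eq

/-- **norm splitting** -/
theorem coP_bd (I : Finset (Fin m)) {v : Fin m → ℝ} (hv : ∀ i, 0 < v i) (g : V → ℝ≥0∞)
    (F : Ge (VS V m)) :
    ENNReal.ofReal (∏ i ∈ I, v i ^ 2) * pG g (coP I F) ≤
      pG (wS g fun i => ENNReal.ofReal (v i)) F := by
  have h1 := cpL_split (I.sort (· ≤ ·)) hv (fun x : VS V m => g x.1) F
  rw [sort_perm_prod] at h1
  rw [coP_eq]
  have h2 : pG g (noS (cpL (I.sort (· ≤ ·)) F)) ≤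
      pG (fun x : VS V m => g x.1) (cpL (I.sort (· ≤ ·)) F) :=
    pG_mp_le _ (fun x => le_rfl) _
  refine (mul_le_mul' le_rfl h2).trans (h1.trans ?_)
  refine pnorm_le_pnorm (fun x => ?_) _
  simp only [wS, vS, sort_perm_sum]
  gcongr
  exact sum_le_sum_of_subset (f := fun i => vp (fun i => ENNReal.ofReal (v i)) i x.2) (subset_univ I)

/-! ### `coP` and products -/

theorem dd_prod_zero (l : Module.Dual ℝ (VS V m)) {ι : Type*} (s : Finset ι)
    (f : ι → Ge (VS V m)) (h : ∀ i ∈ s, dd l ((f i : Ge (VS V m)) : Gr (VS V m)) = 0) :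
    dd l ((∏ i ∈ s, f i : Ge (VS V m)) : Gr (VS V m)) = 0 := by
  classical
  induction s using Finset.induction_on with
  | empty => simp
  | insert a s ha ih =>
    rw [prod_insert ha, Ge.coe_mul, dd_mul, h a (mem_insert_self _ _), zero_mul, zero_add,
      ih fun i hi => h i (mem_insert_of_mem hi), mul_zero]

/-- the factor with source `i` -/
def fac (G : Fin m → Ge V) (i : Fin m) : Ge (VS V m) := 1 + tau i * inG m (G i)

theorem dd_fac_ne {G : Fin m → Ge V} {i j : Fin m} (h : j ≠ i) :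
    dd (dth i) ((fac G j : Ge (VS V m)) : Gr (VS V m)) = 0 ∧
      dd (dth' i) ((fac G j : Ge (VS V m)) : Gr (VS V m)) = 0 := by
  have hj : ∀ l : Module.Dual ℝ (VS V m), l (th j) = 0 → l (th' j) = 0 → (∀ x : V, l (x, 0) = 0) →
      dd l ((fac G j : Ge (VS V m)) : Gr (VS V m)) = 0 := by
    intro l h1 h2 h3
    rw [fac, Ge.coe_add, map_add, Ge.coe_one, dd_one, zero_add, Ge.coe_mul, dd_mul, dd_tau, h1, h2,
      dd_inG l h3]
    simp
  exact ⟨hj _ (by simp [h]) (by simp) (dth_inl i), hj _ (by simp) (by simp [h]) (dth'_inl i)⟩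

theorem cpair_prod {G : Fin m → Ge V} {s : Finset (Fin m)} {i : Fin m} (hi : i ∈ s)
    (a : Ge V) : cpair i (inG m a * ∏ j ∈ s, fac G j) =
      inG m (a * G i) * ∏ j ∈ s.erase i, fac G j := by
  classical
  set Q : Ge (VS V m) := ∏ j ∈ s.erase i, fac G j with hQ
  have q1 : dd (dth i) (Q : Gr (VS V m)) = 0 :=
    dd_prod_zero _ _ _ fun j hj => (dd_fac_ne (ne_of_mem_erase hj)).1
  have q2 : dd (dth' i) (Q : Gr (VS V m)) = 0 :=
    dd_prod_zero _ _ _ fun j hj => (dd_fac_ne (ne_of_mem_erase hj)).2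
  have e1 : ∏ j ∈ s, fac G j = Q + tau i * (inG m (G i) * Q) := by
    rw [← mul_prod_erase s (fac G) hi, ← hQ, fac]; ring
  have e2 : cpair i Q = 0 := by
    apply ge_ext
    rw [coe_cpair, q1, map_zero]; rfl
  have e3 : cpair i (tau i * (inG m (G i) * Q)) = inG m (G i) * Q := by
    apply cpair_tau_mul_self
    · rw [Ge.coe_mul, dd_mul, q1, mul_zero, dd_inG _ (dth_inl i), zero_mul, add_zero]
    · rw [Ge.coe_mul, dd_mul, q2, mul_zero, dd_inG _ (dth'_inl i), zero_mul, add_zero]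
  rw [cpair_inG_mul, e1, map_add, e2, e3, zero_add, map_mul]
  ring

theorem cpL_prod (G : Fin m → Ge V) (L : List (Fin m)) (hL : L.Nodup) :
    cpL L (∏ j, fac G j) = inG m ((L.map G).prod) * ∏ j ∈ univ.filter (· ∉ L), fac G j := by
  classical
  induction L with
  | nil => simp
  | cons i L ih =>
    rw [List.nodup_cons] at hL
    rw [cpL_cons, ih hL.2, cpair_prod (mem_filter.2 ⟨mem_univ i, hL.1⟩), List.map_cons,
      List.prod_cons, mul_comm (G i)]
    congr 2
    ext j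
    simp only [mem_erase, mem_filter, mem_univ, true_and, List.mem_cons, not_or]

/-- **top coefficient of the product** -/
theorem coP_prod (G : Fin m → Ge V) : coP univ (∏ j, fac G j) = ∏ j, G j := by
  classical
  rw [coP_eq, cpL_prod G _ (Finset.sort_nodup _ _), map_mul, noS_inG, sort_perm_prod]
  have : (univ.filter fun j : Fin m => j ∉ (univ : Finset (Fin m)).sort (· ≤ ·)) = ∅ := by
    rw [filter_eq_empty_iff]
    intro j _
    simp
  rw [this, prod_empty, map_one, mul_one]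

/-- **bottom coefficient of the product** -/
theorem noS_prod (G : Fin m → Ge V) : noS (∏ j, fac G j) = 1 := by
  rw [map_prod]
  refine prod_eq_one fun j _ => ?_
  rw [fac, map_add, map_one, map_mul, noS_tau, zero_mul, add_zero]

/-! ### `coP` and convolutions -/

theorem cpair_cvG (S : Cov V) (i : Fin m) (F : Ge (VS V m)) :
    cpair i (cvG (ext0 m S) F) = cvG (ext0 m S) (cpair i F) := by
  apply ge_ext
  rw [coe_cpair, coe_cvG, coe_cvG, coe_cpair, conv_dd, conv_dd]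

theorem cpL_cvG (S : Cov V) (L : List (Fin m)) (F : Ge (VS V m)) :
    cpL L (cvG (ext0 m S) F) = cvG (ext0 m S) (cpL L F) := by
  induction L with
  | nil => rfl
  | cons i L ih => rw [cpL_cons, cpL_cons, ih, cpair_cvG]

theorem coP_cvG (S : Cov V) (I : Finset (Fin m)) (F : Ge (VS V m)) :
    coP I (cvG (ext0 m S) F) = cvG S (coP I F) := by
  rw [coP_eq, coP_eq, cpL_cvG, noS_cvG]

theorem ctG_coP_cvG (S : Cov V) (I : Finset (Fin m)) (F : Ge (VS V m)) :
    ctG (coP I (cvG (ext0 m S) F)) = EEG S (coP I F) := by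
  rw [coP_cvG, ctG_cvG]

theorem ctG_noS (F : Ge (VS V m)) : ctG (noS F) = ctG F := Crest.Agent.R165.GeOpsx337.ctG_mpG _ _

/-! ### the functionals -/

/-- top functional -/
def tp (m : ℕ) (S : Cov V) : Ge (VS V m) →ₗ[ℝ] ℝ := EEG S ∘ₗ coP univ

/-- bottom functional -/
def bt (m : ℕ) (S : Cov V) : Ge (VS V m) →ₗ[ℝ] ℝ := EEG S ∘ₗ (noS (V := V) (m := m)).toLinearMap

theorem tp_apply (S : Cov V) (F : Ge (VS V m)) : tp m S F = EEG S (coP univ F) := rfl

theorem bt_apply (S : Cov V) (F : Ge (VS V m)) : bt m S F = EEG S (noS F) := rfl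

theorem ra_pG (w : V → ℝ≥0∞) : RA (fun a : Ge V => pG w a) where
  toRN := rn_pnorm w
  smul c x := pG_smul_le w c x

theorem EEG_bd {S : Cov V} {g : V → ℝ≥0∞} (h : Gram S g) {F : Ge V} {t : ℝ} (ht : 0 ≤ t)
    (hF : Bd (fun a : Ge V => pG g a) F t) : |EEG S F| ≤ t := by
  have h1 := (EE_le_pnorm h (F : Gr V)).trans hF
  rw [← ofReal_norm, ENNReal.ofReal_le_ofReal_iff ht, Real.norm_eq_abs] at h1
  exact h1

theorem bt_bd {S : Cov V} {g : V → ℝ≥0∞} (h : Gram S g) (v : Fin m → ℝ≥0∞) {F : Ge (VS V m)}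
    {t : ℝ} (ht : 0 ≤ t) (hF : Bd (fun a : Ge (VS V m) => pG (wS g v) a) F t) :
    |bt m S F| ≤ t := by
  refine EEG_bd h ht ?_
  refine le_trans ?_ hF
  exact pG_mp_le _ (fun x => le_self_add) _

theorem tp_bd {S : Cov V} {g : V → ℝ≥0∞} (h : Gram S g) {v : Fin m → ℝ} (hv : ∀ i, 0 < v i)
    {F : Ge (VS V m)} {t : ℝ} (ht : 0 ≤ t)
    (hF : Bd (fun a : Ge (VS V m) => pG (wS g fun i => ENNReal.ofReal (v i)) a) F t) :
    |tp m S F| ≤ (∏ i, v i ^ 2)⁻¹ * t := by
  have hp : 0 < ∏ i, v i ^ 2 := prod_pos fun i _ => by have := hv i; positivity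
  refine EEG_bd h (by positivity) ?_
  have h1 := (coP_bd univ hv g F).trans hF
  unfold Bd
  rw [ENNReal.ofReal_mul (by positivity), ENNReal.ofReal_inv_of_pos hp]
  rwa [← ENNReal.div_eq_inv_mul, ENNReal.le_div_iff_mul_le (Or.inl (by simpa using hp))
    (Or.inl ENNReal.ofReal_ne_top), mul_comm]

/-! ### the source part of the exponent -/

theorem ctG_tau (i : Fin m) : ctG (tau i : Ge (VS V m)) = 0 := by
  rw [ctG_apply, tau, coe_bi, map_mul, ct_fi, zero_mul]

theorem gexp_tau (c : ℝ) (i : Fin m) : gexp (c • tau i : Ge (VS V m)) = 1 + c • tau i := by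
  refine gexp_sq_zero ?_ ?_
  · rw [smul_mul_smul_comm, tau_sq, smul_zero]
  · rw [map_smul, ctG_tau, smul_zero]

/-- factorisation of the exponential -/
theorem gexp_split (E : Ge (VS V m)) (c : Fin m → ℝ) :
    gexp E = Real.exp (ctG E) • ((∏ i, (1 + c i • tau i)) *
      gexp (E - algebraMap ℝ _ (ctG E) - ∑ i, c i • tau i)) := by
  have e : E = algebraMap ℝ _ (ctG E) + (∑ i, c i • tau i +
      (E - algebraMap ℝ _ (ctG E) - ∑ i, c i • tau i)) := by abel
  have e2 : ∏ i, (1 + c i • tau i : Ge (VS V m)) = gexp (∑ i, c i • tau i) := by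
    rw [gexp_sum]
    exact prod_congr rfl fun i _ => (gexp_tau (c i) i).symm
  rw [e2, ← gexp_add, Algebra.smul_def, ← gexp_algebraMap, ← gexp_add, ← e]

/-! ### final scale data -/

theorem mem_grG_top (a : Ge V) : a ∈ grG (⊤ : Submodule ℝ V) := by
  rw [mem_grG]
  refine Gr.induction (P := fun a => a ∈ gr (⊤ : Submodule ℝ V)) ?_ ?_ ?_ (a : Gr V)
  · intro r; exact Subalgebra.algebraMap_mem _ _
  · intro x a ih; exact mul_mem (fi_mem_gr trivial) ih
  · intro a b iha ihb; exact add_mem iha ihb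

/-- source fields -/
def srcW (V : Type*) [AddCommGroup V] [Module ℝ V] (m : ℕ) : Submodule ℝ (VS V m) :=
  LinearMap.ker (LinearMap.fst ℝ V (Src m))

theorem mem_srcW {x : VS V m} : x ∈ srcW V m ↔ x.1 = 0 := LinearMap.mem_ker

theorem vac_mem {E : Ge (VS V m)} (h : vacH E = E) : E ∈ grG (srcW V m) := by
  rw [← h]
  refine mpG_mem _ (W := ⊤) (fun x _ => ?_) (mem_grG_top E)
  rw [mem_srcW]
  simp

theorem ext0_src (S : Cov V) : ∀ x ∈ srcW V m, ∀ y, (ext0 m S).b x y = 0 := by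
  intro x hx y
  rw [ext0_b, mem_srcW.1 hx, map_zero, LinearMap.zero_apply]

/-- moving a source exponential through the convolution -/
theorem gexp_cvG {E : Ge (VS V m)} (h : vacH E = E) (S : Cov V) (X : Ge (VS V m)) :
    gexp E * cvG (ext0 m S) X = cvG (ext0 m S) (gexp E * X) :=
  (KFlowx337.Sys.cvG_src_mul (ext0_src S) (ExpGx337.gexp_mem (vac_mem h)) X).symm

section final

variable {F : Type*} [DecidableEq F]

/-- the norm used at the final scale -/
def Nw (g : V → ℝ≥0∞) (v : Fin m → ℝ) (a : Ge (VS V m)) : ℝ≥0∞ :=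
  pG (wS g fun i => ENNReal.ofReal (v i)) a

theorem ra_Nw (g : V → ℝ≥0∞) (v : Fin m → ℝ) : RA (Nw g v) := ra_pG _

theorem wS_th (g : V → ℝ≥0∞) (h0 : g 0 = 0) (v : Fin m → ℝ) (i : Fin m) :
    wS g (fun i => ENNReal.ofReal (v i)) (th i) = ENNReal.ofReal (v i) := by
  classical
  simp only [wS, vS, th, h0, zero_add]
  rw [sum_eq_single i]
  · simp
  · intro j _ hj
    simp [Pi.single_eq_of_ne hj]
  · intro h; exact absurd (mem_univ i) h

theorem wS_th' (g : V → ℝ≥0∞) (h0 : g 0 = 0) (v : Fin m → ℝ) (i : Fin m) :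
    wS g (fun i => ENNReal.ofReal (v i)) (th' i) = ENNReal.ofReal (v i) := by
  classical
  simp only [wS, vS, th', h0, zero_add]
  rw [sum_eq_single i]
  · simp
  · intro j _ hj
    simp [Pi.single_eq_of_ne hj]
  · intro h; exact absurd (mem_univ i) h

theorem bd_tau {g : V → ℝ≥0∞} (h0 : g 0 = 0) {v : Fin m → ℝ} (i : Fin m) (hv : 0 < v i) :
    Bd (Nw g v) (tau i) (v i ^ 2) := by
  have h1 : Nw g v (tau i) ≤ wS g (fun i => ENNReal.ofReal (v i)) (th i) *
      wS g (fun i => ENNReal.ofReal (v i)) (th' i) := by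
    have := pnorm_mono_le (wS g fun i => ENNReal.ofReal (v i)) [th (V := V) i, th' i]
    simp only [mono_cons, mono_nil, mul_one, mwt_cons, mwt_nil] at this
    exact this
  rw [wS_th g h0, wS_th' g h0, ← ENNReal.ofReal_mul hv.le, ← pow_two] at h1
  exact h1

theorem bd_inG (g : V → ℝ≥0∞) (v : Fin m → ℝ) {a : Ge V} {t : ℝ}
    (h : Bd (fun a : Ge V => pG g a) a t) : Bd (Nw g v) (inG m a) t := by
  refine le_trans ?_ h
  refine pG_mp_le _ (fun x => ?_) _
  simp [wS, vS]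

/-- **final scale data** (item 5 of TEXT P11): activities `K`, vacuum exponent `E`, bond faces `U`,
running factors `ζ`, constants `c`, bond bilinears `β`, remaining covariance `Sf`, Gram weight `g`,
source weights `v` -/
structure FinD (near : F → F → Prop) (Λ : Finset F) (K : Finset F → Ge (VS V m))
    (E : Ge (VS V m)) (U : Fin m → Finset F) (ζ c : Fin m → ℝ) (β : Fin m → Ge V) (Sf : Cov V)
    (g : V → ℝ≥0∞) (v : Fin m → ℝ) (ε C₁ : ℝ) : Prop where
  gram : Gram Sf g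
  g0 : g 0 = 0
  v0 : ∀ i, 0 < v i
  ε0 : 0 ≤ ε
  C0 : 0 ≤ C₁
  inj : Function.Injective U
  ne : ∀ i, (U i).Nonempty
  sub : ∀ i, U i ⊆ Λ
  sep : ∀ i j, i ≠ j → ¬ touch near (U i) (U j)
  vac : vacH E = E
  rest : ∑ W ∈ nes Λ, Nw g v (K W - lead U (fun i => ζ i • (tau i * inG m (β i))) W) ≤
    ENNReal.ofReal ε
  vrest : Bd (Nw g v) (E - algebraMap ℝ _ (ctG E) - ∑ i, c i • tau i) ε
  hβ : ∀ i, Bd (fun a : Ge V => pG g a) (β i) (C₁ / v i ^ 2)
  hζ : ∀ i, |ζ i| ≤ C₁
  cst : ∀ i, |c i| * v i ^ 2 ≤ C₁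

variable {near : F → F → Prop} {Λ : Finset F} {K : Finset F → Ge (VS V m)}
  {E : Ge (VS V m)} {U : Fin m → Finset F} {ζ c : Fin m → ℝ} {β : Fin m → Ge V} {Sf : Cov V}
  {g : V → ℝ≥0∞} {v : Fin m → ℝ} {ε C₁ : ℝ}

/-- effective accuracy -/
def ηf (m : ℕ) (C₁ ε : ℝ) : ℝ := 2 * Real.exp (m * C₁ ^ 2) * ε

/-- effective bound -/
def Mf (C₁ : ℝ) : ℝ := 1 + C₁ + C₁ ^ 2

theorem exp_sub_one_le {ε : ℝ} (h0 : 0 ≤ ε) (h1 : ε ≤ 1) : Real.exp ε - 1 ≤ 2 * ε :=
  Crest.Agent.R165.GExpx900.real_exp_sub_one_le_two h0 h1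

theorem FinD.bd_lead (h : FinD near Λ K E U ζ c β Sf g v ε C₁) (i : Fin m) :
    Bd (Nw g v) (tau i * inG m (ζ i • β i)) (C₁ ^ 2) := by
  have hv := h.v0 i
  have h1 := (h.hβ i).smul (ra_pG g) (ζ i)
  have h2 := (bd_tau h.g0 i hv).mul (ra_Nw g v) (bd_inG g v h1) (by positivity)
  refine h2.mono ?_
  have hC := h.C0
  have e : v i ^ 2 * (|ζ i| * (C₁ / v i ^ 2)) = |ζ i| * C₁ := by field_simp
  rw [e, pow_two]
  exact mul_le_mul_of_nonneg_right (h.hζ i) hC

theorem FinD.finA (h : FinD near Λ K E U ζ c β Sf g v ε C₁) (hη : ηf m C₁ ε ≤ 1) :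
    FinA (Nw g v) (fun i => tau i) (fun i => inG m (ζ i • β i)) c c 1 1
      (gexp (E - algebraMap ℝ _ (ctG E) - ∑ i, c i • tau i)) (ZZ near Λ K) (Mf C₁) (ηf m C₁ ε) := by
  have hC := h.C0
  have hε := h.ε0
  have hexp : 1 ≤ Real.exp (m * C₁ ^ 2) := Real.one_le_exp (by positivity)
  have hη0 : 0 ≤ ηf m C₁ ε := by unfold ηf; positivity
  have h2ε : 2 * ε ≤ ηf m C₁ ε := by
    unfold ηf
    have := mul_le_mul_of_nonneg_right hexp hε
    nlinarith
  have hε1 : ε ≤ 1 := by linarith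
  have hN := ra_Nw (V := V) (m := m) g v
  refine ⟨hN, ?_, hη0, hη, fun i => tau_sq i, fun i => ?_, fun i => ?_, ?_, ?_, fun i => ?_, ?_,
    ?_, ?_⟩
  · unfold Mf; nlinarith
  · refine ((bd_tau h.g0 i (h.v0 i)).smul hN (c i)).mono ((h.cst i).trans ?_)
    unfold Mf; nlinarith
  · refine (h.bd_lead i).mono ?_
    unfold Mf; linarith
  · rw [abs_one]; unfold Mf; nlinarith
  · rw [abs_one]; unfold Mf; nlinarith
  · rw [one_mul, sub_self, zero_smul]
    exact (bd_zero hN).mono hη0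
  · rw [sub_self, abs_zero]; exact hη0
  · have hct : ctG (E - algebraMap ℝ _ (ctG E) - ∑ i, c i • tau i) = 0 := by
      rw [map_sub, map_sub, map_sum, AlgHom.commutes]
      simp [ctG_tau]
    have hnl : nl (E - algebraMap ℝ _ (ctG E) - ∑ i, c i • tau i) =
        E - algebraMap ℝ _ (ctG E) - ∑ i, c i • tau i := by
      rw [nl, hct, map_zero, sub_zero]
    have := gexp_bd hN (a := E - algebraMap ℝ _ (ctG E) - ∑ i, c i • tau i) (c := 0) (t := ε) hε
      (by rw [hct, abs_zero]) (by rw [hnl]; exact h.vrest)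
    refine this.mono ?_
    rw [zero_add]
    exact (exp_sub_one_le hε hε1).trans h2ε
  · have e1 : ∏ i, (1 + (1 : ℝ) • (tau i * inG m (ζ i • β i))) =
        ZZ near Λ (lead U fun i => ζ i • (tau i * inG m (β i))) := by
      rw [zz_lead near h.inj h.ne h.sub h.sep]
      refine prod_congr rfl fun i _ => ?_
      rw [one_smul, map_smul, mul_smul_comm]
    rw [e1]
    have hl : ∀ i, Bd (Nw g v) (ζ i • (tau i * inG m (β i))) (C₁ ^ 2) := fun i => by
      have := h.bd_lead i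
      rwa [map_smul, mul_smul_comm] at this
    have := zz_lip hN near Λ K (lead U fun i => ζ i • (tau i * inG m (β i)))
      (M := m * C₁ ^ 2) (η := ε) (by positivity) hε (sum_lead_le hN (by positivity) hl) h.rest
    refine this.mono ?_
    unfold ηf
    have h3 := exp_sub_one_le hε hε1
    nlinarith [Real.exp_pos (m * C₁ ^ 2)]

/-- the two coefficients of the final state -/
theorem FinD.eval (h : FinD near Λ K E U ζ c β Sf g v ε C₁) :
    ctG (coP univ (gexp E * cvG (ext0 m Sf) (ZZ near Λ K))) = tp m Sf (gexp E * ZZ near Λ K) ∧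
    ctG (gexp E * cvG (ext0 m Sf) (ZZ near Λ K)) = bt m Sf (gexp E * ZZ near Λ K) := by
  rw [gexp_cvG h.vac]
  refine ⟨ctG_coP_cvG _ _ _, ?_⟩
  rw [ctG_cvG, EEG_ext0]; rfl

theorem P0_fac (ζ c : Fin m → ℝ) (β : Fin m → Ge V) :
    P0 (fun i => tau i) (fun i => inG m (ζ i • β i)) c 1 =
      ∏ i, fac (fun i => ζ i • β i + algebraMap ℝ _ (c i)) i := by
  unfold P0 fac
  refine prod_congr rfl fun i _ => ?_
  rw [one_mul, one_smul, map_add, AlgHom.commutes, Algebra.algebraMap_eq_smul_one, add_comm (c i • _)]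

/-- constant of the final estimate -/
def Kf (m : ℕ) (C₁ : ℝ) : ℝ :=
  2 * Cc m (Mf C₁) * (1 + Bc (Mf C₁) ^ m) * (2 * Real.exp (m * C₁ ^ 2))

/-- **item 5 of TEXT P11** -/
theorem FinD.final_literal (h : FinD near Λ K E U ζ c β Sf g v ε C₁) (hη : ηf m C₁ ε ≤ 1)
    (hsm : Cc m (Mf C₁) * ηf m C₁ ε ≤ 1 / 2) :
    |ctG (coP univ (gexp E * cvG (ext0 m Sf) (ZZ near Λ K))) /
        ctG (gexp E * cvG (ext0 m Sf) (ZZ near Λ K)) -
      EEG Sf (∏ i, (ζ i • β i + algebraMap ℝ _ (c i)))| ≤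
      Kf m C₁ * ε * (∏ i, v i ^ 2)⁻¹ := by
  have hp : 0 < ∏ i, v i ^ 2 := prod_pos fun i _ => by have := h.v0 i; positivity
  have hA := h.finA hη
  have key := hA.ratio (A := (∏ i, v i ^ 2)⁻¹) (c := ctG E) (tp m Sf) (bt m Sf) (by positivity)
    (fun x t ht hx => tp_bd h.gram h.v0 ht hx) (fun x t ht hx => bt_bd h.gram _ ht hx)
    (by rw [P0_fac, bt_apply, noS_prod, EEG_one]) hsm
  rw [P0_fac, tp_apply _ (∏ i, fac _ i), coP_prod] at key
  obtain ⟨e1, e2⟩ := h.eval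
  have e3 : gexp E * ZZ near Λ K = Real.exp (ctG E) • ((∏ i, (1 + c i • tau i)) *
      gexp (E - algebraMap ℝ _ (ctG E) - ∑ i, c i • tau i) * ZZ near Λ K) := by
    conv_lhs => rw [gexp_split E c]
    rw [smul_mul_assoc]
  rw [e1, e2, e3]
  refine key.trans (le_of_eq ?_)
  unfold Kf ηf
  ring

/-- comparison of two products of affine bilinears -/
theorem prod_cmp {S : Cov V} {g : V → ℝ≥0∞} (hS : Gram S g) {v : Fin m → ℝ} (hv : ∀ i, 0 < v i)
    {G G' : Fin m → Ge V} {B δ : ℝ} (hB : 1 ≤ B) (hδ : 0 ≤ δ)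
    (hG : ∀ i, Bd (fun a : Ge V => pG g a) (G i) (B / v i ^ 2))
    (hG' : ∀ i, Bd (fun a : Ge V => pG g a) (G' i) (B / v i ^ 2))
    (hd : ∀ i, Bd (fun a : Ge V => pG g a) (G i - G' i) (δ / v i ^ 2)) :
    |EEG S (∏ i, G i) - EEG S (∏ i, G' i)| ≤ m * B ^ m * δ * (∏ i, v i ^ 2)⁻¹ := by
  have hp : 0 < ∏ i, v i ^ 2 := prod_pos fun i _ => by have := hv i; positivity
  have hN := ra_pG (V := V) g
  have cardm : (univ : Finset (Fin m)).card = m := by rw [card_univ, Fintype.card_fin]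
  have sc : ∀ (a : Ge V) (i : Fin m) (t : ℝ), Bd (fun a : Ge V => pG g a) a (t / v i ^ 2) →
      Bd (fun a : Ge V => pG g a) (v i ^ 2 • a) t := by
    intro a i t h
    have hvi := hv i
    have := h.smul hN (v i ^ 2)
    rw [abs_of_pos (by positivity)] at this
    have e : v i ^ 2 * (t / v i ^ 2) = t := by field_simp
    rwa [e] at this
  have h1 := Bd.prod_sub hN univ (f := fun i => v i ^ 2 • G i) (g := fun i => v i ^ 2 • G' i) hB hδ
    (fun i _ => sc _ i _ (hG i)) (fun i _ => sc _ i _ (hG' i))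
    (fun i _ => by rw [← smul_sub]; exact sc _ i _ (hd i))
  rw [cardm] at h1
  have h2 := EEG_bd hS (by positivity) h1
  have e1 : ∀ H : Fin m → Ge V, ∏ i, (v i ^ 2 • H i) = (∏ i, v i ^ 2) • ∏ i, H i := fun H => by
    rw [prod_smul]
  rw [e1, e1, ← smul_sub, map_smul, smul_eq_mul, abs_mul, abs_of_pos hp, map_sub] at h2
  rw [← div_eq_mul_inv, le_div_iff₀ hp, mul_comm]
  exact h2

/-- **comparison with the unperturbed product** `∏ (β_i + c0_i)`, factor `Ze ^ m` -/
theorem FinD.final_cmp (h : FinD near Λ K E U ζ c β Sf g v ε C₁) (hη : ηf m C₁ ε ≤ 1)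
    (hsm : Cc m (Mf C₁) * ηf m C₁ ε ≤ 1 / 2) {Ze : ℝ} {c0 : Fin m → ℝ} {δ : ℝ} (hδ : 0 ≤ δ)
    (hδ1 : δ ≤ 1) (h1 : ∀ i, |ζ i - Ze| ≤ δ) (h2 : ∀ i, |c i - Ze * c0 i| * v i ^ 2 ≤ δ) :
    |ctG (coP univ (gexp E * cvG (ext0 m Sf) (ZZ near Λ K))) /
        ctG (gexp E * cvG (ext0 m Sf) (ZZ near Λ K)) -
      Ze ^ m * EEG Sf (∏ i, (β i + algebraMap ℝ _ (c0 i)))| ≤
      (Kf m C₁ * ε + m * (2 * (1 + C₁) ^ 2) ^ m * ((1 + C₁) * δ)) * (∏ i, v i ^ 2)⁻¹ := by
  have hC := h.C0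
  have hN := ra_pG (V := V) g
  have key := h.final_literal hη hsm
  have hcst : ∀ (i : Fin m) (x t : ℝ), |x| * v i ^ 2 ≤ t →
      Bd (fun a : Ge V => pG g a) (algebraMap ℝ (Ge V) x) (t / v i ^ 2) := by
    intro i x t hx
    have hvi := h.v0 i
    have := (bd_one hN).smul hN x
    rw [mul_one, ← Algebra.algebraMap_eq_smul_one] at this
    refine this.mono ?_
    rw [le_div_iff₀ (by positivity)]
    exact hx
  have hpos : ∀ i, 0 < v i ^ 2 := fun i => by have := h.v0 i; positivity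
  have b1 : ∀ i, Bd (fun a : Ge V => pG g a) (ζ i • β i) (C₁ ^ 2 / v i ^ 2) := fun i => by
    refine ((h.hβ i).smul hN (ζ i)).mono ?_
    rw [← mul_div_assoc]
    have := mul_le_mul_of_nonneg_right (h.hζ i) hC
    have e : C₁ ^ 2 = C₁ * C₁ := by ring
    rw [e]
    exact div_le_div_of_nonneg_right this (hpos i).le
  have b3 : ∀ i, Bd (fun a : Ge V => pG g a)
      ((ζ i • β i + algebraMap ℝ _ (c i)) - Ze • (β i + algebraMap ℝ _ (c0 i)))
      ((1 + C₁) * δ / v i ^ 2) := by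
    intro i
    have e : (ζ i • β i + algebraMap ℝ _ (c i)) - Ze • (β i + algebraMap ℝ _ (c0 i)) =
        (ζ i - Ze) • β i + algebraMap ℝ (Ge V) (c i - Ze * c0 i) := by
      rw [smul_add, map_sub, map_mul, sub_smul, Algebra.smul_def Ze (algebraMap ℝ (Ge V) (c0 i))]
      abel
    rw [e]
    have t1 := ((h.hβ i).smul hN (ζ i - Ze)).add hN (hcst i _ _ (h2 i))
      (by have := hpos i; positivity) (by have := hpos i; positivity)
    refine t1.mono ?_
    rw [← mul_div_assoc, ← add_div]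
    refine div_le_div_of_nonneg_right ?_ (hpos i).le
    have := mul_le_mul_of_nonneg_right (h1 i) hC
    linarith
  have b2 : ∀ i, Bd (fun a : Ge V => pG g a) (ζ i • β i + algebraMap ℝ _ (c i))
      (2 * (1 + C₁) ^ 2 / v i ^ 2) := by
    intro i
    refine ((b1 i).add hN (hcst i _ _ (h.cst i)) (by have := hpos i; positivity)
      (by have := hpos i; positivity)).mono ?_
    rw [← add_div]
    refine div_le_div_of_nonneg_right ?_ (hpos i).le
    nlinarith
  have b4 : ∀ i, Bd (fun a : Ge V => pG g a) (Ze • (β i + algebraMap ℝ _ (c0 i)))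
      (2 * (1 + C₁) ^ 2 / v i ^ 2) := by
    intro i
    have e : Ze • (β i + algebraMap ℝ _ (c0 i)) = (ζ i • β i + algebraMap ℝ _ (c i)) -
        ((ζ i • β i + algebraMap ℝ _ (c i)) - Ze • (β i + algebraMap ℝ _ (c0 i))) := by abel
    rw [e]
    have t := (((b1 i).add hN (hcst i _ _ (h.cst i)) (by have := hpos i; positivity)
      (by have := hpos i; positivity)).sub hN (b3 i) (by have := hpos i; positivity)
      (by have := hpos i; positivity))
    refine t.mono ?_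
    rw [← add_div, ← add_div]
    refine div_le_div_of_nonneg_right ?_ (hpos i).le
    nlinarith
  have hcmp := prod_cmp h.gram h.v0 (G := fun i => ζ i • β i + algebraMap ℝ _ (c i))
    (G' := fun i => Ze • (β i + algebraMap ℝ _ (c0 i))) (B := 2 * (1 + C₁) ^ 2)
    (δ := (1 + C₁) * δ) (by nlinarith) (by positivity) b2 b4 b3
  have e5 : EEG Sf (∏ i, (Ze • (β i + algebraMap ℝ (Ge V) (c0 i)))) =
      Ze ^ m * EEG Sf (∏ i, (β i + algebraMap ℝ _ (c0 i))) := by
    rw [prod_smul, prod_const, card_univ, Fintype.card_fin, map_smul, smul_eq_mul]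
  rw [e5] at hcmp
  have e6 := abs_sub_le (ctG (coP univ (gexp E * cvG (ext0 m Sf) (ZZ near Λ K))) /
        ctG (gexp E * cvG (ext0 m Sf) (ZZ near Λ K)))
    (EEG Sf (∏ i, (ζ i • β i + algebraMap ℝ _ (c i))))
    (Ze ^ m * EEG Sf (∏ i, (β i + algebraMap ℝ _ (c0 i))))
  refine e6.trans ((add_le_add key hcmp).trans (le_of_eq ?_))
  ring

end final

end Crest.Agent.R165.SrcFinBx441
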