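import Crest.Agent.R165.SrcAlg_991
import Crest.Agent.R165.SrcFinB_441
import Mathlib

-- ▼ part R165/SrcCst_484
section

/-!
# Row 165 (S0250), leaf P11 item 4: the constants (helper484)

* `co I a = ctG (coP I a)` : coefficient of `tauP I` in the vacuum part of `a`
* `co_bd` : `∏_{i ∈ I} v_i² |co I (cvG (ext0 m S) a)| ≤ Nw g v a`
* `vac_rep`, `vrest_le` : decomposition of a vacuum element and norm of its part of order `≥ 2`
* `co_E` : `co I (E_n) = ∑_{k<n} ∑_U co I (H_k U)`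
-/

set_option autoImplicit false
set_option linter.unusedSectionVars false

noncomputable section

namespace Crest.Agent.R165.SrcCstx484

open Finset
open scoped ENNReal
open Crest.Agent.R165.FinBx900 Crest.Agent.R165.KStepx892
open Crest.Agent.R165.Gr0x606 Crest.Agent.R165.Gr1x606 Crest.Agent.R165.GeOpsx337
  Crest.Agent.R165.ExpGx337 Crest.Agent.R165.PNormx417 Crest.Agent.R165.KFlowx337
  Crest.Agent.R165.SrcDefx991 Crest.Agent.R165.SrcFinx441 Crest.Agent.R165.GrLocx337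
open Crest.Agent.R165.SrcFinBx441 (Nw coP_bd ctG_coP_cvG)

variable {V : Type*} [AddCommGroup V] [Module ℝ V] {m : ℕ}

/-- the coefficient of `tauP I` in the vacuum part -/
def co (I : Finset (Fin m)) : Ge (VS V m) →ₗ[ℝ] ℝ := (ctG (V := V)).toLinearMap ∘ₗ coP I

theorem co_apply (I : Finset (Fin m)) (a : Ge (VS V m)) : co I a = ctG (coP I a) := rfl

theorem co_cvG (S : Cov V) (I : Finset (Fin m)) (a : Ge (VS V m)) :
    co I (cvG (ext0 m S) a) = EEG S (coP I a) := ctG_coP_cvG S I a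

theorem co_vacH {a : Ge (VS V m)} (ha : a ∈ GS V m) (I : Finset (Fin m)) :
    co I (vacH a) = co I a := by
  rw [co_apply, coP_vacH ha, AlgHom.commutes]
  rfl

theorem co_basis (I J : Finset (Fin m)) (a : Ge V) :
    co I (tauP J * inG m a) = if I = J then ctG a else 0 := by
  rw [co_apply, coP_basis]
  split_ifs
  · rfl
  · rw [map_zero]

theorem co_inG {I : Finset (Fin m)} (hI : I ≠ ∅) (a : Ge V) : co I (inG m a) = 0 := by
  have h := co_basis I ∅ a
  rw [tauP_empty, one_mul, if_neg hI] at h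
  exact h

theorem co_empty (a : Ge (VS V m)) : co ∅ a = ctG a := by
  rw [co_apply, coP_empty, SrcDefx991.ctG_noS]

theorem tauP_singleton (i : Fin m) : (tauP {i} : Ge (VS V m)) = tau i := by
  rw [tauP, prod_singleton]

theorem co_tau (I : Finset (Fin m)) (i : Fin m) :
    co I (tau i : Ge (VS V m)) = if I = {i} then 1 else 0 := by
  have h := co_basis (V := V) I {i} 1
  rw [tauP_singleton, map_one, mul_one, map_one] at h
  exact h


/-- the coefficients of a convolution are bounded by the norm with Gram weights -/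
theorem co_bd {S : Cov V} {g : V → ℝ≥0∞} (hS : Gram S g) {v : Fin m → ℝ} (hv : ∀ i, 0 < v i)
    (I : Finset (Fin m)) (a : Ge (VS V m)) :
    ENNReal.ofReal ((∏ i ∈ I, v i ^ 2) * |co I (cvG (ext0 m S) a)|) ≤ Nw g v a := by
  have hp : 0 ≤ ∏ i ∈ I, v i ^ 2 := prod_nonneg fun i _ => sq_nonneg _
  rw [co_cvG, ENNReal.ofReal_mul hp]
  refine le_trans (mul_le_mul' le_rfl ?_) (coP_bd I hv g a)
  have h1 := EE_le_pnorm hS ((coP I a : Ge V) : Gr V)
  rw [← Real.enorm_eq_ofReal_abs]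
  exact h1

/-- monotonicity of the norm in the weights -/
theorem Nw_mono {g g' : V → ℝ≥0∞} {v : Fin m → ℝ} (h : ∀ x, g x ≤ g' x) (a : Ge (VS V m)) :
    Nw g v a ≤ Nw g' v a := by
  have h1 : ∀ x : VS V m, wS g (fun i => ENNReal.ofReal (v i)) x ≤
      wS g' (fun i => ENNReal.ofReal (v i)) x := fun x => add_le_add (h x.1) le_rfl
  exact pnorm_le_pnorm (w := wS g' fun i => ENNReal.ofReal (v i))
    (w' := wS g fun i => ENNReal.ofReal (v i)) h1 (a : Gr (VS V m))

/-! ### vacuum elements -/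

/-- a vacuum element is the sum of its coefficients -/
theorem vac_rep {E : Ge (VS V m)} (hE : E ∈ GS V m) (hv : vacH E = E) :
    E = ∑ I, co I E • tauP I := by
  conv_lhs => rw [GS_eq hE]
  refine sum_congr rfl fun I _ => ?_
  have h : coP I E = algebraMap ℝ _ (co I E) := by
    conv_lhs => rw [← hv]
    rw [coP_vacH hE]
    rfl
  rw [h, AlgHom.commutes, mul_comm, ← Algebra.smul_def]

/-- splitting a sum over all sets of sources -/
theorem sum_split {A : Type*} [AddCommMonoid A] (f : Finset (Fin m) → A) :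
    ∑ I, f I = f ∅ + ∑ i, f {i} + ∑ I with 2 ≤ I.card, f I := by
  classical
  have h1 : (univ : Finset (Finset (Fin m))) =
      ({∅} ∪ univ.image (fun i : Fin m => ({i} : Finset (Fin m)))) ∪
        univ.filter (fun I : Finset (Fin m) => 2 ≤ I.card) := by
    ext I
    simp only [mem_univ, mem_union, mem_singleton, mem_image, true_and, mem_filter, true_iff]
    rcases Nat.lt_or_ge I.card 2 with h | h
    · left
      rcases Nat.eq_zero_or_pos I.card with h0 | h0
      · left; exact card_eq_zero.1 h0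
      · right
        obtain ⟨i, hi⟩ := card_eq_one.1 (show I.card = 1 by omega)
        exact ⟨i, hi.symm⟩
    · right; exact h
  have h2 : Disjoint ({∅} : Finset (Finset (Fin m)))
      (univ.image (fun i : Fin m => ({i} : Finset (Fin m)))) := by
    rw [disjoint_singleton_left, mem_image]
    rintro ⟨i, -, hi⟩
    exact singleton_ne_empty i hi
  have h3 : Disjoint ({∅} ∪ univ.image (fun i : Fin m => ({i} : Finset (Fin m))))
      (univ.filter (fun I : Finset (Fin m) => 2 ≤ I.card)) := by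
    rw [disjoint_left]
    intro I hI hI'
    rw [mem_filter] at hI'
    rw [mem_union, mem_singleton, mem_image] at hI
    rcases hI with h | ⟨i, -, h⟩
    · rw [h] at hI'; simp at hI'
    · rw [← h] at hI'; simp at hI'
  have h4 : ∑ I, f I = ∑ I ∈ ({∅} ∪ univ.image (fun i : Fin m => ({i} : Finset (Fin m)))) ∪
        univ.filter (fun I : Finset (Fin m) => 2 ≤ I.card), f I := by rw [← h1]
  rw [h4, sum_union h3, sum_union h2, sum_singleton, sum_image fun i _ j _ h => by simpa using h]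

/-- a vacuum element is constant + linear + part of order at least two -/
theorem vac_split {E : Ge (VS V m)} (hE : E ∈ GS V m) (hv : vacH E = E) :
    E - algebraMap ℝ _ (ctG E) - ∑ i, co {i} E • tau i =
      ∑ I with 2 ≤ I.card, co I E • tauP I := by
  have h := vac_rep hE hv
  rw [sum_split] at h
  have h0 : co ∅ E • (tauP ∅ : Ge (VS V m)) = algebraMap ℝ _ (ctG E) := by
    rw [tauP_empty, co_empty, Algebra.algebraMap_eq_smul_one]
  rw [h0] at h
  have h1 : ∑ i, co {i} E • (tauP {i} : Ge (VS V m)) = ∑ i, co {i} E • tau i :=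
    sum_congr rfl fun i _ => by rw [tauP_singleton]
  rw [h1] at h
  rw [sub_sub, sub_eq_iff_eq_add, add_comm]
  exact h

/-- **norm of the part of order at least two** -/
theorem vrest_le {E : Ge (VS V m)} (hE : E ∈ GS V m) (hv : vacH E = E) {g : V → ℝ≥0∞}
    (hg : g 0 = 0) (v : Fin m → ℝ) :
    Nw g v (E - algebraMap ℝ _ (ctG E) - ∑ i, co {i} E • tau i) ≤
      ∑ I with 2 ≤ I.card, ENNReal.ofReal ((∏ i ∈ I, v i ^ 2) * |co I E|) := by
  rw [vac_split hE hv]
  unfold Nw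
  refine (pG_sum_le _ _ _).trans (sum_le_sum fun I _ => ?_)
  refine (pG_smul_le _ _ _).trans ?_
  rw [mul_comm (∏ i ∈ I, v i ^ 2), ENNReal.ofReal_mul (abs_nonneg _), Real.enorm_eq_ofReal_abs]
  refine mul_le_mul' le_rfl ((pG_tauP_le hg (fun i => ENNReal.ofReal_ne_top) I).trans ?_)
  rw [ENNReal.ofReal_prod_of_nonneg fun i _ => sq_nonneg _]
  refine prod_le_prod' fun i _ => ?_
  rcases le_or_gt 0 (v i) with h | h
  · rw [ENNReal.ofReal_pow h]
  · rw [ENNReal.ofReal_of_nonpos h.le]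
    simp

/-! ### the coefficients of the total vacuum exponent -/

section flow

variable {F : Type*} [DecidableEq F] {D : Sys F (VS V m)}

theorem co_vacE (hvac : D.vac = vacS) (hmem : ∀ k U, D.H k U ∈ GS V m) (Λ : Finset F) (k : ℕ)
    (I : Finset (Fin m)) : co I (D.vacE Λ k) = ∑ U ∈ nes Λ, co I (D.H k U) := by
  rw [Sys.vacE, map_sum]
  refine sum_congr rfl fun U _ => ?_
  rw [hvac, vacS_apply, co_vacH (hmem k U)]

/-- **the coefficients of the total vacuum exponent** -/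
theorem co_E (hvac : D.vac = vacS) (hmem : ∀ k U, D.H k U ∈ GS V m) (Λ : Finset F) (n : ℕ)
    (I : Finset (Fin m)) : co I (D.E Λ n) = ∑ k ∈ range n, ∑ U ∈ nes Λ, co I (D.H k U) := by
  rw [Sys.E, map_sum]
  exact sum_congr rfl fun k _ => co_vacE hvac hmem Λ k I

theorem E_mem_GS (hvac : D.vac = vacS) (hmem : ∀ k U, D.H k U ∈ GS V m) (Λ : Finset F) (n : ℕ) :
    D.E Λ n ∈ GS V m := by
  refine Subalgebra.sum_mem _ fun k _ => Subalgebra.sum_mem _ fun U _ => ?_
  rw [hvac]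
  exact GS_vacH (hmem k U)

theorem vacH_vacH (a : Ge (VS V m)) : vacH (vacH a) = vacH a := by
  rw [vacH, mpG_mpG]
  congr 1

theorem vacH_E (hvac : D.vac = vacS) (Λ : Finset F) (n : ℕ) : vacH (D.E Λ n) = D.E Λ n := by
  rw [Sys.E, map_sum]
  refine sum_congr rfl fun k _ => ?_
  rw [Sys.vacE, map_sum]
  refine sum_congr rfl fun U _ => ?_
  rw [hvac, vacS_apply, vacH_vacH]

end flow

end Crest.Agent.R165.SrcCstx484
end
end

-- ▼ part R165/SrcCstB_484
section

/-!
# Row 165 (S0250), leaf P11 item 4: one step, comparison of two systems (helper484)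
-/

set_option autoImplicit false
set_option linter.unusedSectionVars false

noncomputable section

namespace Crest.Agent.R165.SrcCstx484

open Finset
open scoped ENNReal
open Crest.Agent.R165.FinBx900 Crest.Agent.R165.KStepx892
open Crest.Agent.R165.Gr0x606 Crest.Agent.R165.Gr1x606 Crest.Agent.R165.GeOpsx337
  Crest.Agent.R165.ExpGx337 Crest.Agent.R165.PNormx417 Crest.Agent.R165.KFlowx337
  Crest.Agent.R165.SrcDefx991 Crest.Agent.R165.SrcFinx441 Crest.Agent.R165.GrLocx337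
open Crest.Agent.R165.SrcFinBx441 (Nw)

/-! ### summation -/

/-- summability and bound from an extended bound -/
theorem abs_tsum_le {ι : Type*} {f : ι → ℝ} {x : ι → ℝ≥0∞} {c e : ℝ} (hc : 0 < c) (he : 0 ≤ e)
    (h : ∀ u, ENNReal.ofReal (c * |f u|) ≤ x u) (hx : ∑' u, x u ≤ ENNReal.ofReal e) :
    Summable (fun u => |f u|) ∧ c * ∑' u, |f u| ≤ e := by
  have h1 : ∑' u, ENNReal.ofReal (c * |f u|) ≤ ENNReal.ofReal e :=
    (ENNReal.tsum_le_tsum h).trans hx
  have h2 : Summable fun u => c * |f u| := by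
    have h3 := ENNReal.summable_toReal (ne_top_of_le_ne_top ENNReal.ofReal_ne_top h1)
    refine h3.congr fun u => ?_
    rw [ENNReal.toReal_ofReal (by positivity)]
  have h4 : Summable fun u => |f u| := (summable_mul_left_iff hc.ne').1 h2
  refine ⟨h4, ?_⟩
  rw [← tsum_mul_left]
  rw [← ENNReal.ofReal_tsum_of_nonneg (fun u => by positivity) h2] at h1
  exact (ENNReal.ofReal_le_ofReal_iff he).1 h1

theorem abs_tsum_le' {ι : Type*} {f : ι → ℝ} {x : ι → ℝ≥0∞} {c e : ℝ} (hc : 0 < c) (he : 0 ≤ e)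
    (h : ∀ u, ENNReal.ofReal (c * |f u|) ≤ x u) (hx : ∑' u, x u ≤ ENNReal.ofReal e) :
    Summable f ∧ c * |∑' u, f u| ≤ e := by
  obtain ⟨h1, h2⟩ := abs_tsum_le hc he h hx
  refine ⟨h1.of_abs, le_trans (mul_le_mul_of_nonneg_left ?_ hc.le) h2⟩
  have h3 := norm_tsum_le_tsum_norm (f := f) (by simpa [Real.norm_eq_abs] using h1)
  simpa [Real.norm_eq_abs] using h3

/-! ### one step -/

section step

variable {V : Type*} [AddCommGroup V] [Module ℝ V] {m : ℕ} {F : Type*} [DecidableEq F]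

/-- the leading family -/
def LD (sf : Fin m → Finset F) (ζ : Fin m → ℝ) (β : Fin m → Ge V) (U : Finset F) :
    Ge (VS V m) := lead sf (fun i => ζ i • (tau i * inG m (β i))) U

theorem co_LD (S : Cov V) (sf : Fin m → Finset F) (ζ : Fin m → ℝ) (β : Fin m → Ge V)
    (I : Finset (Fin m)) (U : Finset F) :
    co I (cvG (ext0 m S) (LD sf ζ β U)) =
      ∑ i, if U = sf i then (if I = {i} then ζ i * EEG S (β i) else 0) else 0 := by
  unfold LD lead
  rw [map_sum, map_sum]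
  refine sum_congr rfl fun i _ => ?_
  split_ifs with h1 h2
  · rw [map_smul, map_smul, co_cvG, coP_tau_inG, if_pos h2, smul_eq_mul]
  · rw [map_smul, map_smul, co_cvG, coP_tau_inG, if_neg h2, map_zero, smul_zero]
  · rw [map_zero, map_zero]

/-- **data of one step**: activities `K` at scale `k`, covariance `S`, Gram weight `g`, weights
`wt U`, source weight `v`, sizes `sz`, base `Γ`, rest `PP`, total norm `e` -/
structure StepD (S : Cov V) (g : V → ℝ≥0∞) (wt : Finset F → V → ℝ≥0∞) (v Γ e : ℝ)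
    (sz : Finset F → ℕ) (sf : Fin m → Finset F) (ζ : Fin m → ℝ) (β : Fin m → Ge V)
    (K PP : Finset F → Ge (VS V m)) : Prop where
  gram : Gram S g
  gwt : ∀ U x, g x ≤ wt U x
  v0 : 0 < v
  Γ1 : 1 ≤ Γ
  e0 : 0 ≤ e
  dec : ∀ U, K U = inG m (noS (K U)) + LD sf ζ β U + PP U
  tot : ∑' U, ENNReal.ofReal (Γ ^ sz U) * Nw (wt U) (fun _ => v) (PP U) ≤ ENNReal.ofReal e

variable {S : Cov V} {g : V → ℝ≥0∞} {wt : Finset F → V → ℝ≥0∞} {v Γ e : ℝ}
  {sz : Finset F → ℕ} {sf : Fin m → Finset F} {ζ : Fin m → ℝ} {β : Fin m → Ge V}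
  {K PP : Finset F → Ge (VS V m)}

/-- the contribution of the rest -/
theorem StepD.bd (h : StepD S g wt v Γ e sz sf ζ β K PP) (I : Finset (Fin m)) (U : Finset F) :
    ENNReal.ofReal ((v ^ 2) ^ I.card * |co I (cvG (ext0 m S) (PP U))|) ≤
      Nw (wt U) (fun _ => v) (PP U) := by
  have h1 := co_bd h.gram (v := fun _ : Fin m => v) (fun _ => h.v0) I (PP U)
  rw [prod_const] at h1
  exact h1.trans (Nw_mono (h.gwt U) _)

theorem one_le_pow_sz (h : StepD S g wt v Γ e sz sf ζ β K PP) (n : ℕ) :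
    1 ≤ ENNReal.ofReal (Γ ^ n) := by
  rw [ENNReal.one_le_ofReal]
  exact one_le_pow₀ h.Γ1

theorem StepD.coH (h : StepD S g wt v Γ e sz sf ζ β K PP) {I : Finset (Fin m)} (hI : I ≠ ∅)
    (U : Finset F) : co I (cvG (ext0 m S) (K U)) =
      (∑ i, if U = sf i then (if I = {i} then ζ i * EEG S (β i) else 0) else 0) +
        co I (cvG (ext0 m S) (PP U)) := by
  conv_lhs => rw [h.dec U]
  rw [map_add, map_add, map_add, map_add, cvG_inG, co_inG hI, zero_add, co_LD]

/-- the rest is summable, with total at most `e` -/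
theorem StepD.sum_PP (h : StepD S g wt v Γ e sz sf ζ β K PP) (I : Finset (Fin m)) :
    Summable (fun U => co I (cvG (ext0 m S) (PP U))) ∧
      (v ^ 2) ^ I.card * |∑' U, co I (cvG (ext0 m S) (PP U))| ≤ e := by
  refine abs_tsum_le' (by have := h.v0; positivity) h.e0 (fun U => h.bd I U)
    (le_trans (ENNReal.tsum_le_tsum fun U => ?_) h.tot)
  calc Nw (wt U) (fun _ => v) (PP U) = 1 * Nw (wt U) (fun _ => v) (PP U) := (one_mul _).symm
    _ ≤ _ := mul_le_mul' (one_le_pow_sz h _) le_rfl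

/-- the large part of the rest -/
theorem StepD.sum_large (h : StepD S g wt v Γ e sz sf ζ β K PP) (I : Finset (Fin m)) {n : ℕ}
    {s : Set (Finset F)}
    (hs : ∀ U ∈ s, co I (cvG (ext0 m S) (PP U)) ≠ 0 → n ≤ sz U) :
    Summable (fun U : s => |co I (cvG (ext0 m S) (PP U))|) ∧
      Γ ^ n * (v ^ 2) ^ I.card * ∑' U : s, |co I (cvG (ext0 m S) (PP U))| ≤ e := by
  have hΓ : (0 : ℝ) < Γ := lt_of_lt_of_le one_pos h.Γ1
  refine abs_tsum_le (f := fun U : s => co I (cvG (ext0 m S) (PP U)))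
    (x := fun U : s => ENNReal.ofReal (Γ ^ sz U) * Nw (wt U) (fun _ => v) (PP U))
    (by have := h.v0; positivity) h.e0 (fun U => ?_) ?_
  · by_cases h0 : co I (cvG (ext0 m S) (PP U)) = 0
    · rw [h0]; simp
    · rw [mul_assoc, ENNReal.ofReal_mul (by positivity)]
      refine mul_le_mul' (ENNReal.ofReal_le_ofReal ?_) (h.bd I U)
      exact pow_le_pow_right₀ h.Γ1 (hs U U.2 h0)
  · exact (ENNReal.tsum_comp_le_tsum_of_injective Subtype.val_injective _).trans h.tot

theorem StepD.sum_lead (i : Fin m) (x : Fin m → ℝ) :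
    HasSum (fun U : Finset F => ∑ j, if U = sf j then
      (if ({i} : Finset (Fin m)) = {j} then x j else 0) else 0) (x i) := by
  have h1 : (fun U : Finset F => ∑ j, if U = sf j then
      (if ({i} : Finset (Fin m)) = {j} then x j else 0) else 0) =
      fun U => if U = sf i then x i else 0 := by
    funext U
    rw [sum_eq_single i]
    · simp
    · intro j _ hj
      rw [if_neg (c := ({i} : Finset (Fin m)) = {j}) fun hh => hj (singleton_injective hh).symm,
        ite_self]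
    · simp
  rw [h1]
  exact hasSum_ite_eq (sf i) (x i)

/-- **one step, order one** -/
theorem StepD.inc (h : StepD S g wt v Γ e sz sf ζ β K PP) (hinj : Function.Injective sf)
    (i : Fin m) : Summable (fun U => co {i} (cvG (ext0 m S) (K U))) ∧
      v ^ 2 * |∑' U, co {i} (cvG (ext0 m S) (K U)) - ζ i * EEG S (β i)| ≤ e := by
  obtain ⟨h1, h2⟩ := h.sum_PP {i}
  have h3 := StepD.sum_lead (F := F) (sf := sf) i (fun j => ζ j * EEG S (β j))
  have h4 := h3.add h1.hasSum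
  have h5 : (fun U => co {i} (cvG (ext0 m S) (K U))) = fun U => (∑ j, if U = sf j then
      (if ({i} : Finset (Fin m)) = {j} then ζ j * EEG S (β j) else 0) else 0) +
      co {i} (cvG (ext0 m S) (PP U)) := funext fun U => h.coH (singleton_ne_empty i) U
  rw [← h5] at h4
  refine ⟨h4.summable, ?_⟩
  rw [h4.tsum_eq, add_sub_cancel_left]
  simpa using h2

/-- **one step, order at least two** -/
theorem StepD.inc2 (h : StepD S g wt v Γ e sz sf ζ β K PP) {I : Finset (Fin m)}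
    (hI : 2 ≤ I.card) {n : ℕ} (hs : ∀ U, co I (cvG (ext0 m S) (PP U)) ≠ 0 → n ≤ sz U) :
    Summable (fun U => co I (cvG (ext0 m S) (K U))) ∧
      Γ ^ n * (v ^ 2) ^ I.card * |∑' U, co I (cvG (ext0 m S) (K U))| ≤ e := by
  have h1 : (fun U => co I (cvG (ext0 m S) (K U))) = fun U => co I (cvG (ext0 m S) (PP U)) := by
    funext U
    rw [h.coH (by rintro rfl; simp at hI) U, add_eq_right]
    refine sum_eq_zero fun j _ => ?_
    rw [if_neg (c := I = {j}) (by rintro rfl; simp at hI), ite_self]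
  rw [h1]
  have hΓ : (0 : ℝ) < Γ := lt_of_lt_of_le one_pos h.Γ1
  refine abs_tsum_le' (x := fun U => ENNReal.ofReal (Γ ^ sz U) * Nw (wt U) (fun _ => v) (PP U))
    (by have := h.v0; positivity) h.e0 (fun U => ?_) h.tot
  by_cases h0 : co I (cvG (ext0 m S) (PP U)) = 0
  · rw [h0]; simp
  · rw [mul_assoc, ENNReal.ofReal_mul (by positivity)]
    refine mul_le_mul' (ENNReal.ofReal_le_ofReal ?_) (h.bd I U)
    exact pow_le_pow_right₀ h.Γ1 (hs U h0)

end step

/-! ### comparison of two systems -/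

theorem tsum_cmp {ι κ : Type*} {f : ι → ℝ} {f' : κ → ℝ} (hf : Summable f) (hf' : Summable f')
    {s : Set ι} {s' : Set κ} (ψ : s ≃ s') (h : ∀ u : s, f u = f' (ψ u)) :
    |∑' u, f u - ∑' u, f' u| ≤ |∑' u : (sᶜ : Set ι), f u| + |∑' u : (s'ᶜ : Set κ), f' u| := by
  rw [← hf.tsum_subtype_add_tsum_subtype_compl s, ← hf'.tsum_subtype_add_tsum_subtype_compl s']
  have h1 : ∑' u : s, f u = ∑' u : s', f' u := by
    rw [← ψ.tsum_eq (fun u : s' => f' u)]
    exact tsum_congr h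
  rw [h1, add_sub_add_left_eq_sub]
  exact abs_sub _ _

section cmp

variable {V V' : Type*} [AddCommGroup V] [Module ℝ V] [AddCommGroup V'] [Module ℝ V']
  {m m' : ℕ} {F F' : Type*} [DecidableEq F] [DecidableEq F']
variable {S : Cov V} {g : V → ℝ≥0∞} {wt : Finset F → V → ℝ≥0∞} {v Γ e : ℝ}
  {sz : Finset F → ℕ} {sf : Fin m → Finset F} {ζ : Fin m → ℝ} {β : Fin m → Ge V}
  {K PP : Finset F → Ge (VS V m)}
variable {S' : Cov V'} {g' : V' → ℝ≥0∞} {wt' : Finset F' → V' → ℝ≥0∞} {v' Γ' e' : ℝ}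
  {sz' : Finset F' → ℕ} {sf' : Fin m' → Finset F'} {ζ' : Fin m' → ℝ} {β' : Fin m' → Ge V'}
  {K' PP' : Finset F' → Ge (VS V' m')}

theorem StepD.outer (h : StepD S g wt v Γ e sz sf ζ β K PP) (i : Fin m) {n : ℕ}
    {s : Set (Finset F)} (hi : sf i ∈ s)
    (hs : ∀ U, U ∉ s → co {i} (cvG (ext0 m S) (K U)) ≠ 0 → n ≤ sz U) :
    Γ ^ n * v ^ 2 * |∑' U : (sᶜ : Set (Finset F)), co {i} (cvG (ext0 m S) (K U))| ≤ e := by
  have hΓ : (0 : ℝ) < Γ := lt_of_lt_of_le one_pos h.Γ1
  have h0 : ∀ U, U ∉ s → co {i} (cvG (ext0 m S) (K U)) = co {i} (cvG (ext0 m S) (PP U)) := by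
    intro U hU
    rw [h.coH (singleton_ne_empty i) U, add_eq_right]
    refine sum_eq_zero fun j _ => ?_
    split_ifs with h1 h2
    · exact absurd (by rw [h1, ← singleton_injective h2]; exact hi) hU
    · rfl
    · rfl
  have h1 := h.sum_large {i} (n := n) (s := sᶜ) (fun U hU hne => hs U hU (by rwa [h0 U hU]))
  have h2 : ∑' U : (sᶜ : Set (Finset F)), co {i} (cvG (ext0 m S) (K U)) =
      ∑' U : (sᶜ : Set (Finset F)), co {i} (cvG (ext0 m S) (PP U)) :=
    tsum_congr fun U => h0 U U.2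
  rw [h2]
  obtain ⟨h3, h4⟩ := h1
  rw [card_singleton, pow_one] at h4
  refine le_trans (mul_le_mul_of_nonneg_left ?_ (by have := h.v0; positivity)) h4
  have h5 := norm_tsum_le_tsum_norm
    (f := fun U : (sᶜ : Set (Finset F)) => co {i} (cvG (ext0 m S) (PP U)))
    (by simpa [Real.norm_eq_abs] using h3)
  simpa [Real.norm_eq_abs] using h5

/-- **comparison of the increments of two systems** -/
theorem StepD.cmp (h : StepD S g wt v Γ e sz sf ζ β K PP)
    (h' : StepD S' g' wt' v Γ e' sz' sf' ζ' β' K' PP')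
    (hinj : Function.Injective sf) (hinj' : Function.Injective sf') (i : Fin m) (i' : Fin m')
    {n : ℕ} {s : Set (Finset F)} {s' : Set (Finset F')} (ψ : s ≃ s')
    (hψ : ∀ U : s, co {i} (cvG (ext0 m S) (K U)) = co {i'} (cvG (ext0 m' S') (K' (ψ U))))
    (hi : sf i ∈ s) (hi' : sf' i' ∈ s')
    (hs : ∀ U, U ∉ s → co {i} (cvG (ext0 m S) (K U)) ≠ 0 → n ≤ sz U)
    (hs' : ∀ U, U ∉ s' → co {i'} (cvG (ext0 m' S') (K' U)) ≠ 0 → n ≤ sz' U) :
    Γ ^ n * v ^ 2 * |∑' U, co {i} (cvG (ext0 m S) (K U)) -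
      ∑' U, co {i'} (cvG (ext0 m' S') (K' U))| ≤ e + e' := by
  have hΓ : (0 : ℝ) < Γ := lt_of_lt_of_le one_pos h.Γ1
  have h1 := tsum_cmp (h.inc hinj i).1 (h'.inc hinj' i').1 ψ hψ
  have h2 := h.outer i hi hs
  have h3 := h'.outer i' hi' hs'
  have hp : 0 ≤ Γ ^ n * v ^ 2 := by have := h.v0; positivity
  calc _ ≤ Γ ^ n * v ^ 2 * (|∑' U : (sᶜ : Set (Finset F)), co {i} (cvG (ext0 m S) (K U))| +
        |∑' U : (s'ᶜ : Set (Finset F')), co {i'} (cvG (ext0 m' S') (K' U))|) :=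
        mul_le_mul_of_nonneg_left h1 hp
    _ ≤ _ := by rw [mul_add]; exact add_le_add h2 h3

end cmp

end Crest.Agent.R165.SrcCstx484
end
end

-- ▼ part R165/SrcCstC_484
section

/-!
# Row 165 (S0250), leaf P11 item 4: the real sequences (helper484)

* `tail_le` : geometric tails
* `cst_main` : `|(1 - eb) + ∑_{k<K} d_k + Ze ∑_{k≥K} s_k| ≤ 3 E_K`
* `cst_final` : the same in the scales `v2 k = v_k²`
* `high_final` : the terms of order at least two
-/

set_option autoImplicit false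

noncomputable section

namespace Crest.Agent.R165.SrcCstx484

open Finset

theorem half_pow_le {E : ℕ → ℝ} (hE : ∀ k, E (k + 1) ≤ E k / 2) (K j : ℕ) :
    E (j + K) ≤ (1 / 2 : ℝ) ^ j * E K := by
  induction j with
  | zero => simp
  | succ j ih =>
    have h1 := hE (j + K)
    rw [show j + 1 + K = j + K + 1 by ring, pow_succ]
    linarith

theorem tail_le {E : ℕ → ℝ} (hE0 : ∀ k, 0 ≤ E k) (hE : ∀ k, E (k + 1) ≤ E k / 2) (K : ℕ) :
    Summable (fun j => E (j + K)) ∧ ∑' j, E (j + K) ≤ 2 * E K := by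
  have h1 : Summable fun j : ℕ => (1 / 2 : ℝ) ^ j * E K :=
    (summable_geometric_of_lt_one (by norm_num) (by norm_num)).mul_right _
  have h2 : Summable fun j => E (j + K) :=
    Summable.of_nonneg_of_le (fun j => hE0 _) (fun j => half_pow_le hE K j) h1
  refine ⟨h2, (h2.tsum_le_tsum (fun j => half_pow_le hE K j) h1).trans (le_of_eq ?_)⟩
  rw [tsum_mul_right, tsum_geometric_of_lt_one (by norm_num) (by norm_num)]
  norm_num

theorem sum_half_le (K : ℕ) : ∑ k ∈ range K, (1 / 2 : ℝ) ^ (K - k) ≤ 1 := by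
  induction K with
  | zero => simp
  | succ K ih =>
    rw [sum_range_succ]
    have h1 : ∀ k ∈ range K, (1 / 2 : ℝ) ^ (K + 1 - k) = 1 / 2 * (1 / 2 : ℝ) ^ (K - k) := by
      intro k hk
      rw [mem_range] at hk
      rw [show K + 1 - k = (K - k) + 1 by omega, pow_succ]
      ring
    rw [sum_congr rfl h1, ← mul_sum, show K + 1 - K = 1 by omega]
    linarith

/-- **the constants**: `d` increments of the system, `p` increments of the plane, `s` leading
increments of the plane -/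
theorem cst_main {d p s E : ℕ → ℝ} {Ze C : ℝ} (hE0 : ∀ k, 0 ≤ E k)
    (hE : ∀ k, E (k + 1) ≤ E k / 2) (hs : Summable s) (hp : ∀ k, |p k - Ze * s k| ≤ E k)
    (K : ℕ) (hd : ∀ k < K, |d k - p k| ≤ (1 / 2 : ℝ) ^ (K - k) * (C * E K)) (hC : 0 ≤ C) :
    Summable p ∧ |(1 - (1 + ∑' k, p k)) + ∑ k ∈ range K, d k + Ze * ∑' k, s (k + K)| ≤
      (C + 2) * E K := by
  have h0 := (tail_le hE0 hE 0).1
  simp only [Nat.add_zero] at h0
  have h1 : Summable fun k => p k - Ze * s k :=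
    Summable.of_norm_bounded h0 fun k => by rw [Real.norm_eq_abs]; exact hp k
  have h2 : Summable p := by
    refine (h1.add (hs.mul_left Ze)).congr fun k => ?_
    ring
  refine ⟨h2, ?_⟩
  obtain ⟨h3, h4⟩ := tail_le hE0 hE K
  have e1 : ∑' k, p k = ∑ k ∈ range K, p k + ∑' k, p (k + K) :=
    (h2.sum_add_tsum_nat_add K).symm
  have h5 : Summable fun k => p (k + K) := (summable_nat_add_iff K).2 h2
  have h6 : Summable fun k => s (k + K) := (summable_nat_add_iff K).2 hs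
  have e2 : ∑' k, p (k + K) - Ze * ∑' k, s (k + K) = ∑' k, (p (k + K) - Ze * s (k + K)) := by
    rw [← tsum_mul_left, h5.tsum_sub (h6.mul_left Ze)]
  have e3 : |∑' k, (p (k + K) - Ze * s (k + K))| ≤ 2 * E K := by
    refine le_trans ?_ h4
    have h7 := norm_tsum_le_tsum_norm (f := fun k => p (k + K) - Ze * s (k + K))
      (Summable.of_nonneg_of_le (fun _ => norm_nonneg _)
        (fun k => by rw [Real.norm_eq_abs]; exact hp (k + K)) h3)
    rw [Real.norm_eq_abs] at h7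
    refine h7.trans (Summable.tsum_le_tsum (fun k => by rw [Real.norm_eq_abs]; exact hp (k + K))
      (Summable.of_nonneg_of_le (fun _ => norm_nonneg _)
        (fun k => by rw [Real.norm_eq_abs]; exact hp (k + K)) h3) h3)
  have e4 : |∑ k ∈ range K, (d k - p k)| ≤ C * E K := by
    refine (abs_sum_le_sum_abs _ _).trans ?_
    calc ∑ k ∈ range K, |d k - p k| ≤ ∑ k ∈ range K, (1 / 2 : ℝ) ^ (K - k) * (C * E K) :=
          sum_le_sum fun k hk => hd k (mem_range.1 hk)
      _ ≤ 1 * (C * E K) := by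
          rw [← sum_mul]
          exact mul_le_mul_of_nonneg_right (sum_half_le K) (mul_nonneg hC (hE0 K))
      _ = _ := one_mul _
  have e5 : (1 - (1 + ∑' k, p k)) + ∑ k ∈ range K, d k + Ze * ∑' k, s (k + K) =
      ∑ k ∈ range K, (d k - p k) - (∑' k, p (k + K) - Ze * ∑' k, s (k + K)) := by
    rw [e1, sum_sub_distrib]
    ring
  rw [e5, e2]
  calc _ ≤ |∑ k ∈ range K, (d k - p k)| + |∑' k, (p (k + K) - Ze * s (k + K))| := abs_sub _ _
    _ ≤ C * E K + 2 * E K := add_le_add e4 e3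
    _ = _ := by ring

/-- growth of the scales over several steps -/
theorem scale_le {v2 : ℕ → ℝ} {L : ℝ} (hL : 0 ≤ L) (h : ∀ k, v2 (k + 1) ≤ L * v2 k) (k j : ℕ) :
    v2 (j + k) ≤ L ^ j * v2 k := by
  induction j with
  | zero => simp
  | succ j ih =>
    have h1 := h (j + k)
    have h2 := mul_le_mul_of_nonneg_left ih hL
    rw [show j + 1 + k = j + k + 1 by ring, pow_succ]
    linarith

/-- **item 4, order one**: `v2 k = v_k²`, `e k`, `e' k` total norms of the rest in the system and in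
the plane, `z k` running factor of the plane, `n k` = size of the sets on which the two systems
differ -/
theorem cst_final {v2 d p s z e e' : ℕ → ℝ} {n : ℕ → ℕ} {L Γ σ Ze Ce Cz Cs : ℝ}
    (hv : ∀ k, 0 < v2 k) (hL : 1 ≤ L) (hv1 : ∀ k, 2 * v2 k ≤ v2 (k + 1))
    (hv2 : ∀ k, v2 (k + 1) ≤ L * v2 k)
    (hσ : 0 < σ) (hσ1 : σ ≤ 1) (hΓ : 2 * L ≤ Γ * σ) (hCe : 0 ≤ Ce) (hCz : 0 ≤ Cz) (hCs : 0 ≤ Cs)
    (hz : ∀ k, |z k - Ze| ≤ Cz * σ ^ k) (hs : ∀ k, v2 k * |s k| ≤ Cs)
    (hp : ∀ k, v2 k * |p k - z k * s k| ≤ e' k) (he' : ∀ k, e' k ≤ Ce * σ ^ k)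
    (K : ℕ) (he : ∀ k < K, e k ≤ Ce * σ ^ k)
    (hd : ∀ k < K, Γ ^ n k * v2 k * |d k - p k| ≤ e k + e' k)
    (hn : ∀ k < K, K - k ≤ n k) :
    Summable p ∧ v2 K * |(1 - (1 + ∑' k, p k)) + ∑ k ∈ range K, d k -
      Ze * (-∑' k, s (k + K))| ≤ 4 * (Ce + Cz * Cs) * σ ^ K := by
  set B := Ce + Cz * Cs with hB
  have hB0 : 0 ≤ B := by positivity
  let E : ℕ → ℝ := fun k => B * σ ^ k / v2 k
  have hE0 : ∀ k, 0 ≤ E k := fun k => by have := hv k; positivity
  have hE : ∀ k, E (k + 1) ≤ E k / 2 := by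
    intro k
    show B * σ ^ (k + 1) / v2 (k + 1) ≤ B * σ ^ k / v2 k / 2
    rw [div_div, mul_comm (v2 k) 2]
    have h1 : B * σ ^ (k + 1) ≤ B * σ ^ k := by
      rw [pow_succ, ← mul_assoc]
      exact mul_le_of_le_one_right (by positivity) hσ1
    exact div_le_div₀ (by positivity) h1 (by have := hv k; positivity) (hv1 k)
  have hs' : ∀ k, |s k| ≤ Cs / v2 k := fun k => by
    rw [le_div_iff₀ (hv k), mul_comm]; exact hs k
  have hpE : ∀ k, |p k - Ze * s k| ≤ E k := by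
    intro k
    have h1 : |p k - z k * s k| ≤ Ce * σ ^ k / v2 k := by
      rw [le_div_iff₀ (hv k), mul_comm]
      exact (hp k).trans (he' k)
    have h2 : |(z k - Ze) * s k| ≤ Cz * σ ^ k * (Cs / v2 k) := by
      rw [abs_mul]
      exact mul_le_mul (hz k) (hs' k) (abs_nonneg _) (by positivity)
    have h3 : p k - Ze * s k = (p k - z k * s k) + (z k - Ze) * s k := by ring
    rw [h3]
    refine (abs_add_le _ _).trans ((add_le_add h1 h2).trans (le_of_eq ?_))
    show _ = B * σ ^ k / v2 k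
    rw [hB]
    ring
  have hss : Summable s := by
    have h1 := (tail_le (E := fun k => 1 / v2 k) (fun k => by have := hv k; positivity)
      (fun k => by
        rw [div_div, mul_comm (v2 k) 2]
        exact div_le_div₀ (by norm_num) le_rfl (by have := hv k; positivity) (hv1 k)) 0).1
    simp only [Nat.add_zero] at h1
    refine Summable.of_norm_bounded (h1.mul_left Cs) fun k => ?_
    rw [Real.norm_eq_abs, mul_one_div]
    exact hs' k
  have hdE : ∀ k < K, |d k - p k| ≤ (1 / 2 : ℝ) ^ (K - k) * (2 * E K) := by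
    intro k hk
    have hΓ0 : 0 < Γ := by
      by_contra hc
      have : Γ * σ ≤ 0 := mul_nonpos_of_nonpos_of_nonneg (not_lt.1 hc) hσ.le
      linarith
    have hΓ1 : 1 ≤ Γ := by
      have h1 : Γ * σ ≤ Γ * 1 := mul_le_mul_of_nonneg_left hσ1 hΓ0.le
      linarith
    have h1 : e k + e' k ≤ 2 * (B * σ ^ k) := by
      have h2 := he k hk
      have h3 := he' k
      have h4 : Ce * σ ^ k ≤ B * σ ^ k :=
        mul_le_mul_of_nonneg_right (by rw [hB]; nlinarith [mul_nonneg hCz hCs]) (by positivity)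
      linarith
    have h2 : Γ ^ (K - k) * v2 k * |d k - p k| ≤ 2 * (B * σ ^ k) := by
      refine le_trans ?_ ((hd k hk).trans h1)
      have := hv k
      refine mul_le_mul_of_nonneg_right (mul_le_mul_of_nonneg_right ?_ this.le) (abs_nonneg _)
      exact pow_le_pow_right₀ hΓ1 (hn k hk)
    have h3 : v2 K ≤ L ^ (K - k) * v2 k := by
      have := scale_le (by linarith) hv2 k (K - k)
      rwa [Nat.sub_add_cancel hk.le] at this
    have h4 : (2 * L) ^ (K - k) ≤ Γ ^ (K - k) * σ ^ (K - k) := by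
      rw [← mul_pow]
      exact pow_le_pow_left₀ (by linarith) hΓ _
    have h5 : σ ^ K = σ ^ (K - k) * σ ^ k := by
      rw [← pow_add, Nat.sub_add_cancel hk.le]
    -- the claim `|d - p| ≤ 2^{-j} 2 B σ^K / v2 K`
    show |d k - p k| ≤ (1 / 2 : ℝ) ^ (K - k) * (2 * (B * σ ^ K / v2 K))
    have h6 : (1 / 2 : ℝ) ^ (K - k) * (2 * (B * σ ^ K / v2 K)) =
        2 * (B * σ ^ K) / (2 ^ (K - k) * v2 K) := by
      rw [one_div, inv_pow]
      field_simp
    rw [h6, le_div_iff₀ (by have := hv K; positivity)]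
    have h7 : 2 ^ (K - k) * v2 K ≤ Γ ^ (K - k) * σ ^ (K - k) * v2 k := by
      calc 2 ^ (K - k) * v2 K ≤ 2 ^ (K - k) * (L ^ (K - k) * v2 k) :=
            mul_le_mul_of_nonneg_left h3 (by positivity)
        _ = (2 * L) ^ (K - k) * v2 k := by rw [mul_pow]; ring
        _ ≤ _ := mul_le_mul_of_nonneg_right h4 (hv k).le
    calc |d k - p k| * (2 ^ (K - k) * v2 K)
        ≤ |d k - p k| * (Γ ^ (K - k) * σ ^ (K - k) * v2 k) :=
          mul_le_mul_of_nonneg_left h7 (abs_nonneg _)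
      _ = σ ^ (K - k) * (Γ ^ (K - k) * v2 k * |d k - p k|) := by ring
      _ ≤ σ ^ (K - k) * (2 * (B * σ ^ k)) := mul_le_mul_of_nonneg_left h2 (by positivity)
      _ = 2 * (B * σ ^ K) := by rw [h5]; ring
  obtain ⟨r1, r2⟩ := cst_main hE0 hE hss hpE K hdE (by norm_num)
  refine ⟨r1, ?_⟩
  have r3 : (1 - (1 + ∑' k, p k)) + ∑ k ∈ range K, d k - Ze * (-∑' k, s (k + K)) =
      (1 - (1 + ∑' k, p k)) + ∑ k ∈ range K, d k + Ze * ∑' k, s (k + K) := by ring
  rw [r3]
  have r4 : v2 K * E K = B * σ ^ K := by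
    show v2 K * (B * σ ^ K / v2 K) = _
    have := (hv K).ne'
    field_simp
  calc _ ≤ v2 K * ((2 + 2) * E K) := mul_le_mul_of_nonneg_left r2 (hv K).le
    _ = 4 * (v2 K * E K) := by ring
    _ = _ := by rw [r4]; ring

/-- **item 4, order `j = |I| ≥ 2`** -/
theorem high_final {v2 d e : ℕ → ℝ} {n : ℕ → ℕ} {L Γ σ Ce : ℝ} {j m : ℕ} (hj : j ≤ m)
    (hv : ∀ k, 0 < v2 k) (hL : 1 ≤ L) (hv2 : ∀ k, v2 (k + 1) ≤ L * v2 k)
    (hσ : 0 < σ) (hΓ1 : 1 ≤ Γ) (hΓ : 2 * L ^ m ≤ Γ ^ (m + 1) * σ) (hCe : 0 ≤ Ce)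
    (K : ℕ) (he : ∀ k < K, e k ≤ Ce * σ ^ k)
    (hd : ∀ k < K, Γ ^ n k * v2 k ^ j * |d k| ≤ e k)
    (hn : ∀ k < K, (m + 1) * (K - k) ≤ n k) :
    v2 K ^ j * |∑ k ∈ range K, d k| ≤ Ce * σ ^ K := by
  have key : ∀ k < K, v2 K ^ j * |d k| ≤ (1 / 2 : ℝ) ^ (K - k) * (Ce * σ ^ K) := by
    intro k hk
    have h3 : v2 K ≤ L ^ (K - k) * v2 k := by
      have := scale_le (by linarith) hv2 k (K - k)
      rwa [Nat.sub_add_cancel hk.le] at this
    have h3' : v2 K ^ j ≤ (L ^ m) ^ (K - k) * v2 k ^ j := by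
      calc v2 K ^ j ≤ (L ^ (K - k) * v2 k) ^ j := pow_le_pow_left₀ (hv K).le h3 j
        _ = (L ^ j) ^ (K - k) * v2 k ^ j := by
            rw [mul_pow, ← pow_mul, ← pow_mul, mul_comm (K - k) j]
        _ ≤ _ := by
            refine mul_le_mul_of_nonneg_right ?_ (by have := hv k; positivity)
            exact pow_le_pow_left₀ (by positivity) (pow_le_pow_right₀ hL hj) _
    have h2 : (Γ ^ (m + 1)) ^ (K - k) * v2 k ^ j * |d k| ≤ Ce * σ ^ k := by
      refine le_trans ?_ ((hd k hk).trans (he k hk))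
      refine mul_le_mul_of_nonneg_right (mul_le_mul_of_nonneg_right ?_
        (by have := hv k; positivity)) (abs_nonneg _)
      rw [← pow_mul]
      exact pow_le_pow_right₀ hΓ1 (hn k hk)
    have h4 : (2 * L ^ m) ^ (K - k) ≤ (Γ ^ (m + 1)) ^ (K - k) * σ ^ (K - k) := by
      rw [← mul_pow]
      exact pow_le_pow_left₀ (by positivity) hΓ _
    have h5 : σ ^ K = σ ^ (K - k) * σ ^ k := by
      rw [← pow_add, Nat.sub_add_cancel hk.le]
    have h6 : (1 / 2 : ℝ) ^ (K - k) * (Ce * σ ^ K) = Ce * σ ^ K / 2 ^ (K - k) := by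
      rw [one_div, inv_pow]
      field_simp
    rw [h6, le_div_iff₀ (by positivity)]
    calc v2 K ^ j * |d k| * 2 ^ (K - k)
        ≤ (L ^ m) ^ (K - k) * v2 k ^ j * |d k| * 2 ^ (K - k) := by
          refine mul_le_mul_of_nonneg_right (mul_le_mul_of_nonneg_right h3' (abs_nonneg _))
            (by positivity)
      _ = (2 * L ^ m) ^ (K - k) * (v2 k ^ j * |d k|) := by rw [mul_pow]; ring
      _ ≤ (Γ ^ (m + 1)) ^ (K - k) * σ ^ (K - k) * (v2 k ^ j * |d k|) :=
          mul_le_mul_of_nonneg_right h4 (by have := hv k; positivity)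
      _ = σ ^ (K - k) * ((Γ ^ (m + 1)) ^ (K - k) * v2 k ^ j * |d k|) := by ring
      _ ≤ σ ^ (K - k) * (Ce * σ ^ k) := mul_le_mul_of_nonneg_left h2 (by positivity)
      _ = Ce * σ ^ K := by rw [h5]; ring
  calc v2 K ^ j * |∑ k ∈ range K, d k| ≤ v2 K ^ j * ∑ k ∈ range K, |d k| :=
        mul_le_mul_of_nonneg_left (abs_sum_le_sum_abs _ _) (by have := hv K; positivity)
    _ = ∑ k ∈ range K, v2 K ^ j * |d k| := mul_sum _ _ _
    _ ≤ ∑ k ∈ range K, (1 / 2 : ℝ) ^ (K - k) * (Ce * σ ^ K) :=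
        sum_le_sum fun k hk => key k (mem_range.1 hk)
    _ ≤ 1 * (Ce * σ ^ K) := by
        rw [← sum_mul]
        exact mul_le_mul_of_nonneg_right (sum_half_le K) (by positivity)
    _ = _ := one_mul _

end Crest.Agent.R165.SrcCstx484
end
end

-- ▼ part R165/SrcCstD_484

/-!
# Row 165 (S0250), leaf P11 item 4: the constants of a run with sources (helper484)

* `Run` : a run of a system with sources up to the scale `N` (data of all steps)
* `CmpH` : comparison of two activities at one source, up to sets of size at least `n`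
* `constants` : (d) `|(1 - eb) + co {i} E_N - Ze c0| v_N² ≤ C σ^N`
* `high` : (e) `∏_{i ∈ I} v_N² |co I E_N| ≤ C σ^N` for `|I| ≥ 2`
* `vrest` : the field `vrest` of `FinD`
-/

set_option autoImplicit false
set_option linter.unusedSectionVars false

noncomputable section

namespace Crest.Agent.R165.SrcCstx484

open Finset
open scoped ENNReal
open Crest.Agent.R165.FinBx900 Crest.Agent.R165.KStepx892
open Crest.Agent.R165.Gr0x606 Crest.Agent.R165.Gr1x606 Crest.Agent.R165.GeOpsx337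
  Crest.Agent.R165.ExpGx337 Crest.Agent.R165.PNormx417 Crest.Agent.R165.KFlowx337
  Crest.Agent.R165.SrcDefx991 Crest.Agent.R165.SrcFinx441 Crest.Agent.R165.GrLocx337
open Crest.Agent.R165.SrcFinBx441 (Nw)

variable {V V' : Type*} [AddCommGroup V] [Module ℝ V] [AddCommGroup V'] [Module ℝ V']
  {m m' : ℕ} {F F' : Type*} [DecidableEq F] [DecidableEq F']

/-- **a run of a system with sources**, the steps `k` with `P k` (e.g. `k < N`, or all `k`) -/
structure Run (D : Sys F (VS V m)) (P : ℕ → Prop) (S : ℕ → Cov V) (g : ℕ → V → ℝ≥0∞)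
    (wt : ℕ → Finset F → V → ℝ≥0∞) (v : ℕ → ℝ) (Γ : ℝ) (e : ℕ → ℝ) (sz : ℕ → Finset F → ℕ)
    (sf : Fin m → Finset F) (ζ : ℕ → Fin m → ℝ) (β : Fin m → Ge V)
    (PP : ℕ → Finset F → Ge (VS V m)) : Prop where
  vac : D.vac = vacS
  S_eq : ∀ k, D.S k = ext0 m (S k)
  inj : Function.Injective sf
  step : ∀ k, P k → StepD (S k) (g k) (wt k) (v k) Γ (e k) (sz k) sf (ζ k) β (D.K k) (PP k)

/-- comparison of two activities at the sources `i`, `i'`, up to sets of size at least `n` -/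
def CmpH (H : Finset F → Ge (VS V m)) (H' : Finset F' → Ge (VS V' m')) (i : Fin m) (i' : Fin m')
    (sf : Fin m → Finset F) (sf' : Fin m' → Finset F') (sz : Finset F → ℕ)
    (sz' : Finset F' → ℕ) (n : ℕ) : Prop :=
  ∃ (s : Set (Finset F)) (s' : Set (Finset F')) (ψ : s ≃ s'),
    (∀ U : s, co {i} (H U) = co {i'} (H' (ψ U))) ∧ sf i ∈ s ∧ sf' i' ∈ s' ∧
    (∀ U, U ∉ s → co {i} (H U) ≠ 0 → n ≤ sz U) ∧
    (∀ U, U ∉ s' → co {i'} (H' U) ≠ 0 → n ≤ sz' U)

section run

variable {D : Sys F (VS V m)} {P : ℕ → Prop} {S : ℕ → Cov V} {g : ℕ → V → ℝ≥0∞}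
  {wt : ℕ → Finset F → V → ℝ≥0∞} {v : ℕ → ℝ} {Γ : ℝ} {e : ℕ → ℝ} {sz : ℕ → Finset F → ℕ}
  {sf : Fin m → Finset F} {ζ : ℕ → Fin m → ℝ} {β : Fin m → Ge V}
  {PP : ℕ → Finset F → Ge (VS V m)}
variable {D' : Sys F' (VS V' m')} {P' : ℕ → Prop} {S' : ℕ → Cov V'} {g' : ℕ → V' → ℝ≥0∞}
  {wt' : ℕ → Finset F' → V' → ℝ≥0∞} {e' : ℕ → ℝ} {sz' : ℕ → Finset F' → ℕ}
  {sf' : Fin m' → Finset F'} {ζ' : ℕ → Fin m' → ℝ} {β' : Fin m' → Ge V'}
  {PP' : ℕ → Finset F' → Ge (VS V' m')}

theorem Run.H_eq (h : Run D P S g wt v Γ e sz sf ζ β PP) (k : ℕ) :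
    D.H k = fun U => cvG (ext0 m (S k)) (D.K k U) := by
  funext U
  rw [Sys.H, h.S_eq]

/-- finite volume: the sum over the non-empty subsets of `Λ` is the total sum -/
theorem sum_nes {H : Finset F → Ge (VS V m)} {Λ : Finset F} (hs : ∀ U, U ∉ nes Λ → H U = 0)
    (I : Finset (Fin m)) : ∑ U ∈ nes Λ, co I (H U) = ∑' U, co I (H U) := by
  rw [tsum_eq_sum (s := nes Λ)]
  intro U hU
  rw [hs U hU, map_zero]

/-- increment of the plane constant: `eb = 1 + ∑_k incP k` -/
def incS (D : Sys F (VS V m)) (i : Fin m) (k : ℕ) : ℝ := ∑' U, co {i} (D.H k U)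

/-- **(d): the constants of order one** -/
theorem Run.constants (h : Run D P S g wt v Γ e sz sf ζ β PP)
    (h' : Run D' P' S' g' wt' v Γ e' sz' sf' ζ' β' PP') (hP' : ∀ k, P' k)
    (hGS : ∀ k U, D.H k U ∈ GS V m) {Λ : Finset F} (hs : ∀ k U, U ∉ nes Λ → D.H k U = 0)
    (i : Fin m) (i' : Fin m') {N : ℕ} (hP : ∀ k < N, P k)
    (hcmp : ∀ k < N, CmpH (D.H k) (D'.H k) i i' sf sf' (sz k) (sz' k) (N - k))
    {L σ Ze Ce Cz Cs : ℝ} (hv : ∀ k, 0 < v k) (hL : 1 ≤ L)
    (hv1 : ∀ k, 2 * v k ^ 2 ≤ v (k + 1) ^ 2) (hv2 : ∀ k, v (k + 1) ^ 2 ≤ L * v k ^ 2)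
    (hσ : 0 < σ) (hσ1 : σ ≤ 1) (hΓ : 2 * L ≤ Γ * σ) (hCe : 0 ≤ Ce) (hCz : 0 ≤ Cz) (hCs : 0 ≤ Cs)
    (hz : ∀ k, |ζ' k i' - Ze| ≤ Cz * σ ^ k)
    (hsl : ∀ k, v k ^ 2 * |EEG (S' k) (β' i')| ≤ Cs)
    (he' : ∀ k, e' k ≤ Ce * σ ^ k) (he : ∀ k < N, e k ≤ Ce * σ ^ k) :
    Summable (incS D' i') ∧ v N ^ 2 * |(1 - (1 + ∑' k, incS D' i' k)) + co {i} (D.E Λ N) -
      Ze * (-∑' k, EEG (S' (k + N)) (β' i'))| ≤ 4 * (Ce + Cz * Cs) * σ ^ N := by
  have e1 : co {i} (D.E Λ N) = ∑ k ∈ range N, ∑' U, co {i} (D.H k U) := by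
    rw [co_E h.vac hGS]
    exact sum_congr rfl fun k _ => sum_nes (hs k) {i}
  rw [e1]
  refine cst_final (v2 := fun k => v k ^ 2) (d := fun k => ∑' U, co {i} (D.H k U))
    (p := incS D' i') (s := fun k => EEG (S' k) (β' i')) (z := fun k => ζ' k i') (e := e)
    (e' := e') (n := fun k => N - k) (L := L) (Γ := Γ) (σ := σ)
    (fun k => by have := hv k; positivity) hL hv1 hv2 hσ hσ1 hΓ hCe hCz hCs hz hsl ?_ he' N he ?_
    (fun k _ => le_rfl)
  · intro k
    have h1 := ((h'.step k (hP' k)).inc h'.inj i').2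
    simp only [incS, h'.H_eq k]
    exact h1
  · intro k hk
    obtain ⟨s, s', ψ, hψ, hi, hi', ho, ho'⟩ := hcmp k hk
    simp only [h.H_eq k, h'.H_eq k] at hψ ho ho'
    have h1 := (h.step k (hP k hk)).cmp (h'.step k (hP' k)) h.inj h'.inj i i' ψ hψ hi hi' ho ho'
    simp only [incS, h.H_eq k, h'.H_eq k]
    exact h1

/-- **(e): the constants of order at least two** -/
theorem Run.high (h : Run D P S g wt v Γ e sz sf ζ β PP)
    (hGS : ∀ k U, D.H k U ∈ GS V m) {Λ : Finset F} (hs : ∀ k U, U ∉ nes Λ → D.H k U = 0)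
    {I : Finset (Fin m)} (hI : 2 ≤ I.card) {N : ℕ} (hP : ∀ k < N, P k)
    (hbig : ∀ k < N, ∀ U, coP I (D.K k U) ≠ 0 → (m + 1) * (N - k) ≤ sz k U)
    {L σ Ce : ℝ} (hv : ∀ k, 0 < v k) (hL : 1 ≤ L)
    (hv2 : ∀ k, v (k + 1) ^ 2 ≤ L * v k ^ 2) (hσ : 0 < σ) (hΓ1 : 1 ≤ Γ)
    (hΓ : 2 * L ^ m ≤ Γ ^ (m + 1) * σ) (hCe : 0 ≤ Ce) (he : ∀ k < N, e k ≤ Ce * σ ^ k) :
    (v N ^ 2) ^ I.card * |co I (D.E Λ N)| ≤ Ce * σ ^ N := by
  have e1 : co I (D.E Λ N) = ∑ k ∈ range N, ∑' U, co I (D.H k U) := by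
    rw [co_E h.vac hGS]
    exact sum_congr rfl fun k _ => sum_nes (hs k) I
  rw [e1]
  have hIne : I ≠ ∅ := by rintro rfl; simp at hI
  refine high_final (v2 := fun k => v k ^ 2) (d := fun k => ∑' U, co I (D.H k U)) (e := e)
    (n := fun k => (m + 1) * (N - k)) (L := L) (Γ := Γ) (σ := σ) (m := m)
    (by simpa using card_le_univ I) (fun k => by have := hv k; positivity) hL hv2 hσ hΓ1 hΓ hCe N
    he ?_ (fun k _ => le_rfl)
  intro k hk
  simp only [h.H_eq k]
  refine ((h.step k (hP k hk)).inc2 hI fun U hU => hbig k hk U fun h0 => hU ?_).2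
  have h1 := (h.step k (hP k hk)).coH hIne U
  have h2 : co I (cvG (ext0 m (S k)) (D.K k U)) = 0 := by rw [co_cvG, h0, map_zero]
  rw [h2] at h1
  have h3 : (∑ j, if U = sf j then (if I = {j} then ζ k j * EEG (S k) (β j) else 0) else 0) = 0 :=
    sum_eq_zero fun j _ => by
      rw [if_neg (c := I = {j}) (by rintro rfl; simp at hI), ite_self]
  rw [h3, zero_add] at h1
  exact h1.symm

end run

/-! ### the fields of `FinD` -/

/-- the exponent with the centring prefactor -/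
def Etot (c : Fin m → ℝ) (E : Ge (VS V m)) : Ge (VS V m) := ∑ i, c i • tau i + E

theorem Etot_mem {c : Fin m → ℝ} {E : Ge (VS V m)} (hE : E ∈ GS V m) : Etot c E ∈ GS V m :=
  Subalgebra.add_mem _ (Subalgebra.sum_mem _ fun i _ => Subalgebra.smul_mem _ (tau_mem i) _) hE

theorem vacH_Etot {c : Fin m → ℝ} {E : Ge (VS V m)} (hE : vacH E = E) :
    vacH (Etot c E) = Etot c E := by
  unfold Etot
  rw [map_add, hE, map_sum]
  congr 1
  exact sum_congr rfl fun i _ => by rw [map_smul, vacH_tau]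

theorem co_Etot (c : Fin m → ℝ) (E : Ge (VS V m)) (I : Finset (Fin m)) :
    co I (Etot c E) = (∑ i, if I = {i} then c i else 0) + co I E := by
  unfold Etot
  rw [map_add, map_sum]
  congr 1
  refine sum_congr rfl fun i _ => ?_
  rw [map_smul, co_tau, smul_eq_mul]
  split_ifs <;> simp

theorem co_Etot_singleton (c : Fin m → ℝ) (E : Ge (VS V m)) (i : Fin m) :
    co {i} (Etot c E) = c i + co {i} E := by
  rw [co_Etot, sum_eq_single i]
  · simp
  · intro j _ hj
    rw [if_neg fun hh => hj (singleton_injective hh).symm]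
  · simp

theorem co_Etot_high (c : Fin m → ℝ) (E : Ge (VS V m)) {I : Finset (Fin m)} (hI : 2 ≤ I.card) :
    co I (Etot c E) = co I E := by
  rw [co_Etot, sum_eq_zero, zero_add]
  intro j _
  rw [if_neg (by rintro rfl; simp at hI)]

/-- **the field `vrest` of `FinD`** -/
theorem vrest_of {E : Ge (VS V m)} (hE : E ∈ GS V m) (hv : vacH E = E) {g : V → ℝ≥0∞}
    (hg : g 0 = 0) {v ε : ℝ}
    (h : ∀ I : Finset (Fin m), 2 ≤ I.card → (v ^ 2) ^ I.card * |co I E| ≤ ε) (c : Fin m → ℝ) :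
    Bd (Nw g fun _ => v) (Etot c E - algebraMap ℝ _ (ctG (Etot c E)) -
      ∑ i, (c i + co {i} E) • tau i) (2 ^ m * ε) := by
  have h1 := vrest_le (Etot_mem (c := c) hE) (vacH_Etot hv) hg (fun _ => v)
  simp only [co_Etot_singleton] at h1
  refine h1.trans ?_
  calc ∑ I with 2 ≤ I.card, ENNReal.ofReal ((∏ _i ∈ I, v ^ 2) * |co I (Etot c E)|)
      ≤ ∑ I : Finset (Fin m) with 2 ≤ I.card, ENNReal.ofReal ε := by
        refine sum_le_sum fun I hI => ENNReal.ofReal_le_ofReal ?_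
        rw [mem_filter] at hI
        rw [co_Etot_high c E hI.2, prod_const]
        exact h I hI.2
    _ ≤ ∑ _I : Finset (Fin m), ENNReal.ofReal ε :=
        sum_le_sum_of_subset (filter_subset _ _)
    _ = ENNReal.ofReal (2 ^ m * ε) := by
        rw [sum_const, card_univ, Fintype.card_finset, Fintype.card_fin, nsmul_eq_mul,
          ENNReal.ofReal_mul (by positivity)]
        congr 1
        rw [ENNReal.ofReal_pow (by norm_num)]
        norm_num

end Crest.Agent.R165.SrcCstx484
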