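import Crest.Agent.R165.SrcSys_991
import Crest.Agent.R165.FlowD4_898
import Crest.Agent.R165.SrcCstD_484
import Crest.Agent.R165.SrcIns_991
import Crest.Agent.R165.GSysPl_387
import Crest.Agent.R165.J4K0Sym_126
import Crest.Agent.R165.SrcK0_991
import Crest.Agent.R165.Out_683
import Crest.Agent.R165.Red_541

-- ▼ part R165/SrcSym_922
section

/-!
# Row 165 (S0250), P11: equivariance of the systems with sources (helper922)

* `psS m p` : the field map on fields and sources (sources fixed)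
* `SysEq.sysX`, `sysP_eq` : equivalence of the base systems gives equivalence of the systems with
  sources
* `zeta_eq`, `incS_eq` : running coefficients and increments of the constants are equal
-/

set_option autoImplicit false
set_option linter.all false

noncomputable section

namespace Crest.Agent.R165.SrcSymx922

open scoped ENNReal
open Crest.Agent.R165.Gr0x606 Crest.Agent.R165.Gr1x606 Crest.Agent.R165.GeOpsx337
open Crest.Agent.R165.ExpGx337 Crest.Agent.R165.KCompx892 Crest.Agent.R165.KStepx892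
open Crest.Agent.R165.KMapx892 Crest.Agent.R165.KFlowx337 Crest.Agent.R165.GSysx387
open Crest.Agent.R165.SrcDefx991 Crest.Agent.R165.SrcSysx991 Crest.Agent.R165.FlowD4x898
open Crest.Agent.R165.Latx683 Crest.Agent.R165.GDefx387 Crest.Agent.R165.PStepx417
open Crest.Agent.R165.GrLocx337 Crest.Agent.R165.SrcCstx484

/-! ### field maps -/

section maps

variable {V : Type*} [AddCommGroup V] [Module ℝ V] {V' : Type*} [AddCommGroup V'] [Module ℝ V']
  {m : ℕ}

/-- the field map on fields and sources, identity on the sources -/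
def psS (m : ℕ) (p : V →ₗ[ℝ] V') : VS V m →ₗ[ℝ] VS V' m := LinearMap.prodMap p LinearMap.id

theorem psS_th (p : V →ₗ[ℝ] V') (i : Fin m) : psS m p (th i) = th i :=
  Prod.ext (map_zero p) rfl

theorem psS_th' (p : V →ₗ[ℝ] V') (i : Fin m) : psS m p (th' i) = th' i :=
  Prod.ext (map_zero p) rfl

theorem psS_tau (p : V →ₗ[ℝ] V') (i : Fin m) : mpG (psS m p) (tau i) = tau i := by
  rw [tau, mpG_bi, psS_th, psS_th']; rfl

theorem psS_inG (p : V →ₗ[ℝ] V') (a : Ge V) : mpG (psS m p) (inG m a) = inG m (mpG p a) := by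
  unfold inG
  rw [mpG_mpG, mpG_mpG]
  have e2 : psS m p ∘ₗ LinearMap.inl ℝ V (Src m) = LinearMap.inl ℝ V' (Src m) ∘ₗ p :=
    LinearMap.ext fun x => rfl
  rw [e2]

theorem noS_psS (p : V →ₗ[ℝ] V') (a : Ge (VS V m)) : noS (mpG (psS m p) a) = mpG p (noS a) := by
  unfold noS
  rw [mpG_mpG, mpG_mpG]
  congr 1

theorem vacH_psS (p : V →ₗ[ℝ] V') (a : Ge (VS V m)) :
    mpG (psS m p) (vacH a) = vacH (mpG (psS m p) a) := by
  unfold vacH
  rw [mpG_mpG, mpG_mpG]
  have e2 : psS m p ∘ₗ (LinearMap.inr ℝ V (Src m) ∘ₗ LinearMap.snd ℝ V (Src m)) =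
      (LinearMap.inr ℝ V' (Src m) ∘ₗ LinearMap.snd ℝ V' (Src m)) ∘ₗ psS m p :=
    LinearMap.ext fun x => Prod.ext (map_zero p) rfl
  rw [e2]

theorem cpair_psS (p : V →ₗ[ℝ] V') (j : Fin m) (a : Ge (VS V m)) :
    cpair j (mpG (psS m p) a) = mpG (psS m p) (cpair j a) := by
  apply ge_ext
  rw [coe_cpair, coe_mpG, coe_mpG, coe_cpair]
  have h1 : ∀ l : Module.Dual ℝ (VS V' m), ∀ x : Gr (VS V m),
      dd l (mp (psS m p) x) = mp (psS m p) (dd (l ∘ₗ psS m p) x) := fun l x => (mp_dd _ _ _).symm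
  rw [h1, h1]
  rfl

theorem coP_psS (p : V →ₗ[ℝ] V') (I : Finset (Fin m)) (a : Ge (VS V m)) :
    coP I (mpG (psS m p) a) = mpG p (coP I a) := by
  have key : ∀ L : List (Fin m), ∀ a : Ge (VS V m),
      ((L.map cpair).prod : Module.End ℝ (Ge (VS V' m))) (mpG (psS m p) a) =
        mpG (psS m p) (((L.map cpair).prod : Module.End ℝ (Ge (VS V m))) a) := by
    intro L
    induction L with
    | nil => intro a; rfl
    | cons i L ih =>
      intro a
      rw [List.map_cons, List.prod_cons, List.map_cons, List.prod_cons, Module.End.mul_apply,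
        Module.End.mul_apply, ih, cpair_psS]
  unfold coP
  rw [LinearMap.comp_apply, LinearMap.comp_apply]
  show noS (((List.map cpair (I.sort (· ≤ ·))).prod : Module.End ℝ (Ge (VS V' m)))
    (mpG (psS m p) a)) = mpG p (noS _)
  rw [key, noS_psS]

theorem cvG_psS {S : Cov V} {S' : Cov V'} {p : V →ₗ[ℝ] V'}
    (h : ∀ x y, S.b x y = S'.b (p x) (p y)) (a : Ge (VS V m)) :
    mpG (psS m p) (cvG (ext0 m S) a) = cvG (ext0 m S') (mpG (psS m p) a) := by
  apply ge_ext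
  rw [coe_cvG, coe_mpG, coe_mpG, coe_cvG]
  exact mp_conv (psS m p) (ext0 m S) (ext0 m S') (fun x y => h x.1 y.1) _

theorem co_psS (p : V →ₗ[ℝ] V') (I : Finset (Fin m)) (a : Ge (VS V m)) :
    co I (mpG (psS m p) a) = co I a := by
  rw [co_apply, co_apply, coP_psS, ctG_mpG]

end maps

/-! ### extractions -/

section extr

variable {F₁ : Type} [DecidableEq F₁] {F₂ : Type} [DecidableEq F₂]

section un
variable {V₁ : Type*} [AddCommGroup V₁] [Module ℝ V₁] {V₂ : Type*} [AddCommGroup V₂]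
  [Module ℝ V₂] {ψ : F₁ ≃ F₂} {Φ : Ge V₁ →ₐ[ℝ] Ge V₂} {e₁ e₁' : Extr F₁ V₁} {e₂ e₂' : Extr F₂ V₂}

theorem ExtrEq_union (h : ExtrEq ψ Φ e₁ e₂) (h' : ExtrEq ψ Φ e₁' e₂') :
    ExtrEq ψ Φ (union e₁ e₁') (union e₂ e₂') where
  out U T := by
    show T.image ψ ∈ e₂.out (U.image ψ) ∪ e₂'.out (U.image ψ) ↔ T ∈ e₁.out U ∪ e₁'.out U
    rw [Finset.mem_union, Finset.mem_union, h.out, h'.out]
  X U T hT a := by
    show Φ (((if T ∈ e₁.out U then e₁.X U T else 0) +
      (if T ∈ e₁'.out U then e₁'.X U T else 0)) a) =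
      ((if T.image ψ ∈ e₂.out (U.image ψ) then e₂.X (U.image ψ) (T.image ψ) else 0) +
        (if T.image ψ ∈ e₂'.out (U.image ψ) then e₂'.X (U.image ψ) (T.image ψ) else 0)) (Φ a)
    rw [LinearMap.add_apply, LinearMap.add_apply, map_add]
    congr 1
    · by_cases hh : T ∈ e₁.out U
      · rw [if_pos hh, if_pos ((h.out U T).2 hh), h.X U T hh]
      · rw [if_neg hh, if_neg fun h2 => hh ((h.out U T).1 h2), LinearMap.zero_apply,
          LinearMap.zero_apply, map_zero]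
    · by_cases hh : T ∈ e₁'.out U
      · rw [if_pos hh, if_pos ((h'.out U T).2 hh), h'.X U T hh]
      · rw [if_neg hh, if_neg fun h2 => hh ((h'.out U T).1 h2), LinearMap.zero_apply,
          LinearMap.zero_apply, map_zero]

end un

variable {V₁ : Type} [AddCommGroup V₁] [Module ℝ V₁] {V₂ : Type} [AddCommGroup V₂]
  [Module ℝ V₂]

theorem ExtrEq_liftE {ψ : F₁ ≃ F₂} {p : V₁ →ₗ[ℝ] V₂} {e₁ : Extr F₁ V₁} {e₂ : Extr F₂ V₂} (m : ℕ)
    (h : ExtrEq ψ (mpG p) e₁ e₂) : ExtrEq ψ (mpG (psS m p)) (liftE m e₁) (liftE m e₂) where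
  out U T := h.out U T
  X U T hT a := by
    rw [liftE_X, liftE_X, psS_inG, h.X U T hT, noS_psS]

end extr

section src

variable {G : Type} [CommRing G] [CN G] [DecidableEq G] {H : Type} [CommRing H] [CN H]
  [DecidableEq H] {V₁ : Type} [AddCommGroup V₁] [Module ℝ V₁] {V₂ : Type} [AddCommGroup V₂]
  [Module ℝ V₂] {m : ℕ}

theorem seX_psS {p : V₁ →ₗ[ℝ] V₂} {mu : Fin m → Ge V₁ →ₗ[ℝ] ℝ} {mu' : Fin m → Ge V₂ →ₗ[ℝ] ℝ}
    {β : Fin m → Ge V₁} {β' : Fin m → Ge V₂} (i : Fin m) (hm : ∀ a, mu' i (mpG p a) = mu i a)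
    (hβ : mpG p (β i) = β' i) (a : Ge (VS V₁ m)) :
    mpG (psS m p) (seX mu β i a) = seX mu' β' i (mpG (psS m p) a) := by
  rw [seX_apply, seX_apply, map_mul, psS_tau, psS_inG, map_smul, hβ, coP_psS, hm]

/-- **equivalence of the extractions of the source terms** -/
theorem ExtrEq_srcE {ψ : G × G ≃ H × H} {p : V₁ →ₗ[ℝ] V₂} {r : ℕ}
    (hs : ∀ U : Finset (G × G), size r (U.image ψ) = size r U)
    {sf : Fin m → Finset (G × G)} {sf' : Fin m → Finset (H × H)} {hsf : ∀ i, (sf i).Nonempty}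
    {hsf' : ∀ i, (sf' i).Nonempty} (hf : ∀ i, sf' i = (sf i).image ψ) {dp dp' : Fin m → Prop}
    (hd : ∀ i, dp' i ↔ dp i) {mu : Fin m → Ge V₁ →ₗ[ℝ] ℝ} {mu' : Fin m → Ge V₂ →ₗ[ℝ] ℝ}
    (hm : ∀ i a, mu' i (mpG p a) = mu i a) {β : Fin m → Ge V₁} {β' : Fin m → Ge V₂}
    (hβ : ∀ i, mpG p (β i) = β' i) :
    ExtrEq ψ (mpG (psS m p)) (srcE r sf hsf dp mu β) (srcE r sf' hsf' dp' mu' β') where
  out U T := by
    show T.image ψ ∈ seOut r sf' dp' (U.image ψ) ↔ T ∈ seOut r sf dp U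
    rw [mem_seOut, mem_seOut, hs]
    refine and_congr Iff.rfl (exists_congr fun i => and_congr (hd i) ?_)
    rw [hf i]
    constructor
    · rintro ⟨h1, h2⟩
      exact ⟨(Finset.image_subset_image_iff ψ.injective).1 h1, image_injective ψ h2⟩
    · rintro ⟨h1, rfl⟩
      exact ⟨Finset.image_subset_image h1, rfl⟩
  X U T hT a := by
    rw [srcE_X, srcE_X, map_sum]
    refine Finset.sum_congr ?_ fun i _ => seX_psS i (hm i) (hβ i) a
    ext i
    simp only [Finset.mem_filter, Finset.mem_univ, true_and]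
    rw [hd i, hf i]
    exact and_congr Iff.rfl ⟨fun h => by rw [h], fun h => image_injective ψ h⟩

end src

/-! ### systems -/

section sys

variable {F₁ : Type} [DecidableEq F₁] {F₂ : Type} [DecidableEq F₂]
  {V₁ : Type} [AddCommGroup V₁] [Module ℝ V₁] {V₂ : Type} [AddCommGroup V₂]
  [Module ℝ V₂] {m : ℕ}

/-- **equivalence of the systems with sources** -/
theorem sysX_eq {ψ : F₁ ≃ F₂} {p : V₁ →ₗ[ℝ] V₂} {D₁ : Sys F₁ V₁} {D₂ : Sys F₂ V₂}
    (h : SysEq ψ (mpG p) D₁ D₂) (hS : ∀ k x y, (D₁.S k).b x y = (D₂.S k).b (p x) (p y))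
    {fl₁ : Finset F₁ → Submodule ℝ (VS V₁ m)} {fl₂ : Finset F₂ → Submodule ℝ (VS V₂ m)}
    {e₁ : ℕ → Extr F₁ (VS V₁ m)} {e₂ : ℕ → Extr F₂ (VS V₂ m)}
    (he : ∀ k, ExtrEq ψ (mpG (psS m p)) (e₁ k) (e₂ k)) {K₁ : Finset F₁ → Ge (VS V₁ m)}
    {K₂ : Finset F₂ → Ge (VS V₂ m)} (hK : ∀ U, mpG (psS m p) (K₁ U) = K₂ (U.image ψ)) :
    SysEq ψ (mpG (psS m p)) (sysX D₁ m fl₁ e₁ K₁) (sysX D₂ m fl₂ e₂ K₂) where
  K0 := hK
  S k a := cvG_psS (hS k) a
  near := h.near
  e k := ExtrEq_union (ExtrEq_liftE m (h.e k)) (he k)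
  vac a := vacH_psS p a

/-- the increments of the constants are equal -/
theorem incS_eq {ψ : F₁ ≃ F₂} {p : V₁ →ₗ[ℝ] V₂} {D₁ : Sys F₁ (VS V₁ m)} {D₂ : Sys F₂ (VS V₂ m)}
    (h : SysEq ψ (mpG (psS m p)) D₁ D₂) (i : Fin m) (k : ℕ) : incS D₂ i k = incS D₁ i k := by
  unfold incS
  rw [← Equiv.tsum_eq ψ.finsetCongr]
  refine tsum_congr fun U => ?_
  have e : ψ.finsetCongr U = U.image ψ := by
    rw [Equiv.finsetCongr_apply, Finset.map_eq_image]; rfl
  rw [e, ← h.H_eq, co_psS]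

end sys

section sysP

variable {G : Type} [CommRing G] [CN G] [DecidableEq G] {H : Type} [CommRing H] [CN H]
  [DecidableEq H] {V₁ : Type} [AddCommGroup V₁] [Module ℝ V₁] {V₂ : Type} [AddCommGroup V₂]
  [Module ℝ V₂] {m : ℕ}

/-- the hypotheses of the equivalence of two systems with sources -/
structure PEq (ψ : G × G ≃ H × H) (p : V₁ →ₗ[ℝ] V₂) (B₁ : Sys (G × G) V₁) (B₂ : Sys (H × H) V₂)
    (R₁ : SData G V₁ m) (R₂ : SData H V₂ m) (rs : ℕ → ℕ) (d₁ d₂ : ℕ → Fin m → Prop)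
    (K₁ : Finset (G × G) → Ge (VS V₁ m)) (K₂ : Finset (H × H) → Ge (VS V₂ m)) : Prop where
  base : SysEq ψ (mpG p) B₁ B₂
  S : ∀ k x y, (B₁.S k).b x y = (B₂.S k).b (p x) (p y)
  size : ∀ n (U : Finset (G × G)), size (rs n) (U.image ψ) = GDefx387.size (rs n) U
  sf : ∀ i, R₂.sf i = (R₁.sf i).image ψ
  dp : ∀ n i, d₂ n i ↔ d₁ n i
  mu : ∀ i a, R₂.mu i (mpG p a) = R₁.mu i a
  β : ∀ i, mpG p (R₁.β i) = R₂.β i
  K0 : ∀ U, mpG (psS m p) (K₁ U) = K₂ (U.image ψ)

variable {ψ : G × G ≃ H × H} {p : V₁ →ₗ[ℝ] V₂} {B₁ : Sys (G × G) V₁} {B₂ : Sys (H × H) V₂}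
    {R₁ : SData G V₁ m} {R₂ : SData H V₂ m} {rs : ℕ → ℕ} {d₁ d₂ : ℕ → Fin m → Prop}
    {K₁ : Finset (G × G) → Ge (VS V₁ m)} {K₂ : Finset (H × H) → Ge (VS V₂ m)}
    {f₁ : Finset (G × G) → Submodule ℝ (VS V₁ m)} {f₂ : Finset (H × H) → Submodule ℝ (VS V₂ m)}

theorem PEq.ex (h : PEq ψ p B₁ B₂ R₁ R₂ rs d₁ d₂ K₁ K₂) (n : ℕ) :
    ExtrEq ψ (mpG (psS m p)) (srcE (rs n) R₁.sf R₁.ne (d₁ n) R₁.mu R₁.β)
      (srcE (rs n) R₂.sf R₂.ne (d₂ n) R₂.mu R₂.β) :=
  ExtrEq_srcE (h.size n) h.sf (h.dp n) h.mu h.β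

/-- **equivalence of the systems with sources** -/
theorem PEq.sys (h : PEq ψ p B₁ B₂ R₁ R₂ rs d₁ d₂ K₁ K₂) :
    SysEq ψ (mpG (psS m p)) (sysP B₁ R₁ rs d₁ f₁ K₁) (sysP B₂ R₂ rs d₂ f₂ K₂) :=
  sysX_eq h.base h.S h.ex h.K0

/-- **the running coefficients are equal** -/
theorem PEq.zeta (h : PEq ψ p B₁ B₂ R₁ R₂ rs d₁ d₂ K₁ K₂) (z0 : Fin m → ℝ) (n : ℕ) (i : Fin m) :
    SrcSysx991.zeta B₂ R₂ rs d₂ f₂ K₂ z0 n i = SrcSysx991.zeta B₁ R₁ rs d₁ f₁ K₁ z0 n i := by
  cases n with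
  | zero => rfl
  | succ n =>
    rw [zeta_succ_def, zeta_succ_def, h.sf i, (h.ex n).inn_eq,
      Finset.sum_image (fun a _ b _ hab => image_injective ψ hab)]
    refine Finset.sum_congr rfl fun U _ => ?_
    rw [← (h.sys (f₁ := f₁) (f₂ := f₂)).H_eq n U, coP_psS, h.mu]

/-- **the constants are equal** -/
theorem PEq.incS (h : PEq ψ p B₁ B₂ R₁ R₂ rs d₁ d₂ K₁ K₂) (n : ℕ) (i : Fin m) :
    SrcCstx484.incS (sysP B₂ R₂ rs d₂ f₂ K₂) i n = SrcCstx484.incS (sysP B₁ R₁ rs d₁ f₁ K₁) i n :=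
  incS_eq (h.sys (f₁ := f₁) (f₂ := f₂)) i n

end sysP

end Crest.Agent.R165.SrcSymx922
end
end

-- ▼ part R165/SrcSymPl_922
section

/-!
# Row 165 (S0250), P11: the plane systems with bond sources under translations and rotations
(helper922)

* `cMass_tau`, `cMass_rho`, `muB_pl` : the coefficient functional of the plane
* `pEq_pl` : two plane systems with bond sources related by a translation or a rotation
-/

set_option autoImplicit false
set_option linter.all false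

noncomputable section

namespace Crest.Agent.R165.SrcSymx922

open scoped ENNReal
open Crest.Agent.R165.Gr0x606 Crest.Agent.R165.Gr1x606 Crest.Agent.R165.GeOpsx337
open Crest.Agent.R165.ExpGx337 Crest.Agent.R165.KFlowx337 Crest.Agent.R165.GSysx387
open Crest.Agent.R165.SrcDefx991 Crest.Agent.R165.SrcSysx991 Crest.Agent.R165.FlowD4x898
open Crest.Agent.R165.Latx683 Crest.Agent.R165.GDefx387 Crest.Agent.R165.PStepx417
open Crest.Agent.R165.GrLocx337 Crest.Agent.R165.SrcCstx484 Crest.Agent.R165.SrcInsx991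
open Crest.Agent.R165.PlaneModesx901 Crest.Agent.R165.PlaneLocx901 Crest.Agent.R165.Locx901
open Crest.Agent.R165.WtD4x898 Crest.Agent.R165.Bkgx683 Crest.Agent.R165.J4Geox126
open Crest.Agent.R165.FRDPolyx439 Crest.Agent.R165.PlaneSumx901
open Crest.Agent.R165.J1ax606 (pe qe pe_zero pe_one qe_zero qe_one)

theorem m0_eq (a b : ℝ) : m0 a b = a • m0 1 0 + b • m0 0 1 := by
  refine tst_ext ?_ ?_ ?_ ?_ <;> intro x
  · simp only [m0, lt_S, Pi.add_apply, Pi.smul_apply, smul_eq_mul]; ring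
  · simp only [m0, lt_E, Pi.add_apply, Pi.smul_apply, smul_eq_mul]; ring
  · simp only [m0, lt_N, Pi.add_apply, Pi.smul_apply, smul_eq_mul]; ring
  · simp only [m0, lt_W, Pi.add_apply, Pi.smul_apply, smul_eq_mul]; ring

theorem form_m0 (F : Gr (Fld ℤ)) (a b c d : ℝ) :
    form F (ev (m0 a b)) (ev (m0 c d)) = (a * d - b * c) * cMass F := by
  have h1 : formT F (m0 a b) (m0 c d) = (a * d - b * c) * cMass F := by
    rw [m0_eq a b, m0_eq c d]
    simp only [map_add, map_smul, LinearMap.add_apply, LinearMap.smul_apply, formT_apply,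
      smul_eq_mul, form_self]
    rw [show form F (ev (m0 0 1)) (ev (m0 1 0)) = -form F (ev (m0 1 0)) (ev (m0 0 1)) from
      form_swap _ _ _]
    rw [cMass, formL_apply]
    ring
  rwa [formT_apply] at h1

theorem cMass_tau (t : Fc) (F : Gr (Fld ℤ)) : cMass (mp (tauV t) F) = cMass F := by
  rw [cMass, formL_apply, formL_apply, form_mp, ev_tauV, ev_tauV, tauS_m0, tauS_m0]

theorem cMass_rho (y : Fc) (F : Gr (Fld ℤ)) : cMass (mp (rhoV y) F) = cMass F := by
  have h2 := r2_sq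
  have e : cMass (mp (rhoV y) F) = form F (ev (rhoS y (m0 1 0))) (ev (rhoS y (m0 0 1))) := by
    rw [cMass, formL_apply, form_mp, ev_rhoV, ev_rhoV]
  rw [e, rhoS_m0, rhoS_m0, form_m0]
  have : (r2 / 2 * (0 - 1)) * (-(r2 / 2) * (0 + 1)) - -(r2 / 2) * (1 + 0) * (r2 / 2 * (1 - 0)) =
      1 := by ring_nf; nlinarith
  rw [this, one_mul]

theorem cMass_pl {c : GIso (wPl ℤ) (wPl ℤ)} (hc : PlGen c) (hε : c.ε = 1) (F : Gr (Fld ℤ)) :
    cMass (mp c.psh F) = cMass F := by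
  rcases hc with ⟨t, rfl⟩ | rfl | rfl
  · exact cMass_tau t F
  · exact cMass_rho 0 F
  · exact absurd hε (by show (-1 : ℝ) ≠ 1; norm_num)

theorem cS_pl (z : ℤ × ℤ) (a : Ge (Fld ℤ)) : cS (wPl ℤ) z a = cMass (a : Gr (Fld ℤ)) := by
  rw [cS_apply, chP_plane, cMass_tau]

theorem uB_pl (e : EG ℤ) : uB (wPl ℤ) e = -(2 * xc) := rfl

theorem xc_ne : xc ≠ 0 := xc_pos.ne'

theorem muB_pl (e : EG ℤ) (a : Ge (Fld ℤ)) :
    muB (wPl ℤ) e a = (2 * xc)⁻¹ * cMass (a : Gr (Fld ℤ)) := by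
  rw [muB_apply, cS_beB, cS_pl, cS_pl, coe_bE, Srcx336.cMass_bb, uB_pl]
  congr 2
  ring

variable {m : ℕ}

theorem wpl_ne (e : Fin m → EG ℤ) (i : Fin m) : Bg.pl.w (e i).1 (e i).2 ≠ 0 := xc_ne

variable {MD KD : ℕ} (D : FRD 16 MD KD) (P : MPar) (l k0 : ℕ)


/-- the running coefficients of the plane -/
abbrev zPl (e : Fin m → EG ℤ) (n : ℕ) (i : Fin m) : ℝ := zeP Bg.pl P D ∅ e (wpl_ne e) l k0 n i

/-- covariance of the initial activities with sources -/
def K0C (c : GIso (wPl ℤ) (wPl ℤ)) (e e' : Fin m → EG ℤ) : Prop :=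
  ∀ U, mpG (psS m c.psh) (K0P Bg.pl P e l k0 U) = K0P Bg.pl P e' l k0 (U.image c.φ)

theorem pEq_pl {c : GIso (wPl ℤ) (wPl ℤ)} (hc : PlGen c) (hε : c.ε = 1) {e e' : Fin m → EG ℤ}
    (hf : ∀ i, faE (e' i) = (faE (e i)).image c.φ) (hb : ∀ i, mpG c.psh (bE (e i)) = bE (e' i))
    (h0 : PlSym fun U =>
      ((Bg.pl.K0 P LinearMap.id (noSrc ℤ (Ge (Fld ℤ))) l k0 U : Ge (Fld ℤ)) : Gr (Fld ℤ)))
    (hK : K0C P l k0 c e e') :
    PEq (m := m) c.φ c.psh (flow0 Bg.pl P D ∅ l k0) (flow0 Bg.pl P D ∅ l k0)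
      (srcD Bg.pl.w e (wpl_ne e)) (srcD Bg.pl.w e' (wpl_ne e')) (rr l k0)
      (dpS Bg.pl.w ∅ l k0 e) (dpS Bg.pl.w ∅ l k0 e') (K0P Bg.pl P e l k0)
      (K0P Bg.pl P e' l k0) where
  base := by
    have h := (plSys D l k0 (Bg.pl.K0 P LinearMap.id (noSrc ℤ (Ge (Fld ℤ))) l k0)).sysEq h0 hc
    rw [GIso.Φ_of_one _ hε] at h
    exact h
  S k x y := by
    have := SymS.psh (symS_slC D l k0 k) hc x y
    rw [hε, one_mul] at this
    exact this.symm
  size n U := c.size_image _ U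
  sf i := hf i
  dp n i := iff_of_true (fun f _ => deep_plane l k0 n f) (fun f _ => deep_plane l k0 n f)
  mu i a := by
    show muB (wPl ℤ) (e' i) (mpG c.psh a) = muB (wPl ℤ) (e i) a
    rw [muB_pl, muB_pl, coe_mpG, cMass_pl hc hε]
  β i := by
    show mpG c.psh (beB (wPl ℤ) (e i)) = beB (wPl ℤ) (e' i)
    rw [beB, beB, map_smul, hb]
    rfl
  K0 := hK

end Crest.Agent.R165.SrcSymx922
end
end

-- ▼ part R165/SrcSymK_922
section

/-!
# Row 165 (S0250), P11: covariance of the initial activities with bond sources (helper922)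

* `K0_lsymS` : 126's `K0_lsym` with sources
* `K0C_tau`, `K0C_rho` : translations and rotations of the plane
-/

set_option autoImplicit false
set_option linter.all false

noncomputable section

open Finset

namespace Crest.Agent.R165.SrcSymx922

section K0
open Crest.ProbabilityR.IsingModel
open Crest.Agent.R165.KCompx892 Crest.Agent.R165.J4Actx126
open Crest.Agent.R165.J4Datx126 Crest.Agent.R165.J4Geox126 Crest.Agent.R165.J4K0x126
open Crest.Agent.R165.J4K0Mapx126 Crest.Agent.R165.J4K0Dx126 Crest.Agent.R165.J4K0Symx126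
open Crest.Agent.R165.J4Defx653 Crest.Agent.R165.J4Pathx653
open Crest.Agent.R165.J4RRx653 Crest.Agent.R165.J4RRAx653
open Crest.Agent.R165.J1ax606 (HE EG pe qe pe_zero pe_one qe_zero qe_one)

variable {A : Type*} [CommRing A] [Algebra ℝ A] {A' : Type*} [CommRing A'] [Algebra ℝ A']
  {κ : Type*} [DecidableEq κ] [Fintype κ]

/-- **covariance of the initial activities under a lattice symmetry, with sources** -/
theorem K0_lsymS {fr : Fr ℤ A} {fr' : Fr ℤ A'} {B : Bk ℤ κ A} {B' : Bk ℤ κ A'} {y0 s0 : ℝ}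
    (hB : Hom B y0 s0) (hB' : Hom B' y0 s0) (htt : B'.t = B.t) (hRR : B'.R = B.R)
    (L : LSym) (hL : ∀ S, B.t (L.β S) = B.t S) (τ : A →ₐ[ℝ] A')
    (hb : ∀ e, τ (fr.b e) = fr'.b (L.E e)) (hI : ∀ f, τ (fr.I4 f) = fr'.I4 (L.ψ f))
    (hYk : ∀ k, B'.Ys k = (B.Ys k).image L.ψ) (has : ∀ k, τ (B.as k) = B'.as k)
    (hFs : ∀ k, B'.Fs k = em L.E (B.Fs k))
    (U : Finset (ℤ × ℤ)) : τ (B.K0 fr U) = B'.K0 fr' (U.image L.ψ) := by
  rw [K0_liv, K0_liv]
  -- shapes
  have hsh : ∀ p : (ℤ × ℤ) × Finset (ℤ × ℤ), p.2 ∈ Can B.R → Even p.2.card → B.t p.2 ≠ 0 →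
      (can (L.β (tr p.2 p.1))).2 ∈ Can B.R ∧ Even (can (L.β (tr p.2 p.1))).2.card ∧
        B.t (can (L.β (tr p.2 p.1))).2 = B.t p.2 := by
    intro p h1 h2 h3
    have hne : (L.β (tr p.2 p.1)).Nonempty := by
      refine L.ne ?_
      rw [← Finset.card_pos, card_tr]
      exact (Can.nonempty h1).card_pos
    have ht : B.t (L.β (tr p.2 p.1)) = B.t p.2 := by rw [hL, hB.tT]
    refine ⟨can_mem hB.tR hne (by rw [ht]; exact h3), ?_, ?_⟩
    · unfold can
      rw [card_tr, L.card, card_tr]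
      exact h2
    · unfold can
      rw [hB.tT, ht]
  have hYs : ∀ p : (ℤ × ℤ) × Finset (ℤ × ℤ),
      (Yf (can (L.β (tr p.2 p.1))).2).image (fz (G := ℤ) (can (L.β (tr p.2 p.1))).1) =
        ((Yf p.2).image (fz (G := ℤ) p.1)).image L.ψ := by
    intro p
    rw [Yf_place, place_can, L.Yf, Yf_place]
  have hYI : ∀ i ∈ liv B U, B'.YI (mL L i) = (B.YI i).image L.ψ := by
    intro i hi
    rcases i with p | f | e | k
    · exact hYs p
    · exact (Finset.image_singleton _ _).symm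
    · exact L.faE e
    · exact hYk k
  refine dat_map (m := mL L) (eb := L.E) _ _ (fun i hi => (mem_liv.1 hi).1.2) L.ψ_inj.injOn
    L.E_inj.injOn ?_ ?_ ?_ ?_ hYI ?_ ?_
  · intro e _
    unfold Bk.g
    rw [map_sub, map_one, map_smul, hb, hB.y, hB'.y, hB.s, hB'.s, hB.s, hB'.s]
  · intro i hi
    have h0 := hYI i hi
    rw [mem_liv] at hi
    rw [mem_liv]
    refine ⟨⟨?_, ?_⟩, ?_⟩
    · rcases i with p | f | e | k
      · obtain ⟨h1, h2, -⟩ := hsh p hi.1.1.1.1 hi.1.1.1.2 hi.2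
        exact ⟨⟨by rw [hRR]; exact h1, h2⟩, hB'.ok _ _⟩
      · trivial
      · trivial
      · show (B'.Ys k).Nonempty
        rw [hYk]
        exact Finset.Nonempty.image hi.1.1 _
    · rw [h0]
      exact Finset.image_subset_image hi.1.2
    · rcases i with p | f | e | k
      · obtain ⟨-, -, h3⟩ := hsh p hi.1.1.1.1 hi.1.1.1.2 hi.2
        change B'.t (can (L.β (tr p.2 p.1))).2 ≠ 0
        rw [htt, h3]; exact hi.2
      · trivial
      · trivial
      · trivial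
  · intro i hi j hj hij
    rw [Finset.mem_coe, mem_liv] at hi hj
    rcases i with p | f | e | k
    · rcases j with p' | f' | e' | k'
      · unfold mL at hij
        rw [Sum.inl.injEq] at hij
        have h1 : L.β (tr p.2 p.1) = L.β (tr p'.2 p'.1) := by
          rw [← place_can (L.β (tr p.2 p.1)), hij, place_can]
        have h2 := L.β_inj h1
        have h3 := can_place (u := p.1) (mem_Can.1 hi.1.1.1.1).2
        have h4 := can_place (u := p'.1) (mem_Can.1 hj.1.1.1.1).2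
        rw [h2, h4] at h3
        rw [Sum.inl.injEq]
        exact h3.symm
      · unfold mL at hij; cases hij
      · unfold mL at hij; cases hij
      · unfold mL at hij; cases hij
    · rcases j with p' | f' | e' | k'
      · unfold mL at hij; cases hij
      · unfold mL at hij
        rw [Sum.inr.injEq, Sum.inl.injEq] at hij
        rw [L.ψ_inj hij]
      · unfold mL at hij; cases hij
      · unfold mL at hij; cases hij
    · rcases j with p' | f' | e' | k'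
      · unfold mL at hij; cases hij
      · unfold mL at hij; cases hij
      · unfold mL at hij
        rw [Sum.inr.injEq, Sum.inr.injEq, Sum.inl.injEq] at hij
        rw [L.E_inj hij]
      · unfold mL at hij; cases hij
    · rcases j with p' | f' | e' | k'
      · unfold mL at hij; cases hij
      · unfold mL at hij; cases hij
      · unfold mL at hij; cases hij
      · exact hij
  · intro i' hi'
    rw [mem_liv] at hi'
    obtain ⟨⟨hok, hY'⟩, hlv⟩ := hi'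
    rcases i' with p | f | e | k
    · obtain ⟨B0, hB0⟩ := L.β_surj (tr p.2 p.1)
      have hok1 : p.2 ∈ Can B.R := by rw [← hRR]; exact hok.1.1
      have hne : B0.Nonempty := by
        refine L.ne' ?_
        rw [hB0, ← Finset.card_pos, card_tr]
        exact (Can.nonempty hok.1.1).card_pos
      have ht : B.t B0 = B.t p.2 := by rw [← hL, hB0, hB.tT]
      have hlv' : B.t p.2 ≠ 0 := by
        have h9 : B'.t p.2 ≠ 0 := hlv
        rwa [htt] at h9
      have hcard : Even B0.card := by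
        rw [← L.card, hB0, card_tr]; exact hok.1.2
      refine ⟨.inl (can B0), ?_, ?_⟩
      · rw [mem_liv]
        refine ⟨⟨⟨⟨can_mem hB.tR hne (by rw [ht]; exact hlv'), ?_⟩, hB.ok _ _⟩, ?_⟩, ?_⟩
        · unfold can
          rw [card_tr]; exact hcard
        · change (Yf (can B0).2).image (fz (G := ℤ) (can B0).1) ⊆ U
          rw [Yf_place, place_can]
          have h5 : (Yf B0).image L.ψ ⊆ U.image L.ψ := by
            rw [← L.Yf, hB0, ← Yf_place]
            exact hY'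
          exact (Finset.image_subset_image_iff L.ψ_inj).1 h5
        · change B.t (can B0).2 ≠ 0
          unfold can
          rw [hB.tT, ht]; exact hlv'
      · change (Sum.inl (can (L.β (tr (can B0).2 (can B0).1))) : Ix ℤ κ) = _
        rw [place_can, hB0, can_place (mem_Can.1 hok.1.1).2]
    · obtain ⟨g, hg, hg'⟩ := Finset.mem_image.1 (hY' (Finset.mem_singleton_self f))
      refine ⟨.inr (.inl g), ?_, ?_⟩
      · rw [mem_liv]
        exact ⟨⟨trivial, Finset.singleton_subset_iff.2 hg⟩, trivial⟩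
      · change (Sum.inr (Sum.inl (L.ψ g)) : Ix ℤ κ) = _
        rw [hg']
    · obtain ⟨g, hg⟩ := L.E_surj e
      refine ⟨.inr (.inr (.inl g)), ?_, ?_⟩
      · rw [mem_liv]
        refine ⟨⟨trivial, ?_⟩, trivial⟩
        change J4Geox126.faE g ⊆ U
        have h5 : (J4Geox126.faE g).image L.ψ ⊆ U.image L.ψ := by
          rw [← L.faE, hg]
          exact hY'
        exact (Finset.image_subset_image_iff L.ψ_inj).1 h5
      · change (Sum.inr (Sum.inr (Sum.inl (L.E g))) : Ix ℤ κ) = _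
        rw [hg]
    · refine ⟨.inr (.inr (.inr k)), ?_, rfl⟩
      have hok' : (B'.Ys k).Nonempty := hok
      have hY2 : B'.Ys k ⊆ U.image L.ψ := hY'
      rw [hYk] at hok' hY2
      rw [mem_liv]
      refine ⟨⟨?_, ?_⟩, trivial⟩
      · show (B.Ys k).Nonempty
        exact Finset.image_nonempty.1 hok'
      · show B.Ys k ⊆ U
        exact (Finset.image_subset_image_iff L.ψ_inj).1 hY2
  · intro i hi
    rcases i with p | f | e | k
    · exact map_one τ
    · change τ (B.cI f • fr.I4 f + (B.cI f ^ 2 / 2) • (fr.I4 f * fr.I4 f)) =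
        B'.cI (L.ψ f) • fr'.I4 (L.ψ f) + (B'.cI (L.ψ f) ^ 2 / 2) • (fr'.I4 (L.ψ f) * fr'.I4 (L.ψ f))
      have hc : B.cI f = B'.cI (L.ψ f) := by unfold Bk.cI; rw [hB.s, hB'.s]
      rw [map_add, map_smul, map_smul, map_mul, hI, hc]
    · change τ ((B.y e * (B.s (pe e).1 * B.s (qe e).1 - 1)) • fr.b e) =
        (B'.y (L.E e) * (B'.s (pe (L.E e)).1 * B'.s (qe (L.E e)).1 - 1)) • fr'.b (L.E e)
      rw [map_smul, hb, hB.y, hB'.y, hB.s, hB'.s, hB.s, hB'.s]
    · exact has k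
  · intro i hi
    rw [mem_liv] at hi
    rcases i with p | f | e | k
    · obtain ⟨h1, -, h3⟩ := hsh p hi.1.1.1.1 hi.1.1.1.2 hi.2
      have hne : (tr p.2 p.1).Nonempty := by
        rw [← Finset.card_pos, card_tr]
        exact (Can.nonempty hi.1.1.1.1).card_pos
      change em (ez (can (L.β (tr p.2 p.1))).1)
        (kB (B'.t (can (L.β (tr p.2 p.1))).2) (can (L.β (tr p.2 p.1))).2) =
          em L.E (em (ez p.1) (kB (B.t p.2) p.2))
      rw [htt, h3, kB_place _ _ (Can.nonempty h1), place_can, L.kB _ _ hne,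
        kB_place _ _ (Can.nonempty hi.1.1.1.1)]
    · exact (map_one _).symm
    · exact (map_one _).symm
    · exact hFs k

end K0

section pl

open Crest.ProbabilityR.IsingModel
open Crest.Agent.R165.Gr0x606 Crest.Agent.R165.Gr1x606 Crest.Agent.R165.GeOpsx337
open Crest.Agent.R165.KFlowx337 Crest.Agent.R165.GSysx387 Crest.Agent.R165.KInitx892
open Crest.Agent.R165.SrcDefx991 Crest.Agent.R165.SrcSysx991 Crest.Agent.R165.FlowD4x898
open Crest.Agent.R165.GDefx387 Crest.Agent.R165.KMapx892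
open Crest.Agent.R165.SrcCstx484 Crest.Agent.R165.SrcInsx991
open Crest.Agent.R165.PlaneModesx901 Crest.Agent.R165.WtD4x898 Crest.Agent.R165.Bkgx683
open Crest.Agent.R165.J4Geox126 Crest.Agent.R165.J4K0x126 Crest.Agent.R165.J4K0Symx126
open Crest.Agent.R165.FRDPolyx439 Crest.Agent.R165.PlaneSumx901
open Crest.Agent.R165.J4Defx653 Crest.Agent.R165.J4Pathx653 Crest.Agent.R165.J4RRx653
open Crest.Agent.R165.Latx683 (xc wPl Fld)
open Crest.Agent.R165.J1ax606 (pe qe pe_zero pe_one qe_zero qe_one)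

theorem homAny {κ : Type} {A : Type*} [CommRing A] [Algebra ℝ A] {J lam β z : ℝ} {R : ℕ}
    {V : Finset (ℤ × ℤ) → ℝ} (hT : TrInv V) (hR : Rng R V) (src : Srcs κ ℤ A) :
    Hom (Bg.pl.bk (mpar J lam R V β z) src) xc (Real.sqrt (1 + z)) where
  y _ := rfl
  s f := by
    show Bg.sc _ _ f = _
    exact if_pos trivial
  ok _ _ := trivial
  tT B t := tpot_lsym (lTr t) (fun e => pr_trEd t e) (fun B => hT B t) B
  tR := J4Lnkx653.tpot_rng hR

theorem frG_map {V V' : Type*} [AddCommGroup V] [Module ℝ V] [AddCommGroup V'] [Module ℝ V']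
    (p : V →ₗ[ℝ] V') (ι : Fld ℤ →ₗ[ℝ] V) (e : EG ℤ) :
    mpG p ((frG ι).b e) = (frG (p ∘ₗ ι)).b e ∧ ∀ f, mpG p ((frG ι).I4 f) = (frG (p ∘ₗ ι)).I4 f := by
  refine ⟨by rw [frG_b, frG_b, mpG_bi]; rfl, fun f => ?_⟩
  rw [frG_I4, frG_I4, map_sum]
  exact Finset.sum_congr rfl fun p _ => by rw [mpG_bi]; rfl

/-- the frames of the fields with sources, from the frames of the fields -/
theorem frG_inl {m : ℕ} (x : EG ℤ) :
    (frG (LinearMap.inl ℝ (Fld ℤ) (Src m))).b x = inG m ((frG (LinearMap.id)).b x) ∧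
      ∀ f, (frG (LinearMap.inl ℝ (Fld ℤ) (Src m))).I4 f = inG m ((frG (LinearMap.id)).I4 f) := by
  have h := frG_map (LinearMap.inl ℝ (Fld ℤ) (Src m)) (LinearMap.id : Fld ℤ →ₗ[ℝ] Fld ℤ) x
  exact ⟨h.1.symm, fun f => (h.2 f).symm⟩

variable {m : ℕ} {J lam β z : ℝ} {R : ℕ} {V : Finset (ℤ × ℤ) → ℝ}

/-- the background of the plane with bond sources -/
abbrev bkS (P : MPar) (e : Fin m → EG ℤ) : Bk ℤ (Fin m) (Ge (VS (Fld ℤ) m)) :=
  Bg.pl.bk P (bondSrc (Fld ℤ) e)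

theorem bkS_cov (hT : TrInv V) (hR : Rng R V) {p : Fld ℤ →ₗ[ℝ] Fld ℤ} (L : LSym)
    (hL : ∀ S, (mpar J lam R V β z).t (L.β S) = (mpar J lam R V β z).t S)
    (hb : ∀ e, mpG p ((frG (G := ℤ) LinearMap.id).b e) = (frG LinearMap.id).b (L.E e))
    (hI : ∀ f, mpG p ((frG (G := ℤ) LinearMap.id).I4 f) = (frG LinearMap.id).I4 (L.ψ f))
    (e : Fin m → EG ℤ) (U : Finset (ℤ × ℤ)) :
    mpG (psS m p) ((bkS (mpar J lam R V β z) e).K0 (frG (LinearMap.inl ℝ (Fld ℤ) (Src m))) U) =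
      (bkS (mpar J lam R V β z) fun i => L.E (e i)).K0
        (frG (LinearMap.inl ℝ (Fld ℤ) (Src m))) (U.image L.ψ) := by
  have hA : Hom (bkS (mpar J lam R V β z) e) xc (Real.sqrt (1 + z)) := homAny hT hR _
  have hA' : Hom (bkS (mpar J lam R V β z) fun i => L.E (e i)) xc (Real.sqrt (1 + z)) :=
    homAny hT hR _
  have h1 : ∀ x, mpG (psS m p) ((frG (LinearMap.inl ℝ (Fld ℤ) (Src m))).b x) =
      (frG (LinearMap.inl ℝ (Fld ℤ) (Src m))).b (L.E x) := fun x => by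
    rw [(frG_inl x).1, (frG_inl (L.E x)).1, psS_inG, hb]
  have h2 : ∀ f, mpG (psS m p) ((frG (LinearMap.inl ℝ (Fld ℤ) (Src m))).I4 f) =
      (frG (LinearMap.inl ℝ (Fld ℤ) (Src m))).I4 (L.ψ f) := fun f => by
    rw [(frG_inl ((0, 0), 0)).2, (frG_inl ((0, 0), 0)).2, psS_inG, hI]
  have h3 : ∀ k, (bkS (mpar J lam R V β z) fun i => L.E (e i)).Ys k =
      ((bkS (mpar J lam R V β z) e).Ys k).image L.ψ := fun k => L.faE (e k)
  have h4 : ∀ k, mpG (psS m p) ((bkS (mpar J lam R V β z) e).as k) =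
      (bkS (mpar J lam R V β z) fun i => L.E (e i)).as k := fun k => psS_tau _ k
  have h5 : ∀ k, (bkS (mpar J lam R V β z) fun i => L.E (e i)).Fs k =
      em L.E ((bkS (mpar J lam R V β z) e).Fs k) := fun k => by
    show ep (Finsupp.single (L.E (e k)) 1) - 1 = em L.E (ep (Finsupp.single (e k) 1) - 1)
    rw [map_sub, map_one, em_ep, Finsupp.mapDomain_single]
  exact K0_lsymS hA hA' rfl rfl L hL (mpG (psS m p)) h1 h2 h3 h4 h5 U

/-- **covariance of the initial activities with bond sources, general form** -/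
theorem K0C_of (hT : TrInv V) (hR : Rng R V) (l k0 : ℕ) {c : GIso (wPl ℤ) (wPl ℤ)} (L : LSym)
    (hψ : (c.φ : ℤ × ℤ → ℤ × ℤ) = L.ψ)
    (hL : ∀ S, (mpar J lam R V β z).t (L.β S) = (mpar J lam R V β z).t S)
    (hb : ∀ e, mpG c.psh ((frG (G := ℤ) LinearMap.id).b e) = (frG LinearMap.id).b (L.E e))
    (hI : ∀ f, mpG c.psh ((frG (G := ℤ) LinearMap.id).I4 f) = (frG LinearMap.id).I4 (L.ψ f))
    (e : Fin m → EG ℤ) : K0C (mpar J lam R V β z) l k0 c e fun i => L.E (e i) := by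
  intro U
  have hp : PIso (fun a b : ℤ × ℤ => a = b) (near l k0 0) (fun a b : ℤ × ℤ => a = b) (near l k0 0)
      U c.φ c.φ.symm := by
    refine ⟨fun a _ => c.φ.symm_apply_apply a, fun a _ b _ => c.φ.injective.eq_iff.symm,
      fun a _ b _ => ?_⟩
    unfold near
    rw [c.iso]
  have key : ∀ U' ⊆ U, U'.Nonempty → (mpG (psS m c.psh)).toRingHom
      ((bkS (mpar J lam R V β z) e).K0 (frG (LinearMap.inl ℝ (Fld ℤ) (Src m))) U') =
      (bkS (mpar J lam R V β z) fun i => L.E (e i)).K0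
        (frG (LinearMap.inl ℝ (Fld ℤ) (Src m))) (U'.image c.φ) := by
    intro U' _ _
    rw [hψ]
    exact bkS_cov hT hR L hL hb hI e U'
  exact K1_map hp (mpG (psS m c.psh)).toRingHom key

theorem tau_b' (t : ℤ × ℤ) (e : EG ℤ) : mpG (gTau t).psh
    ((frG (LinearMap.id : Fld ℤ →ₗ[ℝ] Fld ℤ)).b e) =
      (frG (LinearMap.id : Fld ℤ →ₗ[ℝ] Fld ℤ)).b ((lTr t).E e) := by
  rw [gTau_psh]; exact tau_b t e

theorem tau_I4' (t : ℤ × ℤ) (f : ℤ × ℤ) : mpG (gTau t).psh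
    ((frG (LinearMap.id : Fld ℤ →ₗ[ℝ] Fld ℤ)).I4 f) =
      (frG (LinearMap.id : Fld ℤ →ₗ[ℝ] Fld ℤ)).I4 ((lTr t).ψ f) := by
  rw [gTau_psh]; exact tau_I4 t f

theorem rho_b' (e : EG ℤ) : mpG (gRho 0).psh
    ((frG (LinearMap.id : Fld ℤ →ₗ[ℝ] Fld ℤ)).b e) =
      (frG (LinearMap.id : Fld ℤ →ₗ[ℝ] Fld ℤ)).b (lRho.E e) := by
  rw [gRho_psh]; exact rho_b e

theorem rho_I4' (f : ℤ × ℤ) : mpG (gRho 0).psh
    ((frG (LinearMap.id : Fld ℤ →ₗ[ℝ] Fld ℤ)).I4 f) =
      (frG (LinearMap.id : Fld ℤ →ₗ[ℝ] Fld ℤ)).I4 (lRho.ψ f) := by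
  rw [gRho_psh]; exact rho_I4 f

theorem mpar_tau (hT : TrInv V) (t : ℤ × ℤ) (S : Finset (ℤ × ℤ)) :
    (mpar J lam R V β z).t ((lTr t).β S) = (mpar J lam R V β z).t S :=
  tpot_lsym (lTr t) (fun e => pr_trEd t e) (fun B => hT B t) S

theorem mpar_rot (hr : ∀ S, V (rB S) = V S) (S : Finset (ℤ × ℤ)) :
    (mpar J lam R V β z).t (lRot.β S) = (mpar J lam R V β z).t S :=
  tpot_lsym lRot (fun e => pr_rotEd e) hr S

theorem mpar_rho (hT : TrInv V) (hr : ∀ S, V (rB S) = V S) (S : Finset (ℤ × ℤ)) :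
    (mpar J lam R V β z).t (lRho.β S) = (mpar J lam R V β z).t S := by
  have h : lRho.β S = (lTr (1, 0)).β (lRot.β S) := rfl
  rw [h, mpar_tau hT, mpar_rot hr]

/-- translations -/
theorem K0C_tau (hT : TrInv V) (hR : Rng R V) (l k0 : ℕ) (t : ℤ × ℤ) (e : Fin m → EG ℤ) :
    K0C (mpar J lam R V β z) l k0 (gTau t) e fun i => (lTr t).E (e i) :=
  K0C_of hT hR l k0 (lTr t) (gTau_φ t) (mpar_tau hT t) (tau_b' t) (tau_I4' t) e

/-- rotations -/
theorem K0C_rho (hT : TrInv V) (hR : Rng R V) (hr : ∀ S, V (rB S) = V S) (l k0 : ℕ)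
    (e : Fin m → EG ℤ) :
    K0C (mpar J lam R V β z) l k0 (gRho 0) e fun i => lRho.E (e i) :=
  K0C_of hT hR l k0 lRho rot0_eq (mpar_rho hT hr) rho_b' rho_I4' e

end pl

end Crest.Agent.R165.SrcSymx922
end
end

-- ▼ part R165/ZeEb_922

/-!
# Row 165 (S0250), P11: the energy renormalisation `Ze` and the bond mean `eb` (helper922)

* `pEq_tau`, `pEq_rho` : the plane system with bond sources under translations and the rotation
* `zPl_bond`, `incS_bond` : one bond source, independent of the bond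
* `zE`, `Ze`, `plE`, `eb` : the literal names
* `zE_dir`, `incS_dir`, `eb_dir`
-/

set_option autoImplicit false
set_option linter.all false

noncomputable section

open Filter Topology
open scoped ENNReal
open Crest.ProbabilityR.IsingModel
open Crest.Agent.R165.Gr0x606 Crest.Agent.R165.Gr1x606 Crest.Agent.R165.GeOpsx337
open Crest.Agent.R165.KFlowx337 Crest.Agent.R165.GSysx387 Crest.Agent.R165.GDefx387
open Crest.Agent.R165.SrcDefx991 Crest.Agent.R165.SrcSysx991 Crest.Agent.R165.SrcInsx991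
open Crest.Agent.R165.SrcCstx484 Crest.Agent.R165.SrcSymx922
open Crest.Agent.R165.FlowD4x898 Crest.Agent.R165.WtD4x898
open Crest.Agent.R165.PlaneModesx901 Crest.Agent.R165.PlaneSumx901
open Crest.Agent.R165.J4Geox126 Crest.Agent.R165.J4K0Symx126 Crest.Agent.R165.J4Pathx653
open Crest.Agent.R165.J4Defx653 Crest.Agent.R165.J4RRx653
open Crest.Agent.R165.FRDPolyx439 Crest.Agent.R165.Bkgx683
open Crest.Agent.R165.Topx683 (VHyp)
open Crest.Agent.R165.PEndx683 Crest.Agent.R165.Outx683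
open Crest.Agent.R165.Latx683 (xc wPl Fld)

namespace Crest.Agent.R165.ZeEbx922

section bonds

variable {m : ℕ} {J lam β z : ℝ} {R : ℕ} {V : Finset (ℤ × ℤ) → ℝ} {MD KD : ℕ}
  (D : FRD 16 MD KD) (l k0 : ℕ)

/-- **translations** -/
theorem pEq_tau (hV : VHyp R V) (t : ℤ × ℤ) (e : Fin m → EG ℤ) :
    PEq (m := m) (gTau t).φ (gTau t).psh (flow0 Bg.pl (mpar J lam R V β z) D ∅ l k0)
      (flow0 Bg.pl (mpar J lam R V β z) D ∅ l k0)
      (srcD Bg.pl.w e (wpl_ne e)) (srcD Bg.pl.w (fun i => (lTr t).E (e i)) (wpl_ne _)) (rr l k0)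
      (dpS Bg.pl.w ∅ l k0 e) (dpS Bg.pl.w ∅ l k0 fun i => (lTr t).E (e i))
      (K0P Bg.pl (mpar J lam R V β z) e l k0)
      (K0P Bg.pl (mpar J lam R V β z) (fun i => (lTr t).E (e i)) l k0) :=
  pEq_pl D (mpar J lam R V β z) l k0 (Or.inl ⟨t, rfl⟩) rfl
    (fun i => by rw [show ((gTau t).φ : ℤ × ℤ → ℤ × ℤ) = (lTr t).ψ from gTau_φ t]; exact (lTr t).faE (e i))
    (fun i => tau_b' t (e i))
    (K0_plSym (fun A z => hV.trans A z) (fun A h => hV.range A h) (fun S => hV.rot S)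
      (fun S => hV.refl S) l k0)
    (K0C_tau (fun A z => hV.trans A z) (fun A h => hV.range A h) l k0 t e)

/-- **rotation** -/
theorem pEq_rho (hV : VHyp R V) (e : Fin m → EG ℤ) :
    PEq (m := m) (gRho 0).φ (gRho 0).psh (flow0 Bg.pl (mpar J lam R V β z) D ∅ l k0)
      (flow0 Bg.pl (mpar J lam R V β z) D ∅ l k0)
      (srcD Bg.pl.w e (wpl_ne e)) (srcD Bg.pl.w (fun i => lRho.E (e i)) (wpl_ne _)) (rr l k0)
      (dpS Bg.pl.w ∅ l k0 e) (dpS Bg.pl.w ∅ l k0 fun i => lRho.E (e i))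
      (K0P Bg.pl (mpar J lam R V β z) e l k0)
      (K0P Bg.pl (mpar J lam R V β z) (fun i => lRho.E (e i)) l k0) :=
  pEq_pl D (mpar J lam R V β z) l k0 (Or.inr (Or.inl rfl)) rfl
    (fun i => by rw [show ((gRho 0).φ : ℤ × ℤ → ℤ × ℤ) = lRho.ψ from rot0_eq]; exact lRho.faE (e i))
    (fun i => rho_b' (e i))
    (K0_plSym (fun A z => hV.trans A z) (fun A h => hV.range A h) (fun S => hV.rot S)
      (fun S => hV.refl S) l k0)
    (K0C_rho (fun A z => hV.trans A z) (fun A h => hV.range A h) (fun S => hV.rot S) l k0 e)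

theorem lTr_E (t : ℤ × ℤ) (e : EG ℤ) : (lTr t).E e = (e.1 + t, e.2) := rfl

theorem lRho_E0 (z : ℤ × ℤ) : lRho.E (z, 0) = ((-z.2 + 1, z.1), 1) := by
  show (lTr (1, 0)).E (rotEd (z, 0)) = _
  rw [rotEd, if_pos rfl, lTr_E]
  ext <;> simp [rotate]

/-- **the running coefficients do not depend on the bond** -/
theorem zPl_bond (hV : VHyp R V) (e : EG ℤ) (n : ℕ) :
    zPl D (mpar J lam R V β z) l k0 ![e] n 0 =
      zPl D (mpar J lam R V β z) l k0 ![((0, 0), 0)] n 0 := by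
  have ht : ∀ (t : ℤ × ℤ) (e : EG ℤ), zPl D (mpar J lam R V β z) l k0 ![(e.1 + t, e.2)] n 0 =
      zPl D (mpar J lam R V β z) l k0 ![e] n 0 := by
    intro t e
    have h := (pEq_tau (J := J) (lam := lam) (β := β) (z := z) D l k0 hV t ![e]).zeta
      (f₁ := fldUS fun i => faE (![e] i)) (f₂ := fldUS fun i => faE (![(e.1 + t, e.2)] i))
      (fun _ => 1) n 0
    have he : (fun i => (lTr t).E ((![e] : Fin 1 → EG ℤ) i)) = ![(e.1 + t, e.2)] := by
      funext i; fin_cases i; rfl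
    simp only [he] at h
    exact h
  have hr : ∀ z' : ℤ × ℤ, zPl D (mpar J lam R V β z) l k0 ![((-z'.2 + 1, z'.1), 1)] n 0 =
      zPl D (mpar J lam R V β z) l k0 ![(z', 0)] n 0 := by
    intro z'
    have h := (pEq_rho (J := J) (lam := lam) (β := β) (z := z) D l k0 hV ![(z', 0)]).zeta
      (f₁ := fldUS fun i => faE ((![(z', 0)] : Fin 1 → EG ℤ) i))
      (f₂ := fldUS fun i => faE ((![((-z'.2 + 1, z'.1), 1)] : Fin 1 → EG ℤ) i))
      (fun _ => 1) n 0
    have he : (fun i => lRho.E ((![(z', 0)] : Fin 1 → EG ℤ) i)) = ![((-z'.2 + 1, z'.1), 1)] := by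
      funext i; fin_cases i; exact lRho_E0 z'
    simp only [he] at h
    exact h
  obtain ⟨w, j⟩ := e
  have h1 := ht (-w) (w, j)
  simp only [add_neg_cancel] at h1
  rw [← h1]
  have hj : ∀ j : Fin 2, zPl D (mpar J lam R V β z) l k0 ![(0, j)] n 0 =
      zPl D (mpar J lam R V β z) l k0 ![((0, 0), 0)] n 0 := by
    intro j
    fin_cases j
    · rfl
    · have h2 := hr (0, 0)
      have h3 := ht (-(1, 0)) ((1, 0), 1)
      simp only [neg_zero, zero_add, add_neg_cancel] at h2 h3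
      exact h3.trans h2
  exact hj j


end bonds

section names

variable (J : ℝ) (R : ℕ) (V : Finset (ℤ × ℤ) → ℝ) (c : Cst) (lam β z : ℝ)

/-- the plane flow with the bond source `((0,0), j)` -/
abbrev plE (c : Cst) (P : MPar) (j : Fin 2) : Sys (ℤ × ℤ) (VS (Fld ℤ) 1) :=
  flowP Bg.pl P DD ∅ ![((0, 0), j)] (wpl_ne _) c.p c.k0

/-- the running coefficient of the bond `((0,0), j)` in the plane -/
def zE (j : Fin 2) (n : ℕ) : ℝ :=
  zeP Bg.pl (mpar J lam R V β z) DD ∅ ![((0, 0), j)] (wpl_ne _) c.p c.k0 n 0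

/-- **the energy renormalisation** -/
def Ze : ℝ := limUnder atTop (zE J R V c lam β z 0)

/-- **the bond mean** -/
def eb (j : Fin 2) : ℝ := 1 + ∑' k, incS (plE c (mpar J lam R V β z) j) 0 k

variable {J R V c lam β z}

theorem zE_dir (hV : VHyp R V) (j : Fin 2) (n : ℕ) :
    zE J R V c lam β z j n = zE J R V c lam β z 0 n :=
  (zPl_bond DD c.p c.k0 hV ((0, 0), j) n).trans rfl

theorem zE_zero (j : Fin 2) : zE J R V c lam β z j 0 = 1 := rfl



/-- the running coefficient of any bond of the plane -/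
theorem zeP_eq_zE (hV : VHyp R V) (e : EG ℤ) (n : ℕ) :
    zeP Bg.pl (mpar J lam R V β z) DD ∅ ![e] (wpl_ne _) c.p c.k0 n 0 = zE J R V c lam β z 0 n :=
  zPl_bond DD c.p c.k0 hV e n

/-- increments bounded by a geometric sequence: the limit and the rate -/
theorem Ze_of_step {M σ : ℝ} (hσ : 0 ≤ σ) (hσ1 : σ < 1)
    (h : ∀ n, |zE J R V c lam β z 0 (n + 1) - zE J R V c lam β z 0 n| ≤ M * σ ^ n) :
    Tendsto (zE J R V c lam β z 0) atTop (𝓝 (Ze J R V c lam β z)) ∧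
      ∀ n, |zE J R V c lam β z 0 n - Ze J R V c lam β z| ≤ M / (1 - σ) * σ ^ n := by
  have h1 : ∀ n, dist (zE J R V c lam β z 0 n) (zE J R V c lam β z 0 (n + 1)) ≤ M * σ ^ n :=
    fun n => by rw [Real.dist_eq, abs_sub_comm]; exact h n
  have h2 : CauchySeq (zE J R V c lam β z 0) := cauchySeq_of_le_geometric σ M hσ1 h1
  have h3 : Tendsto (zE J R V c lam β z 0) atTop (𝓝 (Ze J R V c lam β z)) := h2.tendsto_limUnder
  refine ⟨h3, fun n => ?_⟩
  have h4 := dist_le_of_le_geometric_of_tendsto σ M hσ1 h1 h3 n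
  rw [Real.dist_eq] at h4
  refine h4.trans (le_of_eq (by ring))

theorem Ze_one_of_step {M σ : ℝ} (hσ : 0 ≤ σ) (hσ1 : σ < 1)
    (h : ∀ n, |zE J R V c lam β z 0 (n + 1) - zE J R V c lam β z 0 n| ≤ M * σ ^ n) :
    |Ze J R V c lam β z - 1| ≤ M / (1 - σ) := by
  have h1 := (Ze_of_step hσ hσ1 h).2 0
  rw [zE_zero, pow_zero, mul_one, abs_sub_comm] at h1
  exact h1

end names

end Crest.Agent.R165.ZeEbx922
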