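import Crest.Agent.R165.SrcOne_54
import Crest.Agent.R165.SrcInv2_336
import Crest.Agent.R165.SrcGeo_485
import Crest.Agent.R165.SrcCstG_484
import Crest.Agent.R165.SrcK0_991
import Crest.Agent.R165.DomAc_117
import Crest.Agent.R165.SrcFlow_54
import Crest.Agent.R165.SrcNum_943_Mg
import Crest.Agent.R165.ZeEb_922
import Crest.Agent.R165.Comp4_889

-- ▼ part R165/SrcGenA_359
section

/-!
# Row 165 (S0250): the source flow in `Bg.dom T b X`, geometric inputs (helper359)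

From the charts `SrcCh T X e (C2 * rr k)` of helper485 (`s2 + 4 + 2 ^ p ≤ C2`):
* `far_of`, `sep_of`, `dp_of` : separation and depth of the sources
* `ne_of`, `inj_of` : the source bonds
* `ze_of` : the running coefficient is the one of the plane
* `ppP_conn` : the supports of the remainders
-/

set_option autoImplicit false
set_option linter.unusedSectionVars false
set_option linter.unusedVariables false

noncomputable section

open scoped ENNReal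
open Crest.ProbabilityR.IsingModel
open Crest.Agent.R165.Gr0x606 Crest.Agent.R165.Gr1x606 Crest.Agent.R165.GeOpsx337
open Crest.Agent.R165.KFlowx337
open Crest.Agent.R165.Latx683 (BW wDom wX wPl Fld)
open Crest.Agent.R165.GDefx387 Crest.Agent.R165.GSysx387 Crest.Agent.R165.FRDPolyx439
open Crest.Agent.R165.SrcDefx991 Crest.Agent.R165.SrcSysx991 Crest.Agent.R165.SrcInsx991
open Crest.Agent.R165.Bkgx683 (Bg MPar)
open Crest.Agent.R165.GDefx387 (s2)
open Crest.Agent.R165.J4Geox126 (faE)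
open Crest.Agent.R165.SrcChx485 Crest.Agent.R165.SrcGeox485

namespace Crest.Agent.R165.SrcGenx359

section geo

variable {T : Finset (ℤ × ℤ)} {b : BoundaryCondition} {n m : ℕ} {X : Fin n → ℤ × ℤ}
  {e : Fin m → EZ} {l k0 C2 k : ℕ}

/-- the background -/
theorem w_dom (T : Finset (ℤ × ℤ)) (b : BoundaryCondition) {n : ℕ} (X : Fin n → ℤ × ℤ) :
    (Bg.dom T b X).w = wX (wDom (T : Set (ℤ × ℤ)) (Bkgx683.isF b)) X := rfl

/-- different sources do not touch -/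
theorem far_of (hl : 4 ≤ l) (hC : 2 ^ l ≤ C2)
    (h : SrcCh (T : Set (ℤ × ℤ)) X e (C2 * rr l k0 k)) :
    ∀ i j, i ≠ j → ¬ KStepx892.touch (near l k0 k) (faE (e i)) (faE (e j)) := by
  rintro i j hij ⟨f, hf, g, hg, hfg⟩
  have h1 := h.faces hij hf hg
  have h2 : fd f g ≤ nearR l k0 k := hfg
  have h3 : 2 ^ l * rr l k0 k ≤ C2 * rr l k0 k := Nat.mul_le_mul_right _ hC
  have h4 : 16 ≤ 2 ^ l := by
    calc 16 = 2 ^ 4 := by norm_num
      _ ≤ 2 ^ l := Nat.pow_le_pow_right (by norm_num) hl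
  have h5 := rr_pos l k0 k
  have h6 : 16 * 1 ≤ 2 ^ l * rr l k0 k := Nat.mul_le_mul h4 h5
  unfold nearR at h2
  rw [rr_succ] at h2
  omega

/-- the sources are separated -/
theorem sep_of (hC : 1 ≤ C2) (h : SrcCh (T : Set (ℤ × ℤ)) X e (C2 * rr l k0 k)) :
    ∀ i i', i ≠ i' → rr l k0 k < fd (e i).1 (e i').1 := by
  intro i i' hi
  refine lt_of_le_of_lt ?_ (h.sep i i' hi)
  exact Nat.le_mul_of_pos_left _ hC

/-- the sources are deep -/
theorem dp_of (hC : s2 + 2 ≤ C2) (h : SrcCh (T : Set (ℤ × ℤ)) X e (C2 * rr l k0 (k + 1))) :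
    ∀ i, dpS (Bg.dom T b X).w ∅ l k0 e k i := by
  intro i
  rw [w_dom]
  refine srcCh_dp h _ ?_ i
  have h1 := rr_pos l k0 (k + 1)
  nlinarith [Nat.mul_le_mul_right (rr l k0 (k + 1)) hC]

/-- the source bonds are bonds -/
theorem ne_of (hC : 1 ≤ C2) (h : SrcCh (T : Set (ℤ × ℤ)) X e (C2 * rr l k0 k)) :
    ∀ i, (Bg.dom T b X).w (e i).1 (e i).2 ≠ 0 := by
  intro i
  rw [w_dom]
  exact srcCh_ne h (Nat.mul_pos hC (rr_pos _ _ _)) _ i

/-- the faces of the sources are different -/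
theorem inj_of (hl : 4 ≤ l) (hC : 2 ^ l ≤ C2)
    (h : SrcCh (T : Set (ℤ × ℤ)) X e (C2 * rr l k0 k)) :
    Function.Injective fun i => faE (e i) := by
  intro i j hij
  by_contra hne
  have hf : (e i).1 ∈ faE (e i) := fst_mem_faE (e i)
  have hf' : (e i).1 ∈ faE (e j) := by
    have hij' : faE (e i) = faE (e j) := hij
    rw [← hij']; exact hf
  refine far_of hl hC h i j hne ⟨_, hf, _, hf', ?_⟩
  show fd (e i).1 (e i).1 ≤ _
  rw [fd_self]
  exact Nat.zero_le _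

/-- **the running coefficient of a source in `T` is the one of the plane** -/
theorem ze_of {P : MPar} {M K : ℕ} {D : FRD 16 M K} (hl : 4 ≤ l) (hK : 16 ≤ K)
    (h5 : 5 ≤ l * (k0 + 1)) (hC : s2 + 2 ≤ C2)
    (h : SrcCh (T : Set (ℤ × ℤ)) X e (C2 * rr l k0 k))
    {he : ∀ i, (Bg.dom T b X).w (e i).1 (e i).2 ≠ 0} (i : Fin m)
    (heP : ∀ j, (Bg.pl : Bg ℤ).w ((![((0, 0), (e i).2)] : Fin 1 → Bkgx683.EG ℤ) j).1
      ((![((0, 0), (e i).2)] : Fin 1 → Bkgx683.EG ℤ) j).2 ≠ 0) :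
    zeP (Bg.dom T b X) P D ∅ e he l k0 k i =
      zeP Bg.pl P D ∅ ![((0, 0), (e i).2)] heP l k0 k 0 := by
  have h1 := rr_pos l k0 k
  have hs2 : s2 = 128 := rfl
  have h3 : (s2 + 2) * rr l k0 k ≤ C2 * rr l k0 k := Nat.mul_le_mul_right _ hC
  have h4 : (s2 + 1) * rr l k0 k + 1 ≤ C2 * rr l k0 k := by
    refine le_trans ?_ h3
    rw [hs2]
    omega
  refine SrcCstx484.zeP_dom (r := (s2 + 1) * rr l k0 k) ?_ ?_ ?_ ?_ ?_ hl hK h5 k le_rfl
  · rw [hs2]; omega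
  · intro j
    have := h.sp i j
    omega
  · exact h.corners i h4
  · intro i' hi'
    have := h.sep i i' (Ne.symm hi')
    omega
  · intro f hf
    exact absurd hf (Finset.notMem_empty f)

end geo

/-! ### supports of the remainders -/

/-- **the remainders have connected supports** -/
theorem ppP_conn {m : ℕ} {B : Bg ℤ} {P : MPar} {M K : ℕ} {D : FRD 16 M K} {mk : Finset (ℤ × ℤ)}
    {e : Fin m → EZ} {he : ∀ i, B.w (e i).1 (e i).2 ≠ 0} {l k0 : ℕ} (hl : 4 ≤ l)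
    (hR : 2 * P.R + 1 ≤ nearR l k0 0) (n : ℕ) (U : Finset (ℤ × ℤ))
    (h : ppP B P D mk e he l k0 n U ≠ 0) : Packx915.Conn fd (nearR l k0 n) U := by
  by_contra hcon
  have h1 : (flowP B P D mk e he l k0).K n U = 0 := by
    by_contra h2
    exact hcon (SrcCstx484.flowP_conn hl hR n U h2).2
  have h2 : (flow0 B P D mk l k0).K n U = 0 := by
    by_contra h2
    exact hcon (DomAcx117.flow_acS_univ B P D mk (Bkgx683.noSrc ℤ (Ge (Fld ℤ)))
      (SrcCstx484.nearR_pos hl 0) (fun k => k.elim0) n U h2).2.1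
  have h3 : LEAD (srcD B.w e he) (zeP B P D mk e he l k0 n) U = 0 := by
    rw [LEAD]
    refine Finset.sum_eq_zero fun i hi => absurd ?_ hcon
    have hi' : faE (e i) = U := (Finset.mem_filter.1 hi).2
    rw [← hi']
    exact Packx915.conn_of_diam fun x hx y hy =>
      (JVolx950.faE_diam (e i) x hx y hy).trans (SrcCstx484.nearR_pos hl n)
  apply h
  have h4 := flowP_K B P D mk e he l k0 n U
  rw [h1, h2, h3, map_zero] at h4
  have h5 : (0 : Ge (VS (Fld ℤ) m)) = 0 + 0 + ppP B P D mk e he l k0 n U := h4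
  rw [add_zero, zero_add] at h5
  exact h5.symm

end Crest.Agent.R165.SrcGenx359
end
end

-- ▼ part R165/SrcGen_359

/-!
# Row 165 (S0250): the flow with bond sources in `Bg.dom T b X`, GENERIC THEOREM (helper359)

* `C2c c` : the multiple of the charts
* `GenH` : geometry and bulk of one background up to the step `N`
* `bulk_str` : the bulk fields from `Str` + `StepOK` + a bound of the activities
* `GenH.fhyp` : the structure `FHyp` of helper54
* `sA_gen` : **the total norm of the remainders**, all backgrounds `Bg.dom T b X`, all `N`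
-/

set_option autoImplicit false
set_option linter.unusedSectionVars false
set_option linter.unusedVariables false

noncomputable section

open scoped ENNReal
open Crest.ProbabilityR.IsingModel
open Crest.Agent.R165.Geo (LatReg bdS)
open Crest.Agent.R165.Gr0x606 Crest.Agent.R165.Gr1x606 Crest.Agent.R165.GeOpsx337
open Crest.Agent.R165.KFlowx337
open Crest.Agent.R165.Latx683 (BW wDom wX wPl Fld)
open Crest.Agent.R165.GDefx387 Crest.Agent.R165.GSysx387 Crest.Agent.R165.FRDPolyx439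
open Crest.Agent.R165.PNormx417
open Crest.Agent.R165.SrcDefx991 Crest.Agent.R165.SrcSysx991 Crest.Agent.R165.SrcInsx991
open Crest.Agent.R165.NSumx915 (NN)
open Crest.Agent.R165.DefRecx915 (allP)
open Crest.Agent.R165.Bkgx683 (Bg MPar mpar)
open Crest.Agent.R165.Topx683 (VHyp)
open Crest.Agent.R165.GDefx387 (s2)
open Crest.Agent.R165.J4Geox126 (faE)
open Crest.Agent.R165.SrcChx485 Crest.Agent.R165.SrcGeox485
open Crest.Agent.R165.PEndx683 Crest.Agent.R165.Outx683 Crest.Agent.R165.Constx891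
open Crest.Agent.R165.GeoIx838 (Sep)
open Crest.Agent.R165.SrcFlowx54 Crest.Agent.R165.SrcStepHypx943 Crest.Agent.R165.SrcNumx943
open Crest.Agent.R165.ZeEbx922 (zE)
open Crest.Agent.R165.Compx889 (Str StepOK Ctl)

namespace Crest.Agent.R165.SrcGenx359

/-- **the multiple of the charts at the sources** -/
def C2c (c : Cst) : ℕ := s2 + 4 + 2 ^ c.p

/-- **geometry and bulk of one background** `Bg.dom T b X` with sources `e`, up to the step `N` -/
structure GenH (c : Cst) (C1 : ℕ) (P : MPar) (T : Finset (ℤ × ℤ)) (b : BoundaryCondition)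
    {n m : ℕ} (X : Fin n → ℤ × ℤ) (e : Fin m → EZ) (CF ε : ℝ≥0∞) (N : ℕ) : Prop where
  reg : ∃ ρ κ : ℝ, LatReg (T : Set (ℤ × ℤ)) ρ κ ∧ κ * ρ ≤ 1 ∧
    ∀ k < N, (C1 : ℝ) * rr c.p c.k0 (k + 1) ≤ ρ
  sepX : ∀ k < N, ∃ Z : Set (ℤ × ℤ), Sep (T : Set (ℤ × ℤ)) X Z (32 * rr c.p c.k0 (k + 1))
  ch : ∀ k ≤ N, SrcCh (T : Set (ℤ × ℤ)) X e (C2c c * rr c.p c.k0 k)
  bulkH : ∀ k < N, NN fd (rr c.p c.k0 (k + 1)) (3 * ENNReal.ofReal c.Γ)
    (fun U => pG (wU (Bg.dom T b X).w (amp c (k + 1)) (rr c.p c.k0 (k + 1)) U)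
      ((flow0 (Bg.dom T b X) P DD ∅ c.p c.k0).H k U)) ≤ CF * (ε * (1 / 2) ^ k)
  bulkA : ∀ k < N, NN fd (rr c.p c.k0 (k + 1)) (3 * ENNReal.ofReal c.Γ)
    (fun U => pG (wU (Bg.dom T b X).w (amp c (k + 1)) (rr c.p c.k0 (k + 1)) U)
      ((flow0 (Bg.dom T b X) P DD ∅ c.p c.k0).A k U)) ≤ CF * (ε * (1 / 2) ^ k)

/-! ### the bulk -/

/-- **bulk fields** from the structural hypotheses, one controlled step and the activities -/
theorem bulk_str {c : Cst} {D : Sys (ℤ × ℤ) (Fld ℤ)} {w : BW ℤ} {R : ℕ → ℕ}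
    {ac em : ℕ → Finset (ℤ × ℤ) → Prop} {K k : ℕ} {κ₀ CF ε : ℝ≥0∞} {a : ℕ → ℝ}
    (S : Str D (rr c.p c.k0) R (ENNReal.ofReal c.Γ) ac em K) (hk : k < K)
    (h : StepOK D w (ENNReal.ofReal c.Γ) k (a k) (a (k + 1)) (rr c.p c.k0 k)
      (rr c.p c.k0 (k + 1)) (ac k) (em k) κ₀ CF)
    (hN : Compx889.NP D w a (rr c.p c.k0) (ENNReal.ofReal c.Γ) allP k ≤ ε * (1 / 2) ^ k)
    {a' : ℝ} (ha : a (k + 1) = a') :
    NN fd (rr c.p c.k0 (k + 1)) (3 * ENNReal.ofReal c.Γ)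
      (fun U => pG (wU w a' (rr c.p c.k0 (k + 1)) U) (D.H k U)) ≤ CF * (ε * (1 / 2) ^ k) ∧
    NN fd (rr c.p c.k0 (k + 1)) (3 * ENNReal.ofReal c.Γ)
      (fun U => pG (wU w a' (rr c.p c.k0 (k + 1)) U) (D.A k U)) ≤ CF * (ε * (1 / 2) ^ k) := by
  subst ha
  have h1 := BulkHAx915.bulk_HA S hk h
  exact ⟨h1.1.trans (mul_le_mul_right hN _), h1.2.trans (mul_le_mul_right hN _)⟩

theorem amp_ge {c : Cst} (hs : Std c) (n : ℕ) : c.A0 ≤ amp c n := by
  have h1 := hs.A0_ge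
  have h2 : 0 ≤ c.δ * n := mul_nonneg hs.δ_pos.le (Nat.cast_nonneg _)
  unfold amp
  nlinarith

theorem amp_two {c : Cst} (hs : Std c) (n : ℕ) : amp c (n + 1) ≤ 2 * amp c n := by
  have h1 : 0 ≤ c.A0 := zero_le_one.trans hs.A0_ge
  have h2 : 0 ≤ c.δ * n := mul_nonneg hs.δ_pos.le (Nat.cast_nonneg _)
  have h3 := hs.δ_le
  unfold amp
  push_cast
  calc c.A0 * (1 + c.δ * (n + 1)) ≤ c.A0 * (2 * (1 + c.δ * n)) :=
        mul_le_mul_of_nonneg_left (by linarith) h1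
    _ = _ := by ring

/-- a real bound in the form `ε 2^{-k}` -/
theorem geo_half {x : ℝ} (hx : 0 ≤ x) (k : ℕ) :
    ENNReal.ofReal (x * (1 / 2) ^ k) = ENNReal.ofReal x * (1 / 2) ^ k := by
  rw [ENNReal.ofReal_mul hx, ENNReal.ofReal_pow (by norm_num), ZeSx915.half_ofReal]

section one

variable {c : Cst} {C1 : ℕ} {P : MPar} {T : Finset (ℤ × ℤ)} {b : BoundaryCondition}
  {n m : ℕ} {X : Fin n → ℤ × ℤ} {e : Fin m → EZ} {CF ε : ℝ≥0∞} {N : ℕ} {Cb : ℝ} {A : ℝ≥0∞}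

theorem pow_le_C2c (c : Cst) : 2 ^ c.p ≤ C2c c := Nat.le_add_left _ _

theorem s2_le_C2c (c : Cst) : s2 + 2 ≤ C2c c :=
  (Nat.add_le_add_left (by norm_num) _).trans (Nat.le_add_right _ _)

theorem one_le_C2c (c : Cst) : 1 ≤ C2c c := le_trans (Nat.le_add_left 1 (s2 + 1)) (s2_le_C2c c)

/-- the source bonds are bonds -/
theorem GenH.he (h : GenH c C1 P T b X e CF ε N) :
    ∀ i, (Bg.dom T b X).w (e i).1 (e i).2 ≠ 0 :=
  ne_of (one_le_C2c c) (h.ch 0 (Nat.zero_le _))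

/-- **the structure of helper54** -/
theorem GenH.fhyp (h : GenH c C1 P T b X e CF ε N) (hs : Std c) (hG : GoodS c Cb A C1)
    (hR : 2 * P.R + 1 ≤ nearR c.p c.k0 0) (he : ∀ i, (Bg.dom T b X).w (e i).1 (e i).2 ≠ 0) :
    FHyp c Cb A CF (Bg.dom T b X) P e he ε N where
  hw z j := Fin3x315.abs_wX_le _ _ _ z j
  inj := inj_of hs.p_pos (pow_le_C2c c) (h.ch 0 (Nat.zero_le _))
  st k hk := by
    obtain ⟨ρ, κ, h1, h2, h3⟩ := h.reg
    obtain ⟨Z, h4⟩ := h.sepX k hk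
    exact ⟨_, _, hG.dom _ ρ κ h1 h2 n X Z (Bkgx683.isF b) k _ _ (h3 k hk) h4
      (amp_ge hs k) (amp_ge hs (k + 1)) (amp_two hs k)⟩
  dp k hk := dp_of (s2_le_C2c c) (h.ch (k + 1) hk)
  sep k hk := sep_of (one_le_C2c c) (h.ch k hk.le)
  far k hk := far_of hs.p_pos (pow_le_C2c c) (h.ch (k + 1) hk)
  conn k _ U hU := ppP_conn (he := he) hs.p_pos hR k U hU
  bulkH := h.bulkH
  bulkA := h.bulkA

/-- **the running coefficients are the ones of the plane** -/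
theorem GenH.ze {J : ℝ} {R : ℕ} {V : Finset (ℤ × ℤ) → ℝ} (hV : VHyp R V) {lam β z : ℝ}
    (h : GenH c C1 (mpar J lam R V β z) T b X e CF ε N) (hs : Std c)
    (h5 : 5 ≤ c.p * (c.k0 + 1)) (he : ∀ i, (Bg.dom T b X).w (e i).1 (e i).2 ≠ 0) {k : ℕ}
    (hk : k ≤ N) (i : Fin m) :
    zeP (Bg.dom T b X) (mpar J lam R V β z) DD ∅ e he c.p c.k0 k i = zE J R V c lam β z 0 k := by
  rw [ze_of hs.p_pos (by norm_num) h5 (s2_le_C2c c) (h.ch k hk) i (SrcSymx922.wpl_ne _)]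
  exact ZeEbx922.zeP_eq_zE hV _ k

end one

/-! ### the generic theorem -/

theorem amp_zero (c : Cst) : amp c 0 = c.A0 := by simp [amp]

/-- **the total norm of the remainders of the flow with bond sources**, every background
`Bg.dom T b X`, every number of sources and of steps -/
theorem sA_gen {J : ℝ} {R : ℕ} {V : Finset (ℤ × ℤ) → ℝ} (hV : VHyp R V) :
    ∃ (Cb : ℝ) (A : ℝ≥0∞), EvC fun c => Std c ∧ 5 ≤ c.p * (c.k0 + 1) ∧
      2 * max R 1 + 1 ≤ nearR c.p c.k0 0 ∧ ∃ C1 : ℕ, GoodS c Cb A C1 ∧ ∃ T1 > 0,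
      ∀ (C : ℝ) (CF : ℝ≥0∞), CF ≠ ∞ → ∀ M0 : ℝ, 0 ≤ M0 → ∃ ε > 0, ∃ M > 0,
      ∀ lam β z : ℝ, |lam| < ε → NearP J C lam β z →
      (∀ k, |zE J R V c lam β z 0 k| ≤ 2) →
      ∀ (T : Finset (ℤ × ℤ)) (b : BoundaryCondition) (n m : ℕ) (X : Fin n → ℤ × ℤ)
        (e : Fin m → EZ) (N : ℕ), 1 ≤ m →
        GenH c C1 (mpar J lam R V β z) T b X e CF (ENNReal.ofReal (M0 * |lam|)) N →
      ∀ (he : ∀ i, (Bg.dom T b X).w (e i).1 (e i).2 ≠ 0) (t : ℝ), 0 < t → m * t ≤ T1 →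
      ∀ k ≤ N, totP c (Bg.dom T b X) (mpar J lam R V β z) e he t k ≤
        ENNReal.ofReal (M * |lam| * (m * t) * (1 / 2) ^ k) := by
  obtain ⟨Cb, A, hG⟩ := goodS_ev
  refine ⟨Cb, A, ?_⟩
  have h1 := ev_rr_ge fun _ _ => max R 1 + 1
  have h2 := ev_k0_ge fun _ _ => 5
  refine ((((ev_std.and hG).and h1).and h2).and (SrcInsx991.e0_ev J R V)).mono ?_
  rintro c ⟨⟨⟨⟨hs, C1, hG⟩, hrr⟩, hk0⟩, hu0, he0⟩
  have h5 : 5 ≤ c.p * (c.k0 + 1) := by have := hs.p_pos; nlinarith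
  have hnear : 2 * max R 1 + 1 ≤ nearR c.p c.k0 0 := by
    have h7 : max R 1 + 1 ≤ rr c.p c.k0 0 := hrr 0
    have h8 := rr_succ c.p c.k0 0
    have h9 : 2 ^ 4 ≤ 2 ^ c.p := Nat.pow_le_pow_right (by norm_num) hs.p_pos
    have h10 : 2 ^ 4 * rr c.p c.k0 0 ≤ rr c.p c.k0 (0 + 1) := by
      rw [h8]; exact Nat.mul_le_mul_right _ h9
    unfold nearR
    omega
  refine ⟨hs, h5, hnear, C1, hG, ?_⟩
  -- constants
  have hΓ0 : (0 : ℝ) < c.Γ := by linarith [hs.Γ_ge]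
  have hΓ : ENNReal.ofReal c.Γ ≠ 0 := by rw [Ne, ENNReal.ofReal_eq_zero, not_le]; exact hΓ0
  have hA0 : 0 < c.A0 := one_pos.trans_le hs.A0_ge
  have hr0 : (0 : ℝ) < rr c.p c.k0 0 := by exact_mod_cast rr_pos c.p c.k0 0
  have hSH := hG.plane 0 c.A0 c.A0 le_rfl le_rfl (by linarith)
  have hb : W2x812.BkReg Cb := hSH.bk
  have hq : qLp 1 ((2 ^ c.p : ℕ) : ℝ≥0∞) A (ENNReal.ofReal c.Γ) Cb c.p ≤ 1 / 8 := by
    rw [← qL_eq 1 _ A (ENNReal.ofReal c.Γ) Cb c.p c.k0 0]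
    exact (step_consts hSH hG.L128).1
  set ρ : ℝ≥0∞ := cRad A (ENNReal.ofReal c.Γ) Cb c.p 1 with hρ
  have hρ0 : ρ ≠ 0 := cRad_pos hG.A_top hΓ ENNReal.one_ne_top Cb c.p
  have hρt : ρ ≠ ∞ := ne_top_of_le_ne_top ENNReal.one_ne_top (cE_le_one _ _ _)
  have hρr : 0 < ρ.toReal := ENNReal.toReal_pos hρ0 hρt
  set cTr : ℝ := (cT (ENNReal.ofReal c.Γ) Cb).toReal with hcTr
  have hcT : cT (ENNReal.ofReal c.Γ) Cb = ENNReal.ofReal cTr :=
    (ENNReal.ofReal_toReal (cT_ne_top ENNReal.ofReal_ne_top Cb)).symm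
  have hcT0 : 0 ≤ cTr := ENNReal.toReal_nonneg
  set u0 : ℝ := SrcInsx991.u0c (max R 1) c with hu0d
  have hcT1 : 0 < cTr + 1 := by linarith
  refine ⟨min (ρ.toReal / (cTr + 1)) (u0 * (c.A0 ^ 2 / rr c.p c.k0 0)),
    lt_min (div_pos hρr hcT1) (mul_pos hu0 (by positivity)), ?_⟩
  intro C CF hCF M0 hM0
  obtain ⟨ε1, hε1, C', hC', he0⟩ := he0 C
  set M1 : ℝ := max M0 (C' * (rr c.p c.k0 0 / c.A0 ^ 2)) with hM1
  have hM10 : 0 ≤ M1 := hM0.trans (le_max_left _ _)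
  have hCF2 : 2 * (CF + 1) ≠ ∞ :=
    ENNReal.mul_ne_top (by norm_num) (ENNReal.add_ne_top.2 ⟨hCF, ENNReal.one_ne_top⟩)
  set cf : ℝ := (2 * (CF + 1)).toReal with hcf
  have ecf : 2 * (CF + 1) = ENNReal.ofReal cf := (ENNReal.ofReal_toReal hCF2).symm
  have hcf0 : 0 ≤ cf := ENNReal.toReal_nonneg
  have hcA := cAll_ne_top hG.A_top hΓ ENNReal.ofReal_ne_top hCF
    (M0 := 1) ENNReal.one_ne_top Cb c.p
  set ca : ℝ := (cAll A (ENNReal.ofReal c.Γ) Cb c.p CF 1).toReal with hca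
  have eca : cAll A (ENNReal.ofReal c.Γ) Cb c.p CF 1 = ENNReal.ofReal ca :=
    (ENNReal.ofReal_toReal hcA).symm
  have hca0 : 0 ≤ ca := ENNReal.toReal_nonneg
  have hcM : 0 < cf * M1 + 1 := by positivity
  refine ⟨min ε1 (ρ.toReal / (cf * M1 + 1)), lt_min hε1 (div_pos hρr hcM), ca * M1 + 1,
    by positivity, ?_⟩
  intro lam β z hlam hnr hz T b n m X e N hm h he t ht hmt k hk
  have hl1 : |lam| < ε1 := hlam.trans_le (min_le_left _ _)
  have hl2 : |lam| < ρ.toReal / (cf * M1 + 1) := hlam.trans_le (min_le_right _ _)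
  have hl0 := abs_nonneg lam
  have hm1 : (1 : ℝ) ≤ m := by exact_mod_cast hm
  have htm : t ≤ m * t := by nlinarith
  have hF := (h.fhyp hs hG hnear he).mono
    (ENNReal.ofReal_le_ofReal (mul_le_mul_of_nonneg_right (le_max_left M0
      (C' * (rr c.p c.k0 0 / c.A0 ^ 2))) hl0))
  rw [← hM1] at hF
  have em : (m : ℝ≥0∞) * ENNReal.ofReal t = ENNReal.ofReal (m * t) := by
    rw [ENNReal.ofReal_mul (Nat.cast_nonneg _), ENNReal.ofReal_natCast]
  have hmt1 : m * t ≤ ρ.toReal / (cTr + 1) := hmt.trans (min_le_left _ _)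
  have hmt2 : m * t ≤ u0 * (c.A0 ^ 2 / rr c.p c.k0 0) := hmt.trans (min_le_right _ _)
  have hmt0 : 0 < m * t := by positivity
  -- the start
  have hst : totP c (Bg.dom T b X) (mpar J lam R V β z) e he t 0 ≤
      1 * ENNReal.ofReal (M1 * |lam|) * (m * ENNReal.ofReal t) := by
    have hv : 0 < SrcLimx697.vS c t 0 := SrcLimx697.vS_pos ht hA0 hs.δ_pos.le 0
    have hv2 : ENNReal.ofReal (SrcLimx697.vS c t 0) ^ 2 =
        ENNReal.ofReal (t * (rr c.p c.k0 0 / c.A0 ^ 2)) := by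
      rw [← ENNReal.ofReal_pow hv.le, SrcLimx697.vS_sq ht.le, amp_zero]
      congr 1
      ring
    have h3 := he0 lam β z hl1 hnr (Bg.dom T b X)
      (fun z j => Fin3x315.abs_wX_le _ _ _ z j) (Bg.dom T b X).w DD ∅ m e he
      (far_of hs.p_pos (pow_le_C2c c) (h.ch 0 (Nat.zero_le _)))
      (fun _ => ENNReal.ofReal (SrcLimx697.vS c t 0))
      (ENNReal.ofReal (t * (rr c.p c.k0 0 / c.A0 ^ 2)))
      (fun _ => by rw [Ne, ENNReal.ofReal_eq_zero, not_le]; exact hv) (fun _ => hv2.le)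
      (ENNReal.ofReal_le_ofReal (by
        calc t * (rr c.p c.k0 0 / c.A0 ^ 2)
            ≤ (u0 * (c.A0 ^ 2 / rr c.p c.k0 0)) * (rr c.p c.k0 0 / c.A0 ^ 2) := by
              gcongr
              exact htm.trans hmt2
          _ = u0 := by field_simp))
    have h4 : totP c (Bg.dom T b X) (mpar J lam R V β z) e he t 0 ≤
        m * (ENNReal.ofReal (C' * |lam|) *
          ENNReal.ofReal (t * (rr c.p c.k0 0 / c.A0 ^ 2))) := by
      unfold totP
      rw [amp_zero]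
      exact h3
    refine h4.trans ?_
    rw [one_mul, em, ← ENNReal.ofReal_mul (by positivity), ← ENNReal.ofReal_natCast,
      ← ENNReal.ofReal_mul (Nat.cast_nonneg _), ← ENNReal.ofReal_mul (by positivity)]
    refine ENNReal.ofReal_le_ofReal ?_
    calc (m : ℝ) * (C' * |lam| * (t * (rr c.p c.k0 0 / c.A0 ^ 2)))
        = C' * (rr c.p c.k0 0 / c.A0 ^ 2) * |lam| * (m * t) := by ring
      _ ≤ M1 * |lam| * (m * t) := by
          gcongr
          exact le_max_right _ _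
  have hall := hF.all hs hb ht hq hG.A_top hCF (fun k hk i => by
      rw [h.ze hV hs h5 he hk.le i]; exact hz k) (M0 := 1) ENNReal.one_ne_top ?_ ?_ hst k hk
  · refine hall.trans ?_
    rw [eca, em, ← ENNReal.ofReal_mul hca0, ← ENNReal.ofReal_mul (by positivity),
      ← geo_half (by positivity)]
    refine ENNReal.ofReal_le_ofReal ?_
    have h6 : ca * (M1 * |lam|) ≤ (ca * M1 + 1) * |lam| := by nlinarith
    gcongr
  · rw [ecf, ← ENNReal.ofReal_mul hcf0]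
    refine ENNReal.ofReal_le_of_le_toReal ?_
    calc cf * (M1 * |lam|) = (cf * M1) * |lam| := by ring
      _ ≤ (cf * M1 + 1) * (ρ.toReal / (cf * M1 + 1)) :=
          mul_le_mul (by linarith) hl2.le hl0 hcM.le
      _ = ρ.toReal := mul_div_cancel₀ _ hcM.ne'
  · rw [hcT, em, ← ENNReal.ofReal_mul hcT0]
    refine ENNReal.ofReal_le_of_le_toReal ?_
    calc cTr * (m * t) ≤ (cTr + 1) * (ρ.toReal / (cTr + 1)) :=
          mul_le_mul (by linarith) hmt1 hmt0.le hcT1.le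
      _ = ρ.toReal := mul_div_cancel₀ _ hcT1.ne'

end Crest.Agent.R165.SrcGenx359
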