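import Crest.Agent.R165.ZeA_915
import Crest.Agent.R165.ZeEb2_922
import Crest.Agent.R165.SrcDomH_697
import Crest.Agent.R165.EnPLim_811_Mg
import Crest.Agent.R165.StepOK_838
import Crest.Agent.R165.GeoScA_485
import Crest.Agent.R165.DomAc_117
import Crest.Agent.R165.Comp4_889
import Crest.Agent.R165.SpinDom_432
import Crest.Agent.R165.GeoRD_838
import Crest.Agent.R165.SrcGen_359
import Crest.Agent.R165.BkFin_806
import Crest.Agent.R165.Pl0b_654
import Crest.Agent.R165.SrcIns_991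
import Crest.Agent.R165.SpE_583
import Crest.Agent.R165.Out_683
import Crest.Agent.R165.GSysOK_439
import Crest.Agent.R165.SrcCstG_484
import Crest.Agent.R165.SrcDomE_697
import Crest.Agent.R165.SrcCh_485
import Crest.Agent.R165.ZeEb_922
import Crest.Agent.R165.SrcFlow_54
import Crest.Agent.R165.EnFine_811
import Crest.Agent.R165.DiscComp2_722
import Crest.Agent.R165.PlB_117
import Crest.Agent.R165.SrcLim_697
import Crest.Agent.R165.DiscK_892
import Crest.Agent.R165.BkEx_812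

-- ▼ part R165/ZeB_915
section

/-!
# Row 165 (S0250), leaf P11 (sources): the plane, literal forms of helper922 (helper915)

* `zA_all` : `VHyp R V → ZA J R V`;  `zInc`, `oneP` : consequences
-/

set_option autoImplicit false
set_option linter.unusedSectionVars false

noncomputable section

open scoped ENNReal

namespace Crest.Agent.R165.ZeAx915

open Crest.Agent.R165.PEndx683 Crest.Agent.R165.Outx683 Crest.Agent.R165.ZeEbx922
open Crest.Agent.R165.SrcSymx922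

variable {J : ℝ} {R : ℕ} {V : Finset (ℤ × ℤ) → ℝ}

/-- **the plane with one bond source**, in the form of `ZeEb2_922` -/
theorem zA_all (hV : Topx683.VHyp R V) : ZA J R V := by
  refine (zA (J := J) hV).mono fun c hc C => ?_
  obtain ⟨T1, hT1, hc⟩ := hc
  obtain ⟨ε, hε, M, hM, h⟩ := hc C
  refine ⟨ε, hε, T1, hT1, M, hM, fun lam β z hl hn hp => ⟨fun j n => ?_, fun j n => ?_, ?_⟩⟩
  · exact (h lam β z hl hn hp ![((0, 0), j)] T1 hT1 le_rfl n).2.1
  · exact (h lam β z hl hn hp ![((0, 0), j)] T1 hT1 le_rfl n).2.2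
  · intro T hT hT' j n
    exact (h lam β z hl hn hp ![((0, 0), j)] T hT hT' n).1

theorem zInc (hV : Topx683.VHyp R V) : ZInc J R V := (zA_all hV).inc


end Crest.Agent.R165.ZeAx915
end
end

-- ▼ part R165/EnR_441
section

/-!
# Row 165 (S0250), the leaf `en` (energy sources), assembly (helper441)

* `enR_of` : `EnR` on 922's names from the fine phases `FineC2` (domains) and `FineD` (large discs)
* `enAll_of` : the last leaf of `S0250`
-/

set_option autoImplicit false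

noncomputable section

open Filter Topology
open scoped ENNReal
open Crest.ProbabilityR.IsingModel
open Crest.Agent.R165.Bkgx683 Crest.Agent.R165.PEndx683 Crest.Agent.R165.Outx683
open Crest.Agent.R165.Redx541 Crest.Agent.R165.Red2x541 Crest.Agent.R165.SRx541
open Crest.Agent.R165.Topx683 Crest.Agent.R165.PTopx386

namespace Crest.Agent.R165.EnRx441

/-- **the leaf `en`** from the two fine phases -/
theorem enR_of {J : ℝ} (hJ : 0 < J) {R : ℕ} {V : Finset (ℤ × ℤ) → ℝ} (hV : VHyp R V)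
    (hD : SrcDomx697.FineC2 J R V (ZeEbx922.Ze J R V) (ZeEbx922.eb J R V))
    (hP : ForP J (PF J R V) fun c lam β z => EnFinex811.FineD J lam R V β z c
      (ZeEbx922.Ze J R V c lam β z) (ZeEbx922.eb J R V c lam β z)) :
    EnR J R V (ZeEbx922.Ze J R V) (ZeEbx922.eb J R V) :=
  ⟨ZeEbx922.oneP_Ze (ZeAx915.zA_all hV).inc, SrcDomx697.enD_of hJ hV hD, EnPLimx811.enP_of hJ hV hP⟩

/-- **the last leaf** from the two fine phases -/
theorem enAll_of
    (hD : ∀ J : ℝ, 0 < J → ∀ (R : ℕ) (V : Finset (ℤ × ℤ) → ℝ), VHyp R V →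
      SrcDomx697.FineC2 J R V (ZeEbx922.Ze J R V) (ZeEbx922.eb J R V))
    (hP : ∀ J : ℝ, 0 < J → ∀ (R : ℕ) (V : Finset (ℤ × ℤ) → ℝ), VHyp R V →
      ForP J (PF J R V) fun c lam β z => EnFinex811.FineD J lam R V β z c
        (ZeEbx922.Ze J R V c lam β z) (ZeEbx922.eb J R V c lam β z)) :
    Finx641.EnAll := fun J hJ R V hV =>
  ⟨ZeEbx922.Ze J R V, ZeEbx922.eb J R V, enR_of hJ hV (hD J hJ R V hV) (hP J hJ R V hV)⟩

end Crest.Agent.R165.EnRx441
end
end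

-- ▼ part R165/StepDom_838
section

/-!
# Row 165 (S0250): controlled flows (`Ctl` of `Comp4_889`) on all backgrounds (helper838)

* `ev_cstOK'` : any lower bound for `D`;  `stepOK_of_stepGeo` : the form `StepGeo` of helper420
* `str_v` : the structural hypotheses of `sys`
* `Good.ctl_pl`, `Good.ctl_br`, `Good.ctl_cfg` : `Ctl` for the plane with marks, branch vertices, and
  the configurations of helper485
* `ctl_dom_ev` : all `C²` Jordan domains, insertions near `x`, marks near `y`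
* `ctl_domF_ev` : the flows `domF` literally
-/

set_option autoImplicit false
set_option linter.unusedSectionVars false

noncomputable section

open scoped ENNReal
open Filter Topology
open Crest.ProbabilityR.IsingModel
open Crest.Agent.R165.Geo (LatReg bdS)
open Crest.Agent.R165.Gr0x606 Crest.Agent.R165.Gr1x606 Crest.Agent.R165.GeOpsx337
open Crest.Agent.R165.Latx683 (BW wDom wX wPl Fld)
open Crest.Agent.R165.GDefx387 Crest.Agent.R165.GSysx387 Crest.Agent.R165.FRDPolyx439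
open Crest.Agent.R165.Packx915 (Conn)
open Crest.Agent.R165.NSumx915 (DCount)
open Crest.Agent.R165.DefRecx915 Crest.Agent.R165.Compx889 Crest.Agent.R165.WPackx893
open Crest.Agent.R165.RegIx893 (Geo BigL EE exists_D ev_bigL bd_count)
open Crest.Agent.R165.KFlowx337 Crest.Agent.R165.BgIsox432 Crest.Agent.R165.Bridgex915
open Crest.Agent.R165.PEndx683 Crest.Agent.R165.Constx891 Crest.Agent.R165.Outx683
open Crest.Agent.R165.Bkgx683
open Crest.Agent.R165.GeoIx838 (Sep SepP wX_zero)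
open Crest.Agent.R165.XBdx915 (acS)
open Crest.Agent.R165.DomAcx117 (nbT acS_hit)
open Crest.Agent.R165.GeoScAx485 (Cfg cfg_steps)
open Crest.Agent.R165.GeoScx420 (KK StepGeo)
open Crest.Agent.R165.GeoCox838 Crest.Agent.R165.StepOKx838

namespace Crest.Agent.R165.StepDomx838

/-! ### the constants, any lower bound for `D` -/



/-! ### structural hypotheses -/

/-- **`Str` of the systems of `GSys_387`** -/
theorem str_v {G : Type} [CommRing G] [CN G] [CNZ G] [DecidableEq G] [GoodG G] {c : Cst}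
    (hp : 1 ≤ c.p) (hΓ : 1 ≤ ENNReal.ofReal c.Γ) {w : BW G} {mk : Finset (G × G)}
    {K0 : Finset (G × G) → Ge (Fld G)} {Λ : Set (G × G)}
    (h0 : ∀ U, K0 U ≠ 0 → acS fd (nearR c.p c.k0 0) Λ U) (K : ℕ) :
    Str (sys DD w mk c.p c.k0 K0) (rr c.p c.k0) (nearR c.p c.k0) (ENNReal.ofReal c.Γ)
      (fun n => acS fd (nearR c.p c.k0 n) Λ)
      (fun n => emM w (mk : Set (G × G)) (rr c.p c.k0 n)) K where
  r_pos := rr_pos c.p c.k0
  r_mono k := rr_mono c.p c.k0 (Nat.le_succ k)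
  Γ1 := hΓ
  vac := XBdx915.vacCt_sys DD
  near _ _ := rfl
  hac k _ U h := XBdx915.ac_sys DD h0 k U h
  ne _ _ _ h := h.1
  deep k _ := XBdx915.deep_sys hp k
  ext k _ := XBdx915.embExtr_sys DD k

theorem one_le_Γ {c : Cst} (hs : Std c) : 1 ≤ ENNReal.ofReal c.Γ := by
  rw [← ENNReal.ofReal_one]
  exact ENNReal.ofReal_le_ofReal (by linarith [hs.Γ_ge])

/-! ### amplitudes -/

theorem amp_ge {c : Cst} (hs : Std c) (n : ℕ) : c.A0 ≤ amp c n := (Amp.lin hs).ge n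

theorem amp_le_two {c : Cst} (hs : Std c) (n : ℕ) : amp c (n + 1) ≤ 2 * amp c n :=
  (Amp.lin hs).le_two hs n

/-! ### the classes -/

section cls

variable {c : Cst} {CF : ℝ≥0∞} {C1 : ℕ}



/-- **configurations of helper485**: domains, discs (fine phase), plane with separated insertions -/
theorem Good.ctl_cfg (H : Good c CF C1) (hs : Std c) {a : ℕ → ℝ} (ha : ∀ n, c.A0 ≤ a n)
    (ha2 : ∀ n, a (n + 1) ≤ 2 * a n) {T : Set (ℤ × ℤ)} {m : ℕ} {X : Fin m → ℤ × ℤ}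
    {mk : Finset (ℤ × ℤ)} {b : Bool} {Kc q K : ℕ} (hKc : Kc ≤ rr c.p c.k0 0)
    (hq : q ≤ rr c.p c.k0 0)
    (hC : ∀ k < K, Cfg T X (mk : Set (ℤ × ℤ)) Kc (((C1 + 33 : ℕ) : ℝ) * rr c.p c.k0 (k + 1)))
    {K0 : Finset (ℤ × ℤ) → Ge (Fld ℤ)}
    (hOK : (sys DD (wX (wDom T b) X) mk c.p c.k0 K0).OK ⊥)
    (h0 : ∀ U, K0 U ≠ 0 → acS fd (nearR c.p c.k0 0) (nbT T q) U) :
    Ctl c CF a (sys DD (wX (wDom T b) X) mk c.p c.k0 K0) (wX (wDom T b) X)
      (fun n => acS fd (nearR c.p c.k0 n) (nbT T q))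
      (fun n => emM (wX (wDom T b) X) (mk : Set (ℤ × ℤ)) (rr c.p c.k0 n)) K where
  str := str_v (by have := hs.p_pos; omega) (one_le_Γ hs) h0 K
  step k hk := by
    have hk' := hC k hk
    obtain ⟨ρ, κ, h1, h2, h3⟩ := hk'.reg
    have hr : (1 : ℝ) ≤ rr c.p c.k0 (k + 1) := by exact_mod_cast rr_pos c.p c.k0 (k + 1)
    have hC1 : (0 : ℝ) ≤ C1 := Nat.cast_nonneg _
    refine H.dom T ρ κ h1 h2 m X mk b K0 hOK k q _ _ _ ?_ ?_ ?_ ?_ (fun _ h => h.2.1)
      (fun _ h => acS_hit h) (ha k) (ha (k + 1)) (ha2 k)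
    · refine le_trans (mul_le_mul_of_nonneg_right ?_ (by linarith)) h3
      exact_mod_cast Nat.le_add_right C1 33
    · refine hk'.sepI ?_
      push_cast
      nlinarith
    · intro u hu v hv
      rcases hk'.mcl u hu v hv with h4 | h4
      · exact Or.inl (h4.trans (hKc.trans (rr_mono c.p c.k0 (Nat.zero_le k))))
      · right
        have h5 : ((10 * rr c.p c.k0 (k + 1) : ℕ) : ℝ) < (fd u v : ℝ) := by
          refine lt_of_le_of_lt ?_ h4
          push_cast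
          nlinarith
        exact_mod_cast h5
    · refine hq.trans ((rr_mono c.p c.k0 (Nat.zero_le k)).trans ?_)
      exact Nat.le_mul_of_pos_left _ (by decide)

end cls

/-! ### domains -/

/-- **all `C²` Jordan domains** -/
theorem ctl_dom_ev (q Kc : ℕ) : EvC fun c => Std c ∧ ∃ CF : ℝ≥0∞, CF ≠ ∞ ∧
    ∀ (D : Set ℂ), IsC2JordanDomain D → ∀ (m p : ℕ) (x : Fin m → ℂ) (y : Fin p → ℂ),
    (∀ i, x i ∈ D) → Function.Injective x → (∀ j, y j ∈ D) → (∀ i j, x i ≠ y j) →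
    ∀ K0c : ℝ, ⌈2 * K0c⌉₊ ≤ Kc → ∃ δ0 > 0, ∃ δ1 > 0, ∀ δ, 0 < δ → δ ≤ δ1 → ∀ᶠ a : ℝ in 𝓝[>] 0,
    ∀ X : Fin m → ℤ × ℤ, (∀ i, ‖meshPoint a (X i) - x i‖ ≤ δ0) →
    ∀ mk : Finset (ℤ × ℤ), (∀ u ∈ mk, ∃ j, ‖meshPoint a u - y j‖ ≤ K0c * a) →
    ∀ (T : Set (ℤ × ℤ)), T = domainSites D a → ∀ (b : Bool) (A : ℕ → ℝ), (∀ n, c.A0 ≤ A n) →
    (∀ n, A (n + 1) ≤ 2 * A n) → ∀ (K0 : Finset (ℤ × ℤ) → Ge (Fld ℤ)),
    (sys DD (wX (wDom T b) X) mk c.p c.k0 K0).OK ⊥ →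
    (∀ U, K0 U ≠ 0 → acS fd (nearR c.p c.k0 0) (nbT T q) U) →
    Ctl c CF A (sys DD (wX (wDom T b) X) mk c.p c.k0 K0) (wX (wDom T b) X)
      (fun n => acS fd (nearR c.p c.k0 n) (nbT T q))
      (fun n => emM (wX (wDom T b) X) (mk : Set (ℤ × ℤ)) (rr c.p c.k0 n))
      (KK c.p c.k0 δ a) := by
  have h1 := ev_rr_ge fun _ _ => max q Kc
  refine ((ev_std.and stepOK_ev).and h1).mono ?_
  rintro c ⟨⟨hs, CF, hCF, C1, H⟩, hr⟩
  refine ⟨hs, CF, hCF, ?_⟩
  intro D hD m p x y hx hinj hy hxy K0c hK0c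
  obtain ⟨δ0, hδ0, h2⟩ := cfg_steps hD hx hinj hy hxy K0c
  obtain ⟨δ1, hδ1, h3⟩ := h2 (C1 + 33)
  refine ⟨δ0, hδ0, δ1, hδ1, fun δ hδ hδ' => ?_⟩
  filter_upwards [h3 δ hδ hδ' c.p c.k0] with a ha
  rintro X hX mk hmk T rfl b A hA hA2 K0 hOK h0
  refine Good.ctl_cfg H hs hA hA2 (hK0c.trans ((le_max_right _ _).trans (hr 0)))
    ((le_max_left _ _).trans (hr 0)) (fun k hk => ?_) hOK h0
  exact ha X hX (mk : Set (ℤ × ℤ)) (fun u hu => hmk u hu) k hk

/-- the flow of a domain is a system of `GSys_387` -/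
theorem domF_eq (c : Cst) (P : MPar) (T : Finset (ℤ × ℤ)) (b : BoundaryCondition) {m : ℕ}
    (X : Fin m → ℤ × ℤ) : domF c P T b X =
      sys DD (wX (wDom (T : Set (ℤ × ℤ)) (isF b)) X) ∅ c.p c.k0
        ((Bg.dom T b X).K0 P LinearMap.id (noSrc ℤ (Ge (Fld ℤ))) c.p c.k0) := rfl

theorem domF_OK {c : Cst} (h5 : 5 ≤ c.p * (c.k0 + 1)) (P : MPar) (T : Finset (ℤ × ℤ))
    (b : BoundaryCondition) {m : ℕ} (X : Fin m → ℤ × ℤ) :
    (sys DD (wX (wDom (T : Set (ℤ × ℤ)) (isF b)) X) ∅ c.p c.k0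
        ((Bg.dom T b X).K0 P LinearMap.id (noSrc ℤ (Ge (Fld ℤ))) c.p c.k0)).OK ⊥ :=
  SpinDomx432.fl_OK c P (Bg.dom T b X) h5

theorem domF_supp {c : Cst} (h6 : 1 ≤ nearR c.p c.k0 0) {P : MPar} {q : ℕ}
    (hq : 2 * P.R + 1 ≤ q) (hq2 : 2 ≤ q) (T : Finset (ℤ × ℤ))
    (b : BoundaryCondition) {m : ℕ} (X : Fin m → ℤ × ℤ) (U : Finset (ℤ × ℤ))
    (hU : (Bg.dom T b X).K0 P LinearMap.id (noSrc ℤ (Ge (Fld ℤ))) c.p c.k0 U ≠ 0) :
    acS fd (nearR c.p c.k0 0) (nbT (T : Set (ℤ × ℤ)) q) U :=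
  DomAcx117.K0_acS LinearMap.id hq hq2 (fun k => k.elim0) h6 (fun k => k.elim0) U hU

/-- **the flows `domF` literally**, `q = 2 R + 2` -/
theorem ctl_domF_ev (R : ℕ) : EvC fun c => Std c ∧ ∃ CF : ℝ≥0∞, CF ≠ ∞ ∧
    ∀ (D : Set ℂ), IsC2JordanDomain D → ∀ (m : ℕ) (x : Fin m → ℂ),
    (∀ i, x i ∈ D) → Function.Injective x → ∃ δ1 > 0, ∀ δ, 0 < δ → δ ≤ δ1 →
    ∀ᶠ a : ℝ in 𝓝[>] 0, ∀ (T : Finset (ℤ × ℤ)), (T : Set (ℤ × ℤ)) = domainSites D a →
    ∀ (b : BoundaryCondition) (P : MPar), P.R ≤ R →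
    Ctl c CF (amp c) (domF c P T b (fun i => meshIndex a (x i)))
      (wX (wDom (T : Set (ℤ × ℤ)) (isF b)) (fun i => meshIndex a (x i)))
      (fun n => acS fd (nearR c.p c.k0 n) (nbT (T : Set (ℤ × ℤ)) (2 * R + 2)))
      (fun n => emM (wX (wDom (T : Set (ℤ × ℤ)) (isF b)) (fun i => meshIndex a (x i)))
        ((∅ : Finset (ℤ × ℤ)) : Set (ℤ × ℤ)) (rr c.p c.k0 n)) (KK c.p c.k0 δ a) ∧
    ∀ X0 : Fin 0 → ℤ × ℤ, Ctl c CF (amp c) (domF c P T b X0)
      (wX (wDom (T : Set (ℤ × ℤ)) (isF b)) X0)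
      (fun n => acS fd (nearR c.p c.k0 n) (nbT (T : Set (ℤ × ℤ)) (2 * R + 2)))
      (fun n => emM (wX (wDom (T : Set (ℤ × ℤ)) (isF b)) X0)
        ((∅ : Finset (ℤ × ℤ)) : Set (ℤ × ℤ)) (rr c.p c.k0 n)) (KK c.p c.k0 δ a) := by
  have h1 := ev_rr_ge fun _ _ => 6
  have h2 := ev_k0_ge fun _ _ => 5
  refine (((ctl_dom_ev (2 * R + 2) 0).and h1).and h2).mono ?_
  rintro c ⟨⟨⟨hs, CF, hCF, H⟩, hr⟩, hk0⟩
  refine ⟨hs, CF, hCF, ?_⟩
  intro D hD m x hx hinj
  obtain ⟨δ0, hδ0, δ1, hδ1, h3⟩ := H D hD m 0 x Fin.elim0 hx hinj (fun j => Fin.elim0 j)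
    (fun _ j => Fin.elim0 j) 0 (by simp)
  obtain ⟨δ0', hδ0', δ1', hδ1', h3'⟩ := H D hD 0 0 Fin.elim0 Fin.elim0 (fun j => Fin.elim0 j)
    (fun j => Fin.elim0 j) (fun j => Fin.elim0 j) (fun _ j => Fin.elim0 j) 0 (by simp)
  refine ⟨min δ1 δ1', lt_min hδ1 hδ1', fun δ hδ hδ' => ?_⟩
  have h4 : ∀ᶠ a : ℝ in 𝓝[>] 0, 2 * a ≤ δ0 := by
    filter_upwards [Ioo_mem_nhdsGT (show (0 : ℝ) < δ0 / 2 by positivity)] with a ha
    linarith [ha.2]
  have h5 : 5 ≤ c.p * (c.k0 + 1) := by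
    have := hs.p_pos
    nlinarith
  have h6 : 1 ≤ nearR c.p c.k0 0 := by
    have h7 := hr 0
    have h8 := rr_succ c.p c.k0 0
    have h9 : 2 ^ 4 ≤ 2 ^ c.p := Nat.pow_le_pow_right (by norm_num) hs.p_pos
    unfold nearR
    have h10 : 2 ^ 4 * 6 ≤ rr c.p c.k0 (0 + 1) := by
      rw [h8]; exact Nat.mul_le_mul h9 h7
    omega
  filter_upwards [h3 δ hδ (hδ'.trans (min_le_left _ _)), h3' δ hδ (hδ'.trans (min_le_right _ _)),
    h4, self_mem_nhdsWithin] with a ha ha' ha4 ha0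
  intro T hT b P hP
  have hq1 : 2 * P.R + 1 ≤ 2 * R + 2 := by omega
  have hq2 : 2 ≤ 2 * R + 2 := by omega
  constructor
  · have h7 := ha (fun i => meshIndex a (x i))
      (fun i => (GeoGx65.norm_meshPoint_meshIndex ha0 (x i)).trans ha4) ∅ (by simp)
      (T : Set (ℤ × ℤ)) hT (isF b) (amp c) (amp_ge hs) (amp_le_two hs)
      ((Bg.dom T b fun i => meshIndex a (x i)).K0 P LinearMap.id (noSrc ℤ (Ge (Fld ℤ))) c.p c.k0)
      (domF_OK h5 P T b _) (domF_supp h6 hq1 hq2 T b _)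
    rw [domF_eq]
    exact h7
  · intro X0
    have h7 := ha' X0 (fun i => Fin.elim0 i) ∅ (by simp)
      (T : Set (ℤ × ℤ)) hT (isF b) (amp c) (amp_ge hs) (amp_le_two hs)
      ((Bg.dom T b X0).K0 P LinearMap.id (noSrc ℤ (Ge (Fld ℤ))) c.p c.k0)
      (domF_OK h5 P T b _) (domF_supp h6 hq1 hq2 T b _)
    rw [domF_eq]
    exact h7

end Crest.Agent.R165.StepDomx838
end
end

-- ▼ part R165/SrcDomI_697
section

/-!
# Row 165 (S0250), leaf P11: the remainders of the `C²` domains (helper697)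

* `genH_dom` : the inputs `GenH` (helper359) at one mesh
* `sA_dom` : **the total norms of the remainders of all `C²` Jordan domains**, all scales
-/

set_option autoImplicit false
set_option linter.unusedSectionVars false
set_option linter.unusedVariables false

noncomputable section

namespace Crest.Agent.R165.SrcDomx697

open Finset Filter Topology
open scoped ENNReal
open Crest.ProbabilityR.IsingModel
open Crest.Agent.R165.Geo (LatReg bdS)
open Crest.Agent.R165.PNormx417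
open Crest.Agent.R165.Gr0x606 Crest.Agent.R165.Gr1x606 Crest.Agent.R165.GeOpsx337
  Crest.Agent.R165.ExpGx337 Crest.Agent.R165.KFlowx337
open Crest.Agent.R165.Latx683 (BW wDom wX IsCov covS Fld HE Aop)
open Crest.Agent.R165.GDefx387 Crest.Agent.R165.GSysx387 Crest.Agent.R165.FRDPolyx439
  Crest.Agent.R165.BgIsox432 Crest.Agent.R165.PStepx417
open Crest.Agent.R165.Bkgx683 (MPar mpar Bg cor bondSrc)
open Crest.Agent.R165.Outx683 (DD amp PF)
open Crest.Agent.R165.PEndx683 (Cst ForP NearP EvC EvC.mono EvC.and)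
open Crest.Agent.R165.J4Geox126 (faE)
open Crest.Agent.R165.JRunSx408 (SrcOK eb xb q_run q0_run VolS)
open Crest.Agent.R165.SrcInsx991
open Crest.Agent.R165.SrcLimx697
open Crest.Agent.R165.GeoScx420 (KK_tendsto)
open Crest.Agent.R165.SrcGeox485 (DomEv domEv)
open Crest.Agent.R165.EnFinex811 (FineAt)
open Crest.Agent.R165.SRdomAx900 (Lam)
open Crest.Agent.R165.SRdomx900 (Basic ev_basic amp_tendsto)
open Crest.Agent.R165.U5Px422 (TT)
open Crest.Agent.R165.Scalex900 (lastK)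
open Crest.Agent.R165.SrcGenx359 (GenH C2c sA_gen)
open Crest.Agent.R165.Compx889 (DomCfg Ctl NPc Str ev_domCfg coe_TT)
open Crest.Agent.R165.Constx891 (Std)
open Crest.Agent.R165.DefRecx915 Crest.Agent.R165.NSumx915
open Crest.Agent.R165.ZeEbx922 (zE)
open Crest.Agent.R165.Centx541 Crest.Agent.R165.Redx541 Crest.Agent.R165.Symx541
  Crest.Agent.R165.Red2x541 Crest.Agent.R165.Topx683 Crest.Agent.R165.SRx541

local notation "KA" => Crest.Agent.R165.GeoScx420.KK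

theorem ofReal_half_pow {M : ℝ} (hM : 0 ≤ M) (k : ℕ) :
    ENNReal.ofReal (M * (1 / 2) ^ k) = ENNReal.ofReal M * (1 / 2) ^ k := by
  rw [ENNReal.ofReal_mul hM, ENNReal.ofReal_pow (by norm_num)]
  congr 2
  rw [ENNReal.ofReal_div_of_pos (by norm_num)]
  simp

/-- **the inputs of the recursion at one mesh** -/
theorem genH_dom {c : Cst} {CF : ℝ≥0∞} {Cg0 C1 R : ℕ} {P : MPar} {D : Set ℂ}
    {b : BoundaryCondition} {n m : ℕ} {x : Fin n → ℂ} {y : Fin m → ℂ} {j : Fin m → Fin 2}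
    {Cg Cv d a : ℝ} {ac em : ℕ → Finset (ℤ × ℤ) → Prop} {M0 : ℝ} (hM0 : 0 ≤ M0)
    (hC1 : C2c c ≤ C1) (h : DomEv c R C1 D b x y j Cg Cv d a)
    (hcfg : DomCfg c Cg0 (TT D a) (xb a x) ∅ (KA c.p c.k0 d a))
    (hctl : Ctl c CF (amp c) (Outx683.domF c P (TT D a) b (xb a x))
      (wX (wDom ((TT D a : Finset (ℤ × ℤ)) : Set (ℤ × ℤ)) (Bkgx683.isF b)) (xb a x)) ac em
      (KA c.p c.k0 d a))
    (hnk : ∀ k ≤ KA c.p c.k0 d a, NPc c (Outx683.domF c P (TT D a) b (xb a x))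
      (wX (wDom ((TT D a : Finset (ℤ × ℤ)) : Set (ℤ × ℤ)) (Bkgx683.isF b)) (xb a x)) (amp c) allP
      k ≤ ENNReal.ofReal (M0 * (1 / 2) ^ k)) :
    GenH c Cg0 P (TT D a) b (xb a x) (eb a y j) CF (ENNReal.ofReal M0) (KA c.p c.k0 d a) := by
  have hT : ((TT D a : Finset (ℤ × ℤ)) : Set (ℤ × ℤ)) = domainSites D a := by
    rw [h.tt, Set.Finite.coe_toFinset]
  have hmono : ∀ k < KA c.p c.k0 d a, rr c.p c.k0 (k + 1) ≤ rr c.p c.k0 (KA c.p c.k0 d a) :=
    fun k hk => rr_mono c.p c.k0 hk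
  refine ⟨?_, fun k hk => ⟨_, hcfg.sep.mono ?_⟩, fun k hk => ?_, fun k hk => ?_, fun k hk => ?_⟩
  · obtain ⟨ρ, κ, h1, h2, h3⟩ := hcfg.reg
    refine ⟨ρ, κ, h1, h2, fun k hk => le_trans (mul_le_mul_of_nonneg_left ?_ (Nat.cast_nonneg _)) h3⟩
    exact_mod_cast hmono k hk
  · exact Nat.mul_le_mul_left _ (hmono k hk)
  · rw [hT]
    exact (h.ch k hk).mono (Nat.mul_le_mul_right _ hC1)
  · refine ((BulkHAx915.bulk_HA hctl.str hk (hctl.step k hk)).1).trans ?_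
    refine mul_le_mul_right ?_ CF
    rw [← ofReal_half_pow hM0]
    exact hnk k hk.le
  · refine ((BulkHAx915.bulk_HA hctl.str hk (hctl.step k hk)).2).trans ?_
    refine mul_le_mul_right ?_ CF
    rw [← ofReal_half_pow hM0]
    exact hnk k hk.le

/-- **the total norms of the remainders of all `C²` Jordan domains**, all scales up to the last one,
any number of sources -/
theorem sA_dom {J : ℝ} {R : ℕ} {V : Finset (ℤ × ℤ) → ℝ} (hV : VHyp R V) :
    EvC fun c => Std c ∧ ∃ T1 > 0, ∀ C : ℝ, ∃ ε > 0, ∃ M > 0, ∀ lam β z : ℝ, |lam| < ε →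
      NearP J C lam β z → PF J R V C c lam β z → (∀ k, |zE J R V c lam β z 0 k| ≤ 2) →
      ∀ C1 : ℕ, C2c c ≤ C1 → ∀ D : Set ℂ, IsC2JordanDomain D →
      ∀ (b : BoundaryCondition) (n m : ℕ), 1 ≤ m →
      ∀ (x : Fin n → ℂ) (y : Fin m → ℂ) (j : Fin m → Fin 2), (∀ i, x i ∈ D) →
      Function.Injective x → ∃ d2 > 0, ∀ d : ℝ, 0 < d → d ≤ d2 → ∀ᶠ a : ℝ in 𝓝[>] 0,
      ∀ Cg Cv : ℝ, DomEv c (max R 1) C1 D b x y j Cg Cv d a →
      ∀ (he : ∀ i, (Bg.dom (TT D a) b (xb a x)).w (eb a y j i).1 (eb a y j i).2 ≠ 0) (t : ℝ),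
      0 < t → m * t ≤ T1 → ∀ k ≤ KA c.p c.k0 d a,
        SrcFlowx54.totP c (Bg.dom (TT D a) b (xb a x)) (mpar J lam R V β z) (eb a y j) he t k ≤
          ENNReal.ofReal (M * |lam| * (m * t) * (1 / 2) ^ k) := by
  obtain ⟨Cb, A, h0⟩ := sA_gen (J := J) hV
  refine (EvC.and h0 (EvC.and (Compx889.dom_bd (SpPLx67.symL (J := J) hV))
    (StepDomx838.ctl_domF_ev (max R 1)))).mono fun c hc => ?_
  obtain ⟨⟨hs, h5, hnr, Cg0, hG, T1, hT1, hgen⟩, hbd, -, CF, hCF, hctl⟩ := hc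
  refine ⟨hs, T1, hT1, fun C => ?_⟩
  obtain ⟨ε₂, hε₂, Mb, hMb, h2⟩ := hbd C
  obtain ⟨ε₁, hε₁, M, hM, h1⟩ := hgen C CF hCF Mb hMb
  refine ⟨min ε₁ ε₂, lt_min hε₁ hε₂, M, hM, fun lam β z hl hn hp hz C1 hC1 D hD b n m hm x y j hx
    hinj => ?_⟩
  obtain ⟨d1, hd1, e1⟩ := h2 lam β z (hl.trans_le (min_le_right _ _)) hn hp D hD b n x hx hinj
  obtain ⟨d2, hd2, e2⟩ := hctl D hD n x hx hinj
  obtain ⟨d3, hd3, e3⟩ := ev_domCfg c Cg0 hD hx hinj
  refine ⟨min d1 (min d2 d3), lt_min hd1 (lt_min hd2 hd3), fun d hd hdd => ?_⟩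
  filter_upwards [e1 d hd (hdd.trans (min_le_left _ _)),
    e2 d hd (hdd.trans ((min_le_right _ _).trans (min_le_left _ _))),
    e3 d hd (hdd.trans ((min_le_right _ _).trans (min_le_right _ _)))] with a g1 g2 g3
  intro Cg Cv hev he t ht hmt k hk
  have hT : ((TT D a : Finset (ℤ × ℤ)) : Set (ℤ × ℤ)) = domainSites D a := by
    rw [hev.tt, Set.Finite.coe_toFinset]
  have hKA : KA c.p c.k0 d a = lastK c.p c.k0 (d * a⁻¹) := by
    rw [GeoScx420.KK, div_eq_mul_inv]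
  refine h1 lam β z (hl.trans_le (min_le_left _ _)) hn hz (TT D a) b n m (xb a x) (eb a y j)
    (KA c.p c.k0 d a) hm ?_ he t ht hmt k hk
  refine genH_dom (by positivity) hC1 hev (by rw [hKA]; exact g3)
    (g2 (TT D a) hT b (mpar J lam R V β z) le_rfl).1 fun k hk => ?_
  rw [hKA] at hk
  exact g1.nk k hk

end Crest.Agent.R165.SrcDomx697
end
end

-- ▼ part R165/PlBond_898
section

/-!
# Row 165 (S0250), (Q2a) of 697: the sum of all slices of the critical plane (helper898)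

* `sl D j g h`      : the kernel of the slice `j` on the plane
* `abs_sl_le`       : `|sl j g h| ≤ c1² / 2^j`;  `sl_range` : `sl j g h = 0` when `2^j < fd g h`
* `hasSum_sl`       : `∑_j sl j g h = Spl g h` (the plane kernel of 583/654)
* `hasSum_slC`      : the same for the blocks `slC D (wPl ℤ) l k0 k`, with the rate
* `hasSum_plane`    : `∑_k EEG (slC ..) (beB (wPl ℤ) (z, j)) = e0 - 1`
-/

set_option autoImplicit false

noncomputable section

namespace Crest.Agent.R165.PlBondx898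

open scoped ENNReal
open Filter Topology Polynomial
open Crest.Agent.R165.Gr0x606 Crest.Agent.R165.Latx683 Crest.Agent.R165.PNormx417
  Crest.Agent.R165.GDefx387 Crest.Agent.R165.FRDAbsx439 Crest.Agent.R165.FRDPolyx439
  Crest.Agent.R165.FRDInfx439 Crest.Agent.R165.FRDLatx439 Crest.Agent.R165.GSysx387
open Crest.Agent.R165.Pl0bx654 (dec dec_pos)

theorem wPl_le1 (z : ℤ × ℤ) (j : Fin 2) : |wPl ℤ z j| ≤ 1 := by
  show |xc| ≤ 1
  rw [abs_of_pos Pl0x654.xc_pos]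
  exact Tr1x40.xc_lt_one.le

variable {M K : ℕ} (D : FRD 16 M K)

/-! ### pointwise bound of the slices -/

theorem pair_dl (h : HE ℤ) (f : HE ℤ → ℝ) : pair (Finsupp.single h 1 : Fld ℤ) f = f h := by
  unfold pair
  rw [Finsupp.sum_single_index (by simp), one_mul]

theorem sup1_single (h : HE ℤ) {r : ℕ} (hr : 1 ≤ r) :
    sup1 (wPl ℤ) r h.1 (Finsupp.single h 1) ≤ ENNReal.ofReal (16 * 10 ^ 9 / (r : ℝ)) := by
  refine iSup_le fun f => ENNReal.ofReal_le_ofReal ?_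
  rw [pair_dl]
  exact (BkFinx806.SB_of h.1 r hr f.1 f.2).f0 h (mem_ball.2 (by simp))

/-- constant of the pointwise bound -/
def c1 : ℝ := 7 * √(D.C * 2) * (16 * 10 ^ 9)

theorem c1_nonneg : 0 ≤ c1 D := by unfold c1; positivity

theorem sqrt_gB_le (hM : MM + 1 ≤ M) (j : ℕ) (h : HE ℤ) :
    √(gB D (wPl ℤ) j (j + 1) (Finsupp.single h 1) (Finsupp.single h 1)) ≤
      c1 D / √((2 : ℝ) ^ j) := by
  have hC := D.C_pos
  have h1 := gw_le_wt D hM (wPl ℤ) (AopF_bdd _ wPl_le1) j (j + 1) (2 ^ j) 2 le_rfl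
    (by push_cast; rw [pow_succ]; linarith) one_pos h.1 (Finsupp.single h 1)
  rw [gw, wt_eq] at h1
  have h2 := sup1_single h (r := 2 ^ j) Nat.one_le_two_pow
  have h3 := h1.trans (mul_le_mul_right (mul_le_mul_right h2 _) _)
  rw [← ENNReal.ofReal_mul (by positivity), ← ENNReal.ofReal_mul (by positivity)] at h3
  have h4 := (ENNReal.ofReal_le_ofReal_iff (by positivity)).1 h3
  refine h4.trans (le_of_eq ?_)
  unfold c1
  push_cast
  have h5 : (2 : ℝ) ^ j = √((2 : ℝ) ^ j) * √((2 : ℝ) ^ j) := (Real.mul_self_sqrt (by positivity)).symm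
  have h6 : √((2 : ℝ) ^ j) ≠ 0 := (Real.sqrt_pos.2 (by positivity)).ne'
  have h7 : 1 * √((2 : ℝ) ^ j) * (16 * 10 ^ 9 / (2 : ℝ) ^ j) = 16 * 10 ^ 9 / √((2 : ℝ) ^ j) := by
    conv_lhs => rw [h5]
    rw [Real.sqrt_mul_self (Real.sqrt_nonneg _)]
    field_simp
  rw [h7]
  ring

/-- the kernel of the slice `j` -/
def sl (j : ℕ) (g h : HE ℤ) : ℝ :=
  (slice D (AopF_asy (wPl ℤ)) j).b (Finsupp.single g 1) (Finsupp.single h 1)

theorem gB_one (j : ℕ) : gB D (wPl ℤ) j (j + 1) = gform (preF (HE ℤ)) D (AopF (wPl ℤ)) j := by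
  unfold gB
  rw [Nat.Ico_succ_singleton, Finset.sum_singleton]

theorem abs_sl_le (hM : MM + 1 ≤ M) (j : ℕ) (g h : HE ℤ) : |sl D j g h| ≤ c1 D ^ 2 / 2 ^ j := by
  have h1 := slice_le D (AopF_asy (wPl ℤ)) (AopF_bdd _ wPl_le1) j (Finsupp.single g 1)
    (Finsupp.single h 1)
  have hg := sqrt_gB_le D hM j g
  have hh := sqrt_gB_le D hM j h
  rw [gB_one] at hg hh
  refine h1.trans ((mul_le_mul hg hh (Real.sqrt_nonneg _) (div_nonneg (c1_nonneg D)
    (Real.sqrt_nonneg _))).trans (le_of_eq ?_))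
  rw [div_mul_div_comm, Real.mul_self_sqrt (by positivity), sq]


theorem SopC_eq_sum (a b : ℕ) (g h : HE ℤ) :
    (SopC D (wPl ℤ) a b).b (Finsupp.single g 1) (Finsupp.single h 1) =
      ∑ j ∈ Finset.Ico a b, sl D j g h := by
  unfold SopC sl
  rw [cov_sum_b]

theorem sl_eq_SopC (j : ℕ) (g h : HE ℤ) : sl D j g h =
    (SopC D (wPl ℤ) j (j + 1)).b (Finsupp.single g 1) (Finsupp.single h 1) := by
  rw [SopC_eq_sum, Nat.Ico_succ_singleton, Finset.sum_singleton]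

theorem sl_range (hK : 0 < K) (j : ℕ) {g h : HE ℤ} (hd : 2 ^ j < fd g.1 h.1) : sl D j g h = 0 := by
  rw [sl_eq_SopC]
  refine GRangex439.SopC_eq_zero D hK (wPl ℤ) _ _ fun x y hx hy => ?_
  have ex : x = g := by
    by_contra hne
    exact hx (Finsupp.single_eq_of_ne hne)
  have ey : y = h := by
    by_contra hne
    exact hy (Finsupp.single_eq_of_ne hne)
  subst ex ey
  have : 2 ^ (j + 1 - 1) / K ≤ 2 ^ j := by
    rw [Nat.add_sub_cancel]
    exact Nat.div_le_self _ _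
  omega

/-! ### the sum of the slices -/

theorem hasSum_geo (c : ℝ) (J : ℕ) : HasSum (fun j : ℕ => c / 2 ^ (j + J)) (2 * c / 2 ^ J) := by
  have h := hasSum_geometric_two' (2 * c / 2 ^ J)
  refine h.congr_fun ?_ |> fun h => h
  intro j
  rw [pow_add]
  field_simp

theorem summable_sl (hM : MM + 1 ≤ M) (g h : HE ℤ) : Summable fun j => sl D j g h := by
  refine Summable.of_norm_bounded (g := fun j : ℕ => c1 D ^ 2 / 2 ^ (j + 0))
    (hasSum_geo _ 0).summable fun j => ?_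
  rw [Real.norm_eq_abs, add_zero]
  exact abs_sl_le D hM j g h

/-- the sum of all slices -/
def SI (g h : HE ℤ) : ℝ := ∑' j, sl D j g h

theorem SI_tail (hM : MM + 1 ≤ M) (J : ℕ) (g h : HE ℤ) :
    |SI D g h - ∑ j ∈ Finset.range J, sl D j g h| ≤ 2 * c1 D ^ 2 / 2 ^ J := by
  have h1 := (summable_sl D hM g h).sum_add_tsum_nat_add J
  have h2 : SI D g h - ∑ j ∈ Finset.range J, sl D j g h = ∑' j, sl D (j + J) g h := by
    unfold SI
    linarith
  rw [h2, ← Real.norm_eq_abs]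
  refine tsum_of_norm_bounded (hasSum_geo (c1 D ^ 2) J) fun j => ?_
  rw [Real.norm_eq_abs]
  exact abs_sl_le D hM _ g h


theorem tendsto_SI (hM : MM + 1 ≤ M) (g h : HE ℤ) :
    Tendsto (fun J => ∑ j ∈ Finset.range J, sl D j g h) atTop (𝓝 (SI D g h)) :=
  (summable_sl D hM g h).hasSum.tendsto_sum_nat

theorem SI_bound (hM : MM + 1 ≤ M) (hK : 0 < K) (g h : HE ℤ) :
    |SI D g h| ≤ 4 * c1 D ^ 2 / (1 + fd g.1 h.1) := by
  have hc := sq_nonneg (c1 D)
  rcases Nat.eq_zero_or_pos (fd g.1 h.1) with h0 | h0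
  · have h1 := SI_tail D hM 0 g h
    rw [h0]
    simp only [Finset.range_zero, Finset.sum_empty, sub_zero, pow_zero, div_one] at h1
    simp only [Nat.cast_zero, add_zero, div_one]
    linarith
  · set d := fd g.1 h.1 with hd
    have h1 := SI_tail D hM (Nat.clog 2 d) g h
    have h2 : ∑ j ∈ Finset.range (Nat.clog 2 d), sl D j g h = 0 := by
      refine Finset.sum_eq_zero fun j hj => sl_range D hK j ?_
      rw [Finset.mem_range] at hj
      exact (Nat.lt_clog_iff_pow_lt (by norm_num)).1 hj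
    have h3 : d ≤ 2 ^ Nat.clog 2 d := Nat.le_pow_clog (by norm_num) _
    rw [h2, sub_zero] at h1
    refine h1.trans ?_
    have h4 : (1 + d : ℝ) ≤ 2 * 2 ^ Nat.clog 2 d := by
      have : (d : ℝ) ≤ 2 ^ Nat.clog 2 d := by exact_mod_cast h3
      have : (1 : ℝ) ≤ 2 ^ Nat.clog 2 d := one_le_pow₀ (by norm_num)
      linarith
    rw [div_le_div_iff₀ (by positivity) (by positivity)]
    nlinarith

theorem dec_fd (g h : HE ℤ) : 1 / (1 + (fd g.1 h.1 : ℝ)) ≤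
    (2 * (1 + |(h.1.1 : ℝ)| + |(h.1.2 : ℝ)|)) * dec g := by
  unfold dec
  have hf : (fd g.1 h.1 : ℝ) = max |((g.1.1 : ℝ) - h.1.1)| |((g.1.2 : ℝ) - h.1.2)| := by
    have e : fd g.1 h.1 = max (g.1.1 - h.1.1).natAbs (g.1.2 - h.1.2).natAbs := rfl
    rw [e]
    push_cast [Nat.cast_natAbs]
    rfl
  rw [mul_one_div, div_le_div_iff₀ (by positivity) (by positivity), one_mul, hf]
  have h1 : |(g.1.1 : ℝ)| ≤ |((g.1.1 : ℝ) - h.1.1)| + |(h.1.1 : ℝ)| := by
    have := abs_add_le ((g.1.1 : ℝ) - h.1.1) (h.1.1 : ℝ)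
    rwa [sub_add_cancel] at this
  have h2 : |(g.1.2 : ℝ)| ≤ |((g.1.2 : ℝ) - h.1.2)| + |(h.1.2 : ℝ)| := by
    have := abs_add_le ((g.1.2 : ℝ) - h.1.2) (h.1.2 : ℝ)
    rwa [sub_add_cancel] at this
  have m1 := le_max_left |((g.1.1 : ℝ) - h.1.1)| |((g.1.2 : ℝ) - h.1.2)|
  have m2 := le_max_right |((g.1.1 : ℝ) - h.1.1)| |((g.1.2 : ℝ) - h.1.2)|
  have a1 := abs_nonneg ((g.1.1 : ℝ) - h.1.1)
  have a3 := abs_nonneg (h.1.1 : ℝ)
  have a4 := abs_nonneg (h.1.2 : ℝ)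
  set m := max |((g.1.1 : ℝ) - h.1.1)| |((g.1.2 : ℝ) - h.1.2)|
  have hm : 0 ≤ m := a1.trans m1
  nlinarith [mul_nonneg a3 hm, mul_nonneg a4 hm]

theorem SI_dec (hM : MM + 1 ≤ M) (hK : 0 < K) (h : HE ℤ) :
    (fun g => SI D g h) ∈ Pl0bx654.DecF := by
  refine ⟨4 * c1 D ^ 2 * (2 * (1 + |(h.1.1 : ℝ)| + |(h.1.2 : ℝ)|)), fun g => ?_⟩
  refine (SI_bound D hM hK g h).trans ?_
  have h1 := dec_fd g h
  have h2 : 4 * c1 D ^ 2 / (1 + (fd g.1 h.1 : ℝ)) = 4 * c1 D ^ 2 * (1 / (1 + (fd g.1 h.1 : ℝ))) := by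
    ring
  have h3 : (0 : ℝ) ≤ 4 * c1 D ^ 2 := mul_nonneg (by norm_num) (sq_nonneg _)
  rw [h2]
  refine (mul_le_mul_of_nonneg_left h1 h3).trans (le_of_eq ?_)
  rw [← mul_assoc]

/-! ### `A` on decaying functions and pointwise limits -/

theorem tendsto_Aop {ι : Type*} {F : Filter ι} (w : BW ℤ) {φ : ι → HE ℤ → ℝ} {ψ : HE ℤ → ℝ}
    (h : ∀ g, Tendsto (fun i => φ i g) F (𝓝 (ψ g))) (g : HE ℤ) :
    Tendsto (fun i => Aop w (φ i) g) F (𝓝 (Aop w ψ g)) := by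
  obtain ⟨f, d⟩ := g
  fin_cases d
  · exact (((h (f, 1)).add (h (f, 2))).add (h (f, 3))).add ((h ((f.1, f.2 - 1), 2)).const_mul _)
  · exact (((h (f, 0)).neg.add (h (f, 2))).add (h (f, 3))).add ((h ((f.1 + 1, f.2), 3)).const_mul _)
  · exact (((h (f, 0)).neg.sub (h (f, 1))).add (h (f, 3))).sub ((h ((f.1, f.2 + 1), 0)).const_mul _)
  · exact (((h (f, 0)).neg.sub (h (f, 1))).sub (h (f, 2))).sub ((h ((f.1 - 1, f.2), 1)).const_mul _)

theorem dec_nb {f f' : ℤ × ℤ} (h : fd f f' ≤ 1) (d d' : Fin 4) : dec (f', d') ≤ 3 * dec (f, d) := by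
  unfold dec
  have e : fd f f' = max (f.1 - f'.1).natAbs (f.2 - f'.2).natAbs := rfl
  rw [e, max_le_iff] at h
  have h1 : |f.1 - f'.1| ≤ 1 := by rw [Int.abs_eq_natAbs]; exact_mod_cast h.1
  have h2 : |f.2 - f'.2| ≤ 1 := by rw [Int.abs_eq_natAbs]; exact_mod_cast h.2
  have h3 : |(f.1 : ℝ) - f'.1| ≤ 1 := by exact_mod_cast h1
  have h4 : |(f.2 : ℝ) - f'.2| ≤ 1 := by exact_mod_cast h2
  have h5 : |(f.1 : ℝ)| ≤ |(f.1 : ℝ) - f'.1| + |(f'.1 : ℝ)| := by
    have := abs_add_le ((f.1 : ℝ) - f'.1) (f'.1 : ℝ)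
    rwa [sub_add_cancel] at this
  have h6 : |(f.2 : ℝ)| ≤ |(f.2 : ℝ) - f'.2| + |(f'.2 : ℝ)| := by
    have := abs_add_le ((f.2 : ℝ) - f'.2) (f'.2 : ℝ)
    rwa [sub_add_cancel] at this
  have a1 := abs_nonneg (f'.1 : ℝ)
  have a2 := abs_nonneg (f'.2 : ℝ)
  show 1 / (1 + |(f'.1 : ℝ)| + |(f'.2 : ℝ)|) ≤ 3 * (1 / (1 + |(f.1 : ℝ)| + |(f.2 : ℝ)|))
  rw [mul_one_div, div_le_div_iff₀ (by positivity) (by positivity)]
  linarith

theorem Aop_dec {w : BW ℤ} (hw : ∀ z j, |w z j| ≤ 1) {φ : HE ℤ → ℝ} (h : φ ∈ Pl0bx654.DecF) :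
    Aop w φ ∈ Pl0bx654.DecF := by
  obtain ⟨C, hC⟩ := h
  have hC0 : 0 ≤ C := by
    have h1 := (abs_nonneg _).trans (hC ((0, 0), 0))
    have h2 := dec_pos ((0, 0), 0)
    by_contra hneg
    push Not at hneg
    nlinarith
  have key : ∀ (f f' : ℤ × ℤ) (d d' : Fin 4), fd f f' ≤ 1 → |φ (f', d')| ≤ 3 * C * dec (f, d) := by
    intro f f' d d' hf
    refine (hC _).trans ?_
    have := mul_le_mul_of_nonneg_left (dec_nb hf d d') hC0
    linarith
  have hself : ∀ f : ℤ × ℤ, fd f f ≤ 1 := fun f => by simp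
  have four : ∀ a b c y e x : ℝ, |a| ≤ x → |b| ≤ x → |c| ≤ x → |y| ≤ 1 → |e| ≤ x →
      |a + b + c + y * e| ≤ 4 * x := by
    intro a b c y e x ha hb hc hy he
    have h1 : |y * e| ≤ x := by
      rw [abs_mul]
      have := abs_nonneg e
      nlinarith [abs_nonneg y]
    calc |a + b + c + y * e| ≤ |a + b + c| + |y * e| := abs_add_le _ _
      _ ≤ |a + b| + |c| + |y * e| := by gcongr; exact abs_add_le _ _
      _ ≤ |a| + |b| + |c| + |y * e| := by gcongr; exact abs_add_le _ _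
      _ ≤ 4 * x := by linarith
  have n1 : ∀ f : ℤ × ℤ, fd f (f.1, f.2 - 1) ≤ 1 := fun f =>
    GRangex439.fd_nb5 (by simp [nb5])
  have n2 : ∀ f : ℤ × ℤ, fd f (f.1 + 1, f.2) ≤ 1 := fun f =>
    GRangex439.fd_nb5 (by simp [nb5])
  have n3 : ∀ f : ℤ × ℤ, fd f (f.1, f.2 + 1) ≤ 1 := fun f =>
    GRangex439.fd_nb5 (by simp [nb5])
  have n4 : ∀ f : ℤ × ℤ, fd f (f.1 - 1, f.2) ≤ 1 := fun f =>
    GRangex439.fd_nb5 (by simp [nb5])
  refine ⟨4 * (3 * C), fun g => ?_⟩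
  obtain ⟨f, d⟩ := g
  rw [mul_assoc]
  fin_cases d
  · exact four _ _ _ _ _ _ (key f f 0 1 (hself f)) (key f f 0 2 (hself f)) (key f f 0 3 (hself f))
      (hw _ _) (key f _ 0 2 (n1 f))
  · refine four _ _ _ _ _ _ ?_ (key f f 1 2 (hself f)) (key f f 1 3 (hself f))
      (hw _ _) (key f _ 1 3 (n2 f))
    rw [abs_neg]
    exact key f f 1 0 (hself f)
  · have h1 : Aop w φ (f, 2) = -φ (f, 0) + -φ (f, 1) + φ (f, 3) +
        yN w f * -φ ((f.1, f.2 + 1), 0) := by rw [Aop_N]; ring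
    show |Aop w φ (f, 2)| ≤ _
    rw [h1]
    refine four _ _ _ _ _ _ ?_ ?_ (key f f 2 3 (hself f)) (hw _ _) ?_
    · rw [abs_neg]; exact key f f 2 0 (hself f)
    · rw [abs_neg]; exact key f f 2 1 (hself f)
    · rw [abs_neg]; exact key f _ 2 0 (n3 f)
  · have h1 : Aop w φ (f, 3) = -φ (f, 0) + -φ (f, 1) + -φ (f, 2) +
        yE w (f.1 - 1, f.2) * -φ ((f.1 - 1, f.2), 1) := by rw [Aop_W]; ring
    show |Aop w φ (f, 3)| ≤ _
    rw [h1]
    refine four _ _ _ _ _ _ ?_ ?_ ?_ (hw _ _) ?_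
    · rw [abs_neg]; exact key f f 3 0 (hself f)
    · rw [abs_neg]; exact key f f 3 1 (hself f)
    · rw [abs_neg]; exact key f f 3 2 (hself f)
    · rw [abs_neg]; exact key f _ 3 1 (n4 f)

/-! ### the equation of the sum of the slices -/

/-- `A S_J = r_J(Q) - 1` -/
theorem Aop_Sop (w : BW ℤ) (J : ℕ) :
    (Aop w : Module.End ℝ (HE ℤ → ℝ)) * Sop w D 0 J = aeval (Qop w) (D.r J) - 1 := by
  have h1 : Sop w D 0 J = (Aop w : Module.End ℝ (HE ℤ → ℝ)) *
      aeval (Qop w) (∑ j ∈ Finset.range J, D.w j) := by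
    unfold Sop slop
    rw [map_sum, Finset.mul_sum, Finset.range_eq_Ico]
  have h2 : aeval (Qop w) (X * ∑ j ∈ Finset.range J, D.w j) = 1 - aeval (Qop w) (D.r J) := by
    rw [D.X_mul_sum, map_sub, map_one]
  rw [map_mul, aeval_X] at h2
  rw [h1, ← mul_assoc]
  have h3 : (Aop w : Module.End ℝ (HE ℤ → ℝ)) * Aop w = -Qop w := by
    unfold Qop
    rw [neg_neg]
  have h4 : -Qop w * aeval (Qop w) (∑ j ∈ Finset.range J, D.w j) =
      -(Qop w * aeval (Qop w) (∑ j ∈ Finset.range J, D.w j)) := LinearMap.ext fun _ => rfl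
  rw [h3, h4, h2, neg_sub]

theorem sum_sl_eq (J : ℕ) (g h : HE ℤ) : ∑ j ∈ Finset.range J, sl D j g h =
    Sop (wPl ℤ) D 0 J ((Finsupp.single h 1 : Fld ℤ) : HE ℤ → ℝ) g := by
  rw [Finset.range_eq_Ico, ← SopC_eq_sum, SopC_apply, pair_dl]

/-- the kernel of the remainder -/
def rj (J : ℕ) (g h : HE ℤ) : ℝ :=
  aeval (Qop (wPl ℤ)) (D.r J) ((Finsupp.single h 1 : Fld ℤ) : HE ℤ → ℝ) g

theorem Aop_sum_sl (J : ℕ) (g h : HE ℤ) :
    Aop (wPl ℤ) (fun g => ∑ j ∈ Finset.range J, sl D j g h) g =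
      rj D J g h - (Finsupp.single h 1 : Fld ℤ) g := by
  have h1 : (fun g => ∑ j ∈ Finset.range J, sl D j g h) =
      Sop (wPl ℤ) D 0 J ((Finsupp.single h 1 : Fld ℤ) : HE ℤ → ℝ) :=
    funext fun g => sum_sl_eq D J g h
  rw [h1]
  have h2 := congrArg (fun T : Module.End ℝ (HE ℤ → ℝ) =>
    T ((Finsupp.single h 1 : Fld ℤ) : HE ℤ → ℝ) g) (Aop_Sop D (wPl ℤ) J)
  exact h2

/-- the limit of the remainder -/
def rI (g h : HE ℤ) : ℝ := Aop (wPl ℤ) (fun g => SI D g h) g + (Finsupp.single h 1 : Fld ℤ) g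

theorem tendsto_rj (hM : MM + 1 ≤ M) (g h : HE ℤ) :
    Tendsto (fun J => rj D J g h) atTop (𝓝 (rI D g h)) := by
  have h1 := tendsto_Aop (wPl ℤ) (φ := fun J g => ∑ j ∈ Finset.range J, sl D j g h)
    (fun g => tendsto_SI D hM g h) g
  have h2 : ∀ J, rj D J g h = Aop (wPl ℤ) (fun g => ∑ j ∈ Finset.range J, sl D j g h) g +
      (Finsupp.single h 1 : Fld ℤ) g := fun J => by
    rw [Aop_sum_sl]; ring
  simp_rw [h2]
  exact h1.add tendsto_const_nhds

theorem X_mul_r_le (hM : 1 ≤ M) (J : ℕ) (t : ℝ) (h0 : 0 ≤ t) (h1 : t ≤ 16) :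
    (X * D.r J).eval t ≤ (C (D.C / 4 ^ J) * 1).eval t := by
  have h2 := D.r_le J t h0 h1
  have h3 : (4 : ℝ) ^ J * t ≤ (1 + 4 ^ J * t) ^ M := by
    have h4 : (1 : ℝ) ≤ 1 + 4 ^ J * t := by
      have : (0 : ℝ) ≤ 4 ^ J * t := by positivity
      linarith
    calc (4 : ℝ) ^ J * t ≤ (1 + 4 ^ J * t) ^ 1 := by linarith
      _ ≤ (1 + 4 ^ J * t) ^ M := pow_le_pow_right₀ h4 hM
  have h5 := D.r_nonneg J t h0 h1
  have h6 : (D.r J).eval t * (4 ^ J * t) ≤ D.C := (mul_le_mul_of_nonneg_left h3 h5).trans h2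
  simp only [eval_mul, eval_X, eval_C, mul_one]
  rw [le_div_iff₀ (by positivity)]
  linarith

theorem abs_Q_rj (hM : 1 ≤ M) (J : ℕ) (g h : HE ℤ) :
    |Qop (wPl ℤ) (fun g => rj D J g h) g| ≤ D.C / 4 ^ J := by
  have hC := D.C_pos
  have e1 : (fun g => rj D J g h) =
      aeval (Qop (wPl ℤ)) (D.r J) ((Finsupp.single h 1 : Fld ℤ) : HE ℤ → ℝ) := rfl
  have e2 : Qop (wPl ℤ) (fun g => rj D J g h) =
      aeval (Qop (wPl ℤ)) (X * D.r J) ((Finsupp.single h 1 : Fld ℤ) : HE ℤ → ℝ) := by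
    rw [e1, map_mul, aeval_X, Module.End.mul_apply]
  have e3 : Qop (wPl ℤ) (fun g => rj D J g h) g =
      BP (preF (HE ℤ)) (QA (AopF (wPl ℤ))) (X * D.r J) (Finsupp.single g 1)
        (Finsupp.single h 1) := by
    rw [e2, aeval_Qop_coe, BP_apply, preF_ip, dotF_single, one_mul]
  have hab := (AopF_bdd (wPl ℤ) wPl_le1).btw (AopF_asy (wPl ℤ))
  have hs := (AopF_asy (wPl ℤ)).sy
  have hp : ∀ t : ℝ, 0 ≤ t → t ≤ 16 → 0 ≤ (X * D.r J).eval t := fun t h0 h1 => by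
    rw [eval_mul, eval_X]
    exact mul_nonneg h0 (D.r_nonneg J t h0 h1)
  have h1 := BP_abs_le hs hab (X * D.r J) hp (Finsupp.single g 1) (Finsupp.single h 1)
  have h2 : ∀ g : HE ℤ, BP (preF (HE ℤ)) (QA (AopF (wPl ℤ))) (X * D.r J) (Finsupp.single g 1)
      (Finsupp.single g 1) ≤ D.C / 4 ^ J := by
    intro g
    refine (BP_mono hs hab _ _ (fun t h0 h1 => X_mul_r_le D hM J t h0 h1) _).trans (le_of_eq ?_)
    rw [BP_smul, BP_one, preF_ip, dotF_single, Finsupp.single_eq_same]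
    ring
  rw [e3]
  refine h1.trans ((mul_le_mul (Real.sqrt_le_sqrt (h2 g)) (Real.sqrt_le_sqrt (h2 h))
    (Real.sqrt_nonneg _) (Real.sqrt_nonneg _)).trans (le_of_eq ?_))
  exact Real.mul_self_sqrt (by positivity)

theorem Q_rI (hM : MM + 1 ≤ M) (g h : HE ℤ) : Qop (wPl ℤ) (fun g => rI D g h) g = 0 := by
  have h1 : Tendsto (fun J => Qop (wPl ℤ) (fun g => rj D J g h) g) atTop
      (𝓝 (Qop (wPl ℤ) (fun g => rI D g h) g)) := by
    show Tendsto (fun J => -Aop (wPl ℤ) (Aop (wPl ℤ) (fun g => rj D J g h)) g) atTop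
      (𝓝 (-Aop (wPl ℤ) (Aop (wPl ℤ) (fun g => rI D g h)) g))
    exact (tendsto_Aop _ (fun g => tendsto_Aop _ (fun g => tendsto_rj D hM g h) g) g).neg
  have h2 : Tendsto (fun J => Qop (wPl ℤ) (fun g => rj D J g h) g) atTop (𝓝 0) := by
    have h3 := (tendsto_pow_atTop_nhds_zero_of_lt_one (r := (1 / 4 : ℝ)) (by norm_num)
      (by norm_num)).const_mul D.C
    rw [mul_zero] at h3
    refine squeeze_zero_norm (fun J => ?_) h3
    rw [Real.norm_eq_abs, one_div, inv_pow, ← div_eq_mul_inv]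
    exact abs_Q_rj D (le_trans (by unfold MM; norm_num) hM) J g h
  exact tendsto_nhds_unique h1 h2

theorem crit_pl : Pl0x654.Crit (wPl ℤ) := fun _ _ => rfl

theorem single_dec (h : HE ℤ) : ((Finsupp.single h 1 : Fld ℤ) : HE ℤ → ℝ) ∈ Pl0bx654.DecF := by
  refine ⟨1 / dec h, fun g => ?_⟩
  have hd := dec_pos h
  have hg := dec_pos g
  by_cases e : g = h
  · subst e
    rw [Finsupp.single_eq_same, abs_one, one_div, inv_mul_cancel₀ hd.ne']
  · rw [Finsupp.single_eq_of_ne e, abs_zero]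
    positivity

theorem zero_of_dec {φ : HE ℤ → ℝ} (h : φ ∈ Pl0bx654.DecF) (hA : ∀ g, Aop (wPl ℤ) φ g = 0) :
    φ = 0 := by
  obtain ⟨C, hC⟩ := h
  exact Pl0x654.uniq_of_bound crit_pl φ C hC hA

theorem rI_zero (hM : MM + 1 ≤ M) (hK : 0 < K) (g h : HE ℤ) : rI D g h = 0 := by
  have h1 : (fun g => rI D g h) ∈ Pl0bx654.DecF :=
    Pl0bx654.DecF.add_mem (Aop_dec wPl_le1 (SI_dec D hM hK h)) (single_dec h)
  have h2 := Aop_dec wPl_le1 h1
  have h3 : Aop (wPl ℤ) (fun g => rI D g h) = 0 := by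
    refine zero_of_dec h2 fun g => ?_
    have := Q_rI D hM g h
    have e : Qop (wPl ℤ) (fun g => rI D g h) g =
      -Aop (wPl ℤ) (Aop (wPl ℤ) (fun g => rI D g h)) g := rfl
    rw [e, neg_eq_zero] at this
    exact this
  have h4 := zero_of_dec h1 fun g => congrFun h3 g
  exact congrFun h4 g

/-- **the sum of all slices of the plane is the plane kernel** -/
theorem SI_eq (hM : MM + 1 ≤ M) (hK : 0 < K) (g h : HE ℤ) : SI D g h = Pl0bx654.Spl g h := by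
  have h1 : (fun g => SI D g h) - (fun g => Pl0bx654.Spl g h) ∈ Pl0bx654.DecF :=
    Pl0bx654.DecF.sub_mem (SI_dec D hM hK h) (Pl0bx654.plKer_SP.bound h)
  have h2 := zero_of_dec h1 fun g => by
    have e1 := rI_zero D hM hK g h
    unfold rI at e1
    have e2 := Pl0bx654.Spl_inv h g
    rw [map_sub, Pi.sub_apply, e2]
    rw [Finsupp.single_apply] at e1
    simp only [eq_comm (a := h)] at e1
    linarith
  have h3 := congrFun h2 g
  rw [Pi.sub_apply, Pi.zero_apply, sub_eq_zero] at h3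
  exact h3

theorem hasSum_sl (hM : MM + 1 ≤ M) (hK : 0 < K) (g h : HE ℤ) :
    HasSum (fun j => sl D j g h) (Pl0bx654.Spl g h) := by
  have h1 := (summable_sl D hM g h).hasSum
  rw [show ∑' j, sl D j g h = SI D g h from rfl, SI_eq D hM hK g h] at h1
  exact h1


/-! ### blocks -/

theorem slC_sum (l k0 N : ℕ) (g h : HE ℤ) :
    ∑ k ∈ Finset.range N, (slC D (wPl ℤ) l k0 k).b (Finsupp.single g 1) (Finsupp.single h 1) =
      ∑ j ∈ Finset.range (lo l k0 N), sl D j g h := by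
  rw [← cov_sum_b, GSysOKx439.sum_slC, SopC_eq_sum, Finset.range_eq_Ico]



theorem slC_eq (l k0 k : ℕ) (g h : HE ℤ) :
    (slC D (wPl ℤ) l k0 k).b (Finsupp.single g 1) (Finsupp.single h 1) =
      ∑ j ∈ Finset.Ico (lo l k0 k) (lo l k0 (k + 1)), sl D j g h := by
  rw [lo_succ, ← SopC_eq_sum]
  rfl

theorem abs_slC_le (hM : MM + 1 ≤ M) (l k0 k : ℕ) (g h : HE ℤ) :
    |(slC D (wPl ℤ) l k0 k).b (Finsupp.single g 1) (Finsupp.single h 1)| ≤
      2 * c1 D ^ 2 / 2 ^ lo l k0 k := by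
  rw [slC_eq]
  have hle : lo l k0 k ≤ lo l k0 (k + 1) := by
    rw [lo_succ]
    exact GSysOKx439.lo_le_hi l k0 k
  refine (Finset.abs_sum_le_sum_abs _ _).trans ?_
  rw [Finset.sum_Ico_eq_sum_range]
  have hs := hasSum_geo (c1 D ^ 2) (lo l k0 k)
  refine le_trans ?_ (hs.summable.sum_le_tsum (Finset.range (lo l k0 (k + 1) - lo l k0 k))
    (fun j _ => by positivity) |>.trans (le_of_eq hs.tsum_eq))
  refine Finset.sum_le_sum fun j _ => ?_
  rw [add_comm (lo l k0 k) j]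
  exact abs_sl_le D hM _ g h

theorem le_lo {l : ℕ} (hl : 1 ≤ l) (k0 k : ℕ) : k ≤ lo l k0 k := by
  unfold lo
  split_ifs with h
  · omega
  · nlinarith

/-- **the sum of the blocks of the plane is the plane kernel** -/
theorem hasSum_slC (hM : MM + 1 ≤ M) (hK : 0 < K) {l : ℕ} (hl : 1 ≤ l) (k0 : ℕ) (g h : HE ℤ) :
    HasSum (fun k => (slC D (wPl ℤ) l k0 k).b (Finsupp.single g 1) (Finsupp.single h 1))
      (Pl0bx654.Spl g h) := by
  have hsum : Summable fun k =>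
      (slC D (wPl ℤ) l k0 k).b (Finsupp.single g 1) (Finsupp.single h 1) := by
    refine Summable.of_norm_bounded (g := fun k : ℕ => 2 * c1 D ^ 2 / 2 ^ (k + 0))
      (hasSum_geo _ 0).summable fun k => ?_
    rw [Real.norm_eq_abs, add_zero]
    refine (abs_slC_le D hM l k0 k g h).trans ?_
    refine div_le_div_of_nonneg_left (by positivity) (by positivity) ?_
    exact pow_le_pow_right₀ (by norm_num) (le_lo hl k0 k)
  have h1 := hsum.hasSum.tendsto_sum_nat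
  have h2 : Tendsto (fun N => ∑ k ∈ Finset.range N,
      (slC D (wPl ℤ) l k0 k).b (Finsupp.single g 1) (Finsupp.single h 1)) atTop
      (𝓝 (Pl0bx654.Spl g h)) := by
    have h3 := (hasSum_sl D hM hK g h).tendsto_sum_nat
    have h4 : Tendsto (fun N => lo l k0 N) atTop atTop :=
      tendsto_atTop_mono (le_lo hl k0) tendsto_id
    simp_rw [slC_sum]
    exact h3.comp h4
  have h5 := tendsto_nhds_unique h1 h2
  rw [← h5]
  exact hsum.hasSum

/-! ### bonds -/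

theorem spl_bond (e : Bkgx683.EG ℤ) :
    SrcInsx991.uB (wPl ℤ) e * Pl0bx654.Spl (J1ax606.pe e) (J1ax606.qe e) = Redx541.e0 - 1 := by
  have h0 : Pl0bx654.Spl (J1ax606.pe e) (J1ax606.qe e) =
      (1 - 3 * Spx583.xc^2)/(8 * Spx583.xc^2) := Spx583.Spl_bond e
  have hx := Spx583.xc_pos
  have hr := Spx583.xc_rel
  have h2 : Real.sqrt 2 = 1 + Spx583.xc := Spx583.one_add_xc.symm
  have h3 : SrcInsx991.uB (wPl ℤ) e = -(2 * Spx583.xc) := rfl
  rw [h0, h3]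
  unfold Redx541.e0
  rw [h2]
  field_simp
  nlinarith

/-- **the bond values of the slices of the plane sum to `e0 - 1`** -/
theorem hasSum_bond (hM : MM + 1 ≤ M) (hK : 0 < K) {l : ℕ} (hl : 1 ≤ l) (k0 : ℕ)
    (e : Bkgx683.EG ℤ) :
    HasSum (fun k => GeOpsx337.EEG (slC D (wPl ℤ) l k0 k) (SrcInsx991.beB (wPl ℤ) e))
      (Redx541.e0 - 1) := by
  have h1 := (hasSum_slC D hM hK hl k0 (J1ax606.pe e) (J1ax606.qe e)).mul_left
    (SrcInsx991.uB (wPl ℤ) e)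
  rw [spl_bond] at h1
  refine h1.congr_fun ?_ |> fun h => h
  intro k
  exact SrcInsx991.EEG_beB (wPl ℤ) _ e


/-- **(Q2a)** for the decomposition `DD` of the row -/
theorem hasSum_plane (z : ℤ × ℤ) (j : Fin 2) {l : ℕ} (hl : 1 ≤ l) (k0 : ℕ) :
    HasSum (fun k => GeOpsx337.EEG (slC Outx683.DD (wPl ℤ) l k0 k)
      (SrcInsx991.beB (wPl ℤ) (z, j))) (Redx541.e0 - 1) :=
  hasSum_bond Outx683.DD (by unfold MM; norm_num) (by norm_num) hl k0 (z, j)



end Crest.Agent.R165.PlBondx898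
end
end

-- ▼ part R165/SrcFine_484
section

/-!
# Row 165 (S0250), leaf P11: the fine phase at one scale (helper484)

* `FineC` : the conditions on the constants; `fineC_ev`
* `ppP_empty`, `tot_of_Tot`
* `pG_beta_plane`, `hsl_pl` : norms of the leading forms
* `run_fine` : the runs
* `fineAt_of` : the state after `K` steps from the bounds of the total norms
-/

set_option autoImplicit false
set_option linter.unusedSectionVars false
set_option linter.unusedVariables false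

noncomputable section

namespace Crest.Agent.R165.SrcFinex484

open Finset Filter Topology
open scoped ENNReal
open Crest.ProbabilityR.IsingModel
open Crest.Agent.R165.FinBx900 Crest.Agent.R165.KStepx892
open Crest.Agent.R165.Gr0x606 Crest.Agent.R165.Gr1x606 Crest.Agent.R165.GeOpsx337
  Crest.Agent.R165.ExpGx337 Crest.Agent.R165.PNormx417 Crest.Agent.R165.KFlowx337
  Crest.Agent.R165.SrcDefx991 Crest.Agent.R165.SrcFinx441 Crest.Agent.R165.GrLocx337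
open Crest.Agent.R165.SrcFinBx441 (Nw EEG_bd ra_pG)
open Crest.Agent.R165.SrcCmpx441
open Crest.Agent.R165.Packx915 (PD Conn)
open Crest.Agent.R165.Latx683 (BW wDom wX wPl Fld HE)
open Crest.Agent.R165.GDefx387 Crest.Agent.R165.GSysx387
  Crest.Agent.R165.BgIsox432 Crest.Agent.R165.CmpBgx432 Crest.Agent.R165.FRDPolyx439
open Crest.Agent.R165.SrcSysx991 Crest.Agent.R165.SrcInsx991
open Crest.Agent.R165.Bkgx683 (MPar mpar Bg isF)
open Crest.Agent.R165.J4Geox126 (faE)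
open Crest.Agent.R165.Outx683 (DD amp)
open Crest.Agent.R165.PEndx683 (Cst EvC)
open Crest.Agent.R165.SrcInvx336
open Crest.Agent.R165.SrcCstx484
open Crest.Agent.R165.SrcLimx697
open Crest.Agent.R165.SrcChx485 (SrcCh)
open Crest.Agent.R165.SrcSymx922 (wpl_ne)
open Crest.Agent.R165.SrcRecx54 (Tot)
open Crest.Agent.R165.SrcStepx54 (Tout Sout)
open Crest.Agent.R165.SrcDomx697 (pG_beta_le abs_uB_le tail_bd)
open Crest.Agent.R165.W2x812 (BkReg)
open Crest.Agent.R165.ZeEbx922 (zE Ze eb plE)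
open Crest.Agent.R165.FRDLatx439 (gw)
open Crest.Agent.R165.SrcFlowx54 (totP)
open Crest.Agent.R165.SrcDomx697 (c0D)
open Crest.Agent.R165.EnFinex811 (FineAt)

/-! ### constants -/

/-- **the conditions on the constants** -/
structure FineC (c : Cst) (R : ℕ) : Prop where
  p4 : 4 ≤ c.p
  h5 : 5 ≤ c.p * (c.k0 + 1)
  r16 : 16 ≤ rr c.p c.k0 0
  nR : 2 * max R 1 + 1 ≤ nearR c.p c.k0 0
  A0 : 1 ≤ c.A0
  cold : GSysOKx439.c0 DD.C c.p c.k0 ≤ c.A0
  δ0 : 0 ≤ c.δ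
  δ2 : (1 + c.δ) ^ 2 ≤ 2
  Γ4 : 4 * 2 ^ c.p ≤ c.Γ

section consts

variable {c : Cst} {R : ℕ} (hc : FineC c R)
include hc

theorem FineC.Γ1 : 1 ≤ c.Γ := by
  have h1 : (1 : ℝ) ≤ 2 ^ c.p := one_le_pow₀ (by norm_num)
  have := hc.Γ4
  linarith

theorem FineC.A0p : 0 < c.A0 := lt_of_lt_of_le one_pos hc.A0

theorem FineC.ampp (k : ℕ) : 0 < amp c k := amp_pos hc.A0p hc.δ0 k

theorem FineC.r16k (k : ℕ) : 16 ≤ rr c.p c.k0 k := hc.r16.trans (rr_mono c.p c.k0 (Nat.zero_le k))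

theorem FineC.A0_le_amp (k : ℕ) : c.A0 ≤ amp c k := by
  unfold amp
  have h1 := mul_nonneg hc.δ0 (Nat.cast_nonneg (α := ℝ) k)
  have h2 := hc.A0p
  nlinarith [mul_nonneg h2.le h1]

theorem FineC.cold1 (k : ℕ) : GSysOKx439.c0 DD.C c.p c.k0 / amp c k ≤ 1 := by
  rw [div_le_one (hc.ampp k)]
  exact hc.cold.trans (hc.A0_le_amp k)

/-- the weights of the steps against `wU` at the old scale -/
theorem FineC.gw_le {w : BW ℤ} (hw : ∀ z j, |w z j| ≤ 1) (k : ℕ) (U : Finset (ℤ × ℤ))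
    (x : Fld ℤ) : gw DD w (lo c.p c.k0 k) (hi c.p c.k0 k) x ≤
      wU w (amp c k) (rr c.p c.k0 k) U x := by
  refine (GSysOKx439.gw_step_le_wU_old DD (by decide) w hw c.p c.k0 k (hc.ampp k) U x).trans ?_
  calc ENNReal.ofReal (GSysOKx439.c0 DD.C c.p c.k0 / amp c k) *
        wU w (amp c k) (rr c.p c.k0 k) U x
      ≤ 1 * wU w (amp c k) (rr c.p c.k0 k) U x := by
        refine mul_le_mul_left ?_ _
        rw [← ENNReal.ofReal_one]
        exact ENNReal.ofReal_le_ofReal (hc.cold1 k)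
    _ = _ := one_mul _

end consts

/-- **the conditions hold eventually** -/
theorem fineC_ev (R : ℕ) : EvC fun c => FineC c R := by
  have h1 : EvC fun c => 4 ≤ c.p := Constx891.ev_p_ge 4
  have h2 : EvC fun c => 1 ≤ c.k0 := Constx891.ev_k0_ge fun _ _ => 1
  have h3 : EvC fun c => ∀ n, 2 * max R 1 + 16 ≤ rr c.p c.k0 n :=
    Constx891.ev_rr_ge fun _ _ => 2 * max R 1 + 16
  have h4 : EvC fun c => 1 ≤ c.A0 := Constx891.ev_A0_ge fun _ _ _ => 1
  have h5 : EvC fun c => GSysOKx439.c0 DD.C c.p c.k0 ≤ c.A0 :=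
    Constx891.ev_A0_ge fun p _ k0 => GSysOKx439.c0 DD.C p k0
  have h6 : EvC fun c => 0 < c.δ := Constx891.ev_δ_pos
  have h7 : EvC fun c => c.δ ≤ 1 / 4 := Constx891.ev_δ_le (fun _ _ _ _ => 1 / 4) fun _ _ _ _ => by norm_num
  have h8 : EvC fun c => 4 * 2 ^ c.p ≤ c.Γ := Constx891.ev_Γ_ge' fun p => 4 * 2 ^ p
  refine (h1.and (h2.and (h3.and (h4.and (h5.and (h6.and (h7.and h8))))))).mono ?_
  rintro c ⟨h1, h2, h3, h4, h5, h6, h7, h8⟩
  refine ⟨h1, ?_, ?_, ?_, h4, h5, h6.le, ?_, h8⟩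
  · calc 5 ≤ 4 * (1 + 1) := by norm_num
      _ ≤ c.p * (c.k0 + 1) := Nat.mul_le_mul h1 (by omega)
  · have := h3 0
    omega
  · have h9 := h3 0
    have h10 : 16 * rr c.p c.k0 0 ≤ rr c.p c.k0 1 := by
      rw [GSysx387.rr_succ]
      refine Nat.mul_le_mul_right _ ?_
      calc 16 = 2 ^ 4 := by norm_num
        _ ≤ 2 ^ c.p := Nat.pow_le_pow_right (by norm_num) h1
    unfold nearR
    rw [show (0 : ℕ) + 1 = 1 from rfl]
    omega
  · nlinarith

/-! ### the remainder and its total norm -/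

section tot

variable {m : ℕ} {B : Bg ℤ} {P : MPar} {M K : ℕ} {D : FRD 16 M K} {mk : Finset (ℤ × ℤ)}
  {e : Fin m → Bkgx683.EG ℤ} {he : ∀ i, B.w (e i).1 (e i).2 ≠ 0} {l k0 : ℕ}

theorem ppP_empty (n : ℕ) : ppP B P D mk e he l k0 n ∅ = 0 := by
  have h1 : (flowP B P D mk e he l k0).K n ∅ = 0 := by
    cases n with
    | zero => exact JVolx950.K0_empty B P _ _ l k0
    | succ n => exact (flowP B P D mk e he l k0).K_empty n
  have h2 : (flow0 B P D mk l k0).K n ∅ = 0 := by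
    cases n with
    | zero => exact JVolx950.K0_empty B P _ _ l k0
    | succ n => exact (flow0 B P D mk l k0).K_empty n
  have h3 : LEAD (srcD B.w e he) (zeP B P D mk e he l k0 n) ∅ = 0 := by
    unfold LEAD
    refine sum_eq_zero fun i hi => ?_
    have h4 : faE (e i) = ∅ := (mem_filter.1 hi).2
    exact absurd h4 ((srcD B.w e he).ne i).ne_empty
  have h4 := flowP_K (B := B) (P := P) (D := D) (mk := mk) (e := e) (he := he) (l := l)
    (k0 := k0) n ∅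
  rw [h1, h2, h3, map_zero, zero_add, zero_add] at h4
  exact h4.symm

/-- total norms in the two conventions -/
theorem tot_of_Tot {W : Finset (ℤ × ℤ) → Fld ℤ → ℝ≥0∞} {v Γ : ℝ} {r : ℕ}
    {K : Finset (ℤ × ℤ) → Ge (VS (Fld ℤ) m)} (hK : K ∅ = 0) (hΓ : 0 ≤ Γ) :
    ∑' U, ENNReal.ofReal (Γ ^ size r U) * Nw (W U) (fun _ => v) (K U) ≤
      Tot W (fun _ => ENNReal.ofReal v) (ENNReal.ofReal Γ) r K := by
  unfold SrcRecx54.Tot SrcStepx54.Tout SrcStepx54.Sout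
  refine ENNReal.tsum_le_tsum fun U => ?_
  by_cases hU : U.Nonempty
  · rw [Set.indicator_of_mem (by exact hU), ENNReal.ofReal_pow hΓ]
    exact le_rfl
  · rw [Finset.not_nonempty_iff_eq_empty.1 hU, hK]
    have : Nw (W ∅) (fun _ : Fin m => v) (0 : Ge (VS (Fld ℤ) m)) = 0 := by
      unfold SrcFinBx441.Nw
      exact pG_zero _
    rw [this, mul_zero]
    exact bot_le

end tot

/-! ### the runs -/

section runs

variable {c : Cst} {R : ℕ} (hc : FineC c R) {P : MPar} {m : ℕ} {B : Bg ℤ}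
  {e : Fin m → Bkgx683.EG ℤ} {he : ∀ i, B.w (e i).1 (e i).2 ≠ 0} {t Ce : ℝ}
include hc

/-- **the run of the fine phase** from the bounds of the total norms -/
theorem run_fine (hw : ∀ z j, |B.w z j| ≤ 1) (hinj : Function.Injective fun i => faE (e i))
    (ht : 0 < t) (hCe : 0 ≤ Ce) {Pk : ℕ → Prop}
    (hS : ∀ k, Pk k → totP c B P e he t k ≤ ENNReal.ofReal (Ce * (1 / 2) ^ k)) :
    Run (flowP B P DD ∅ e he c.p c.k0) Pk (slC DD B.w c.p c.k0)
      (fun k => gw DD B.w (lo c.p c.k0 k) (hi c.p c.k0 k))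
      (fun k => wU B.w (amp c k) (rr c.p c.k0 k)) (vS c t) c.Γ (fun k => Ce * (1 / 2) ^ k)
      (fun k => size (rr c.p c.k0 k)) (fun i => faE (e i))
      (zeP B P DD ∅ e he c.p c.k0) (fun i => beB B.w (e i)) (ppP B P DD ∅ e he c.p c.k0) := by
  refine run_flowP hinj (fun k _ => GSysOKx439.slC_gram DD B.w hw c.p c.k0 k)
    (fun k _ U x => hc.gw_le hw k U x) (fun k _ => vS_pos ht hc.A0p hc.δ0 k) hc.Γ1
    (fun k _ => by positivity) (fun k hk => ?_)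
  refine le_trans ?_ (hS k hk)
  exact tot_of_Tot (ppP_empty k) (zero_le_one.trans hc.Γ1)

end runs

/-! ### norms of the leading forms -/

section lead

variable {c : Cst} {R : ℕ} (hc : FineC c R) {t C : ℝ}
include hc

/-- **norm of the leading form of a source with a plane ball around it** -/
theorem pG_beta_plane (hC : BkReg C) {w : BW ℤ} (hw : ∀ z j, |w z j| ≤ 1) {e : Bkgx683.EG ℤ}
    {k : ℕ} (p : PlaneLike w (nbhd (s2 * rr c.p c.k0 k) {e.1})) (ht : 0 < t)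
    {U : Finset (ℤ × ℤ)} (hU : e.1 ∈ U) :
    pG (wU w (amp c k) (rr c.p c.k0 k) U) (beB w e) ≤
      ENNReal.ofReal (22 * C ^ 2 * t / vS c t k ^ 2) := by
  have ha := hc.ampp k
  have hr16 := hc.r16k k
  have hrp := rr_pos' c k
  have hs : s1 * rr c.p c.k0 k + MM + 1 ≤ s2 * rr c.p c.k0 k := by
    have h1 : s1 + (MM + 1) ≤ s2 := by decide
    have h2 : (s1 + (MM + 1)) * rr c.p c.k0 k ≤ s2 * rr c.p c.k0 k := Nat.mul_le_mul_right _ h1
    have h3 : (s1 + (MM + 1)) * rr c.p c.k0 k = s1 * rr c.p c.k0 k + (MM + 1) * rr c.p c.k0 k := by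
      ring
    have h4 : MM + 1 ≤ (MM + 1) * rr c.p c.k0 k := Nat.le_mul_of_pos_right _ (by omega)
    omega
  have hd : SrcDat w (s2 * rr c.p c.k0 k) e.1 e.2 (uB w e) (muB w e) (beB w e) :=
    srcDat_of_plane (w := w) (z := e.1) (Nat.mul_pos (by decide) (by omega)) p e.2
  have h1 := pG_beta_le hd hC ha hr16 hs hU
  refine h1.trans (ENNReal.ofReal_le_ofReal ?_)
  rw [vS_sq ht.le]
  have hu := abs_uB_le hw e
  have h3 : 0 ≤ 11 * C ^ 2 * amp c k ^ 2 / (rr c.p c.k0 k : ℝ) := by positivity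
  calc |uB w e| * (11 * C ^ 2 * amp c k ^ 2 / (rr c.p c.k0 k : ℝ))
      ≤ 2 * (11 * C ^ 2 * amp c k ^ 2 / (rr c.p c.k0 k : ℝ)) :=
        mul_le_mul_of_nonneg_right hu h3
    _ = 22 * C ^ 2 * t / (t * rr c.p c.k0 k / amp c k ^ 2) := by
        field_simp
        ring

/-- **the size of the unperturbed increments in the plane** -/
theorem hsl_pl (hC : BkReg C) (ht : 0 < t) (e : Bkgx683.EG ℤ) (k : ℕ) :
    vS c t k ^ 2 * |EEG (slC DD (wPl ℤ) c.p c.k0 k) (beB (wPl ℤ) e)| ≤ 22 * C ^ 2 * t := by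
  have hv := vS_pos ht hc.A0p hc.δ0 k
  have h1 := pG_beta_plane hc hC PlBondx898.wPl_le1 (e := e) (k := k)
    (plId _) ht (mem_singleton_self e.1)
  have h2 : pG (gw DD (wPl ℤ) (lo c.p c.k0 k) (hi c.p c.k0 k)) (beB (wPl ℤ) e) ≤
      pG (wU (wPl ℤ) (amp c k) (rr c.p c.k0 k) {e.1}) (beB (wPl ℤ) e) :=
    pnorm_le_pnorm (fun x => hc.gw_le PlBondx898.wPl_le1 k _ x) _
  have h3 := EEG_bd (GSysOKx439.slC_gram DD (wPl ℤ) PlBondx898.wPl_le1 c.p c.k0 k)
    (t := 22 * C ^ 2 * t / vS c t k ^ 2) (by positivity) (h2.trans h1)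
  rw [le_div_iff₀ (by positivity)] at h3
  rwa [mul_comm]

end lead

/-! ### the state after `K` steps -/

/-- **the fine phase, generic form** -/
theorem fineAt_of {J : ℝ} {R : ℕ} {V : Finset (ℤ × ℤ) → ℝ} {c : Cst} {lam β z : ℝ}
    (hc : FineC c R) {C : ℝ} (hC : BkReg C) {T : Finset (ℤ × ℤ)} {b : BoundaryCondition}
    {n m : ℕ} {X : Fin n → ℤ × ℤ} {e : Fin m → Bkgx683.EG ℤ}
    {he : ∀ i, (Bg.dom T b X).w (e i).1 (e i).2 ≠ 0} {Λ : Finset (ℤ × ℤ)}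
    (hΛ : ∀ U, ¬ U ⊆ Λ → K0P (Bg.dom T b X) (mpar J lam R V β z) e c.p c.k0 U = 0)
    {K ρ : ℕ} (hch : SrcCh (T : Set (ℤ × ℤ)) X e ρ) (hρ : (s2 + 2) * rr c.p c.k0 K + 1 ≤ ρ)
    (hρm : m * rr c.p c.k0 K ≤ ρ) {t Ce Cz : ℝ} (ht : 0 < t) (hCe : 0 ≤ Ce) (hCz : 0 ≤ Cz)
    (hS : ∀ k ≤ K, totP c (Bg.dom T b X) (mpar J lam R V β z) e he t k ≤
      ENNReal.ofReal (Ce * (1 / 2) ^ k))
    (hP : ∀ (j : Fin 2) (k : ℕ), totP c Bg.pl (mpar J lam R V β z) ![((0, 0), j)] (wpl_ne _) t k ≤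
      ENNReal.ofReal (Ce * (1 / 2) ^ k))
    (hz : ∀ (j : Fin 2) (k : ℕ),
      |zE J R V c lam β z j k - Ze J R V c lam β z| ≤ Cz * (1 / 2) ^ k)
    (hZe : |Ze J R V c lam β z| ≤ 2) :
    FineAt c (Bg.dom T b X) (mpar J lam R V β z) e he Λ K (amp c K) (vS c t K)
      ((5 * Ce + (88 * C ^ 2 * t + 1) * Cz) * (1 / 2) ^ K) (44 * C ^ 2 * t)
      (Ze J R V c lam β z) (fun i => eb J R V c lam β z (e i).2) := by
  have hw : ∀ z j, |(Bg.dom T b X).w z j| ≤ 1 := Fin3x315.abs_wX_le _ _ _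
  have hr0 := rr_pos c.p c.k0 K
  have hs2 : s2 = 128 := rfl
  have hρ2 : 2 ≤ ρ := by
    have h1 : 1 ≤ (s2 + 2) * rr c.p c.k0 K := Nat.mul_pos (by omega) hr0
    omega
  have hinj : Function.Injective fun i => faE (e i) := by
    intro i j hij
    by_contra hne
    have h1 := hch.faces hne (SrcChx485.fst_mem_faE (e i))
      (show (e i).1 ∈ faE (e j) from by
        rw [← show faE (e i) = faE (e j) from hij]
        exact SrcChx485.fst_mem_faE (e i))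
    rw [fd_self] at h1
    omega
  set ρ1 := (s2 + 2) * rr c.p c.k0 K with hρ1
  have hρ1p : 1 ≤ ρ1 := Nat.mul_pos (by omega) hr0
  have hX : ∀ i, ∀ j, ρ1 < fd (e i).1 (X j) := fun i j => by
    have := hch.sp i j
    omega
  have hZ : ∀ i, ∀ f ∈ ball (e i).1 ρ1, cornersIn (T : Set (ℤ × ℤ)) f := fun i =>
    hch.corners i hρ
  have hsep : ∀ i, ∀ i', i' ≠ i → ρ1 < fd (e i).1 (e i').1 := fun i i' hi => by
    have := hch.sep i i' hi.symm
    omega
  have hmk : ∀ i, ∀ f ∈ (∅ : Finset (ℤ × ℤ)), ρ1 < fd (e i).1 f := fun i f hf =>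
    absurd hf (notMem_empty f)
  have hl1 : 1 ≤ c.p := by have := hc.p4; omega
  have hnR : 2 * (mpar J lam R V β z).R + 1 ≤ nearR c.p c.k0 0 := hc.nR
  -- the runs
  have hrun := run_fine hc (P := mpar J lam R V β z) (he := he) hw hinj ht hCe
    (Pk := fun k => k < K) (fun k hk => hS k hk.le)
  have hpl : ∀ j : Fin 2, Run (flowP Bg.pl (mpar J lam R V β z) DD ∅ ![((0, 0), j)] (wpl_ne _)
      c.p c.k0) (fun _ => True) (slC DD (wPl ℤ) c.p c.k0)
      (fun k => gw DD (wPl ℤ) (lo c.p c.k0 k) (hi c.p c.k0 k))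
      (fun k => wU (wPl ℤ) (amp c k) (rr c.p c.k0 k)) (vS c t) c.Γ (fun k => Ce * (1 / 2) ^ k)
      (fun k => size (rr c.p c.k0 k))
      (fun i => faE ((![((0, 0), j)] : Fin 1 → Bkgx683.EG ℤ) i))
      (zeP Bg.pl (mpar J lam R V β z) DD ∅ ![((0, 0), j)] (wpl_ne _) c.p c.k0)
      (fun i => beB (wPl ℤ) ((![((0, 0), j)] : Fin 1 → Bkgx683.EG ℤ) i))
      (ppP Bg.pl (mpar J lam R V β z) DD ∅ ![((0, 0), j)] (wpl_ne _) c.p c.k0) := fun j =>
    run_fine hc (B := Bg.pl) (P := mpar J lam R V β z) (he := wpl_ne _) PlBondx898.wPl_le1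
      (Function.injective_of_subsingleton _) ht hCe (Pk := fun _ => True) (fun k _ => hP j k)
  -- numbers
  have hv : ∀ k, 0 < vS c t k := fun k => vS_pos ht hc.A0p hc.δ0 k
  have hv1 : ∀ k, 2 * vS c t k ^ 2 ≤ vS c t (k + 1) ^ 2 := fun k =>
    vS_lo ht hc.A0p hc.δ0 hc.δ2 (by have := hc.p4; omega) k
  have hv2 : ∀ k, vS c t (k + 1) ^ 2 ≤ 2 ^ c.p * vS c t k ^ 2 := fun k =>
    vS_hi ht hc.A0p hc.δ0 k
  have hL : (1 : ℝ) ≤ 2 ^ c.p := one_le_pow₀ (by norm_num)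
  have hΓ : 2 * 2 ^ c.p ≤ c.Γ * (1 / 2) := by have := hc.Γ4; linarith
  have hCs : (0 : ℝ) ≤ 22 * C ^ 2 * t := by positivity
  have hσK : (0 : ℝ) < (1 / 2) ^ K := by positivity
  have hc0 : ∀ i, c0D DD (Bg.dom T b X).w c.p c.k0 K (e i) =
      -∑' k, EEG (slC DD (wPl ℤ) c.p c.k0 (k + K)) (beB (wPl ℤ) ((0, 0), (e i).2)) := fun i =>
    SrcSlx813.c0D_dom DD hl1 (by norm_num) (hch.iso (isF b) i hρ)
      (Nat.mul_le_mul_right _ (by omega)) (PlBondx898.hasSum_plane (0, 0) (e i).2 hl1 c.k0)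
  refine ⟨hv K, by positivity, by positivity, hinj, ?_, ?_, hZe, ?_, ?_, ?_, ?_⟩
  · refine (hS K le_rfl).trans (ENNReal.ofReal_le_ofReal ?_)
    have h1 : 0 ≤ (4 * Ce + (88 * C ^ 2 * t + 1) * Cz) * (1 / 2) ^ K := by positivity
    nlinarith
  · intro i
    rw [zeP_dom (heP := wpl_ne _) hρ1p (hX i) (hZ i) (hsep i) (hmk i) hc.p4 (by norm_num) hc.h5 K
      (Nat.mul_le_mul_right _ (by omega))]
    refine (hz (e i).2 K).trans ?_
    have h1 : 0 ≤ (5 * Ce + 88 * C ^ 2 * t * Cz) * (1 / 2) ^ K := by positivity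
    nlinarith
  · intro i
    rw [hc0 i]
    have hcmp := cmpH_dom (P := mpar J lam R V β z) (D := DD) (heD := he)
      (heP := wpl_ne ![((0, 0), (e i).2)]) hρ1p (hX i) (hZ i) (hsep i) (hmk i) hc.p4
      (by norm_num) hc.h5 hnR (N := K) le_rfl
    obtain ⟨_, h2⟩ := hrun.constants (hpl (e i).2) (fun _ => trivial) (fun k U => flowP_GS k U)
      (Λ := Λ) (fun k U hU => flowP_supp hc.p4 hnR hΛ k U hU) i 0 (fun k hk => hk) hcmp
      (L := 2 ^ c.p) (σ := 1 / 2) (Ze := Ze J R V c lam β z) (Ce := Ce) (Cz := Cz)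
      (Cs := 22 * C ^ 2 * t) hv hL hv1 hv2 (by norm_num) (by norm_num) hΓ hCe hCz hCs
      (fun k => hz (e i).2 k) (fun k => hsl_pl hc hC ht _ k) (fun k => le_rfl)
      (fun k _ => le_rfl)
    refine h2.trans ?_
    have h1 : 0 ≤ (Ce + Cz) * (1 / 2) ^ K := by positivity
    nlinarith
  · intro I hI
    have h1 := hrun.high (fun k U => flowP_GS k U) (Λ := Λ)
      (fun k U hU => flowP_supp hc.p4 hnR hΛ k U hU) hI (N := K) (fun k hk => hk)
      (flowP_hbig hc.p4 hnR (fun i j hij => hρm.trans (hch.sep i j hij).le) hI)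
      (L := 2 ^ c.p) (σ := 1 / 2) (Ce := Ce) hv hL hv2 (by norm_num) hc.Γ1 ?_ hCe
      (fun k _ => le_rfl)
    · refine h1.trans ?_
      have h2 : 0 ≤ (4 * Ce + (88 * C ^ 2 * t + 1) * Cz) * (1 / 2) ^ K := by positivity
      nlinarith
    · have h2 : (2 * 2 ^ c.p) ^ (m + 1) ≤ (c.Γ * (1 / 2)) ^ (m + 1) :=
        pow_le_pow_left₀ (by positivity) hΓ _
      have h3 : 2 * ((2 : ℝ) ^ c.p) ^ m ≤ (2 * 2 ^ c.p) ^ (m + 1) := by
        rw [mul_pow]
        have h4 : (2 : ℝ) ≤ 2 ^ (m + 1) := by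
          calc (2 : ℝ) = 2 ^ 1 := (pow_one _).symm
            _ ≤ _ := pow_le_pow_right₀ (by norm_num) (by omega)
        have h5 : ((2 : ℝ) ^ c.p) ^ m ≤ (2 ^ c.p) ^ (m + 1) := pow_le_pow_right₀ hL (by omega)
        have h6 : (0 : ℝ) ≤ (2 ^ c.p) ^ m := by positivity
        nlinarith
      have h7 : (c.Γ * (1 / 2)) ^ (m + 1) ≤ c.Γ ^ (m + 1) * (1 / 2) := by
        have hG := hc.Γ1
        rw [mul_pow]
        refine mul_le_mul_of_nonneg_left ?_ (by positivity)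
        calc ((1 : ℝ) / 2) ^ (m + 1) ≤ (1 / 2) ^ 1 :=
              pow_le_pow_of_le_one (by norm_num) (by norm_num) (by omega)
          _ = 1 / 2 := pow_one _
      linarith
  · intro i
    rw [hc0 i, abs_neg]
    refine (tail_bd hv hv1 (fun k => hsl_pl hc hC ht ((0, 0), (e i).2) k) K).2.trans
      (le_of_eq ?_)
    ring
  · intro i
    have hp : PlaneLike (Bg.dom T b X).w (nbhd (s2 * rr c.p c.k0 K) {(e i).1}) := by
      rw [nbhd_single]
      exact DefRecx915.plMono ((hch.iso (isF b) i hρ).toPlane)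
        (ball_mono _ (Nat.mul_le_mul_right _ (by omega)))
    have h1 := pG_beta_plane hc hC hw hp ht (SrcChx485.fst_mem_faE (e i))
    refine h1.trans (ENNReal.ofReal_le_ofReal ?_)
    have h2 : 0 < vS c t K ^ 2 := by have := hv K; positivity
    exact div_le_div_of_nonneg_right (by nlinarith [mul_nonneg (sq_nonneg C) ht.le]) h2.le

end Crest.Agent.R165.SrcFinex484
end
end

-- ▼ part R165/SrcDomJ_697
section

/-!
# Row 165 (S0250), leaf P11: **the energy ratios of the `C²` domains** (helper697)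

* `fineC2 : FineC2 J R V (Ze J R V) (eb J R V)`
* `enD` : `ForP J (PF J R V) (ERD ..)` with the renormalisation of helper922
-/

set_option autoImplicit false
set_option linter.unusedSectionVars false
set_option linter.unusedVariables false

noncomputable section

namespace Crest.Agent.R165.SrcDomx697

open Finset Filter Topology
open scoped ENNReal
open Crest.ProbabilityR.IsingModel
open Crest.Agent.R165.PNormx417
open Crest.Agent.R165.Gr0x606 Crest.Agent.R165.Gr1x606 Crest.Agent.R165.GeOpsx337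
  Crest.Agent.R165.ExpGx337 Crest.Agent.R165.KFlowx337
open Crest.Agent.R165.Latx683 (BW wDom wX IsCov covS Fld HE Aop)
open Crest.Agent.R165.GDefx387 Crest.Agent.R165.GSysx387 Crest.Agent.R165.FRDPolyx439
  Crest.Agent.R165.BgIsox432 Crest.Agent.R165.PStepx417
open Crest.Agent.R165.Bkgx683 (MPar mpar Bg cor bondSrc)
open Crest.Agent.R165.Outx683 (DD amp PF)
open Crest.Agent.R165.PEndx683 (Cst ForP NearP EvC EvC.mono EvC.and)
open Crest.Agent.R165.J4Geox126 (faE)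
open Crest.Agent.R165.JRunSx408 (SrcOK eb xb q_run q0_run VolS)
open Crest.Agent.R165.SrcInsx991
open Crest.Agent.R165.SrcLimx697
open Crest.Agent.R165.SrcGeox485 (DomEv domEv)
open Crest.Agent.R165.EnFinex811 (FineAt)
open Crest.Agent.R165.U5Px422 (TT)
open Crest.Agent.R165.SrcGenx359 (C2c)
open Crest.Agent.R165.SrcFinex484 (FineC fineC_ev fineAt_of)
open Crest.Agent.R165.Constx891 (Std)
open Crest.Agent.R165.Centx541 Crest.Agent.R165.Redx541 Crest.Agent.R165.Symx541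
  Crest.Agent.R165.Red2x541 Crest.Agent.R165.Topx683 Crest.Agent.R165.SRx541

local notation "KA" => Crest.Agent.R165.GeoScx420.KK

/-- **the fine phase of all `C²` Jordan domains** -/
theorem fineC2 {J : ℝ} {R : ℕ} {V : Finset (ℤ × ℤ) → ℝ} (hV : VHyp R V) :
    FineC2 J R V (ZeEbx922.Ze J R V) (ZeEbx922.eb J R V) := by
  obtain ⟨Cb, hCb, hb⟩ := SrcStepHypx943.exists_Cb
  unfold FineC2 ForP
  refine (EvC.and (EvC.and (sA_dom (J := J) hV) (ZeAx915.zA_all (J := J) hV))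
    (EvC.and (ZeEbx922.hz_ev hV (ZeAx915.zInc (J := J) hV)) (fineC_ev R))).mono fun c hc C => ?_
  obtain ⟨⟨⟨hs, T1, hT1, h1⟩, h2⟩, h3, hfc⟩ := hc
  obtain ⟨ε₁, hε₁, M1, hM1, h1⟩ := h1 C
  obtain ⟨ε₂, hε₂, T2, hT2, M2, hM2, h2⟩ := h2 C
  obtain ⟨ε₃, hε₃, M3, hM3, h3⟩ := h3 C
  refine ⟨min ε₁ (min ε₂ ε₃), lt_min hε₁ (lt_min hε₂ hε₃), fun lam β z hl hn hp m hm => ?_⟩
  have hl1 : |lam| < ε₁ := hl.trans_le (min_le_left _ _)
  have hl2 : |lam| < ε₂ := hl.trans_le ((min_le_right _ _).trans (min_le_left _ _))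
  have hl3 : |lam| < ε₃ := hl.trans_le ((min_le_right _ _).trans (min_le_right _ _))
  obtain ⟨hZe, hz2, hz⟩ := h3 lam β z hl3 hn hp
  obtain ⟨-, -, hpl⟩ := h2 lam β z hl2 hn hp
  have hdom := h1 lam β z hl1 hn hp (fun k => hz2 0 k)
  clear h1 h2 h3
  refine ⟨max (C2c c) m, fun C1 hC1 D hD b n hR x y j hx hy hinj Cg Cv hCg hCv => ?_⟩
  have hm0 : (0 : ℝ) < m := by exact_mod_cast hm
  set t : ℝ := min (T1 / m) T2 with ht
  have ht0 : 0 < t := lt_min (by positivity) hT2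
  have hmt : m * t ≤ T1 := by
    have h4 : t ≤ T1 / m := min_le_left _ _
    rw [le_div_iff₀ hm0] at h4
    linarith
  obtain ⟨d2, hd2, hd⟩ := hdom C1 ((le_max_left _ _).trans hC1) D hD b n m hm x y j hx (inj_x hinj)
  set Ce : ℝ := M1 * |lam| * (m * t) + M2 * |lam| * t with hCe
  have hCe0 : 0 ≤ Ce := by positivity
  have hCz0 : 0 ≤ M3 * |lam| := by positivity
  refine ⟨t, ht0, d2, hd2, 1 / 2, 5 * Ce + (88 * Cb ^ 2 * t + 1) * (M3 * |lam|), 44 * Cb ^ 2 * t,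
    by norm_num, by norm_num, fun d hd0 hdd => ?_⟩
  filter_upwards [hd d hd0 hdd] with a ha h
  have hT : ((TT D a : Finset (ℤ × ℤ)) : Set (ℤ × ℤ)) = domainSites D a := by
    rw [h.tt, Set.Finite.coe_toFinset]
  have hrp := rr_pos c.p c.k0 (KA c.p c.k0 d a)
  have hch := h.ch (KA c.p c.k0 d a) le_rfl
  rw [← hT] at hch
  have hC2 : C2c c ≤ C1 := (le_max_left _ _).trans hC1
  refine fineAt_of hfc hb (fun U hU => h.vol.supp1 (src := bondSrc (Fld ℤ) (eb a y j))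
    (P := mpar J lam R V β z) _ c.p c.k0 U hU) hch ?_ ?_ ht0 hCe0 hCz0 ?_ ?_ hz hZe
  · have h5 : s2 + 3 ≤ C1 := le_trans (by
      unfold C2c
      have := Nat.one_le_two_pow (n := c.p)
      omega) hC2
    nlinarith [Nat.mul_le_mul_right (rr c.p c.k0 (KA c.p c.k0 d a)) h5]
  · exact Nat.mul_le_mul_right _ ((le_max_right _ _).trans hC1)
  · intro k hk
    refine (ha Cg Cv h h.he t ht0 hmt k hk).trans (ENNReal.ofReal_le_ofReal ?_)
    refine mul_le_mul_of_nonneg_right ?_ (by positivity)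
    have : 0 ≤ M2 * |lam| * t := by positivity
    linarith
  · intro jj k
    refine (hpl t ht0 (min_le_right _ _) jj k).trans (ENNReal.ofReal_le_ofReal ?_)
    refine mul_le_mul_of_nonneg_right ?_ (by positivity)
    have : 0 ≤ M1 * |lam| * (m * t) := by positivity
    linarith


end Crest.Agent.R165.SrcDomx697
end
end

-- ▼ part R165/SrcDiscG_359
section

/-!
# Row 165 (S0250): the flow with bond sources in large discs, fine phase (helper359)

* `genH_disc` : the structure `GenH` of `SrcGen_359` for large discs up to `k1`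
* `sA_disc` : **the total norm of the remainders** in large discs, all scales `k ≤ k1`
-/

set_option autoImplicit false
set_option linter.unusedSectionVars false
set_option linter.unusedVariables false

noncomputable section

open Filter Topology
open scoped ENNReal
open Crest.ProbabilityR.IsingModel
open Crest.Agent.R165.Geo (LatReg bdS)
open Crest.Agent.R165.Gr0x606 Crest.Agent.R165.Gr1x606 Crest.Agent.R165.GeOpsx337
open Crest.Agent.R165.KFlowx337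
open Crest.Agent.R165.Latx683 (BW wDom wX wPl Fld)
open Crest.Agent.R165.GDefx387 Crest.Agent.R165.GSysx387 Crest.Agent.R165.FRDPolyx439
open Crest.Agent.R165.PNormx417
open Crest.Agent.R165.SrcDefx991 Crest.Agent.R165.SrcSysx991 Crest.Agent.R165.SrcInsx991
open Crest.Agent.R165.Bkgx683 (Bg MPar mpar)
open Crest.Agent.R165.J4Geox126 (faE)
open Crest.Agent.R165.JRunSx408 (eb xb)
open Crest.Agent.R165.SrcChx485 Crest.Agent.R165.SrcGeox485
open Crest.Agent.R165.PEndx683 Crest.Agent.R165.Outx683 Crest.Agent.R165.Constx891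
open Crest.Agent.R165.SrcFlowx54 Crest.Agent.R165.SrcStepHypx943
open Crest.Agent.R165.ZeEbx922 (zE)
open Crest.Agent.R165.DiscKx892 (dl k1 k2 kf)
open Crest.Agent.R165.DiscPhx892 (Ph aD_fine)
open Crest.Agent.R165.GeoScx420 (DiscG disc_good0)
open Crest.Agent.R165.DiscCompx722
open Crest.Agent.R165.Topx683 (VHyp)

namespace Crest.Agent.R165.SrcGenx359

/-- the amplitudes of the fine phase -/
theorem aC_fine {c : Cst} {K1 K2 : ℕ} (h12 : K1 ≤ K2) {k : ℕ} (hk : k ≤ K1) :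
    aC c K1 K2 k = Outx683.amp c k := by
  unfold aC
  rw [aD_fine h12 hk]
  rfl

/-- **the structure `GenH` for large discs**, up to `k1` -/
theorem genH_disc {c : Cst} {C1 q Jn : ℕ} {u v cc : ℝ} {n m : ℕ} {x : Fin n → ℂ}
    {y : Fin m → ℂ} {j : Fin m → Fin 2} {Q : ℝ × ℝ} {cc' v' : ℝ}
    (hG : DiscG c.p c.k0 C1 u v' cc' x (Fin.elim0 : Fin 0 → ℂ) Q)
    (hch : ∀ k ≤ k1 c.p c.k0 u Q.1, SrcCh (domainSites (Metric.ball (0 : ℂ) Q.2) Q.1)
      (xb Q.1 x) (eb Q.1 y j) (C2c c * rr c.p c.k0 k))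
    {T : Finset (ℤ × ℤ)} (hT : (T : Set (ℤ × ℤ)) = domainSites (Metric.ball (0 : ℂ) Q.2) Q.1)
    {b : BoundaryCondition} {P : MPar} {CF : ℝ≥0∞} {M0 M t : ℝ}
    (h1f : k1 c.p c.k0 u Q.1 ≤ kf c.p c.k0 cc Q)
    (h12 : k1 c.p c.k0 u Q.1 ≤ k2 c.p c.k0 v Q.1) (hMt : 0 ≤ M0 * t)
    (hrun : Run3 c CF Jn q (domF c P T b fun i => meshIndex Q.1 (x i))
      (Bg.dom T b fun i => meshIndex Q.1 (x i)).w T (k1 c.p c.k0 u Q.1) (k2 c.p c.k0 v Q.1)
      (kf c.p c.k0 cc Q) M0 M t) :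
    GenH c C1 P T b (xb Q.1 x) (eb Q.1 y j) CF (ENNReal.ofReal (M0 * t))
      (k1 c.p c.k0 u Q.1) := by
  have hbulk : ∀ k < k1 c.p c.k0 u Q.1,
      NSumx915.NN fd (rr c.p c.k0 (k + 1)) (3 * ENNReal.ofReal c.Γ)
        (fun U => pG (wU (Bg.dom T b (xb Q.1 x)).w (Outx683.amp c (k + 1))
          (rr c.p c.k0 (k + 1)) U) ((flow0 (Bg.dom T b (xb Q.1 x)) P DD ∅ c.p c.k0).H k U)) ≤
          CF * (ENNReal.ofReal (M0 * t) * (1 / 2) ^ k) ∧
      NSumx915.NN fd (rr c.p c.k0 (k + 1)) (3 * ENNReal.ofReal c.Γ)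
        (fun U => pG (wU (Bg.dom T b (xb Q.1 x)).w (Outx683.amp c (k + 1))
          (rr c.p c.k0 (k + 1)) U) ((flow0 (Bg.dom T b (xb Q.1 x)) P DD ∅ c.p c.k0).A k U)) ≤
          CF * (ENNReal.ofReal (M0 * t) * (1 / 2) ^ k) := by
    intro k hk
    have hk' : k < kf c.p c.k0 cc Q := hk.trans_le h1f
    have hstep := hrun.ctl.step k hk' (Or.inl hk)
    have hnp := hrun.out.npf k hk'.le hk.le
    rw [geo_half hMt] at hnp
    exact bulk_str hrun.ctl.str hk' hstep hnp (aC_fine h12 hk)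
  refine ⟨?_, fun k hk => ?_, fun k hk => ?_, fun k hk => (hbulk k hk).1,
    fun k hk => (hbulk k hk).2⟩
  · obtain ⟨ρ, κ, h1, h2, h3⟩ := hG.reg
    refine ⟨ρ, κ, ?_, h2, fun k hk => h3 k (hk.trans_le hG.k1_le)⟩
    rw [hT]; exact h1
  · exact ⟨((∅ : Finset (ℤ × ℤ)) : Set (ℤ × ℤ)), by rw [hT]; exact hG.fine0 hk⟩
  · rw [hT]; exact hch k hk

set_option maxHeartbeats 2000000 in
/-- **the total norm of the remainders in large discs**, fine phase: all `k ≤ k1 c.p c.k0 u a` -/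
theorem sA_disc {J : ℝ} {R : ℕ} {V : Finset (ℤ × ℤ) → ℝ} (hV : VHyp R V) :
    EvC fun c => Std c ∧ ∃ T1 > 0, ∀ C : ℝ, ∃ ε > 0, ∃ M > 0,
      ∀ n m : ℕ, Even n → 1 ≤ m → ∀ (x : Fin n → ℂ) (y : Fin m → ℂ) (j : Fin m → Fin 2),
      Function.Injective (Fin.append x y) → ∃ u1 > 0, ∀ u : ℝ, 0 < u → u ≤ u1 →
      ∀ᶠ Q in dl, ∀ lam β z : ℝ, |lam| < ε → NearP J C lam β z → PF J R V C c lam β z →
      (∀ k, |zE J R V c lam β z 0 k| ≤ 2) →
      ∀ T : Finset (ℤ × ℤ), (T : Set (ℤ × ℤ)) = domainSites (Metric.ball (0 : ℂ) Q.2) Q.1 →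
      ∀ (b : BoundaryCondition)
        (he : ∀ i, (Bg.dom T b (xb Q.1 x)).w (eb Q.1 y j i).1 (eb Q.1 y j i).2 ≠ 0) (t : ℝ),
        0 < t → m * t ≤ T1 → ∀ k ≤ k1 c.p c.k0 u Q.1,
        totP c (Bg.dom T b (xb Q.1 x)) (mpar J lam R V β z) (eb Q.1 y j) he t k ≤
          ENNReal.ofReal (M * |lam| * (m * t) * (1 / 2) ^ k) := by
  obtain ⟨Cb, A, hgen⟩ := sA_gen (J := J) hV
  refine (hgen.and (ev_disc3c (PlBx117.plB (J := J) hV))).mono ?_
  rintro c ⟨⟨hs, h5, hnear, C1, hG, T1, hT1, hgen⟩, -, -, -, CF, hCF, C1', -, c1, hc1, hdisc⟩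
  refine ⟨hs, T1, hT1, fun C => ?_⟩
  obtain ⟨ε1, hε1, M0, hM0, hdisc⟩ := hdisc C
  obtain ⟨ε2, hε2, M, hM, hgen⟩ := hgen C CF hCF M0 hM0.le
  refine ⟨min ε1 ε2, lt_min hε1 hε2, M, hM, ?_⟩
  intro n m hn hm x y j hinj
  obtain ⟨u0, v0, hu0, huv0, hdisc⟩ := hdisc n hn x (inj_left hinj)
  obtain ⟨c1', hc1', hgood⟩ := disc_good0 C1
  obtain ⟨u0', v0', hu0', hv0', hgood⟩ := hgood n x (inj_left hinj)
  obtain ⟨u1, hu1, hch⟩ := srcCh_dl hinj j (C2c c)
  have hp : 1 ≤ c.p := by have := hs.p_pos; omega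
  refine ⟨min u1 (min u0 u0'), by positivity, fun u hu huu => ?_⟩
  have hl1 : u ≤ u1 := huu.trans (min_le_left _ _)
  have hl2 : u ≤ u0 := huu.trans ((min_le_right _ _).trans (min_le_left _ _))
  have hl3 : u ≤ u0' := huu.trans ((min_le_right _ _).trans (min_le_right _ _))
  obtain ⟨Jn, M', hMM', hdisc⟩ := hdisc u v0 c1 hu hl2 le_rfl hc1 le_rfl
  filter_upwards [hdisc, hgood u v0' c1' hu hl3 le_rfl hc1' le_rfl c.p c.k0 hp,
    hch u hu hl1 c.p c.k0] with Q h1 h2 h3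
  obtain ⟨hDG, h12, -, -, hrun⟩ := h1
  intro lam β z hlam hnr hPF hz T hT b he t ht hmt k hk
  obtain ⟨hr3, -⟩ := hrun lam β z (hlam.trans_le (min_le_left _ _)) hnr hPF T hT b
  have hH := genH_disc (b := b) h2 h3 hT hDG.k1_le h12 (mul_nonneg hM0.le (abs_nonneg _)) hr3
  exact hgen lam β z (hlam.trans_le (min_le_right _ _)) hnr hz T b n m (xb Q.1 x) (eb Q.1 y j)
    (k1 c.p c.k0 u Q.1) hm hH he t ht hmt k hk

end Crest.Agent.R165.SrcGenx359
end
end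

-- ▼ part R165/EnPNum_622
section

/-!
# Row 165 (S0250), leaf EnR, discs (helper622): numbers at the first crude step `k1`

* `vS_k1` : `t u / 2^p ≤ a A² v²` at `k1`
* `amp_k1_tendsto` : `A^(2m) (C σ^k1) → 0`
* `amp_k1_one` : `1 ≤ A` at `k1`
-/

set_option autoImplicit false
set_option linter.unusedVariables false

noncomputable section

namespace Crest.Agent.R165.EnPNumx622

open Filter Topology
open Crest.Agent.R165.PEndx683 Crest.Agent.R165.Outx683 Crest.Agent.R165.GSysx387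
open Crest.Agent.R165.SrcLimx697 Crest.Agent.R165.DiscKx892

variable {c : Cst} {t : ℝ}

/-- **the weight at the first crude step against the mesh** -/
theorem vS_k1 (ht : 0 < t) (h0 : 0 < c.A0) (hδ : 0 ≤ c.δ) (hp : 1 ≤ c.p) {u a : ℝ} (ha : 0 < a) :
    t * (u / 2 ^ c.p) ≤
      a * (amp c (k1 c.p c.k0 u a) ^ 2 * vS c t (k1 c.p c.k0 u a) ^ 2) := by
  set N := k1 c.p c.k0 u a with hN
  have h2 := amp_pos h0 hδ N
  have e : amp c N ^ 2 * vS c t N ^ 2 = t * rr c.p c.k0 N := by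
    rw [vS_sq ht.le]
    field_simp
  rw [e]
  have h3 : u / a < rr c.p c.k0 (N + 1) := lt_rr_k1 hp u a (by rw [hN]; exact Nat.lt_succ_self _)
  rw [SrcLimx697.rr_succ, div_lt_iff₀ ha] at h3
  have h5 : u / 2 ^ c.p ≤ a * rr c.p c.k0 N := by
    rw [div_le_iff₀ (by positivity)]
    calc u ≤ 2 ^ c.p * (rr c.p c.k0 N : ℝ) * a := h3.le
      _ = _ := by ring
  calc t * (u / 2 ^ c.p) ≤ t * (a * rr c.p c.k0 N) := mul_le_mul_of_nonneg_left h5 ht.le
    _ = _ := by ring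

/-- the same eventually -/
theorem vS_k1_ev (ht : 0 < t) (h0 : 0 < c.A0) (hδ : 0 ≤ c.δ) (hp : 1 ≤ c.p) (u : ℝ) :
    ∀ᶠ a in 𝓝[>] (0 : ℝ), t * (u / 2 ^ c.p) ≤
      a * (amp c (k1 c.p c.k0 u a) ^ 2 * vS c t (k1 c.p c.k0 u a) ^ 2) := by
  filter_upwards [self_mem_nhdsWithin] with a ha
  exact vS_k1 ht h0 hδ hp ha





end Crest.Agent.R165.EnPNumx622
end
end

-- ▼ part R165/FineD_375

/-!
# Row 165 (S0250), leaf EnR: the fine phase of the large discs (helper375)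

* `vol_of_volS`, `K0P_zero` : supports of the initial activities in an admissible volume
* `fineD` : `EnFinex811.FineD` for `Ze`, `eb` of `ZeEb_922`
-/

set_option autoImplicit false

noncomputable section

open Filter Topology
open scoped ENNReal
open Crest.ProbabilityR.IsingModel

namespace Crest.Agent.R165.FineDx375

open Crest.Agent.R165.GSysx387 Crest.Agent.R165.GDefx387 Crest.Agent.R165.FRDPolyx439
  Crest.Agent.R165.Latx683 Crest.Agent.R165.PEndx683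
  Crest.Agent.R165.Outx683 Crest.Agent.R165.SrcInsx991 Crest.Agent.R165.SrcChx485
  Crest.Agent.R165.SrcLimx697 Crest.Agent.R165.ZeEbx922 Crest.Agent.R165.SrcSymx922
  Crest.Agent.R165.BgIsox432 Crest.Agent.R165.DiscKx892
open Crest.Agent.R165.SrcDefx991 (VS Src)
open Crest.Agent.R165.Bkgx683 (MPar mpar Bg bondSrc)
open Crest.Agent.R165.JRunSx408 (eb xb VolS)
open Crest.Agent.R165.JVolx950 (Vol)
open Crest.Agent.R165.J4Geox126 (faE)

/-- admissible volumes of 408 are admissible for 950 -/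
theorem vol_of_volS {T : Finset (ℤ × ℤ)} {b : BoundaryCondition} {R m : ℕ}
    {e : Fin m → Bkgx683.EG ℤ} {Λ : Finset (ℤ × ℤ)} (v : VolS T b R e Λ) :
    Vol T b R (fun k => faE (e k)) Λ :=
  ⟨fun _ h => v.cor _ (JVolx950.mem_Wf.1 h), fun h hh => v.nbr h (JVolx950.mem_Wf.1 hh), v.shp,
    v.src⟩

/-- the initial activities vanish outside an admissible volume -/
theorem K0P_zero {T : Finset (ℤ × ℤ)} {b : BoundaryCondition} {n m : ℕ} {X : Fin n → ℤ × ℤ}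
    {e : Fin m → Bkgx683.EG ℤ} {Λ : Finset (ℤ × ℤ)} {J lam : ℝ} {R : ℕ}
    {V : Finset (ℤ × ℤ) → ℝ} {β z : ℝ} (v : VolS T b (max R 1) e Λ) (l k0 : ℕ)
    (U : Finset (ℤ × ℤ)) (hU : ¬ U ⊆ Λ) :
    K0P (Bg.dom T b X) (mpar J lam R V β z) e l k0 U = 0 :=
  Vol.supp1 (P := mpar J lam R V β z) (src := bondSrc (Fld ℤ) e) (vol_of_volS v)
    (LinearMap.inl ℝ (Fld ℤ) (Src m)) l k0 U hU

/-- **the fine phase of the large discs** -/
theorem fineD {J : ℝ} {R : ℕ} {V : Finset (ℤ × ℤ) → ℝ} (hV : Topx683.VHyp R V) :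
    ForP J (PF J R V) fun c lam β z =>
      EnFinex811.FineD J lam R V β z c (Ze J R V c lam β z) (eb J R V c lam β z) := by
  unfold ForP
  obtain ⟨Cb, hCb, hreg⟩ := BkExx812.exists_bkReg
  refine (EvC.and (EvC.and (SrcGenx359.sA_disc (J := J) hV) (ZeAx915.zA_all (J := J) hV))
    (EvC.and (hz_ev (J := J) hV (ZeAx915.zInc hV)) (SrcFinex484.fineC_ev R))).mono
    fun c hc C => ?_
  obtain ⟨⟨⟨hstd, T1, hT1, h1⟩, h2⟩, h3, hfc⟩ := hc
  obtain ⟨ε₁, hε₁, M₁, hM₁, h1⟩ := h1 C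
  obtain ⟨ε₂, hε₂, T2, hT2, M₂, hM₂, h2⟩ := h2 C
  obtain ⟨ε₃, hε₃, M₃, hM₃, h3⟩ := h3 C
  refine ⟨min ε₁ (min ε₂ ε₃), lt_min hε₁ (lt_min hε₂ hε₃), fun lam β z hl hn hp => ?_⟩
  have hl1 : |lam| < ε₁ := hl.trans_le (min_le_left _ _)
  have hl2 : |lam| < ε₂ := hl.trans_le ((min_le_right _ _).trans (min_le_left _ _))
  have hl3 : |lam| < ε₃ := hl.trans_le ((min_le_right _ _).trans (min_le_right _ _))
  obtain ⟨hzE, -, hpl⟩ := h2 lam β z hl2 hn hp
  obtain ⟨hZe, -, hzr⟩ := h3 lam β z hl3 hn hp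
  intro n m hm hev x y j hinj
  have hm0 : (0 : ℝ) < m := by exact_mod_cast hm
  set t : ℝ := min (T1 / m) T2 with ht
  have ht0 : 0 < t := lt_min (by positivity) hT2
  have htm : m * t ≤ T1 := by
    calc (m : ℝ) * t ≤ m * (T1 / m) := mul_le_mul_of_nonneg_left (min_le_left _ _) hm0.le
      _ = T1 := by field_simp
  obtain ⟨u1, hu1, h1⟩ := h1 n m hev hm x y j hinj
  obtain ⟨u2, hu2, hch⟩ := srcCh_dl hinj j (max (s2 + 3) m)
  refine ⟨min u1 u2, lt_min hu1 hu2, fun u hu huu => ?_⟩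
  have hQ := (h1 u hu (huu.trans (min_le_left _ _))).and
    (hch u hu (huu.trans (min_le_right _ _)) c.p c.k0)
  set Ce : ℝ := max (M₁ * |lam| * (m * t)) (M₂ * |lam| * t) with hCe
  have hCe0 : 0 ≤ Ce := le_max_of_le_right (by positivity)
  refine ⟨1 / 2, 5 * Ce + (88 * Cb ^ 2 * t + 1) * (M₃ * |lam|), 44 * Cb ^ 2 * t,
    t * (u / 2 ^ c.p), fun a => vS c t (k1 c.p c.k0 u a), by norm_num, by norm_num,
    by positivity, by positivity, by positivity, ?_⟩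
  have hp1 : 1 ≤ c.p := (by norm_num : 1 ≤ 4).trans hfc.p4
  filter_upwards [EnPNumx622.vS_k1_ev ht0 (one_pos.trans_le hfc.A0) hfc.δ0 hp1 u,
    eventually_curry_iff.1 hQ] with a hκ ha
  refine ⟨hκ, ?_⟩
  filter_upwards [ha] with B hB T hT Λ hΛ he
  obtain ⟨hB1, hB2⟩ := hB
  have hch' := hB2 (k1 c.p c.k0 u a) le_rfl
  rw [← hT] at hch'
  have hrr : 1 ≤ rr c.p c.k0 (k1 c.p c.k0 u a) := rr_pos _ _ _
  refine SrcFinex484.fineAt_of hfc hreg (fun U hU => K0P_zero hΛ c.p c.k0 U hU) hch' ?_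
    (Nat.mul_le_mul_right _ (le_max_right _ _)) ht0 hCe0 (by positivity) ?_ ?_ hzr hZe
  · calc (s2 + 2) * rr c.p c.k0 (k1 c.p c.k0 u a) + 1 ≤
        (s2 + 3) * rr c.p c.k0 (k1 c.p c.k0 u a) := by
          rw [show s2 + 3 = (s2 + 2) + 1 by ring, add_mul (s2 + 2) 1, one_mul]
          omega
      _ ≤ _ := Nat.mul_le_mul_right _ (le_max_left _ _)
  · intro k hk
    refine (hB1 lam β z hl1 hn hp (hzE 0) T hT .plus he t ht0 htm k hk).trans
      (ENNReal.ofReal_le_ofReal ?_)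
    exact mul_le_mul_of_nonneg_right (le_max_left _ _) (by positivity)
  · intro jj k
    refine (hpl t ht0 (min_le_right _ _) jj k).trans (ENNReal.ofReal_le_ofReal ?_)
    exact mul_le_mul_of_nonneg_right (le_max_right _ _) (by positivity)

end Crest.Agent.R165.FineDx375
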