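import Crest.Agent.R165.J2d_606

-- ▼ part R165/J2e_606
section

/-!
# Row 165 (S0250), block J, (J2) part e: backgrounds of infinite extent, free boundary conditions

* `noHole_box`
* `J2_gen` : (J2) for any background `v` with finite inverse `S`, in a large box
* `freew T x` : free weights (`x` on the bonds inside `T`, one elsewhere)
* `exists_finv_free` : existence of the covariance (even number of insertions)
* `J2_free` : (J2) for bonds inside `T`
-/

set_option autoImplicit false

noncomputable section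

namespace Crest.Agent.R165.J2ex606

open Crest.Agent.R165.Gr0x606 Crest.Agent.R165.Gr1x606 Crest.Agent.R165.J1ax606
  Crest.Agent.R165.J1bx606 Crest.Agent.R165.J1cx606 Crest.Agent.R165.J2ax606
  Crest.Agent.R165.J2bx606 Crest.Agent.R165.J2cx606 Crest.Agent.R165.J2dx606

/-- the box `[-R, R]²` -/
def bx (R : ℤ) : Finset (ℤ × ℤ) := Finset.Icc (-R) R ×ˢ Finset.Icc (-R) R

theorem mem_bx {R : ℤ} {z : ℤ × ℤ} : z ∈ bx R ↔ (-R ≤ z.1 ∧ z.1 ≤ R) ∧ (-R ≤ z.2 ∧ z.2 ≤ R) := by
  rw [bx, Finset.mem_product, Finset.mem_Icc, Finset.mem_Icc]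


/-- `N` is constant along bonds which do not touch `T` -/
theorem const_of_walls {N T : Finset (ℤ × ℤ)} (h : walls N ⊆ touch T) {z : ℤ × ℤ} {j : Fin 2}
    (h1 : z ∉ T) (h2 : z + uv j ∉ T) : z ∈ N ↔ z + uv j ∈ N := by
  by_contra hc
  have : ((z, j) : EG ℤ) ∈ walls N := mem_walls.2 hc
  have := mem_touch.1 (h this)
  exact this.elim h1 h2

/-- an infinite injective sequence of members contradicts finiteness -/
theorem no_inf (N : Finset (ℤ × ℤ)) (p : ℕ → ℤ × ℤ) (hp : Function.Injective p)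
    (h : ∀ n, p n ∈ N) : False := by
  have : Set.range p ⊆ (N : Set (ℤ × ℤ)) := by
    rintro _ ⟨n, rfl⟩; exact h n
  exact (Set.infinite_range_of_injective hp) ((Finset.finite_toSet _).subset this)

theorem noHole_box (R : ℤ) : NoHole (bx R) := by
  intro N h z hz
  by_contra hc
  rw [mem_bx] at hc
  have hcase : R < z.1 ∨ z.1 < -R ∨ R < z.2 ∨ z.2 < -R := by omega
  rcases hcase with h1 | h1 | h1 | h1
  · refine no_inf N (fun n => (z.1 + n, z.2)) (fun a b hab => by simpa using hab) fun n => ?_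
    induction n with
    | zero => simpa using hz
    | succ n ih =>
      have := const_of_walls h (z := (z.1 + n, z.2)) (j := 0) (by rw [mem_bx]; simp only; omega)
        (by rw [mem_bx]; simp only [uv, if_true, Prod.mk_add_mk]; omega)
      rw [this] at ih
      simp only [uv, if_true, Prod.mk_add_mk, add_zero] at ih
      push_cast
      rwa [← add_assoc]
  · refine no_inf N (fun n => (z.1 - n, z.2)) (fun a b hab => by simpa using hab) fun n => ?_
    induction n with
    | zero => simpa using hz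
    | succ n ih =>
      have := const_of_walls h (z := (z.1 - (n + 1), z.2)) (j := 0)
        (by rw [mem_bx]; simp only; omega)
        (by rw [mem_bx]; simp only [uv, if_true, Prod.mk_add_mk]; omega)
      simp only [uv, if_true, Prod.mk_add_mk, add_zero] at this
      have e : z.1 - ((n : ℤ) + 1) + 1 = z.1 - n := by ring
      rw [e] at this
      push_cast
      exact this.2 ih
  · refine no_inf N (fun n => (z.1, z.2 + n)) (fun a b hab => by simpa using hab) fun n => ?_
    induction n with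
    | zero => simpa using hz
    | succ n ih =>
      have := const_of_walls h (z := (z.1, z.2 + n)) (j := 1) (by rw [mem_bx]; simp only; omega)
        (by rw [mem_bx]; simp only [uv, one_ne_zero, if_false, Prod.mk_add_mk]; omega)
      rw [this] at ih
      simp only [uv, one_ne_zero, if_false, Prod.mk_add_mk, add_zero] at ih
      push_cast
      rwa [← add_assoc]
  · refine no_inf N (fun n => (z.1, z.2 - n)) (fun a b hab => by simpa using hab) fun n => ?_
    induction n with
    | zero => simpa using hz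
    | succ n ih =>
      have := const_of_walls h (z := (z.1, z.2 - (n + 1))) (j := 1)
        (by rw [mem_bx]; simp only; omega)
        (by rw [mem_bx]; simp only [uv, one_ne_zero, if_false, Prod.mk_add_mk]; omega)
      simp only [uv, one_ne_zero, if_false, Prod.mk_add_mk, add_zero] at this
      have e : z.2 - ((n : ℤ) + 1) + 1 = z.2 - n := by ring
      rw [e] at this
      push_cast
      exact this.2 ih

/-- every finite set of bonds touches a large box -/
theorem exists_box (A : Finset (EG ℤ)) : ∃ R : ℤ, 0 < R ∧ ∀ R', R ≤ R' → A ⊆ touch (bx R') := by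
  obtain ⟨R, hR0, hR⟩ := exists_bd A
  refine ⟨R, hR0, fun R' hR' e he => ?_⟩
  rw [mem_touch, mem_bx]
  have := hR e he
  omega

theorem exists_box_sites (A : Finset (ℤ × ℤ)) : ∃ R : ℤ, 0 < R ∧ ∀ z ∈ A, -R < z.1 ∧ z.1 < R ∧
    -R < z.2 ∧ z.2 < R := by
  obtain ⟨R, hR0, hR⟩ := exists_bd (A.image fun z => ((z, 0) : EG ℤ))
  exact ⟨R, hR0, fun z hz => hR (z, 0) (Finset.mem_image_of_mem _ hz)⟩

/-- restriction of the weights to the bonds touching `L` -/
def rst (L : Finset (ℤ × ℤ)) (v : EG ℤ → ℝ) (e : EG ℤ) : ℝ := if e ∈ touch L then v e else 0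

theorem PP_rst (L : Finset (ℤ × ℤ)) (v : EG ℤ → ℝ) : PP (rst L v) (touch L) = PP v (touch L) := by
  refine Finset.prod_congr rfl fun e he => ?_
  rw [rst, if_pos he]

theorem PP_congr {v v' : EG ℤ → ℝ} {A : Finset (EG ℤ)} (h : ∀ e ∈ A, v e = v' e) :
    PP v A = PP v' A :=
  Finset.prod_congr rfl fun e he => by rw [h e he]

/-- the functional of the box -/
def fb (L : Finset (ℤ × ℤ)) (v : EG ℤ → ℝ) : Gr (VI (HE ℤ)) →ₗ[ℝ] ℝ :=
  E0 ∘ₗ LinearMap.mulLeft ℝ (PP v (touch L) : Gr (VI (HE ℤ)))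

theorem fb_apply (L : Finset (ℤ × ℤ)) (v : EG ℤ → ℝ) (F : Gr (VI (HE ℤ))) :
    fb L v F = E0 ((PP v (touch L) : Gr (VI (HE ℤ))) * F) := rfl

theorem sd_fb (L : Finset (ℤ × ℤ)) (v : EG ℤ → ℝ) : SD (rst L v) (fb L v) := by
  have h := (SD_E0 (G := ℤ)).edges (rst L v) (touch L) (fun e he => if_neg he)
  have e1 : (fun _ : EG ℤ => (0 : ℝ)) + rst L v = rst L v := by funext e; simp
  rw [e1, PP_rst] at h
  exact h

/-- the half-edge column `k` of `S` is supported on bonds touching `L` -/
def Good (L : Finset (ℤ × ℤ)) (S : HE ℤ → HE ℤ → ℝ) (k : HE ℤ) : Prop :=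
  ∀ h, S h k ≠ 0 → ed h ∈ touch L

/-- box functional = Gaussian state of the infinite background, on the good fields -/
theorem fb_eval {v : EG ℤ → ℝ} {S : HE ℤ → HE ℤ → ℝ} (hS : FInv v S) (L : Finset (ℤ × ℤ))
    (U : Set (HE ℤ)) (hU : ∀ k ∈ U, Good L S k) {F : Gr (VI (HE ℤ))}
    (hF : F ∈ Algebra.adjoin ℝ (ph '' U)) :
    fb L v F = fb L v 1 * EE (covOf S hS.anti) F := by
  refine local_eval hS (sd_fb L v) U ?_ hF
  intro k hk h hh
  rw [rst, if_pos (hU k hk h hh)]

/-- large boxes are good -/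
theorem exists_good {v : EG ℤ → ℝ} {S : HE ℤ → HE ℤ → ℝ} (hS : FInv v S) (U : Finset (HE ℤ)) :
    ∃ R : ℤ, 0 < R ∧ ∀ R', R ≤ R' → ∀ k ∈ U, Good (bx R') S k := by
  obtain ⟨R, hR0, hR⟩ := exists_box ((U.biUnion hS.row).image ed)
  refine ⟨R, hR0, fun R' hR' k hk h hh => hR R' hR' ?_⟩
  refine Finset.mem_image_of_mem _ (Finset.mem_biUnion.2 ⟨k, hk, ?_⟩)
  rw [FInv.row, Set.Finite.mem_toFinset]
  exact hh

/-- half-edges of a set of bonds -/
def hes (B : Finset (EG ℤ)) : Finset (HE ℤ) := B.image pe ∪ B.image qe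

theorem mem_hes {B : Finset (EG ℤ)} {e : EG ℤ} (he : e ∈ B) : pe e ∈ hes B ∧ qe e ∈ hes B :=
  ⟨Finset.mem_union_left _ (Finset.mem_image_of_mem _ he),
    Finset.mem_union_right _ (Finset.mem_image_of_mem _ he)⟩

theorem BB_mem (v : EG ℤ → ℝ) (B : Finset (EG ℤ)) (U : Set (HE ℤ))
    (hU : ∀ e ∈ B, pe e ∈ U ∧ qe e ∈ U) :
    ((BB v B : Ge (VI (HE ℤ))) : Gr (VI (HE ℤ))) ∈ Algebra.adjoin ℝ (ph '' U) := by
  have h := mem_adjoin_prod U B hU (fun _ => 1) (fun e => -(2 * v e))
  have e1 : (∏ e ∈ B, (algebraMap ℝ (Ge (VI (HE ℤ))) ((fun _ => (1 : ℝ)) e) +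
      (fun e => -(2 * v e)) e • bb e) : Ge (VI (HE ℤ))) = BB v B := by
    refine Finset.prod_congr rfl fun e _ => ?_
    simp only [map_one, neg_smul, sub_eq_add_neg]
  rw [e1] at h
  exact h

theorem PP_mem (v : EG ℤ → ℝ) (B : Finset (EG ℤ)) (U : Set (HE ℤ))
    (hU : ∀ e ∈ B, pe e ∈ U ∧ qe e ∈ U) :
    ((PP v B : Ge (VI (HE ℤ))) : Gr (VI (HE ℤ))) ∈ Algebra.adjoin ℝ (ph '' U) := by
  have h := mem_adjoin_prod U B hU (fun _ => 1) v
  have e1 : (∏ e ∈ B, (algebraMap ℝ (Ge (VI (HE ℤ))) ((fun _ => (1 : ℝ)) e) +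
      v e • bb e) : Ge (VI (HE ℤ))) = PP v B := by
    refine Finset.prod_congr rfl fun e _ => ?_
    simp only [map_one]
  rw [e1] at h
  exact h

/-- **(J2)** for a background `v` of any extent with finite inverse `S` -/
theorem J2_gen {v : EG ℤ → ℝ} {S : HE ℤ → HE ℤ → ℝ} (hS : FInv v S) (L : Finset (ℤ × ℤ))
    (hL : NoHole L) (w : EG ℤ → ℝ) {n : ℕ} (xs : Fin n → ℤ × ℤ)
    (hv : ∀ e ∈ touch L, v e = w e * cut xs e) (B : Finset (EG ℤ)) (hB : B ⊆ touch L)
    (hgood : ∀ k ∈ hes B, Good L S k) :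
    Zs L w xs B = Zs L w xs ∅ * EE (covOf S hS.anti)
      ((BB v B : Ge (VI (HE ℤ))) : Gr (VI (HE ℤ))) := by
  have h1 : Zs L w xs B = fb L v ((BB v B : Ge (VI (HE ℤ))) : Gr (VI (HE ℤ))) := by
    rw [Zs_eq L hL, fb_apply, ← Ge.coe_mul]
    congr 2
    rw [← PP_rst L v]
    have h2 : BB v B = BB (rst L v) B :=
      Finset.prod_congr rfl fun e he => by rw [rst, if_pos (hB he)]
    rw [h2, ← PP_flip (rst L v) (touch L) B (fun e he => if_neg he)]
    refine PP_congr fun e he => ?_
    rw [rst, if_pos he, hv e he]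
  have h2 : Zs L w xs ∅ = fb L v 1 := by
    rw [Zs_eq L hL, fb_apply, mul_one]
    congr 2
    refine PP_congr fun e he => ?_
    rw [hv e he]; simp
  rw [h1, h2]
  exact fb_eval hS L (hes B : Set (HE ℤ)) (fun k hk => hgood k hk)
    (BB_mem v B _ fun e he => mem_hes he)

/-! ### free boundary conditions -/

/-- free weights: `x` on the bonds inside `T`, one elsewhere -/
def freew (T : Finset (ℤ × ℤ)) (x : EG ℤ → ℝ) (e : EG ℤ) : ℝ :=
  if e.1 ∈ T ∧ e.1 + uv e.2 ∈ T then x e else 1

theorem prod_freew (T : Finset (ℤ × ℤ)) (x : EG ℤ → ℝ) (N : Finset (ℤ × ℤ)) :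
    ∏ e ∈ walls N, freew T x e = ∏ e ∈ walls (N ∩ T), freew T x e := by
  unfold freew
  rw [← Finset.prod_filter, ← Finset.prod_filter]
  congr 1
  ext e
  simp only [Finset.mem_filter, mem_walls, Finset.mem_inter]
  tauto

theorem sig_inter {N T : Finset (ℤ × ℤ)} {z : ℤ × ℤ} (hz : z ∈ T) : sig (N ∩ T) z = sig N z := by
  unfold sig
  simp [hz]

/-- summing over the dummy spins -/
theorem sum_dummy {T L : Finset (ℤ × ℤ)} (hTL : T ⊆ L) (F : Finset (ℤ × ℤ) → ℝ) :
    ∑ N ∈ L.powerset, F (N ∩ T) = 2 ^ (L \ T).card * ∑ N ∈ T.powerset, F N := by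
  have h1 : ∑ N ∈ L.powerset, F (N ∩ T) = ∑ p ∈ T.powerset ×ˢ (L \ T).powerset, F p.1 := by
    refine Finset.sum_nbij' (fun N => (N ∩ T, N \ T)) (fun p => p.1 ∪ p.2) ?_ ?_ ?_ ?_ ?_
    · intro N hN
      rw [Finset.mem_powerset] at hN
      rw [Finset.mem_product, Finset.mem_powerset, Finset.mem_powerset]
      exact ⟨Finset.inter_subset_right, Finset.sdiff_subset_sdiff hN (le_refl _)⟩
    · rintro ⟨M, K⟩ hp
      rw [Finset.mem_product, Finset.mem_powerset, Finset.mem_powerset] at hp
      rw [Finset.mem_powerset]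
      exact Finset.union_subset (hp.1.trans hTL) (hp.2.trans Finset.sdiff_subset)
    · intro N _
      ext z; simp only [Finset.mem_union, Finset.mem_inter, Finset.mem_sdiff]; tauto
    · rintro ⟨M, K⟩ hp
      rw [Finset.mem_product, Finset.mem_powerset, Finset.mem_powerset] at hp
      refine Prod.ext ?_ ?_
      · ext z
        simp only [Finset.mem_union, Finset.mem_inter]
        have h1 := @hp.1 z
        have h2 := @hp.2 z
        rw [Finset.mem_sdiff] at h2
        tauto
      · ext z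
        simp only [Finset.mem_union, Finset.mem_sdiff]
        have h1 := @hp.1 z
        have h2 := @hp.2 z
        rw [Finset.mem_sdiff] at h2
        tauto
    · intro N _; rfl
  rw [h1, Finset.sum_product]
  simp only [Finset.sum_const, Finset.card_powerset, nsmul_eq_mul]
  rw [Finset.mul_sum]
  push_cast
  rfl

/-- the free spin sum does not feel the dummy spins -/
theorem Zs_free_box {T L : Finset (ℤ × ℤ)} (hTL : T ⊆ L) (x : EG ℤ → ℝ) {n : ℕ}
    (xs : Fin n → ℤ × ℤ) (hxs : ∀ i, xs i ∈ T) (B : Finset (EG ℤ))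
    (hB : ∀ e ∈ B, e.1 ∈ T ∧ e.1 + uv e.2 ∈ T) :
    Zs L (freew T x) xs B = 2 ^ (L \ T).card * Zs T (freew T x) xs B := by
  unfold Zs
  rw [← sum_dummy hTL]
  refine Finset.sum_congr rfl fun N _ => ?_
  rw [← prod_freew]
  congr 2
  · exact Finset.prod_congr rfl fun i _ => (sig_inter (hxs i)).symm
  · refine Finset.prod_congr rfl fun e he => ?_
    unfold eps
    rw [sig_inter (hB e he).1, sig_inter (hB e he).2]

/-- **(J2)** for free boundary conditions and bonds inside `T` -/
theorem J2_free {T : Finset (ℤ × ℤ)} {x : EG ℤ → ℝ} {n : ℕ} {xs : Fin n → ℤ × ℤ}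
    (hxs : ∀ i, xs i ∈ T) {S : HE ℤ → HE ℤ → ℝ}
    (hS : FInv (fun e => freew T x e * cut xs e) S) (B : Finset (EG ℤ))
    (hB : ∀ e ∈ B, e.1 ∈ T ∧ e.1 + uv e.2 ∈ T) :
    Zs T (freew T x) xs B = Zs T (freew T x) xs ∅ * EE (covOf S hS.anti)
      ((BB (fun e => freew T x e * cut xs e) B : Ge (VI (HE ℤ))) : Gr (VI (HE ℤ))) := by
  obtain ⟨R1, _, hR1⟩ := exists_good hS (hes B)
  obtain ⟨R2, _, hR2⟩ := exists_box B
  obtain ⟨R3, _, hR3⟩ := exists_box_sites T
  set R := max R1 (max R2 R3) with hR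
  have hTL : T ⊆ bx R := by
    intro z hz
    have := hR3 z hz
    rw [mem_bx]
    have h3 : R3 ≤ R := (le_max_right _ _).trans (le_max_right _ _)
    omega
  have h := J2_gen hS (bx R) (noHole_box R) (freew T x) xs (fun e _ => rfl) B
    (hR2 R ((le_max_left _ _).trans (le_max_right _ _)))
    (hR1 R (le_max_left _ _))
  rw [Zs_free_box hTL x xs hxs B hB, Zs_free_box hTL x xs hxs ∅ (by simp), mul_assoc] at h
  exact mul_left_cancel₀ (pow_ne_zero _ two_ne_zero) h

end Crest.Agent.R165.J2ex606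
end
end

-- ▼ part R165/J2f_606

/-!
# Row 165 (S0250), block J, (J2) part f: existence of the covariance, free boundary conditions

* `gE` : gauge function which removes the rays to the right of a box (even number of insertions)
* `exists_finv_free` : `FInv (freew T x * cut xs) S` exists if the partition function with
  insertions does not vanish and the number of insertions is even
* `centred` versions of (J2)
-/

set_option autoImplicit false

noncomputable section

namespace Crest.Agent.R165.J2fx606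

open Crest.Agent.R165.Gr0x606 Crest.Agent.R165.Gr1x606 Crest.Agent.R165.J1ax606
  Crest.Agent.R165.J1bx606 Crest.Agent.R165.J1cx606 Crest.Agent.R165.J2ax606
  Crest.Agent.R165.J2bx606 Crest.Agent.R165.J2cx606 Crest.Agent.R165.J2dx606
  Crest.Agent.R165.J2ex606

/-- gauge function to the right of the column `R` -/
def gE {n : ℕ} (xs : Fin n → ℤ × ℤ) (R : ℤ) (f : ℤ × ℤ) : ℝ :=
  if R ≤ f.1 then ∏ i, (if (xs i).2 ≤ f.2 then (-1 : ℝ) else 1) else 1

theorem prod_sq {ι : Type*} (s : Finset ι) (c : ι → ℝ) (hc : ∀ i ∈ s, c i * c i = 1) :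
    (∏ i ∈ s, c i) * ∏ i ∈ s, c i = 1 := by
  rw [← Finset.prod_mul_distrib]
  exact Finset.prod_eq_one hc

theorem gE_sq {n : ℕ} (xs : Fin n → ℤ × ℤ) (R : ℤ) (f : ℤ × ℤ) : gE xs R f * gE xs R f = 1 := by
  unfold gE
  split_ifs
  · refine prod_sq _ _ fun i _ => ?_
    split_ifs <;> norm_num
  · norm_num

/-- above and below the insertions the gauge function is one (even number of insertions) -/
theorem gE_far {n : ℕ} (hn : Even n) {xs : Fin n → ℤ × ℤ} {R : ℤ}
    (hR : ∀ i, -R < (xs i).2 ∧ (xs i).2 < R) (f : ℤ × ℤ) (hf : f.2 ≤ -R ∨ R ≤ f.2) :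
    gE xs R f = 1 := by
  unfold gE
  split_ifs
  · rcases hf with hf | hf
    · refine Finset.prod_eq_one fun i _ => if_neg ?_
      have := hR i
      omega
    · have : ∀ i ∈ (Finset.univ : Finset (Fin n)), (if (xs i).2 ≤ f.2 then (-1 : ℝ) else 1) = -1 := by
        intro i _
        refine if_pos ?_
        have := hR i
        omega
      rw [Finset.prod_congr rfl this, Finset.prod_const, Finset.card_univ, Fintype.card_fin,
        hn.neg_one_pow]
  · rfl

/-- off a finite set the ray background is pure gauge -/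
theorem gauge_out {n : ℕ} (hn : Even n) {xs : Fin n → ℤ × ℤ} {R : ℤ}
    (hR : ∀ i, (-R < (xs i).1 ∧ (xs i).1 < R) ∧ -R < (xs i).2 ∧ (xs i).2 < R)
    {T : Finset (ℤ × ℤ)} (hT : ∀ z ∈ T, -R < z.1 ∧ z.1 < R ∧ -R < z.2 ∧ z.2 < R)
    (x : EG ℤ → ℝ) (e : EG ℤ) (he : e.1 ∉ bx R) :
    freew T x e * cut xs e = gw (gE xs R) (fun _ => 1) e := by
  obtain ⟨⟨i, j⟩, k⟩ := e
  rw [mem_bx] at he
  simp only at he
  have hw : freew T x ((i, j), k) = 1 := by
    unfold freew
    rw [if_neg]
    rintro ⟨h1, _⟩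
    have := hT _ h1
    simp only at this
    omega
  rw [hw, one_mul]
  have hfar : ∀ f : ℤ × ℤ, (f.2 ≤ -R ∨ R ≤ f.2) → gE xs R f = 1 :=
    gE_far hn (fun i => (hR i).2)
  unfold gw
  rw [mul_one]
  fin_cases k
  · -- horizontal bond
    simp only [Fin.zero_eta, Fin.isValue, pe_zero, qe_zero, Prod.mk_sub_mk, sub_zero]
    by_cases h1 : R < i
    · unfold gE cut sgr
      rw [if_pos (by simp only; omega), if_pos (by simp only; omega), ← Finset.prod_mul_distrib]
      refine Finset.prod_congr rfl fun l _ => ?_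
      have h2 := hR l
      simp only [true_and]
      rcases lt_trichotomy (xs l).2 j with h3 | h3 | h3
      · rw [if_neg (by omega), if_pos (by omega), if_pos (by omega)]; norm_num
      · rw [if_pos (by omega), if_pos (by omega), if_neg (by omega)]; norm_num
      · rw [if_neg (by omega), if_neg (by omega), if_neg (by omega)]; norm_num
    · have hc : cut xs ((i, j), 0) = 1 := by
        unfold cut sgr
        refine Finset.prod_eq_one fun l _ => if_neg ?_
        have h2 := hR l
        simp only [true_and, not_and, not_le]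
        intro h3
        omega
      rw [hc]
      by_cases h2 : i < R
      · unfold gE
        rw [if_neg (by simp only; omega), if_neg (by simp only; omega), one_mul]
      · rw [hfar _ (by simp only; omega), hfar _ (by simp only; omega), one_mul]
  · -- vertical bond
    simp only [Fin.mk_one, Fin.isValue, pe_one, qe_one, Prod.mk_sub_mk, sub_zero]
    have hc : cut xs ((i, j), 1) = 1 := by
      unfold cut sgr
      refine Finset.prod_eq_one fun l _ => if_neg ?_
      simp
    rw [hc]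
    by_cases h1 : R < i
    · have h2 : gE xs R (i - 1, j) = gE xs R (i, j) := by
        unfold gE
        rw [if_pos (by simp only; omega), if_pos (by simp only; omega)]
      rw [h2, gE_sq]
    · by_cases h2 : i < R
      · unfold gE
        rw [if_neg (by simp only; omega), if_neg (by simp only; omega), one_mul]
      · have h3 : gE xs R (i - 1, j) = 1 := by
          unfold gE
          rw [if_neg (by simp only; omega)]
        rw [h3, hfar (i, j) (by simp only; omega), one_mul]

/-- product of two edge products -/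
theorem PP_mul_PP (w u : EG ℤ → ℝ) (A B : Finset (EG ℤ)) (hBA : B ⊆ A) (hu : ∀ e, e ∉ B → u e = 0) :
    PP w A * PP u B = PP (w + u) A := by
  have h1 : PP u B = PP u A := by
    refine Finset.prod_subset hBA fun e _ he => ?_
    rw [hu e he, zero_smul, add_zero]
  rw [h1, PP, PP, PP, ← Finset.prod_mul_distrib]
  refine Finset.prod_congr rfl fun e _ => ?_
  have h3 : (w e • bb e) * (u e • bb e) = (0 : Ge (VI (HE ℤ))) := by
    rw [smul_mul_smul_comm, bb_mul_self, smul_zero]
  rw [Pi.add_apply, add_smul]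
  have : (1 + w e • bb e) * (1 + u e • bb e) =
      (1 + (w e • bb e + u e • bb e)) + (w e • bb e) * (u e • bb e) := by ring
  rw [this, h3, add_zero]

/-- existence for a background which is a finite change of a background with finite inverse,
from the non-vanishing of a box partition function -/
theorem exists_finv_of_box {v0 : EG ℤ → ℝ} {S0' : HE ℤ → HE ℤ → ℝ} (h0 : FInv v0 S0')
    (v : EG ℤ → ℝ) (A : Finset (EG ℤ)) (hA : ∀ e, e ∉ A → v e = v0 e)
    (hZ : ∀ R : ℤ, ∃ R', R ≤ R' ∧
      E0 ((PP v (touch (bx R')) : Ge (VI (HE ℤ))) : Gr (VI (HE ℤ))) ≠ 0) :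
    ∃ S, FInv v S := by
  have hu : ∀ e, e ∉ A → (v - v0) e = 0 := fun e he => by
    rw [Pi.sub_apply, hA e he, sub_self]
  have key : ∃ S, FInv (v0 + (v - v0)) S := by
    apply exists_finv h0 (v - v0) A hu
    obtain ⟨R1, _, hR1⟩ := exists_good h0 (hes A)
    obtain ⟨R2, _, hR2⟩ := exists_box A
    obtain ⟨R', hR', hne⟩ := hZ (max R1 R2)
    have h1 := fb_eval h0 (bx R') (hes A : Set (HE ℤ))
      (fun k hk => hR1 R' ((le_max_left _ _).trans hR') k hk)
      (PP_mem (v - v0) A _ fun e he => mem_hes he)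
    rw [fb_apply, ← Ge.coe_mul, PP_mul_PP v0 (v - v0) (touch (bx R')) A
      (hR2 R' ((le_max_right _ _).trans hR')) hu] at h1
    intro hc
    rw [hc, mul_zero] at h1
    apply hne
    rw [← h1]
    congr 3
    funext e
    simp
  obtain ⟨S, hS⟩ := key
  refine ⟨S, ?_⟩
  have e1 : v0 + (v - v0) = v := by funext e; simp
  rw [e1] at hS
  exact hS

/-- **existence of the covariance, free boundary conditions, even number of insertions** -/
theorem exists_finv_free (T : Finset (ℤ × ℤ)) (x : EG ℤ → ℝ) {n : ℕ} (hn : Even n)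
    (xs : Fin n → ℤ × ℤ) (hxs : ∀ i, xs i ∈ T) (hZ : Zs T (freew T x) xs ∅ ≠ 0) :
    ∃ S, FInv (fun e => freew T x e * cut xs e) S := by
  obtain ⟨R, _, hR⟩ := exists_box_sites T
  have hg : FInv (gw (gE xs R) (fun _ => 1)) (fun h k => gE xs R h.1 * gE xs R k.1 * S1 h k) :=
    FInv.gauge finv_S1 (gE xs R) (gE_sq xs R)
  refine exists_finv_of_box hg _ ((bx R) ×ˢ Finset.univ) ?_ ?_
  · intro e he
    refine gauge_out hn ?_ hR x e ?_
    · intro i
      have := hR _ (hxs i)
      exact ⟨⟨this.1, this.2.1⟩, this.2.2.1, this.2.2.2⟩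
    · intro hc
      exact he (Finset.mem_product.2 ⟨hc, Finset.mem_univ _⟩)
  · intro R1
    refine ⟨max R1 R, le_max_left _ _, ?_⟩
    have hTL : T ⊆ bx (max R1 R) := by
      intro z hz
      have := hR z hz
      rw [mem_bx]
      have h3 : R ≤ max R1 R := le_max_right _ _
      omega
    have h1 : E0 ((PP (fun e => freew T x e * cut xs e) (touch (bx (max R1 R))) :
        Ge (VI (HE ℤ))) : Gr (VI (HE ℤ))) = Zs (bx (max R1 R)) (freew T x) xs ∅ := by
      rw [Zs_eq _ (noHole_box _)]
      simp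
    rw [h1, Zs_free_box hTL x xs hxs ∅ (by simp)]
    exact mul_ne_zero (pow_ne_zero _ two_ne_zero) hZ

/-! ### centred versions -/








end Crest.Agent.R165.J2fx606
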