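import Crest.Agent.R165.SRabs_900
import Crest.Agent.R165.GSys_387
import Crest.Agent.R165.KInit_892
import Crest.Agent.R165.SrcFinB_441
import Crest.Agent.R165.SrcAlg_991
import Crest.Agent.R165.J2g_606
import Crest.Agent.R165.Cov1_359
import Crest.Agent.R165.J4Lnk3_653
import Crest.Agent.R165.Resc_599

/-!
# Row 165 (S0250): runs of the flow and their initial value (helper445)

* `remC S T n` : the remaining covariance `S - ∑_{k<n} T k`; `remC_add`, `ext0_remC`
* `runG` : the `Run` (SRabs_900) of the system `GSysx387.sys` of a background `w` with the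
  reclustered initial activities; `runG_start` : its initial value is `EEG S (ZZ (=) Λ K0)`
* `eeg_ZZ` : `EEG S (ZZ (=) Λ (B.K0 (frV G))) = (∏ s^4) * EG' S (TH (gw w) (PL B Λ))`
* `srcZ` : the generating element with sources; `coP_srcZ`, `ctG_srcZ`, `srcZ_total`
-/

set_option autoImplicit false
set_option linter.unusedSectionVars false

noncomputable section

open Finset

namespace Crest.Agent.R165.JRunx445

open Crest.Agent.R165.Gr0x606 Crest.Agent.R165.Gr1x606 Crest.Agent.R165.GeOpsx337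
  Crest.Agent.R165.ExpGx337 Crest.Agent.R165.KStepx892 Crest.Agent.R165.KFlowx337
  Crest.Agent.R165.SrcDefx991 Crest.Agent.R165.SRabsx900 Crest.Agent.R165.KInitx892

/-! ### the remaining covariance -/

section rem

variable {V : Type*} [AddCommGroup V] [Module ℝ V]

/-- the remaining covariance after `n` steps -/
def remC (S : Cov V) (T : ℕ → Cov V) (n : ℕ) : Cov V := S + -(∑ k ∈ range n, T k)

theorem remC_add (S : Cov V) (T : ℕ → Cov V) (n : ℕ) :
    S = remC S T n + ∑ k ∈ range n, T k := by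
  apply Cov.ext
  apply LinearMap.ext₂
  intro x y
  simp only [remC, Cov.add_b, Cov.neg_b, LinearMap.add_apply, LinearMap.neg_apply]
  ring


@[simp] theorem remC_zero (S : Cov V) (T : ℕ → Cov V) : remC S T 0 = S := by
  apply Cov.ext
  apply LinearMap.ext₂
  intro x y
  simp [remC]

theorem ext0_add (m : ℕ) (S T : Cov V) : ext0 m (S + T) = ext0 m S + ext0 m T := by
  apply Cov.ext
  apply LinearMap.ext₂
  intro x y
  rw [Cov.add_b, LinearMap.add_apply, LinearMap.add_apply, ext0_b, ext0_b, ext0_b, Cov.add_b,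
    LinearMap.add_apply, LinearMap.add_apply]

theorem ext0_zero (m : ℕ) : ext0 m (0 : Cov V) = 0 := by
  apply Cov.ext
  apply LinearMap.ext₂
  intro x y
  simp

theorem ext0_sum (m : ℕ) {ι : Type*} (s : Finset ι) (T : ι → Cov V) :
    ext0 m (∑ k ∈ s, T k) = ∑ k ∈ s, ext0 m (T k) := by
  classical
  induction s using Finset.induction_on with
  | empty => rw [sum_empty, sum_empty, ext0_zero]
  | insert a s ha ih => rw [sum_insert ha, sum_insert ha, ext0_add, ih]

theorem ext0_remC (m : ℕ) (S : Cov V) (T : ℕ → Cov V) (n : ℕ) :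
    ext0 m S = ext0 m (remC S T n) + ∑ k ∈ range n, ext0 m (T k) := by
  conv_lhs => rw [remC_add S T n]
  rw [ext0_add, ext0_sum]

end rem

/-! ### runs -/

section run

open Crest.Agent.R165.Latx683 Crest.Agent.R165.GDefx387 Crest.Agent.R165.GSysx387
  Crest.Agent.R165.FRDPolyx439 Crest.Agent.R165.PStepx417 Crest.Agent.R165.BgIsox432

variable {G : Type} [CommRing G] [CN G] [CNZ G] [DecidableEq G]


theorem ctG_vac0 {V : Type*} [AddCommGroup V] [Module ℝ V] (a : Ge V) :
    ctG (vac0 V a) = ctG a := by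
  rw [vac0_apply, AlgHom.commutes]
  rfl



/-- the system with sources started from the reclustered activities `K0` -/
def sysRS {M K m : ℕ} (D : FRD 16 M K) (w : BW G) (mk : Finset (G × G)) (l k0 : ℕ)
    (sf : Fin m → Finset (G × G)) (e2 : ℕ → Extr (G × G) (VS (Fld G) m))
    (K0 : Finset (G × G) → Ge (VS (Fld G) m)) : Sys (G × G) (VS (Fld G) m) :=
  sysS D w mk l k0 sf e2 (K1 (near l k0 0) K0)

/-- the generating element with sources, centring constants `c` -/
def srcZ {F : Type*} [DecidableEq F] {V : Type*} [AddCommGroup V] [Module ℝ V] {m : ℕ} (S : Cov V)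
    (Λ : Finset F) (K0 : Finset F → Ge (VS V m)) (c : Fin m → ℝ) : Ge (VS V m) :=
  gexp (∑ i, (1 - c i) • tau i) * cvG (ext0 m S) (ZZ (fun a b => a = b) Λ K0)

/-- **the flow with sources**: value of the generating element in terms of the activities after `n`
steps -/
theorem srcZ_total {M K m : ℕ} (D : FRD 16 M K) (w : BW G) (mk : Finset (G × G)) (l k0 n : ℕ)
    (sf : Fin m → Finset (G × G)) (e2 : ℕ → Extr (G × G) (VS (Fld G) m))
    (K0 : Finset (G × G) → Ge (VS (Fld G) m)) (Λ : Finset (G × G)) (S : Cov (Fld G))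
    (c : Fin m → ℝ) {src : Submodule ℝ (VS (Fld G) m)}
    (hok : (sysRS D w mk l k0 sf e2 K0).OK src)
    (hsrc : ∀ x ∈ src, ∀ y, (ext0 m (remC S (slC D w l k0) n)).b x y = 0)
    (hsupp : ∀ U, ¬ U ⊆ Λ → K0 U = 0) :
    srcZ S Λ K0 c =
      gexp (∑ i, (1 - c i) • tau i + (sysRS D w mk l k0 sf e2 K0).E Λ n) *
        cvG (ext0 m (remC S (slC D w l k0) n))
          (ZZ (near l k0 n) Λ ((sysRS D w mk l k0 sf e2 K0).K n)) := by
  have h0 : ∀ U, ¬ U ⊆ Λ → (sysRS D w mk l k0 sf e2 K0).K0 U = 0 :=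
    fun U hU => K1_supp hsupp hU
  have h1 := Sys.total' hok h0 n (ext0 m S) (ext0 m (remC S (slC D w l k0) n))
    (ext0_remC m S (slC D w l k0) n) hsrc
  rw [srcZ, ZZ_K1 (near' := near l k0 0) (hok.near_symm 0) (hok.near_refl 0) Λ K0, gexp_add,
    mul_assoc]
  congr 1

end run

/-! ### the generating element with sources -/

section src

open Crest.Agent.R165.SrcFinBx441 (gexp_tau gexp_cvG ctG_coP_cvG)

variable {V : Type*} [AddCommGroup V] [Module ℝ V] {m : ℕ}

theorem vacH_lin (c : Fin m → ℝ) :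
    vacH (∑ i, c i • tau i : Ge (VS V m)) = ∑ i, c i • tau i := by
  rw [map_sum]
  exact sum_congr rfl fun i _ => by rw [map_smul, vacH_tau]

theorem noS_lin (c : Fin m → ℝ) : noS (∑ i, c i • tau i : Ge (VS V m)) = 0 := by
  rw [map_sum]
  exact sum_eq_zero fun i _ => by rw [map_smul, noS_tau, smul_zero]

theorem gexp_lin (c : Fin m → ℝ) :
    gexp (∑ i, c i • tau i : Ge (VS V m)) = ∑ J, tauP J * inG m (algebraMap ℝ _ (∏ i ∈ J, c i)) := by
  rw [gexp_sum, prod_congr rfl fun i _ => gexp_tau (V := V) (c i) i, prod_one_add, powerset_univ]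
  refine sum_congr rfl fun J _ => ?_
  rw [AlgHom.commutes, tauP]
  simp only [Algebra.smul_def]
  rw [prod_mul_distrib, ← map_prod, mul_comm]

theorem coP_gexp_lin (c : Fin m → ℝ) (J : Finset (Fin m)) :
    coP J (gexp (∑ i, c i • tau i : Ge (VS V m))) = algebraMap ℝ _ (∏ i ∈ J, c i) := by
  rw [gexp_lin, coP_sum_basis]

theorem sum_mem_GS (c : Finset (Fin m) → Ge V) :
    (∑ J, tauP J * inG m (c J) : Ge (VS V m)) ∈ GS V m := by
  refine Subalgebra.sum_mem _ fun J _ => ?_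
  refine mul_mem ?_ (inG_mem _)
  exact Subalgebra.prod_mem _ fun i _ => tau_mem i

/-- **the top coefficient of the generating element** -/
theorem coP_srcZ {F : Type*} [DecidableEq F] (S : Cov V) (Λ : Finset F)
    (K0 : Finset F → Ge (VS V m)) (c : Fin m → ℝ) (Q : Finset (Fin m) → Ge V)
    (hQ : ZZ (fun a b : F => a = b) Λ K0 = ∑ J, tauP J * inG m (Q J)) :
    ctG (coP univ (srcZ S Λ K0 c)) =
      EEG S (∑ J : Finset (Fin m), (∏ i ∈ J, (1 - c i)) • Q (univ \ J)) := by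
  rw [srcZ, gexp_cvG (vacH_lin fun i => 1 - c i), ctG_coP_cvG, hQ,
    coP_mul (by rw [gexp_lin]; exact sum_mem_GS _) (sum_mem_GS _), powerset_univ]
  congr 1
  refine sum_congr rfl fun J _ => ?_
  rw [coP_gexp_lin, coP_sum_basis, Algebra.smul_def]

/-- **the constant term of the generating element** -/
theorem ctG_srcZ {F : Type*} [DecidableEq F] (S : Cov V) (Λ : Finset F)
    (K0 : Finset F → Ge (VS V m)) (c : Fin m → ℝ) (Q : Finset (Fin m) → Ge V)
    (hQ : ZZ (fun a b : F => a = b) Λ K0 = ∑ J, tauP J * inG m (Q J)) :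
    ctG (srcZ S Λ K0 c) = EEG S (Q ∅) := by
  rw [srcZ, gexp_cvG (vacH_lin fun i => 1 - c i), ctG_cvG, EEG_ext0, map_mul,
    noS_gexp, noS_lin, hQ, ← coP_empty, coP_sum_basis]
  simp

end src

/-! ### the initial activities -/

section link

open Crest.Agent.R165.J4Defx653 Crest.Agent.R165.J4RRx653 Crest.Agent.R165.J4RRAx653
  Crest.Agent.R165.J4Pathx653 Crest.Agent.R165.J1ax606 Crest.Agent.R165.J4K0x126
  Crest.Agent.R165.J4Geox126 Crest.Agent.R165.J4Lnkx653 Crest.Agent.R165.Covx359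
open Crest.Agent.R165.Latx683 (BW Fld IsCov covS)
open Crest.Agent.R165.J2ax606 (bar)

variable {G : Type} [CommRing G] [DecidableEq G]

theorem I4_eq (f : G × G) : J4Lnkx653.I4 f = Rescx599.I4 f := by
  have h : (univ : Finset (Fin 4 × Fin 4)).filter (fun p => p.1 < p.2) =
      {(0, 1), (0, 2), (0, 3), (1, 2), (1, 3), (2, 3)} := by decide
  rw [J4Lnkx653.I4, h, Rescx599.I4, Rescx599.q4]
  rw [sum_insert (by decide), sum_insert (by decide), sum_insert (by decide),
    sum_insert (by decide), sum_insert (by decide), sum_singleton]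
  simp only [add_assoc]

theorem Ms_eq (y : EG G → ℝ) (s : G × G → ℝ) (Λ : Finset (G × G)) :
    Ms y s Λ = Rescx599.mF y Λ s := by
  unfold Ms Rescx599.mF
  simp only [I4_eq]

/-- rescaling -/
theorem eeg_resc {w : BW G} {S : HE G → HE G → ℝ} (hS : IsCov w S) (Λ W : Finset (G × G))
    (hW : W ⊆ Λ) (hn : ∀ h : HE G, h.1 ∈ W → (bar h).1 ∈ Λ) (s : G × G → ℝ)
    (hs : ∀ f, f ∉ W → s f = 1) (X : RR (EG G)) :
    EEG (covS S hS.skew) (TH (J4Lnkx653.gs (un w) s) X * Ms (un w) s Λ) =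
      (∏ f ∈ W, s f ^ 4) * EG' (covS S hS.skew) (TH (gw w) X) := by
  have hI := isInv_of_isCov hS
  have h := Rescx599.resc_TH (Rescx599.IsInv.sd' hI) Λ W hW hn s hs X
  rw [covS_eq S hS.skew, EEG_apply, mul_comm, Ms_eq, EG']
  exact h

/-- **the expectation of the initial polymer gas, no sources** -/
theorem eeg_ZZ {w : BW G} {S : HE G → HE G → ℝ} (hS : IsCov w S)
    {κ : Type*} [DecidableEq κ] [Fintype κ] [IsEmpty κ] (B : Bk G κ (Ge (Fld G)))
    (hy : B.y = un w) (Λ W : Finset (G × G))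
    (hW : W ⊆ Λ) (hn : ∀ h : HE G, h.1 ∈ W → (bar h).1 ∈ Λ) (hs : ∀ f, f ∉ W → B.s f = 1) :
    EEG (covS S hS.skew) (ZZ (fun a b : G × G => a = b) Λ (B.K0 (frV G))) =
      (∏ f ∈ W, B.s f ^ 4) * EG' (covS S hS.skew) (TH (gw w) (PL B Λ)) := by
  rw [← eeg_resc hS Λ W hW hn B.s hs (PL B Λ), ← hy]
  congr 1
  exact K0_plain B Λ

variable {m : ℕ}

/-- the top coefficient with sources `B.Fs k`, centring constants `c` -/
theorem coP_link {w : BW G} {S : HE G → HE G → ℝ} (hS : IsCov w S)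
    (B : Bk G (Fin m) (Ge (VS (Fld G) m))) (hB : B.as = tau)
    (hy : B.y = un w) (Λ W : Finset (G × G)) (hsr : B.srcs Λ = univ)
    (hW : W ⊆ Λ) (hn : ∀ h : HE G, h.1 ∈ W → (bar h).1 ∈ Λ) (hs : ∀ f, f ∉ W → B.s f = 1)
    (c : Fin m → ℝ) :
    ctG (coP univ (srcZ (covS S hS.skew) Λ (B.K0 (frS G m)) c)) =
      (∏ f ∈ W, B.s f ^ 4) * EG' (covS S hS.skew)
        (TH (gw w) (PL B Λ * ∏ k, (algebraMap ℝ _ (1 - c k) + B.Fs k))) := by
  have h1 := K0_src B hB Λ
  rw [hsr, powerset_univ] at h1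
  rw [coP_srcZ (covS S hS.skew) Λ (B.K0 (frS G m)) c
    (fun I => TH (J4Lnkx653.gs B.y B.s) (PL B Λ * ∏ k ∈ I, B.Fs k) * Ms B.y B.s Λ) h1,
    ← eeg_resc hS Λ W hW hn B.s hs, ← hy]
  congr 1
  rw [prod_add, mul_sum, map_sum, sum_mul, powerset_univ]
  refine sum_congr rfl fun J _ => ?_
  rw [← map_prod (algebraMap ℝ (RR (EG G))), ← Algebra.smul_def, mul_smul_comm, map_smul,
    smul_mul_assoc]

/-- the constant term with sources -/
theorem ctG_link {w : BW G} {S : HE G → HE G → ℝ} (hS : IsCov w S)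
    (B : Bk G (Fin m) (Ge (VS (Fld G) m))) (hB : B.as = tau)
    (hy : B.y = un w) (Λ W : Finset (G × G)) (hsr : B.srcs Λ = univ)
    (hW : W ⊆ Λ) (hn : ∀ h : HE G, h.1 ∈ W → (bar h).1 ∈ Λ) (hs : ∀ f, f ∉ W → B.s f = 1)
    (c : Fin m → ℝ) :
    ctG (srcZ (covS S hS.skew) Λ (B.K0 (frS G m)) c) =
      (∏ f ∈ W, B.s f ^ 4) * EG' (covS S hS.skew) (TH (gw w) (PL B Λ)) := by
  have h1 := K0_src B hB Λ
  rw [hsr, powerset_univ] at h1
  rw [ctG_srcZ (covS S hS.skew) Λ (B.K0 (frS G m)) c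
    (fun I => TH (J4Lnkx653.gs B.y B.s) (PL B Λ * ∏ k ∈ I, B.Fs k) * Ms B.y B.s Λ) h1,
    ← eeg_resc hS Λ W hW hn B.s hs, ← hy, prod_empty, mul_one]

end link

end Crest.Agent.R165.JRunx445
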