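import Crest.Agent.R165.Nm1_422
import Crest.Agent.R165.GeoD_65
import Crest.Agent.Lib.InjHolo
import Crest.Agent.R165.GeoC_65

-- ▼ part R165/Nm2_422
section

/-!
# Row 165 (S0250), U5 / S3: normalisation of the one-point function of discs (helper422)

`S3 : SpinIn Lam → TwoPt g → ∃ κ > 0, ∀ disc B ∋ z, a^{-1/8} ⟨σ_z⟩⁺_B → κ crad(z, B)^{-1/8}`
-/

set_option autoImplicit false
set_option linter.unusedSectionVars false
set_option linter.unusedVariables false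

noncomputable section

open Filter Topology Finset
open Crest.ProbabilityR.IsingModel

namespace Crest.Agent.R165.Nm2x422

open Crest.Agent.R165.Gk1x422
open Crest.Agent.R165.U5Px422
open Crest.Agent.R165.USpinx641 (SpinInB)
open Crest.Agent.R165.Nm1x422
open Crest.Agent.R165.Redx541

variable {Lam : (n : ℕ) → Set ℂ → (Fin n → ℂ) → ℝ}
variable {g : ℂ → ℝ → (Fin 2 → ℂ) → ℝ}

/-- `crad^{-1/8}` of a disc -/
def fb (c : ℂ) (r : ℝ) (z : ℂ) : ℝ := (cb c r z) ^ (-(1 : ℝ) / 8)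

theorem fb_pos {c : ℂ} {r : ℝ} {z : ℂ} (hz : z ∈ Metric.ball c r) : 0 < fb c r z :=
  Real.rpow_pos_of_pos (cb_pos hz) _

/-- two points as a function on `Fin 2` split into two one-point functions -/
theorem append_two {α : Type*} (v : Fin 2 → α) :
    (Fin.append (fun _ : Fin 1 => v 0) (fun _ : Fin 1 => v 1) : Fin 2 → α) = v := by
  funext i
  fin_cases i
  · exact Fin.append_left (fun _ : Fin 1 => v 0) (fun _ : Fin 1 => v 1) 0
  · exact Fin.append_right (fun _ : Fin 1 => v 0) (fun _ : Fin 1 => v 1) 0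

theorem GB_two_ge (T : Finset (ℤ × ℤ)) (v : Fin 2 → ℤ × ℤ) :
    GB .plus T (fun _ : Fin 1 => v 0) * GB .plus T (fun _ : Fin 1 => v 1) ≤ GB .plus T v := by
  have h := GB_plus_mul_le T (fun _ : Fin 1 => v 0) (fun _ : Fin 1 => v 1)
  have e : GB .plus T (Fin.append (fun _ : Fin 1 => v 0) (fun _ : Fin 1 => v 1)) = GB .plus T v := by
    have := append_two v
    show Gp Kc T _ = Gp Kc T v
    exact congrArg (Gp Kc T) this
  rw [e] at h; exact h

/-- distance between two lattice neighbours -/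
theorem meshPoint_neighbour {a : ℝ} (ha : 0 < a) (e : ZB) :
    ‖meshPoint a (zp e) - meshPoint a (zq e)‖ ≤ a := by
  obtain ⟨z, j⟩ := e
  have h : meshPoint a (zp (z, j)) - meshPoint a (zq (z, j)) =
      if j = 0 then ((-a : ℝ) : ℂ) else ((-a : ℝ) : ℂ) * Complex.I := by
    unfold zp zq meshPoint unitVec
    apply Complex.ext
    · fin_cases j
      all_goals simp
      all_goals ring
    · fin_cases j
      all_goals simp
      all_goals ring
  rw [h]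
  split_ifs
  · rw [Complex.norm_real, Real.norm_eq_abs, abs_neg, abs_of_pos ha]
  · rw [norm_mul, Complex.norm_real, Complex.norm_I, mul_one, Real.norm_eq_abs, abs_neg,
      abs_of_pos ha]

/-- separated domains do not touch for small mesh -/
theorem nonTouch_TT {D₁ D₂ : Set ℂ} (h1 : Bornology.IsBounded D₁) (h2 : Bornology.IsBounded D₂)
    {d : ℝ} (hd : ∀ z ∈ D₁, ∀ w ∈ D₂, d ≤ ‖z - w‖) {a : ℝ} (ha : 0 < a) (had : a < d) :
    NonTouch (TT D₁ a) (TT D₂ a) := by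
  constructor
  · rw [Finset.disjoint_left]
    intro v hv1 hv2
    have := hd _ ((mem_TT h1 ha).1 hv1) _ ((mem_TT h2 ha).1 hv2)
    rw [sub_self, norm_zero] at this
    linarith
  · intro e
    constructor
    · rintro ⟨hv1, hv2⟩
      have h3 := hd _ ((mem_TT h1 ha).1 hv1) _ ((mem_TT h2 ha).1 hv2)
      have h4 := meshPoint_neighbour ha e
      linarith
    · rintro ⟨hv1, hv2⟩
      have h3 := hd _ ((mem_TT h1 ha).1 hv2) _ ((mem_TT h2 ha).1 hv1)
      have h4 := meshPoint_neighbour ha e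
      rw [norm_sub_rev] at h4
      linarith

/-- splitting for one point in each of two separated subdomains -/
theorem GB_split {D D₁ D₂ : Set ℂ} (hD : Bornology.IsBounded D) (h1 : D₁ ⊆ D) (h2 : D₂ ⊆ D)
    {d : ℝ} (hd : ∀ z ∈ D₁, ∀ w ∈ D₂, d ≤ ‖z - w‖) {a : ℝ} (ha : 0 < a) (had : a < d)
    {n m : ℕ} {u : Fin n → ℤ × ℤ} {v : Fin m → ℤ × ℤ}
    (hu : ∀ i, u i ∈ TT D₁ a) (hv : ∀ i, v i ∈ TT D₂ a) :
    GB .plus (TT D a) (Fin.append u v) ≤ GB .plus (TT D₁ a) u * GB .plus (TT D₂ a) v :=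
  Gp_split Kc_nonneg (nonTouch_TT (hD.subset h1) (hD.subset h2) hd ha had)
    (Finset.union_subset (TT_mono hD h1 ha) (TT_mono hD h2 ha)) hu hv

/-! ### the normalised constant of a disc -/

/-- `a^{-1/8} ⟨σ_c⟩⁺_B / crad(c,B)^{-1/8}` -/
def NN (c : ℂ) (r a : ℝ) : ℝ :=
  a ^ (-(1 : ℝ) / 8) * GB .plus (TT (Metric.ball c r) a) (fun _ : Fin 1 => meshIndex a c) / fb c r c

theorem NN_nonneg (c : ℂ) {r : ℝ} (hr : 0 < r) {a : ℝ} (ha : 0 < a) : 0 ≤ NN c r a := by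
  unfold NN
  have h1 := GB_nonneg (b := .plus) (by simp) (TT (Metric.ball c r) a)
    (fun _ : Fin 1 => meshIndex a c)
  have h2 := fb_pos (Metric.mem_ball_self (x := c) hr)
  have h3 := Real.rpow_nonneg ha.le (-(1 : ℝ) / 8)
  positivity

theorem key1 (H : SpinInB .plus Lam) (c : ℂ) {r : ℝ} (hr : 0 < r) {z : ℂ} (hz : z ∈ Metric.ball c r)
    {u : ℝ → Fin 1 → ℤ × ℤ} (hu : LApp u (fun _ => z)) :
    ∃ σ : ℝ → ℝ, Tendsto σ (𝓝[>] 0) (𝓝 (fb c r z)) ∧ ∀ᶠ a in 𝓝[>] (0 : ℝ),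
      a ^ (-(1 : ℝ) / 8) * GB .plus (TT (Metric.ball c r) a) (u a) = NN c r a * σ a := by
  have hcm : c ∈ Metric.ball c r := Metric.mem_ball_self hr
  have hfc := fb_pos hcm
  obtain ⟨C, hC, hlam⟩ := lam_ball H c hr
  have hA : Allow .plus 1 := Or.inl rfl
  set u0 : ℝ → Fin 1 → ℤ × ℤ := fun a _ => meshIndex a c with hu0
  have hu0' : LApp u0 (fun _ => c) := lapp_meshIndex (fun _ : Fin 1 => c)
  have h1 := H.ratio 1 _ hA (isC2_ball c hr) _ (conf_one hz) _ (conf_one hcm) u u0 hu hu0'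
  have h2 := H.ratio 1 _ hA (isC2_ball c hr) _ (conf_one hcm) _ (conf_one hcm) u0 u0 hu0' hu0'
  rw [hlam z hz, hlam c hcm, mul_div_mul_left _ _ hC.ne'] at h1
  rw [div_self (H.pos _ _ hA (isC2_ball c hr) _ (conf_one hcm)).ne'] at h2
  refine ⟨fun a => fb c r c * (GB .plus (TT (Metric.ball c r) a) (u a) /
    GB .plus (TT (Metric.ball c r) a) (u0 a)), ?_, ?_⟩
  · have h3 := h1.const_mul (fb c r c)
    have e : fb c r c * (cb c r z ^ (-(1 : ℝ) / 8) / cb c r c ^ (-(1 : ℝ) / 8)) = fb c r z := by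
      unfold fb
      exact mul_div_cancel₀ _ (Real.rpow_pos_of_pos (cb_pos hcm) (-(1 : ℝ) / 8)).ne'
    rw [e] at h3; exact h3
  · have h3 : ∀ᶠ a in 𝓝[>] (0 : ℝ), GB .plus (TT (Metric.ball c r) a) (u0 a) ≠ 0 := by
      have h4 := h2.eventually (lt_mem_nhds (show (0 : ℝ) < 1 from one_pos))
      filter_upwards [h4] with a ha h5
      rw [h5, div_zero] at ha
      exact lt_irrefl _ ha
    filter_upwards [h3] with a ha
    show _ = a ^ (-(1 : ℝ) / 8) * GB .plus (TT (Metric.ball c r) a) (u0 a) / fb c r c *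
      (fb c r c * (GB .plus (TT (Metric.ball c r) a) (u a) /
        GB .plus (TT (Metric.ball c r) a) (u0 a)))
    field_simp

/-! ### the universal constant -/

/-- `g / (f f)` -/
def qq (g : ℂ → ℝ → (Fin 2 → ℂ) → ℝ) (c : ℂ) (r : ℝ) (x : Fin 2 → ℂ) : ℝ :=
  g c r x / (fb c r (x 0) * fb c r (x 1))

/-- the universal constant `c_*` -/
def cs (g : ℂ → ℝ → (Fin 2 → ℂ) → ℝ) : ℝ := sInf (qq g 0 1 '' Conf (Metric.ball (0 : ℂ) 1) 2)

theorem conf_affine (c : ℂ) {r : ℝ} (hr : 0 < r) {x : Fin 2 → ℂ}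
    (hx : x ∈ Conf (Metric.ball (0 : ℂ) 1) 2) :
    (fun i => c + r * x i) ∈ Conf (Metric.ball c r) 2 :=
  ⟨fun i => (affine_bij c hr).mapsTo (hx.1 i), fun i j h =>
    hx.2 ((affine_bij c hr).injOn (hx.1 i) (hx.1 j) h)⟩

theorem qq_sim (G : TwoPt g) (c : ℂ) {r : ℝ} (hr : 0 < r) {x : Fin 2 → ℂ}
    (hx : x ∈ Conf (Metric.ball (0 : ℂ) 1) 2) :
    qq g c r (fun i => c + r * x i) = qq g 0 1 x := by
  unfold qq fb
  rw [G.sim c r hr x hx, cb_affine c hr, cb_affine c hr,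
    Real.mul_rpow hr.le (cb_pos (hx.1 0)).le, Real.mul_rpow hr.le (cb_pos (hx.1 1)).le]
  have h1 : r ^ (-(1 : ℝ) / 4) = r ^ (-(1 : ℝ) / 8) * r ^ (-(1 : ℝ) / 8) := by
    rw [← Real.rpow_add hr]; congr 1; ring
  have h2 := (Real.rpow_pos_of_pos hr (-(1 : ℝ) / 8)).ne'
  have h3 := (Real.rpow_pos_of_pos (cb_pos (hx.1 0)) (-(1 : ℝ) / 8)).ne'
  have h4 := (Real.rpow_pos_of_pos (cb_pos (hx.1 1)) (-(1 : ℝ) / 8)).ne'
  rw [h1]
  field_simp

theorem qq_pos (G : TwoPt g) (c : ℂ) {r : ℝ} (hr : 0 < r) {x : Fin 2 → ℂ}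
    (hx : x ∈ Conf (Metric.ball c r) 2) : 0 < qq g c r x :=
  div_pos (G.pos c r hr x hx) (mul_pos (fb_pos (hx.1 0)) (fb_pos (hx.1 1)))

theorem cs_bdd (G : TwoPt g) : BddBelow (qq g 0 1 '' Conf (Metric.ball (0 : ℂ) 1) 2) :=
  ⟨0, by rintro _ ⟨x, hx, rfl⟩; exact (qq_pos G 0 one_pos hx).le⟩

theorem cs_le (G : TwoPt g) (c : ℂ) {r : ℝ} (hr : 0 < r) {x : Fin 2 → ℂ}
    (hx : x ∈ Conf (Metric.ball c r) 2) : cs g ≤ qq g c r x := by
  have hr' : (r : ℂ) ≠ 0 := Complex.ofReal_ne_zero.2 hr.ne'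
  set y : Fin 2 → ℂ := fun i => (x i - c) / r with hy
  have hxy : ∀ i, c + r * y i = x i := fun i => by simp only [hy]; field_simp; ring
  have hyc : y ∈ Conf (Metric.ball (0 : ℂ) 1) 2 := by
    constructor
    · intro i
      have := hx.1 i
      rw [mem_ball_iff_norm] at this
      rw [mem_ball_iff_norm, sub_zero, hy, norm_div, Complex.norm_real, Real.norm_of_nonneg hr.le,
        div_lt_one hr]
      exact this
    · intro i j h
      apply hx.2
      rw [← hxy i, ← hxy j, h]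
  have h1 := qq_sim G c hr hyc
  have h2 : (fun i => c + r * y i) = x := funext hxy
  rw [h2] at h1
  rw [h1]
  exact csInf_le (cs_bdd G) ⟨y, hyc, rfl⟩

theorem exists_lt (G : TwoPt g) (c : ℂ) {r : ℝ} (hr : 0 < r) {C : ℝ} (hC : cs g < C) :
    ∃ x ∈ Conf (Metric.ball c r) 2, qq g c r x < C := by
  have hne : (qq g 0 1 '' Conf (Metric.ball (0 : ℂ) 1) 2).Nonempty := by
    refine ⟨_, ![0, 1 / 2], ?_, rfl⟩
    constructor
    · intro i
      fin_cases i
      · simp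
      · rw [mem_ball_iff_norm, sub_zero]; simp; norm_num
    · intro i j h
      fin_cases i <;> fin_cases j <;> simp_all
  obtain ⟨_, ⟨x, hx, rfl⟩, h⟩ := exists_lt_of_csInf_lt hne hC
  exact ⟨_, conf_affine c hr hx, by rw [qq_sim G c hr hx]; exact h⟩


theorem lapp_comp {n : ℕ} {x : Fin n → ℂ} {u : ℝ → Fin n → ℤ × ℤ} (hu : LApp u x) (i : Fin n) :
    LApp (fun a (_ : Fin 1) => u a i) (fun _ => x i) := fun _ => hu i

theorem rpow_split {a : ℝ} (ha : 0 < a) :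
    a ^ (-((2 : ℕ) : ℝ) / 8) = a ^ (-(1 : ℝ) / 8) * a ^ (-(1 : ℝ) / 8) := by
  rw [← Real.rpow_add ha]; congr 1; norm_num

/-- upper bound of the constant (Griffiths II) -/
theorem L1 (H : SpinInB .plus Lam) (G : TwoPt g) (c : ℂ) {r : ℝ} (hr : 0 < r) {C : ℝ} (hC : cs g < C) :
    ∀ᶠ a in 𝓝[>] (0 : ℝ), NN c r a ^ 2 < C := by
  obtain ⟨x, hx, hxC⟩ := exists_lt G c hr hC
  set u : ℝ → Fin 2 → ℤ × ℤ := fun a i => meshIndex a (x i) with hu
  have hu' : LApp u x := lapp_meshIndex x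
  obtain ⟨σ₀, hσ₀, e₀⟩ := key1 H c hr (hx.1 0) (lapp_comp hu' 0)
  obtain ⟨σ₁, hσ₁, e₁⟩ := key1 H c hr (hx.1 1) (lapp_comp hu' 1)
  have h2 := G.lim c r hr x hx u hu'
  have hf0 := fb_pos (hx.1 0)
  have hf1 := fb_pos (hx.1 1)
  have h3 := h2.div (hσ₀.mul hσ₁) (mul_pos hf0 hf1).ne'
  have h4 := h3.eventually (gt_mem_nhds hxC)
  filter_upwards [h4, e₀, e₁, hσ₀.eventually (lt_mem_nhds hf0),
    hσ₁.eventually (lt_mem_nhds hf1), self_mem_nhdsWithin] with a ha h5 h6 h7 h8 ha0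
  have ha0' : 0 < a := ha0
  refine lt_of_le_of_lt ?_ ha
  simp only [Pi.div_apply]
  rw [le_div_iff₀ (mul_pos h7 h8)]
  have h9 := GB_two_ge (TT (Metric.ball c r) a) (u a)
  have h10 : a ^ (-(((2 : ℕ) : ℝ) / 8)) = a ^ (-(1 : ℝ) / 8) * a ^ (-(1 : ℝ) / 8) := by
    rw [← rpow_split ha0']; congr 1; ring
  calc NN c r a ^ 2 * (σ₀ a * σ₁ a) = (NN c r a * σ₀ a) * (NN c r a * σ₁ a) := by ring
    _ = (a ^ (-(1 : ℝ) / 8) * GB .plus (TT (Metric.ball c r) a) (fun _ : Fin 1 => u a 0)) *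
        (a ^ (-(1 : ℝ) / 8) * GB .plus (TT (Metric.ball c r) a) (fun _ : Fin 1 => u a 1)) := by
      rw [h5, h6]
    _ = a ^ (-(((2 : ℕ) : ℝ) / 8)) * (GB .plus (TT (Metric.ball c r) a) (fun _ : Fin 1 => u a 0) *
        GB .plus (TT (Metric.ball c r) a) (fun _ : Fin 1 => u a 1)) := by rw [h10]; ring
    _ ≤ _ := mul_le_mul_of_nonneg_left h9 (Real.rpow_nonneg ha0'.le _)

/-- the two tangent discs inside `B(c + 2r, 3r)` -/
theorem tangent_sub (c : ℂ) {r : ℝ} (hr : 0 < r) :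
    Metric.ball c r ⊆ Metric.ball (c + 2 * r) (3 * r) ∧
    Metric.ball (c + 4 * r) r ⊆ Metric.ball (c + 2 * r) (3 * r) := by
  have h2 : ‖(2 * r : ℂ)‖ = 2 * r := by
    rw [norm_mul, Complex.norm_real, Real.norm_of_nonneg hr.le]; simp
  constructor
  · intro z hz
    rw [mem_ball_iff_norm] at hz ⊢
    have e : z - (c + 2 * r) = (z - c) - 2 * r := by ring
    rw [e]
    have := norm_sub_le (z - c) (2 * r : ℂ)
    rw [h2] at this
    linarith
  · intro z hz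
    rw [mem_ball_iff_norm] at hz ⊢
    have e : z - (c + 2 * r) = (z - (c + 4 * r)) + 2 * r := by ring
    rw [e]
    have := norm_add_le (z - (c + 4 * r)) (2 * r : ℂ)
    rw [h2] at this
    linarith

theorem tangent_sep (c : ℂ) {r : ℝ} (hr : 0 < r) :
    ∀ z ∈ Metric.ball c r, ∀ w ∈ Metric.ball (c + 4 * r) r, 2 * r ≤ ‖z - w‖ := by
  intro z hz w hw
  rw [mem_ball_iff_norm] at hz hw
  have h4 : ‖(4 * r : ℂ)‖ = 4 * r := by
    rw [norm_mul, Complex.norm_real, Real.norm_of_nonneg hr.le]; simp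
  have e : (4 * r : ℂ) = (z - c) - (w - (c + 4 * r)) - (z - w) := by ring
  have h5 : ‖(4 * r : ℂ)‖ ≤ ‖z - c‖ + ‖w - (c + 4 * r)‖ + ‖z - w‖ := by
    calc ‖(4 * r : ℂ)‖ = ‖(z - c) - (w - (c + 4 * r)) - (z - w)‖ := by rw [← e]
      _ ≤ ‖(z - c) - (w - (c + 4 * r))‖ + ‖z - w‖ := norm_sub_le _ _
      _ ≤ _ := by linarith [norm_sub_le (z - c) (w - (c + 4 * r))]
  rw [h4] at h5
  linarith

/-- lower bound of the product of the constants (splitting) -/
theorem L2 (H : SpinInB .plus Lam) (G : TwoPt g) (c : ℂ) {r : ℝ} (hr : 0 < r) {x : Fin 2 → ℂ}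
    (hx0 : x 0 ∈ Metric.ball c r) (hx1 : x 1 ∈ Metric.ball (c + 4 * r) r) {C : ℝ}
    (hC : C < g (c + 2 * r) (3 * r) x / (fb c r (x 0) * fb (c + 4 * r) r (x 1))) :
    ∀ᶠ a in 𝓝[>] (0 : ℝ), C < NN c r a * NN (c + 4 * r) r a := by
  have hsub := tangent_sub c hr
  have hsep := tangent_sep c hr
  have hx : x ∈ Conf (Metric.ball (c + 2 * r) (3 * r)) 2 := by
    constructor
    · intro i
      fin_cases i
      · exact hsub.1 hx0
      · exact hsub.2 hx1
    · have hne : x 0 ≠ x 1 := fun h => by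
        have := hsep _ hx0 _ hx1
        rw [h, sub_self, norm_zero] at this
        linarith
      intro i j h
      fin_cases i <;> fin_cases j
      · rfl
      · exact absurd h hne
      · exact absurd h.symm hne
      · rfl
  set u : ℝ → Fin 2 → ℤ × ℤ := fun a i => meshIndex a (x i) with hu
  have hu' : LApp u x := lapp_meshIndex x
  obtain ⟨σ₀, hσ₀, e₀⟩ := key1 H c hr hx0 (lapp_comp hu' 0)
  obtain ⟨σ₁, hσ₁, e₁⟩ := key1 H (c + 4 * r) hr hx1 (lapp_comp hu' 1)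
  have h2 := G.lim (c + 2 * r) (3 * r) (by linarith) x hx u hu'
  have hf0 := fb_pos hx0
  have hf1 := fb_pos hx1
  have h3 := h2.div (hσ₀.mul hσ₁) (mul_pos hf0 hf1).ne'
  have h4 := h3.eventually (lt_mem_nhds hC)
  have hm0 := (lapp_comp hu' 0).mem Metric.isBounded_ball Metric.isOpen_ball (fun _ => hx0)
  have hm1 := (lapp_comp hu' 1).mem Metric.isBounded_ball Metric.isOpen_ball (fun _ => hx1)
  have hsmall : ∀ᶠ a in 𝓝[>] (0 : ℝ), a < 2 * r :=
    (eventually_lt_nhds (by linarith : (0 : ℝ) < 2 * r)).filter_mono nhdsWithin_le_nhds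
  filter_upwards [h4, e₀, e₁, hσ₀.eventually (lt_mem_nhds hf0),
    hσ₁.eventually (lt_mem_nhds hf1), self_mem_nhdsWithin, hm0, hm1, hsmall]
    with a ha h5 h6 h7 h8 ha0 hm0 hm1 hs
  have ha0' : 0 < a := ha0
  refine lt_of_lt_of_le ha ?_
  simp only [Pi.div_apply]
  rw [div_le_iff₀ (mul_pos h7 h8)]
  have h9 := GB_split (D := Metric.ball (c + 2 * r) (3 * r)) Metric.isBounded_ball hsub.1 hsub.2
    hsep ha0' hs hm0 hm1
  have e : GB .plus (TT (Metric.ball (c + 2 * r) (3 * r)) a)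
      (Fin.append (fun _ : Fin 1 => u a 0) (fun _ : Fin 1 => u a 1)) =
      GB .plus (TT (Metric.ball (c + 2 * r) (3 * r)) a) (u a) :=
    congrArg (Gp Kc _) (append_two (u a))
  rw [e] at h9
  have h10 : a ^ (-(((2 : ℕ) : ℝ) / 8)) = a ^ (-(1 : ℝ) / 8) * a ^ (-(1 : ℝ) / 8) := by
    rw [← rpow_split ha0']; congr 1; ring
  calc a ^ (-(((2 : ℕ) : ℝ) / 8)) * GB .plus (TT (Metric.ball (c + 2 * r) (3 * r)) a) (u a)
      ≤ a ^ (-(((2 : ℕ) : ℝ) / 8)) *
        (GB .plus (TT (Metric.ball c r) a) (fun _ : Fin 1 => u a 0) *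
        GB .plus (TT (Metric.ball (c + 4 * r) r) a) (fun _ : Fin 1 => u a 1)) :=
      mul_le_mul_of_nonneg_left h9 (Real.rpow_nonneg ha0'.le _)
    _ = (a ^ (-(1 : ℝ) / 8) * GB .plus (TT (Metric.ball c r) a) (fun _ : Fin 1 => u a 0)) *
        (a ^ (-(1 : ℝ) / 8) *
          GB .plus (TT (Metric.ball (c + 4 * r) r) a) (fun _ : Fin 1 => u a 1)) := by
      rw [h10]; ring
    _ = NN c r a * NN (c + 4 * r) r a * (σ₀ a * σ₁ a) := by rw [h5, h6]; ring

/-- the pair of points near the tangency points -/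
def tpt (c : ℂ) (r t : ℝ) : Fin 2 → ℂ := ![c - ((r - t : ℝ) : ℂ), c + 4 * r + ((r - t : ℝ) : ℂ)]

theorem tpt_zero (c : ℂ) (r t : ℝ) : tpt c r t 0 = c - ((r - t : ℝ) : ℂ) := rfl
theorem tpt_one (c : ℂ) (r t : ℝ) : tpt c r t 1 = c + 4 * r + ((r - t : ℝ) : ℂ) := rfl

theorem tpt_mem (c : ℂ) {r t : ℝ} (h0 : 0 < t) (h1 : t ≤ r) :
    tpt c r t 0 ∈ Metric.ball c r ∧ tpt c r t 1 ∈ Metric.ball (c + 4 * r) r := by
  rw [tpt_zero, tpt_one]
  constructor
  · rw [mem_ball_iff_norm, sub_sub_cancel_left, norm_neg, Complex.norm_real,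
      Real.norm_of_nonneg (by linarith)]
    linarith
  · rw [mem_ball_iff_norm, add_sub_cancel_left, Complex.norm_real,
      Real.norm_of_nonneg (by linarith)]
    linarith

theorem cb_tpt (c : ℂ) {r t : ℝ} (hr : 0 < r) (h0 : 0 < t) (h1 : t ≤ r) :
    cb c r (tpt c r t 0) = 2 * t - t ^ 2 / r ∧
    cb (c + 4 * r) r (tpt c r t 1) = 2 * t - t ^ 2 / r ∧
    cb (c + 2 * r) (3 * r) (tpt c r t 0) = 2 * t - t ^ 2 / (3 * r) ∧
    cb (c + 2 * r) (3 * r) (tpt c r t 1) = 2 * t - t ^ 2 / (3 * r) := by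
  rw [tpt_zero, tpt_one]
  unfold cb
  have n1 : ‖((r - t : ℝ) : ℂ)‖ = r - t := by
    rw [Complex.norm_real, Real.norm_of_nonneg (by linarith)]
  have n2 : ‖(((3 * r - t : ℝ)) : ℂ)‖ = 3 * r - t := by
    rw [Complex.norm_real, Real.norm_of_nonneg (by linarith)]
  refine ⟨?_, ?_, ?_, ?_⟩
  · rw [sub_sub_cancel_left, norm_neg, n1]
    field_simp; ring
  · rw [add_sub_cancel_left, n1]
    field_simp; ring
  · have e : c - ((r - t : ℝ) : ℂ) - (c + 2 * r) = -((3 * r - t : ℝ) : ℂ) := by push_cast; ring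
    rw [e, norm_neg, n2]
    field_simp; ring
  · have e : c + 4 * r + ((r - t : ℝ) : ℂ) - (c + 2 * r) = ((3 * r - t : ℝ) : ℂ) := by
      push_cast; ring
    rw [e, n2]
    field_simp; ring

/-- the defect ratio tends to one -/
theorem ratio_tendsto {r : ℝ} (hr : 0 < r) :
    Tendsto (fun t : ℝ => ((2 * t - t ^ 2 / (3 * r)) / (2 * t - t ^ 2 / r)) ^ (-(1 : ℝ) / 8))
      (𝓝[>] 0) (𝓝 1) := by
  have h1 : Tendsto (fun t : ℝ => (2 - t / (3 * r)) / (2 - t / r)) (𝓝[>] 0) (𝓝 1) := by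
    have h2 : ContinuousAt (fun t : ℝ => (2 - t / (3 * r)) / (2 - t / r)) 0 := by
      apply ContinuousAt.div
      · fun_prop
      · fun_prop
      · simp
    have h3 := h2.tendsto
    simp only [zero_div, sub_zero] at h3
    rw [div_self (by norm_num : (2 : ℝ) ≠ 0)] at h3
    exact h3.mono_left nhdsWithin_le_nhds
  have h2 : Tendsto (fun t : ℝ => (2 * t - t ^ 2 / (3 * r)) / (2 * t - t ^ 2 / r)) (𝓝[>] 0)
      (𝓝 1) := by
    refine h1.congr' ?_
    filter_upwards [self_mem_nhdsWithin] with t ht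
    have ht' : t ≠ 0 := (show (0 : ℝ) < t from ht).ne'
    have e1 : 2 * t - t ^ 2 / (3 * r) = t * (2 - t / (3 * r)) := by ring
    have e2 : 2 * t - t ^ 2 / r = t * (2 - t / r) := by ring
    rw [e1, e2, mul_div_mul_left _ _ ht']
  have h3 : ContinuousAt (fun s : ℝ => s ^ (-(1 : ℝ) / 8)) 1 :=
    Real.continuousAt_rpow_const _ _ (Or.inl one_ne_zero)
  have h4 := h3.tendsto.comp h2
  rw [Real.one_rpow] at h4
  exact h4

theorem L2' (H : SpinInB .plus Lam) (G : TwoPt g) (c : ℂ) {r : ℝ} (hr : 0 < r) {C : ℝ} (hC : C < cs g) :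
    ∀ᶠ a in 𝓝[>] (0 : ℝ), C < NN c r a * NN (c + 4 * r) r a := by
  have h1 := ratio_tendsto hr
  have h2 := (h1.mul h1).const_mul (cs g)
  rw [mul_one, mul_one] at h2
  have h3 := h2.eventually (lt_mem_nhds hC)
  have h4 : ∀ᶠ t in 𝓝[>] (0 : ℝ), t < r :=
    (eventually_lt_nhds hr).filter_mono nhdsWithin_le_nhds
  obtain ⟨t, ht1, ht2, ht3⟩ := (h3.and (h4.and self_mem_nhdsWithin)).exists
  have ht3' : 0 < t := ht3
  have hmem := tpt_mem c ht3' ht2.le
  refine L2 H G c hr hmem.1 hmem.2 (lt_of_lt_of_le ht1 ?_)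
  have hsub := tangent_sub c hr
  have hsep := tangent_sep c hr
  have hx : tpt c r t ∈ Conf (Metric.ball (c + 2 * r) (3 * r)) 2 := by
    constructor
    · intro i
      fin_cases i
      · exact hsub.1 hmem.1
      · exact hsub.2 hmem.2
    · have hne : tpt c r t 0 ≠ tpt c r t 1 := fun h => by
        have := hsep _ hmem.1 _ hmem.2
        rw [h, sub_self, norm_zero] at this
        linarith
      intro i j h
      fin_cases i <;> fin_cases j
      · rfl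
      · exact absurd h hne
      · exact absurd h.symm hne
      · rfl
  have h5 := cs_le G (c + 2 * r) (by linarith : 0 < 3 * r) hx
  obtain ⟨c1, c2, c3, c4⟩ := cb_tpt c hr ht3' ht2.le
  have p1 : 0 < 2 * t - t ^ 2 / r := by rw [← c1]; exact cb_pos hmem.1
  have p3 : 0 < 2 * t - t ^ 2 / (3 * r) := by rw [← c3]; exact cb_pos (hx.1 0)
  unfold qq fb at h5
  have c3' : cb (c + 2 * r) (3 * r) (tpt c r t 0) = 2 * t - t ^ 2 / (3 * r) := c3
  rw [c3', c4] at h5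
  unfold fb
  rw [c1, c2]
  rw [Real.div_rpow p3.le p1.le]
  set A := (2 * t - t ^ 2 / (3 * r)) ^ (-(1 : ℝ) / 8) with hA
  set B := (2 * t - t ^ 2 / r) ^ (-(1 : ℝ) / 8) with hB
  have hA0 : 0 < A := Real.rpow_pos_of_pos p3 _
  have hB0 : 0 < B := Real.rpow_pos_of_pos p1 _
  rw [le_div_iff₀ (mul_pos hA0 hA0)] at h5
  rw [le_div_iff₀ (mul_pos hB0 hB0)]
  calc cs g * (A / B * (A / B)) * (B * B) = cs g * (A * A) := by field_simp
    _ ≤ _ := h5

theorem cs_pos (H : SpinInB .plus Lam) (G : TwoPt g) : 0 < cs g := by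
  have hr : (0 : ℝ) < 1 := one_pos
  have hmem := tpt_mem (0 : ℂ) (r := 1) (t := 1 / 2) (by norm_num) (by norm_num)
  have hsub := tangent_sub (0 : ℂ) hr
  have hsep := tangent_sep (0 : ℂ) hr
  have hx : tpt 0 1 (1 / 2) ∈ Conf (Metric.ball ((0 : ℂ) + 2 * (1 : ℝ)) (3 * 1)) 2 := by
    constructor
    · intro i
      fin_cases i
      · exact hsub.1 hmem.1
      · exact hsub.2 hmem.2
    · have hne : tpt 0 1 (1 / 2) 0 ≠ tpt 0 1 (1 / 2) 1 := fun h => by
        have := hsep _ hmem.1 _ hmem.2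
        rw [h, sub_self, norm_zero] at this
        linarith
      intro i j h
      fin_cases i <;> fin_cases j
      · rfl
      · exact absurd h hne
      · exact absurd h.symm hne
      · rfl
  have hL : 0 < g ((0 : ℂ) + 2 * (1 : ℝ)) (3 * 1) (tpt 0 1 (1 / 2)) /
      (fb 0 1 (tpt 0 1 (1 / 2) 0) * fb ((0 : ℂ) + 4 * (1 : ℝ)) 1 (tpt 0 1 (1 / 2) 1)) :=
    div_pos (G.pos _ _ (by norm_num) _ hx) (mul_pos (fb_pos hmem.1) (fb_pos hmem.2))
  set L0 := g ((0 : ℂ) + 2 * (1 : ℝ)) (3 * 1) (tpt 0 1 (1 / 2)) /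
      (fb 0 1 (tpt 0 1 (1 / 2) 0) * fb ((0 : ℂ) + 4 * (1 : ℝ)) 1 (tpt 0 1 (1 / 2) 1)) with hL0
  have h1 := L2 H G (0 : ℂ) hr hmem.1 hmem.2 (C := L0 / 2) (by rw [← hL0]; linarith)
  by_contra hcs
  have hcs' : cs g < L0 / 2 := lt_of_le_of_lt (not_lt.1 hcs) (by linarith)
  have h2 := L1 H G (0 : ℂ) hr hcs'
  have h3 := L1 H G ((0 : ℂ) + 4 * (1 : ℝ)) hr hcs'
  obtain ⟨a, ⟨ha1, ha2⟩, ha3, ha4⟩ := ((h1.and h2).and (h3.and self_mem_nhdsWithin)).exists
  have n1 := NN_nonneg (0 : ℂ) hr ha4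
  have n2 := NN_nonneg ((0 : ℂ) + 4 * (1 : ℝ)) hr ha4
  nlinarith [sq_nonneg (NN 0 1 a - NN ((0 : ℂ) + 4 * (1 : ℝ)) 1 a)]

/-- the constant of every disc converges to `√c_*` -/
theorem NN_tendsto (H : SpinInB .plus Lam) (G : TwoPt g) (c : ℂ) {r : ℝ} (hr : 0 < r) :
    Tendsto (NN c r) (𝓝[>] 0) (𝓝 (Real.sqrt (cs g))) := by
  have hcs := cs_pos H G
  set κ := Real.sqrt (cs g) with hκ
  have hκ0 : 0 < κ := Real.sqrt_pos.2 hcs
  have hκ2 : κ ^ 2 = cs g := Real.sq_sqrt hcs.le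
  rw [tendsto_order]
  have up : ∀ (c' : ℂ) (s : ℝ), κ < s → ∀ᶠ a in 𝓝[>] (0 : ℝ), NN c' r a < s := by
    intro c' s hs
    have h1 : cs g < s ^ 2 := by rw [← hκ2]; nlinarith
    filter_upwards [L1 H G c' hr h1, self_mem_nhdsWithin] with a ha ha0
    exact lt_of_pow_lt_pow_left₀ 2 (by linarith) ha
  refine ⟨fun s hs => ?_, fun s hs => up c s hs⟩
  -- lower bound
  by_cases hs0 : s < 0
  · filter_upwards [self_mem_nhdsWithin] with a ha0
    exact lt_of_lt_of_le hs0 (NN_nonneg c hr ha0)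
  · have hs0' : 0 ≤ s := not_lt.1 hs0
    -- choose `C < c_*` and `S > κ` with `C / S > s`
    obtain ⟨C, hC1, hC2⟩ : ∃ C, s * κ < C ∧ C < cs g := by
      apply _root_.exists_between
      rw [← hκ2]; nlinarith
    obtain ⟨S, hS1, hS2⟩ : ∃ S, κ < S ∧ s * S ≤ C := by
      rcases hs0'.eq_or_lt with h | h
      · exact ⟨κ + 1, by linarith, by rw [← h, zero_mul]; rw [← h, zero_mul] at hC1; exact hC1.le⟩
      · refine ⟨C / s, ?_, ?_⟩
        · rw [lt_div_iff₀ h]; linarith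
        · rw [mul_div_cancel₀ _ h.ne']
    filter_upwards [L2' H G c hr hC2, up (c + 4 * r) S hS1, self_mem_nhdsWithin] with a h1 h2 ha0
    have n1 := NN_nonneg c hr ha0
    have n2 := NN_nonneg (c + 4 * r) hr ha0
    by_contra hcon
    have h3 : NN c r a ≤ s := not_lt.1 hcon
    have h4 : NN c r a * NN (c + 4 * r) r a ≤ s * S := mul_le_mul h3 h2.le n2 hs0'
    linarith

/-- **S3**: one-point function of discs -/
theorem S3 (H : SpinInB .plus Lam) (G : TwoPt g) :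
    ∃ κ : ℝ, 0 < κ ∧ ∀ (c : ℂ) (r : ℝ), 0 < r → ∀ z ∈ Metric.ball c r,
      SLim .plus (Metric.ball c r) (fun _ : Fin 1 => z) (κ * fb c r z) := by
  refine ⟨Real.sqrt (cs g), Real.sqrt_pos.2 (cs_pos H G), fun c r hr z hz u hu => ?_⟩
  obtain ⟨σ, hσ, e⟩ := key1 H c hr hz hu
  have h1 := (NN_tendsto H G c hr).mul hσ
  refine h1.congr' ?_
  filter_upwards [e] with a ha
  rw [← ha]
  have : -(((1 : ℕ) : ℝ) / 8) = -(1 : ℝ) / 8 := by push_cast; ring
  rw [this]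

end Crest.Agent.R165.Nm2x422
end
end

-- ▼ part R165/Nm3_422
section

/-!
# Row 165 (S0250), U5 / S4 part 1: Schwarz–Pick and the conformal radius (helper422)

`RMap D f` : `f` maps `D` conformally onto the unit disc; `cr f z` its conformal radius.
* `schwarz_pick`, `SPgen`, `SPin`, `SPout`, `SPext`
* `exists_limit` : a squeeze criterion for the existence of a positive limit
* `lam_one` : the one-point function is `K · crad^{-1/8}`
-/

set_option autoImplicit false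
set_option linter.unusedSectionVars false
set_option linter.unusedVariables false

noncomputable section

open Filter Topology
open Crest.ProbabilityR.IsingModel

namespace Crest.Agent.R165.Nm3x422

open Crest.Agent.R165.U5Px422
open Crest.Agent.R165.USpinx641 (SpinInB)
open Crest.Agent.R165.Nm1x422
open Crest.Agent.R165.Nm2x422
open Crest.Agent.R165.Redx541

/-! ### Schwarz–Pick -/

theorem one_sub_sq_pos {w : ℂ} (hw : w ∈ Metric.ball (0 : ℂ) 1) : 0 < 1 - ‖w‖ ^ 2 := by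
  have := normSq_lt_one hw
  rw [Complex.normSq_eq_norm_sq] at this
  linarith

/-- Schwarz–Pick on the unit disc -/
theorem schwarz_pick_unit {h : ℂ → ℂ} (hd : DifferentiableOn ℂ h (Metric.ball 0 1))
    (hm : Set.MapsTo h (Metric.ball 0 1) (Metric.ball 0 1)) {w : ℂ}
    (hw : w ∈ Metric.ball (0 : ℂ) 1) :
    ‖deriv h w‖ * (1 - ‖w‖ ^ 2) ≤ 1 - ‖h w‖ ^ 2 := by
  have h0 : (0 : ℂ) ∈ Metric.ball (0 : ℂ) 1 := Metric.mem_ball_self one_pos
  have hhw := hm hw
  set k : ℂ → ℂ := fun z => mob (h w) (h (mob w z)) with hk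
  have hk0 : k 0 = 0 := by simp only [hk, mob_zero, mob_self]
  have hkd : DifferentiableOn ℂ k (Metric.ball 0 1) := by
    have h1 : DifferentiableOn ℂ (fun z => h (mob w z)) (Metric.ball 0 1) :=
      hd.comp (mob_diff hw) (fun z hz => mob_mem hw hz)
    exact (mob_diff hhw).comp h1 (fun z hz => hm (mob_mem hw hz))
  have hkm : Set.MapsTo k (Metric.ball 0 1) (Metric.closedBall (k 0) 1) := by
    intro z hz
    rw [hk0]
    exact Metric.ball_subset_closedBall (mob_mem hhw (hm (mob_mem hw hz)))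
  have h2 := Complex.norm_deriv_le_one_of_mapsTo_ball hkd hkm one_pos
  have hopen : Metric.ball (0 : ℂ) 1 ∈ 𝓝 w := Metric.isOpen_ball.mem_nhds hw
  have d1 : HasDerivAt (mob w) (deriv (mob w) 0) 0 :=
    ((mob_hasDeriv hw h0).differentiableAt).hasDerivAt
  have d2 : HasDerivAt h (deriv h w) (mob w 0) := by
    rw [mob_zero]; exact (hd.differentiableAt hopen).hasDerivAt
  have d3 : HasDerivAt (mob (h w)) (deriv (mob (h w)) (h w)) (h (mob w 0)) := by
    rw [mob_zero]; exact ((mob_hasDeriv hhw hhw).differentiableAt).hasDerivAt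
  have d4 : HasDerivAt k (deriv (mob (h w)) (h w) * (deriv h w * deriv (mob w) 0)) 0 := by
    have := d3.comp (0 : ℂ) (d2.comp (0 : ℂ) d1)
    exact this
  rw [d4.deriv, norm_mul, norm_mul, mob_deriv_self hhw, mob_deriv_zero hw] at h2
  have p1 := one_sub_sq_pos hhw
  rw [inv_mul_le_iff₀ p1, mul_one] at h2
  exact h2

/-- Schwarz–Pick on a disc, in terms of its conformal radius -/
theorem schwarz_pick {h : ℂ → ℂ} {q : ℂ} {ρ : ℝ} (hd : DifferentiableOn ℂ h (Metric.ball q ρ))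
    (hm : Set.MapsTo h (Metric.ball q ρ) (Metric.ball 0 1)) {z : ℂ}
    (hz : z ∈ Metric.ball q ρ) :
    ‖deriv h z‖ * cb q ρ z ≤ 1 - ‖h z‖ ^ 2 := by
  have hρ : 0 < ρ := by
    rw [mem_ball_iff_norm] at hz
    exact lt_of_le_of_lt (norm_nonneg _) hz
  have haff := affine_bij q hρ
  obtain ⟨w, hw, hwz⟩ := haff.surjOn hz
  have hd' : DifferentiableOn ℂ (fun v : ℂ => h (q + ρ * v)) (Metric.ball 0 1) :=
    hd.comp (by fun_prop) (fun v hv => haff.mapsTo hv)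
  have hm' : Set.MapsTo (fun v : ℂ => h (q + ρ * v)) (Metric.ball 0 1) (Metric.ball 0 1) :=
    fun v hv => hm (haff.mapsTo hv)
  have h1 := schwarz_pick_unit hd' hm' hw
  have d1 : HasDerivAt (fun v : ℂ => q + ρ * v) (ρ : ℂ) w := by
    simpa using ((hasDerivAt_id w).const_mul (ρ : ℂ)).const_add q
  have d2 : HasDerivAt h (deriv h z) (q + ρ * w) := by
    have e : q + ρ * w = z := hwz
    rw [e]; exact (hd.differentiableAt (Metric.isOpen_ball.mem_nhds hz)).hasDerivAt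
  have d3 : HasDerivAt (fun v : ℂ => h (q + ρ * v)) (deriv h z * ρ) w := d2.comp w d1
  rw [d3.deriv, norm_mul, Complex.norm_real, Real.norm_of_nonneg hρ.le] at h1
  have e1 : cb q ρ z = ρ * (1 - ‖w‖ ^ 2) := by
    rw [← hwz]
    show cb q ρ (q + ρ * w) = _
    rw [cb_affine q hρ]
    simp [cb]
  have e2 : h (q + ρ * w) = h z := by
    have e : q + ρ * w = z := hwz
    rw [e]
  rw [e1, ← mul_assoc]
  rw [e2] at h1
  exact h1

/-- a conformal map of `D` onto the unit disc -/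
structure RMap (D : Set ℂ) (f : ℂ → ℂ) : Prop where
  diff : DifferentiableOn ℂ f D
  bij : Set.BijOn f D (Metric.ball 0 1)

/-- conformal radius -/
def cr (f : ℂ → ℂ) (z : ℂ) : ℝ := (1 - ‖f z‖ ^ 2) / ‖deriv f z‖

theorem RMap.deriv_pos {D : Set ℂ} {f : ℂ → ℂ} (R : RMap D f) (hO : IsOpen D) {z : ℂ}
    (hz : z ∈ D) : 0 < ‖deriv f z‖ :=
  norm_pos_iff.2 (Crest.Agent.Lib.deriv_ne_zero_of_injOn hO R.diff R.bij.injOn hz)

theorem RMap.cr_pos {D : Set ℂ} {f : ℂ → ℂ} (R : RMap D f) (hO : IsOpen D) {z : ℂ}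
    (hz : z ∈ D) : 0 < cr f z :=
  div_pos (one_sub_sq_pos (R.bij.mapsTo hz)) (R.deriv_pos hO hz)

/-- discs inside `D` have smaller conformal radius -/
theorem SPin {D : Set ℂ} {f : ℂ → ℂ} (R : RMap D f) (hO : IsOpen D) {q : ℂ} {ρ : ℝ}
    (hB : Metric.ball q ρ ⊆ D) {z : ℂ} (hz : z ∈ Metric.ball q ρ) : cb q ρ z ≤ cr f z := by
  have h1 := schwarz_pick (R.diff.mono hB) (R.bij.mapsTo.mono_left hB) hz
  unfold cr
  rw [le_div_iff₀ (R.deriv_pos hO (hB hz)), mul_comm]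
  exact h1

/-- general Schwarz–Pick for maps of `D` into the unit disc -/
theorem SPgen {D : Set ℂ} {f : ℂ → ℂ} (R : RMap D f) (hO : IsOpen D) {T : ℂ → ℂ}
    (hT : DifferentiableOn ℂ T D) (hTm : Set.MapsTo T D (Metric.ball 0 1)) {z : ℂ} (hz : z ∈ D) :
    ‖deriv T z‖ * cr f z ≤ 1 - ‖T z‖ ^ 2 := by
  obtain ⟨φ, hφd, hφi, hφD, hφf, hfφ⟩ :=
    Crest.Agent.Lib.exists_holomorphic_inverse hO R.diff R.bij.injOn
  rw [R.bij.image_eq] at hφd hφi hφD hfφ
  have hφm : Set.MapsTo φ (Metric.ball 0 1) D := fun w hw => by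
    rw [← hφD]; exact Set.mem_image_of_mem φ hw
  have hw := R.bij.mapsTo hz
  have h1 := schwarz_pick_unit (hT.comp hφd hφm) (hTm.comp hφm) hw
  have hzf : φ (f z) = z := hφf z hz
  have d1 : HasDerivAt φ (deriv φ (f z)) (f z) :=
    (hφd.differentiableAt (Metric.isOpen_ball.mem_nhds hw)).hasDerivAt
  have d2 : HasDerivAt T (deriv T z) (φ (f z)) := by
    rw [hzf]; exact (hT.differentiableAt (hO.mem_nhds hz)).hasDerivAt
  have d3 : HasDerivAt f (deriv f z) z := (R.diff.differentiableAt (hO.mem_nhds hz)).hasDerivAt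
  have d4 := d2.comp (f z) d1
  have d5 : HasDerivAt (fun v => φ (f v)) (deriv φ (f z) * deriv f z) z := d1.comp z d3
  have d6 : HasDerivAt (fun v => φ (f v)) 1 z := by
    refine (hasDerivAt_id z).congr_of_eventuallyEq ?_
    filter_upwards [hO.mem_nhds hz] with v hv
    exact hφf v hv
  have e1 : deriv φ (f z) * deriv f z = 1 := d5.unique d6
  have e2 : ‖deriv φ (f z)‖ * ‖deriv f z‖ = 1 := by rw [← norm_mul, e1, norm_one]
  have e3 : deriv (T ∘ φ) (f z) = deriv T z * deriv φ (f z) := d4.deriv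
  rw [e3, norm_mul, Function.comp_apply, hzf] at h1
  have p1 := R.deriv_pos hO hz
  unfold cr
  have e4 : ‖deriv φ (f z)‖ = 1 / ‖deriv f z‖ := by rw [eq_div_iff p1.ne']; exact e2
  rw [e4] at h1
  calc ‖deriv T z‖ * ((1 - ‖f z‖ ^ 2) / ‖deriv f z‖)
      = ‖deriv T z‖ * (1 / ‖deriv f z‖) * (1 - ‖f z‖ ^ 2) := by ring
    _ ≤ _ := h1

/-- `D` inside a disc -/
theorem SPout {D : Set ℂ} {f : ℂ → ℂ} (R : RMap D f) (hO : IsOpen D) {q : ℂ} {ρ : ℝ}
    (hB : D ⊆ Metric.ball q ρ) {z : ℂ} (hz : z ∈ D) : cr f z ≤ cb q ρ z := by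
  have hρ : 0 < ρ := by
    have := hB hz
    rw [mem_ball_iff_norm] at this
    exact lt_of_le_of_lt (norm_nonneg _) this
  have hρ' : (ρ : ℂ) ≠ 0 := Complex.ofReal_ne_zero.2 hρ.ne'
  have hT : DifferentiableOn ℂ (fun v : ℂ => (v - q) / ρ) D := by fun_prop
  have hTm : Set.MapsTo (fun v : ℂ => (v - q) / ρ) D (Metric.ball 0 1) := by
    intro v hv
    have h1 := hB hv
    rw [mem_ball_iff_norm] at h1
    rw [mem_ball_iff_norm, sub_zero, norm_div, Complex.norm_real, Real.norm_of_nonneg hρ.le,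
      div_lt_one hρ]
    exact h1
  have h1 := SPgen R hO hT hTm hz
  have d : HasDerivAt (fun v : ℂ => (v - q) / ρ) (1 / (ρ : ℂ)) z :=
    ((hasDerivAt_id z).sub_const q).div_const (ρ : ℂ)
  rw [d.deriv, norm_div, norm_one, norm_div, Complex.norm_real, Real.norm_of_nonneg hρ.le] at h1
  unfold cb
  rw [le_div_iff₀ hρ]
  have h2 : 1 / ρ * cr f z * ρ ^ 2 ≤ (1 - (‖z - q‖ / ρ) ^ 2) * ρ ^ 2 :=
    mul_le_mul_of_nonneg_right h1 (sq_nonneg _)
  have e1 : 1 / ρ * cr f z * ρ ^ 2 = cr f z * ρ := by field_simp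
  have e2 : (1 - (‖z - q‖ / ρ) ^ 2) * ρ ^ 2 = ρ ^ 2 - ‖z - q‖ ^ 2 := by field_simp
  rw [e1, e2] at h2
  exact h2

/-- `D` outside a disc -/
theorem SPext {D : Set ℂ} {f : ℂ → ℂ} (R : RMap D f) (hO : IsOpen D) {e : ℂ} {ρ : ℝ}
    (hρ : 0 < ρ) (hB : ∀ v ∈ D, ρ < ‖v - e‖) {z : ℂ} (hz : z ∈ D) :
    cr f z ≤ (‖z - e‖ ^ 2 - ρ ^ 2) / ρ := by
  have hne : ∀ v ∈ D, v - e ≠ 0 := fun v hv => norm_pos_iff.1 (hρ.trans (hB v hv))
  have hT : DifferentiableOn ℂ (fun v : ℂ => (ρ : ℂ) / (v - e)) D := by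
    intro v hv
    exact ((differentiableAt_const (ρ : ℂ)).div (differentiableAt_id.sub_const e)
      (hne v hv)).differentiableWithinAt
  have hTm : Set.MapsTo (fun v : ℂ => (ρ : ℂ) / (v - e)) D (Metric.ball 0 1) := by
    intro v hv
    rw [mem_ball_iff_norm, sub_zero, norm_div, Complex.norm_real, Real.norm_of_nonneg hρ.le,
      div_lt_one (norm_pos_iff.2 (hne v hv))]
    exact hB v hv
  have h1 := SPgen R hO hT hTm hz
  have d : HasDerivAt (fun v : ℂ => (ρ : ℂ) / (v - e)) (-(ρ : ℂ) / (z - e) ^ 2) z := by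
    have := ((hasDerivAt_const z (ρ : ℂ)).div ((hasDerivAt_id z).sub_const e) (hne z hz))
    refine this.congr_deriv ?_
    simp
  have hp := norm_pos_iff.2 (hne z hz)
  rw [d.deriv, norm_div, norm_neg, norm_pow, norm_div, Complex.norm_real,
    Real.norm_of_nonneg hρ.le] at h1
  rw [le_div_iff₀ hρ]
  have h2 : ρ / ‖z - e‖ ^ 2 * cr f z * ‖z - e‖ ^ 2 ≤
      (1 - (ρ / ‖z - e‖) ^ 2) * ‖z - e‖ ^ 2 := mul_le_mul_of_nonneg_right h1 (sq_nonneg _)
  have e1 : ρ / ‖z - e‖ ^ 2 * cr f z * ‖z - e‖ ^ 2 = cr f z * ρ := by field_simp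
  have e2 : (1 - (ρ / ‖z - e‖) ^ 2) * ‖z - e‖ ^ 2 = ‖z - e‖ ^ 2 - ρ ^ 2 := by field_simp
  rw [e1, e2] at h2
  exact h2

/-! ### squeeze criterion -/

/-- if for every `ε` the function is eventually in some `[A, (1+ε) A]`, `A > 0`, it has a positive
limit -/
theorem exists_limit {α : Type*} {l : Filter α} [NeBot l] {h : α → ℝ}
    (H : ∀ ε > 0, ∃ A > 0, ∀ᶠ a in l, A ≤ h a ∧ h a ≤ (1 + ε) * A) :
    ∃ F : ℝ, 0 < F ∧ Tendsto h l (𝓝 F) := by
  obtain ⟨A₁, hA₁, hev₁⟩ := H 1 one_pos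
  have hc : Cauchy (map h l) := by
    rw [Metric.cauchy_iff]
    refine ⟨inferInstance, fun ε hε => ?_⟩
    obtain ⟨A, hA, hev⟩ := H (ε / (2 * A₁ + 1) / 2) (by positivity)
    refine ⟨{x | A ≤ x ∧ x ≤ (1 + ε / (2 * A₁ + 1) / 2) * A ∧ x ≤ 2 * A₁}, ?_, ?_⟩
    · rw [mem_map]
      filter_upwards [hev, hev₁] with a h1 h2
      exact ⟨h1.1, h1.2, by linarith [h2.2]⟩
    · rintro x ⟨hx1, hx2, hx3⟩ y ⟨hy1, hy2, hy3⟩
      rw [Real.dist_eq, abs_lt]
      have hAle : A ≤ 2 * A₁ := hx1.trans hx3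
      have h3 : ε / (2 * A₁ + 1) / 2 * A < ε := by
        have : ε / (2 * A₁ + 1) / 2 * A ≤ ε / (2 * A₁ + 1) / 2 * (2 * A₁ + 1) :=
          mul_le_mul_of_nonneg_left (by linarith) (by positivity)
        have e : ε / (2 * A₁ + 1) / 2 * (2 * A₁ + 1) = ε / 2 := by field_simp
        linarith
      constructor <;> nlinarith
  obtain ⟨F, hF⟩ := CompleteSpace.complete hc
  have hF' : Tendsto h l (𝓝 F) := hF
  refine ⟨F, lt_of_lt_of_le hA₁ (ge_of_tendsto hF' ?_), hF'⟩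
  filter_upwards [hev₁] with a ha
  exact ha.1

/-! ### the one-point function of a general domain, up to a constant -/

variable {Lam : (n : ℕ) → Set ℂ → (Fin n → ℂ) → ℝ}

theorem lam_one (H : SpinInB .plus Lam) {D : Set ℂ} (hD : IsC2JordanDomain D) (hO : IsOpen D)
    {f : ℂ → ℂ} (R : RMap D f) :
    ∃ K : ℝ, 0 < K ∧ ∀ z ∈ D, Lam 1 D (fun _ => z) = K * (cr f z) ^ (-(1 : ℝ) / 8) := by
  have hA : Allow .plus 1 := Or.inl rfl
  obtain ⟨k, hk, hcov⟩ := H.cov 1 D _ hA hD (isC2_ball 0 one_pos) f R.diff R.bij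
  obtain ⟨C, hC, hlam⟩ := lam_ball H (0 : ℂ) one_pos
  refine ⟨C / k, div_pos hC hk, fun z hz => ?_⟩
  have h1 := hcov _ (conf_one hz)
  simp only [Finset.univ_unique, Finset.prod_const, Finset.card_singleton, pow_one] at h1
  rw [hlam _ (R.bij.mapsTo hz)] at h1
  have hp := R.deriv_pos hO hz
  have hs := one_sub_sq_pos (R.bij.mapsTo hz)
  have e1 : cb 0 1 (f z) = 1 - ‖f z‖ ^ 2 := by simp [cb]
  rw [e1] at h1
  unfold cr
  rw [Real.div_rpow hs.le hp.le]
  have e2 : ‖deriv f z‖ ^ (-(1 : ℝ) / 8) = (‖deriv f z‖ ^ ((1 : ℝ) / 8))⁻¹ := by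
    rw [← Real.rpow_neg hp.le]; congr 1; ring
  rw [e2, div_inv_eq_mul]
  have h2 : Lam 1 D (fun _ => z) = k⁻¹ * (k * Lam 1 D (fun _ => z)) := by
    field_simp
  rw [h2, ← h1]
  ring

end Crest.Agent.R165.Nm3x422
end
end

-- ▼ part R165/Nm4_422
section

/-!
# Row 165 (S0250), U5 / S4: one-point function of a general `C²` Jordan domain (helper422)

`S4 : ... → a^{-1/8} ⟨σ_z⟩⁺_D → κ crad(z, D)^{-1/8}` for every `C²` Jordan domain.
-/

set_option autoImplicit false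
set_option linter.unusedSectionVars false
set_option linter.unusedVariables false

noncomputable section

open Filter Topology
open Crest.ProbabilityR.IsingModel

namespace Crest.Agent.R165.Nm4x422

open Crest.Agent.R165.U5Px422
open Crest.Agent.R165.USpinx641 (SpinInB)
open Crest.Agent.R165.Nm1x422
open Crest.Agent.R165.Nm2x422
open Crest.Agent.R165.Nm3x422
open Crest.Agent.R165.Redx541

variable {Lam : (n : ℕ) → Set ℂ → (Fin n → ℂ) → ℝ}

/-! ### transfer of limits between configurations -/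

theorem eventually_ne {b : BoundaryCondition} (H : SpinInB b Lam) {n : ℕ} {D : Set ℂ}
    (hA : Allow b n) (hD : IsC2JordanDomain D) {x : Fin n → ℂ} (hx : x ∈ Conf D n)
    {u : ℝ → Fin n → ℤ × ℤ} (hu : LApp u x) :
    ∀ᶠ a in 𝓝[>] (0 : ℝ), GB b (TT D a) (u a) ≠ 0 := by
  have h2 := H.ratio n D hA hD x hx x hx u u hu hu
  rw [div_self (H.pos n D hA hD x hx).ne'] at h2
  filter_upwards [h2.eventually (lt_mem_nhds (show (0 : ℝ) < 1 from one_pos))] with a ha h5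
  rw [h5, div_zero] at ha
  exact lt_irrefl _ ha

/-- the rescaled correlation -/
def hh (b : BoundaryCondition) {n : ℕ} (D : Set ℂ) (u : ℝ → Fin n → ℤ × ℤ) (a : ℝ) : ℝ :=
  a ^ (-((n : ℝ) / 8)) * GB b (TT D a) (u a)

theorem hh_ratio {b : BoundaryCondition} (H : SpinInB b Lam) {n : ℕ} {D : Set ℂ}
    (hA : Allow b n) (hD : IsC2JordanDomain D) {x x' : Fin n → ℂ} (hx : x ∈ Conf D n)
    (hx' : x' ∈ Conf D n) {u u' : ℝ → Fin n → ℤ × ℤ} (hu : LApp u x) (hu' : LApp u' x') :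
    ∀ᶠ a in 𝓝[>] (0 : ℝ), hh b D u a = (GB b (TT D a) (u a) / GB b (TT D a) (u' a)) * hh b D u' a := by
  filter_upwards [eventually_ne H hA hD hx' hu'] with a ha
  unfold hh
  field_simp

theorem transfer {b : BoundaryCondition} (H : SpinInB b Lam) {n : ℕ} {D : Set ℂ}
    (hA : Allow b n) (hD : IsC2JordanDomain D) {x x' : Fin n → ℂ} (hx : x ∈ Conf D n)
    (hx' : x' ∈ Conf D n) {u' : ℝ → Fin n → ℤ × ℤ} (hu' : LApp u' x') {F : ℝ}
    (hF : Tendsto (hh b D u') (𝓝[>] 0) (𝓝 F)) :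
    SLim b D x (Lam n D x / Lam n D x' * F) := by
  intro u hu
  have h1 := (H.ratio n D hA hD x hx x' hx' u u' hu hu').mul hF
  refine h1.congr' ?_
  filter_upwards [hh_ratio H hA hD hx hx' hu hu'] with a ha
  exact ha.symm

theorem SLim.unique {b : BoundaryCondition} {n : ℕ} {D : Set ℂ} {x : Fin n → ℂ} {F F' : ℝ}
    (h : SLim b D x F) (h' : SLim b D x F') : F = F' :=
  tendsto_nhds_unique (h _ (lapp_meshIndex x)) (h' _ (lapp_meshIndex x))

/-! ### geometry -/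

/-- an open set has no point of largest norm -/
theorem exists_larger {D : Set ℂ} (hO : IsOpen D) {z : ℂ} (hz : z ∈ D) :
    ∃ w ∈ D, ‖z‖ < ‖w‖ := by
  obtain ⟨ε, hε, hb⟩ := Metric.isOpen_iff.1 hO z hz
  by_cases h : z = 0
  · refine ⟨((ε / 2 : ℝ) : ℂ), hb ?_, ?_⟩
    · rw [h, mem_ball_iff_norm, sub_zero, Complex.norm_real, Real.norm_of_nonneg (by positivity)]
      linarith
    · rw [h, norm_zero, Complex.norm_real, Real.norm_of_nonneg (by positivity)]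
      positivity
  · have hz0 : 0 < ‖z‖ := norm_pos_iff.2 h
    refine ⟨z + ((ε / 2 / ‖z‖ : ℝ) : ℂ) * z, hb ?_, ?_⟩
    · rw [mem_ball_iff_norm, add_sub_cancel_left, norm_mul, Complex.norm_real,
        Real.norm_of_nonneg (by positivity), div_mul_cancel₀ _ hz0.ne']
      linarith
    · have e : z + ((ε / 2 / ‖z‖ : ℝ) : ℂ) * z = ((1 + ε / 2 / ‖z‖ : ℝ) : ℂ) * z := by
        push_cast; ring
      rw [e, norm_mul, Complex.norm_real, Real.norm_of_nonneg (by positivity)]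
      have h2 : 0 < ε / 2 / ‖z‖ := by positivity
      nlinarith

/-- the farthest boundary point -/
theorem exists_far {D : Set ℂ} (hO : IsOpen D) (hB : Bornology.IsBounded D) (hne : D.Nonempty) :
    ∃ p ∈ frontier D, 0 < ‖p‖ ∧ D ⊆ Metric.ball 0 ‖p‖ := by
  have hc : IsCompact (closure D) := hB.isCompact_closure
  obtain ⟨p, hp, hmax⟩ := hc.exists_isMaxOn (hne.mono subset_closure) continuous_norm.continuousOn
  have hlt : ∀ z ∈ D, ‖z‖ < ‖p‖ := by
    intro z hz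
    obtain ⟨w, hw, hzw⟩ := exists_larger hO hz
    exact lt_of_lt_of_le hzw (hmax (subset_closure hw))
  obtain ⟨z0, hz0⟩ := hne
  refine ⟨p, ⟨hp, fun hi => ?_⟩, lt_of_le_of_lt (norm_nonneg _) (hlt z0 hz0), fun z hz => ?_⟩
  · rw [hO.interior_eq] at hi
    exact lt_irrefl _ (hlt p hi)
  · rw [mem_ball_iff_norm, sub_zero]; exact hlt z hz

theorem ball_in_ball {q : ℂ} {ρ R : ℝ} (hρ : 0 < ρ)
    (h : Metric.ball q ρ ⊆ Metric.ball (0 : ℂ) R) : ‖q‖ + ρ ≤ R := by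
  by_contra hcon
  have hcon : R < ‖q‖ + ρ := not_le.1 hcon
  set d : ℂ := if q = 0 then 1 else q / ‖q‖ with hd
  have hd1 : ‖d‖ = 1 := by
    by_cases hq : q = 0
    · rw [hd, if_pos hq, norm_one]
    · rw [hd, if_neg hq, norm_div, Complex.norm_real, norm_norm, div_self (norm_ne_zero_iff.2 hq)]
  have hqd : q = ‖q‖ * d := by
    by_cases hq : q = 0
    · rw [hq]; simp
    · rw [hd, if_neg hq]
      have : (‖q‖ : ℂ) ≠ 0 := Complex.ofReal_ne_zero.2 (norm_ne_zero_iff.2 hq)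
      field_simp
  obtain ⟨s, hs1, hs2⟩ := exists_between (show max 0 (R - ‖q‖) < ρ by
    rw [max_lt_iff]; exact ⟨hρ, by linarith⟩)
  have hs0 : 0 < s := lt_of_le_of_lt (le_max_left _ _) hs1
  have hsR : R - ‖q‖ < s := lt_of_le_of_lt (le_max_right _ _) hs1
  have hm : q + s * d ∈ Metric.ball q ρ := by
    rw [mem_ball_iff_norm, add_sub_cancel_left, norm_mul, hd1, mul_one, Complex.norm_real,
      Real.norm_of_nonneg hs0.le]
    exact hs2
  have h2 := h hm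
  rw [mem_ball_iff_norm, sub_zero] at h2
  have e : q + s * d = ((‖q‖ + s : ℝ) : ℂ) * d := by
    conv_lhs => rw [hqd]
    push_cast; ring
  rw [e, norm_mul, hd1, mul_one, Complex.norm_real, Real.norm_of_nonneg (by positivity)] at h2
  linarith

/-- norm along the normal at the farthest point -/
theorem norm_far {p n : ℂ} {ρ : ℝ} (hρ : 0 < ρ) (hn : ‖n‖ = 1)
    (h : Metric.ball (p + ρ * n) ρ ⊆ Metric.ball (0 : ℂ) ‖p‖) (t : ℝ) :
    ‖p + t * n‖ ^ 2 = (‖p‖ - t) ^ 2 := by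
  have h1 := ball_in_ball hρ h
  have h2 : ‖p‖ ≤ ‖p + ρ * n‖ + ρ := by
    have e : p = (p + ρ * n) - ρ * n := by ring
    calc ‖p‖ = ‖(p + ρ * n) - ρ * n‖ := by rw [← e]
      _ ≤ ‖p + ρ * n‖ + ‖(ρ : ℂ) * n‖ := norm_sub_le _ _
      _ = _ := by rw [norm_mul, hn, mul_one, Complex.norm_real, Real.norm_of_nonneg hρ.le]
  have h3 : ‖p + ρ * n‖ = ‖p‖ - ρ := by linarith
  have expand : ∀ s : ℝ, ‖p + s * n‖ ^ 2 = ‖p‖ ^ 2 + 2 * s * (p.re * n.re + p.im * n.im) + s ^ 2 := by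
    intro s
    have hn2 : n.re ^ 2 + n.im ^ 2 = 1 := by
      have := Complex.sq_norm n
      rw [hn, Complex.normSq_apply] at this
      linarith
    rw [Complex.sq_norm, Complex.sq_norm, Complex.normSq_apply, Complex.normSq_apply]
    simp only [Complex.add_re, Complex.add_im, Complex.mul_re, Complex.mul_im, Complex.ofReal_re,
      Complex.ofReal_im, zero_mul, sub_zero, add_zero]
    linear_combination s ^ 2 * hn2
  have h4 := expand ρ
  rw [h3] at h4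
  have h5 : p.re * n.re + p.im * n.im = -‖p‖ := by
    have : 2 * ρ * (p.re * n.re + p.im * n.im) = 2 * ρ * (-‖p‖) := by nlinarith
    exact mul_left_cancel₀ (by positivity) this
  rw [expand t, h5]; ring

theorem tangent_mem {p n : ℂ} {ρ t : ℝ} (hn : ‖n‖ = 1) (ht : 0 < t) (htρ : t ≤ ρ) :
    p + t * n ∈ Metric.ball (p + ρ * n) ρ := by
  rw [mem_ball_iff_norm]
  have e : p + t * n - (p + ρ * n) = ((t - ρ : ℝ) : ℂ) * n := by push_cast; ring
  rw [e, norm_mul, hn, mul_one, Complex.norm_real, Real.norm_eq_abs, abs_sub_comm,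
    abs_of_nonneg (by linarith)]
  linarith

theorem cb_tangent {p n : ℂ} {ρ t : ℝ} (hρ : 0 < ρ) (hn : ‖n‖ = 1) :
    cb (p + ρ * n) ρ (p + t * n) = 2 * t - t ^ 2 / ρ := by
  unfold cb
  have e : p + t * n - (p + ρ * n) = ((t - ρ : ℝ) : ℂ) * n := by push_cast; ring
  rw [e, norm_mul, hn, mul_one, Complex.norm_real, Real.norm_eq_abs, sq_abs]
  field_simp
  ring

/-- `((2t - t²/A) / (2t - t²/B))^{-1/8} → 1` (`A`, `B` may be negative) -/
theorem ratio_tendsto' (A B : ℝ) :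
    Tendsto (fun t : ℝ => (2 * t - t ^ 2 / B) ^ (-(1 : ℝ) / 8) / (2 * t - t ^ 2 / A) ^ (-(1 : ℝ) / 8))
      (𝓝[>] 0) (𝓝 1) := by
  have h1 : Tendsto (fun t : ℝ => (2 - t / B) / (2 - t / A)) (𝓝[>] 0) (𝓝 1) := by
    have h2 : ContinuousAt (fun t : ℝ => (2 - t / B) / (2 - t / A)) 0 := by
      apply ContinuousAt.div
      · fun_prop
      · fun_prop
      · simp
    have h3 := h2.tendsto
    simp only [zero_div, sub_zero] at h3
    rw [div_self (by norm_num : (2 : ℝ) ≠ 0)] at h3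
    exact h3.mono_left nhdsWithin_le_nhds
  have h3 : ContinuousAt (fun s : ℝ => s ^ (-(1 : ℝ) / 8)) 1 :=
    Real.continuousAt_rpow_const _ _ (Or.inl one_ne_zero)
  have h4 := h3.tendsto.comp h1
  rw [Real.one_rpow] at h4
  have pos : ∀ C : ℝ, ∀ᶠ t in 𝓝[>] (0 : ℝ), 0 < 2 - t / C := by
    intro C
    have h2 : ContinuousAt (fun t : ℝ => 2 - t / C) 0 := by fun_prop
    have h3 := h2.tendsto
    simp only [zero_div, sub_zero] at h3
    exact (h3.mono_left nhdsWithin_le_nhds).eventually (lt_mem_nhds (by norm_num))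
  refine h4.congr' ?_
  filter_upwards [self_mem_nhdsWithin, pos A, pos B] with t ht hA hB
  have ht' : 0 < t := ht
  have e1 : 2 * t - t ^ 2 / B = t * (2 - t / B) := by ring
  have e2 : 2 * t - t ^ 2 / A = t * (2 - t / A) := by ring
  rw [e1, e2, Real.mul_rpow ht'.le hB.le, Real.mul_rpow ht'.le hA.le,
    mul_div_mul_left _ _ (Real.rpow_pos_of_pos ht' _).ne', ← Real.div_rpow hB.le hA.le]
  rfl

theorem rpow_anti {x y : ℝ} (hx : 0 < x) (h : x ≤ y) :
    y ^ (-(1 : ℝ) / 8) ≤ x ^ (-(1 : ℝ) / 8) :=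
  Real.rpow_le_rpow_of_nonpos hx h (by norm_num)

/-- **S4**: one-point function of a general domain -/
theorem S4 (H : SpinInB .plus Lam) {κ : ℝ} (hκ : 0 < κ)
    (h3 : ∀ (c : ℂ) (r : ℝ), 0 < r → ∀ z ∈ Metric.ball c r,
      SLim .plus (Metric.ball c r) (fun _ : Fin 1 => z) (κ * fb c r z))
    {D : Set ℂ} (hD : IsC2JordanDomain D) {f : ℂ → ℂ} (R : RMap D f) {z : ℂ} (hz : z ∈ D) :
    SLim .plus D (fun _ : Fin 1 => z) (κ * (cr f z) ^ (-(1 : ℝ) / 8)) := by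
  have hA : Allow .plus 1 := Or.inl rfl
  have hne : D.Nonempty := ⟨z, hz⟩
  obtain ⟨r0, M0, hCD⟩ := GeoCx65.exists_CD hD hne
  have hO := hCD.isOpen
  have hB := hCD.bdd
  obtain ⟨p, hp, hp0, hsub⟩ := exists_far hO hB hne
  obtain ⟨n, hn, hball⟩ := GeoDx65.CD.ball_open hCD hp
  obtain ⟨ρ, hρ, hρ1, hρ2⟩ : ∃ ρ : ℝ, 0 < ρ ∧ 2 * ρ ≤ r0 ∧ 2 * M0 * ρ ≤ 1 := by
    refine ⟨min (r0 / 2) (1 / (2 * M0 + 1)), ?_, ?_, ?_⟩
    · have := hCD.r_pos
      have := hCD.M_nonneg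
      positivity
    · have := min_le_left (r0 / 2) (1 / (2 * M0 + 1)); linarith
    · have h1 := min_le_right (r0 / 2) (1 / (2 * M0 + 1))
      have h2 := hCD.M_nonneg
      have h3 : 2 * M0 * min (r0 / 2) (1 / (2 * M0 + 1)) ≤ 2 * M0 * (1 / (2 * M0 + 1)) :=
        mul_le_mul_of_nonneg_left h1 (by linarith)
      have h4 : 2 * M0 * (1 / (2 * M0 + 1)) ≤ 1 := by
        rw [mul_one_div, div_le_one (by linarith)]; linarith
      linarith
  obtain ⟨hin, -⟩ := hball ρ hρ hρ1 hρ2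
  have hin' := hin.trans hsub
  obtain ⟨K, hK, hlam⟩ := lam_one H hD hO R
  intro u hu
  show Tendsto (hh .plus D u) (𝓝[>] 0) _
  -- values at the approach points
  have hcr0 := R.cr_pos hO hz
  set L := κ * (cr f z) ^ (-(1 : ℝ) / 8) with hL
  have hL0 : 0 < L := mul_pos hκ (Real.rpow_pos_of_pos hcr0 _)
  have key : ∀ t : ℝ, 0 < t → t ≤ ρ → ∀ q : ℝ,
      q = (2 * t - t ^ 2 / ρ) ^ (-(1 : ℝ) / 8) / (2 * t - t ^ 2 / ‖p‖) ^ (-(1 : ℝ) / 8) →
      0 < q ∧ (∀ s, L * q < s → ∀ᶠ a in 𝓝[>] (0 : ℝ), hh .plus D u a < s) ∧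
        (∀ s, s < L / q → ∀ᶠ a in 𝓝[>] (0 : ℝ), s < hh .plus D u a) := by
    intro t ht htρ q hq
    set w : ℂ := p + t * n with hw
    have hwB : w ∈ Metric.ball (p + ρ * n) ρ := tangent_mem hn ht htρ
    have hwD : w ∈ D := hin hwB
    have hwO : w ∈ Metric.ball (0 : ℂ) ‖p‖ := hsub hwD
    have e1 : cb (p + ρ * n) ρ w = 2 * t - t ^ 2 / ρ := cb_tangent hρ hn
    have e2 : cb 0 ‖p‖ w = 2 * t - t ^ 2 / ‖p‖ := by
      unfold cb
      rw [sub_zero, hw, norm_far hρ hn hin' t]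
      field_simp
      ring
    have c1 := cb_pos hwB
    have c2 := cb_pos hwO
    have hcrw := R.cr_pos hO hwD
    have l1 : cb (p + ρ * n) ρ w ≤ cr f w := SPin R hO hin hwB
    have l2 : cr f w ≤ cb 0 ‖p‖ w := SPout R hO hsub hwD
    set fB := (cb (p + ρ * n) ρ w) ^ (-(1 : ℝ) / 8) with hfB
    set fR := (cb 0 ‖p‖ w) ^ (-(1 : ℝ) / 8) with hfR
    set fw := (cr f w) ^ (-(1 : ℝ) / 8) with hfw
    have hfB0 : 0 < fB := Real.rpow_pos_of_pos c1 _
    have hfR0 : 0 < fR := Real.rpow_pos_of_pos c2 _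
    have hfw0 : 0 < fw := Real.rpow_pos_of_pos hcrw _
    have l3 : fw ≤ fB := rpow_anti c1 l1
    have l4 : fR ≤ fw := rpow_anti hcrw l2
    have hq' : q = fB / fR := by rw [hq, hfB, hfR, e1, e2]
    have hq0 : 0 < q := by rw [hq']; exact div_pos hfB0 hfR0
    set v : ℝ → Fin 1 → ℤ × ℤ := fun a _ => meshIndex a w with hv
    have hv' : LApp v (fun _ => w) := lapp_meshIndex (fun _ : Fin 1 => w)
    have hr := H.ratio 1 D hA hD _ (conf_one hz) _ (conf_one hwD) u v hu hv'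
    have hev := hh_ratio H hA hD (conf_one hz) (conf_one hwD) hu hv'
    rw [hlam z hz, hlam w hwD, mul_div_mul_left _ _ hK.ne'] at hr
    have hTB : Tendsto (hh .plus (Metric.ball (p + ρ * n) ρ) v) (𝓝[>] 0) (𝓝 (κ * fB)) :=
      h3 _ ρ hρ w hwB v hv'
    have hTR : Tendsto (hh .plus (Metric.ball 0 ‖p‖) v) (𝓝[>] 0) (𝓝 (κ * fR)) :=
      h3 _ ‖p‖ hp0 w hwO v hv'
    have up := hr.mul hTB
    have lo := hr.mul hTR
    have rpos : 0 < (cr f z) ^ (-(1 : ℝ) / 8) / fw :=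
      div_pos (Real.rpow_pos_of_pos hcr0 _) hfw0
    have hrpos := hr.eventually (lt_mem_nhds rpos)
    refine ⟨hq0, fun s hs => ?_, fun s hs => ?_⟩
    · have : (cr f z) ^ (-(1 : ℝ) / 8) / fw * (κ * fB) < s := by
        refine lt_of_le_of_lt ?_ hs
        rw [hL, hq']
        have h5 : fB / fw ≤ fB / fR := div_le_div_of_nonneg_left hfB0.le hfR0 l4
        calc (cr f z) ^ (-(1 : ℝ) / 8) / fw * (κ * fB)
            = κ * (cr f z) ^ (-(1 : ℝ) / 8) * (fB / fw) := by ring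
          _ ≤ κ * (cr f z) ^ (-(1 : ℝ) / 8) * (fB / fR) :=
            mul_le_mul_of_nonneg_left h5 hL0.le
      filter_upwards [up.eventually (gt_mem_nhds this), hev, hrpos, self_mem_nhdsWithin]
        with a h5 h6 h7 ha
      refine lt_of_le_of_lt ?_ h5
      rw [h6]
      refine mul_le_mul_of_nonneg_left ?_ h7.le
      unfold hh
      exact mul_le_mul_of_nonneg_left (GB_plus_anti (TT_mono hB hin ha) _)
        (Real.rpow_nonneg (le_of_lt ha) _)
    · have : s < (cr f z) ^ (-(1 : ℝ) / 8) / fw * (κ * fR) := by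
        refine lt_of_lt_of_le hs ?_
        rw [hL, hq', div_div_eq_mul_div]
        calc κ * (cr f z) ^ (-(1 : ℝ) / 8) * fR / fB
            = κ * (cr f z) ^ (-(1 : ℝ) / 8) * fR * (1 / fB) := by ring
          _ ≤ κ * (cr f z) ^ (-(1 : ℝ) / 8) * fR * (1 / fw) :=
            mul_le_mul_of_nonneg_left (one_div_le_one_div_of_le hfw0 l3)
              (mul_pos hL0 hfR0).le
          _ = _ := by ring
      filter_upwards [lo.eventually (lt_mem_nhds this), hev, hrpos, self_mem_nhdsWithin]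
        with a h5 h6 h7 ha
      refine lt_of_lt_of_le h5 ?_
      rw [h6]
      refine mul_le_mul_of_nonneg_left ?_ h7.le
      unfold hh
      exact mul_le_mul_of_nonneg_left
        (GB_plus_anti (TT_mono Metric.isBounded_ball hsub ha) _)
        (Real.rpow_nonneg (le_of_lt ha) _)
  have hlim := ratio_tendsto' ‖p‖ ρ
  have hsmall : ∀ᶠ t in 𝓝[>] (0 : ℝ), t < ρ :=
    (eventually_lt_nhds hρ).filter_mono nhdsWithin_le_nhds
  rw [tendsto_order]
  refine ⟨fun s hs => ?_, fun s hs => ?_⟩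
  · have h4 := (tendsto_const_nhds (x := L)).div hlim one_ne_zero
    rw [div_one] at h4
    obtain ⟨t, h5, h6, h7⟩ :=
      ((h4.eventually (lt_mem_nhds hs)).and (hsmall.and self_mem_nhdsWithin)).exists
    exact (key t h7 h6.le _ rfl).2.2 s h5
  · have h4 := (tendsto_const_nhds (x := L)).mul hlim
    rw [mul_one] at h4
    obtain ⟨t, h5, h6, h7⟩ :=
      ((h4.eventually (gt_mem_nhds hs)).and (hsmall.and self_mem_nhdsWithin)).exists
    exact (key t h7 h6.le _ rfl).2.1 s h5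

end Crest.Agent.R165.Nm4x422
end
end

-- ▼ part R165/Nm5_422

/-!
# Row 165 (S0250), U5 / S5: `n`-point functions with plus boundary conditions (helper422)

* `prod_le_GB`, `GB_le_prod` : Griffiths lower bound, splitting upper bound for `n` points
* `frontier_infinite`
* `S5` : existence of the `n`-point scaling limits, `F_n ≥ ∏ F_1`, and `inf F_n / ∏ F_1 = 1`
* `spinOut_plus` : `SpinOut .plus n`
-/

set_option autoImplicit false
set_option linter.unusedSectionVars false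
set_option linter.unusedVariables false

noncomputable section

open Filter Topology
open Crest.ProbabilityR.IsingModel

namespace Crest.Agent.R165.Nm5x422

open Crest.Agent.R165.Gk0x422
open Crest.Agent.R165.Gk1x422
open Crest.Agent.R165.U5Px422
open Crest.Agent.R165.USpinx641 (SpinInB)
open Crest.Agent.R165.Nm1x422
open Crest.Agent.R165.Nm2x422
open Crest.Agent.R165.Nm3x422
open Crest.Agent.R165.Nm4x422
open Crest.Agent.R165.Redx541

variable {Lam : (n : ℕ) → Set ℂ → (Fin n → ℂ) → ℝ}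

/-! ### finite volume -/

theorem GB_plus_zero (T : Finset (ℤ × ℤ)) (u : Fin 0 → ℤ × ℤ) : GB .plus T u = 1 := by
  show Gp Kc T u = 1
  unfold Gp EX
  have : (sp u : (ℤ × ℤ → Bool) → ℝ) = fun _ => 1 := by
    funext s; simp [sp]
  rw [this]
  exact div_self ZZ_one_pos.ne'

theorem append_init_last {n : ℕ} {α : Type*} (u : Fin (n + 1) → α) :
    Fin.append (fun i : Fin n => u i.castSucc) (fun _ : Fin 1 => u (Fin.last n)) = u := by
  funext i
  refine Fin.lastCases ?_ (fun j => ?_) i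
  · have : (Fin.last n : Fin (n + 1)) = Fin.natAdd n (0 : Fin 1) := rfl
    rw [this, Fin.append_right]
  · have : (j.castSucc : Fin (n + 1)) = Fin.castAdd 1 j := rfl
    rw [this, Fin.append_left]
    rfl

/-- Griffiths lower bound -/
theorem prod_le_GB (T : Finset (ℤ × ℤ)) : ∀ {n : ℕ} (u : Fin n → ℤ × ℤ),
    ∏ i, GB .plus T (fun _ : Fin 1 => u i) ≤ GB .plus T u := by
  intro n
  induction n with
  | zero => intro u; rw [GB_plus_zero]; simp
  | succ n ih =>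
    intro u
    rw [Fin.prod_univ_castSucc]
    have h1 := ih fun i => u i.castSucc
    have h2 := GB_plus_mul_le T (fun i : Fin n => u i.castSucc) (fun _ : Fin 1 => u (Fin.last n))
    rw [append_init_last u] at h2
    exact (mul_le_mul_of_nonneg_right h1 (GB_nonneg (by simp) T _)).trans h2

/-- splitting upper bound -/
theorem GB_le_prod {a d : ℝ} (ha : 0 < a) (had : a < d) : ∀ {n : ℕ} {D : Set ℂ}
    (_ : Bornology.IsBounded D) (B : Fin n → Set ℂ) (_ : ∀ i, B i ⊆ D)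
    (_ : ∀ i j, i ≠ j → ∀ z ∈ B i, ∀ w ∈ B j, d ≤ ‖z - w‖)
    (u : Fin n → ℤ × ℤ) (_ : ∀ i, u i ∈ TT (B i) a),
    GB .plus (TT D a) u ≤ ∏ i, GB .plus (TT (B i) a) (fun _ : Fin 1 => u i) := by
  intro n
  induction n with
  | zero => intro D _ B _ _ u _; rw [GB_plus_zero]; simp
  | succ n ih =>
    intro D hD B hB hsep u hu
    rw [Fin.prod_univ_castSucc]
    set D' : Set ℂ := ⋃ i : Fin n, B i.castSucc with hD'
    have hsub : D' ⊆ D := Set.iUnion_subset fun i => hB _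
    have hD'b := hD.subset hsub
    have h1 := GB_split (D := D) (D₁ := D') (D₂ := B (Fin.last n)) hD hsub (hB _)
      (d := d) (fun z hz w hw => by
        obtain ⟨i, hi⟩ := Set.mem_iUnion.1 hz
        exact hsep _ _ (Fin.castSucc_lt_last i).ne z hi w hw) ha had
      (u := fun i : Fin n => u i.castSucc) (v := fun _ : Fin 1 => u (Fin.last n))
      (fun i => TT_mono hD'b (Set.subset_iUnion (fun i : Fin n => B i.castSucc) i) ha (hu _))
      (fun _ => hu _)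
    rw [append_init_last u] at h1
    refine h1.trans (mul_le_mul_of_nonneg_right ?_ (GB_nonneg (by simp) _ _))
    exact ih hD'b (fun i => B i.castSucc)
      (fun i => Set.subset_iUnion (fun i : Fin n => B i.castSucc) i)
      (fun i j hij z hz w hw => hsep _ _ (fun h => hij (Fin.castSucc_injective n h)) z hz w hw)
      _ (fun i => hu _)

theorem hh_prod {a : ℝ} (ha : 0 < a) (n : ℕ) (f : Fin n → ℝ) :
    a ^ (-((n : ℝ) / 8)) * ∏ i, f i = ∏ i, (a ^ (-(((1 : ℕ) : ℝ) / 8)) * f i) := by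
  rw [Finset.prod_mul_distrib, Finset.prod_const, Finset.card_univ, Fintype.card_fin,
    ← Real.rpow_natCast, ← Real.rpow_mul ha.le]
  congr 2
  push_cast; ring

/-! ### infinitely many boundary points -/

theorem frontier_infinite {D : Set ℂ} (hO : IsOpen D) (hB : Bornology.IsBounded D)
    (hne : D.Nonempty) : (frontier D).Infinite := by
  intro hfin
  have h1 : IsConnected (frontier D)ᶜ := by
    apply Set.Countable.isConnected_compl_of_one_lt_rank _ hfin.countable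
    rw [← Module.finrank_eq_rank, Complex.finrank_real_complex]
    norm_num
  obtain ⟨z0, hz0⟩ := hne
  have h2 : (frontier D)ᶜ ⊆ D ∪ (closure D)ᶜ := by
    intro z hz
    by_cases h : z ∈ closure D
    · left
      by_contra h3
      exact hz ⟨h, fun h4 => h3 (interior_subset h4)⟩
    · exact Or.inr h
  have h3 : z0 ∈ (frontier D)ᶜ := by
    intro h
    rw [hO.frontier_eq] at h
    exact h.2 hz0
  obtain ⟨R, hR⟩ := hB.exists_norm_le
  have h4 : ∃ w : ℂ, w ∉ closure D := by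
    refine ⟨((|R| + 1 : ℝ) : ℂ), fun h => ?_⟩
    have h5 : closure D ⊆ Metric.closedBall 0 |R| :=
      closure_minimal (fun z hz => by
        rw [mem_closedBall_iff_norm, sub_zero]
        exact (hR z hz).trans (le_abs_self R)) Metric.isClosed_closedBall
    have h6 := h5 h
    rw [mem_closedBall_iff_norm, sub_zero, Complex.norm_real,
      Real.norm_of_nonneg (by positivity)] at h6
    linarith
  obtain ⟨w, hw⟩ := h4
  have h5 : w ∈ (frontier D)ᶜ := fun h => hw h.1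
  obtain ⟨v, -, hv1, hv2⟩ := h1.isPreconnected D (closure D)ᶜ hO isClosed_closure.isOpen_compl h2
    ⟨z0, h3, hz0⟩ ⟨w, h5, hw⟩
  exact hv2 (subset_closure hv1)

/-- `n` boundary points with tangent balls of a common radius, separated -/
theorem exists_tangent_family {D : Set ℂ} {r0 M0 : ℝ} (hCD : Geo.CD D r0 M0) (hne : D.Nonempty)
    (n : ℕ) : ∃ (p ν : Fin n → ℂ) (ρ d : ℝ), 0 < ρ ∧ 0 < d ∧ (∀ i, ‖ν i‖ = 1) ∧
      (∀ i, Metric.ball (p i + ρ * ν i) ρ ⊆ D) ∧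
      (∀ i, Metric.ball (p i - ρ * ν i) ρ ⊆ (D ∪ frontier D)ᶜ) ∧
      ∀ i j, i ≠ j → ∀ z ∈ Metric.ball (p i + ρ * ν i) ρ, ∀ w ∈ Metric.ball (p j + ρ * ν j) ρ,
        d ≤ ‖z - w‖ := by
  have hinf := frontier_infinite hCD.isOpen hCD.bdd hne
  obtain ⟨e⟩ : Nonempty (Fin n ↪ frontier D) := by
    have := hinf.to_subtype
    exact ⟨(Fin.valEmbedding.trans (Infinite.natEmbedding _))⟩
  set p : Fin n → ℂ := fun i => e i with hp
  have hpinj : Function.Injective p := fun i j h => e.injective (Subtype.ext h)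
  have hball : ∀ i, ∃ ν : ℂ, ‖ν‖ = 1 ∧ ∀ ρ : ℝ, 0 < ρ → 2 * ρ ≤ r0 → 2 * M0 * ρ ≤ 1 →
      Metric.ball (p i + ρ * ν) ρ ⊆ D ∧ Metric.ball (p i - ρ * ν) ρ ⊆ (D ∪ frontier D)ᶜ :=
    fun i => GeoDx65.CD.ball_open hCD (e i).2
  choose ν hν hb using hball
  -- separation of the boundary points
  obtain ⟨δ, hδ, hδp⟩ : ∃ δ : ℝ, 0 < δ ∧ ∀ i j, i ≠ j → δ ≤ ‖p i - p j‖ := by
    by_cases hn : (Finset.univ.filter fun q : Fin n × Fin n => q.1 ≠ q.2).Nonempty
    · obtain ⟨q, hq, hmin⟩ := Finset.exists_min_image _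
        (fun q : Fin n × Fin n => ‖p q.1 - p q.2‖) hn
      refine ⟨‖p q.1 - p q.2‖, norm_pos_iff.2 (sub_ne_zero.2 fun h => ?_), fun i j hij => ?_⟩
      · exact (Finset.mem_filter.1 hq).2 (hpinj h)
      · exact hmin (i, j) (Finset.mem_filter.2 ⟨Finset.mem_univ _, hij⟩)
    · refine ⟨1, one_pos, fun i j hij => absurd ?_ hn⟩
      exact ⟨(i, j), Finset.mem_filter.2 ⟨Finset.mem_univ _, hij⟩⟩
  have hr0 := hCD.r_pos
  have hM0 := hCD.M_nonneg
  obtain ⟨ρ, hρ, hρ1, hρ2, hρ3⟩ : ∃ ρ : ℝ, 0 < ρ ∧ 2 * ρ ≤ r0 ∧ 2 * M0 * ρ ≤ 1 ∧ 8 * ρ ≤ δ := by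
    refine ⟨min (min (r0 / 2) (1 / (2 * M0 + 1))) (δ / 8), by positivity, ?_, ?_, ?_⟩
    · have h1 := min_le_left (min (r0 / 2) (1 / (2 * M0 + 1))) (δ / 8)
      have h2 := min_le_left (r0 / 2) (1 / (2 * M0 + 1))
      linarith
    · have h1 := (min_le_left (min (r0 / 2) (1 / (2 * M0 + 1))) (δ / 8)).trans
        (min_le_right (r0 / 2) (1 / (2 * M0 + 1)))
      have h3 : 2 * M0 * min (min (r0 / 2) (1 / (2 * M0 + 1))) (δ / 8) ≤
          2 * M0 * (1 / (2 * M0 + 1)) := mul_le_mul_of_nonneg_left h1 (by linarith)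
      have h4 : 2 * M0 * (1 / (2 * M0 + 1)) ≤ 1 := by
        rw [mul_one_div, div_le_one (by linarith)]; linarith
      linarith
    · have h1 := min_le_right (min (r0 / 2) (1 / (2 * M0 + 1))) (δ / 8)
      linarith
  refine ⟨p, ν, ρ, δ / 2, hρ, by linarith, hν, fun i => (hb i ρ hρ hρ1 hρ2).1,
    fun i => (hb i ρ hρ hρ1 hρ2).2, fun i j hij z hz w hw => ?_⟩
  have key : ∀ i, ∀ z ∈ Metric.ball (p i + ρ * ν i) ρ, ‖z - p i‖ ≤ 2 * ρ := by
    intro i z hz
    rw [mem_ball_iff_norm] at hz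
    have e1 : z - p i = (z - (p i + ρ * ν i)) + ρ * ν i := by ring
    have e2 : ‖(ρ : ℂ) * ν i‖ = ρ := by
      rw [norm_mul, hν, mul_one, Complex.norm_real, Real.norm_of_nonneg hρ.le]
    rw [e1]
    have := norm_add_le (z - (p i + ρ * ν i)) (ρ * ν i)
    rw [e2] at this
    linarith
  have h1 := key i z hz
  have h2 := key j w hw
  have h3 := hδp i j hij
  have e : p i - p j = (z - w) - (z - p i) + (w - p j) := by ring
  have h4 : ‖p i - p j‖ ≤ ‖z - w‖ + ‖z - p i‖ + ‖w - p j‖ := by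
    calc ‖p i - p j‖ = ‖(z - w) - (z - p i) + (w - p j)‖ := by rw [← e]
      _ ≤ ‖(z - w) - (z - p i)‖ + ‖w - p j‖ := norm_add_le _ _
      _ ≤ _ := by linarith [norm_sub_le (z - w) (z - p i)]
  linarith

/-! ### the main step -/

/-- one-point function as a value -/
def F1 (κ : ℝ) (f : ℂ → ℂ) (z : ℂ) : ℝ := κ * (cr f z) ^ (-(1 : ℝ) / 8)

theorem F1_pos {κ : ℝ} (hκ : 0 < κ) {D : Set ℂ} {f : ℂ → ℂ} (R : RMap D f) (hO : IsOpen D)
    {z : ℂ} (hz : z ∈ D) : 0 < F1 κ f z := mul_pos hκ (Real.rpow_pos_of_pos (R.cr_pos hO hz) _)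

/-- near the boundary: a configuration `x`, and numbers `lo ≤ ∏ F1`, with
`∏ F1 (x i) ≤ liminf`, `limsup ≤ (1+ε) ∏ F1 (x i)` -/
theorem near_boundary (H : SpinInB .plus Lam) {κ : ℝ} (hκ : 0 < κ)
    (h3 : ∀ (c : ℂ) (r : ℝ), 0 < r → ∀ z ∈ Metric.ball c r,
      SLim .plus (Metric.ball c r) (fun _ : Fin 1 => z) (κ * fb c r z))
    {D : Set ℂ} (hD : IsC2JordanDomain D) (hne : D.Nonempty) {f : ℂ → ℂ} (R : RMap D f) (n : ℕ)
    {ε : ℝ} (hε : 0 < ε) :
    ∃ x ∈ Conf D n, ∃ U : ℝ, U < (1 + ε) * ∏ i, F1 κ f (x i) ∧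
      ∀ u, LApp u x → ∀ U' > U, ∀ᶠ a in 𝓝[>] (0 : ℝ), hh .plus D u a < U' := by
  obtain ⟨r0, M0, hCD⟩ := GeoCx65.exists_CD hD hne
  have hO := hCD.isOpen
  have hB := hCD.bdd
  obtain ⟨p, ν, ρ, d, hρ, hd, hν, hin, hout, hsep⟩ := exists_tangent_family hCD hne n
  -- the comparison `fb ≤ (1+η) F1` along the normals
  have hlim := ratio_tendsto' (-ρ) ρ
  have hpow : Tendsto (fun t : ℝ => ((2 * t - t ^ 2 / ρ) ^ (-(1 : ℝ) / 8) /
      (2 * t - t ^ 2 / (-ρ)) ^ (-(1 : ℝ) / 8)) ^ n) (𝓝[>] 0) (𝓝 1) := by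
    have := hlim.pow n
    rwa [one_pow] at this
  have hsmall : ∀ᶠ t in 𝓝[>] (0 : ℝ), t < ρ :=
    (eventually_lt_nhds hρ).filter_mono nhdsWithin_le_nhds
  obtain ⟨t, ht1, ht2, ht3⟩ := ((hpow.eventually (gt_mem_nhds (show (1 : ℝ) < 1 + ε by linarith))).and
    (hsmall.and self_mem_nhdsWithin)).exists
  have ht : 0 < t := ht3
  set x : Fin n → ℂ := fun i => p i + t * ν i with hx
  have hxB : ∀ i, x i ∈ Metric.ball (p i + ρ * ν i) ρ := fun i => tangent_mem (hν i) ht ht2.le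
  have hxD : ∀ i, x i ∈ D := fun i => hin i (hxB i)
  have hxc : x ∈ Conf D n := by
    refine ⟨hxD, fun i j hij => ?_⟩
    by_contra hne
    have := hsep i j hne _ (hxB i) _ (hxB j)
    rw [hij, sub_self, norm_zero] at this
    linarith
  refine ⟨x, hxc, ∏ i, (κ * fb (p i + ρ * ν i) ρ (x i)), ?_, ?_⟩
  · -- comparison of constants
    set q : ℝ := (2 * t - t ^ 2 / ρ) ^ (-(1 : ℝ) / 8) / (2 * t - t ^ 2 / (-ρ)) ^ (-(1 : ℝ) / 8)
      with hq
    have hone : ∀ i, κ * fb (p i + ρ * ν i) ρ (x i) ≤ q * F1 κ f (x i) := by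
      intro i
      have e1 : cb (p i + ρ * ν i) ρ (x i) = 2 * t - t ^ 2 / ρ := cb_tangent hρ (hν i)
      have l2 : cr f (x i) ≤ (‖x i - (p i - ρ * ν i)‖ ^ 2 - ρ ^ 2) / ρ := by
        refine SPext R hO hρ (fun v hv => ?_) (hxD i)
        by_contra hcon
        have hcon' : ‖v - (p i - ρ * ν i)‖ ≤ ρ := not_lt.1 hcon
        obtain ⟨ε', hε', hb'⟩ := Metric.isOpen_iff.1 hO v hv
        -- a point of `D` in the open exterior ball
        set s : ℝ := min (ε' / (2 * (ρ + 1))) (1 / 2) with hs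
        have hs0 : 0 < s := by positivity
        have hs1 : s ≤ 1 / 2 := min_le_right _ _
        have hs2 : s * (ρ + 1) ≤ ε' / 2 := by
          have h5 : s ≤ ε' / (2 * (ρ + 1)) := min_le_left _ _
          calc s * (ρ + 1) ≤ ε' / (2 * (ρ + 1)) * (ρ + 1) :=
            mul_le_mul_of_nonneg_right h5 (by linarith)
            _ = ε' / 2 := by field_simp
        have hmem : v - s * (v - (p i - ρ * ν i)) ∈ D := by
          apply hb'
          rw [mem_ball_iff_norm, sub_sub_cancel_left, norm_neg, norm_mul, Complex.norm_real,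
            Real.norm_of_nonneg hs0.le]
          have h6 : s * ‖v - (p i - ρ * ν i)‖ ≤ s * ρ := mul_le_mul_of_nonneg_left hcon' hs0.le
          nlinarith
        have hin2 : v - s * (v - (p i - ρ * ν i)) ∈ Metric.ball (p i - ρ * ν i) ρ := by
          rw [mem_ball_iff_norm]
          have e5 : v - s * (v - (p i - ρ * ν i)) - (p i - ρ * ν i) =
              ((1 - s : ℝ) : ℂ) * (v - (p i - ρ * ν i)) := by push_cast; ring
          rw [e5, norm_mul, Complex.norm_real, Real.norm_of_nonneg (by linarith)]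
          have h6 : (1 - s) * ‖v - (p i - ρ * ν i)‖ ≤ (1 - s) * ρ :=
            mul_le_mul_of_nonneg_left hcon' (by linarith)
          nlinarith
        exact hout i hin2 (Or.inl hmem)
      have e2 : (‖x i - (p i - ρ * ν i)‖ ^ 2 - ρ ^ 2) / ρ = 2 * t - t ^ 2 / (-ρ) := by
        have e3 : x i - (p i - ρ * ν i) = ((t + ρ : ℝ) : ℂ) * ν i := by
          simp only [hx]; push_cast; ring
        rw [e3, norm_mul, hν, mul_one, Complex.norm_real, Real.norm_of_nonneg (by positivity)]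
        field_simp
        ring
      rw [e2] at l2
      have hcr := R.cr_pos hO (hxD i)
      have h5 := rpow_anti hcr l2
      have hpos : 0 < (2 * t - t ^ 2 / (-ρ)) ^ (-(1 : ℝ) / 8) :=
        Real.rpow_pos_of_pos (lt_of_lt_of_le hcr l2) _
      have hfb : fb (p i + ρ * ν i) ρ (x i) = q * (2 * t - t ^ 2 / (-ρ)) ^ (-(1 : ℝ) / 8) := by
        unfold fb
        rw [e1, hq, div_mul_cancel₀ _ hpos.ne']
      have hq0 : 0 ≤ q := by
        have h6 := (fb_pos (hxB i)).le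
        rw [hfb] at h6
        exact nonneg_of_mul_nonneg_left h6 hpos
      unfold F1
      rw [hfb]
      calc κ * (q * (2 * t - t ^ 2 / (-ρ)) ^ (-(1 : ℝ) / 8))
          = κ * q * (2 * t - t ^ 2 / (-ρ)) ^ (-(1 : ℝ) / 8) := by ring
        _ ≤ κ * q * (cr f (x i)) ^ (-(1 : ℝ) / 8) :=
          mul_le_mul_of_nonneg_left h5 (mul_nonneg hκ.le hq0)
        _ = _ := by ring
    have h5 : ∏ i, (κ * fb (p i + ρ * ν i) ρ (x i)) ≤ ∏ i, (q * F1 κ f (x i)) :=
      Finset.prod_le_prod (fun i _ => (mul_pos hκ (fb_pos (hxB i))).le) fun i _ => hone i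
    have h6 : ∏ i, (q * F1 κ f (x i)) = q ^ n * ∏ i, F1 κ f (x i) := by
      rw [Finset.prod_mul_distrib, Finset.prod_const, Finset.card_univ, Fintype.card_fin]
    rw [h6] at h5
    have hP : 0 < ∏ i, F1 κ f (x i) := Finset.prod_pos fun i _ => F1_pos hκ R hO (hxD i)
    exact lt_of_le_of_lt h5 (mul_lt_mul_of_pos_right ht1 hP)
  · intro u hu U' hU'
    -- splitting into the tangent discs
    have h1 : ∀ i, Tendsto (hh .plus (Metric.ball (p i + ρ * ν i) ρ) (fun a (_ : Fin 1) => u a i))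
        (𝓝[>] 0) (𝓝 (κ * fb (p i + ρ * ν i) ρ (x i))) := fun i =>
      h3 _ ρ hρ (x i) (hxB i) _ (fun _ => hu i)
    have h2 : Tendsto (fun a => ∏ i, hh .plus (Metric.ball (p i + ρ * ν i) ρ)
        (fun a (_ : Fin 1) => u a i) a) (𝓝[>] 0) (𝓝 (∏ i, (κ * fb (p i + ρ * ν i) ρ (x i)))) :=
      tendsto_finsetProd _ fun i _ => h1 i
    have hm : ∀ᶠ a in 𝓝[>] (0 : ℝ), ∀ i, u a i ∈ TT (Metric.ball (p i + ρ * ν i) ρ) a := by
      rw [eventually_all]
      intro i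
      have h5 : LApp (fun a (_ : Fin 1) => u a i) (fun _ => x i) := fun _ => hu i
      filter_upwards [h5.mem Metric.isBounded_ball Metric.isOpen_ball (fun _ => hxB i)] with a ha
      exact ha 0
    have hsm : ∀ᶠ a in 𝓝[>] (0 : ℝ), a < d :=
      (eventually_lt_nhds hd).filter_mono nhdsWithin_le_nhds
    filter_upwards [h2.eventually (gt_mem_nhds hU'), hm, hsm, self_mem_nhdsWithin]
      with a h5 h6 h7 ha
    refine lt_of_le_of_lt ?_ h5
    have h8 := GB_le_prod (a := a) (d := d) ha h7 hB (fun i => Metric.ball (p i + ρ * ν i) ρ) hin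
      hsep (u a) h6
    unfold hh
    rw [← hh_prod ha]
    exact mul_le_mul_of_nonneg_left h8 (Real.rpow_nonneg (le_of_lt ha) _)

/-- lower bound -/
theorem lower {κ : ℝ} {D : Set ℂ} {f : ℂ → ℂ} {n : ℕ} {x : Fin n → ℂ}
    (h4 : ∀ i, SLim .plus D (fun _ : Fin 1 => x i) (F1 κ f (x i)))
    {u : ℝ → Fin n → ℤ × ℤ} (hu : LApp u x) {s : ℝ} (hs : s < ∏ i, F1 κ f (x i)) :
    ∀ᶠ a in 𝓝[>] (0 : ℝ), s < hh .plus D u a := by
  have h1 : Tendsto (fun a => ∏ i, hh .plus D (fun a (_ : Fin 1) => u a i) a) (𝓝[>] 0)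
      (𝓝 (∏ i, F1 κ f (x i))) :=
    tendsto_finsetProd _ fun i _ => h4 i _ fun _ => hu i
  filter_upwards [h1.eventually (lt_mem_nhds hs), self_mem_nhdsWithin] with a h5 ha
  refine lt_of_lt_of_le h5 ?_
  unfold hh
  rw [← hh_prod ha]
  exact mul_le_mul_of_nonneg_left (prod_le_GB _ _) (Real.rpow_nonneg (le_of_lt ha) _)

/-- **S5**: existence of the `n`-point limits -/
theorem S5 (H : SpinInB .plus Lam) {κ : ℝ} (hκ : 0 < κ)
    (h3 : ∀ (c : ℂ) (r : ℝ), 0 < r → ∀ z ∈ Metric.ball c r,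
      SLim .plus (Metric.ball c r) (fun _ : Fin 1 => z) (κ * fb c r z))
    {D : Set ℂ} (hD : IsC2JordanDomain D) {f : ℂ → ℂ} (R : RMap D f) (n : ℕ) {x : Fin n → ℂ}
    (hx : x ∈ Conf D n) (hne : D.Nonempty) :
    ∃ F : ℝ, 0 < F ∧ SLim .plus D x F := by
  have hA : Allow .plus n := Or.inl rfl
  obtain ⟨r0, M0, hCD⟩ := GeoCx65.exists_CD hD hne
  have hO := hCD.isOpen
  have hu0 : LApp (fun a i => meshIndex a (x i)) x := lapp_meshIndex x
  suffices h : ∃ F : ℝ, 0 < F ∧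
      Tendsto (hh .plus D (fun a i => meshIndex a (x i))) (𝓝[>] 0) (𝓝 F) by
    obtain ⟨F, hF, hF'⟩ := h
    refine ⟨F, hF, ?_⟩
    have h5 := transfer H hA hD hx hx hu0 hF'
    rwa [div_self (H.pos n D hA hD x hx).ne', one_mul] at h5
  refine exists_limit fun ε hε => ?_
  obtain ⟨y, hy, U, hU, hup⟩ := near_boundary H hκ h3 hD hne R n (ε := ε / 2) (by positivity)
  set P : ℝ := ∏ i, F1 κ f (y i) with hP
  have hP0 : 0 < P := Finset.prod_pos fun i _ => F1_pos hκ R hO (hy.1 i)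
  have hv0 : LApp (fun a i => meshIndex a (y i)) y := lapp_meshIndex y
  set ℓ : ℝ := Lam n D x / Lam n D y with hℓ
  have hℓ0 : 0 < ℓ := div_pos (H.pos n D hA hD x hx) (H.pos n D hA hD y hy)
  have hr := H.ratio n D hA hD x hx y hy _ _ hu0 hv0
  -- choose `θ < 1` with `(1 + ε/2)/θ² < 1 + ε`
  obtain ⟨θ, hθ0, hθ1, hθ2⟩ : ∃ θ : ℝ, 0 < θ ∧ θ < 1 ∧ (1 + ε / 2) ≤ (1 + ε) * θ ^ 3 := by
    have hc : Tendsto (fun θ : ℝ => (1 + ε) * θ ^ 3) (𝓝[<] 1) (𝓝 ((1 + ε) * 1 ^ 3)) :=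
      ((continuous_const.mul (continuous_pow 3)).tendsto 1).mono_left nhdsWithin_le_nhds
    rw [one_pow, mul_one] at hc
    have h6 := hc.eventually (lt_mem_nhds (show 1 + ε / 2 < 1 + ε by linarith))
    have h7 : ∀ᶠ θ in 𝓝[<] (1 : ℝ), 0 < θ :=
      (lt_mem_nhds (show (0 : ℝ) < 1 by norm_num)).filter_mono nhdsWithin_le_nhds
    obtain ⟨θ, h8, h9, h10⟩ := (h6.and (h7.and self_mem_nhdsWithin)).exists
    exact ⟨θ, h9, h10, h8.le⟩
  have hlo := lower (κ := κ) (f := f) (fun i => S4 H hκ h3 hD R (hy.1 i)) hv0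
    (s := θ * P) (by rw [← hP]; nlinarith)
  have hUp := hup _ hv0 (U' := (1 + ε / 2) * P) hU
  refine ⟨ℓ * (θ ^ 2 * P), by positivity, ?_⟩
  have hθℓ : θ * ℓ < ℓ := by nlinarith
  have hℓθ : ℓ < ℓ / θ := by rw [lt_div_iff₀ hθ0]; nlinarith
  filter_upwards [hh_ratio H hA hD hx hy hu0 hv0, hr.eventually (lt_mem_nhds hθℓ),
    hr.eventually (gt_mem_nhds hℓθ), hlo, hUp] with a h5 h6 h7 h8 h9
  have hrat0 : 0 < GB .plus (TT D a) (fun i => meshIndex a (x i)) /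
      GB .plus (TT D a) (fun i => meshIndex a (y i)) := lt_trans (mul_pos hθ0 hℓ0) h6
  have hh0 : 0 < hh .plus D (fun a i => meshIndex a (y i)) a := lt_trans (mul_pos hθ0 hP0) h8
  rw [h5]
  constructor
  · calc ℓ * (θ ^ 2 * P) = (θ * ℓ) * (θ * P) := by ring
      _ ≤ _ := mul_le_mul h6.le h8.le (mul_pos hθ0 hP0).le hrat0.le
  · calc _ ≤ (ℓ / θ) * ((1 + ε / 2) * P) := mul_le_mul h7.le h9.le hh0.le (by positivity)
      _ = (ℓ * P / θ) * (1 + ε / 2) := by ring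
      _ ≤ (ℓ * P / θ) * ((1 + ε) * θ ^ 3) := mul_le_mul_of_nonneg_left hθ2 (by positivity)
      _ = _ := by field_simp

end Crest.Agent.R165.Nm5x422
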