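import Crest.Agent.R165.PStepId_901
import Crest.Agent.R165.Quad3_897
import Crest.Agent.R165.W2_812

/-!
# Row 165 (S0250), block G: norms of the plane step (helper901)

One step `(a, r) → (a', r')` (PAIR of amplitudes, no relation `a' = a` is used: it only enters
through `BulkHyp`).

* `NG a r s Γ K = NN fd s Γ (pG (wU (wPl ℤ) a r U) (K U))` (weights of scale `r`, sizes at scale `s`)
* `PDat` : the hypotheses of one step
* `bet` : size of `baseG ν z`;  `M0`, `P0`, `P1` : the constants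
* `H_le`, `A_le`, `Ql_le`, `quad_le`, `stQ_le`, `stQ_lip`, `alQ_le`, `beQ_le`, `alQ_sub_le`, ...
* `stQ_conn`
-/

set_option autoImplicit false

noncomputable section

open scoped ENNReal
open Crest.Agent.R165.Gr0x606 Crest.Agent.R165.Gr1x606
open Crest.Agent.R165.Latx683
open Crest.Agent.R165.Locx901
open Crest.Agent.R165.PlaneModesx901
open Crest.Agent.R165.PlaneLocx901
open Crest.Agent.R165.PlaneCovx901
open Crest.Agent.R165.PlaneSumx901
open Crest.Agent.R165.PlaneCoefx901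
open Crest.Agent.R165.PNormx417
open Crest.Agent.R165.GDefx387
open Crest.Agent.R165.GBulkx417
open Crest.Agent.R165.GrLocx337
open Crest.Agent.R165.GeOpsx337
open Crest.Agent.R165.ExpGx337
open Crest.Agent.R165.KFlowx337
open Crest.Agent.R165.PStepx417
open Crest.Agent.R165.PStepIdx901
open Crest.Agent.R165.Packx915 Crest.Agent.R165.NSumx915 Crest.Agent.R165.Bridgex915
open Crest.Agent.R165.W2x812

namespace Crest.Agent.R165.PStepNx901

/-- weights of scale `(a, r)`, sizes at scale `s` -/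
def NG (a : ℝ) (r s : ℕ) (Γ : ℝ≥0∞) (K : Finset Fc → Ge (Fld ℤ)) : ℝ≥0∞ :=
  NN fd s Γ fun U => pG (wU w₀ a r U) (K U)

theorem NK_true (a : ℝ) (r : ℕ) (Γ : ℝ≥0∞) (K : Finset Fc → Ge (Fld ℤ)) :
    NK w₀ a r Γ (fun _ => True) (fun U => (K U : Gr (Fld ℤ))) = NG a r r Γ K := by
  rw [NK_eq_NN, NG]
  congr 1
  funext U
  rw [act_of trivial]
  rfl




/-- the hypotheses of one step -/
structure PDat (a a' : ℝ) (r r' R R' n n' : ℕ) (Γ : ℝ≥0∞) (C : ℝ) (g : Fld ℤ → ℝ≥0∞)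
    (p0 p1 q2 q0 Cb : ℝ≥0∞) (S : Cov (Fld ℤ)) : Prop where
  ha : 0 < a
  hr : 1 ≤ r
  hΓ : 3 ≤ Γ
  hΓt : Γ ≠ ∞
  reg : BkReg C
  H : BulkHyp w₀ a a' r r' g (fun f => (md f).P0) (fun f => (md f).P1) p0 p1 q2 q0 Cb
  N : BulkNum p0 p1 q2 q0 Cb
  gram : Gram S g
  sym : SymS S
  kap1 : kap p0 p1 q2 q0 Cb ≤ 1
  hR : 4 * R + 3 * r + 2 ≤ r'
  RR : R ≤ R'
  cov : NSumx915.Cov (fd : Fc → Fc → ℕ) (r' + R') r' n
  cov' : NSumx915.Cov (fd : Fc → Fc → ℕ) r' r n'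

/-- the hypotheses on the remainder of the state -/
structure QOK (R : ℕ) (Q : Finset Fc → Ge (Fld ℤ)) : Prop where
  sym : PlS Q
  empty : Q ∅ = 0
  conn : ∀ U, Q U ≠ 0 → Packx915.Conn fd R U

theorem QOK.sub {R : ℕ} {Q Q' : Finset Fc → Ge (Fld ℤ)} (h : QOK R Q) (h' : QOK R Q') :
    QOK R fun U => Q U - Q' U where
  sym := h.sym.map2 h'.sym fun _ _ _ _ h h' => h.sub h'
  empty := by rw [h.empty, h'.empty, sub_zero]
  conn U hU := by
    by_contra hcon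
    refine hU ?_
    rw [not_imp_comm.1 (h.conn U) hcon, not_imp_comm.1 (h'.conn U) hcon, sub_zero]

section one

variable {a a' : ℝ} {r r' R R' n n' : ℕ} {Γ : ℝ≥0∞} {C : ℝ} {g : Fld ℤ → ℝ≥0∞}
  {p0 p1 q2 q0 Cb : ℝ≥0∞} {S : Gr0x606.Cov (Fld ℤ)}

namespace PDat

variable (D : PDat a a' r r' R R' n n' Γ C g p0 p1 q2 q0 Cb S)

include D







end PDat

/-! ### bounds of `H` and `A` -/


theorem NG_add_le (a : ℝ) (r s : ℕ) (Γ : ℝ≥0∞) (K K' : Finset Fc → Ge (Fld ℤ)) :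
    NG a r s Γ (fun U => K U + K' U) ≤ NG a r s Γ K + NG a r s Γ K' :=
  (NN_mono fun _ => pG_add_le _ _ _).trans (NN_add_le _ _)













/-! ### the coefficients -/

/-- the constant of the local part -/
def M1 (C : ℝ) : ℝ≥0∞ := ENNReal.ofReal (9 * C ^ 2 * (PlaneCoefx901.cM + 2 * cK))




/-- the constant of the exponent -/
def M0 (Γ : ℝ≥0∞) (C : ℝ) : ℝ≥0∞ := 2 + Γ * M1 C





/-! ### connectedness -/

theorem conn_stK {Q : Finset Fc → Ge (Fld ℤ)} (hQ : ∀ U, Q U ≠ 0 → Packx915.Conn fd R U)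
    (ν z : ℝ) (U : Finset Fc) (h : stK ν z Q U ≠ 0) : Packx915.Conn fd R U := by
  by_cases hs : ∃ f, U = {f}
  · obtain ⟨f, rfl⟩ := hs
    exact Packx915.conn_singleton f
  · push Not at hs
    refine hQ U fun h0 => h ?_
    rw [stK, h0, baseG_of_ne ν z hs, add_zero]

theorem conn_stH {Q : Finset Fc → Ge (Fld ℤ)} (hQ : ∀ U, Q U ≠ 0 → Packx915.Conn fd R U)
    (S : Gr0x606.Cov (Fld ℤ)) (ν z : ℝ) (U : Finset Fc) (h : stH S ν z Q U ≠ 0) :
    Packx915.Conn fd R U :=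
  conn_stK hQ ν z U fun h0 => h (by rw [stH, h0, map_zero])

theorem conn_stA {Q : Finset Fc → Ge (Fld ℤ)} (hQ : ∀ U, Q U ≠ 0 → Packx915.Conn fd R U)
    (S : Gr0x606.Cov (Fld ℤ)) (r : ℕ) (ν z : ℝ) (U : Finset Fc) (h : stA S r ν z Q U ≠ 0) :
    Packx915.Conn fd R U := by
  by_cases hs : ∃ f, U = {f}
  · obtain ⟨f, rfl⟩ := hs
    exact Packx915.conn_singleton f
  · push Not at hs
    refine conn_stH hQ S ν z U fun h0 => h ?_
    rw [stA, AA, lost_eP, lcG, h0, eP, gain_exF_zero _ _ r _ (fun f _ => hs f)]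
    simp

theorem conn_stB {Q : Finset Fc → Ge (Fld ℤ)} (hQ : ∀ U, Q U ≠ 0 → Packx915.Conn fd R U)
    (S : Gr0x606.Cov (Fld ℤ)) (r : ℕ) (ν z : ℝ) (U : Finset Fc) (h : stB S r ν z Q U ≠ 0) :
    Packx915.Conn fd R U :=
  conn_stA hQ S r ν z U fun h0 => h (by rw [stB_eq, h0, gexp_zero, sub_self])

theorem conn_stN (hRR : R ≤ R') {Q : Finset Fc → Ge (Fld ℤ)}
    (hQ : ∀ U, Q U ≠ 0 → Packx915.Conn fd R U) (near : Fc → Fc → Prop)
    (S : Gr0x606.Cov (Fld ℤ)) (r : ℕ) (ν z : ℝ) (U : Finset Fc)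
    (h : stN near (fun a b => fd a b ≤ R') S r ν z Q U ≠ 0) : Packx915.Conn fd R' U :=
  Quad2x897.KK_conn pd_fd hRR (conn_stH hQ S ν z) (conn_stB hQ S r ν z) near h

theorem conn_stQ (hRR : R ≤ R') {Q : Finset Fc → Ge (Fld ℤ)}
    (hQ : ∀ U, Q U ≠ 0 → Packx915.Conn fd R U) (near : Fc → Fc → Prop)
    (S : Gr0x606.Cov (Fld ℤ)) (r : ℕ) (ν z : ℝ) (U : Finset Fc)
    (h : stQ near (fun a b => fd a b ≤ R') S r ν z Q U ≠ 0) : Packx915.Conn fd R' U := by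
  by_cases hs : ∃ f, U = {f}
  · obtain ⟨f, rfl⟩ := hs
    exact Packx915.conn_singleton f
  · push Not at hs
    refine conn_stN hRR hQ near S r ν z U fun h0 => h ?_
    rw [stQ, h0, baseG_of_ne _ _ hs, sub_zero]

/-- **the new remainder satisfies the structural hypotheses** -/
theorem QOK.step (D : PDat a a' r r' R R' n n' Γ C g p0 p1 q2 q0 Cb S) (ν z : ℝ)
    {Q : Finset Fc → Ge (Fld ℤ)} (hQ : QOK R Q) {near : Fc → Fc → Prop} (hn : NInv near) :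
    QOK R' (stQ near (fun a b => fd a b ≤ R') S r ν z Q) where
  sym := plS_stQ hn (nInv_fd R') D.sym r ν z hQ.sym
  empty := stQ_empty _ _ _ _ _ _ _
  conn U h := conn_stQ D.RR hQ.conn near S r ν z U h

/-! ### the quadratic part -/


/-- the smallness condition -/
def Sm (n n' : ℕ) (Γ : ℝ≥0∞) (C : ℝ) (s : ℝ≥0∞) : Prop :=
  M0 Γ C * s ≤ 1 / 2 ∧ n * (3 * n' * ((1 + 2 * M0 Γ C) * s)) ≤ 1



/-! ### linearity -/










/-! ### Lipschitz bounds -/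








end one

end Crest.Agent.R165.PStepNx901
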