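import Crest.Agent.R165.ConstA_729
import Crest.Agent.R165.PStepN_901
import Crest.Agent.R165.GSysPl_387
import Crest.Agent.R165.Out_683
import Crest.Agent.R165.BkEx_812
import Crest.Agent.R165.PStep4_417
import Crest.Agent.R165.PTop_386

-- ▼ part R165/P7_337

/-!
# Row 165 (S0250), block G, (P7): the plane flow (helper337)

* `StC c n`        : the states `Q` of the plane flow at step `n` (417), `nmC`, `dsC` : norms in units
                     of `a²`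
* `Pl c Cb`        : the hypotheses on all steps (`PSeq` of 417);  `exists_pl` : from 729
* `Init J R V c ζ M` : the inequalities of the step `0` (541)
* `glue`           : for fixed constants
* `p7_of`          : **(P7)** from `Init`, in the literal form of `PTop_386.P7L`
-/

set_option autoImplicit false
set_option linter.unusedVariables false

noncomputable section

open scoped ENNReal
open Filter Topology
open Crest.ProbabilityR.IsingModel
open Crest.Agent.R165.Gr0x606 Crest.Agent.R165.Gr1x606 Crest.Agent.R165.GeOpsx337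
open Crest.Agent.R165.Latx683 Crest.Agent.R165.GDefx387 Crest.Agent.R165.GSysx387
open Crest.Agent.R165.KFlowx337 Crest.Agent.R165.FRDPolyx439
open Crest.Agent.R165.Bkgx683 Crest.Agent.R165.PEndx683 Crest.Agent.R165.Outx683
open Crest.Agent.R165.PlaneModesx901 (Fc)
open Crest.Agent.R165.PStepIdx901 (alQ beQ stK stQ baseG eP PlS)
open Crest.Agent.R165.PStepNx901 (NG NK_true NG_add_le)
open Crest.Agent.R165.W2x812 (BkReg)
open Crest.Agent.R165.PStepx417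
open Crest.Agent.R165.Sht3x541

namespace Crest.Agent.R165.P7x337

/-! ### the states -/

/-- the states at step `n` -/
abbrev StC (c : Cst) (n : ℕ) : Type :=
  St c.A0 (rr c.p c.k0 n) (nearR c.p c.k0 n) (ENNReal.ofReal c.Γ)

/-- norm, in units of `a²` -/
abbrev nmC (c : Cst) (n : ℕ) (x : StC c n) : ℝ := Nmx x / c.A0 ^ 2

/-- distance, in units of `a²` -/
abbrev dsC (c : Cst) (n : ℕ) (x y : StC c n) : ℝ := Dsx x y / c.A0 ^ 2

theorem nmC_nonneg (c : Cst) (n : ℕ) (x : StC c n) : 0 ≤ nmC c n x :=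
  div_nonneg (Nmx_nonneg x) (sq_nonneg _)

theorem dsC_nonneg (c : Cst) (n : ℕ) (x y : StC c n) : 0 ≤ dsC c n x y :=
  div_nonneg (Dsx_nonneg x y) (sq_nonneg _)

/-- the covariance of step `n` -/
abbrev SC (c : Cst) (n : ℕ) : Cov (Fld ℤ) := slC DD (wPl ℤ) c.p c.k0 n

/-- the hypotheses on all steps -/
abbrev Pl (c : Cst) (Cb : ℝ) : Prop :=
  PSeq c.A0 (2 ^ c.p) (rr c.p c.k0) (nearR c.p c.k0) (ENNReal.ofReal c.Γ) (SC c) Cb (1 / 8)

theorem exists_pl : ∃ Cb : ℝ, 0 < Cb ∧ BkReg Cb ∧ EvC fun c =>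
    4 ≤ c.p ∧ 3 ≤ c.Γ ∧ 1 ≤ c.A0 ∧ 0 < c.δ ∧ c.δ ≤ 1 ∧ Pl c Cb := by
  obtain ⟨C, hC, h⟩ := BkExx812.exists_bkReg
  refine ⟨C, hC, h, (ConstAx729.pstep_ev (η := 1 / 8) DD h (by decide) (by norm_num)).mono
    fun c hc => ?_⟩
  obtain ⟨h1, h2, h3, h4, h5, h6⟩ := hc
  refine ⟨h1, h2, h3, h4, h5, ⟨fun k => ?_, fun k => symS_slC DD c.p c.k0 k, by norm_num⟩⟩
  obtain ⟨h7, h8⟩ := h6 k c.A0 le_rfl
  exact ⟨_, _, _, _, _, _, h8, h7.ke_le⟩

/-- the constant of the linear influence of the remainder on the coefficients -/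
abbrev Mc (p : ℕ) : ℝ := cM3 (2 ^ p)

/-- the quadratic constant -/
abbrev PC (c : Cst) (Cb : ℝ) : ℝ :=
  cP2 c.A0 Cb (2 ^ c.p) (ENNReal.ofReal c.Γ) * (c.A0 ^ 2) ^ 2

/-- the radius -/
abbrev ρC (c : Cst) (Cb : ℝ) : ℝ := cρ c.A0 Cb (2 ^ c.p) (ENNReal.ofReal c.Γ) / c.A0 ^ 2

/-- **the steps** -/
theorem stepK {c : Cst} {Cb : ℝ} (hA : 1 ≤ c.A0) (h : Pl c Cb) (k : ℕ) :
    OneStep (nmC c k) (nmC c (k + 1)) (dsC c k) (dsC c (k + 1)) (Phi h k)
      (ff c.A0 (rr c.p c.k0) (nearR c.p c.k0) (ENNReal.ofReal c.Γ) (SC c) k)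
      (gg c.A0 (rr c.p c.k0) (nearR c.p c.k0) (ENNReal.ofReal c.Γ) (SC c) k)
      (1 / 8) 0 0 (Mc c.p) (PC c Cb) (ρC c Cb) := by
  obtain ⟨g, p0, p1, q2, q0, C, hk, hκ⟩ := h.step k
  exact oneStep_a hk (h.sym k) h.κ_nonneg hκ hA

/-- the step `0` -/
def Init (J : ℝ) (R : ℕ) (V : Finset (ℤ × ℤ) → ℝ) (c : Cst) (ζ M : ℝ) : Prop :=
  ∃ N P ρ lam₀ C₁ : ℝ, 0 ≤ N ∧ 0 ≤ P ∧ 0 < ρ ∧ 0 < lam₀ ∧ 0 ≤ C₁ ∧
    ∃ bt zt : ℝ → ℝ → ℝ,
      (∀ ν z, |bt ν z - criticalBeta J| + |zt ν z| ≤ C₁ * (|ν| + |z|)) ∧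
      ∀ lam : ℝ, |lam| < lam₀ →
        ∃ (Φ₀ : ℝ → ℝ → StC c 1) (f₀ g₀ : ℝ → ℝ → ℝ),
          OneStep (fun _ : PUnit.{1} => N * |lam|) (nmC c 1) (fun _ _ => 0) (dsC c 1)
            (fun ν z _ => Φ₀ ν z) (fun ν z _ => f₀ ν z) (fun ν z _ => g₀ ν z) (1 / 8) 0 ζ M P ρ ∧
          ∀ ν z, |ν| ≤ ρ → |z| ≤ ρ →
            (plF c (mpar J lam R V (bt ν z) (zt ν z))).K 1 =
                stK ((2 ^ c.p * ν + f₀ ν z) / (rr c.p c.k0 1 : ℕ)) (z + g₀ ν z) (Φ₀ ν z).Q ∧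
              NG c.A0 (rr c.p c.k0 0) (rr c.p c.k0 0) (ENNReal.ofReal c.Γ)
                  ((plF c (mpar J lam R V (bt ν z) (zt ν z))).K 0) ≤
                ENNReal.ofReal (C₁ * (|lam| + |ν| + |z|))

/-- **the gluing for fixed constants** -/
theorem glue {J : ℝ} {R : ℕ} {V : Finset (ℤ × ℤ) → ℝ} {Cb : ℝ} (hreg : BkReg Cb) {c : Cst}
    (hp : 1 ≤ c.p) (hA : 1 ≤ c.A0) (hS : Pl c Cb) {M K ζ₀ : ℝ} (hK : 1 ≤ K) (hζ₀ : 0 < ζ₀)
    (hM : M = Mc c.p)
    (hsh : ∀ (L η ζ P ρ : ℝ), 1 < L → 0 ≤ η → η ≤ (1 - 1 / 4) / 8 → 0 ≤ ζ → ζ ≤ ζ₀ → 0 ≤ P →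
      0 < ρ → ∃ ε₀ : ℝ, 0 < ε₀ ∧
      ∀ (E : ℕ → Type) (Nm : ∀ k, E k → ℝ) (Ds : ∀ k, E k → E k → ℝ)
        (Φ : ∀ k, ℝ → ℝ → E k → E (k + 1)) (f g : ∀ k, ℝ → ℝ → E k → ℝ)
        (ε : ℝ) (Φ₀ : ℝ → ℝ → E 1) (f₀ g₀ : ℝ → ℝ → ℝ),
        0 ≤ ε → ε ≤ ε₀ → (∀ k R, 0 ≤ Nm k R) → (∀ k R R', 0 ≤ Ds k R R') →
        OneStep (fun _ : PUnit.{1} => ε) (Nm 1) (fun _ _ => 0) (Ds 1) (fun ν z _ => Φ₀ ν z)
          (fun ν z _ => f₀ ν z) (fun ν z _ => g₀ ν z) (1 / 8) η ζ M P ρ →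
        (∀ k, 1 ≤ k →
          OneStep (Nm k) (Nm (k + 1)) (Ds k) (Ds (k + 1)) (Φ k) (f k) (g k) (1 / 8) η ζ M P ρ) →
        ∃ (ν z : ℕ → ℝ) (R : ∀ k, E (k + 1)), R 0 = Φ₀ (ν 0) (z 0) ∧
          ν 1 = L * ν 0 + f₀ (ν 0) (z 0) ∧ z 1 = z 0 + g₀ (ν 0) (z 0) ∧
          (∀ k, R (k + 1) = Φ (k + 1) (ν (k + 1)) (z (k + 1)) (R k)) ∧
          (∀ k, ν (k + 2) = L * ν (k + 1) + f (k + 1) (ν (k + 1)) (z (k + 1)) (R k)) ∧
          (∀ k, z (k + 2) = z (k + 1) + g (k + 1) (ν (k + 1)) (z (k + 1)) (R k)) ∧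
          (∀ k, |ν k| ≤ K * ε * (1 / 4) ^ k) ∧ (∀ k, |z k| ≤ K * ε * (1 / 4) ^ k) ∧
          (∀ k, Nm (k + 1) (R k) ≤ ε * (1 / 4) ^ (k + 1)))
    (hI : Init J R V c ζ₀ M) :
    ∃ C : ℝ, ∃ ε > 0, ∃ β z : ℝ → ℝ, ∀ lam : ℝ, |lam| < ε →
      NearP J C lam (β lam) (z lam) ∧ PF J R V C c lam (β lam) (z lam) := by
  subst hM
  obtain ⟨N, P₂, ρ₂, lam₀, C₁, hN, hP₂, hρ₂, hlam₀, hC₁, bt, zt, hbt, hI⟩ := hI
  have hA0 : 0 < c.A0 := by linarith
  have hA2 : 1 ≤ c.A0 ^ 2 := one_le_pow₀ hA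
  have h2p : (1 : ℝ) < 2 ^ c.p := one_lt_pow₀ one_lt_two (by omega)
  set P₁ := PC c Cb with hP₁def
  set ρ₁ := ρC c Cb with hρ₁def
  have hP₁ : 0 ≤ P₁ := mul_nonneg (cP2_nonneg _ _ _ _) (by positivity)
  have hcρ : 0 < cρ c.A0 Cb (2 ^ c.p) (ENNReal.ofReal c.Γ) := cρ_pos _ _ _ _
  have hρ₁ : 0 < ρ₁ := div_pos hcρ (by positivity)
  have hρ₁' : ρ₁ * c.A0 ^ 2 = cρ c.A0 Cb (2 ^ c.p) (ENNReal.ofReal c.Γ) := by
    rw [hρ₁def]; exact div_mul_cancel₀ _ (by positivity)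
  have hρle : ρ₁ ≤ cρ c.A0 Cb (2 ^ c.p) (ENNReal.ofReal c.Γ) := by
    rw [← hρ₁']; nlinarith
  set P := max P₁ P₂ with hP
  set ρ := min ρ₁ ρ₂ with hρ
  have hP0 : 0 ≤ P := le_max_of_le_left hP₁
  have hρ0 : 0 < ρ := lt_min hρ₁ hρ₂
  obtain ⟨ε₀, hε₀, hsh⟩ := hsh (2 ^ c.p) 0 ζ₀ P ρ h2p le_rfl (by norm_num) hζ₀.le le_rfl hP0 hρ0
  set D := K * N + N + 1 with hD
  have hK0 : 0 < K := by linarith
  have hD0 : 0 < D := by positivity
  set a := c.A0 with ha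
  set G := |c.Γ| with hG
  have hG0 : 0 ≤ G := abs_nonneg _
  set C₂ := G * (9 * a ^ 2 * Cb ^ 2 * (3 * (K * N))) + a ^ 2 * N with hC₂
  have hC₂0 : 0 ≤ C₂ := by positivity
  set C₃ := C₁ * (1 + 2 * (K * N)) with hC₃
  have hC₃0 : 0 ≤ C₃ := by positivity
  have main : ∀ lam : ℝ, |lam| < min lam₀ (min (ε₀ / D) (ρ / D)) → ∃ b z : ℝ,
      NearP J (C₂ + C₃) lam b z ∧ PF J R V (C₂ + C₃) c lam b z := by
    intro lam hlam
    obtain ⟨Φ₀, f₀, g₀, hO, hKK⟩ := hI lam (hlam.trans_le (min_le_left _ _))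
    have e1 := hlam.trans_le ((min_le_right _ _).trans (min_le_left _ _))
    have e2 := hlam.trans_le ((min_le_right _ _).trans (min_le_right _ _))
    rw [lt_div_iff₀ hD0] at e1 e2
    have hl0 := abs_nonneg lam
    have hKN : 0 ≤ K * N := mul_nonneg hK0.le hN
    have e3 : N * |lam| ≤ ε₀ := by
      have : N * |lam| ≤ |lam| * D := by
        rw [mul_comm |lam|]; exact mul_le_mul_of_nonneg_right (by linarith) hl0
      linarith
    have e4 : K * (N * |lam|) ≤ ρ := by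
      have : K * (N * |lam|) ≤ |lam| * D := by
        rw [← mul_assoc, mul_comm |lam|]; exact mul_le_mul_of_nonneg_right (by linarith) hl0
      linarith
    have e5 : N * |lam| ≤ ρ := by
      have : N * |lam| ≤ |lam| * D := by
        rw [mul_comm |lam|]; exact mul_le_mul_of_nonneg_right (by linarith) hl0
      linarith
    obtain ⟨ν, z, Q, hQ0, hν1, hz1, hQ, hν, hz, bν, bz, bQ⟩ := hsh (StC c) (nmC c)
      (dsC c) (Phi hS) (ff c.A0 (rr c.p c.k0) (nearR c.p c.k0) (ENNReal.ofReal c.Γ) (SC c))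
      (gg c.A0 (rr c.p c.k0) (nearR c.p c.k0) (ENNReal.ofReal c.Γ) (SC c))
      (N * |lam|) Φ₀ f₀ g₀ (by positivity) e3 (nmC_nonneg c) (dsC_nonneg c)
      (hO.mono (fun _ => by positivity) (fun _ _ => le_rfl) le_rfl le_rfl le_rfl le_rfl
        (le_max_right _ _) (min_le_right _ _))
      (fun k _ => (stepK hA hS k).mono (nmC_nonneg c k) (dsC_nonneg c k) le_rfl le_rfl hζ₀.le le_rfl
        (le_max_left _ _) (min_le_left _ _))
    have hq : ∀ k : ℕ, (0 : ℝ) < (1 / 4) ^ k := fun k => by positivity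
    have hq1 : ∀ k : ℕ, ((1 : ℝ) / 4) ^ k ≤ 1 := fun k => pow_le_one₀ (by norm_num) (by norm_num)
    have cν : ∀ k, |ν k| ≤ ρ := fun k => (bν k).trans (by
      have := mul_le_mul_of_nonneg_left (hq1 k) (show 0 ≤ K * (N * |lam|) by positivity)
      linarith)
    have cz : ∀ k, |z k| ≤ ρ := fun k => (bz k).trans (by
      have := mul_le_mul_of_nonneg_left (hq1 k) (show 0 ≤ K * (N * |lam|) by positivity)
      linarith)
    have cQ : ∀ k, nmC c (k + 1) (Q k) ≤ ρ := fun k => (bQ k).trans (by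
      have := mul_le_mul_of_nonneg_left (hq1 (k + 1)) (show 0 ≤ N * |lam| by positivity)
      linarith)
    have cQ' : ∀ k, Nmx (Q k) ≤ cρ c.A0 Cb (2 ^ c.p) (ENNReal.ofReal c.Γ) := fun k => by
      have h := (cQ k).trans (min_le_left _ _)
      rw [nmC, div_le_iff₀ (by positivity)] at h
      rw [← hρ₁']; exact h
    obtain ⟨hk1, hk0⟩ := hKK (ν 0) (z 0) ((cν 0).trans (min_le_right _ _))
      ((cz 0).trans (min_le_right _ _))
    have horb := orbit_eq hS (plF c (mpar J lam R V (bt (ν 0) (z 0)) (zt (ν 0) (z 0)))) rfl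
      (fun k => bulk_eP c.p c.k0 k) (fun k => rfl) (fun k => rfl) (ν := ν) (z := z) (x := Q)
      (by rw [hk1, hν1, hz1, hQ0]) hQ
      (fun k => by rw [hν k]; push_cast; rfl) hz
      (fun k => ⟨((cν _).trans (min_le_left _ _)).trans hρle,
        ((cz _).trans (min_le_left _ _)).trans hρle, cQ' k⟩)
    refine ⟨bt (ν 0) (z 0), zt (ν 0) (z 0), ?_, ?_⟩
    · -- near the critical point
      refine (hbt _ _).trans ?_
      have h1 := bν 0
      have h2 := bz 0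
      rw [pow_zero, mul_one] at h1 h2
      calc C₁ * (|ν 0| + |z 0|) ≤ C₁ * (2 * (K * (N * |lam|))) :=
            mul_le_mul_of_nonneg_left (by linarith) hC₁
        _ ≤ (C₂ + C₃) * |lam| := by
            have : C₁ * (2 * (K * (N * |lam|))) = (C₁ * (2 * (K * N))) * |lam| := by ring
            rw [this]
            refine mul_le_mul_of_nonneg_right ?_ hl0
            rw [hC₃]; nlinarith
    · intro n
      rw [NK_true]
      cases n with
      | zero =>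
        refine hk0.trans (ENNReal.ofReal_le_ofReal ?_)
        have h1 := bν 0
        have h2 := bz 0
        rw [pow_zero, mul_one] at h1 h2
        rw [pow_zero, mul_one]
        calc C₁ * (|lam| + |ν 0| + |z 0|) ≤ C₁ * (|lam| + 2 * (K * (N * |lam|))) :=
              mul_le_mul_of_nonneg_left (by linarith) hC₁
          _ = C₃ * |lam| := by rw [hC₃]; ring
          _ ≤ (C₂ + C₃) * |lam| := mul_le_mul_of_nonneg_right (by linarith) hl0
      | succ n =>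
        have hb := PlaneCoefx901.NK_base_le hreg hA0.le (rr_pos c.p c.k0 (n + 1))
          (ENNReal.ofReal c.Γ) (ν (n + 1) / (rr c.p c.k0 (n + 1) : ℕ)) (z (n + 1))
        have hrp : (0 : ℝ) < (rr c.p c.k0 (n + 1) : ℕ) := Nat.cast_pos.2 (rr_pos c.p c.k0 (n + 1))
        have e6 : |ν (n + 1) / (rr c.p c.k0 (n + 1) : ℕ)| * (rr c.p c.k0 (n + 1) : ℕ) =
            |ν (n + 1)| := by
          rw [abs_div, Nat.abs_cast]; field_simp
        rw [e6] at hb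
        set q : ℝ := (1 / 4) ^ (n + 1) with hqq
        have hq0 : 0 < q := hq (n + 1)
        have hb2 : NG c.A0 (rr c.p c.k0 (n + 1)) (rr c.p c.k0 (n + 1)) (ENNReal.ofReal c.Γ)
            (baseG (ν (n + 1) / (rr c.p c.k0 (n + 1) : ℕ)) (z (n + 1))) ≤
              ENNReal.ofReal (G * (9 * a ^ 2 * Cb ^ 2 * (3 * (K * N))) * |lam| * q) := by
          rw [← NK_true]
          refine hb.trans ?_
          have h1 := bν (n + 1)
          have h2 := bz (n + 1)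
          have h3 : |ν (n + 1)| + 2 * |z (n + 1)| ≤ 3 * (K * N) * |lam| * q := by
            calc _ ≤ K * (N * |lam|) * q + 2 * (K * (N * |lam|) * q) := by linarith
              _ = _ := by ring
          calc ENNReal.ofReal c.Γ * ENNReal.ofReal (9 * c.A0 ^ 2 * Cb ^ 2 *
                (|ν (n + 1)| + 2 * |z (n + 1)|))
              ≤ ENNReal.ofReal G * ENNReal.ofReal (9 * c.A0 ^ 2 * Cb ^ 2 *
                (3 * (K * N) * |lam| * q)) := by
                gcongr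
                exact le_abs_self _
            _ = _ := by
                rw [← ENNReal.ofReal_mul hG0]
                congr 1
                ring
        have hQ2 : NG c.A0 (rr c.p c.k0 (n + 1)) (rr c.p c.k0 (n + 1)) (ENNReal.ofReal c.Γ)
            (Q n).Q ≤ ENNReal.ofReal (a ^ 2 * N * |lam| * q) := by
          have h1 : NG c.A0 (rr c.p c.k0 (n + 1)) (rr c.p c.k0 (n + 1)) (ENNReal.ofReal c.Γ)
            (Q n).Q = ENNReal.ofReal (Nmx (Q n)) := nk_eq (Q n)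
          rw [h1]
          refine ENNReal.ofReal_le_ofReal ?_
          have h2 := bQ n
          rw [nmC, div_le_iff₀ (by positivity)] at h2
          calc Nmx (Q n) ≤ N * |lam| * (1 / 4) ^ (n + 1) * c.A0 ^ 2 := h2
            _ = _ := by ring
        rw [horb n]
        refine (NG_add_le _ _ _ _ _ _).trans ((add_le_add hb2 hQ2).trans ?_)
        rw [← ENNReal.ofReal_add (by positivity) (by positivity)]
        refine ENNReal.ofReal_le_ofReal ?_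
        have h4 : G * (9 * a ^ 2 * Cb ^ 2 * (3 * (K * N))) * |lam| * q + a ^ 2 * N * |lam| * q =
            C₂ * |lam| * q := by rw [hC₂]; ring
        rw [h4]
        exact mul_le_mul_of_nonneg_right (mul_le_mul_of_nonneg_right (by linarith) hl0) hq0.le
  have main' : ∀ lam : ℝ, ∃ b z : ℝ, |lam| < min lam₀ (min (ε₀ / D) (ρ / D)) →
      NearP J (C₂ + C₃) lam b z ∧ PF J R V (C₂ + C₃) c lam b z := fun lam => by
    by_cases h : |lam| < min lam₀ (min (ε₀ / D) (ρ / D))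
    · obtain ⟨b, z, hbz⟩ := main lam h
      exact ⟨b, z, fun _ => hbz⟩
    · exact ⟨0, 0, fun h' => absurd h' h⟩
  choose b z hbz using main'
  exact ⟨C₂ + C₃, min lam₀ (min (ε₀ / D) (ρ / D)),
    lt_min hlam₀ (lt_min (by positivity) (by positivity)), b, z, hbz⟩


end Crest.Agent.R165.P7x337
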