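import Crest.Agent.R165.U3Vil_719
import Mathlib
import Crest.Agent.R165.U3Spin_719

-- ▼ part R165/U3Vib_719
section

/-!
Row 165, block U3 (helper719): weak holomorphy, boundary functionals on the disc.
-/

set_option autoImplicit false

open Complex Set Metric Filter Topology MeasureTheory
open scoped ComplexConjugate ContDiff

namespace Crest.Agent.R165.U3x719

theorem int_aux {U : Set ℂ} {f g : ℂ → ℂ} (hf : ContinuousOn f U) (hg : Continuous g)
    (hc : HasCompactSupport g) (hs : tsupport g ⊆ U) : Integrable (fun z => f z * g z) := by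
  have h1 : ContinuousOn (fun z => f z * g z) (tsupport g) :=
    (hf.mono hs).mul hg.continuousOn
  have h2 : IntegrableOn (fun z => f z * g z) (tsupport g) :=
    h1.integrableOn_compact hc.isCompact
  rw [← integrableOn_iff_integrable_of_support_subset (s := tsupport g)]
  · exact h2
  · intro z hz
    by_contra h
    have : g z = 0 := image_eq_zero_of_notMem_tsupport h
    simp [this] at hz

theorem weak_hol {U : Set ℂ} (hU : IsOpen U) {Q : ℂ → ℂ} (hQ : DifferentiableOn ℂ Q U) {φ : ℂ → ℂ}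
    (hφ : ContDiff ℝ 1 φ) (hc : HasCompactSupport φ) (hs : tsupport φ ⊆ U) :
    ∫ z, Q z * dc φ z = 0 := by
  have hfd : Continuous (fderiv ℝ φ) := hφ.continuous_fderiv one_ne_zero
  have hfdc : HasCompactSupport (fderiv ℝ φ) := hc.fderiv (𝕜 := ℝ)
  have hgv : ∀ v : ℂ, Continuous (fun z => fderiv ℝ φ z v) := fun v => hfd.clm_apply continuous_const
  have hgs : ∀ v : ℂ, tsupport (fun z => fderiv ℝ φ z v) ⊆ tsupport φ := by
    intro v
    apply closure_minimal _ (isClosed_tsupport φ)
    intro z hz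
    by_contra h
    have : fderiv ℝ φ z = 0 := by
      by_contra h2
      exact h (support_fderiv_subset ℝ h2)
    simp [this] at hz
  have hgc : ∀ v : ℂ, HasCompactSupport (fun z => fderiv ℝ φ z v) := fun v =>
    hc.of_isClosed_subset (isClosed_tsupport _) (hgs v)
  have hdQ : ∀ z ∈ U, DifferentiableAt ℂ Q z := fun z hz => hQ.differentiableAt (hU.mem_nhds hz)
  have hdQr : ∀ z ∈ U, DifferentiableAt ℝ Q z := fun z hz => (hdQ z hz).restrictScalars ℝ
  have hQc : ContDiffOn ℝ 1 Q U := by
    have : ContDiffOn ℂ 1 Q U := hQ.contDiffOn hU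
    exact this.restrict_scalars ℝ
  have hfQ : ContinuousOn (fderiv ℝ Q) U := hQc.continuousOn_fderiv_of_isOpen hU le_rfl
  have i1 : ∀ v : ℂ, Integrable (fun z => Q z * fderiv ℝ φ z v) := fun v =>
    int_aux hQ.continuousOn (hgv v) (hgc v) ((hgs v).trans hs)
  have i2 : ∀ v : ℂ, Integrable (fun z => fderiv ℝ Q z v * φ z) := fun v =>
    int_aux (hfQ.clm_apply continuousOn_const) hφ.continuous hc hs
  have i3 : Integrable (fun z => Q z * φ z) := int_aux hQ.continuousOn hφ.continuous hc hs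
  have key : ∀ v : ℂ, ∫ z, Q z * fderiv ℝ φ z v = -∫ z, fderiv ℝ Q z v * φ z := fun v =>
    integral_mul_fderiv_eq_neg_fderiv_mul_of_integrable (i2 v) (i1 v) i3
      (fun z hz => hdQr z (hs hz)) (fun z _ => (hφ.differentiable one_ne_zero) z)
  have e : ∀ z, Q z * dc φ z = Q z * fderiv ℝ φ z 1 + I * (Q z * fderiv ℝ φ z I) := by
    intro z; unfold dc; ring
  simp_rw [e]
  rw [integral_add (i1 1) ((i1 I).const_mul I), integral_const_mul, key, key]
  have : ∫ z, (fderiv ℝ Q z 1 * φ z + I * (fderiv ℝ Q z I * φ z)) = 0 := by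
    rw [← integral_zero ℂ ℂ]
    congr 1
    funext z
    by_cases hz : z ∈ U
    · have := dc_hol (hdQ z hz)
      unfold dc at this
      linear_combination (φ z) * this
    · have : φ z = 0 := image_eq_zero_of_notMem_tsupport (fun h => hz (hs h))
      simp [this]
  rw [integral_add (i2 1) ((i2 I).const_mul I), integral_const_mul] at this
  linear_combination -this

/-- the open annulus `r < ‖v‖ < 1` -/
def Ann (r : ℝ) : Set ℂ := {v | r < ‖v‖ ∧ ‖v‖ < 1}

theorem isOpen_Ann (r : ℝ) : IsOpen (Ann r) := (isOpen_lt continuous_const continuous_norm).inter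
    (isOpen_lt continuous_norm continuous_const)

theorem Ann_subset_ball (r : ℝ) : Ann r ⊆ ball 0 1 := fun v hv => by simpa using hv.2

/-- weak boundary relations on the disc -/
structure WBd (r : ℝ) (Q : ℂ → ℂ) : Prop where
  int : IntegrableOn Q (Ann r)
  holo : DifferentiableOn ℂ Q (Ann r)
  curl : ∀ χ : ℂ → ℝ, ContDiff ℝ 1 χ → HasCompactSupport χ → tsupport χ ⊆ {v | r < ‖v‖} →
    ∫ z in ball (0 : ℂ) 1, (Q z * db χ z).re = 0
  div : ∀ χ : ℂ → ℝ, ContDiff ℝ 1 χ → HasCompactSupport χ → tsupport χ ⊆ {v | r < ‖v‖} →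
    (∀ z, 0 ≤ χ z) → ∫ z in ball (0 : ℂ) 1, (Q z * db χ z).im ≤ 0

theorem ball_to_Ann {E : Type*} [NormedAddCommGroup E] [NormedSpace ℝ E] {r : ℝ} {f : ℂ → E}
    (h : ∀ z, ‖z‖ ≤ r → f z = 0) : ∫ z in ball (0 : ℂ) 1, f z = ∫ z in Ann r, f z := by
  apply setIntegral_eq_of_subset_of_forall_sdiff_eq_zero measurableSet_ball (Ann_subset_ball r)
  rintro z ⟨hz1, hz2⟩
  apply h
  by_contra hcon
  exact hz2 ⟨not_le.1 hcon, by simpa using hz1⟩

theorem dc_eq_zero_of {χ : ℂ → ℂ} {r : ℝ} (hs : tsupport χ ⊆ {v | r < ‖v‖}) {z : ℂ} (hz : ‖z‖ ≤ r) :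
    dc χ z = 0 :=
  dc_of_notMem (fun h => absurd (hs h) (not_lt.2 hz))

theorem continuous_dc {χ : ℂ → ℂ} (h : ContDiff ℝ 1 χ) : Continuous (dc χ) := by
  have hfd : Continuous (fderiv ℝ χ) := h.continuous_fderiv one_ne_zero
  unfold dc
  exact (hfd.clm_apply continuous_const).add (continuous_const.mul (hfd.clm_apply continuous_const))

theorem dc_bdd {χ : ℂ → ℂ} (h : ContDiff ℝ 1 χ) (hc : HasCompactSupport χ) :
    ∃ C : ℝ, 0 ≤ C ∧ ∀ z, ‖dc χ z‖ ≤ C := by
  have h1 : HasCompactSupport (dc χ) := by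
    refine hc.of_isClosed_subset (isClosed_tsupport _) ?_
    apply closure_minimal _ (isClosed_tsupport χ)
    intro z hz
    by_contra h2
    exact hz (dc_of_notMem h2)
  obtain ⟨C, hC⟩ := (continuous_dc h).bounded_above_of_compact_support h1
  exact ⟨max C 0, le_max_right _ _, fun z => (hC z).trans (le_max_left _ _)⟩

/-- the smooth step -/
theorem step_bdd : ∃ C : ℝ, 0 ≤ C ∧ ∀ t, |deriv Real.smoothTransition t| ≤ C := by
  have hc : Continuous (deriv Real.smoothTransition) :=
    (Real.smoothTransition.contDiff (n := 1)).continuous_deriv le_rfl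
  obtain ⟨C, hC⟩ := isCompact_Icc.exists_bound_of_continuousOn (s := Icc (0 : ℝ) 1) hc.continuousOn
  refine ⟨max C 0, le_max_right _ _, fun t => ?_⟩
  by_cases ht : t ∈ Icc (0 : ℝ) 1
  · exact (hC t ht).trans (le_max_left _ _)
  · have : deriv Real.smoothTransition t = 0 := by
      rw [mem_Icc, not_and_or, not_le, not_le] at ht
      rcases ht with h | h
      · have e : Real.smoothTransition =ᶠ[𝓝 t] fun _ => 0 := by
          filter_upwards [gt_mem_nhds h] with s hs
          exact Real.smoothTransition.zero_of_nonpos (le_of_lt hs)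
        rw [e.deriv_eq]; simp
      · have e : Real.smoothTransition =ᶠ[𝓝 t] fun _ => 1 := by
          filter_upwards [lt_mem_nhds h] with s hs
          exact Real.smoothTransition.one_of_one_le (le_of_lt hs)
        rw [e.deriv_eq]; simp
    rw [this, abs_zero]
    exact le_max_right _ _

/-- the step from `0` (below `s1`) to `1` (above `s2`) -/
noncomputable def stp (s1 s2 : ℝ) (t : ℝ) : ℝ := Real.smoothTransition ((t - s1) / (s2 - s1))

theorem stp_contDiff (s1 s2 : ℝ) {m : ℕ∞} : ContDiff ℝ m (stp s1 s2) := by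
  unfold stp
  exact Real.smoothTransition.contDiff.comp (by fun_prop)

theorem stp_zero {s1 s2 t : ℝ} (h : s1 < s2) (ht : t ≤ s1) : stp s1 s2 t = 0 :=
  Real.smoothTransition.zero_of_nonpos (div_nonpos_of_nonpos_of_nonneg (by linarith) (by linarith))

theorem stp_one {s1 s2 t : ℝ} (h : s1 < s2) (ht : s2 ≤ t) : stp s1 s2 t = 1 :=
  Real.smoothTransition.one_of_one_le (by rw [le_div_iff₀ (by linarith)]; linarith)

theorem stp_nonneg (s1 s2 t : ℝ) : 0 ≤ stp s1 s2 t := Real.smoothTransition.nonneg _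

theorem stp_le_one (s1 s2 t : ℝ) : stp s1 s2 t ≤ 1 := Real.smoothTransition.le_one _

theorem stp_deriv_zero {s1 s2 t : ℝ} (h : s1 < s2) (ht : t ≤ s1 ∨ s2 ≤ t) :
    deriv (stp s1 s2) t = 0 := by
  have hc : Continuous (deriv (stp s1 s2)) := (stp_contDiff s1 s2 (m := 1)).continuous_deriv le_rfl
  rcases ht with ht | ht
  · have : ∀ t ∈ Iio s1, deriv (stp s1 s2) t = 0 := by
      intro t ht
      have e : stp s1 s2 =ᶠ[𝓝 t] fun _ => 0 := by
        filter_upwards [gt_mem_nhds ht] with s hs
        exact stp_zero h (le_of_lt hs)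
      rw [e.deriv_eq]; simp
    have h2 : closure (Iio s1) ⊆ {t | deriv (stp s1 s2) t = 0} :=
      closure_minimal this (isClosed_eq hc continuous_const)
    rw [closure_Iio] at h2
    exact h2 ht
  · have : ∀ t ∈ Ioi s2, deriv (stp s1 s2) t = 0 := by
      intro t ht
      have e : stp s1 s2 =ᶠ[𝓝 t] fun _ => 1 := by
        filter_upwards [lt_mem_nhds ht] with s hs
        exact stp_one h (le_of_lt hs)
      rw [e.deriv_eq]; simp
    have h2 : closure (Ioi s2) ⊆ {t | deriv (stp s1 s2) t = 0} :=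
      closure_minimal this (isClosed_eq hc continuous_const)
    rw [closure_Ioi] at h2
    exact h2 ht

/-- the boundary functional only sees the boundary values -/
theorem weak_vanish {r : ℝ} {Q : ℂ → ℂ} (hQ : DifferentiableOn ℂ Q (Ann r))
    (hi : IntegrableOn Q (Ann r)) {χ : ℂ → ℂ} (hχ : ContDiff ℝ 1 χ) (hc : HasCompactSupport χ)
    (hs : tsupport χ ⊆ {v | r < ‖v‖}) (hz : ∀ z, ‖z‖ = 1 → χ z = 0) :
    ∫ z in ball (0 : ℂ) 1, Q z * dc χ z = 0 := by
  rw [ball_to_Ann (r := r) (fun z h => by rw [dc_eq_zero_of hs h, mul_zero])]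
  -- Lipschitz bound
  obtain ⟨L, hL⟩ : ∃ L, LipschitzWith L χ := hχ.lipschitzWith_of_hasCompactSupport hc one_ne_zero
  have hLz : ∀ z : ℂ, z ≠ 0 → ‖z‖ ≤ 1 → ‖χ z‖ ≤ L * (1 - ‖z‖) := by
    intro z hz0 hz1
    have hn : ‖z‖ ≠ 0 := norm_ne_zero_iff.2 hz0
    have h1 : ‖((‖z‖⁻¹ : ℝ) : ℂ) * z‖ = 1 := by
      rw [norm_mul, norm_real, Real.norm_eq_abs, abs_of_nonneg (by positivity)]
      exact inv_mul_cancel₀ hn
    have h2 := hL.dist_le_mul z (((‖z‖⁻¹ : ℝ) : ℂ) * z)
    rw [dist_eq_norm, hz _ h1, sub_zero] at h2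
    refine h2.trans (le_of_eq ?_)
    congr 1
    rw [dist_eq_norm]
    have : z - ((‖z‖⁻¹ : ℝ) : ℂ) * z = ((1 - ‖z‖⁻¹ : ℝ) : ℂ) * z := by push_cast; ring
    rw [this, norm_mul, norm_real, Real.norm_eq_abs, abs_of_nonpos]
    · field_simp; ring
    · have : 1 ≤ ‖z‖⁻¹ := (one_le_inv₀ (norm_pos_iff.2 hz0)).2 hz1
      linarith
  obtain ⟨C, hC0, hC⟩ := step_bdd
  obtain ⟨C', hC'0, hC'⟩ := dc_bdd hχ hc
  -- the cut-offs
  set b : ℕ → ℝ → ℝ := fun n t => Real.smoothTransition ((n + 1) * (1 - t) - 1) with hb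
  have hbC : ∀ n, ContDiff ℝ 1 (b n) := by
    intro n
    rw [hb]
    exact Real.smoothTransition.contDiff.comp (by fun_prop)
  have hbd : ∀ n t, deriv (b n) t = -(n + 1) * deriv Real.smoothTransition ((n + 1) * (1 - t) - 1) := by
    intro n t
    have h1 : HasDerivAt (fun t : ℝ => ((n : ℝ) + 1) * (1 - t) - 1) (-(n + 1)) t := by
      have := (((hasDerivAt_id t).const_sub 1).const_mul ((n : ℝ) + 1)).sub_const 1
      simpa using this
    have h2 : HasDerivAt Real.smoothTransition (deriv Real.smoothTransition ((n + 1) * (1 - t) - 1))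
        ((n + 1) * (1 - t) - 1) :=
      ((Real.smoothTransition.contDiff (n := 1)).differentiable one_ne_zero _).hasDerivAt
    have h3 : HasDerivAt (fun t : ℝ => Real.smoothTransition (((n : ℝ) + 1) * (1 - t) - 1))
        (deriv Real.smoothTransition (((n : ℝ) + 1) * (1 - t) - 1) * (-((n : ℝ) + 1))) t :=
      HasDerivAt.comp (h := fun t : ℝ => ((n : ℝ) + 1) * (1 - t) - 1)
        (h₂ := Real.smoothTransition) t h2 h1
    have h4 : b n = fun t : ℝ => Real.smoothTransition (((n : ℝ) + 1) * (1 - t) - 1) := rfl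
    rw [h4, h3.deriv]; ring
  set X : ℕ → ℂ → ℂ := fun n z => χ z * (rad 0 (b n) z : ℂ) with hX
  have hXC : ∀ n, ContDiff ℝ 1 (X n) := by
    intro n
    exact hχ.mul (Complex.ofRealCLM.contDiff.comp (rad_contDiff 0 (hbC n)))
  have hXd : ∀ n z, dc (X n) z = dc χ z * (rad 0 (b n) z : ℂ) +
      χ z * (((deriv (b n) (normSq z) : ℝ) : ℂ) * (2 * z)) := by
    intro n z
    have hr : DifferentiableAt ℝ (rad 0 (b n)) z :=
      (rad_contDiff 0 (hbC n)).differentiable one_ne_zero z
    have h1 := dc_mul (hχ.differentiable one_ne_zero z)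
      (Complex.ofRealCLM.differentiableAt.comp z hr)
    have h2 : dc (fun w => (rad 0 (b n) w : ℂ)) z = db (rad 0 (b n)) z := dc_ofReal hr
    rw [db_rad 0 ((hbC n).differentiable one_ne_zero), sub_zero] at h2
    have h3 : dc (X n) z = dc χ z * (rad 0 (b n) z : ℂ) + χ z * dc (fun w => (rad 0 (b n) w : ℂ)) z := h1
    rw [h3, h2]
  have hXs : ∀ n, tsupport (X n) ⊆ Ann r := by
    intro n
    have h1 : tsupport (X n) ⊆ tsupport χ := by
      apply closure_mono
      intro z hz h
      exact hz (by simp only [hX, h, zero_mul])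
    have h2 : tsupport (X n) ⊆ {z | normSq z ≤ 1 - 1 / (n + 1)} := by
      apply closure_minimal _ (isClosed_le continuous_normSq continuous_const)
      intro z hz
      by_contra h
      have h' : 1 - 1 / ((n : ℝ) + 1) < normSq z := not_le.1 h
      have hn : (0 : ℝ) < n + 1 := by positivity
      have : rad 0 (b n) z = 0 := by
        simp only [rad, sub_zero, hb]
        apply Real.smoothTransition.zero_of_nonpos
        have h3 : ((n : ℝ) + 1) * (1 - normSq z) < ((n : ℝ) + 1) * (1 / (n + 1)) :=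
          mul_lt_mul_of_pos_left (by linarith) hn
        rw [mul_one_div_cancel hn.ne'] at h3
        linarith
      exact hz (by simp only [hX, this, ofReal_zero, mul_zero])
    intro z hz
    refine ⟨hs (h1 hz), ?_⟩
    have h3 := h2 hz
    simp only [mem_ofPred_eq, normSq_eq_norm_sq] at h3
    have h4 : ‖z‖ ^ 2 < 1 := by
      have : (0 : ℝ) < 1 / (n + 1) := by positivity
      linarith
    nlinarith [norm_nonneg z]
  have hXc : ∀ n, HasCompactSupport (X n) := fun n => hc.mul_right
  have hzero : ∀ n, ∫ z in Ann r, Q z * dc (X n) z = 0 := by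
    intro n
    rw [setIntegral_eq_integral_of_forall_compl_eq_zero]
    · exact weak_hol (isOpen_Ann r) hQ (hXC n) (hXc n) (hXs n)
    · intro z hz
      rw [dc_of_notMem (fun h => hz (hXs n h)), mul_zero]
  have hlim : Tendsto (fun n => ∫ z in Ann r, Q z * dc (X n) z) atTop
      (𝓝 (∫ z in Ann r, Q z * dc χ z)) := by
    apply tendsto_integral_of_dominated_convergence (fun z => ‖Q z‖ * (C' + 4 * L * C))
    · intro n
      exact hi.aestronglyMeasurable.mul (continuous_dc (hXC n)).aestronglyMeasurable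
    · exact hi.norm.mul_const _
    · intro n
      filter_upwards [ae_restrict_mem (isOpen_Ann r).measurableSet] with z hzA
      rw [norm_mul]
      apply mul_le_mul_of_nonneg_left _ (norm_nonneg _)
      rw [hXd]
      refine (norm_add_le _ _).trans (add_le_add ?_ ?_)
      · have hr0 : 0 ≤ rad 0 (b n) z := Real.smoothTransition.nonneg _
        have hr1 : rad 0 (b n) z ≤ 1 := Real.smoothTransition.le_one _
        rw [norm_mul, norm_real, Real.norm_eq_abs, abs_of_nonneg hr0]
        calc ‖dc χ z‖ * rad 0 (b n) z ≤ ‖dc χ z‖ * 1 :=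
              mul_le_mul_of_nonneg_left hr1 (norm_nonneg _)
          _ ≤ C' := by rw [mul_one]; exact hC' z
      · rw [norm_mul, norm_mul, norm_real, Real.norm_eq_abs, norm_mul]
        have hz1 : ‖z‖ ≤ 1 := hzA.2.le
        have hn2 : ‖(2 : ℂ)‖ = 2 := by simp
        rw [hn2]
        by_cases hz0 : z = 0
        · subst hz0
          simp only [norm_zero, mul_zero]
          positivity
        have hχz := hLz z hz0 hz1
        by_cases hd : deriv (b n) (normSq z) = 0
        · rw [hd, abs_zero, zero_mul, mul_zero]; positivity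
        · -- here `(n+1)(1 - |z|²) ≤ 2`
          have h1 : ((n : ℝ) + 1) * (1 - normSq z) ≤ 2 := by
            by_contra hcon
            apply hd
            rw [hbd]
            have h2 : (1 : ℝ) < (n + 1) * (1 - normSq z) - 1 := by linarith [not_le.1 hcon]
            have e : Real.smoothTransition =ᶠ[𝓝 ((n + 1) * (1 - normSq z) - 1)] fun _ => 1 := by
              filter_upwards [lt_mem_nhds h2] with s hs
              exact Real.smoothTransition.one_of_one_le (le_of_lt hs)
            rw [e.deriv_eq]; simp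
          have h2 : ((n : ℝ) + 1) * (1 - ‖z‖) ≤ 2 := by
            rw [normSq_eq_norm_sq] at h1
            have hn : (0 : ℝ) < n + 1 := by positivity
            have : 1 - ‖z‖ ≤ 1 - ‖z‖ ^ 2 := by nlinarith [norm_nonneg z]
            nlinarith
          have h3 : |deriv (b n) (normSq z)| ≤ (n + 1) * C := by
            rw [hbd, abs_mul, abs_neg, abs_of_pos (by positivity : (0 : ℝ) < n + 1)]
            exact mul_le_mul_of_nonneg_left (hC _) (by positivity)
          have hL0 : (0 : ℝ) ≤ L := L.2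
          have h1z : 0 ≤ 1 - ‖z‖ := by linarith
          calc ‖χ z‖ * (|deriv (b n) (normSq z)| * (2 * ‖z‖))
              ≤ (L * (1 - ‖z‖)) * (((n + 1) * C) * (2 * 1)) := by
                gcongr
            _ = 2 * L * C * ((n + 1) * (1 - ‖z‖)) := by ring
            _ ≤ 2 * L * C * 2 := by gcongr
            _ = 4 * L * C := by ring
    · filter_upwards [ae_restrict_mem (isOpen_Ann r).measurableSet] with z hzA
      apply Tendsto.const_mul
      have hpos : 0 < 1 - normSq z := by
        rw [normSq_eq_norm_sq]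
        nlinarith [norm_nonneg z, hzA.2]
      refine tendsto_const_nhds.congr' ?_
      have hev : ∀ᶠ n : ℕ in atTop, 2 < ((n : ℝ) + 1) * (1 - normSq z) := by
        have : Tendsto (fun n : ℕ => ((n : ℝ) + 1) * (1 - normSq z)) atTop atTop :=
          (tendsto_natCast_atTop_atTop.atTop_add tendsto_const_nhds).atTop_mul_const hpos
        exact this.eventually_gt_atTop 2
      filter_upwards [hev] with n hn
      rw [hXd]
      have h1 : rad 0 (b n) z = 1 := by
        simp only [rad, sub_zero, hb]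
        exact Real.smoothTransition.one_of_one_le (by linarith)
      have h2 : deriv (b n) (normSq z) = 0 := by
        rw [hbd]
        have h2 : (1 : ℝ) < (n + 1) * (1 - normSq z) - 1 := by linarith
        have e : Real.smoothTransition =ᶠ[𝓝 ((n + 1) * (1 - normSq z) - 1)] fun _ => 1 := by
          filter_upwards [lt_mem_nhds h2] with s hs
          exact Real.smoothTransition.one_of_one_le (le_of_lt hs)
        rw [e.deriv_eq]; simp
      rw [h1, h2]; simp
  simp_rw [hzero] at hlim
  exact (tendsto_nhds_unique hlim tendsto_const_nhds).symm ▸ rfl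

end Crest.Agent.R165.U3x719
end

-- ▼ part R165/U3Vic_719
section

/-!
Row 165, block U3 (helper719): Schwarz-Villat formula, boundary values of `i w Q(w)`.
-/

set_option autoImplicit false

open Complex Set Metric Filter Topology MeasureTheory
open scoped ComplexConjugate ContDiff

namespace Crest.Agent.R165.U3x719

theorem integrable_mul_dc {r : ℝ} {Q : ℂ → ℂ} (hi : IntegrableOn Q (Ann r)) {χ : ℂ → ℂ}
    (hχ : ContDiff ℝ 1 χ) (hc : HasCompactSupport χ) (hs : tsupport χ ⊆ {v | r < ‖v‖}) :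
    IntegrableOn (fun z => Q z * dc χ z) (ball 0 1) := by
  obtain ⟨C, hC0, hC⟩ := dc_bdd hχ hc
  have h1 : IntegrableOn (fun z => Q z * dc χ z) (Ann r) :=
    hi.mul_bdd (c := C) (continuous_dc hχ).aestronglyMeasurable (Eventually.of_forall hC)
  have h2 : IntegrableOn (fun z => Q z * dc χ z) {z | ‖z‖ ≤ r} := by
    refine (integrableOn_zero (μ := volume)).congr_fun (fun z hz => ?_)
      (isClosed_le continuous_norm continuous_const).measurableSet
    rw [dc_eq_zero_of hs hz, mul_zero]
  refine (h1.union h2).mono_set ?_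
  intro z hz
  by_cases h : ‖z‖ ≤ r
  · exact Or.inr h
  · exact Or.inl ⟨not_le.1 h, by simpa using hz⟩

theorem bd_fun {r : ℝ} (hr0 : 0 ≤ r) {Q : ℂ → ℂ} (h : WBd r Q) {s : ℝ} (hs : r ≤ s) (hs1 : s < 1)
    {S : ℝ} (hS : 1 < S) {ζ : ℂ → ℂ} (hζ : DifferentiableOn ℂ ζ {v | s < ‖v‖ ∧ ‖v‖ < S})
    (hre : ∀ v : ℂ, ‖v‖ = 1 → (ζ v).im = 0) {ρ : ℝ} (hρ : s < ρ) (hρ1 : ρ < 1) :
    (∮ v in C(0, ρ), Q v * ζ v).im = 0 ∧
      ((∀ v : ℂ, s < ‖v‖ → ‖v‖ < S → 0 ≤ (ζ v).re) → 0 ≤ (∮ v in C(0, ρ), Q v * ζ v).re) := by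
  have hs0 : 0 ≤ s := hr0.trans hs
  set V : Set ℂ := {v | s < ‖v‖ ∧ ‖v‖ < S} with hV
  have hVo : IsOpen V := (isOpen_lt continuous_const continuous_norm).inter
    (isOpen_lt continuous_norm continuous_const)
  have hss : s ^ 2 < 1 := by nlinarith
  have hSS : 1 < S ^ 2 := by nlinarith
  obtain ⟨s1, h1a, h1b⟩ := exists_between hss
  obtain ⟨s2, h2a, h2b⟩ := exists_between h1b
  obtain ⟨s4, h4a, h4b⟩ := exists_between hSS
  obtain ⟨s3, h3a, h3b⟩ := exists_between h4a
  set α : ℝ → ℝ := fun t => stp s1 s2 t * (1 - stp s3 s4 t) with hα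
  have hαC : ContDiff ℝ 1 α := (stp_contDiff s1 s2 (m := 1)).mul
    (contDiff_const.sub (stp_contDiff s3 s4 (m := 1)))
  have hα0 : ∀ t, 0 ≤ α t := fun t =>
    mul_nonneg (stp_nonneg _ _ _) (by linarith [stp_le_one s3 s4 t])
  have ha : ContDiff ℝ 1 (rad 0 α) := rad_contDiff 0 hαC
  have hts : tsupport (rad 0 α) ⊆ {v | s1 ≤ normSq v ∧ normSq v ≤ s4} := by
    apply closure_minimal
    · intro v hv
      simp only [Function.mem_support, rad, sub_zero, hα] at hv
      constructor
      · by_contra hcon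
        rw [stp_zero h2a (le_of_lt (not_le.1 hcon)), zero_mul] at hv
        exact hv rfl
      · by_contra hcon
        rw [stp_one h3b (le_of_lt (not_le.1 hcon)), sub_self, mul_zero] at hv
        exact hv rfl
    · exact (isClosed_le continuous_const continuous_normSq).inter
        (isClosed_le continuous_normSq continuous_const)
  have htV : tsupport (rad 0 α) ⊆ V := by
    intro v hv
    have := hts hv
    simp only [mem_ofPred_eq, normSq_eq_norm_sq] at this
    exact ⟨lt_of_pow_lt_pow_left₀ 2 (norm_nonneg v) (by linarith [this.1]),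
      lt_of_pow_lt_pow_left₀ 2 (by linarith) (by linarith [this.2])⟩
  have hac : HasCompactSupport (rad 0 α) := by
    apply HasCompactSupport.of_support_subset_isCompact (isCompact_closedBall (0 : ℂ) S)
    intro v hv
    have := htV (subset_tsupport _ hv)
    simpa using this.2.le
  -- the complex test function
  set Z : ℂ → ℂ := fun v => (rad 0 α v : ℂ) * ζ v with hZ
  have hZs : tsupport Z ⊆ tsupport (rad 0 α) := by
    apply closure_mono
    intro v hv hcon
    exact hv (by simp only [hZ, hcon, ofReal_zero, zero_mul])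
  have hZC : ContDiff ℝ 1 Z := by
    rw [contDiff_iff_contDiffAt]
    intro v
    by_cases hv : v ∈ tsupport (rad 0 α)
    · have h1 : ContDiffAt ℝ 1 ζ v := by
        have : ContDiffAt ℂ 1 ζ v := (hζ.contDiffOn hVo).contDiffAt (hVo.mem_nhds (htV hv))
        exact this.restrict_scalars ℝ
      exact (Complex.ofRealCLM.contDiff.comp ha).contDiffAt.mul h1
    · have : Z =ᶠ[𝓝 v] fun _ => 0 := by
        filter_upwards [(isClosed_tsupport (rad 0 α)).isOpen_compl.mem_nhds hv] with w hw
        have : rad 0 α w = 0 := image_eq_zero_of_notMem_tsupport hw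
        simp only [hZ, this, ofReal_zero, zero_mul]
      exact contDiffAt_const.congr_of_eventuallyEq this
  have hZc : HasCompactSupport Z := hac.of_isClosed_subset (isClosed_tsupport _) hZs
  set χR : ℂ → ℝ := fun v => (Z v).re with hχR
  set χI : ℂ → ℝ := fun v => (Z v).im with hχI
  have hRC : ContDiff ℝ 1 χR := Complex.reCLM.contDiff.comp hZC
  have hIC : ContDiff ℝ 1 χI := Complex.imCLM.contDiff.comp hZC
  have hRs : tsupport χR ⊆ tsupport Z := by
    apply closure_mono
    intro v hv hcon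
    exact hv (by simp only [hχR, hcon, zero_re])
  have hIs : tsupport χI ⊆ tsupport Z := by
    apply closure_mono
    intro v hv hcon
    exact hv (by simp only [hχI, hcon, zero_im])
  have hRc : HasCompactSupport χR := hZc.of_isClosed_subset (isClosed_tsupport _) hRs
  have hIc : HasCompactSupport χI := hZc.of_isClosed_subset (isClosed_tsupport _) hIs
  have hZr : tsupport Z ⊆ {v | r < ‖v‖} := fun v hv => lt_of_le_of_lt hs (htV (hZs hv)).1
  set YR : ℂ → ℂ := fun v => (χR v : ℂ) with hYR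
  set YI : ℂ → ℂ := fun v => (χI v : ℂ) with hYI
  have hYRC : ContDiff ℝ 1 YR := Complex.ofRealCLM.contDiff.comp hRC
  have hYIC : ContDiff ℝ 1 YI := Complex.ofRealCLM.contDiff.comp hIC
  have hYRs : tsupport YR ⊆ tsupport χR := by
    apply closure_mono
    intro v hv hcon
    exact hv (by simp only [hYR, hcon, ofReal_zero])
  have hYIs : tsupport YI ⊆ tsupport χI := by
    apply closure_mono
    intro v hv hcon
    exact hv (by simp only [hYI, hcon, ofReal_zero])
  have hYRc : HasCompactSupport YR := hRc.of_isClosed_subset (isClosed_tsupport _) hYRs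
  have hYIc : HasCompactSupport YI := hIc.of_isClosed_subset (isClosed_tsupport _) hYIs
  have hdR : ∀ z, dc YR z = db χR z := fun z => dc_ofReal (hRC.differentiable one_ne_zero z)
  have hdI : ∀ z, dc YI z = db χI z := fun z => dc_ofReal (hIC.differentiable one_ne_zero z)
  have hdZ : ∀ z, dc Z z = dc YR z + I * dc YI z := by
    intro z
    have e : Z = fun w => YR w + I * YI w := by
      funext w
      simp only [hYR, hYI, hχR, hχI]
      rw [mul_comm I, re_add_im]
    have h1 : DifferentiableAt ℝ (fun w => I * YI w) z :=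
      (differentiableAt_const I).mul (hYIC.differentiable one_ne_zero z)
    have h2 := dc_add (hYRC.differentiable one_ne_zero z) h1
    have h3 := dc_mul (z := z) (differentiableAt_const (𝕜 := ℝ) I) (hYIC.differentiable one_ne_zero z)
    have h4 : dc (fun _ : ℂ => I) z = 0 := by simp [dc]
    rw [h4, zero_mul, zero_add] at h3
    rw [e, h2, h3]
  -- the integral
  have hint1 : IntegrableOn (fun z => Q z * dc YR z) (ball 0 1) :=
    integrable_mul_dc h.int hYRC hYRc ((hYRs.trans hRs).trans hZr)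
  have hint2 : IntegrableOn (fun z => Q z * dc YI z) (ball 0 1) :=
    integrable_mul_dc h.int hYIC hYIc ((hYIs.trans hIs).trans hZr)
  have hvan : ∫ z in ball (0 : ℂ) 1, Q z * dc YI z = 0 := by
    apply weak_vanish h.holo h.int hYIC hYIc ((hYIs.trans hIs).trans hZr)
    intro z hz
    simp only [hYI, hχI, hZ, im_ofReal_mul, hre z hz, mul_zero, ofReal_zero]
  set m : ℂ := ∫ z in ball (0 : ℂ) 1, Q z * dc YR z with hm
  have hmZ : ∫ z in ball (0 : ℂ) 1, Q z * dc Z z = m := by
    have : ∀ z, Q z * dc Z z = Q z * dc YR z + I * (Q z * dc YI z) := by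
      intro z; rw [hdZ]; ring
    simp_rw [this]
    rw [integral_add hint1 (hint2.const_mul I), integral_const_mul, hvan, mul_zero, add_zero]
  have hmre : m.re = 0 := by
    have h1 : m.re = ∫ z in ball (0 : ℂ) 1, (Q z * dc YR z).re := by
      rw [hm]; exact (integral_re hint1).symm
    rw [h1]
    simp_rw [hdR]
    exact h.curl χR hRC hRc (hRs.trans hZr)
  have hmim : (∀ v, 0 ≤ χR v) → m.im ≤ 0 := by
    intro hpos
    have h1 : m.im = ∫ z in ball (0 : ℂ) 1, (Q z * dc YR z).im := by
      rw [hm]; exact (integral_im hint1).symm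
    rw [h1]
    simp_rw [hdR]
    exact h.div χR hRC hRc (hRs.trans hZr) hpos
  -- polar coordinates
  have hZeq : ∀ z ∈ ball (0 : ℂ) 1, dc Z z =
      ζ z * (((deriv (stp s1 s2) (normSq z) : ℝ) : ℂ) * (2 * z)) := by
    intro z hz
    have hz1 : normSq z < 1 := by
      rw [normSq_eq_norm_sq]
      have : ‖z‖ < 1 := by simpa using hz
      nlinarith [norm_nonneg z]
    have hdα : deriv α (normSq z) = deriv (stp s1 s2) (normSq z) := by
      apply Filter.EventuallyEq.deriv_eq
      filter_upwards [gt_mem_nhds (hz1.trans h3a)] with t ht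
      simp only [hα]
      rw [stp_zero h3b (le_of_lt ht), sub_zero, mul_one]
    by_cases hzV : z ∈ V
    · have h1 : DifferentiableAt ℂ ζ z := hζ.differentiableAt (hVo.mem_nhds hzV)
      have h2 : DifferentiableAt ℝ (rad 0 α) z := ha.differentiable one_ne_zero z
      have h3 := dc_mul (z := z) (Complex.ofRealCLM.differentiableAt.comp z h2)
        (h1.restrictScalars ℝ)
      have h4 : dc Z z = dc (fun w => (rad 0 α w : ℂ)) z * ζ z + (rad 0 α z : ℂ) * dc ζ z := h3
      rw [h4, dc_hol h1, mul_zero, add_zero, dc_ofReal h2, db_rad 0 (hαC.differentiable one_ne_zero),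
        sub_zero, hdα]
      ring
    · have h1 : dc Z z = 0 := dc_of_notMem (fun hh => hzV (htV (hZs hh)))
      have h2 : normSq z ≤ s1 := by
        have h3 : ‖z‖ ≤ s := by
          by_contra hcon
          refine hzV ⟨not_le.1 hcon, ?_⟩
          have : ‖z‖ < 1 := by simpa using hz
          linarith
        rw [normSq_eq_norm_sq]
        nlinarith [norm_nonneg z]
      rw [h1, stp_deriv_zero h2a (Or.inl h2)]; simp
  set J : ℂ := ∮ v in C(0, ρ), Q v * ζ v with hJ
  have hpol := polar_cut hs0 hs1 (G := fun v => Q v * ζ v)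
    (((h.holo.mono fun v hv => ⟨lt_of_le_of_lt hs hv.1, hv.2⟩).mul
      (hζ.mono fun v hv => ⟨hv.1, hv.2.trans hS⟩)))
    (stp_contDiff s1 s2 (m := 1)) (s1 := s1) (s2 := s2) h1a (by rw [one_pow]; exact h2b)
    (fun t ht => stp_deriv_zero h2a (Or.inl ht)) (fun t ht => stp_deriv_zero h2a (Or.inr ht)) hρ hρ1
  rw [stp_zero h2a h1a.le, stp_one h2a (by rw [one_pow]; exact h2b.le), ← hJ] at hpol
  have hmJ : m = -I * J := by
    rw [← hmZ, setIntegral_congr_fun measurableSet_ball (g := fun z => Q z *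
      (ζ z * (((deriv (stp s1 s2) (normSq z) : ℝ) : ℂ) * (2 * z)))) (fun z hz => by
        simp only [hZeq z hz])]
    rw [ball_to_Ann (r := s)]
    · have e : ∀ z, Q z * (ζ z * (((deriv (stp s1 s2) (normSq z) : ℝ) : ℂ) * (2 * z))) =
          Q z * ζ z * (((deriv (stp s1 s2) (normSq z) : ℝ) : ℂ) * (2 * z)) := fun z => by ring
      simp_rw [e]
      unfold Ann
      rw [hpol]
      push_cast
      ring
    · intro z hz
      have : normSq z ≤ s1 := by
        rw [normSq_eq_norm_sq]
        nlinarith [norm_nonneg z]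
      rw [stp_deriv_zero h2a (Or.inl this)]; simp
  have hJre : m.im = -J.re := by rw [hmJ]; simp
  have hJim : m.re = J.im := by rw [hmJ]; simp
  refine ⟨by rw [← hJim, hmre], fun hpos => ?_⟩
  have h1 : m.im ≤ 0 := by
    apply hmim
    intro v
    simp only [hχR, hZ, re_ofReal_mul]
    by_cases hv : v ∈ V
    · exact mul_nonneg (hα0 _) (hpos v hv.1 hv.2)
    · have : rad 0 α v = 0 := image_eq_zero_of_notMem_tsupport (fun hh => hv (htV hh))
      rw [this, zero_mul]
  linarith

end Crest.Agent.R165.U3x719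
end

-- ▼ part R165/U3Vid_719
section

/-!
Row 165, block U3 (helper719): Schwarz-Villat formula, boundary values of `i w Q(w)`.
-/

set_option autoImplicit false

open Complex Set Metric Filter Topology MeasureTheory
open scoped ComplexConjugate ContDiff

namespace Crest.Agent.R165.U3x719

theorem circ_eq {r : ℝ} (hr : 0 ≤ r) {f : ℂ → ℂ} (hf : DifferentiableOn ℂ f (Ann r)) {a b : ℝ}
    (ha : r < a) (ha1 : a < 1) (hb : r < b) (hb1 : b < 1) :
    (∮ v in C(0, a), f v) = ∮ v in C(0, b), f v := by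
  have key : ∀ a b : ℝ, r < a → a ≤ b → b < 1 → (∮ v in C(0, b), f v) = ∮ v in C(0, a), f v := by
    intro a b h1 h2 h3
    have hr0 : 0 < a := lt_of_le_of_lt hr h1
    apply Complex.circleIntegral_eq_of_differentiable_on_annulus_off_countable hr0 h2 countable_empty
    · refine hf.continuousOn.mono ?_
      rintro z ⟨hz1, hz2⟩
      simp only [mem_closedBall, dist_zero_right, mem_ball, not_lt] at hz1 hz2
      exact ⟨lt_of_lt_of_le h1 hz2, lt_of_le_of_lt hz1 h3⟩
    · rintro z ⟨⟨hz1, hz2⟩, -⟩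
      simp only [mem_closedBall, dist_zero_right, mem_ball, not_le] at hz1 hz2
      exact hf.differentiableAt ((isOpen_Ann r).mem_nhds ⟨h1.trans hz2, hz1.trans h3⟩)
  rcases le_total a b with h | h
  · exact (key a b ha h hb1).symm
  · exact key b a hb h ha1

theorem sphere_subset_Ann {r a : ℝ} (ha : r < a) (ha1 : a < 1) : sphere (0 : ℂ) a ⊆ Ann r := by
  intro v hv
  have : ‖v‖ = a := by simpa using hv
  exact ⟨by rw [this]; exact ha, by rw [this]; exact ha1⟩


theorem cont_Theta {r1 : ℝ} (h1 : 0 < r1) {Q : ℂ → ℂ} (hQ : ContinuousOn Q (sphere 0 r1)) {u0 : ℂ}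
    (hu : ‖u0‖ * r1 < 1) : ContinuousAt (fun u : ℂ => ∮ v in C(0, r1), Q v / (1 - u * v)) u0 := by
  unfold circleIntegral
  obtain ⟨M, hM⟩ := (isCompact_sphere (0 : ℂ) r1).exists_bound_of_continuousOn hQ
  obtain ⟨t, ht1, ht2⟩ := exists_between hu
  have hev : ∀ᶠ u in 𝓝 u0, ‖u‖ * r1 < t := by
    have : Continuous fun u : ℂ => ‖u‖ * r1 := by fun_prop
    exact this.continuousAt.eventually_lt continuousAt_const ht1
  have hcs : ∀ θ, circleMap (0 : ℂ) r1 θ ∈ sphere (0 : ℂ) r1 := fun θ =>
    circleMap_mem_sphere 0 h1.le θ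
  have hcn : ∀ θ, ‖circleMap (0 : ℂ) r1 θ‖ = r1 := fun θ => by simpa using hcs θ
  have hlow : ∀ u : ℂ, ‖u‖ * r1 < t → ∀ θ, 1 - t ≤ ‖1 - u * circleMap 0 r1 θ‖ := by
    intro u hu θ
    have h2 : ‖(1 : ℂ)‖ - ‖u * circleMap 0 r1 θ‖ ≤ ‖1 - u * circleMap 0 r1 θ‖ := norm_sub_norm_le _ _
    rw [norm_one, norm_mul, hcn] at h2
    linarith
  apply intervalIntegral.continuousAt_of_dominated_interval (bound := fun _ => r1 * (M / (1 - t)))
  · filter_upwards [hev] with u hu'
    apply Continuous.aestronglyMeasurable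
    have c1 : Continuous fun θ => Q (circleMap 0 r1 θ) :=
      hQ.comp_continuous (continuous_circleMap 0 r1) hcs
    have c2 : Continuous fun θ => 1 - u * circleMap 0 r1 θ :=
      continuous_const.sub (continuous_const.mul (continuous_circleMap 0 r1))
    have c3 : Continuous fun θ => deriv (circleMap (0 : ℂ) r1) θ := by
      simp_rw [deriv_circleMap]
      exact (continuous_circleMap 0 r1).mul continuous_const
    refine c3.smul (c1.div c2 fun θ => ?_)
    intro h0
    have := hlow u hu' θ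
    rw [h0, norm_zero] at this
    linarith
  · filter_upwards [hev] with u hu'
    refine Eventually.of_forall fun θ _ => ?_
    rw [norm_smul, deriv_circleMap, norm_mul, hcn, norm_I, mul_one, norm_div]
    apply mul_le_mul_of_nonneg_left _ h1.le
    have h3 := hlow u hu' θ
    have h4 := hM _ (hcs θ)
    have h5 : 0 ≤ M := (norm_nonneg _).trans h4
    exact div_le_div₀ h5 h4 (by linarith) h3
  · exact intervalIntegrable_const
  · refine Eventually.of_forall fun θ _ => ?_
    have h3 := hlow u0 ht1 θ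
    have h4 : 1 - u0 * circleMap 0 r1 θ ≠ 0 := by
      intro h0
      rw [h0, norm_zero] at h3
      linarith
    have c1 : ContinuousAt (fun x : ℂ => Q (circleMap 0 r1 θ) / (1 - x * circleMap 0 r1 θ)) u0 := by
      have c2 : ContinuousAt (fun x : ℂ => 1 - x * circleMap 0 r1 θ) u0 := by fun_prop
      exact (continuousAt_const (y := Q (circleMap 0 r1 θ))).div c2 h4
    exact (continuousAt_const (y := deriv (circleMap (0 : ℂ) r1) θ)).smul c1

theorem thin {V : Set ℂ} (hV : IsOpen V) (h : sphere (0 : ℂ) 1 ⊆ V) (s0 : ℝ) (hs0 : s0 < 1) :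
    ∃ s S : ℝ, s0 ≤ s ∧ s < 1 ∧ 1 < S ∧ ∀ v : ℂ, s < ‖v‖ → ‖v‖ < S → v ∈ V := by
  obtain ⟨δ, hδ, hδV⟩ := (isCompact_sphere (0 : ℂ) 1).exists_thickening_subset_open hV h
  refine ⟨max (max s0 0) (1 - δ), 1 + δ, (le_max_left _ _).trans (le_max_left _ _),
    max_lt (max_lt hs0 one_pos) (by linarith), by linarith, ?_⟩
  intro v hv1 hv2
  have h0 : 0 < ‖v‖ := lt_of_le_of_lt ((le_max_right _ _).trans (le_max_left _ _)) hv1
  have h1 : 1 - δ < ‖v‖ := lt_of_le_of_lt (le_max_right _ _) hv1
  apply hδV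
  rw [mem_thickening_iff]
  refine ⟨((‖v‖⁻¹ : ℝ) : ℂ) * v, ?_, ?_⟩
  · simp only [mem_sphere_iff_norm, sub_zero, norm_mul, norm_real, Real.norm_eq_abs,
      abs_of_pos (inv_pos.2 h0)]
    exact inv_mul_cancel₀ h0.ne'
  · rw [dist_eq_norm]
    have : v - ((‖v‖⁻¹ : ℝ) : ℂ) * v = ((1 - ‖v‖⁻¹ : ℝ) : ℂ) * v := by push_cast; ring
    rw [this, norm_mul, norm_real, Real.norm_eq_abs]
    have h2 : |1 - ‖v‖⁻¹| * ‖v‖ = |‖v‖ - 1| := by
      rw [← abs_of_pos h0, ← abs_mul, abs_of_pos h0, sub_mul, one_mul, inv_mul_cancel₀ h0.ne']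
    rw [h2, abs_lt]
    constructor <;> linarith

theorem annulus_cauchy {r : ℝ} (hr : 0 ≤ r) {f : ℂ → ℂ} (hf : DifferentiableOn ℂ f (Ann r)) {a b : ℝ}
    (ha : r < a) {w : ℂ} (haw : a < ‖w‖) (hwb : ‖w‖ < b) (hb1 : b < 1) :
    (∮ v in C(0, b), f v / (v - w)) - (∮ v in C(0, a), f v / (v - w)) = 2 * Real.pi * I * f w := by
  have hwA : w ∈ Ann r := ⟨ha.trans haw, hwb.trans hb1⟩
  have h1 : DifferentiableOn ℂ (dslope f w) (Ann r) :=
    (Complex.differentiableOn_dslope ((isOpen_Ann r).mem_nhds hwA)).2 hf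
  have h2 := circ_eq hr h1 ha (haw.trans (hwb.trans hb1)) ((ha.trans haw).trans hwb) hb1
  have ha0 : 0 < a := lt_of_le_of_lt hr ha
  have hb0 : 0 < b := (ha0.trans haw).trans hwb
  have gen : ∀ c : ℝ, r < c → c < 1 → c ≠ ‖w‖ → 0 < c → (∮ v in C(0, c), dslope f w v) =
      (∮ v in C(0, c), f v / (v - w)) - f w * ∮ v in C(0, c), (v - w)⁻¹ := by
    intro c hc hc1 hcw hc0
    have hne : ∀ v ∈ sphere (0 : ℂ) c, v - w ≠ 0 := by
      intro v hv h0
      have : v = w := sub_eq_zero.1 h0
      subst this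
      apply hcw
      symm
      simpa using hv
    have i1 : CircleIntegrable (fun v => f v / (v - w)) 0 c := by
      apply ContinuousOn.circleIntegrable hc0.le
      exact (hf.continuousOn.mono (sphere_subset_Ann hc hc1)).div (by fun_prop) hne
    have i2 : CircleIntegrable (fun v => f w * (v - w)⁻¹) 0 c := by
      apply ContinuousOn.circleIntegrable hc0.le
      exact continuousOn_const.mul (ContinuousOn.inv₀ (by fun_prop) hne)
    rw [← circleIntegral.integral_const_mul, ← circleIntegral.integral_sub i1 i2]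
    apply circleIntegral.integral_congr hc0.le
    intro v hv
    simp only
    rw [dslope_of_ne _ (fun h => hne v hv (sub_eq_zero.2 h)), slope_def_field]
    have := hne v hv
    field_simp
  rw [gen a ha (haw.trans (hwb.trans hb1)) haw.ne ha0, gen b ((ha.trans haw).trans hwb) hb1 hwb.ne' hb0]
    at h2
  have h3 : (∮ v in C(0, b), (v - w)⁻¹) = 2 * Real.pi * I :=
    circleIntegral.integral_sub_inv_of_mem_ball (by simpa using hwb)
  have h4 : (∮ v in C(0, a), (v - w)⁻¹) = 0 := by
    apply Complex.circleIntegral_eq_zero_of_differentiable_on_off_countable ha0.le countable_empty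
    · apply ContinuousOn.inv₀ (by fun_prop)
      intro v hv h0
      have : v = w := sub_eq_zero.1 h0
      subst this
      simp only [mem_closedBall, dist_zero_right] at hv
      linarith
    · rintro v ⟨hv, -⟩
      have : v - w ≠ 0 := by
        intro h0
        have : v = w := sub_eq_zero.1 h0
        subst this
        simp only [mem_ball, dist_zero_right] at hv
        linarith
      exact (differentiableAt_id.sub_const w).inv this
  rw [h3, h4] at h2
  linear_combination -h2

/-- **Schwarz-Villat**: boundary values of `i w Q(w)` exist, are real and nonnegative. -/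
theorem villat {r : ℝ} (hr0 : 0 ≤ r) (hr1 : r < 1) {Q : ℂ → ℂ} (h : WBd r Q) {ξ : ℂ} (hξ : ‖ξ‖ = 1) :
    ∃ ρ : ℝ, 0 ≤ ρ ∧ Tendsto (fun w => I * w * Q w) (𝓝[ball 0 1] ξ) (𝓝 (ρ : ℂ)) := by
  obtain ⟨r1, hrr1, hr11⟩ := exists_between hr1
  have hr10 : 0 < r1 := lt_of_le_of_lt hr0 hrr1
  set Θ : ℂ → ℂ := fun u => ∮ v in C(0, r1), Q v / (1 - u * v) with hΘ
  have hΘc : ∀ u : ℂ, ‖u‖ * r1 < 1 → ContinuousAt Θ u := fun u hu =>
    cont_Theta hr10 (h.holo.continuousOn.mono (sphere_subset_Ann hrr1 hr11)) hu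
  have key : ∀ w : ℂ, r1 < ‖w‖ → ‖w‖ < 1 →
      I * w * Q w = (conj (Θ (conj w)) - Θ 0 + Θ w⁻¹) / (2 * Real.pi) ∧ (Θ 0).im = 0 ∧
        0 ≤ 2 * (Θ (conj w)).re - (Θ 0).re := by
    intro w hw1 hw2
    have hw0 : w ≠ 0 := by
      intro h0; rw [h0, norm_zero] at hw1; linarith
    have hwp : 0 < ‖w‖ := norm_pos_iff.2 hw0
    obtain ⟨ρ, hρ1, hρ2⟩ := exists_between hw2
    have hS : 1 < ‖w‖⁻¹ := (one_lt_inv₀ hwp).2 hw2
    have hrw : r ≤ ‖w‖ := (hrr1.trans hw1).le
    have hrρ : r < ρ := lt_of_le_of_lt hrw hρ1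
    set ζA : ℂ → ℂ := fun v => v / (v - w) with hζA
    set ζB : ℂ → ℂ := fun v => 1 / (1 - conj w * v) with hζB
    have neA : ∀ v : ℂ, ‖w‖ < ‖v‖ → v - w ≠ 0 := by
      intro v hv h0
      rw [sub_eq_zero.1 h0] at hv
      exact lt_irrefl _ hv
    have neB : ∀ v : ℂ, ‖v‖ < ‖w‖⁻¹ → 1 - conj w * v ≠ 0 := by
      intro v hv h0
      have h1 : conj w * v = 1 := (sub_eq_zero.1 h0).symm
      have h2 : ‖w‖ * ‖v‖ = 1 := by
        rw [← Complex.norm_conj w, ← norm_mul, h1, norm_one]
      have h3 : ‖w‖ * ‖v‖ < ‖w‖ * ‖w‖⁻¹ := mul_lt_mul_of_pos_left hv hwp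
      rw [mul_inv_cancel₀ hwp.ne'] at h3
      linarith
    set V : Set ℂ := {v | ‖w‖ < ‖v‖ ∧ ‖v‖ < ‖w‖⁻¹} with hV
    have dA : DifferentiableOn ℂ ζA V := by
      apply DifferentiableOn.div differentiableOn_id (by fun_prop)
      exact fun v hv => neA v hv.1
    have dB : DifferentiableOn ℂ ζB V := by
      apply DifferentiableOn.div (differentiableOn_const _) (by fun_prop)
      exact fun v hv => neB v hv.2
    -- conjugation on the circle
    have hconj : ∀ v : ℂ, ‖v‖ = 1 → ζB v = conj (ζA v) := by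
      intro v hv
      have hv0 : v ≠ 0 := by intro h0; rw [h0, norm_zero] at hv; norm_num at hv
      have hvv : conj v = v⁻¹ := by
        rw [inv_def, normSq_eq_norm_sq, hv]; simp
      simp only [hζA, hζB, map_div₀, map_sub, hvv]
      rw [div_eq_div_iff, one_mul]
      · field_simp
      · exact neB v (by rw [hv]; exact hS)
      · intro h0
        have h1 : v⁻¹ = conj w := sub_eq_zero.1 h0
        have h2 : ‖v⁻¹‖ = ‖w‖ := by rw [h1, Complex.norm_conj]
        rw [norm_inv, hv] at h2
        norm_num at h2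
        linarith
    set A : ℂ := ∮ v in C(0, ρ), Q v * ζA v with hA
    set B : ℂ := ∮ v in C(0, ρ), Q v * ζB v with hB
    set C : ℂ := ∮ v in C(0, ρ), Q v with hC
    have hρV : sphere (0 : ℂ) ρ ⊆ V := by
      intro v hv
      have : ‖v‖ = ρ := by simpa using hv
      exact ⟨by rw [this]; exact hρ1, by rw [this]; exact hρ2.trans hS⟩
    have hρ0 : 0 < ρ := hwp.trans hρ1
    have cQ : ContinuousOn Q (sphere 0 ρ) := h.holo.continuousOn.mono (sphere_subset_Ann hrρ hρ2)
    have iA : CircleIntegrable (fun v => Q v * ζA v) 0 ρ :=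
      (cQ.mul (dA.continuousOn.mono hρV)).circleIntegrable hρ0.le
    have iB : CircleIntegrable (fun v => Q v * ζB v) 0 ρ :=
      (cQ.mul (dB.continuousOn.mono hρV)).circleIntegrable hρ0.le
    have iC : CircleIntegrable Q 0 ρ := cQ.circleIntegrable hρ0.le
    -- the three test functions
    have h1 := bd_fun hr0 h hrw hw2 hS (ζ := fun v => I * (ζA v - ζB v))
      ((differentiableOn_const I).mul (dA.sub dB)) (fun v hv => by
        simp only [hconj v hv, mul_im, sub_re, sub_im, conj_re, conj_im, I_re, I_im]; ring) hρ1 hρ2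
    have h2 := bd_fun hr0 h hrw hw2 hS (ζ := fun v => ζA v + ζB v - 1)
      ((dA.add dB).sub (differentiableOn_const 1)) (fun v hv => by
        simp only [hconj v hv, sub_im, add_im, conj_im, one_im]; ring) hρ1 hρ2
    have h3 := bd_fun hr0 h hrw hw2 hS (ζ := fun _ => 1)
      (differentiableOn_const 1) (fun v hv => by simp) hρ1 hρ2
    have e1 : (∮ v in C(0, ρ), Q v * (I * (ζA v - ζB v))) = I * (A - B) := by
      have : ∀ v, Q v * (I * (ζA v - ζB v)) = I * (Q v * ζA v - Q v * ζB v) := fun v => by ring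
      simp_rw [this]
      rw [circleIntegral.integral_const_mul, circleIntegral.integral_sub iA iB]
    have e2 : (∮ v in C(0, ρ), Q v * (ζA v + ζB v - 1)) = A + B - C := by
      have : ∀ v, Q v * (ζA v + ζB v - 1) = (Q v * ζA v + Q v * ζB v) - Q v := fun v => by ring
      simp_rw [this]
      have iAB : CircleIntegrable (fun v => Q v * ζA v + Q v * ζB v) 0 ρ := iA.add iB
      rw [circleIntegral.integral_sub iAB iC, circleIntegral.integral_add iA iB]
    have e3 : (∮ v in C(0, ρ), Q v * 1) = C := by simp_rw [mul_one]; rfl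
    rw [e1] at h1
    rw [e2] at h2
    rw [e3] at h3
    -- positivity
    have hpos : 0 ≤ (A + B - C).re := by
      have hpc : ∀ v : ℂ, ‖v‖ = 1 → 0 < (ζA v + ζB v - 1).re := by
        intro v hv
        have hvw := neA v (by rw [hv]; exact hw2)
        have h5 : ‖ζA v - 1‖ < ‖ζA v‖ := by
          have : ζA v - 1 = w / (v - w) := by
            simp only [hζA]; field_simp; ring
          rw [this]
          simp only [hζA, norm_div, hv]
          exact div_lt_div_of_pos_right hw2 (norm_pos_iff.2 hvw)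
        have h6 : normSq (ζA v - 1) < normSq (ζA v) := by
          rw [normSq_eq_norm_sq, normSq_eq_norm_sq]
          exact pow_lt_pow_left₀ h5 (norm_nonneg _) two_ne_zero
        simp only [normSq_apply, sub_re, sub_im, one_re, one_im] at h6
        simp only [hconj v hv, sub_re, add_re, conj_re, one_re]
        nlinarith
      have hcont : ContinuousOn (fun v => (ζA v + ζB v - 1).re) V :=
        Complex.continuous_re.comp_continuousOn
          ((dA.continuousOn.add dB.continuousOn).sub continuousOn_const)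
      have hVo : IsOpen V := (isOpen_lt continuous_const continuous_norm).inter
        (isOpen_lt continuous_norm continuous_const)
      have hV' : IsOpen (V ∩ (fun v => (ζA v + ζB v - 1).re) ⁻¹' (Ioi 0)) :=
        hcont.isOpen_inter_preimage hVo isOpen_Ioi
      obtain ⟨s', S', hs'0, hs'1, hS'1, hVV⟩ := thin hV' (by
        intro v hv
        have hv1 : ‖v‖ = 1 := by simpa using hv
        exact ⟨⟨by rw [hv1]; exact hw2, by rw [hv1]; exact hS⟩, hpc v hv1⟩) ‖w‖ hw2
      obtain ⟨ρ', hρ'1, hρ'2⟩ := exists_between hs'1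
      have h6 := bd_fun hr0 h (hrw.trans hs'0) hs'1 hS'1 (ζ := fun v => ζA v + ζB v - 1)
        (((dA.add dB).sub (differentiableOn_const 1)).mono fun v hv => (hVV v hv.1 hv.2).1)
        (fun v hv => by
          simp only [hconj v hv, sub_im, add_im, conj_im, one_im]; ring) hρ'1 hρ'2
      have h7 := h6.2 (fun v h1 h2 => (hVV v h1 h2).2.le)
      have h8 : (∮ v in C(0, ρ'), Q v * (ζA v + ζB v - 1)) = A + B - C := by
        rw [← e2]
        apply circ_eq (norm_nonneg w)
        · refine (h.holo.mono fun v hv => ⟨lt_of_le_of_lt hrw hv.1, hv.2⟩).mul ?_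
          exact ((dA.add dB).sub (differentiableOn_const 1)).mono
            fun v hv => ⟨hv.1, hv.2.trans hS⟩
        · exact lt_of_le_of_lt hs'0 hρ'1
        · exact hρ'2
        · exact hρ1
        · exact hρ2
      rwa [h8] at h7
    have hCim : C.im = 0 := h3.1
    have hABim : A.im + B.im = 0 := by
      have := h2.1
      simp only [sub_im, add_im, hCim, sub_zero] at this
      exact this
    have hABre : A.re - B.re = 0 := by
      have := h1.1
      simp only [mul_im, I_re, I_im, zero_mul, one_mul, zero_add, sub_re] at this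
      exact this
    have hAB : A = conj B := by
      apply Complex.ext
      · rw [conj_re]; linarith
      · rw [conj_im]; linarith
    have hBΘ : B = Θ (conj w) := by
      have e4 : B = ∮ v in C(0, ρ), Q v / (1 - conj w * v) := by
        rw [hB]
        apply circleIntegral.integral_congr hρ0.le
        intro v _
        simp only [hζB]
        ring
      rw [e4]
      apply circ_eq hr0 _ hrρ hρ2 hrr1 hr11
      apply h.holo.div (by fun_prop)
      exact fun v hv => neB v (hv.2.trans hS)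
    have hCΘ : C = Θ 0 := by
      simp only [hΘ, zero_mul, sub_zero, div_one]
      exact circ_eq hr0 h.holo hrρ hρ2 hrr1 hr11
    have hcau := annulus_cauchy hr0 (f := fun v => v * Q v)
      (differentiableOn_id.mul h.holo) hrr1 hw1 hρ1 hρ2
    have hA' : (∮ v in C(0, ρ), v * Q v / (v - w)) = A := by
      rw [hA]
      apply circleIntegral.integral_congr hρ0.le
      intro v _
      simp only [hζA]
      ring
    have hA'' : (∮ v in C(0, r1), v * Q v / (v - w)) = Θ 0 - Θ w⁻¹ := by
      have cQ1 : ContinuousOn Q (sphere 0 r1) :=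
        h.holo.continuousOn.mono (sphere_subset_Ann hrr1 hr11)
      have ne1 : ∀ v ∈ sphere (0 : ℂ) r1, v - w ≠ 0 ∧ 1 - w⁻¹ * v ≠ 0 := by
        intro v hv
        have hv1 : ‖v‖ = r1 := by simpa using hv
        have h5 : v - w ≠ 0 := by
          intro h0
          rw [sub_eq_zero.1 h0] at hv1
          linarith
        refine ⟨h5, ?_⟩
        intro h0
        apply h5
        have : w⁻¹ * v = 1 := (sub_eq_zero.1 h0).symm
        have h6 : v = w := by
          calc v = w * (w⁻¹ * v) := by rw [← mul_assoc, mul_inv_cancel₀ hw0, one_mul]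
            _ = w := by rw [this, mul_one]
        rw [h6, sub_self]
      have i1 : CircleIntegrable (fun v => Q v / (1 - (0 : ℂ) * v)) 0 r1 := by
        apply ContinuousOn.circleIntegrable hr10.le
        simp only [zero_mul, sub_zero, div_one]
        exact cQ1
      have i2 : CircleIntegrable (fun v => Q v / (1 - w⁻¹ * v)) 0 r1 := by
        apply ContinuousOn.circleIntegrable hr10.le
        exact cQ1.div (by fun_prop) (fun v hv => (ne1 v hv).2)
      simp only [hΘ]
      rw [← circleIntegral.integral_sub i1 i2]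
      apply circleIntegral.integral_congr hr10.le
      intro v hv
      obtain ⟨h5, h6⟩ := ne1 v hv
      simp only [zero_mul, sub_zero, div_one]
      have h7 : w - v ≠ 0 := by
        intro h0; apply h5; linear_combination -h0
      have h8 : 1 - w⁻¹ * v = (w - v) / w := by field_simp
      rw [h8]
      field_simp
      ring
    rw [hA', hA''] at hcau
    refine ⟨?_, by rw [← hCΘ]; exact hCim, ?_⟩
    · rw [← hBΘ, ← hAB]
      rw [eq_div_iff (by simp [Real.pi_ne_zero])]
      linear_combination -hcau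
    · rw [← hBΘ, ← hCΘ]
      simp only [sub_re, add_re] at hpos
      linarith
  -- the limit
  have hξ0 : ξ ≠ 0 := by intro h0; rw [h0, norm_zero] at hξ; norm_num at hξ
  have hξc : ξ⁻¹ = conj ξ := by
    rw [inv_def, normSq_eq_norm_sq, hξ]; simp
  have hcξ : ‖conj ξ‖ * r1 < 1 := by rw [Complex.norm_conj, hξ, one_mul]; exact hr11
  have hev : ∀ᶠ w in 𝓝[ball 0 1] ξ, r1 < ‖w‖ ∧ ‖w‖ < 1 := by
    have h1 : ∀ᶠ w in 𝓝[ball 0 1] ξ, r1 < ‖w‖ := by
      apply eventually_nhdsWithin_of_eventually_nhds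
      exact continuousAt_const.eventually_lt continuous_norm.continuousAt (by rw [hξ]; exact hr11)
    filter_upwards [h1, self_mem_nhdsWithin] with w hw1 hw2
    exact ⟨hw1, by simpa using hw2⟩
  have t1 : Tendsto (fun w : ℂ => Θ (conj w)) (𝓝[ball 0 1] ξ) (𝓝 (Θ (conj ξ))) := by
    have := (hΘc (conj ξ) hcξ).tendsto.comp (Complex.continuous_conj.tendsto ξ)
    exact this.mono_left nhdsWithin_le_nhds
  have t2 : Tendsto (fun w : ℂ => Θ w⁻¹) (𝓝[ball 0 1] ξ) (𝓝 (Θ (conj ξ))) := by
    have h1 : Tendsto (fun w : ℂ => w⁻¹) (𝓝 ξ) (𝓝 (conj ξ)) := by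
      rw [← hξc]; exact tendsto_inv₀ hξ0
    exact ((hΘc (conj ξ) hcξ).tendsto.comp h1).mono_left nhdsWithin_le_nhds
  have : (𝓝[ball (0 : ℂ) 1] ξ).NeBot := by
    apply mem_closure_iff_nhdsWithin_neBot.1
    rw [closure_ball _ one_ne_zero]
    simp [hξ]
  have hΘ0 : (Θ 0).im = 0 := by
    obtain ⟨w, hw⟩ := hev.exists
    exact (key w hw.1 hw.2).2.1
  refine ⟨(2 * (Θ (conj ξ)).re - (Θ 0).re) / (2 * Real.pi), ?_, ?_⟩
  · apply div_nonneg _ (by positivity)
    have t3 : Tendsto (fun w : ℂ => 2 * (Θ (conj w)).re - (Θ 0).re) (𝓝[ball 0 1] ξ)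
        (𝓝 (2 * (Θ (conj ξ)).re - (Θ 0).re)) :=
      (((Complex.continuous_re.tendsto _).comp t1).const_mul 2).sub_const _
    exact ge_of_tendsto t3 (hev.mono fun w hw => (key w hw.1 hw.2).2.2)
  · have t4 : Tendsto (fun w : ℂ => (conj (Θ (conj w)) - Θ 0 + Θ w⁻¹) / (2 * Real.pi))
        (𝓝[ball 0 1] ξ) (𝓝 ((conj (Θ (conj ξ)) - Θ 0 + Θ (conj ξ)) / (2 * Real.pi))) :=
      ((((Complex.continuous_conj.tendsto _).comp t1).sub_const _).add t2).div_const _
    have e : (conj (Θ (conj ξ)) - Θ 0 + Θ (conj ξ)) / (2 * Real.pi) =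
        (((2 * (Θ (conj ξ)).re - (Θ 0).re) / (2 * Real.pi) : ℝ) : ℂ) := by
      have h1 : (Θ 0) = ((Θ 0).re : ℂ) := by
        apply Complex.ext <;> simp [hΘ0]
      have h2 : Θ (conj ξ) + conj (Θ (conj ξ)) = ((2 * (Θ (conj ξ)).re : ℝ) : ℂ) := add_conj _
      push_cast at h2 ⊢
      rw [← h1, ← h2]
      ring
    rw [e] at t4
    refine t4.congr' ?_
    filter_upwards [hev] with w hw
    exact (key w hw.1 hw.2).1.symm

end Crest.Agent.R165.U3x719
end

-- ▼ part R165/U3Refl_719
section

/-!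
Row 165, block U3 (helper719), part 1: Poisson integrals, maximum principle, Schwarz reflection for
harmonic functions vanishing on the flat side of a half disc, in the form needed for
`H = Im ∫ f²`.
-/

set_option autoImplicit false

open Complex Set Metric Filter Topology MeasureTheory InnerProductSpace Real
open scoped ComplexConjugate

namespace Crest.Agent.R165.U3x719

/-- the real-linear form `v ↦ Im (a v)` -/
noncomputable def ILin (a : ℂ) : ℂ →L[ℝ] ℝ := Complex.imCLM.comp (ContinuousLinearMap.mul ℝ ℂ a)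

@[simp] theorem ILin_apply (a v : ℂ) : ILin a v = (a * v).im := rfl
























end Crest.Agent.R165.U3x719
end

-- ▼ part R165/U3Disc_719

/-!
Row 165, block U3 (helper719), part 3: uniqueness on the unit disc (residue theorem).
-/

set_option autoImplicit false

open Complex Set Metric Filter Topology MeasureTheory InnerProductSpace Real
open scoped ComplexConjugate

namespace Crest.Agent.R165.U3x719

variable {n : ℕ}

theorem wX_ne {x : Fin n → ℂ} (hx : Function.Injective x) (j : Fin n) : wX x j ≠ 0 := by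
  unfold wX
  rw [Finset.prod_ne_zero_iff]
  intro i hi
  rw [Finset.mem_erase] at hi
  exact sub_ne_zero.2 (fun h => hi.1 (hx h))

theorem PX_ne {x : Fin n → ℂ} {z : ℂ} (hz : ∀ j, z ≠ x j) : PX x z ≠ 0 := by
  unfold PX
  rw [Finset.prod_ne_zero_iff]
  intro i _
  exact sub_ne_zero.2 (hz i).symm

theorem PX_diff (x : Fin n → ℂ) : Differentiable ℂ (PX x) := by
  unfold PX
  intro z
  fun_prop

theorem prod_neg_eq (s : Finset (Fin n)) (a b : Fin n → ℂ) :
    ∏ i ∈ s, (a i - b i) = (-1) ^ s.card * ∏ i ∈ s, (b i - a i) := by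
  rw [← Finset.prod_const, ← Finset.prod_mul_distrib]
  exact Finset.prod_congr rfl fun i _ => by ring

/-- partial fractions -/
theorem inv_PX {x : Fin n → ℂ} (hx : Function.Injective x) (hn : 0 < n) {z : ℂ}
    (hz : ∀ j, z ≠ x j) : (PX x z)⁻¹ = ∑ j, ((x j - z) * wX x j)⁻¹ := by
  classical
  have hne : (Finset.univ : Finset (Fin n)).Nonempty := ⟨⟨0, hn⟩, Finset.mem_univ _⟩
  have h1 := Lagrange.eval_interpolate_not_at_node (s := Finset.univ) (v := x) (1 : Fin n → ℂ)
    (x := z) (fun i _ => hz i)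
  have h2 : Lagrange.interpolate Finset.univ x (1 : Fin n → ℂ) = 1 :=
    Lagrange.interpolate_one hx.injOn hne
  rw [h2, Polynomial.eval_one, Lagrange.eval_nodal] at h1
  have h3 : ∑ i, Lagrange.nodalWeight Finset.univ x i * (z - x i)⁻¹ * (1 : Fin n → ℂ) i =
      (∏ i, (z - x i))⁻¹ := eq_inv_of_mul_eq_one_right h1.symm
  have e1 : (PX x z)⁻¹ = (-1) ^ n * (∏ i, (z - x i))⁻¹ := by
    unfold PX
    rw [prod_neg_eq Finset.univ x (fun _ => z), Finset.card_univ, Fintype.card_fin,
      mul_inv, ← inv_pow, inv_neg, inv_one]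
  rw [e1, ← h3, Finset.mul_sum]
  refine Finset.sum_congr rfl fun j _ => ?_
  have hzj : z - x j ≠ 0 := sub_ne_zero.2 (hz j)
  have hw := wX_ne hx j
  have e2 : Lagrange.nodalWeight Finset.univ x j = (-1) ^ (n - 1) * (wX x j)⁻¹ := by
    unfold Lagrange.nodalWeight wX
    rw [Finset.prod_inv_distrib, prod_neg_eq (Finset.univ.erase j) (fun _ => x j) x,
      Finset.card_erase_of_mem (Finset.mem_univ _), Finset.card_univ, Fintype.card_fin,
      mul_inv, ← inv_pow, inv_neg, inv_one]
  rw [e2]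
  have e3 : (-1 : ℂ) ^ n * (-1) ^ (n - 1) = -1 := by
    rw [← pow_add]
    exact Odd.neg_one_pow ⟨n - 1, by omega⟩
  have e4 : (x j - z) ≠ 0 := sub_ne_zero.2 (hz j).symm
  simp only [Pi.one_apply, mul_one]
  rw [← mul_assoc, ← mul_assoc, e3, mul_inv, show (x j - z)⁻¹ = -(z - x j)⁻¹ by
    rw [← inv_neg, neg_sub]]
  ring

/-- the circle integral of `f / P`, `f` holomorphic -/
theorem circle_PX {x : Fin n → ℂ} (hx : Function.Injective x) (hxd : ∀ j, ‖x j‖ < 1)
    {f : ℂ → ℂ} (hf : DiffContOnCl ℂ f (ball 0 1)) :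
    (∮ z in C(0, 1), f z / PX x z) = - (2 * π * I) * ∑ j, f (x j) / wX x j := by
  rcases Nat.eq_zero_or_pos n with rfl | hn
  · simp only [PX, Finset.univ_eq_empty, Finset.prod_empty, div_one, Finset.sum_empty, mul_zero]
    exact Complex.circleIntegral_eq_zero_of_differentiable_on_off_countable zero_le_one
      countable_empty (by
        have := hf.continuousOn
        rwa [closure_ball _ one_ne_zero] at this)
      (fun z hz => hf.differentiableOn.differentiableAt (isOpen_ball.mem_nhds hz.1))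
  have hsph : ∀ z ∈ sphere (0 : ℂ) 1, ∀ j, z ≠ x j := by
    rintro z hz j rfl
    have := hxd j
    simp only [mem_sphere_zero_iff_norm] at hz
    linarith
  have e1 : (∮ z in C(0, 1), f z / PX x z) =
      ∮ z in C(0, 1), ∑ j, -(wX x j)⁻¹ • ((z - x j)⁻¹ • f z) := by
    apply circleIntegral.integral_congr zero_le_one
    intro z hz
    simp only
    rw [div_eq_mul_inv, inv_PX hx hn (hsph z hz), Finset.mul_sum]
    refine Finset.sum_congr rfl fun j _ => ?_
    rw [mul_inv, show (x j - z)⁻¹ = -(z - x j)⁻¹ by rw [← inv_neg, neg_sub]]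
    simp only [smul_eq_mul]
    ring
  have hfc : ContinuousOn f (sphere 0 1) := by
    have := hf.continuousOn
    rw [closure_ball _ one_ne_zero] at this
    exact this.mono sphere_subset_closedBall
  have hint : ∀ j, CircleIntegrable (fun z => (z - x j)⁻¹ • f z) 0 1 := by
    intro j
    apply ContinuousOn.circleIntegrable zero_le_one
    have h1 : ContinuousOn (fun z : ℂ => (z - x j)⁻¹) (sphere 0 1) := by
      apply ContinuousOn.inv₀ (by fun_prop)
      exact fun z hz => sub_ne_zero.2 (hsph z hz j)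
    exact h1.mul hfc
  rw [e1, circleIntegral.integral_fun_sum]
  · rw [Finset.mul_sum]
    refine Finset.sum_congr rfl fun j _ => ?_
    rw [circleIntegral.integral_smul, hf.circleIntegral_sub_inv_smul (by simpa using hxd j)]
    simp only [smul_eq_mul]
    field_simp
  · intro j _
    exact (hint j).const_fun_smul

/-- **uniqueness on the disc** -/
theorem uniq_disc {x : Fin n → ℂ} (hx : Function.Injective x) (hxd : ∀ j, ‖x j‖ < 1)
    {d : ℂ → ℂ} (hd : DifferentiableOn ℂ d (ball 0 1))
    (hbd : ∀ ξ : ℂ, ‖ξ‖ = 1 → ∃ b : ℂ, Tendsto d (𝓝[ball 0 1] ξ) (𝓝 b) ∧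
      ∃ ρ : ℝ, 0 ≤ ρ ∧ I * ξ * (b ^ 2 / PX x ξ) = ρ)
    (hbr : ∀ j, ∃ k : ℝ, 0 ≤ k ∧ d (x j) ^ 2 / wX x j = - I * k) :
    ∀ z ∈ ball (0 : ℂ) 1, d z = 0 := by
  have hcl : closure (ball (0 : ℂ) 1) = closedBall 0 1 := closure_ball _ one_ne_zero
  have hlim : ∀ z ∈ closedBall (0 : ℂ) 1, ∃ b, Tendsto d (𝓝[ball 0 1] z) (𝓝 b) := by
    intro z hz
    have hz1 : ‖z‖ ≤ 1 := by simpa using hz
    rcases hz1.lt_or_eq with h | h
    · have hzb : z ∈ ball (0 : ℂ) 1 := by simpa using h
      exact ⟨d z, hd.continuousOn z hzb⟩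
    · obtain ⟨b, hb, _⟩ := hbd z h
      exact ⟨b, hb⟩
  set e : ℂ → ℂ := extendFrom (ball 0 1) d with he
  have hec : ContinuousOn e (closedBall 0 1) :=
    continuousOn_extendFrom (by rw [hcl]) hlim
  have hee : ∀ z ∈ ball (0 : ℂ) 1, e z = d z := by
    intro z hz
    exact extendFrom_extends (f := d) (A := ball 0 1) hd.continuousOn z hz
  have hes : ∀ ξ : ℂ, ‖ξ‖ = 1 → ∃ ρ : ℝ, 0 ≤ ρ ∧ I * ξ * (e ξ ^ 2 / PX x ξ) = ρ := by
    intro ξ hξ
    obtain ⟨b, hb, hρ⟩ := hbd ξ hξ
    have : e ξ = b := extendFrom_eq (by rw [hcl]; simp [hξ]) hb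
    rwa [this]
  have hed : DifferentiableOn ℂ e (ball 0 1) := hd.congr hee
  have hedc : DiffContOnCl ℂ e (ball 0 1) := ⟨hed, by rwa [hcl]⟩
  have hedc2 : DiffContOnCl ℂ (fun z => e z ^ 2) (ball 0 1) :=
    ⟨hed.pow 2, by rw [hcl]; exact hec.pow 2⟩
  have hsph : ∀ z ∈ sphere (0 : ℂ) 1, ∀ j, z ≠ x j := by
    rintro z hz j rfl
    have := hxd j
    simp only [mem_sphere_zero_iff_norm] at hz
    linarith
  -- the circle integral
  have h1 := circle_PX hx hxd hedc2
  choose k hk0 hk using hbr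
  have h2 : ∑ j, e (x j) ^ 2 / wX x j = - I * ((∑ j, k j : ℝ) : ℂ) := by
    push_cast
    rw [Finset.mul_sum]
    refine Finset.sum_congr rfl fun j _ => ?_
    rw [hee _ (by simpa using hxd j), hk]
  rw [h2] at h1
  have h3 : -(2 * π * I) * (- I * ((∑ j, k j : ℝ) : ℂ)) = ((-(2 * π * ∑ j, k j) : ℝ) : ℂ) := by
    push_cast
    linear_combination (2 * π * ((∑ j, (k j : ℂ)))) * I_mul_I
  rw [h3] at h1
  -- as a real integral
  set ρ : ℝ → ℝ := fun θ => (I * circleMap 0 1 θ *
    (e (circleMap 0 1 θ) ^ 2 / PX x (circleMap 0 1 θ))).re with hρ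
  have hρ' : ∀ θ, I * circleMap 0 1 θ * (e (circleMap 0 1 θ) ^ 2 / PX x (circleMap 0 1 θ)) =
      (ρ θ : ℂ) ∧ 0 ≤ ρ θ := by
    intro θ
    obtain ⟨r, hr, hr'⟩ := hes (circleMap 0 1 θ) (by simp)
    have : ρ θ = r := by rw [hρ]; simp only [hr', Complex.ofReal_re]
    exact ⟨by rw [this, hr'], by rw [this]; exact hr⟩
  have h4 : (∮ z in C(0, 1), e z ^ 2 / PX x z) = ((∫ θ in 0..2 * π, ρ θ : ℝ) : ℂ) := by
    rw [circleIntegral, ← intervalIntegral.integral_ofReal]
    apply intervalIntegral.integral_congr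
    intro θ _
    simp only
    rw [← (hρ' θ).1, deriv_circleMap]
    simp only [smul_eq_mul]
    ring
  rw [h4] at h1
  have h5 : (∫ θ in 0..2 * π, ρ θ) = -(2 * π * ∑ j, k j) := by exact_mod_cast h1
  have hρc : Continuous ρ := by
    rw [hρ]
    apply Complex.continuous_re.comp
    have c1 : Continuous fun θ : ℝ => circleMap (0 : ℂ) 1 θ := continuous_circleMap 0 1
    have c2 : Continuous fun θ : ℝ => e (circleMap (0 : ℂ) 1 θ) :=
      hec.comp_continuous c1 (fun θ => by simp)
    have c3 : Continuous fun θ : ℝ => PX x (circleMap (0 : ℂ) 1 θ) :=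
      (PX_diff x).continuous.comp c1
    exact (continuous_const.mul c1).mul ((c2.pow 2).div c3
      (fun θ => PX_ne (hsph _ (by simp))))
  have hπ : (0 : ℝ) < 2 * π := by positivity
  have h6 : (∫ θ in 0..2 * π, ρ θ) ≤ 0 := by
    rw [h5]
    have : 0 ≤ ∑ j, k j := Finset.sum_nonneg fun j _ => hk0 j
    have : 0 ≤ 2 * π * ∑ j, k j := by positivity
    linarith
  have h7 : ∀ θ ∈ Icc (0 : ℝ) (2 * π), ρ θ = 0 := by
    by_contra hcon
    push Not at hcon
    obtain ⟨θ, hθ, hne⟩ := hcon
    have : 0 < ∫ θ in 0..2 * π, ρ θ := by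
      apply intervalIntegral.integral_pos hπ hρc.continuousOn (fun θ _ => (hρ' θ).2)
      exact ⟨θ, hθ, lt_of_le_of_ne (hρ' θ).2 (Ne.symm hne)⟩
    linarith
  -- e = 0 on the circle
  have h8 : ∀ z ∈ sphere (0 : ℂ) 1, e z = 0 := by
    intro z hz
    have hz1 : ‖z‖ = 1 := by simpa using hz
    have hz' : z ∈ circleMap 0 1 '' Ioc 0 (2 * π) := by
      rw [image_circleMap_Ioc]
      simpa using hz1
    obtain ⟨θ, hθ, rfl⟩ := hz'
    have h9 := (hρ' θ).1
    rw [h7 θ (Ioc_subset_Icc_self hθ)] at h9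
    have hc : circleMap (0 : ℂ) 1 θ ≠ 0 := by
      intro h
      rw [h] at hz1
      simp at hz1
    have hP := PX_ne (hsph _ hz)
    have h10 : e (circleMap 0 1 θ) ^ 2 / PX x (circleMap 0 1 θ) = 0 := by
      have h11 : I * circleMap 0 1 θ ≠ 0 := mul_ne_zero I_ne_zero hc
      simpa [h11] using h9
    have h12 : e (circleMap 0 1 θ) ^ 2 = 0 := by
      rcases div_eq_zero_iff.1 h10 with h | h
      · exact h
      · exact absurd h hP
    exact pow_eq_zero_iff (two_ne_zero) |>.1 h12
  intro z hz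
  rw [← hee z hz]
  have h9 : ‖e z‖ ≤ 0 := by
    apply Complex.norm_le_of_forall_mem_frontier_norm_le (U := ball (0 : ℂ) 1) isBounded_ball hedc
    · intro w hw
      rw [frontier_ball _ one_ne_zero] at hw
      rw [h8 w hw, norm_zero]
    · rw [hcl]
      exact ball_subset_closedBall hz
  exact norm_le_zero_iff.1 h9

end Crest.Agent.R165.U3x719
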